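import Mathlib
import Crest.Agent.R144.Ham1_560
import Mathlib.MeasureTheory.Measure.CharacteristicFunction.Basic
import Crest.Agent.R144.Ham5_560

-- ▼ part R144/Lw1_425
section

/-!
R144 (S0197), helper425.  Lw1: the one-dimensional equality case of Prekopa–Leindler, in terms of
distribution functions.

`F0, F1, G` distribution functions, differentiable with positive derivative wherever they take a
value in `(0,1)`.  If `√(F0 x F1 y) ≤ G ((x+y)/2)` and `√((1-F0 x)(1-F1 y)) ≤ 1 - G ((x+y)/2)` for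
all `x y`, then `F1 (x + c) = F0 x` for some constant `c` and all `x`.
-/

set_option autoImplicit false

open Set Filter Topology

noncomputable section

namespace Crest.Agent.R144.Lw425

/-- A regular distribution function. -/
structure Cdf (F : ℝ → ℝ) : Prop where
  mono : Monotone F
  cont : Continuous F
  nonneg : ∀ x, 0 ≤ F x
  le_one : ∀ x, F x ≤ 1
  lo : ∃ a, F a = 0
  hi : ∃ b, F b = 1
  der : ∀ y, 0 < F y → F y < 1 → ∃ D, 0 < D ∧ HasDerivAt F D y

namespace Cdf

variable {F : ℝ → ℝ}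

/-- A value in `(0,1)` is taken at most once. -/
theorem inj (h : Cdf F) {x y : ℝ} (hx0 : 0 < F x) (hx1 : F x < 1) (hxy : F x = F y) : x = y := by
  wlog hlt : x < y generalizing x y
  · rcases lt_trichotomy x y with h1 | h1 | h1
    · exact absurd h1 hlt
    · exact h1
    · exact (this (by rw [← hxy]; exact hx0) (by rw [← hxy]; exact hx1) hxy.symm h1).symm
  exfalso
  have hc : ∀ z ∈ Icc x y, F z = F x := fun z hz =>
    le_antisymm (by rw [hxy]; exact h.mono hz.2) (h.mono hz.1)
  set m := (x + y) / 2 with hm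
  have hmI : m ∈ Ioo x y := by constructor <;> (rw [hm]; linarith)
  have hFm : F m = F x := hc m ⟨hmI.1.le, hmI.2.le⟩
  obtain ⟨D, hD, hD'⟩ := h.der m (by rw [hFm]; exact hx0) (by rw [hFm]; exact hx1)
  have h1 : F =ᶠ[𝓝 m] fun _ => F x := by
    filter_upwards [Ioo_mem_nhds hmI.1 hmI.2] with z hz
    exact hc z ⟨hz.1.le, hz.2.le⟩
  have h2 : HasDerivAt F 0 m := (hasDerivAt_const m (F x)).congr_of_eventuallyEq h1
  exact hD.ne' (hD'.unique h2)

theorem lt_of_lt (h : Cdf F) {x y : ℝ} (hx0 : 0 < F x) (hx1 : F x < 1) (hxy : x < y) :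
    F x < F y :=
  lt_of_le_of_ne (h.mono hxy.le) fun e => hxy.ne (h.inj hx0 hx1 e)

theorem lt_of_lt' (h : Cdf F) {x y : ℝ} (hy0 : 0 < F y) (hy1 : F y < 1) (hxy : x < y) :
    F x < F y :=
  lt_of_le_of_ne (h.mono hxy.le) fun e => hxy.ne (h.inj hy0 hy1 e.symm).symm

theorem exists_eq (h : Cdf F) {t : ℝ} (ht : t ∈ Ioo (0:ℝ) 1) : ∃ x, F x = t := by
  obtain ⟨a, ha⟩ := h.lo
  obtain ⟨b, hb⟩ := h.hi
  have : t ∈ range F := by
    refine mem_range_of_exists_le_of_exists_ge h.cont ⟨a, by rw [ha]; exact ht.1.le⟩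
      ⟨b, by rw [hb]; exact ht.2.le⟩
  exact this

/-- The quantile function. -/
def Q (F : ℝ → ℝ) (t : ℝ) : ℝ := Function.invFun F t

theorem Q_spec (h : Cdf F) {t : ℝ} (ht : t ∈ Ioo (0:ℝ) 1) : F (Q F t) = t :=
  Function.invFun_eq (h.exists_eq ht)

theorem Q_eq (h : Cdf F) {x : ℝ} (hx0 : 0 < F x) (hx1 : F x < 1) : Q F (F x) = x := by
  have h1 := h.Q_spec (t := F x) ⟨hx0, hx1⟩
  exact (h.inj hx0 hx1 h1.symm).symm

theorem Q_cont (h : Cdf F) {t : ℝ} (ht : t ∈ Ioo (0:ℝ) 1) : ContinuousAt (Q F) t := by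
  rw [Metric.continuousAt_iff]
  intro ε hε
  set q := Q F t with hq
  have hFq : F q = t := h.Q_spec ht
  have h0 : 0 < F q := by rw [hFq]; exact ht.1
  have h1 : F q < 1 := by rw [hFq]; exact ht.2
  have hl : F (q - ε / 2) < t := by
    rw [← hFq]; exact h.lt_of_lt' h0 h1 (by linarith)
  have hr : t < F (q + ε / 2) := by
    rw [← hFq]; exact h.lt_of_lt h0 h1 (by linarith)
  set l := max 0 (F (q - ε / 2)) with hl'
  set r := min 1 (F (q + ε / 2)) with hr'
  have hlt : l < t := max_lt ht.1 hl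
  have htr : t < r := lt_min ht.2 hr
  have hev : ∀ᶠ s in 𝓝 t, s ∈ Ioo l r := Ioo_mem_nhds hlt htr
  obtain ⟨δ, hδ, hball⟩ := Metric.eventually_nhds_iff.mp hev
  refine ⟨δ, hδ, fun {s} hs => ?_⟩
  have hs' := hball hs
  have hs01 : s ∈ Ioo (0:ℝ) 1 :=
    ⟨lt_of_le_of_lt (le_max_left _ _) hs'.1, lt_of_lt_of_le hs'.2 (min_le_left _ _)⟩
  have hFs : F (Q F s) = s := h.Q_spec hs01
  have h3 : q - ε / 2 < Q F s := by
    by_contra hcon
    push Not at hcon
    have := h.mono hcon
    rw [hFs] at this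
    exact absurd (lt_of_le_of_lt (le_max_right _ _) hs'.1) (not_lt.mpr this)
  have h4 : Q F s < q + ε / 2 := by
    by_contra hcon
    push Not at hcon
    have := h.mono hcon
    rw [hFs] at this
    exact absurd (lt_of_lt_of_le hs'.2 (min_le_right _ _)) (not_lt.mpr this)
  rw [Real.dist_eq, abs_lt]
  constructor <;> linarith

theorem Q_der (h : Cdf F) {t : ℝ} (ht : t ∈ Ioo (0:ℝ) 1) :
    ∃ D, 0 < D ∧ HasDerivAt F D (Q F t) ∧ HasDerivAt (Q F) D⁻¹ t := by
  have hFq : F (Q F t) = t := h.Q_spec ht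
  obtain ⟨D, hD, hD'⟩ := h.der (Q F t) (by rw [hFq]; exact ht.1) (by rw [hFq]; exact ht.2)
  refine ⟨D, hD, hD', HasDerivAt.of_local_left_inverse (h.Q_cont ht) hD' hD.ne' ?_⟩
  filter_upwards [Ioo_mem_nhds ht.1 ht.2] with s hs
  exact h.Q_spec hs

end Cdf

/-- Key step: derivative identity `G' (z) Q' (t) = 1`. -/
theorem der_aux {F G : ℝ → ℝ} (hF : Cdf F) (hG : Cdf G) {t y : ℝ} (ht : t ∈ Ioo (0:ℝ) 1)
    (hz : G ((Cdf.Q F t + y) / 2) = t)
    (hlow : ∀ x, Real.sqrt (F x * t) ≤ G ((x + y) / 2)) :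
    ∃ D D', 0 < D ∧ 0 < D' ∧ HasDerivAt G D ((Cdf.Q F t + y) / 2) ∧
      HasDerivAt (Cdf.Q F) D' t ∧ D * D' = 1 := by
  obtain ⟨D0, hD0, hD0F, hD0Q⟩ := hF.Q_der ht
  obtain ⟨D, hD, hDG⟩ := hG.der _ (by rw [hz]; exact ht.1) (by rw [hz]; exact ht.2)
  refine ⟨D, D0⁻¹, hD, inv_pos.mpr hD0, hDG, hD0Q, ?_⟩
  -- the function `s ↦ G ((Q s + y)/2) - √(s t)` has a local minimum at `t`
  set g : ℝ → ℝ := fun s => G ((Cdf.Q F s + y) / 2) - Real.sqrt (s * t) with hg
  have hloc : IsLocalMin g t := by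
    filter_upwards [Ioo_mem_nhds ht.1 ht.2] with s hs
    have h1 : g t = 0 := by
      simp only [hg]
      rw [hz, Real.sqrt_mul_self ht.1.le, sub_self]
    have h2 := hlow (Cdf.Q F s)
    rw [hF.Q_spec hs] at h2
    rw [h1]
    simp only [hg]
    linarith
  have hd1 : HasDerivAt (fun s => (Cdf.Q F s + y) / 2) (D0⁻¹ / 2) t :=
    (hD0Q.add_const y).div_const 2
  have hd2 : HasDerivAt (fun s => G ((Cdf.Q F s + y) / 2)) (D * (D0⁻¹ / 2)) t :=
    HasDerivAt.comp t hDG hd1
  have hd3 : HasDerivAt (fun s : ℝ => Real.sqrt (s * t)) (t / (2 * Real.sqrt (t * t))) t := by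
    have h5 : HasDerivAt (fun s : ℝ => s * t) t t := by
      simpa using (hasDerivAt_id t).mul_const t
    exact h5.sqrt (mul_pos ht.1 ht.1).ne'
  rw [Real.sqrt_mul_self ht.1.le] at hd3
  have hd4 : HasDerivAt g (D * (D0⁻¹ / 2) - t / (2 * t)) t := hd2.sub hd3
  have h0 := hloc.hasDerivAt_eq_zero hd4
  have : t / (2 * t) = 1 / 2 := by
    have := ht.1.ne'
    field_simp
  rw [this] at h0
  linarith

/-- **Equality case of Prekopa–Leindler in dimension one**, distribution function form. -/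
theorem shift_of_cut {F0 F1 G : ℝ → ℝ} (h0 : Cdf F0) (h1 : Cdf F1) (hG : Cdf G)
    (H1 : ∀ x y, Real.sqrt (F0 x * F1 y) ≤ G ((x + y) / 2))
    (H2 : ∀ x y, Real.sqrt ((1 - F0 x) * (1 - F1 y)) ≤ 1 - G ((x + y) / 2)) :
    ∃ c, ∀ x, F1 (x + c) = F0 x := by
  -- quantiles
  have hz : ∀ t ∈ Ioo (0:ℝ) 1, G ((Cdf.Q F0 t + Cdf.Q F1 t) / 2) = t := by
    intro t ht
    have e1 := H1 (Cdf.Q F0 t) (Cdf.Q F1 t)
    have e2 := H2 (Cdf.Q F0 t) (Cdf.Q F1 t)
    rw [h0.Q_spec ht, h1.Q_spec ht, Real.sqrt_mul_self ht.1.le] at e1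
    rw [h0.Q_spec ht, h1.Q_spec ht, Real.sqrt_mul_self (by linarith [ht.2])] at e2
    linarith
  have hder : ∀ t ∈ Ioo (0:ℝ) 1,
      HasDerivAt (fun s => Cdf.Q F1 s - Cdf.Q F0 s) 0 t := by
    intro t ht
    obtain ⟨D, D', hD, hD', hDG, hDQ, hDD⟩ := der_aux h0 hG (y := Cdf.Q F1 t) ht (hz t ht)
      (fun x => by
        have := H1 x (Cdf.Q F1 t)
        rwa [h1.Q_spec ht] at this)
    obtain ⟨E, E', hE, hE', hEG, hEQ, hEE⟩ := der_aux h1 hG (y := Cdf.Q F0 t) ht
      (by rw [add_comm]; exact hz t ht)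
      (fun x => by
        have := H1 (Cdf.Q F0 t) x
        rw [h0.Q_spec ht] at this
        rw [mul_comm, add_comm]
        exact this)
    rw [add_comm] at hEG
    have hDE : D = E := hDG.unique hEG
    have : D' = E' := by
      have h3 : D * D' = D * E' := by rw [hDD, hDE, hEE]
      exact mul_left_cancel₀ hD.ne' h3
    have h4 := hEQ.sub hDQ
    rw [this, sub_self] at h4
    exact h4
  have hconst : ∀ s ∈ Ioo (0:ℝ) 1, ∀ t ∈ Ioo (0:ℝ) 1,
      Cdf.Q F1 s - Cdf.Q F0 s = Cdf.Q F1 t - Cdf.Q F0 t := by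
    intro s hs t ht
    refine isOpen_Ioo.is_const_of_deriv_eq_zero isPreconnected_Ioo
      (f := fun s => Cdf.Q F1 s - Cdf.Q F0 s) ?_ ?_ hs ht
    · intro u hu
      exact (hder u hu).differentiableAt.differentiableWithinAt
    · intro u hu
      exact (hder u hu).deriv
  have hhalf : (1 / 2 : ℝ) ∈ Ioo (0:ℝ) 1 := by constructor <;> norm_num
  set c := Cdf.Q F1 (1 / 2) - Cdf.Q F0 (1 / 2) with hc
  have hQ : ∀ t ∈ Ioo (0:ℝ) 1, Cdf.Q F1 t = Cdf.Q F0 t + c := by
    intro t ht
    have := hconst t ht _ hhalf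
    rw [hc]; linarith
  refine ⟨c, fun x => ?_⟩
  by_cases hx : F0 x ∈ Ioo (0:ℝ) 1
  · have e1 : Cdf.Q F1 (F0 x) = x + c := by
      rw [hQ _ hx, h0.Q_eq hx.1 hx.2]
    rw [← e1, h1.Q_spec hx]
  · by_cases hy : F1 (x + c) ∈ Ioo (0:ℝ) 1
    · have e1 : Cdf.Q F0 (F1 (x + c)) = x := by
        have := hQ _ hy
        rw [h1.Q_eq hy.1 hy.2] at this
        linarith
      rw [← h0.Q_spec hy, e1]
    · -- both are `0` or `1`
      have hx' : F0 x = 0 ∨ F0 x = 1 := by
        by_contra hcon
        push Not at hcon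
        exact hx ⟨lt_of_le_of_ne (h0.nonneg x) hcon.1.symm, lt_of_le_of_ne (h0.le_one x) hcon.2⟩
      have hy' : F1 (x + c) = 0 ∨ F1 (x + c) = 1 := by
        by_contra hcon
        push Not at hcon
        exact hy ⟨lt_of_le_of_ne (h1.nonneg _) hcon.1.symm, lt_of_le_of_ne (h1.le_one _) hcon.2⟩
      have hq0 : F0 (Cdf.Q F0 (1 / 2)) = 1 / 2 := h0.Q_spec hhalf
      have hq1 : F1 (Cdf.Q F1 (1 / 2)) = 1 / 2 := h1.Q_spec hhalf
      have hq : Cdf.Q F1 (1 / 2) = Cdf.Q F0 (1 / 2) + c := hQ _ hhalf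
      rcases hx' with h | h <;> rcases hy' with h' | h'
      · rw [h, h']
      · exfalso
        rcases le_total x (Cdf.Q F0 (1 / 2)) with hle | hle
        · have := h1.mono (show x + c ≤ Cdf.Q F1 (1 / 2) by rw [hq]; linarith)
          rw [h', hq1] at this; linarith
        · have := h0.mono hle
          rw [h, hq0] at this; linarith
      · exfalso
        rcases le_total x (Cdf.Q F0 (1 / 2)) with hle | hle
        · have := h0.mono hle
          rw [h, hq0] at this; linarith
        · have := h1.mono (show Cdf.Q F1 (1 / 2) ≤ x + c by rw [hq]; linarith)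
          rw [h', hq1] at this; linarith
      · rw [h, h']

end Crest.Agent.R144.Lw425
end
end

-- ▼ part R144/Lw2_425
section

/-!
R144 (S0197), helper425.  Lw2: equality case of the Brunn–Minkowski inequality (multiplicative form)
for compact convex sets of `ι → ℝ`.

* `der_of_logconcave` : a distribution function `F` with `F`, `1 - F` log-concave is differentiable
  with positive derivative where `0 < F < 1`;
* `cdfOf`, `cdfOf_cdf` : the distribution function of a linear functional under the uniform law of a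
  convex body;
* `bm_shift` : if `K₀/2 + K₁/2 ⊆ K` and `vol K ^ 2 ≤ vol K₀ * vol K₁` then each linear functional has the
  same law under both up to a shift.
-/

set_option autoImplicit false

open MeasureTheory Set Filter Topology
open scoped ENNReal

noncomputable section

namespace Crest.Agent.R144.Lw425

open Crest.Agent.R144.Ham560

theorem concaveOn_log {F : ℝ → ℝ} {S : Set ℝ} (hS : ∀ x, x ∈ S ↔ 0 < F x)
    (hlc : ∀ x y t, 0 < t → t < 1 → F x ^ (1 - t) * F y ^ t ≤ F ((1 - t) * x + t * y)) :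
    ConcaveOn ℝ S (fun x => Real.log (F x)) := by
  have hpos : ∀ x ∈ S, ∀ y ∈ S, ∀ t : ℝ, 0 < t → t < 1 → 0 < F x ^ (1 - t) * F y ^ t := by
    intro x hx y hy t _ _
    exact mul_pos (Real.rpow_pos_of_pos ((hS x).mp hx) _) (Real.rpow_pos_of_pos ((hS y).mp hy) _)
  refine ⟨?_, ?_⟩
  · intro x hx y hy a b ha hb hab
    rcases eq_or_lt_of_le ha with rfl | ha'
    · have : b = 1 := by linarith
      subst this; simpa using hy
    rcases eq_or_lt_of_le hb with rfl | hb'
    · have : a = 1 := by linarith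
      subst this; simpa using hx
    have h1 := hlc x y b hb' (by linarith)
    have h2 := hpos x hx y hy b hb' (by linarith)
    have e : (1 - b) * x + b * y = a • x + b • y := by
      rw [smul_eq_mul, smul_eq_mul, ← hab]; ring
    rw [e] at h1
    exact (hS _).mpr (lt_of_lt_of_le h2 h1)
  · intro x hx y hy a b ha hb hab
    rcases eq_or_lt_of_le ha with rfl | ha'
    · have : b = 1 := by linarith
      subst this; simp
    rcases eq_or_lt_of_le hb with rfl | hb'
    · have : a = 1 := by linarith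
      subst this; simp
    have h1 := hlc x y b hb' (by linarith)
    have h2 := hpos x hx y hy b hb' (by linarith)
    have e : (1 - b) * x + b * y = a • x + b • y := by
      rw [smul_eq_mul, smul_eq_mul, ← hab]; ring
    rw [e] at h1
    have h3 := Real.log_le_log h2 h1
    rw [Real.log_mul (Real.rpow_pos_of_pos ((hS x).mp hx) _).ne'
      (Real.rpow_pos_of_pos ((hS y).mp hy) _).ne', Real.log_rpow ((hS x).mp hx),
      Real.log_rpow ((hS y).mp hy)] at h3
    have ea : 1 - b = a := by linarith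
    rw [ea] at h3
    exact h3

/-- One-sided derivatives of a concave function at an interior point. -/
theorem concave_sides {S : Set ℝ} {f : ℝ → ℝ} (hf : ConcaveOn ℝ S f) {x : ℝ}
    (hx : x ∈ interior S) :
    ∃ l r, r ≤ l ∧ HasDerivWithinAt f l (Iio x) x ∧ HasDerivWithinAt f r (Ioi x) x := by
  have hg : ConvexOn ℝ S (-f) := hf.neg
  have h1 := hg.hasDerivWithinAt_leftDeriv_of_mem_interior hx
  have h2 := hg.hasDerivWithinAt_rightDeriv_of_mem_interior hx
  have h3 := hg.leftDeriv_le_rightDeriv_of_mem_interior hx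
  refine ⟨_, _, neg_le_neg h3, ?_, ?_⟩
  · have := h1.neg
    rw [neg_neg] at this
    exact this
  · have := h2.neg
    rw [neg_neg] at this
    exact this

theorem der_of_logconcave {F : ℝ → ℝ} (hc : Continuous F)
    (hlc : ∀ x y t, 0 < t → t < 1 → F x ^ (1 - t) * F y ^ t ≤ F ((1 - t) * x + t * y))
    (hlc' : ∀ x y t, 0 < t → t < 1 →
      (1 - F x) ^ (1 - t) * (1 - F y) ^ t ≤ 1 - F ((1 - t) * x + t * y))
    (hmono : Monotone F) (hhi : ∃ b, F b = 1) {y : ℝ} (hy0 : 0 < F y) (hy1 : F y < 1) :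
    ∃ D, 0 < D ∧ HasDerivAt F D y := by
  have hc1 := concaveOn_log (F := F) (S := {x | 0 < F x}) (fun x => Iff.rfl) hlc
  have hc2 := concaveOn_log (F := fun x => 1 - F x) (S := {x | F x < 1})
    (fun x => by simp) hlc'
  have hi1 : y ∈ interior {x | 0 < F x} := by
    rw [(isOpen_lt continuous_const hc).interior_eq]; exact hy0
  have hi2 : y ∈ interior {x | F x < 1} := by
    rw [(isOpen_lt hc continuous_const).interior_eq]; exact hy1
  obtain ⟨l, r, hlr, hl, hr⟩ := concave_sides hc1 hi1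
  obtain ⟨l', r', hlr', hl', hr'⟩ := concave_sides hc2 hi2
  -- back to `F`
  have hev : ∀ᶠ x in 𝓝 y, F x = Real.exp (Real.log (F x)) := by
    filter_upwards [(isOpen_lt continuous_const hc).mem_nhds hy0] with x hx
    rw [Real.exp_log hx]
  have hev' : ∀ᶠ x in 𝓝 y, F x = 1 - Real.exp (Real.log (1 - F x)) := by
    filter_upwards [(isOpen_lt hc continuous_const).mem_nhds hy1] with x hx
    have hx' : F x < 1 := hx
    rw [Real.exp_log (by linarith)]; ring
  have A1 : HasDerivWithinAt F (F y * l) (Iio y) y := by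
    have := hl.exp
    rw [Real.exp_log hy0] at this
    exact this.congr_of_eventuallyEq (nhdsWithin_le_nhds hev) hev.self_of_nhds
  have A2 : HasDerivWithinAt F (F y * r) (Ioi y) y := by
    have := hr.exp
    rw [Real.exp_log hy0] at this
    exact this.congr_of_eventuallyEq (nhdsWithin_le_nhds hev) hev.self_of_nhds
  have B1 : HasDerivWithinAt F (-((1 - F y) * l')) (Iio y) y := by
    have := (hl'.exp).const_sub 1
    rw [Real.exp_log (by linarith)] at this
    exact this.congr_of_eventuallyEq (nhdsWithin_le_nhds hev') hev'.self_of_nhds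
  have B2 : HasDerivWithinAt F (-((1 - F y) * r')) (Ioi y) y := by
    have := (hr'.exp).const_sub 1
    rw [Real.exp_log (by linarith)] at this
    exact this.congr_of_eventuallyEq (nhdsWithin_le_nhds hev') hev'.self_of_nhds
  have e1 : F y * l = -((1 - F y) * l') := (uniqueDiffWithinAt_Iio y).eq_deriv _ A1 B1
  have e2 : F y * r = -((1 - F y) * r') := (uniqueDiffWithinAt_Ioi y).eq_deriv _ A2 B2
  have e3 : F y * l = F y * r := by
    have h1 : F y * r ≤ F y * l := mul_le_mul_of_nonneg_left hlr hy0.le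
    have h2 : (1 - F y) * r' ≤ (1 - F y) * l' := mul_le_mul_of_nonneg_left hlr' (by linarith)
    linarith
  have hD : HasDerivAt F (F y * l) y := by
    have h1 := hasDerivWithinAt_Iio_iff_Iic.mp A1
    rw [← e3] at A2
    have h2 := hasDerivWithinAt_Ioi_iff_Ici.mp A2
    have h3 := h1.union h2
    rw [Iic_union_Ici, hasDerivWithinAt_univ] at h3
    exact h3
  refine ⟨F y * l, ?_, hD⟩
  -- positivity
  obtain ⟨b, hb⟩ := hhi
  have hyb : y < b := by
    by_contra hcon
    push Not at hcon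
    have := hmono hcon
    rw [hb] at this; linarith
  have hlog : HasDerivAt (fun x => Real.log (F x)) (F y * l / F y) y := hD.log hy0.ne'
  have h4 := hc1.slope_le_of_hasDerivAt (x := y) (y := b) hy0 (by rw [mem_ofPred_eq, hb]; norm_num)
    hyb hlog
  rw [slope_def_field, hb, Real.log_one, div_le_iff₀ (by linarith)] at h4
  have h5 : Real.log (F y) < 0 := Real.log_neg hy0 hy1
  by_contra hcon
  push Not at hcon
  have h6 : F y * l / F y * (b - y) ≤ 0 :=
    mul_nonpos_of_nonpos_of_nonneg (div_nonpos_of_nonpos_of_nonneg hcon hy0.le) (by linarith)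
  linarith

section body

variable {ι : Type*} [Fintype ι]

/-- Real form of `vol_mul_le`. -/
theorem real_mul_le {t : ℝ} (ht0 : 0 < t) (ht1 : t < 1) {A₁ A₂ B : Set (ι → ℝ)}
    (h1 : MeasurableSet A₁) (h2 : MeasurableSet A₂) (hB : MeasurableSet B)
    (hBf : volume B ≠ ∞)
    (H : ∀ x ∈ A₁, ∀ y ∈ A₂, (1 - t) • x + t • y ∈ B) :
    volume.real A₁ ^ (1 - t) * volume.real A₂ ^ t ≤ volume.real B := by
  have key := vol_mul_le ht0 ht1 h1 h2 hB H
  have := ENNReal.toReal_mono hBf key
  rw [ENNReal.toReal_mul, ← ENNReal.toReal_rpow, ← ENNReal.toReal_rpow] at this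
  exact this

/-- Half-space cut. -/
theorem measurableSet_cut {K : Set (ι → ℝ)} (hK : MeasurableSet K) (L : (ι → ℝ) →L[ℝ] ℝ) (s : ℝ) :
    MeasurableSet (K ∩ {x | L x ≤ s}) :=
  hK.inter (measurableSet_le L.continuous.measurable measurable_const)

theorem measurableSet_cut' {K : Set (ι → ℝ)} (hK : MeasurableSet K) (L : (ι → ℝ) →L[ℝ] ℝ) (s : ℝ) :
    MeasurableSet (K ∩ {x | s < L x}) :=
  hK.inter (measurableSet_lt measurable_const L.continuous.measurable)

/-- Hyperplanes are null. -/
theorem volume_hyper {L : (ι → ℝ) →L[ℝ] ℝ} (hL : L ≠ 0) (s : ℝ) :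
    volume {x : ι → ℝ | L x = s} = 0 := by
  obtain ⟨v, hv⟩ : ∃ v, L v ≠ 0 := by
    by_contra hcon
    push Not at hcon
    exact hL (ContinuousLinearMap.ext fun x => by simpa using hcon x)
  have hker : (volume : Measure (ι → ℝ)) (LinearMap.ker (L : (ι → ℝ) →ₗ[ℝ] ℝ) : Set (ι → ℝ)) = 0 := by
    refine Measure.addHaar_submodule volume _ ?_
    intro h
    have : v ∈ LinearMap.ker (L : (ι → ℝ) →ₗ[ℝ] ℝ) := by rw [h]; trivial
    exact hv (by simpa using this)
  have e : {x : ι → ℝ | L x = s} =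
      (fun x => x + (-(s / L v)) • v) ⁻¹' (LinearMap.ker (L : (ι → ℝ) →ₗ[ℝ] ℝ) : Set (ι → ℝ)) := by
    ext x
    simp only [mem_ofPred_eq, mem_preimage, SetLike.mem_coe, LinearMap.mem_ker,
      ContinuousLinearMap.coe_coe, map_add, map_smul, smul_eq_mul]
    have : -(s / L v) * L v = -s := by field_simp
    rw [this]
    constructor
    · intro h; rw [h]; ring
    · intro h; linarith
  rw [e, measure_preimage_add_right, hker]

/-- Distribution function of `L` under the uniform law on `K`. -/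
def cdfOf (K : Set (ι → ℝ)) (L : (ι → ℝ) →L[ℝ] ℝ) (s : ℝ) : ℝ :=
  volume.real (K ∩ {x | L x ≤ s}) / volume.real K

variable {K : Set (ι → ℝ)} {L : (ι → ℝ) →L[ℝ] ℝ}

theorem cdfOf_compl (hKm : MeasurableSet K) (hf : volume K ≠ ∞) (h0 : 0 < volume.real K) (s : ℝ) :
    1 - cdfOf K L s = volume.real (K ∩ {x | s < L x}) / volume.real K := by
  have h1 : volume.real (K ∩ {x | L x ≤ s}) + volume.real (K ∩ {x | s < L x}) = volume.real K := by
    have hd : Disjoint (K ∩ {x | L x ≤ s}) (K ∩ {x | s < L x}) := by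
      rw [Set.disjoint_left]
      rintro x ⟨_, h⟩ ⟨_, h'⟩
      have h1 : L x ≤ s := h
      have h2 : s < L x := h'
      linarith
    rw [← measureReal_union hd (measurableSet_cut' hKm L s)
      ((measure_mono inter_subset_left).trans_lt (lt_top_iff_ne_top.mpr hf)).ne
      ((measure_mono inter_subset_left).trans_lt (lt_top_iff_ne_top.mpr hf)).ne]
    congr 1
    ext x
    simp only [mem_union, mem_inter_iff, mem_ofPred_eq]
    constructor
    · rintro (h | h)
      · exact h.1
      · exact h.1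
    · intro h
      rcases le_or_gt (L x) s with h' | h'
      · exact Or.inl ⟨h, h'⟩
      · exact Or.inr ⟨h, h'⟩
  unfold cdfOf
  rw [← h1, eq_div_iff (by rw [h1]; exact h0.ne'), sub_mul, one_mul,
    div_mul_cancel₀ _ (by rw [h1]; exact h0.ne')]
  ring

theorem cdfOf_mono (hf : volume K ≠ ∞) (h0 : 0 < volume.real K) :
    Monotone (cdfOf K L) := by
  intro s t hst
  unfold cdfOf
  refine div_le_div_of_nonneg_right ?_ h0.le
  refine measureReal_mono ?_ ((measure_mono inter_subset_left).trans_lt (lt_top_iff_ne_top.mpr hf)).ne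
  rintro x ⟨hx, hx'⟩
  exact ⟨hx, le_trans hx' hst⟩

theorem cdfOf_nonneg (s : ℝ) : 0 ≤ cdfOf K L s :=
  div_nonneg measureReal_nonneg measureReal_nonneg

theorem cdfOf_le_one (hf : volume K ≠ ∞) (h0 : 0 < volume.real K) (s : ℝ) : cdfOf K L s ≤ 1 := by
  unfold cdfOf
  rw [div_le_one h0]
  exact measureReal_mono inter_subset_left hf

theorem cdfOf_continuous (hKm : MeasurableSet K) (hf : volume K ≠ ∞) (hL : L ≠ 0) :
    Continuous (cdfOf K L) := by
  have hfin : IsFiniteMeasure ((volume : Measure (ι → ℝ)).restrict K) :=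
    ⟨by rw [Measure.restrict_apply_univ]; exact lt_top_iff_ne_top.mpr hf⟩
  have e : cdfOf K L = fun s =>
      (∫ x, ({x : ι → ℝ | L x ≤ s}.indicator (1 : (ι → ℝ) → ℝ) x)
        ∂((volume : Measure (ι → ℝ)).restrict K)) / volume.real K := by
    funext s
    unfold cdfOf
    congr 1
    rw [integral_indicator_one (measurableSet_le L.continuous.measurable measurable_const),
      Measure.real, Measure.real,
      Measure.restrict_apply (measurableSet_le L.continuous.measurable measurable_const), inter_comm]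
  rw [e]
  refine Continuous.div_const ?_ _
  rw [continuous_iff_continuousAt]
  intro s0
  refine continuousAt_of_dominated (bound := fun _ => (1 : ℝ)) ?_ ?_ ?_ ?_
  · refine Eventually.of_forall fun s => ?_
    exact (measurable_one.indicator
      (measurableSet_le L.continuous.measurable measurable_const)).aestronglyMeasurable
  · refine Eventually.of_forall fun s => Eventually.of_forall fun x => ?_
    rw [Real.norm_eq_abs]
    by_cases h : L x ≤ s
    · rw [indicator_of_mem (show x ∈ {x : ι → ℝ | L x ≤ s} from h)]; simp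
    · rw [indicator_of_notMem (show x ∉ {x : ι → ℝ | L x ≤ s} from h)]; simp
  · exact integrable_const _
  · have h1 : ∀ᵐ x ∂((volume : Measure (ι → ℝ)).restrict K), L x ≠ s0 := by
      refine ae_restrict_of_ae ?_
      rw [ae_iff]
      simpa using volume_hyper hL s0
    filter_upwards [h1] with x hx
    rcases lt_or_gt_of_ne hx with h | h
    · refine (continuousAt_const (y := (1 : ℝ))).congr ?_
      filter_upwards [lt_mem_nhds h] with s hs
      rw [indicator_of_mem (show x ∈ {x : ι → ℝ | L x ≤ s} from hs.le)]; rfl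
    · refine (continuousAt_const (y := (0 : ℝ))).congr ?_
      filter_upwards [gt_mem_nhds h] with s hs
      rw [indicator_of_notMem]
      exact not_le.mpr hs

/-- General form of the cut inequality. -/
theorem cut_ineq {K0 K1 : Set (ι → ℝ)} {t : ℝ} (ht0 : 0 < t) (ht1 : t < 1)
    (h0 : MeasurableSet K0) (h1 : MeasurableSet K1) (hK : MeasurableSet K)
    (hf : volume K ≠ ∞)
    (H : ∀ x ∈ K0, ∀ y ∈ K1, (1 - t) • x + t • y ∈ K) (a b : ℝ) :
    volume.real (K0 ∩ {x | L x ≤ a}) ^ (1 - t) * volume.real (K1 ∩ {x | L x ≤ b}) ^ t ≤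
      volume.real (K ∩ {x | L x ≤ (1 - t) * a + t * b}) := by
  refine real_mul_le ht0 ht1 (measurableSet_cut h0 L a) (measurableSet_cut h1 L b)
    (measurableSet_cut hK L _) ((measure_mono inter_subset_left).trans_lt (lt_top_iff_ne_top.mpr hf)).ne
    ?_
  rintro x ⟨hx, hx'⟩ y ⟨hy, hy'⟩
  refine ⟨H x hx y hy, ?_⟩
  change L x ≤ a at hx'
  change L y ≤ b at hy'
  change L ((1 - t) • x + t • y) ≤ _
  rw [map_add, map_smul, map_smul, smul_eq_mul, smul_eq_mul]
  have : 0 < 1 - t := by linarith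
  nlinarith

theorem cut_ineq' {K0 K1 : Set (ι → ℝ)} {t : ℝ} (ht0 : 0 < t) (ht1 : t < 1)
    (h0 : MeasurableSet K0) (h1 : MeasurableSet K1) (hK : MeasurableSet K)
    (hf : volume K ≠ ∞)
    (H : ∀ x ∈ K0, ∀ y ∈ K1, (1 - t) • x + t • y ∈ K) (a b : ℝ) :
    volume.real (K0 ∩ {x | a < L x}) ^ (1 - t) * volume.real (K1 ∩ {x | b < L x}) ^ t ≤
      volume.real (K ∩ {x | (1 - t) * a + t * b < L x}) := by
  refine real_mul_le ht0 ht1 (measurableSet_cut' h0 L a) (measurableSet_cut' h1 L b)
    (measurableSet_cut' hK L _) ((measure_mono inter_subset_left).trans_lt (lt_top_iff_ne_top.mpr hf)).ne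
    ?_
  rintro x ⟨hx, hx'⟩ y ⟨hy, hy'⟩
  refine ⟨H x hx y hy, ?_⟩
  change a < L x at hx'
  change b < L y at hy'
  change _ < L ((1 - t) • x + t • y)
  rw [map_add, map_smul, map_smul, smul_eq_mul, smul_eq_mul]
  have : 0 < 1 - t := by linarith
  nlinarith

theorem cdfOf_cdf (hc : Convex ℝ K) (hk : IsCompact K) (h0 : 0 < volume.real K) (hL : L ≠ 0) :
    Cdf (cdfOf K L) := by
  have hKm : MeasurableSet K := hk.isClosed.measurableSet
  have hf : volume K ≠ ∞ := hk.measure_lt_top.ne
  have hne : K.Nonempty := by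
    rw [nonempty_iff_ne_empty]
    rintro rfl
    simp at h0
  have hbd : ∃ M, ∀ x ∈ K, |L x| ≤ M := by
    obtain ⟨M, hM⟩ := hk.exists_bound_of_continuousOn L.continuous.continuousOn
    exact ⟨M, fun x hx => hM x hx⟩
  obtain ⟨M, hM⟩ := hbd
  have hhi : ∃ b, cdfOf K L b = 1 := by
    refine ⟨M, ?_⟩
    unfold cdfOf
    have : K ∩ {x | L x ≤ M} = K := by
      ext x; simp only [mem_inter_iff, mem_ofPred_eq, and_iff_left_iff_imp]
      exact fun hx => (abs_le.mp (hM x hx)).2
    rw [this, div_self h0.ne']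
  have hcont := cdfOf_continuous (L := L) hKm hf hL
  have hmono := cdfOf_mono (L := L) hf h0
  have hlc : ∀ x y t, 0 < t → t < 1 →
      cdfOf K L x ^ (1 - t) * cdfOf K L y ^ t ≤ cdfOf K L ((1 - t) * x + t * y) := by
    intro x y t ht0 ht1
    unfold cdfOf
    rw [Real.div_rpow measureReal_nonneg h0.le, Real.div_rpow measureReal_nonneg h0.le,
      div_mul_div_comm, ← Real.rpow_add h0, sub_add_cancel, Real.rpow_one]
    refine div_le_div_of_nonneg_right ?_ h0.le
    refine cut_ineq ht0 ht1 hKm hKm hKm hf ?_ x y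
    intro u hu v hv
    exact hc hu hv (by linarith) ht0.le (by ring)
  have hlc' : ∀ x y t, 0 < t → t < 1 →
      (1 - cdfOf K L x) ^ (1 - t) * (1 - cdfOf K L y) ^ t ≤ 1 - cdfOf K L ((1 - t) * x + t * y) := by
    intro x y t ht0 ht1
    rw [cdfOf_compl hKm hf h0, cdfOf_compl hKm hf h0, cdfOf_compl hKm hf h0]
    rw [Real.div_rpow measureReal_nonneg h0.le, Real.div_rpow measureReal_nonneg h0.le,
      div_mul_div_comm, ← Real.rpow_add h0, sub_add_cancel, Real.rpow_one]
    refine div_le_div_of_nonneg_right ?_ h0.le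
    refine cut_ineq' ht0 ht1 hKm hKm hKm hf ?_ x y
    intro u hu v hv
    exact hc hu hv (by linarith) ht0.le (by ring)
  refine ⟨hmono, hcont, cdfOf_nonneg, cdfOf_le_one hf h0, ?_, hhi, ?_⟩
  · refine ⟨-M - 1, ?_⟩
    unfold cdfOf
    have : K ∩ {x | L x ≤ -M - 1} = ∅ := by
      ext x
      simp only [mem_inter_iff, mem_ofPred_eq, mem_empty_iff_false, iff_false, not_and, not_le]
      intro hx
      have := (abs_le.mp (hM x hx)).1
      linarith
    rw [this]; simp
  · intro y hy0 hy1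
    exact der_of_logconcave hcont hlc hlc' hmono hhi hy0 hy1

/-- Equality in Brunn–Minkowski: every functional has the same law up to a shift. -/
theorem bm_shift {K0 K1 : Set (ι → ℝ)} (hc0 : Convex ℝ K0) (hc1 : Convex ℝ K1) (hc : Convex ℝ K)
    (hk0 : IsCompact K0) (hk1 : IsCompact K1) (hk : IsCompact K)
    (p0 : 0 < volume.real K0) (p1 : 0 < volume.real K1)
    (H : ∀ x ∈ K0, ∀ y ∈ K1, (1 / 2 : ℝ) • x + (1 / 2 : ℝ) • y ∈ K)
    (heq : volume.real K ^ 2 ≤ volume.real K0 * volume.real K1) (hL : L ≠ 0) :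
    ∃ c, ∀ x, cdfOf K1 L (x + c) = cdfOf K0 L x := by
  have H' : ∀ x ∈ K0, ∀ y ∈ K1, (1 - (1 / 2 : ℝ)) • x + (1 / 2 : ℝ) • y ∈ K := by
    intro x hx y hy
    have := H x hx y hy
    norm_num at this ⊢
    exact this
  have hf : volume K ≠ ∞ := hk.measure_lt_top.ne
  have hKm := hk.isClosed.measurableSet
  have hKm0 := hk0.isClosed.measurableSet
  have hKm1 := hk1.isClosed.measurableSet
  have hhalf : (1 - (1 / 2 : ℝ)) = 1 / 2 := by norm_num
  have p : 0 < volume.real K := by
    have := real_mul_le (t := 1 / 2) (by norm_num) (by norm_num) hKm0 hKm1 hKm hf H'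
    refine lt_of_lt_of_le ?_ this
    exact mul_pos (Real.rpow_pos_of_pos p0 _) (Real.rpow_pos_of_pos p1 _)
  have hle : volume.real K ≤ Real.sqrt (volume.real K0 * volume.real K1) :=
    Real.le_sqrt_of_sq_le heq
  have hsq : 0 < Real.sqrt (volume.real K0 * volume.real K1) := Real.sqrt_pos.mpr (mul_pos p0 p1)
  refine shift_of_cut (cdfOf_cdf hc0 hk0 p0 hL) (cdfOf_cdf hc1 hk1 p1 hL) (cdfOf_cdf hc hk p hL)
    ?_ ?_
  · intro x y
    have h1 := cut_ineq (L := L) (t := 1 / 2) (by norm_num) (by norm_num) hKm0 hKm1 hKm hf H' x y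
    rw [hhalf, ← Real.sqrt_eq_rpow, ← Real.sqrt_eq_rpow, ← Real.sqrt_mul measureReal_nonneg] at h1
    have e : (1 / 2 : ℝ) * x + 1 / 2 * y = (x + y) / 2 := by ring
    rw [e] at h1
    unfold cdfOf
    rw [div_mul_div_comm, Real.sqrt_div (mul_nonneg measureReal_nonneg measureReal_nonneg)]
    calc _ ≤ volume.real (K ∩ {x_1 | L x_1 ≤ (x + y) / 2}) /
          Real.sqrt (volume.real K0 * volume.real K1) := by gcongr
      _ ≤ _ := div_le_div_of_nonneg_left measureReal_nonneg p hle
  · intro x y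
    have h1 := cut_ineq' (L := L) (t := 1 / 2) (by norm_num) (by norm_num) hKm0 hKm1 hKm hf H' x y
    rw [hhalf, ← Real.sqrt_eq_rpow, ← Real.sqrt_eq_rpow, ← Real.sqrt_mul measureReal_nonneg] at h1
    have e : (1 / 2 : ℝ) * x + 1 / 2 * y = (x + y) / 2 := by ring
    rw [e] at h1
    rw [cdfOf_compl hKm0 hk0.measure_lt_top.ne p0, cdfOf_compl hKm1 hk1.measure_lt_top.ne p1,
      cdfOf_compl hKm hf p]
    rw [div_mul_div_comm, Real.sqrt_div (mul_nonneg measureReal_nonneg measureReal_nonneg)]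
    calc _ ≤ volume.real (K ∩ {x_1 | (x + y) / 2 < L x_1}) /
          Real.sqrt (volume.real K0 * volume.real K1) := by gcongr
      _ ≤ _ := div_le_div_of_nonneg_left measureReal_nonneg p hle

end body

end Crest.Agent.R144.Lw425
end
end

-- ▼ part R144/Lw3_425
section

/-!
R144 (S0197), helper425.  Lw3: equality case of Brunn–Minkowski, conclusion: the uniform laws of two
convex bodies `K₀, K₁` with `K₀/2 + K₁/2 ⊆ K`, `vol K ^ 2 ≤ vol K₀ vol K₁` are translates of one another.
-/

set_option autoImplicit false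

open MeasureTheory Set Filter Topology
open scoped ENNReal

noncomputable section

namespace Crest.Agent.R144.Lw425

variable {ι : Type*} [Fintype ι]

/-- Uniform probability law on `K`. -/
def uP (K : Set (ι → ℝ)) : Measure (ι → ℝ) := (volume K)⁻¹ • volume.restrict K

variable {K : Set (ι → ℝ)} {L : (ι → ℝ) →L[ℝ] ℝ}

theorem isProb_uP (h0 : volume K ≠ 0) (hf : volume K ≠ ∞) : IsProbabilityMeasure (uP K) := by
  constructor
  rw [uP, Measure.smul_apply, Measure.restrict_apply_univ, smul_eq_mul]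
  exact ENNReal.inv_mul_cancel h0 hf

theorem uP_apply {A : Set (ι → ℝ)} (hA : MeasurableSet A) :
    uP K A = volume (K ∩ A) / volume K := by
  rw [uP, Measure.smul_apply, Measure.restrict_apply hA, smul_eq_mul, inter_comm, div_eq_mul_inv,
    mul_comm]

theorem measurableSet_half (L : (ι → ℝ) →L[ℝ] ℝ) (s : ℝ) : MeasurableSet {x | L x ≤ s} :=
  measurableSet_le L.continuous.measurable measurable_const

theorem uP_real_cut (s : ℝ) : (uP K).real {x | L x ≤ s} = cdfOf K L s := by
  rw [Measure.real, uP_apply (measurableSet_half L s), ENNReal.toReal_div]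
  rfl

theorem ne_top_of_real_pos (h0 : 0 < volume.real K) : volume K ≠ ∞ := by
  intro h
  rw [Measure.real, h] at h0
  simp at h0

theorem ne_zero_of_real_pos (h0 : 0 < volume.real K) : volume K ≠ 0 := by
  intro h
  rw [Measure.real, h] at h0
  simp at h0

/-- The law of `L` under `uP K1` is the law of `L + c` under `uP K0`. -/
theorem map_shift {K0 K1 : Set (ι → ℝ)} (p0 : 0 < volume.real K0) (p1 : 0 < volume.real K1) {c : ℝ}
    (h : ∀ x, cdfOf K1 L (x + c) = cdfOf K0 L x) :
    (uP K1).map (fun x => L x) = (uP K0).map (fun x => L x + c) := by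
  have := isProb_uP (ne_zero_of_real_pos p0) (ne_top_of_real_pos p0)
  have := isProb_uP (ne_zero_of_real_pos p1) (ne_top_of_real_pos p1)
  have hm : Measurable (fun x : ι → ℝ => L x) := L.continuous.measurable
  have hm' : Measurable (fun x : ι → ℝ => L x + c) := hm.add_const c
  have : IsProbabilityMeasure ((uP K1).map (fun x => L x)) :=
    Measure.isProbabilityMeasure_map hm.aemeasurable
  have : IsProbabilityMeasure ((uP K0).map (fun x => L x + c)) :=
    Measure.isProbabilityMeasure_map hm'.aemeasurable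
  refine Measure.ext_of_Iic _ _ fun a => ?_
  rw [Measure.map_apply hm measurableSet_Iic, Measure.map_apply hm' measurableSet_Iic]
  have e1 : (fun x : ι → ℝ => L x) ⁻¹' Iic a = {x | L x ≤ a} := rfl
  have e2 : (fun x : ι → ℝ => L x + c) ⁻¹' Iic a = {x | L x ≤ a - c} := by
    ext x
    change L x + c ≤ a ↔ L x ≤ a - c
    constructor <;> intro h <;> linarith
  rw [e1, e2]
  have h1 := h (a - c)
  rw [sub_add_cancel, ← uP_real_cut, ← uP_real_cut] at h1
  exact (measureReal_eq_measureReal_iff (measure_ne_top _ _) (measure_ne_top _ _)).mp h1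

theorem integrable_of_bdd (hk : IsCompact K) (h0 : 0 < volume.real K) {E : Type*}
    [NormedAddCommGroup E] {f : (ι → ℝ) → E} (hf : Continuous f) : Integrable f (uP K) := by
  have := isProb_uP (ne_zero_of_real_pos h0) (ne_top_of_real_pos h0)
  have h1 : IntegrableOn f K volume := hf.continuousOn.integrableOn_compact hk
  have h2 : Integrable f (volume.restrict K) := h1
  exact h2.smul_measure (ENNReal.inv_ne_top.mpr (ne_zero_of_real_pos h0))

/-- The constant of the shift. -/
theorem shift_const {K0 K1 : Set (ι → ℝ)} (hk0 : IsCompact K0) (hk1 : IsCompact K1)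
    (p0 : 0 < volume.real K0) (p1 : 0 < volume.real K1) {c : ℝ}
    (h : (uP K1).map (fun x => L x) = (uP K0).map (fun x => L x + c)) :
    c = L ((∫ x, x ∂(uP K1)) - ∫ x, x ∂(uP K0)) := by
  have := isProb_uP (ne_zero_of_real_pos p0) (ne_top_of_real_pos p0)
  have := isProb_uP (ne_zero_of_real_pos p1) (ne_top_of_real_pos p1)
  have hm : Measurable (fun x : ι → ℝ => L x) := L.continuous.measurable
  have hm' : Measurable (fun x : ι → ℝ => L x + c) := hm.add_const c
  have h1 : ∫ x, L x ∂(uP K1) = ∫ x, (L x + c) ∂(uP K0) := by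
    have e1 := integral_map (μ := uP K1) hm.aemeasurable
      (f := fun y : ℝ => y) measurable_id.aestronglyMeasurable
    have e2 := integral_map (μ := uP K0) hm'.aemeasurable
      (f := fun y : ℝ => y) measurable_id.aestronglyMeasurable
    rw [← e1, ← e2, h]
  have i0 : Integrable (fun x : ι → ℝ => x) (uP K0) := integrable_of_bdd hk0 p0 continuous_id
  have i1 : Integrable (fun x : ι → ℝ => x) (uP K1) := integrable_of_bdd hk1 p1 continuous_id
  have iL : Integrable (fun x : ι → ℝ => L x) (uP K0) := integrable_of_bdd hk0 p0 L.continuous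
  rw [integral_add iL (integrable_const c), integral_const] at h1
  rw [map_sub, ← L.integral_comp_comm i0, ← L.integral_comp_comm i1, h1]
  simp

/-- **Equality in Brunn–Minkowski**: the uniform laws are translates of one another. -/
theorem bm_translate {K0 K1 : Set (ι → ℝ)} (hc0 : Convex ℝ K0) (hc1 : Convex ℝ K1)
    (hc : Convex ℝ K) (hk0 : IsCompact K0) (hk1 : IsCompact K1) (hk : IsCompact K)
    (p0 : 0 < volume.real K0) (p1 : 0 < volume.real K1)
    (H : ∀ x ∈ K0, ∀ y ∈ K1, (1 / 2 : ℝ) • x + (1 / 2 : ℝ) • y ∈ K)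
    (heq : volume.real K ^ 2 ≤ volume.real K0 * volume.real K1) :
    ∃ w : ι → ℝ, uP K1 = (uP K0).map (fun x => x + w) := by
  have := isProb_uP (ne_zero_of_real_pos p0) (ne_top_of_real_pos p0)
  have := isProb_uP (ne_zero_of_real_pos p1) (ne_top_of_real_pos p1)
  set w : ι → ℝ := (∫ x, x ∂(uP K1)) - ∫ x, x ∂(uP K0) with hw
  refine ⟨w, ?_⟩
  have hmw : Measurable (fun x : ι → ℝ => x + w) := measurable_id.add_const w
  have : IsProbabilityMeasure ((uP K0).map (fun x => x + w)) :=
    Measure.isProbabilityMeasure_map hmw.aemeasurable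
  refine Measure.ext_of_charFunDual ?_
  funext L
  rw [charFunDual_eq_charFun_map_one, charFunDual_eq_charFun_map_one]
  have key : (uP K1).map (fun x => L x) = ((uP K0).map (fun x => x + w)).map (fun x => L x) := by
    rw [Measure.map_map L.continuous.measurable hmw]
    have e : (fun x => L x) ∘ (fun x : ι → ℝ => x + w) = fun x => L x + L w := by
      funext x; simp
    rw [e]
    by_cases hL : L = 0
    · subst hL
      simp
    · obtain ⟨c, hcc⟩ := bm_shift hc0 hc1 hc hk0 hk1 hk p0 p1 H heq hL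
      have h1 := map_shift p0 p1 hcc
      have h2 := shift_const hk0 hk1 p0 p1 h1
      rw [← hw] at h2
      rw [h1, h2]
  rw [key]

/-- Support comparison. -/
theorem le_zero_of_sup {K0 K1 : Set (ι → ℝ)}
    (p0 : 0 < volume.real K0) {w : ι → ℝ}
    (h : uP K1 = (uP K0).map (fun x => x + w)) {m : ℝ} (hle : ∀ x ∈ K1, L x ≤ m)
    (hpos : ∀ s < m, 0 < volume (K0 ∩ {x | s < L x})) : L w ≤ 0 := by
  by_contra hcon
  push Not at hcon
  have h1 := hpos (m - L w) (by linarith)
  have hmw : Measurable (fun x : ι → ℝ => x + w) := measurable_id.add_const w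
  have hms : MeasurableSet {x : ι → ℝ | m < L x} :=
    measurableSet_lt measurable_const L.continuous.measurable
  have h2 : uP K1 {x | m < L x} = 0 := by
    rw [uP_apply hms]
    have : K1 ∩ {x | m < L x} = ∅ := by
      ext x
      constructor
      · rintro ⟨hx, hx'⟩
        have h3 : m < L x := hx'
        have := hle x hx
        linarith
      · intro hx; exact absurd hx (notMem_empty x)
    rw [this]; simp
  rw [h, Measure.map_apply hmw hms] at h2
  have h3 : (fun x : ι → ℝ => x + w) ⁻¹' {x | m < L x} = {x | m - L w < L x} := by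
    ext x
    change m < L (x + w) ↔ m - L w < L x
    rw [map_add]
    constructor <;> intro h <;> linarith
  rw [h3, uP_apply (measurableSet_lt measurable_const L.continuous.measurable)] at h2
  rw [ENNReal.div_eq_zero_iff] at h2
  rcases h2 with h2 | h2
  · exact h1.ne' h2
  · exact ne_top_of_real_pos p0 h2

/-- Consequence for integrals of observables invariant under the translation. -/
theorem integral_eq_of_translate {K0 K1 : Set (ι → ℝ)} {w : ι → ℝ}
    (h : uP K1 = (uP K0).map (fun x => x + w)) {f : (ι → ℝ) → ℝ} (hf : Measurable f)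
    (hinv : ∀ x, f (x + w) = f x) : ∫ x, f x ∂(uP K1) = ∫ x, f x ∂(uP K0) := by
  have hmw : Measurable (fun x : ι → ℝ => x + w) := measurable_id.add_const w
  rw [h, integral_map hmw.aemeasurable hf.aestronglyMeasurable]
  simp only [hinv]

end Crest.Agent.R144.Lw425
end
end

-- ▼ part R144/Lw4_425

/-!
R144 (S0197), helper425.  Lw4: the WINDOW LEMMA.

`F` free sites, `E` edges, `Z` the boundary sites of the window; data `z : Z → ℝ`, `dat z = ext Z 0 z`.
For a closed, shift invariant set `𝒢` of flexible data and an observable `f` of the core gradients: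
for every `ε > 0` there is `κ > 0` such that for `z, z' ∈ 𝒢`, if the means of `f` under the uniform laws with
data `z, z'` differ by at least `ε` then the Brunn–Minkowski deficit is at least `κ`.
-/

set_option autoImplicit false

open MeasureTheory Set Filter Topology
open scoped ENNReal

noncomputable section

namespace Crest.Agent.R144.Lw425

open Crest.Agent.R144.Ham560

variable {U : Type*} [DecidableEq U] {F Z : Finset U} {E : Finset (U × U)} {ξ η : U → ℝ}

/-- `ham` only depends on the data at the non-free endpoints. -/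
theorem ham_congr (h : ∀ p ∈ E, (p.1 ∉ F → ξ p.1 = η p.1) ∧ (p.2 ∉ F → ξ p.2 = η p.2)) :
    ham F E ξ = ham F E η := by
  ext x
  simp only [ham, mem_ofPred_eq]
  refine forall₂_congr fun p hp => ?_
  have h1 : ext F ξ x p.1 = ext F η x p.1 := by
    by_cases h' : p.1 ∈ F
    · rw [ext_mem h', ext_mem h']
    · rw [ext_notMem h', ext_notMem h', (h p hp).1 h']
  have h2 : ext F ξ x p.2 = ext F η x p.2 := by
    by_cases h' : p.2 ∈ F
    · rw [ext_mem h', ext_mem h']
    · rw [ext_notMem h', ext_notMem h', (h p hp).2 h']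
  rw [h1, h2]

/-- Edges are not loops and touch the free sites. -/
def Proper (F : Finset U) (E : Finset (U × U)) : Prop :=
  ∀ p ∈ E, p.1 ≠ p.2 ∧ (p.1 ∈ F ∨ p.2 ∈ F)

/-- `extL` as a continuous functional. -/
def extC (F : Finset U) (u : U) : (F → ℝ) →L[ℝ] ℝ := LinearMap.toContinuousLinearMap (extL F u)

@[simp] theorem extC_apply (u : U) (x : F → ℝ) : extC F u x = ext F 0 x u := rfl

theorem ext_split (x : F → ℝ) (u : U) : ext F ξ x u = ext F 0 x u + (if u ∈ F then 0 else ξ u) := by
  by_cases h : u ∈ F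
  · rw [ext_mem h, ext_mem h, if_pos h, add_zero]
  · rw [ext_notMem h, ext_notMem h, if_neg h]; simp

theorem extC_sub_ne {a b : U} (hab : a ≠ b) (h : a ∈ F ∨ b ∈ F) : extC F a - extC F b ≠ 0 := by
  intro h0
  rcases h with h | h
  · have := congrArg (fun l : (F → ℝ) →L[ℝ] ℝ => l (Pi.single ⟨a, h⟩ 1)) h0
    simp only [_root_.sub_apply, extC_apply, _root_.zero_apply] at this
    rw [ext_mem h, Pi.single_eq_same] at this
    by_cases hb : b ∈ F
    · rw [ext_mem hb, Pi.single_eq_of_ne (by simpa using hab.symm)] at this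
      norm_num at this
    · rw [ext_notMem hb] at this
      simp at this
  · have := congrArg (fun l : (F → ℝ) →L[ℝ] ℝ => l (Pi.single ⟨b, h⟩ 1)) h0
    simp only [_root_.sub_apply, extC_apply, _root_.zero_apply] at this
    rw [ext_mem h, Pi.single_eq_same] at this
    by_cases ha : a ∈ F
    · rw [ext_mem ha, Pi.single_eq_of_ne (by simpa using hab)] at this
      norm_num at this
    · rw [ext_notMem ha] at this
      simp at this

/-- A gradient takes a given value with probability zero. -/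
theorem volume_grad_eq {a b : U} (hab : a ≠ b) (h : a ∈ F ∨ b ∈ F) (s : ℝ) :
    volume {x : F → ℝ | ext F ξ x a - ext F ξ x b = s} = 0 := by
  have h1 := volume_hyper (extC_sub_ne (F := F) hab h)
    (s - ((if a ∈ F then 0 else ξ a) - (if b ∈ F then 0 else ξ b)))
  have e : {x : F → ℝ | ext F ξ x a - ext F ξ x b = s} =
      {x : F → ℝ | (extC F a - extC F b) x =
        s - ((if a ∈ F then 0 else ξ a) - (if b ∈ F then 0 else ξ b))} := by
    ext x
    simp only [mem_ofPred_eq, _root_.sub_apply, extC_apply]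
    rw [ext_split x a, ext_split x b]
    constructor <;> intro h <;> linarith
  rw [e, h1]

theorem volume_tight_eq {a b : U} (hab : a ≠ b) (h : a ∈ F ∨ b ∈ F) :
    volume {x : F → ℝ | |ext F ξ x a - ext F ξ x b| = 1} = 0 := by
  have h1 := volume_grad_eq (ξ := ξ) hab h 1
  have h2 := volume_grad_eq (ξ := ξ) hab h (-1)
  refine measure_mono_null ?_ (measure_union_null h1 h2)
  intro x hx
  have hx' : |ext F ξ x a - ext F ξ x b| = 1 := hx
  rcases (abs_eq (by norm_num : (0:ℝ) ≤ 1)).mp hx' with h | h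
  · exact Or.inl h
  · exact Or.inr h

/-- Data supported on `Z`. -/
def dat (Z : Finset U) (z : Z → ℝ) : U → ℝ := ext Z 0 z

theorem continuous_dat_ext (x : F → ℝ) (u : U) : Continuous fun z : Z → ℝ => ext F (dat Z z) x u := by
  by_cases h : u ∈ F
  · simp only [ext_mem h]; exact continuous_const
  · simp only [ext_notMem h]; exact continuous_ext (F := Z) (ξ := 0) u

theorem dat_bound {z : Z → ℝ} {M : ℝ} (hM : 0 ≤ M) (h : ∀ y, |z y| ≤ M) (u : U) : |dat Z z u| ≤ M := by
  by_cases hu : u ∈ Z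
  · rw [dat, ext_mem hu]; exact h _
  · rw [dat, ext_notMem hu]; simpa using hM

/-- Continuity in the data. -/
theorem continuous_int (hA : Anch F E) (hE : Proper F E) {f : (F → ℝ) → ℝ} (hf : Measurable f)
    {C : ℝ} (hC : ∀ x, |f x| ≤ C) :
    Continuous fun z : Z → ℝ => ∫ x in ham F E (dat Z z), f x := by
  rw [continuous_iff_continuousAt]
  intro z0
  obtain ⟨R, hR⟩ := ham_bound (F := F) hA (‖z0‖ + 1)
  have e : (fun z : Z → ℝ => ∫ x in ham F E (dat Z z), f x) =
      fun z : Z → ℝ => ∫ x, (ham F E (dat Z z)).indicator f x := by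
    funext z
    rw [integral_indicator measurableSet_ham]
  rw [e]
  set B : Set (F → ℝ) := Metric.closedBall 0 (max R 0) with hB
  have hBm : MeasurableSet B := Metric.isClosed_closedBall.measurableSet
  refine continuousAt_of_dominated (bound := B.indicator fun _ => C) ?_ ?_ ?_ ?_
  · exact Eventually.of_forall fun z => (hf.indicator measurableSet_ham).aestronglyMeasurable
  · filter_upwards [Metric.ball_mem_nhds z0 one_pos] with z hz
    refine Eventually.of_forall fun x => ?_
    by_cases hx : x ∈ ham F E (dat Z z)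
    · have hxB : x ∈ B := by
        rw [hB, mem_closedBall_zero_iff, pi_norm_le_iff_of_nonneg (le_max_right _ _)]
        intro v
        rw [Real.norm_eq_abs]
        refine (hR (dat Z z) ?_ x hx v).trans (le_max_left _ _)
        have hz' : ‖z‖ ≤ ‖z0‖ + 1 := by
          have h1 : ‖z - z0‖ < 1 := by rwa [← dist_eq_norm]
          have h2 := norm_le_norm_add_norm_sub' z z0
          linarith
        refine dat_bound (by positivity) fun y => ?_
        have := norm_le_pi_norm z y
        rw [Real.norm_eq_abs] at this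
        linarith
      rw [indicator_of_mem hx, indicator_of_mem hxB, Real.norm_eq_abs]
      exact hC x
    · rw [indicator_of_notMem hx, norm_zero]
      by_cases hxB : x ∈ B
      · rw [indicator_of_mem hxB]
        exact (abs_nonneg _).trans (hC x)
      · rw [indicator_of_notMem hxB]
  · rw [integrable_indicator_iff hBm]
    exact integrableOn_const (isCompact_closedBall _ _).measure_lt_top.ne
  · have hae : ∀ᵐ x : F → ℝ, ∀ p ∈ E, |ext F (dat Z z0) x p.1 - ext F (dat Z z0) x p.2| ≠ 1 := by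
      rw [Filter.eventually_all_finset]
      intro p hp
      rw [ae_iff]
      simpa using volume_tight_eq (ξ := dat Z z0) (hE p hp).1 (hE p hp).2
    filter_upwards [hae] with x hx
    have hcont : ∀ p : U × U, Continuous fun z : Z → ℝ =>
        |ext F (dat Z z) x p.1 - ext F (dat Z z) x p.2| := fun p =>
      ((continuous_dat_ext x p.1).sub (continuous_dat_ext x p.2)).abs
    by_cases hx0 : x ∈ ham F E (dat Z z0)
    · have hev : ∀ᶠ z in 𝓝 z0, x ∈ ham F E (dat Z z) := by
        have : ∀ᶠ z in 𝓝 z0, ∀ p ∈ E, |ext F (dat Z z) x p.1 - ext F (dat Z z) x p.2| < 1 := by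
          rw [eventually_all_finset]
          intro p hp
          exact (hcont p).continuousAt.eventually_lt continuousAt_const
            (lt_of_le_of_ne (hx0 p hp) (hx p hp))
        filter_upwards [this] with z hz p hp
        exact (hz p hp).le
      refine (continuousAt_const (y := f x)).congr ?_
      filter_upwards [hev] with z hz
      rw [indicator_of_mem hz]
    · have hex : ∃ p ∈ E, 1 < |ext F (dat Z z0) x p.1 - ext F (dat Z z0) x p.2| := by
        by_contra hcon
        push Not at hcon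
        exact hx0 hcon
      obtain ⟨p, hp, hlt⟩ := hex
      refine (continuousAt_const (y := (0 : ℝ))).congr ?_
      filter_upwards [continuousAt_const.eventually_lt (hcont p).continuousAt hlt] with z hz
      rw [indicator_of_notMem]
      intro hmem
      exact absurd (hmem p hp) (not_le.mpr hz)

/-- A strict configuration gives positive volume. -/
theorem pos_of_strict {P : Set (F → ℝ)} (hP : IsOpen P) {x : F → ℝ} (hxP : x ∈ P)
    (hx : ∀ q ∈ E, |ext F ξ x q.1 - ext F ξ x q.2| < 1) : 0 < volume (ham F E ξ ∩ P) := by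
  set O : Set (F → ℝ) := (⋂ q ∈ E, {x | |ext F ξ x q.1 - ext F ξ x q.2| < 1}) ∩ P with hO
  have hOo : IsOpen O := by
    refine IsOpen.inter ?_ hP
    exact isOpen_biInter_finset fun q _ =>
      isOpen_lt (((continuous_ext q.1).sub (continuous_ext q.2)).abs) continuous_const
  have hxO : x ∈ O := ⟨by simpa using hx, hxP⟩
  refine lt_of_lt_of_le (hOo.measure_pos volume ⟨x, hxO⟩) (measure_mono ?_)
  rintro y ⟨hy, hyP⟩
  refine ⟨fun q hq => ?_, hyP⟩
  have := mem_iInter₂.mp hy q hq
  exact (show |ext F ξ y q.1 - ext F ξ y q.2| < 1 from this).le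

/-- Volume as a real number. -/
def Vr (F : Finset U) (E : Finset (U × U)) (ξ : U → ℝ) : ℝ := volume.real (ham F E ξ)

/-- Brunn–Minkowski deficit. -/
def Del (F : Finset U) (E : Finset (U × U)) (ξ η : U → ℝ) : ℝ :=
  Real.log (Vr F E ((1 / 2 : ℝ) • ξ + (1 / 2 : ℝ) • η)) - 1 / 2 * Real.log (Vr F E ξ) -
    1 / 2 * Real.log (Vr F E η)

theorem Vr_nonneg : 0 ≤ Vr F E ξ := measureReal_nonneg

theorem Vr_mul_le (hA : Anch F E) :
    Vr F E ξ * Vr F E η ≤ Vr F E ((1 / 2 : ℝ) • ξ + (1 / 2 : ℝ) • η) ^ 2 := by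
  have h1 := vol_mul_le_sq (A₁ := ham F E ξ) (A₂ := ham F E η)
    (B := ham F E ((1 / 2 : ℝ) • ξ + (1 / 2 : ℝ) • η)) measurableSet_ham measurableSet_ham
    measurableSet_ham (fun x hx y hy =>
      ham_comb (by norm_num) (by norm_num) (by norm_num) hx hy)
  have h2 := ENNReal.toReal_mono (ENNReal.pow_ne_top (volume_ham_lt_top hA).ne) h1
  rw [ENNReal.toReal_mul, ENNReal.toReal_pow] at h2
  exact h2

theorem Vr_mid_pos (hA : Anch F E) (h1 : 0 < Vr F E ξ) (h2 : 0 < Vr F E η) :
    0 < Vr F E ((1 / 2 : ℝ) • ξ + (1 / 2 : ℝ) • η) := by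
  have h3 := Vr_mul_le (ξ := ξ) (η := η) hA
  have h4 : 0 < Vr F E ((1 / 2 : ℝ) • ξ + (1 / 2 : ℝ) • η) ^ 2 := lt_of_lt_of_le (mul_pos h1 h2) h3
  have h5 := Vr_nonneg (F := F) (E := E) (ξ := (1 / 2 : ℝ) • ξ + (1 / 2 : ℝ) • η)
  rcases eq_or_lt_of_le h5 with h6 | h6
  · rw [← h6] at h4; norm_num at h4
  · exact h6

theorem Del_nonneg (hA : Anch F E) (h1 : 0 < Vr F E ξ) (h2 : 0 < Vr F E η) : 0 ≤ Del F E ξ η := by
  have h3 := Vr_mul_le (ξ := ξ) (η := η) hA
  have h4 := Vr_mid_pos hA h1 h2
  have h5 := Real.log_le_log (mul_pos h1 h2) h3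
  rw [Real.log_mul h1.ne' h2.ne', Real.log_pow] at h5
  push_cast at h5
  unfold Del
  linarith

theorem sq_le_of_Del (hA : Anch F E) (h1 : 0 < Vr F E ξ) (h2 : 0 < Vr F E η)
    (h : Del F E ξ η ≤ 0) :
    Vr F E ((1 / 2 : ℝ) • ξ + (1 / 2 : ℝ) • η) ^ 2 ≤ Vr F E ξ * Vr F E η := by
  have h4 := Vr_mid_pos hA h1 h2
  unfold Del at h
  have h5 : Real.log (Vr F E ((1 / 2 : ℝ) • ξ + (1 / 2 : ℝ) • η) ^ 2) ≤
      Real.log (Vr F E ξ * Vr F E η) := by
    rw [Real.log_mul h1.ne' h2.ne', Real.log_pow]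
    push_cast
    linarith
  exact (Real.log_le_log_iff (by positivity) (mul_pos h1 h2)).mp h5

/-- Mean of `f` under the uniform law with data `ξ`. -/
def mean (F : Finset U) (E : Finset (U × U)) (f : (F → ℝ) → ℝ) (ξ : U → ℝ) : ℝ :=
  ∫ x, f x ∂(hamP F E ξ)

theorem mean_eq (f : (F → ℝ) → ℝ) : mean F E f ξ = (∫ x in ham F E ξ, f x) / Vr F E ξ :=
  integral_hamP_real f

/-- `f` only depends on the gradients of the core. -/
def CoreObs (core : Finset (U × U)) (f : (F → ℝ) → ℝ) : Prop :=
  ∀ w : F → ℝ, (∀ p ∈ core, ext F 0 w p.1 = ext F 0 w p.2) → ∀ x, f (x + w) = f x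

/-- Flexible data: every core gradient can be made close to `1`. -/
def Flex (F : Finset U) (E : Finset (U × U)) (core : Finset (U × U)) (ξ : U → ℝ) : Prop :=
  ∀ p ∈ core, ∀ s < 1, ∃ x : F → ℝ, (∀ q ∈ E, |ext F ξ x q.1 - ext F ξ x q.2| < 1) ∧
    s < ext F ξ x p.1 - ext F ξ x p.2

/-- Equality case for the window. -/
theorem mean_eq_of_Del {core : Finset (U × U)} (hA : Anch F E) (hcF : ∀ p ∈ core, p.1 ∈ F ∧ p.2 ∈ F)
    (hcE : core ⊆ E) (hξ : Flex F E core ξ) (hη : Flex F E core η)
    (h1 : 0 < Vr F E ξ) (h2 : 0 < Vr F E η) (h : Del F E ξ η ≤ 0)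
    {f : (F → ℝ) → ℝ} (hf : Measurable f) (hfc : CoreObs core f) :
    mean F E f ξ = mean F E f η := by
  obtain ⟨w, hw⟩ := bm_translate (K0 := ham F E ξ) (K1 := ham F E η)
    (K := ham F E ((1 / 2 : ℝ) • ξ + (1 / 2 : ℝ) • η)) convex_ham convex_ham convex_ham
    (isCompact_ham hA) (isCompact_ham hA) (isCompact_ham hA) h1 h2
    (fun x hx y hy => ham_comb (by norm_num) (by norm_num) (by norm_num) hx hy)
    (sq_le_of_Del hA h1 h2 h)
  -- the reverse translation
  have hw' : uP (ham F E ξ) = (uP (ham F E η)).map (fun x => x + (-w)) := by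
    rw [hw, Measure.map_map (measurable_add_const _) (measurable_add_const _)]
    have : (fun x : F → ℝ => x + -w) ∘ (fun x => x + w) = id := by
      funext x; simp
    rw [this, Measure.map_id]
  have hcore : ∀ p ∈ core, ext F 0 w p.1 = ext F 0 w p.2 := by
    intro p hp
    obtain ⟨hp1, hp2⟩ := hcF p hp
    have hval : ∀ (ζ : U → ℝ) (x : F → ℝ), (extC F p.1 - extC F p.2) x =
        ext F ζ x p.1 - ext F ζ x p.2 := by
      intro ζ x
      simp only [_root_.sub_apply, extC_apply]
      rw [ext_mem hp1, ext_mem hp2, ext_mem hp1, ext_mem hp2]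
    have hle : ∀ (ζ : U → ℝ), ∀ x ∈ ham F E ζ, (extC F p.1 - extC F p.2) x ≤ 1 := by
      intro ζ x hx
      rw [hval ζ x]
      exact (abs_le.mp (hx p (hcE hp))).2
    have hpos : ∀ (ζ : U → ℝ), Flex F E core ζ → ∀ s < 1,
        0 < volume (ham F E ζ ∩ {x | s < (extC F p.1 - extC F p.2) x}) := by
      intro ζ hζ s hs
      obtain ⟨x, hx, hxs⟩ := hζ p hp s hs
      refine pos_of_strict (isOpen_lt continuous_const (ContinuousLinearMap.continuous _)) ?_ hx
      show s < (extC F p.1 - extC F p.2) x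
      rw [hval ζ x]; exact hxs
    have a1 := le_zero_of_sup (L := extC F p.1 - extC F p.2) h1 hw (hle η) (hpos ξ hξ)
    have a2 := le_zero_of_sup (L := extC F p.1 - extC F p.2) h2 hw' (hle ξ) (hpos η hη)
    rw [map_neg] at a2
    have a3 : (extC F p.1 - extC F p.2) w = 0 := by linarith
    simp only [_root_.sub_apply, extC_apply] at a3
    linarith
  exact (integral_eq_of_translate hw hf (fun x => hfc w hcore x)).symm

/-- The data enters only through `Z`. -/
def Bd (F Z : Finset U) (E : Finset (U × U)) : Prop :=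
  ∀ p ∈ E, (p.1 ∉ F → p.1 ∈ Z) ∧ (p.2 ∉ F → p.2 ∈ Z)

theorem dat_mid (z z' : Z → ℝ) :
    (1 / 2 : ℝ) • dat Z z + (1 / 2 : ℝ) • dat Z z' = dat Z ((1 / 2 : ℝ) • z + (1 / 2 : ℝ) • z') := by
  funext u
  simp only [dat, Pi.add_apply, Pi.smul_apply, smul_eq_mul]
  by_cases h : u ∈ Z
  · rw [ext_mem h, ext_mem h, ext_mem h]; simp
  · rw [ext_notMem h, ext_notMem h, ext_notMem h]; simp

/-- Restriction of the data to `Z`. -/
theorem ham_dat (hB : Bd F Z E) (ξ : U → ℝ) :
    ham F E (dat Z fun y => ξ y) = ham F E ξ := by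
  refine ham_congr fun p hp => ⟨fun h => ?_, fun h => ?_⟩
  · rw [dat, ext_mem ((hB p hp).1 h)]
  · rw [dat, ext_mem ((hB p hp).2 h)]

/-- Adding a constant to the data. -/
theorem ham_shift (hB : Bd F Z E) (z : Z → ℝ) (c : ℝ) :
    ham F E (dat Z fun y => z y + c) = (fun x => x + fun _ => -c) ⁻¹' ham F E (dat Z z) := by
  ext x
  simp only [ham, mem_ofPred_eq, mem_preimage]
  refine forall₂_congr fun p hp => ?_
  have key : ∀ u, (u ∉ F → u ∈ Z) →
      ext F (dat Z fun y => z y + c) x u = ext F (dat Z z) (x + fun _ => -c) u + c := by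
    intro u hu
    by_cases h : u ∈ F
    · rw [ext_mem h, ext_mem h]; simp
    · rw [ext_notMem h, ext_notMem h, dat, dat, ext_mem (hu h), ext_mem (hu h)]
  rw [key _ (hB p hp).1, key _ (hB p hp).2]
  rw [show ∀ a b : ℝ, a + c - (b + c) = a - b from fun a b => by ring]

theorem Vr_shift (hB : Bd F Z E) (z : Z → ℝ) (c : ℝ) :
    Vr F E (dat Z fun y => z y + c) = Vr F E (dat Z z) := by
  unfold Vr
  rw [ham_shift hB z c, Measure.real, Measure.real, measure_preimage_add_right]

theorem mean_shift {core : Finset (U × U)} (hB : Bd F Z E)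
    (hcF : ∀ p ∈ core, p.1 ∈ F ∧ p.2 ∈ F) {f : (F → ℝ) → ℝ}
    (hfc : CoreObs core f) (z : Z → ℝ) (c : ℝ) :
    mean F E f (dat Z fun y => z y + c) = mean F E f (dat Z z) := by
  rw [mean_eq, mean_eq, Vr_shift hB z c]
  congr 1
  rw [ham_shift hB z c]
  have hmp : MeasurePreserving (fun x : F → ℝ => x + fun _ => -c) volume volume :=
    measurePreserving_add_right volume _
  have hemb : MeasurableEmbedding (fun x : F → ℝ => x + fun _ => -c) :=
    measurableEmbedding_addRight _
  rw [← hmp.setIntegral_preimage_emb hemb f (ham F E (dat Z z))]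
  refine setIntegral_congr_fun (hmp.measurable measurableSet_ham) fun x _ => ?_
  refine (hfc (fun _ => -c) (fun p hp => ?_) x).symm
  rw [ext_mem (hcF p hp).1, ext_mem (hcF p hp).2]

theorem Del_shift (hB : Bd F Z E) (z z' : Z → ℝ) (c c' : ℝ) :
    Del F E (dat Z fun y => z y + c) (dat Z fun y => z' y + c') = Del F E (dat Z z) (dat Z z') := by
  unfold Del
  rw [Vr_shift hB, Vr_shift hB, dat_mid, dat_mid]
  have : (1 / 2 : ℝ) • (fun y => z y + c) + (1 / 2 : ℝ) • (fun y => z' y + c') =
      fun y : Z => ((1 / 2 : ℝ) • z + (1 / 2 : ℝ) • z') y + (c + c') / 2 := by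
    funext y
    simp only [Pi.add_apply, Pi.smul_apply, smul_eq_mul]
    ring
  rw [this, Vr_shift hB]

/-- **WINDOW LEMMA**. -/
theorem window_kappa {core : Finset (U × U)} (hA : Anch F E) (hE : Proper F E) (hB : Bd F Z E)
    (hcF : ∀ p ∈ core, p.1 ∈ F ∧ p.2 ∈ F) (hcE : core ⊆ E)
    {G : Set (Z → ℝ)} (hGc : IsClosed G) (hGs : ∀ z ∈ G, ∀ c : ℝ, (fun y => z y + c) ∈ G)
    {D : ℝ} (hD : ∀ z ∈ G, ∀ y y', |z y - z y'| ≤ D)
    (hGf : ∀ z ∈ G, Flex F E core (dat Z z)) (hGp : ∀ z ∈ G, 0 < Vr F E (dat Z z))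
    {f : (F → ℝ) → ℝ} (hf : Measurable f) {C : ℝ} (hfC : ∀ x, |f x| ≤ C) (hfc : CoreObs core f)
    {ε : ℝ} (hε : 0 < ε) :
    ∃ κ > 0, ∀ z ∈ G, ∀ z' ∈ G, ε ≤ |mean F E f (dat Z z) - mean F E f (dat Z z')| →
      κ ≤ Del F E (dat Z z) (dat Z z') := by
  -- continuity
  have hV : Continuous fun z : Z → ℝ => Vr F E (dat Z z) := by
    have := continuous_int (Z := Z) hA hE (f := fun _ => (1 : ℝ)) measurable_const (C := 1) (by simp)
    refine this.congr fun z => ?_
    simp [Vr]
  have hM : ContinuousOn (fun z : Z → ℝ => mean F E f (dat Z z)) G := by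
    have h1 : (fun z : Z → ℝ => mean F E f (dat Z z)) =
        fun z => (∫ x in ham F E (dat Z z), f x) / Vr F E (dat Z z) := by
      funext z; exact mean_eq f
    rw [h1]
    exact (continuous_int hA hE hf hfC).continuousOn.div hV.continuousOn
      fun z hz => (hGp z hz).ne'
  set D' := max D 0 with hD'
  set G0 := G ∩ Metric.closedBall 0 D' with hG0
  have hG0c : IsCompact G0 := (isCompact_closedBall _ _).inter_left hGc
  have hnorm : ∀ z ∈ G, ∃ c : ℝ, (fun y => z y + c) ∈ G0 := by
    intro z hz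
    by_cases hne : Nonempty Z
    · obtain ⟨y0⟩ := hne
      refine ⟨-z y0, hGs z hz _, ?_⟩
      rw [mem_closedBall_zero_iff, pi_norm_le_iff_of_nonneg (le_max_right _ _)]
      intro y
      rw [Real.norm_eq_abs, ← sub_eq_add_neg]
      exact (hD z hz y y0).trans (le_max_left _ _)
    · refine ⟨0, hGs z hz _, ?_⟩
      rw [mem_closedBall_zero_iff, pi_norm_le_iff_of_nonneg (le_max_right _ _)]
      intro y
      exact absurd ⟨y⟩ hne
  set K0 := G0 ×ˢ G0 with hK0
  have hK0c : IsCompact K0 := hG0c.prod hG0c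
  have hdiff : ContinuousOn (fun q : (Z → ℝ) × (Z → ℝ) =>
      |mean F E f (dat Z q.1) - mean F E f (dat Z q.2)|) K0 := by
    refine (ContinuousOn.sub ?_ ?_).abs
    · exact hM.comp continuous_fst.continuousOn fun q hq => hq.1.1
    · exact hM.comp continuous_snd.continuousOn fun q hq => hq.2.1
  set K := K0 ∩ (fun q : (Z → ℝ) × (Z → ℝ) =>
      |mean F E f (dat Z q.1) - mean F E f (dat Z q.2)|) ⁻¹' Ici ε with hK
  have hKclosed : IsClosed K := hdiff.preimage_isClosed_of_isClosed hK0c.isClosed isClosed_Ici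
  have hKc : IsCompact K := hK0c.of_isClosed_subset hKclosed inter_subset_left
  have hDel : ContinuousOn (fun q : (Z → ℝ) × (Z → ℝ) => Del F E (dat Z q.1) (dat Z q.2)) K := by
    unfold Del
    refine ((ContinuousOn.log ?_ ?_).sub (continuousOn_const.mul (ContinuousOn.log ?_ ?_))).sub
      (continuousOn_const.mul (ContinuousOn.log ?_ ?_))
    · have : (fun q : (Z → ℝ) × (Z → ℝ) =>
          Vr F E ((1 / 2 : ℝ) • dat Z q.1 + (1 / 2 : ℝ) • dat Z q.2)) =
          fun q => Vr F E (dat Z ((1 / 2 : ℝ) • q.1 + (1 / 2 : ℝ) • q.2)) := by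
        funext q; rw [dat_mid]
      rw [this]
      exact (hV.comp (by fun_prop)).continuousOn
    · intro q hq
      exact (Vr_mid_pos hA (hGp _ hq.1.1.1) (hGp _ hq.1.2.1)).ne'
    · exact (hV.comp continuous_fst).continuousOn
    · intro q hq; exact (hGp _ hq.1.1.1).ne'
    · exact (hV.comp continuous_snd).continuousOn
    · intro q hq; exact (hGp _ hq.1.2.1).ne'
  -- minimum
  have hmain : ∃ κ > 0, ∀ q ∈ K, κ ≤ Del F E (dat Z q.1) (dat Z q.2) := by
    rcases K.eq_empty_or_nonempty with hemp | hne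
    · exact ⟨1, one_pos, fun q hq => by rw [hemp] at hq; exact absurd hq (notMem_empty q)⟩
    · obtain ⟨q0, hq0, hmin⟩ := hKc.exists_isMinOn hne hDel
      refine ⟨Del F E (dat Z q0.1) (dat Z q0.2), ?_, fun q hq => hmin hq⟩
      by_contra hcon
      push Not at hcon
      have h1 := mean_eq_of_Del hA hcF hcE (hGf _ hq0.1.1.1) (hGf _ hq0.1.2.1)
        (hGp _ hq0.1.1.1) (hGp _ hq0.1.2.1) hcon hf hfc
      have h2 : ε ≤ |mean F E f (dat Z q0.1) - mean F E f (dat Z q0.2)| := hq0.2
      rw [h1, sub_self, abs_zero] at h2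
      linarith
  obtain ⟨κ, hκ, hmin⟩ := hmain
  refine ⟨κ, hκ, fun z hz z' hz' hεz => ?_⟩
  obtain ⟨c, hc⟩ := hnorm z hz
  obtain ⟨c', hc'⟩ := hnorm z' hz'
  have h1 := hmin ((fun y => z y + c), (fun y => z' y + c')) ⟨⟨hc, hc'⟩, by
    show ε ≤ _
    simp only
    rw [mean_shift hB hcF hfc, mean_shift hB hcF hfc]
    exact hεz⟩
  simp only at h1
  rwa [Del_shift hB] at h1

end Crest.Agent.R144.Lw425
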