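import Mathlib
import Crest.Agent.R144.MW1_121
import Crest.Agent.R144.Lw4_425

-- ▼ part R144/BQ1_565
section

/-!
R144 (S0197), helper565.  The quadratic-form block (Q) of doc 1613 (helper296), part 1: abstract
linear algebra.

`B` is a symmetric positive semidefinite bilinear form on a real vector space `M`, `V` a submodule,
`L : κ → M` a finite family.  For `ξ : κ → ℝ`,

  `qinf B V L ξ = ⨅ z : V, B (∑ ξ_i L_i + z) (∑ ξ_i L_i + z)`

is a quadratic form in `ξ`, with symmetric positive semidefinite matrix `qmat B V L` bounded by the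
Gram matrix of `L`, and there are near-minimisers which are LINEAR in `ξ`.
-/

set_option autoImplicit false

open Matrix

noncomputable section

namespace Crest.Agent.R144.BQ565

variable {M : Type*} [AddCommGroup M] [Module ℝ M]

/-- A symmetric positive semidefinite bilinear form. -/
structure IsPSD (B : M →ₗ[ℝ] M →ₗ[ℝ] ℝ) : Prop where
  symm : ∀ x y, B x y = B y x
  nonneg : ∀ x, 0 ≤ B x x

variable {B : M →ₗ[ℝ] M →ₗ[ℝ] ℝ} {V : Submodule ℝ M} {κ : Type*} [Fintype κ]

theorem IsPSD.add_sq (hB : IsPSD B) (x y : M) (t : ℝ) :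
    B (x + t • y) (x + t • y) = B x x + 2 * t * B x y + t ^ 2 * B y y := by
  simp only [map_add, map_smul, LinearMap.add_apply, LinearMap.smul_apply, smul_eq_mul]
  rw [hB.symm y x]; ring

theorem IsPSD.add_sq' (hB : IsPSD B) (x y : M) :
    B (x + y) (x + y) = B x x + 2 * B x y + B y y := by
  have := hB.add_sq x y 1
  simpa using this

/-- If `y` is a `δ²`-near minimiser over `y + V` then it is `δ`-almost orthogonal to `V`. -/
theorem IsPSD.almost_orth (hB : IsPSD B) {y : M} {d : ℝ}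
    (hy : ∀ z ∈ V, B y y - d ≤ B (y + z) (y + z)) {z : M} (hz : z ∈ V) :
    (B y z) ^ 2 ≤ d * B z z := by
  have h : ∀ t : ℝ, 0 ≤ B z z * (t * t) + 2 * B y z * t + d := by
    intro t
    have h1 := hy (t • z) (V.smul_mem t hz)
    rw [hB.add_sq] at h1
    nlinarith
  have := discrim_le_zero h
  unfold discrim at this
  nlinarith

/-- The linear combination of the family `L`. -/
def cmb (L : κ → M) (xi : κ → ℝ) : M := ∑ i, xi i • L i

theorem cmb_add (L : κ → M) (xi eta : κ → ℝ) : cmb L (xi + eta) = cmb L xi + cmb L eta := by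
  simp [cmb, add_smul, Finset.sum_add_distrib]


theorem cmb_add_fam (L Z : κ → M) (xi : κ → ℝ) : cmb (L + Z) xi = cmb L xi + cmb Z xi := by
  simp [cmb, smul_add, Finset.sum_add_distrib]

theorem cmb_single [DecidableEq κ] (L : κ → M) (i : κ) : cmb L (Pi.single i 1) = L i := by
  simp [cmb, Pi.single_apply]

theorem cmb_mem {Z : κ → M} (hZ : ∀ i, Z i ∈ V) (xi : κ → ℝ) : cmb Z xi ∈ V :=
  V.sum_mem fun i _ => V.smul_mem _ (hZ i)

theorem B_cmb (L : κ → M) (xi : κ → ℝ) :
    B (cmb L xi) (cmb L xi) = ∑ i, ∑ j, xi i * xi j * B (L i) (L j) := by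
  simp only [cmb, map_sum, LinearMap.sum_apply, map_smul, LinearMap.smul_apply, smul_eq_mul,
    Finset.mul_sum]
  rw [Finset.sum_comm]
  refine Finset.sum_congr rfl fun i _ => Finset.sum_congr rfl fun j _ => ?_
  ring

theorem B_cmb_left (L : κ → M) (xi : κ → ℝ) (z : M) :
    B (cmb L xi) z = ∑ i, xi i * B (L i) z := by
  simp only [cmb, map_sum, LinearMap.sum_apply, map_smul, LinearMap.smul_apply, smul_eq_mul]

variable (B V) in
/-- The infimum of the energy over the affine class `∑ ξ_i L_i + V`. -/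
def qinf (L : κ → M) (xi : κ → ℝ) : ℝ := ⨅ z : V, B (cmb L xi + z) (cmb L xi + z)

theorem qinf_bdd (hB : IsPSD B) (L : κ → M) (xi : κ → ℝ) :
    BddBelow (Set.range fun z : V => B (cmb L xi + z) (cmb L xi + z)) :=
  ⟨0, by rintro _ ⟨z, rfl⟩; exact hB.nonneg _⟩

theorem qinf_nonneg (hB : IsPSD B) (L : κ → M) (xi : κ → ℝ) : 0 ≤ qinf B V L xi :=
  le_ciInf (fun _ => hB.nonneg _)

theorem qinf_le (hB : IsPSD B) (L : κ → M) (xi : κ → ℝ) {x : M} (hx : x - cmb L xi ∈ V) :
    qinf B V L xi ≤ B x x := by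
  have := ciInf_le (qinf_bdd (V := V) hB L xi) ⟨x - cmb L xi, hx⟩
  simpa [qinf] using this

theorem le_qinf {L : κ → M} {xi : κ → ℝ} {c : ℝ}
    (h : ∀ x : M, x - cmb L xi ∈ V → c ≤ B x x) : c ≤ qinf B V L xi :=
  le_ciInf fun z => h _ (by simp)

theorem exists_near (_hB : IsPSD B) (L : κ → M) (xi : κ → ℝ) {eps : ℝ} (he : 0 < eps) :
    ∃ z ∈ V, B (cmb L xi + z) (cmb L xi + z) < qinf B V L xi + eps := by
  have : (⨅ z : V, B (cmb L xi + z) (cmb L xi + z)) < qinf B V L xi + eps := by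
    unfold qinf; linarith
  obtain ⟨z, hz⟩ := exists_lt_of_ciInf_lt this
  exact ⟨z, z.2, hz⟩

/-- **Linear near-minimisers.** -/
theorem exists_linear_near (hB : IsPSD B) (L : κ → M) {eps : ℝ} (he : 0 < eps) :
    ∃ Z : κ → M, (∀ i, Z i ∈ V) ∧ ∀ xi : κ → ℝ,
      B (cmb (L + Z) xi) (cmb (L + Z) xi) ≤ qinf B V L xi + eps * (∑ i, |xi i|) ^ 2 := by
  classical
  have h := fun i => exists_near (V := V) hB L (Pi.single i 1) he
  choose Z hZV hZ using h
  refine ⟨Z, hZV, fun xi => ?_⟩
  simp only [cmb_single] at hZ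
  -- near orthogonality of each `L i + Z i`
  have horth : ∀ i, ∀ z ∈ V, (B (L i + Z i) z) ^ 2 ≤ eps * B z z := by
    intro i z hz
    refine hB.almost_orth (V := V) (fun z' hz' => ?_) hz
    have h1 : qinf B V L (Pi.single i 1) ≤ B (L i + Z i + z') (L i + Z i + z') := by
      refine qinf_le hB L _ ?_
      rw [cmb_single]
      have : L i + Z i + z' - L i = Z i + z' := by abel
      rw [this]; exact V.add_mem (hZV i) hz'
    linarith [hZ i]
  have habs : ∀ i, ∀ z ∈ V, |B (L i + Z i) z| ≤ Real.sqrt (eps * B z z) := by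
    intro i z hz
    rw [← Real.sqrt_sq_eq_abs]
    exact Real.sqrt_le_sqrt (horth i z hz)
  set y := cmb (L + Z) xi with hy
  have hyz : ∀ z ∈ V, |B y z| ≤ (∑ i, |xi i|) * Real.sqrt (eps * B z z) := by
    intro z hz
    rw [hy, B_cmb_left, Finset.sum_mul]
    refine (Finset.abs_sum_le_sum_abs _ _).trans (Finset.sum_le_sum fun i _ => ?_)
    rw [abs_mul]
    exact mul_le_mul_of_nonneg_left (habs i z hz) (abs_nonneg _)
  have key : B y y - eps * (∑ i, |xi i|) ^ 2 ≤ qinf B V L xi := by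
    refine le_qinf fun x hx => ?_
    have hxy : x - y ∈ V := by
      have : x - y = (x - cmb L xi) - cmb Z xi := by rw [hy, cmb_add_fam]; abel
      rw [this]; exact V.sub_mem hx (cmb_mem hZV xi)
    have h1 : B x x = B y y + 2 * B y (x - y) + B (x - y) (x - y) := by
      have := hB.add_sq' y (x - y)
      rwa [show y + (x - y) = x by abel] at this
    have h2 := hyz _ hxy
    set E := B (x - y) (x - y) with hE
    have hE0 : 0 ≤ E := hB.nonneg _
    set S := ∑ i, |xi i|
    have hS : 0 ≤ S := Finset.sum_nonneg fun _ _ => abs_nonneg _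
    have h3 : S * Real.sqrt (eps * E) = (S * Real.sqrt eps) * Real.sqrt E := by
      rw [Real.sqrt_mul he.le]; ring
    rw [h3] at h2
    have h4 := neg_abs_le (B y (x - y))
    have h5 : Real.sqrt E ^ 2 = E := Real.sq_sqrt hE0
    have h6 : (S * Real.sqrt eps) ^ 2 = eps * S ^ 2 := by
      rw [mul_pow, Real.sq_sqrt he.le]; ring
    nlinarith [sq_nonneg (S * Real.sqrt eps - Real.sqrt E)]
  linarith

variable (B V) in
/-- The matrix of the quadratic form `qinf`. -/
def qmat [DecidableEq κ] (L : κ → M) : Matrix κ κ ℝ := Matrix.of fun i j =>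
  (qinf B V L (Pi.single i 1 + Pi.single j 1) - qinf B V L (Pi.single i 1) -
    qinf B V L (Pi.single j 1)) / 2

theorem abs_sub_le_of_near {a b c : ℝ} (h1 : b ≤ a) (h2 : a ≤ b + c) : |a - b| ≤ c := by
  rw [abs_le]; constructor <;> linarith

/-- **The infimum is a quadratic form.** -/
theorem qinf_eq [DecidableEq κ] (hB : IsPSD B) (L : κ → M) (xi : κ → ℝ) :
    qinf B V L xi = ∑ i, ∑ j, xi i * xi j * qmat B V L i j := by
  set S := ∑ i, |xi i| with hS
  have hS0 : 0 ≤ S := Finset.sum_nonneg fun _ _ => abs_nonneg _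
  have key : ∀ eps : ℝ, 0 < eps →
      |qinf B V L xi - ∑ i, ∑ j, xi i * xi j * qmat B V L i j| ≤ eps * (4 * S ^ 2) := by
    intro eps he
    obtain ⟨Z, hZV, hZ⟩ := exists_linear_near (V := V) hB L he
    have hlow : ∀ xi : κ → ℝ, qinf B V L xi ≤ B (cmb (L + Z) xi) (cmb (L + Z) xi) := by
      intro xi
      refine qinf_le hB L xi ?_
      rw [cmb_add_fam, add_sub_cancel_left]; exact cmb_mem hZV xi
    have hs1 : ∀ i : κ, ∑ j, |(Pi.single i (1 : ℝ) : κ → ℝ) j| = 1 := by
      intro i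
      rw [Finset.sum_eq_single i] <;> simp +contextual
    have hs2 : ∀ i j : κ, ∑ k, |(Pi.single i (1 : ℝ) + Pi.single j 1 : κ → ℝ) k| ≤ 2 := by
      intro i j
      calc _ ≤ ∑ k, (|(Pi.single i (1 : ℝ) : κ → ℝ) k| + |(Pi.single j (1 : ℝ) : κ → ℝ) k|) :=
            Finset.sum_le_sum fun k _ => abs_add_le _ _
        _ = 2 := by rw [Finset.sum_add_distrib, hs1, hs1]; norm_num
    have hd : ∀ xi : κ → ℝ, |B (cmb (L + Z) xi) (cmb (L + Z) xi) - qinf B V L xi| ≤
        eps * (∑ i, |xi i|) ^ 2 := fun xi => abs_sub_le_of_near (hlow xi) (hZ xi)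
    have hm : ∀ i j, |B ((L + Z) i) ((L + Z) j) - qmat B V L i j| ≤ 3 * eps := by
      intro i j
      have e1 : B (cmb (L + Z) (Pi.single i 1 + Pi.single j 1))
          (cmb (L + Z) (Pi.single i 1 + Pi.single j 1)) =
          B ((L + Z) i) ((L + Z) i) + 2 * B ((L + Z) i) ((L + Z) j) +
            B ((L + Z) j) ((L + Z) j) := by
        rw [cmb_add, cmb_single, cmb_single, hB.add_sq']
      have a1 := hd (Pi.single i 1 + Pi.single j 1)
      have a2 := hd (Pi.single i 1)
      have a3 := hd (Pi.single j 1)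
      rw [hs1, cmb_single] at a2 a3
      rw [e1] at a1
      have a4 : eps * (∑ k, |(Pi.single i (1 : ℝ) + Pi.single j 1 : κ → ℝ) k|) ^ 2 ≤ eps * 4 := by
        refine mul_le_mul_of_nonneg_left ?_ he.le
        have h0 : 0 ≤ ∑ k, |(Pi.single i (1 : ℝ) + Pi.single j 1 : κ → ℝ) k| :=
          Finset.sum_nonneg fun _ _ => abs_nonneg _
        nlinarith [hs2 i j]
      have a1' := a1.trans a4
      rw [abs_le] at a1' a2 a3 ⊢
      simp only [qmat, Matrix.of_apply]
      constructor <;> linarith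
    have h1 := hd xi
    rw [B_cmb] at h1
    have h2 : |∑ i, ∑ j, xi i * xi j * B ((L + Z) i) ((L + Z) j) -
        ∑ i, ∑ j, xi i * xi j * qmat B V L i j| ≤ 3 * eps * S ^ 2 := by
      rw [← Finset.sum_sub_distrib]
      calc _ ≤ ∑ i, |∑ j, xi i * xi j * B ((L + Z) i) ((L + Z) j) -
            ∑ j, xi i * xi j * qmat B V L i j| := Finset.abs_sum_le_sum_abs _ _
        _ ≤ ∑ i, ∑ j, |xi i| * |xi j| * (3 * eps) := by
            refine Finset.sum_le_sum fun i _ => ?_
            rw [← Finset.sum_sub_distrib]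
            refine (Finset.abs_sum_le_sum_abs _ _).trans (Finset.sum_le_sum fun j _ => ?_)
            rw [← mul_sub, abs_mul, abs_mul]
            exact mul_le_mul_of_nonneg_left (hm i j) (by positivity)
        _ = 3 * eps * S ^ 2 := by
            simp only [← Finset.sum_mul, ← Finset.mul_sum]
            rw [← hS]; ring
    calc |qinf B V L xi - ∑ i, ∑ j, xi i * xi j * qmat B V L i j|
        = |(∑ i, ∑ j, xi i * xi j * B ((L + Z) i) ((L + Z) j) -
            ∑ i, ∑ j, xi i * xi j * qmat B V L i j) -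
          (∑ i, ∑ j, xi i * xi j * B ((L + Z) i) ((L + Z) j) - qinf B V L xi)| := by
          congr 1; ring
      _ ≤ _ := abs_sub _ _
      _ ≤ 3 * eps * S ^ 2 + eps * S ^ 2 := add_le_add h2 h1
      _ = eps * (4 * S ^ 2) := by ring
  by_contra hne
  have hpos : 0 < |qinf B V L xi - ∑ i, ∑ j, xi i * xi j * qmat B V L i j| :=
    abs_pos.mpr (sub_ne_zero.mpr hne)
  set D := |qinf B V L xi - ∑ i, ∑ j, xi i * xi j * qmat B V L i j|
  have h4 : 0 < 4 * S ^ 2 + 1 := by positivity
  have := key (D / (2 * (4 * S ^ 2 + 1))) (by positivity)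
  have h5 : D / (2 * (4 * S ^ 2 + 1)) * (4 * S ^ 2) < D := by
    rw [div_mul_eq_mul_div, div_lt_iff₀ (by positivity)]
    nlinarith [sq_nonneg S]
  linarith

theorem qmat_symm [DecidableEq κ] (L : κ → M) : (qmat B V L).IsSymm := by
  ext i j
  simp only [qmat, Matrix.transpose_apply, Matrix.of_apply]
  have e : (Pi.single j (1 : ℝ) + Pi.single i 1 : κ → ℝ) = Pi.single i 1 + Pi.single j 1 :=
    add_comm _ _
  rw [e]; ring








end Crest.Agent.R144.BQ565
end
end

-- ▼ part R144/BQ2_565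
section

/-!
R144 (S0197), helper565.  The quadratic-form block (Q) of doc 1613, part 2: the concrete class.

Fields `Y : (I → ℝ) → (I → ℝ)` on the inside `I` of a block with frozen data `ζ` and boundary labels
`W`; the labels are `ext I W (Y x)`.

* `llip`: the space of locally Lipschitz fields; `nrgB μ`: the energy form `∫ ∑ jac Y u v * jac Y' u v ∂μ`.
* `Adm I E ζ W Y`: rigid near the walls.
* `bqm μ I E ζ W`: infimum of `∫ en Y ∂μ`; `bq` for `μ = hamP I E ζ`.
* `bqm_quad`: quadratic form; `bqm_linear_near`.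
-/

set_option autoImplicit false
set_option linter.unusedSectionVars false

open MeasureTheory Set Filter Topology
open scoped ENNReal NNReal

noncomputable section

namespace Crest.Agent.R144.BQ565

open Crest.Agent.R144.Ham560
open Crest.Agent.R144.MW121 (jac jac_apply en measurable_jac measurable_en en_nonneg)

section LL

variable {ι : Type*} [Fintype ι] [DecidableEq ι]

theorem llip_onball {Y : (ι → ℝ) → (ι → ℝ)} (hY : LocallyLipschitz Y) (R : ℝ) :
    ∃ C : ℝ≥0, LipschitzOnWith C Y (Metric.closedBall 0 R) :=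
  (hY.locallyLipschitzOn).exists_lipschitzOnWith_of_compact (isCompact_closedBall _ _)

theorem ae_differentiableAt {Y : (ι → ℝ) → (ι → ℝ)} (hY : LocallyLipschitz Y) :
    ∀ᵐ x, DifferentiableAt ℝ Y x := by
  have h : ∀ n : ℕ, ∀ᵐ x : ι → ℝ, x ∈ Metric.closedBall (0 : ι → ℝ) n →
      DifferentiableWithinAt ℝ Y (Metric.closedBall 0 n) x := by
    intro n
    obtain ⟨C, hC⟩ := llip_onball hY n
    exact hC.ae_differentiableWithinAt_of_mem
  filter_upwards [ae_all_iff.mpr h] with x hx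
  obtain ⟨n, hn⟩ := exists_nat_gt ‖x‖
  have hb : Metric.closedBall (0 : ι → ℝ) n ∈ 𝓝 x := by
    refine mem_of_superset (Metric.isOpen_ball.mem_nhds ?_) Metric.ball_subset_closedBall
    simpa using hn
  exact (hx n (by simpa using hn.le)).differentiableAt hb

theorem exists_jac_bound {Y : (ι → ℝ) → (ι → ℝ)} (hY : LocallyLipschitz Y) {K : Set (ι → ℝ)}
    (hK : Bornology.IsBounded K) : ∃ C : ℝ, 0 ≤ C ∧ ∀ x ∈ K, ∀ u v, |jac Y x u v| ≤ C := by
  obtain ⟨R, hR⟩ := hK.subset_ball 0
  obtain ⟨C, hC⟩ := llip_onball hY R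
  refine ⟨C, C.2, fun x hx u v => ?_⟩
  have hb : Metric.closedBall (0 : ι → ℝ) R ∈ 𝓝 x :=
    mem_of_superset (Metric.isOpen_ball.mem_nhds (hR hx)) Metric.ball_subset_closedBall
  have h1 : ‖fderiv ℝ Y x‖ ≤ C := norm_fderiv_le_of_lipschitzOn ℝ hb hC
  rw [jac_apply]
  have h2 : ‖fderiv ℝ Y x (Pi.single v 1)‖ ≤ C := by
    refine (ContinuousLinearMap.le_opNorm _ _).trans ?_
    rw [Pi.norm_single, norm_one, mul_one]; exact h1
  exact (norm_le_pi_norm (fderiv ℝ Y x (Pi.single v 1)) u).trans h2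

theorem jac_add {Y Z : (ι → ℝ) → (ι → ℝ)} {x : ι → ℝ} (hY : DifferentiableAt ℝ Y x)
    (hZ : DifferentiableAt ℝ Z x) (u v : ι) :
    jac (Y + Z) x u v = jac Y x u v + jac Z x u v := by
  simp only [jac_apply]
  rw [fderiv_add hY hZ]; rfl

theorem jac_smul' {Y : (ι → ℝ) → (ι → ℝ)} {x : ι → ℝ} (hY : DifferentiableAt ℝ Y x) (t : ℝ)
    (u v : ι) : jac (t • Y) x u v = t * jac Y x u v := by
  simp only [jac_apply]
  rw [fderiv_const_smul hY]; rfl

theorem locallyLipschitz_const_smul {Y : (ι → ℝ) → (ι → ℝ)} (hY : LocallyLipschitz Y) (t : ℝ) :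
    LocallyLipschitz (t • Y) := by
  have h : LipschitzWith ‖t‖₊ (fun y : ι → ℝ => t • y) := by
    refine LipschitzWith.of_dist_le_mul fun a b => ?_
    rw [dist_smul₀]; rfl
  exact h.locallyLipschitz.comp hY

variable (ι) in
/-- The space of locally Lipschitz fields. -/
def llip : Submodule ℝ ((ι → ℝ) → (ι → ℝ)) where
  carrier := {Y | LocallyLipschitz Y}
  add_mem' := fun ha hb => LocallyLipschitz.add ha hb
  zero_mem' := LocallyLipschitz.const 0
  smul_mem' := fun t _ h => locallyLipschitz_const_smul h t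

/-- A finite measure, absolutely continuous, concentrated on a bounded set. -/
structure GoodLaw (μ : Measure (ι → ℝ)) : Prop where
  fin : IsFiniteMeasure μ
  ac : μ ≪ volume
  conc : ∃ K : Set (ι → ℝ), Bornology.IsBounded K ∧ ∀ᵐ x ∂μ, x ∈ K

variable {μ : Measure (ι → ℝ)}

theorem GoodLaw.ae_diff (hμ : GoodLaw μ) {Y : (ι → ℝ) → (ι → ℝ)} (hY : LocallyLipschitz Y) :
    ∀ᵐ x ∂μ, DifferentiableAt ℝ Y x := hμ.ac.ae_le (ae_differentiableAt hY)

theorem GoodLaw.integrable_jac_mul (hμ : GoodLaw μ) {Y Z : (ι → ℝ) → (ι → ℝ)}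
    (hY : LocallyLipschitz Y) (hZ : LocallyLipschitz Z) (u v : ι) :
    Integrable (fun x => jac Y x u v * jac Z x u v) μ := by
  have := hμ.fin
  obtain ⟨K, hK, hae⟩ := hμ.conc
  obtain ⟨C, hC0, hC⟩ := exists_jac_bound hY hK
  obtain ⟨D, hD0, hD⟩ := exists_jac_bound hZ hK
  refine Integrable.of_bound (C := C * D)
    ((measurable_jac Y u v).mul (measurable_jac Z u v)).aestronglyMeasurable ?_
  filter_upwards [hae] with x hx
  rw [Real.norm_eq_abs, abs_mul]
  exact mul_le_mul (hC x hx u v) (hD x hx u v) (abs_nonneg _) hC0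

/-- The pointwise energy form. -/
def enB (Y Z : (ι → ℝ) → (ι → ℝ)) (x : ι → ℝ) : ℝ := ∑ u, ∑ v, jac Y x u v * jac Z x u v

theorem enB_self (Y : (ι → ℝ) → (ι → ℝ)) (x : ι → ℝ) : enB Y Y x = en Y x := by
  simp [enB, en, sq]

theorem GoodLaw.integrable_enB (hμ : GoodLaw μ) {Y Z : (ι → ℝ) → (ι → ℝ)}
    (hY : LocallyLipschitz Y) (hZ : LocallyLipschitz Z) : Integrable (enB Y Z) μ :=
  integrable_finsetSum _ fun u _ => integrable_finsetSum _ fun v _ =>
    hμ.integrable_jac_mul hY hZ u v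

theorem GoodLaw.integrable_en (hμ : GoodLaw μ) {Y : (ι → ℝ) → (ι → ℝ)}
    (hY : LocallyLipschitz Y) : Integrable (en Y) μ := by
  have := hμ.integrable_enB hY hY
  exact this.congr (Eventually.of_forall fun x => enB_self Y x)

/-- The energy form. -/
def nrgB (μ : Measure (ι → ℝ)) (hμ : GoodLaw μ) : llip ι →ₗ[ℝ] llip ι →ₗ[ℝ] ℝ :=
  LinearMap.mk₂ ℝ (fun Y Z => ∫ x, enB Y.1 Z.1 x ∂μ)
    (by
      intro Y Y' Z
      rw [← integral_add (hμ.integrable_enB Y.2 Z.2) (hμ.integrable_enB Y'.2 Z.2)]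
      refine integral_congr_ae ?_
      filter_upwards [hμ.ae_diff Y.2, hμ.ae_diff Y'.2] with x h1 h2
      simp only [enB, ← Finset.sum_add_distrib]
      refine Finset.sum_congr rfl fun u _ => Finset.sum_congr rfl fun v _ => ?_
      rw [show ((Y + Y' : llip ι) : (ι → ℝ) → (ι → ℝ)) = Y.1 + Y'.1 from rfl, jac_add h1 h2]
      ring)
    (by
      intro t Y Z
      rw [smul_eq_mul, ← integral_const_mul]
      refine integral_congr_ae ?_
      filter_upwards [hμ.ae_diff Y.2] with x h1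
      simp only [enB, Finset.mul_sum]
      refine Finset.sum_congr rfl fun u _ => Finset.sum_congr rfl fun v _ => ?_
      rw [show ((t • Y : llip ι) : (ι → ℝ) → (ι → ℝ)) = t • Y.1 from rfl, jac_smul' h1]
      ring)
    (by
      intro Z Y Y'
      rw [← integral_add (hμ.integrable_enB Z.2 Y.2) (hμ.integrable_enB Z.2 Y'.2)]
      refine integral_congr_ae ?_
      filter_upwards [hμ.ae_diff Y.2, hμ.ae_diff Y'.2] with x h1 h2
      simp only [enB, ← Finset.sum_add_distrib]
      refine Finset.sum_congr rfl fun u _ => Finset.sum_congr rfl fun v _ => ?_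
      rw [show ((Y + Y' : llip ι) : (ι → ℝ) → (ι → ℝ)) = Y.1 + Y'.1 from rfl, jac_add h1 h2]
      ring)
    (by
      intro t Z Y
      rw [smul_eq_mul, ← integral_const_mul]
      refine integral_congr_ae ?_
      filter_upwards [hμ.ae_diff Y.2] with x h1
      simp only [enB, Finset.mul_sum]
      refine Finset.sum_congr rfl fun u _ => Finset.sum_congr rfl fun v _ => ?_
      rw [show ((t • Y : llip ι) : (ι → ℝ) → (ι → ℝ)) = t • Y.1 from rfl, jac_smul' h1]
      ring)

theorem nrgB_apply (hμ : GoodLaw μ) (Y Z : llip ι) : nrgB μ hμ Y Z = ∫ x, enB Y.1 Z.1 x ∂μ := rfl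

theorem nrgB_self (hμ : GoodLaw μ) (Y : llip ι) : nrgB μ hμ Y Y = ∫ x, en Y.1 x ∂μ := by
  rw [nrgB_apply]
  exact integral_congr_ae (Eventually.of_forall fun x => enB_self _ x)

theorem isPSD_nrgB (hμ : GoodLaw μ) : IsPSD (nrgB μ hμ) where
  symm := fun Y Z => by
    rw [nrgB_apply, nrgB_apply]
    refine integral_congr_ae (Eventually.of_forall fun x => ?_)
    simp only [enB, mul_comm]
  nonneg := fun Y => by
    rw [nrgB_self]
    exact integral_nonneg fun x => en_nonneg _ _

end LL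

section Class

variable {U : Type*} [DecidableEq U] {I : Finset U} {E : Finset (U × U)} {ζ W W' : U → ℝ}

/-- Fields with boundary labels `W`, rigid near the walls. -/
structure Adm (I : Finset U) (E : Finset (U × U)) (ζ W : U → ℝ) (Y : (I → ℝ) → (I → ℝ)) : Prop where
  lip : LocallyLipschitz Y
  rig : ∃ ρ > 0, ∀ x ∈ ham I E ζ, ∀ p ∈ E, 1 - ρ ≤ |ext I ζ x p.1 - ext I ζ x p.2| →
    ext I W (Y x) p.1 = ext I W (Y x) p.2

theorem Adm.comb {Y Y' : (I → ℝ) → (I → ℝ)} (h : Adm I E ζ W Y) (h' : Adm I E ζ W' Y') (a b : ℝ) :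
    Adm I E ζ (a • W + b • W') (a • Y + b • Y') where
  lip := LocallyLipschitz.add (locallyLipschitz_const_smul h.lip a)
    (locallyLipschitz_const_smul h'.lip b)
  rig := by
    obtain ⟨r, hr, h1⟩ := h.rig
    obtain ⟨r', hr', h2⟩ := h'.rig
    refine ⟨min r r', lt_min hr hr', fun x hx p hp hq => ?_⟩
    have e1 := h1 x hx p hp (by have := min_le_left r r'; linarith)
    have e2 := h2 x hx p hp (by have := min_le_right r r'; linarith)
    change ext I (a • W + b • W') (a • Y x + b • Y' x) p.1 =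
      ext I (a • W + b • W') (a • Y x + b • Y' x) p.2
    rw [ext_comb, ext_comb, e1, e2]

theorem Adm.add {Y Y' : (I → ℝ) → (I → ℝ)} (h : Adm I E ζ W Y) (h' : Adm I E ζ W' Y') :
    Adm I E ζ (W + W') (Y + Y') := by simpa using h.comb h' 1 1

theorem Adm.sub {Y Y' : (I → ℝ) → (I → ℝ)} (h : Adm I E ζ W Y) (h' : Adm I E ζ W' Y') :
    Adm I E ζ (W - W') (Y - Y') := by
  have := h.comb h' 1 (-1)
  simpa [sub_eq_add_neg] using this

theorem Adm.smul {Y : (I → ℝ) → (I → ℝ)} (h : Adm I E ζ W Y) (a : ℝ) :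
    Adm I E ζ (a • W) (a • Y) := by
  have := h.comb h a 0
  simpa using this

theorem adm_const (c : ℝ) : Adm I E ζ (fun _ => c) (fun _ _ => c) where
  lip := LocallyLipschitz.const _
  rig := ⟨1, one_pos, fun x _ p _ _ => by
    have : ∀ u : U, ext I (fun _ => c) (fun _ => c) u = c := fun u => by
      by_cases h : u ∈ I
      · rw [ext_mem h]
      · rw [ext_notMem h]
    rw [this, this]⟩





variable {μ : Measure (I → ℝ)}






/-- Linear combination of label families. -/
def lab {κ : Type*} [Fintype κ] (W : κ → U → ℝ) (xi : κ → ℝ) : U → ℝ := ∑ i, xi i • W i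



theorem coe_cmb {κ : Type*} [Fintype κ] (L : κ → llip I) (xi : κ → ℝ) :
    ((cmb L xi : llip I) : (I → ℝ) → (I → ℝ)) = ∑ i, xi i • (L i : (I → ℝ) → (I → ℝ)) := by
  simp [cmb]













/-! ### The uniform law of the block -/

theorem goodLaw_hamP (hA : Anch I E) (hv : volume (ham I E ζ) ≠ 0) : GoodLaw (hamP I E ζ) where
  fin := by
    constructor
    rw [hamP, Measure.smul_apply, smul_eq_mul, Measure.restrict_apply_univ]
    exact ENNReal.mul_lt_top (ENNReal.inv_lt_top.mpr (pos_iff_ne_zero.mpr hv)) (volume_ham_lt_top hA)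
  ac := by
    rw [hamP]
    exact (Measure.smul_absolutelyContinuous).trans Measure.absolutelyContinuous_restrict
  conc := ⟨ham I E ζ, isBounded_ham hA, by
    rw [hamP]
    refine Measure.ae_smul_measure ?_ _
    exact ae_restrict_mem measurableSet_ham⟩






end Class

end Crest.Agent.R144.BQ565
end
end

-- ▼ part R144/BQ3_565

/-!
R144 (S0197), helper565.  The quadratic-form block (Q) of doc 1613, part 3.

* `LL.mul`, `LL.pi`, `LL.sum`: closure properties of locally Lipschitz functions;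
* `adm_nonempty`: if `W b = W b'` whenever `ζ b - ζ b' ∈ ℤ` (boundary sites) then there is an
  admissible field.  In particular every `W` is admissible for almost every `ζ`;
* `Adm.exists_rep`: globally Lipschitz bounded representatives;
* `Adm.add_const`, `bqm_add_const`, `Adm.shift`, `bq_shift`: invariance under constants.
-/

set_option autoImplicit false
set_option linter.unusedSectionVars false

open MeasureTheory Set Filter Topology
open scoped ENNReal NNReal

noncomputable section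

namespace Crest.Agent.R144.BQ565

open Crest.Agent.R144.Ham560
open Crest.Agent.R144.MW121 (jac jac_apply en measurable_jac measurable_en en_nonneg)

section LLsec

variable {X : Type*} [PseudoMetricSpace X]

theorem LL.mul {f g : X → ℝ} (hf : LocallyLipschitz f) (hg : LocallyLipschitz g) :
    LocallyLipschitz fun x => f x * g x := by
  have h1 : LocallyLipschitz (fun p : ℝ × ℝ => p.1 * p.2) :=
    ContDiff.locallyLipschitz (𝕂 := ℝ) (by fun_prop)
  exact h1.comp (hf.prodMk hg)

theorem LL.sum {κ : Type*} {s : Finset κ} {f : κ → X → ℝ} (hf : ∀ i ∈ s, LocallyLipschitz (f i)) :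
    LocallyLipschitz fun x => ∑ i ∈ s, f i x := by
  classical
  induction s using Finset.induction_on with
  | empty => simpa using LocallyLipschitz.const (0 : ℝ)
  | insert a s ha ih =>
    simp only [Finset.sum_insert ha]
    exact (hf a (Finset.mem_insert_self a s)).add
      (ih fun i hi => hf i (Finset.mem_insert_of_mem hi))

theorem LL.pi {κ : Type*} [Fintype κ] {f : X → κ → ℝ}
    (hf : ∀ i, LocallyLipschitz fun x => f x i) : LocallyLipschitz f := by
  intro x
  choose K t ht hK using fun i => hf i x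
  refine ⟨∑ i, K i, ⋂ i, t i, Filter.iInter_mem.mpr ht, ?_⟩
  refine LipschitzOnWith.of_dist_le_mul fun y hy z hz => ?_
  rw [dist_pi_le_iff (by positivity)]
  intro i
  have h1 := (hK i).dist_le_mul y (mem_iInter.mp hy i) z (mem_iInter.mp hz i)
  refine h1.trans (mul_le_mul_of_nonneg_right ?_ dist_nonneg)
  exact_mod_cast Finset.single_le_sum (f := K) (fun _ _ => zero_le) (Finset.mem_univ i)

theorem LL.comp_apply {κ : Type*} [Fintype κ] {f : X → κ → ℝ} (hf : LocallyLipschitz f) (i : κ) :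
    LocallyLipschitz fun x => f x i :=
  (LipschitzWith.eval i).locallyLipschitz.comp hf

/-- `s ↦ (max δ s)⁻¹` is Lipschitz. -/
theorem lip_inv_max {d : ℝ} (hd : 0 < d) : LipschitzWith ⟨(d ^ 2)⁻¹, by positivity⟩
    (fun s : ℝ => (max d s)⁻¹) := by
  refine LipschitzWith.of_dist_le_mul fun a b => ?_
  have ha : 0 < max d a := lt_max_of_lt_left hd
  have hb : 0 < max d b := lt_max_of_lt_left hd
  rw [Real.dist_eq, Real.dist_eq]
  have e : (max d a)⁻¹ - (max d b)⁻¹ = (max d b - max d a) * ((max d a)⁻¹ * (max d b)⁻¹) := by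
    field_simp
  rw [e, abs_mul]
  have h1 : |max d b - max d a| ≤ |a - b| := by
    rw [abs_sub_comm]
    exact abs_max_sub_max_le_abs a b d |>.trans_eq' (by rw [max_comm d a, max_comm d b])
  have h2 : |(max d a)⁻¹ * (max d b)⁻¹| ≤ (d ^ 2)⁻¹ := by
    rw [abs_of_pos (by positivity), ← mul_inv]
    refine inv_anti₀ (by positivity) ?_
    rw [sq]
    exact mul_le_mul (le_max_left _ _) (le_max_left _ _) hd.le ha.le
  change _ ≤ (d ^ 2)⁻¹ * |a - b|
  rw [mul_comm]
  exact mul_le_mul h2 h1 (abs_nonneg _) (by positivity)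

end LLsec

section Nonempty

variable {U : Type*} [DecidableEq U] {I : Finset U} {E : Finset (U × U)} {ζ W : U → ℝ}

/-- Endpoints of the edges. -/
def IsEnd (E : Finset (U × U)) (b : U) : Prop := ∃ p ∈ E, p.1 = b ∨ p.2 = b








end Nonempty

section Rep

variable {ι : Type*} [Fintype ι]

/-- Coordinatewise truncation to the box. -/
def clampB (R : ℝ) (x : ι → ℝ) : ι → ℝ := fun i => max (-R) (min R (x i))

theorem lip_clampB (R : ℝ) : LipschitzWith 1 (clampB (ι := ι) R) := by
  refine LipschitzWith.of_dist_le_mul fun x y => ?_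
  rw [NNReal.coe_one, one_mul, dist_pi_le_iff dist_nonneg]
  intro i
  have h1 : dist (clampB R x i) (clampB R y i) ≤ dist (x i) (y i) := by
    have h : LipschitzWith 1 (fun t : ℝ => max (-R) (min R t)) :=
      (LipschitzWith.id.const_min R).const_max (-R)
    have := h.dist_le_mul (x i) (y i)
    rw [NNReal.coe_one, one_mul] at this
    exact this
  exact h1.trans (dist_le_pi_dist x y i)

theorem clampB_mem {R : ℝ} (hR : 0 ≤ R) (x : ι → ℝ) :
    clampB R x ∈ Metric.closedBall (0 : ι → ℝ) R := by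
  rw [mem_closedBall_zero_iff, pi_norm_le_iff_of_nonneg hR]
  intro i
  rw [Real.norm_eq_abs, abs_le]
  exact ⟨le_max_left _ _, max_le (by linarith) (min_le_left _ _)⟩

theorem clampB_eq {R : ℝ} {x : ι → ℝ} (hx : ‖x‖ ≤ R) : clampB R x = x := by
  funext i
  have h := (norm_le_pi_norm x i).trans hx
  rw [Real.norm_eq_abs, abs_le] at h
  rw [clampB, min_eq_right h.2, max_eq_right h.1]

theorem exists_lip_rep [DecidableEq ι] {Y : (ι → ℝ) → (ι → ℝ)} (hY : LocallyLipschitz Y)
    {K : Set (ι → ℝ)} (hK : Bornology.IsBounded K) :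
    ∃ (Y' : (ι → ℝ) → (ι → ℝ)) (c : ℝ≥0), LipschitzWith c Y' ∧ (∃ M, ∀ x, ‖Y' x‖ ≤ M) ∧
      (∀ x ∈ K, Y' =ᶠ[𝓝 x] Y) := by
  obtain ⟨R0, hR0⟩ := hK.subset_ball 0
  set R := max R0 0
  have hR : 0 ≤ R := le_max_right _ _
  obtain ⟨C, hC⟩ := llip_onball hY R
  have hcont : ContinuousOn Y (Metric.closedBall 0 R) := hC.continuousOn
  obtain ⟨M, hM⟩ := (isCompact_closedBall (0 : ι → ℝ) R).exists_bound_of_continuousOn hcont
  refine ⟨fun x => Y (clampB R x), C, ?_, ⟨M, fun x => hM _ (clampB_mem hR x)⟩, fun x hx => ?_⟩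
  · have h := hC.comp ((lip_clampB (ι := ι) R).lipschitzOnWith (s := univ))
      (fun x _ => clampB_mem hR x)
    rw [mul_one, lipschitzOnWith_univ] at h
    exact h
  · have hb : Metric.ball (0 : ι → ℝ) R ∈ 𝓝 x := by
      refine Metric.isOpen_ball.mem_nhds ?_
      have := hR0 hx
      rw [mem_ball_zero_iff] at this ⊢
      exact lt_of_lt_of_le this (le_max_left _ _)
    filter_upwards [hb] with y hy
    rw [mem_ball_zero_iff] at hy
    rw [clampB_eq hy.le]

theorem jac_congr [DecidableEq ι] {Y Y' : (ι → ℝ) → (ι → ℝ)} {x : ι → ℝ} (h : Y' =ᶠ[𝓝 x] Y) :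
    jac Y' x = jac Y x := by
  ext u v
  rw [jac_apply, jac_apply, h.fderiv_eq]


end Rep

section Inv

variable {U : Type*} [DecidableEq U] {I : Finset U} {E : Finset (U × U)} {ζ ζ' W W' : U → ℝ}



theorem en_add_const {ι : Type*} [Fintype ι] [DecidableEq ι] (Y : (ι → ℝ) → (ι → ℝ)) (c : ι → ℝ)
    (x : ι → ℝ) : en (fun x => Y x + c) x = en Y x := by
  simp only [MW121.en, jac_apply, fderiv_add_const]

theorem Adm.add_const {Y : (I → ℝ) → (I → ℝ)} (h : Adm I E ζ W Y) (c : ℝ) :
    Adm I E ζ (fun u => W u + c) (fun x => Y x + fun _ => c) :=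
  h.add (adm_const c)


/-- Only the labels and the data at the endpoints outside `I` matter. -/
theorem Adm.congr {Y : (I → ℝ) → (I → ℝ)} (h : Adm I E ζ W Y)
    (hζ : ∀ b, b ∉ I → IsEnd E b → ζ' b = ζ b) (hW : ∀ b, b ∉ I → IsEnd E b → W' b = W b) :
    Adm I E ζ' W' Y := by
  have e : ∀ (x : I → ℝ) (u : U), IsEnd E u → ext I ζ' x u = ext I ζ x u := by
    intro x u hu
    by_cases h : u ∈ I
    · rw [ext_mem h, ext_mem h]
    · rw [ext_notMem h, ext_notMem h, hζ u h hu]
  have e' : ∀ (x : I → ℝ) (u : U), IsEnd E u → ext I W' x u = ext I W x u := by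
    intro x u hu
    by_cases h : u ∈ I
    · rw [ext_mem h, ext_mem h]
    · rw [ext_notMem h, ext_notMem h, hW u h hu]
  obtain ⟨ρ, hρ, hr⟩ := h.rig
  refine ⟨h.lip, ρ, hρ, fun x hx p hp hge => ?_⟩
  have i1 : IsEnd E p.1 := ⟨p, hp, Or.inl rfl⟩
  have i2 : IsEnd E p.2 := ⟨p, hp, Or.inr rfl⟩
  rw [e' _ _ i1, e' _ _ i2]
  rw [e _ _ i1, e _ _ i2] at hge
  refine hr x (fun q hq => ?_) p hp hge
  have := hx q hq
  rwa [e _ _ ⟨q, hq, Or.inl rfl⟩, e _ _ ⟨q, hq, Or.inr rfl⟩] at this


end Inv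

end Crest.Agent.R144.BQ565
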