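import Crest.Agent.R144.BQ6_565

-- ▼ part R144/BQ7_565
section

/-!
R144 (S0197), helper565.  Block energies in the form (T2) of doc 1760 (helper540), part 2:
ONE countable family of `V₀` fields which is near-optimal for every law and every reference field.

* `exists_seq_dense`: countable dense sequences for maps into second countable spaces;
* `exists_seq_nrg`: the energy seminorms on a submodule of `llip` are separable;
* `exists_seq`: the near-minimising sequence (linear in the slope);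
* `exists_seq_bT`: the instance for `bT`.
-/

set_option autoImplicit false
set_option linter.unusedSectionVars false

open MeasureTheory Set Filter Topology
open scoped ENNReal NNReal Pointwise

noncomputable section

namespace Crest.Agent.R144.BQ565

open Crest.Agent.R144.Ham560
open Crest.Agent.R144.MW121 (jac jac_apply en measurable_jac measurable_en en_nonneg)

theorem exists_seq_dense {V X : Type*} [PseudoMetricSpace X] [SecondCountableTopology X]
    [Nonempty V] (f : V → X) : ∃ d : ℕ → V, ∀ v, ∀ δ > 0, ∃ n, dist (f v) (f (d n)) < δ := by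
  let _ : TopologicalSpace V := TopologicalSpace.induced f inferInstance
  have : SecondCountableTopology V := TopologicalSpace.secondCountableTopology_induced V X f
  refine ⟨TopologicalSpace.denseSeq V, fun v δ hδ => ?_⟩
  have ho : IsOpen (f ⁻¹' Metric.ball (f v) δ) := Metric.isOpen_ball.preimage continuous_induced_dom
  obtain ⟨n, hn⟩ := (TopologicalSpace.denseRange_denseSeq V).exists_mem_open ho
    ⟨v, Metric.mem_ball_self hδ⟩
  refine ⟨n, ?_⟩
  rw [dist_comm]
  exact hn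

section PSD

variable {M : Type*} [AddCommGroup M] [Module ℝ M] {B : M →ₗ[ℝ] M →ₗ[ℝ] ℝ}
  {κ : Type*} [Fintype κ]

theorem IsPSD.cs_sq (hB : IsPSD B) (x y : M) : (B x y) ^ 2 ≤ B x x * B y y := by
  have h : ∀ t : ℝ, 0 ≤ B y y * (t * t) + 2 * B x y * t + B x x := by
    intro t
    have h1 := hB.nonneg (x + t • y)
    rw [hB.add_sq] at h1
    nlinarith
  have := discrim_le_zero h
  unfold discrim at this
  nlinarith

theorem IsPSD.cs_le (hB : IsPSD B) {x y : M} {a : ℝ} (ha : 0 ≤ a) (hx : B x x ≤ a)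
    (hy : B y y ≤ a) : |B x y| ≤ a := by
  refine abs_le_of_sq_le_sq ?_ ha
  calc (B x y) ^ 2 ≤ B x x * B y y := hB.cs_sq x y
    _ ≤ a * a := mul_le_mul hx hy (hB.nonneg _) ha
    _ = a ^ 2 := by ring

theorem IsPSD.cmb_le (hB : IsPSD B) {L : κ → M} {a : ℝ} (ha : 0 ≤ a)
    (h : ∀ i, B (L i) (L i) ≤ a) (xi : κ → ℝ) :
    B (cmb L xi) (cmb L xi) ≤ a * (∑ i, |xi i|) ^ 2 := by
  rw [B_cmb]
  calc _ ≤ ∑ i, ∑ j, |xi i| * |xi j| * a := by
        refine Finset.sum_le_sum fun i _ => Finset.sum_le_sum fun j _ => ?_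
        refine (le_abs_self _).trans ?_
        rw [abs_mul, abs_mul]
        exact mul_le_mul_of_nonneg_left (hB.cs_le ha (h i) (h j)) (by positivity)
    _ = a * (∑ i, |xi i|) ^ 2 := by
        simp only [← Finset.sum_mul, ← Finset.mul_sum]; ring

/-- Perturbation of the energy of a linear combination. -/
theorem IsPSD.cmb_add_le (hB : IsPSD B) {L Z : κ → M} {a d : ℝ} (ha : 0 ≤ a) (hd : 0 ≤ d)
    (h : ∀ i, B (L i) (L i) ≤ a) (h' : ∀ i, B (Z i) (Z i) ≤ d ^ 2) (xi : κ → ℝ) :
    B (cmb (L + Z) xi) (cmb (L + Z) xi) ≤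
      B (cmb L xi) (cmb L xi) + (2 * Real.sqrt a * d + d ^ 2) * (∑ i, |xi i|) ^ 2 := by
  rw [cmb_add_fam, hB.add_sq']
  set S := ∑ i, |xi i|
  have hS : 0 ≤ S := Finset.sum_nonneg fun _ _ => abs_nonneg _
  have h1 := hB.cmb_le ha h xi
  have h2 := hB.cmb_le (sq_nonneg d) h' xi
  have h3 : B (cmb L xi) (cmb Z xi) ≤ Real.sqrt a * d * S ^ 2 := by
    refine (le_abs_self _).trans (abs_le_of_sq_le_sq ?_ (by positivity))
    calc _ ≤ B (cmb L xi) (cmb L xi) * B (cmb Z xi) (cmb Z xi) := hB.cs_sq _ _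
      _ ≤ (a * S ^ 2) * (d ^ 2 * S ^ 2) := mul_le_mul h1 h2 (hB.nonneg _) (by positivity)
      _ = (Real.sqrt a * d * S ^ 2) ^ 2 := by
          rw [mul_pow, mul_pow, Real.sq_sqrt ha]; ring
  nlinarith

end PSD

section Sep

variable {ι : Type*} [Fintype ι] [DecidableEq ι]

theorem goodLaw_ball (R : ℝ) : GoodLaw (volume.restrict (Metric.closedBall (0 : ι → ℝ) R)) :=
  ⟨⟨by rw [Measure.restrict_apply_univ]; exact (isCompact_closedBall _ _).measure_lt_top⟩,
    Measure.absolutelyContinuous_restrict,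
    ⟨Metric.closedBall 0 R, Metric.isBounded_closedBall,
      ae_restrict_mem Metric.isClosed_closedBall.measurableSet⟩⟩

theorem memLp_jac {μ : Measure (ι → ℝ)} (hμ : GoodLaw μ) {Y : (ι → ℝ) → (ι → ℝ)}
    (hY : LocallyLipschitz Y) (u v : ι) : MemLp (fun x => jac Y x u v) 2 μ := by
  have := hμ.fin
  obtain ⟨K, hK, hae⟩ := hμ.conc
  obtain ⟨C, hC0, hC⟩ := exists_jac_bound hY hK
  refine MemLp.of_bound (measurable_jac Y u v).aestronglyMeasurable C ?_
  filter_upwards [hae] with x hx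
  rw [Real.norm_eq_abs]; exact hC x hx u v

/-- The jacobian as an element of a product of `L²` spaces. -/
def jL {μ : Measure (ι → ℝ)} (hμ : GoodLaw μ) (Y : llip ι) : ι → ι → Lp ℝ 2 μ :=
  fun u v => (memLp_jac hμ Y.2 u v).toLp _

theorem norm_toLp_sq {α : Type*} [MeasurableSpace α] {μ : Measure α} {f : α → ℝ}
    (hf : MemLp f 2 μ) : ‖hf.toLp f‖ ^ 2 = ∫ x, f x ^ 2 ∂μ := by
  rw [← real_inner_self_eq_norm_sq, L2.inner_def]
  refine integral_congr_ae ?_
  filter_upwards [hf.coeFn_toLp] with x hx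
  rw [hx]
  simp [sq]

theorem nrgB_sub_self {μ : Measure (ι → ℝ)} (hμ : GoodLaw μ) (Y Z : llip ι) :
    nrgB μ hμ (Y - Z) (Y - Z) = ∑ u, ∑ v, ‖jL hμ Y u v - jL hμ Z u v‖ ^ 2 := by
  rw [nrgB_self]
  have h1 : ∀ u v, ‖jL hμ Y u v - jL hμ Z u v‖ ^ 2 =
      ∫ x, (jac Y.1 x u v - jac Z.1 x u v) ^ 2 ∂μ := by
    intro u v
    have := norm_toLp_sq ((memLp_jac hμ Y.2 u v).sub (memLp_jac hμ Z.2 u v))
    rw [MemLp.toLp_sub] at this
    exact this
  simp only [h1]
  have hint : ∀ u v, Integrable (fun x => (jac Y.1 x u v - jac Z.1 x u v) ^ 2) μ := fun u v => by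
    have := ((memLp_jac hμ Y.2 u v).sub (memLp_jac hμ Z.2 u v)).integrable_sq
    exact this
  have e0 : ∑ u, ∑ v, ∫ x, (jac Y.1 x u v - jac Z.1 x u v) ^ 2 ∂μ =
      ∫ x, ∑ u, ∑ v, (jac Y.1 x u v - jac Z.1 x u v) ^ 2 ∂μ := by
    rw [integral_finsetSum _ (fun u _ => integrable_finsetSum _ fun v _ => hint u v)]
    refine Finset.sum_congr rfl fun u _ => ?_
    rw [integral_finsetSum _ (fun v _ => hint u v)]
  rw [e0]
  refine integral_congr_ae ?_
  filter_upwards [hμ.ae_diff Y.2, hμ.ae_diff Z.2] with x h1 h2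
  simp only [MW121.en]
  refine Finset.sum_congr rfl fun u _ => Finset.sum_congr rfl fun v _ => ?_
  have e : ((Y - Z : llip ι) : (ι → ℝ) → (ι → ℝ)) = Y.1 + (-1 : ℝ) • Z.1 := by
    funext x; simp [sub_eq_add_neg]
  rw [e, jac_add h1 (h2.const_smul (-1 : ℝ)), jac_smul' h2]
  ring

/-- The energy seminorm of a good law on any set of fields is separable. -/
theorem exists_seq_nrg {μ : Measure (ι → ℝ)} (hμ : GoodLaw μ) (V : Submodule ℝ (llip ι)) :
    ∃ d : ℕ → llip ι, (∀ n, d n ∈ V) ∧ ∀ Y ∈ V, ∀ δ > 0, ∃ n,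
      nrgB μ hμ (Y - d n) (Y - d n) < δ := by
  have := hμ.fin
  have : Fact ((1 : ℝ≥0∞) ≤ 2) := ⟨by norm_num⟩
  have : Fact ((2 : ℝ≥0∞) ≠ ∞) := ⟨by norm_num⟩
  have s1 : SecondCountableTopology (Lp ℝ 2 μ) := inferInstance
  have s2 : SecondCountableTopology (ι → Lp ℝ 2 μ) := inferInstance
  have s3 : SecondCountableTopology (ι → ι → Lp ℝ 2 μ) := inferInstance
  obtain ⟨d, hd⟩ := exists_seq_dense (fun Y : V => jL hμ Y.1)
  refine ⟨fun n => (d n).1, fun n => (d n).2, fun Y hY δ hδ => ?_⟩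
  set N : ℝ := ((Fintype.card ι : ℕ) : ℝ) with hN
  have hN0 : 0 ≤ N := Nat.cast_nonneg _
  obtain ⟨n, hn⟩ := hd ⟨Y, hY⟩ (Real.sqrt (δ / (N * N + 1))) (by positivity)
  refine ⟨n, ?_⟩
  rw [nrgB_sub_self]
  have hb : ∀ u v, ‖jL hμ Y u v - jL hμ (d n).1 u v‖ ^ 2 ≤ δ / (N * N + 1) := by
    intro u v
    have h1 : ‖jL hμ Y u v - jL hμ (d n).1 u v‖ ≤ Real.sqrt (δ / (N * N + 1)) := by
      rw [← dist_eq_norm]
      exact ((dist_le_pi_dist _ _ v).trans (dist_le_pi_dist _ _ u)).trans hn.le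
    calc _ ≤ (Real.sqrt (δ / (N * N + 1))) ^ 2 := pow_le_pow_left₀ (norm_nonneg _) h1 2
      _ = _ := Real.sq_sqrt (by positivity)
  calc ∑ u, ∑ v, ‖jL hμ Y u v - jL hμ (d n).1 u v‖ ^ 2
      ≤ ∑ _u : ι, ∑ _v : ι, δ / (N * N + 1) :=
        Finset.sum_le_sum fun u _ => Finset.sum_le_sum fun v _ => hb u v
    _ = N * N * (δ / (N * N + 1)) := by
        simp only [Finset.sum_const, Finset.card_univ, nsmul_eq_mul]; ring
    _ < δ := by
        rw [mul_div_assoc', div_lt_iff₀ (by positivity)]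
        nlinarith

/-- Comparison of energies of two laws. -/
theorem nrgB_le_of_le {μ ν : Measure (ι → ℝ)} (hμ : GoodLaw μ) (hν : GoodLaw ν) {c : ℝ≥0}
    (h : μ ≤ (c : ℝ≥0∞) • ν) (Y : llip ι) : nrgB μ hμ Y Y ≤ c * nrgB ν hν Y Y := by
  rw [nrgB_self, nrgB_self]
  have h2 : ∫ x, en Y.1 x ∂μ ≤ ∫ x, en Y.1 x ∂((c : ℝ≥0∞) • ν) := by
    refine integral_mono_measure h (Eventually.of_forall fun x => en_nonneg _ _) ?_
    exact (hν.integrable_en Y.2).smul_measure ENNReal.coe_ne_top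
  rw [integral_smul_measure] at h2
  simpa using h2

/-- **One sequence of tuples which is near-optimal for every law and every reference field.** -/
theorem exists_seq {κ : Type*} [Fintype κ] (V : Submodule ℝ (llip ι)) :
    ∃ D : ℕ → κ → llip ι, (∀ n i, D n i ∈ V) ∧
      ∀ (μ : Measure (ι → ℝ)) (hμ : GoodLaw μ), (∃ c : ℝ≥0, μ ≤ (c : ℝ≥0∞) • volume) →
        ∀ (L : κ → llip ι), ∀ eps > 0, ∃ n, ∀ xi : κ → ℝ,
          nrgB μ hμ (cmb (L + D n) xi) (cmb (L + D n) xi) ≤
            qinf (nrgB μ hμ) V L xi + eps * (∑ i, |xi i|) ^ 2 := by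
  classical
  choose d hdV hd using fun R : ℕ => exists_seq_nrg (goodLaw_ball (ι := ι) R) V
  have : Nonempty (ℕ × (κ → ℕ)) := ⟨(0, fun _ => 0)⟩
  obtain ⟨e, he⟩ := exists_surjective_nat (ℕ × (κ → ℕ))
  refine ⟨fun n i => d (e n).1 ((e n).2 i), fun n i => hdV _ _, ?_⟩
  intro μ hμ hc L eps heps
  obtain ⟨c, hc⟩ := hc
  obtain ⟨K, hK, hKae⟩ := hμ.conc
  obtain ⟨R0, hR0⟩ := hK.subset_closedBall 0
  obtain ⟨R, hR⟩ := exists_nat_ge R0
  have hμb : μ ≤ (c : ℝ≥0∞) • volume.restrict (Metric.closedBall (0 : ι → ℝ) R) := by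
    have h1 : μ = μ.restrict (Metric.closedBall (0 : ι → ℝ) R) := by
      symm
      refine Measure.restrict_eq_self_of_ae_mem ?_
      filter_upwards [hKae] with x hx
      exact Metric.closedBall_subset_closedBall hR (hR0 hx)
    calc μ = μ.restrict (Metric.closedBall (0 : ι → ℝ) R) := h1
      _ ≤ ((c : ℝ≥0∞) • volume).restrict (Metric.closedBall (0 : ι → ℝ) R) :=
          Measure.restrict_mono le_rfl hc
      _ = _ := Measure.restrict_smul _ _ _
  obtain ⟨Z, hZV, hZ⟩ := exists_linear_near (V := V) (isPSD_nrgB hμ) L (half_pos heps)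
  -- a bound for the energies
  set a : ℝ := ∑ i, nrgB μ hμ (L i + Z i) (L i + Z i) with ha
  have ha0 : 0 ≤ a := Finset.sum_nonneg fun i _ => (isPSD_nrgB hμ).nonneg _
  have hai : ∀ i, nrgB μ hμ ((L + Z) i) ((L + Z) i) ≤ a := fun i =>
    Finset.single_le_sum (f := fun i => nrgB μ hμ (L i + Z i) (L i + Z i))
      (fun i _ => (isPSD_nrgB hμ).nonneg _) (Finset.mem_univ i)
  obtain ⟨dl, hdl0, hdl⟩ : ∃ dl > 0, 2 * Real.sqrt a * dl + dl ^ 2 ≤ eps / 2 := by
    refine ⟨min 1 (eps / (2 * (2 * Real.sqrt a + 1))), by positivity, ?_⟩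
    set dl := min 1 (eps / (2 * (2 * Real.sqrt a + 1))) with hdl
    have h0 : 0 < dl := by positivity
    have h1 : dl ≤ 1 := min_le_left _ _
    have h2 : dl ≤ eps / (2 * (2 * Real.sqrt a + 1)) := min_le_right _ _
    have h3 : dl * (2 * (2 * Real.sqrt a + 1)) ≤ eps := by
      rwa [le_div_iff₀ (by positivity)] at h2
    nlinarith [Real.sqrt_nonneg a]
  have hcp : 0 < (c : ℝ) + 1 := by have : (0 : ℝ) ≤ c := c.2; linarith
  choose n hn using fun i => hd R (Z i) (hZV i) (dl ^ 2 / (c + 1)) (by positivity)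
  obtain ⟨m, hm⟩ := he (R, n)
  refine ⟨m, fun xi => ?_⟩
  have hD : (fun i => d (e m).1 ((e m).2 i)) = fun i => d R (n i) := by
    funext i; rw [hm]
  set D : κ → llip ι := fun i => d R (n i) with hDd
  have hdiff : ∀ i, nrgB μ hμ ((D - Z) i) ((D - Z) i) ≤ dl ^ 2 := by
    intro i
    have h1 := nrgB_le_of_le hμ (goodLaw_ball (ι := ι) R) hμb ((D - Z) i)
    have h2 := hn i
    have h3 : nrgB _ (goodLaw_ball (ι := ι) R) ((D - Z) i) ((D - Z) i) =
        nrgB _ (goodLaw_ball (ι := ι) R) (Z i - d R (n i)) (Z i - d R (n i)) := by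
      have : (D - Z) i = -(Z i - d R (n i)) := by simp [hDd]
      rw [this]; simp; ring
    rw [h3] at h1
    have hc0 : (0 : ℝ) ≤ c := c.2
    calc _ ≤ (c : ℝ) * nrgB _ (goodLaw_ball (ι := ι) R) (Z i - d R (n i)) (Z i - d R (n i)) := h1
      _ ≤ (c : ℝ) * (dl ^ 2 / (c + 1)) := mul_le_mul_of_nonneg_left h2.le hc0
      _ ≤ dl ^ 2 := by
          rw [mul_div_assoc', div_le_iff₀ hcp]; nlinarith [sq_nonneg dl]
  have h1 := (isPSD_nrgB hμ).cmb_add_le ha0 hdl0.le hai hdiff xi
  have e1 : L + Z + (D - Z) = L + D := by abel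
  rw [e1] at h1
  have e2 : (L + fun i => d (e m).1 ((e m).2 i)) = L + D := by rw [hD]
  simp only [e2]
  have h2 := hZ xi
  have hS : 0 ≤ (∑ i, |xi i|) ^ 2 := sq_nonneg _
  nlinarith [mul_le_mul_of_nonneg_right hdl hS]

end Sep

section Inst

variable {U : Type*} [DecidableEq U] {I : Finset U} {E : Finset (U × U)} {C : Finset U}

theorem hamP_le_smul (_hA : Anch I E) (ζ : U → ℝ) :
    ∃ c : ℝ≥0, hamP I E ζ ≤ (c : ℝ≥0∞) • (volume : Measure (I → ℝ)) := by
  by_cases hv : volume (ham I E ζ) = 0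
  · refine ⟨0, ?_⟩
    have h0 : hamP I E ζ = 0 := by
      rw [hamP, Measure.restrict_eq_zero.mpr hv, smul_zero]
    rw [h0]; exact Measure.zero_le _
  · refine ⟨((volume (ham I E ζ))⁻¹).toNNReal, ?_⟩
    rw [ENNReal.coe_toNNReal (ENNReal.inv_ne_top.mpr hv), hamP]
    exact Measure.le_iff.mpr fun s hs => by
      rw [Measure.smul_apply, Measure.smul_apply]
      exact mul_le_mul_right (Measure.restrict_apply_le _ _) _

variable (I E C) in
/-- **The universal near-minimising sequence of `V₀` tuples.** -/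
theorem exists_seq_bT (κ : Type*) [Fintype κ] :
    ∃ D : ℕ → κ → (I → ℝ) → (I → ℝ), (∀ n i, V0f I E C (D n i)) ∧
      ∀ (hA : Anch I E) (ζ : U → ℝ) (L : κ → llip I), ∀ eps > 0, ∃ n, ∀ xi : κ → ℝ,
        ∫ x, en (∑ i, xi i • ((L i).1 + D n i)) x ∂(hamP I E ζ) ≤
          bT C hA ζ L xi + eps * (∑ i, |xi i|) ^ 2 := by
  obtain ⟨D, hD, h⟩ := exists_seq (κ := κ) (V0m I E C)
  refine ⟨fun n i => (D n i).1, fun n i => hD n i, fun hA ζ L eps heps => ?_⟩
  obtain ⟨n, hn⟩ := h (hamP I E ζ) (goodLaw_hamP' hA ζ) (hamP_le_smul hA ζ) L eps heps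
  refine ⟨n, fun xi => ?_⟩
  have h1 := hn xi
  rw [nrgB_self, coe_cmb] at h1
  exact h1

end Inst

end Crest.Agent.R144.BQ565
end
end

-- ▼ part R144/BQ8_565

/-!
R144 (S0197), helper565.  Block energies in the form (T2) of doc 1760 (helper540), part 3: Borel
measurability in the data, covariance under relabelling and under constants.

* `RefF I Z`: a reference field family `Z i : (U → ℝ) → U → ℝ` (continuous, locally Lipschitz on
  fibres); `refL`: its restriction to a fibre; `bb`, `bbm`: the block energy / matrix;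
* `measurable_bb`, `measurable_bbm`;
* `Rl.bT_eq`: relabelling; `bT_shift`: constants; `bT_congr_add_const`: constants in the labels.
-/

set_option autoImplicit false
set_option linter.unusedSectionVars false

open MeasureTheory Set Filter Topology
open scoped ENNReal NNReal Pointwise

noncomputable section

namespace Crest.Agent.R144.BQ565

open Crest.Agent.R144.Ham560
open Crest.Agent.R144.MW121 (jac jac_apply en measurable_jac measurable_en en_nonneg)
open Crest.Agent.R144.Lw425 (Proper Vr)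

section Meas

variable {U : Type*} [DecidableEq U] {I : Finset U} {E : Finset (U × U)} {C : Finset U}

theorem continuous_ext_uncurry (u : U) :
    Continuous fun p : (U → ℝ) × (I → ℝ) => ext I p.1 p.2 u := by
  by_cases h : u ∈ I
  · simp only [ext_mem h]; exact (continuous_apply _).comp continuous_snd
  · simp only [ext_notMem h]; exact (continuous_apply _).comp continuous_fst

theorem continuous_ext_pi : Continuous fun p : (U → ℝ) × (I → ℝ) => (ext I p.1 p.2 : U → ℝ) :=
  continuous_pi fun u => continuous_ext_uncurry u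

/-- A family of reference fields, as functions of the whole configuration. -/
structure RefF (I : Finset U) {κ : Type*} (Z : κ → (U → ℝ) → U → ℝ) : Prop where
  cont : ∀ i u, Continuous fun h : U → ℝ => Z i h u
  ll : ∀ i (ζ : U → ℝ), LocallyLipschitz fun (x : I → ℝ) (u : I) => Z i (ext I ζ x) u

variable {κ : Type*} {Z : κ → (U → ℝ) → U → ℝ}

/-- The reference field on a fibre. -/
def refL (hZ : RefF I Z) (ζ : U → ℝ) (i : κ) : llip I :=
  ⟨fun (x : I → ℝ) (u : I) => Z i (ext I ζ x) u, hZ.ll i ζ⟩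

theorem measurable_en_param [Countable U] {g : (U → ℝ) → (I → ℝ) → (I → ℝ)}
    (hg : Continuous (Function.uncurry g)) :
    Measurable fun p : (U → ℝ) × (I → ℝ) => en (g p.1) p.2 := by
  have h1 : Measurable fun p : (U → ℝ) × (I → ℝ) => fderiv ℝ (g p.1) p.2 :=
    measurable_fderiv_with_param ℝ hg
  simp only [MW121.en]
  refine Finset.measurable_sum _ fun u _ => Finset.measurable_sum _ fun v _ => ?_
  simp only [jac_apply]
  have h2 : Measurable fun p : (U → ℝ) × (I → ℝ) => (fderiv ℝ (g p.1) p.2) (Pi.single v 1) :=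
    h1.apply_continuousLinearMap _
  exact ((measurable_pi_apply u).comp h2).pow_const 2

theorem isClosed_hamGraph : IsClosed {p : (U → ℝ) × (I → ℝ) | p.2 ∈ ham I E p.1} := by
  have : {p : (U → ℝ) × (I → ℝ) | p.2 ∈ ham I E p.1} =
      ⋂ q ∈ E, {p : (U → ℝ) × (I → ℝ) | |ext I p.1 p.2 q.1 - ext I p.1 p.2 q.2| ≤ 1} := by
    ext p; simp [ham]
  rw [this]
  exact isClosed_biInter fun q _ =>
    isClosed_le ((continuous_ext_uncurry q.1).sub (continuous_ext_uncurry q.2)).abs
      continuous_const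

theorem measurable_setIntegral_param [Countable U] {f : (U → ℝ) → (I → ℝ) → ℝ}
    (hf : Measurable (Function.uncurry f)) :
    Measurable fun ζ : U → ℝ => ∫ x in ham I E ζ, f ζ x := by
  have h1 : (fun ζ : U → ℝ => ∫ x in ham I E ζ, f ζ x) =
      fun ζ => ∫ x, {p : (U → ℝ) × (I → ℝ) | p.2 ∈ ham I E p.1}.indicator
        (Function.uncurry f) (ζ, x) := by
    funext ζ
    rw [← integral_indicator measurableSet_ham]
    refine integral_congr_ae (Eventually.of_forall fun x => ?_)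
    change _ = {p : (U → ℝ) × (I → ℝ) | p.2 ∈ ham I E p.1}.indicator (Function.uncurry f) (ζ, x)
    by_cases hx : x ∈ ham I E ζ
    · rw [indicator_of_mem hx, indicator_of_mem (s := {p : (U → ℝ) × (I → ℝ) | p.2 ∈ ham I E p.1})
        (a := (ζ, x)) hx]; rfl
    · rw [indicator_of_notMem hx,
        indicator_of_notMem (s := {p : (U → ℝ) × (I → ℝ) | p.2 ∈ ham I E p.1}) (a := (ζ, x)) hx]
  rw [h1]
  have h2 : StronglyMeasurable ({p : (U → ℝ) × (I → ℝ) | p.2 ∈ ham I E p.1}.indicator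
      (Function.uncurry f)) := (hf.indicator isClosed_hamGraph.measurableSet).stronglyMeasurable
  exact (StronglyMeasurable.integral_prod_right (f := fun ζ x =>
    {p : (U → ℝ) × (I → ℝ) | p.2 ∈ ham I E p.1}.indicator (Function.uncurry f) (ζ, x)) h2).measurable

theorem measurable_Vr [Countable U] : Measurable fun ζ : U → ℝ => Vr I E ζ := by
  have := measurable_setIntegral_param (I := I) (E := E) (f := fun _ _ => (1 : ℝ))
    measurable_const
  have e : (fun ζ : U → ℝ => Vr I E ζ) = fun ζ => ∫ _x in ham I E ζ, (1 : ℝ) := by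
    funext ζ
    rw [setIntegral_const, smul_eq_mul, mul_one]; rfl
  rw [e]; exact this

/-- Parametric means are Borel. -/
theorem measurable_mean_param [Countable U] {f : (U → ℝ) → (I → ℝ) → ℝ}
    (hf : Measurable (Function.uncurry f)) :
    Measurable fun ζ : U → ℝ => ∫ x, f ζ x ∂(hamP I E ζ) := by
  simp only [integral_hamP_real]
  exact (measurable_setIntegral_param hf).div measurable_Vr

variable (C) in
/-- The block energy with reference field `Z`. -/
def bb [Fintype κ] (hA : Anch I E) (hZ : RefF I Z) (ζ : U → ℝ) (xi : κ → ℝ) : ℝ :=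
  bT C hA ζ (refL hZ ζ) xi

variable (C) in
/-- The block matrix with reference field `Z`. -/
def bbm [Fintype κ] [DecidableEq κ] (hA : Anch I E) (hZ : RefF I Z) (ζ : U → ℝ) :
    Matrix κ κ ℝ := bTm C hA ζ (refL hZ ζ)

/-- **Borel measurability of the block energy.** -/
theorem measurable_bb [Fintype κ] [Countable U] (hA : Anch I E) (hZ : RefF I Z) (xi : κ → ℝ) :
    Measurable fun ζ : U → ℝ => bb C hA hZ ζ xi := by
  obtain ⟨D, hD, hseq⟩ := exists_seq_bT I E C κ
  set G : ℕ → (U → ℝ) → ℝ := fun n ζ =>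
    ∫ x, en (∑ i, xi i • ((refL hZ ζ i).1 + D n i)) x ∂(hamP I E ζ) with hG
  have hGm : ∀ n, Measurable (G n) := by
    intro n
    refine measurable_mean_param (f := fun ζ x => en (∑ i, xi i • ((refL hZ ζ i).1 + D n i)) x) ?_
    refine measurable_en_param (g := fun ζ => ∑ i, xi i • ((refL hZ ζ i).1 + D n i)) ?_
    have e : (Function.uncurry fun ζ : U → ℝ => ∑ i, xi i • ((refL hZ ζ i).1 + D n i)) =
        fun p : (U → ℝ) × (I → ℝ) => fun u : I =>
          ∑ i, xi i * (Z i (ext I p.1 p.2) u + D n i p.2 u) := by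
      funext p u
      simp only [Function.uncurry, Finset.sum_apply, Pi.smul_apply, Pi.add_apply, smul_eq_mul]
      rfl
    rw [e]
    refine continuous_pi fun u => continuous_finsetSum _ fun i _ => ?_
    refine continuous_const.mul (((hZ.cont i u).comp continuous_ext_pi).add ?_)
    exact (continuous_apply u).comp ((hD n i).ll.continuous.comp continuous_snd)
  refine measurable_of_Iio fun c => ?_
  have : (fun ζ : U → ℝ => bb C hA hZ ζ xi) ⁻¹' Iio c = ⋃ n, (G n) ⁻¹' Iio c := by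
    ext ζ
    simp only [mem_preimage, mem_Iio, mem_iUnion]
    constructor
    · intro h
      set S : ℝ := (∑ i, |xi i|) ^ 2 with hS
      have hS0 : 0 ≤ S := sq_nonneg _
      obtain ⟨n, hn⟩ := hseq hA ζ (refL hZ ζ) ((c - bb C hA hZ ζ xi) / (S + 1))
        (div_pos (by linarith) (by linarith))
      refine ⟨n, lt_of_le_of_lt (hn xi) ?_⟩
      have h1 : (c - bb C hA hZ ζ xi) / (S + 1) * S < c - bb C hA hZ ζ xi := by
        rw [div_mul_eq_mul_div, div_lt_iff₀ (by linarith)]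
        nlinarith
      change bb C hA hZ ζ xi + _ < c
      linarith
    · rintro ⟨n, hn⟩
      refine lt_of_le_of_lt ?_ hn
      have h1 : V0f I E C (∑ i, xi i • D n i) := by
        have : ∀ s : Finset κ, V0f I E C (∑ i ∈ s, xi i • D n i) := by
          classical
          intro s
          induction s using Finset.induction_on with
          | empty => simpa using V0f.zero
          | insert a s ha ih =>
            rw [Finset.sum_insert ha]
            exact ((hD n a).smul (xi a)).add ih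
        exact this Finset.univ
      have h2 := bT_le (ζ := ζ) (L := refL hZ ζ) (xi := xi) hA h1
      have e : (cmb (refL hZ ζ) xi : llip I).1 + ∑ i, xi i • D n i =
          ∑ i, xi i • ((refL hZ ζ i).1 + D n i) := by
        rw [coe_cmb, ← Finset.sum_add_distrib]
        exact Finset.sum_congr rfl fun i _ => (smul_add _ _ _).symm
      rw [e] at h2
      exact h2
  rw [this]
  exact MeasurableSet.iUnion fun n => hGm n measurableSet_Iio

theorem measurable_bbm [Fintype κ] [DecidableEq κ] [Countable U] (hA : Anch I E)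
    (hZ : RefF I Z) (i j : κ) : Measurable fun ζ : U → ℝ => bbm C hA hZ ζ i j := by
  have : (fun ζ : U → ℝ => bbm C hA hZ ζ i j) = fun ζ =>
      (bb C hA hZ ζ (Pi.single i 1 + Pi.single j 1) - bb C hA hZ ζ (Pi.single i 1) -
        bb C hA hZ ζ (Pi.single j 1)) / 2 := rfl
  rw [this]
  exact (((measurable_bb hA hZ _).sub (measurable_bb hA hZ _)).sub
    (measurable_bb hA hZ _)).div_const 2

end Meas

section Cov

variable {U V : Type*} [DecidableEq U] [DecidableEq V] {κ : Type*} [Fintype κ]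
  {σ : U → V} {I : Finset U} {I' : Finset V} {E : Finset (U × U)} {E' : Finset (V × V)}
  {C : Finset U} {C' : Finset V}

theorem le_bT {hA : Anch I E} {ζ : U → ℝ} {L : κ → llip I} {xi : κ → ℝ} {c : ℝ}
    (h : ∀ Y, V0f I E C Y → c ≤ ∫ x, en ((cmb L xi : llip I).1 + Y) x ∂(hamP I E ζ)) :
    c ≤ bT C hA ζ L xi := by
  refine le_qinf fun Z hZ => ?_
  rw [nrgB_self]
  have h1 := h _ hZ
  have e : (cmb L xi : llip I).1 + ((Z - cmb L xi : llip I) : (I → ℝ) → (I → ℝ)) = Z.1 := by
    funext x; simp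
  rwa [e] at h1

/-- Adding constants to the reference fields does not change the energies. -/
theorem bT_le_of_const {hA : Anch I E} {ζ : U → ℝ} {L L' : κ → llip I} {xi : κ → ℝ}
    (h : ∀ i, ∃ c : ℝ, ∀ x u, (L' i).1 x u = (L i).1 x u + c) :
    bT C hA ζ L' xi = bT C hA ζ L xi := by
  choose c hc using h
  have key : ∀ Y : (I → ℝ) → (I → ℝ), ∀ x, en ((cmb L' xi : llip I).1 + Y) x =
      en ((cmb L xi : llip I).1 + Y) x := by
    intro Y x
    have e : (cmb L' xi : llip I).1 + Y =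
        fun x => ((cmb L xi : llip I).1 + Y) x + fun _ => ∑ i, xi i * c i := by
      funext x u
      rw [coe_cmb, coe_cmb]
      simp only [Pi.add_apply, Finset.sum_apply, Pi.smul_apply, smul_eq_mul, hc]
      simp only [mul_add, Finset.sum_add_distrib]
      ring
    rw [e, en_add_const]
  refine le_antisymm (le_bT fun Y hY => ?_) (le_bT fun Y hY => ?_)
  · have := bT_le (ζ := ζ) (L := L') (xi := xi) hA hY
    simp only [key] at this
    exact this
  · have := bT_le (ζ := ζ) (L := L) (xi := xi) hA hY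
    simp only [key]
    exact this

theorem Rl.mean_en (h : Rl σ I I' E E') (ζ : V → ℝ) (Y' : (I' → ℝ) → (I' → ℝ)) :
    ∫ x, en Y' x ∂(hamP I' E' ζ) = ∫ x, en (trF h.eq Y') x ∂(hamP I E (ζ ∘ σ)) := by
  rw [integral_hamP_real, integral_hamP_real, h.integral_en]
  congr 1
  exact h.Vr_eq

theorem Rl.ext0 (h : Rl σ I I' E E') (x : I' → ℝ) (u : U) :
    ext I' 0 x (σ u) = ext I 0 (pullL h.eq x) u := h.ext_eq (ζ := 0) x u

theorem Rl.inn_iff (h : Rl σ I I' E E') {p : U × U} : Inn I' (σ p.1, σ p.2) ↔ Inn I p :=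
  and_congr h.mem_iff h.mem_iff

theorem lip_trF {ι κ' : Type*} [Fintype ι] [Fintype κ'] [DecidableEq ι] [DecidableEq κ']
    (e : ι ≃ κ') {Y' : (κ' → ℝ) → (κ' → ℝ)} {c : ℝ≥0} (h : LipschitzWith c Y') :
    LipschitzWith c (trF e Y') := by
  have h1 : ∀ x y : ι → ℝ, dist ((pullL e).symm x) ((pullL e).symm y) ≤ dist x y := by
    intro x y
    rw [dist_pi_le_iff dist_nonneg]
    intro k
    exact dist_le_pi_dist x y (e.symm k)
  have h2 : ∀ x y : κ' → ℝ, dist (pullL e x) (pullL e y) ≤ dist x y := by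
    intro x y
    rw [dist_pi_le_iff dist_nonneg]
    intro k
    exact dist_le_pi_dist x y (e k)
  refine LipschitzWith.of_dist_le_mul fun x y => ?_
  exact (h2 _ _).trans ((h.dist_le_mul _ _).trans (mul_le_mul_of_nonneg_left (h1 x y) c.2))

/-- Transport of the class `V₀`. -/
theorem Rl.v0f (h : Rl σ I I' E E') (hC : ∀ u ∈ I, σ u ∈ C' ↔ u ∈ C)
    {Y' : (I' → ℝ) → (I' → ℝ)} (hY : V0f I' E' C' Y') : V0f I E C (trF h.eq Y') where
  lip := by
    obtain ⟨c, hc⟩ := hY.lip
    exact ⟨c, lip_trF h.eq hc⟩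
  bdd := by
    obtain ⟨M, hM⟩ := hY.bdd
    exact ⟨M, fun x u => hM _ _⟩
  rig := by
    obtain ⟨ρ, hρ, hr⟩ := hY.rig
    refine ⟨ρ, hρ, fun x hx p hp hi hge => ?_⟩
    have e1 : ∀ u, ext I' 0 ((pullL h.eq).symm x) (σ u) = ext I 0 x u := by
      intro u; rw [h.ext0]; simp
    have h1 := hr ((pullL h.eq).symm x) (fun q hq hqi => ?_) (σ p.1, σ p.2)
      ((h.memE _).mpr ⟨p, hp, rfl⟩) (h.inn_iff.mpr hi) (by simpa only [e1] using hge)
    · simp only [h.ext0] at h1
      exact h1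
    · obtain ⟨p', hp', rfl⟩ := (h.memE q).mp hq
      simp only [e1]
      exact hx p' hp' (h.inn_iff.mp hqi)
  core := fun x w hw => by
    refine hY.core _ (h.eq w) ?_
    rw [h.eq_apply, hC _ w.2]; exact hw

theorem Rl.v0f' (h : Rl σ I I' E E') (hC : ∀ u ∈ I, σ u ∈ C' ↔ u ∈ C)
    {Y : (I → ℝ) → (I → ℝ)} (hY : V0f I E C Y) : V0f I' E' C' (trF h.eq.symm Y) where
  lip := by
    obtain ⟨c, hc⟩ := hY.lip
    exact ⟨c, lip_trF h.eq.symm hc⟩
  bdd := by
    obtain ⟨M, hM⟩ := hY.bdd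
    exact ⟨M, fun x u => hM _ _⟩
  rig := by
    obtain ⟨ρ, hρ, hr⟩ := hY.rig
    refine ⟨ρ, hρ, fun x hx q hq hi hge => ?_⟩
    obtain ⟨p, hp, rfl⟩ := (h.memE q).mp hq
    have e2 : pullL h.eq (trF h.eq.symm Y x) = Y (pullL h.eq x) := by
      funext j
      simp only [pullL_apply, trF]
      rw [Equiv.symm_apply_apply]
      congr 1
    rw [h.ext0, h.ext0, e2]
    rw [h.ext0, h.ext0] at hge
    refine hr (pullL h.eq x) (fun p' hp' hpi => ?_) p hp (h.inn_iff.mp hi) hge
    rw [← h.ext0, ← h.ext0]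
    exact hx (σ p'.1, σ p'.2) ((h.memE _).mpr ⟨p', hp', rfl⟩) (h.inn_iff.mpr hpi)
  core := fun x w hw => by
    refine hY.core _ (h.eq.symm w) ?_
    rw [← hC _ (h.eq.symm w).2, ← h.eq_apply, Equiv.apply_symm_apply]
    exact hw

theorem trF_add {ι κ' : Type*} [Fintype ι] [Fintype κ'] [DecidableEq ι] [DecidableEq κ']
    (e : ι ≃ κ') (Y Z : (κ' → ℝ) → (κ' → ℝ)) : trF e (Y + Z) = trF e Y + trF e Z := rfl

/-- **Relabelling covariance of the block energies.** -/
theorem Rl.bT_eq (h : Rl σ I I' E E') (hC : ∀ u ∈ I, σ u ∈ C' ↔ u ∈ C) (hA : Anch I E)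
    (hA' : Anch I' E') {ζ : V → ℝ} {L : κ → llip I} {L' : κ → llip I'} {xi : κ → ℝ}
    (hL : ∀ i, ∃ c : ℝ, ∀ x u, trF h.eq (L' i).1 x u = (L i).1 x u + c) :
    bT C' hA' ζ L' xi = bT C hA (ζ ∘ σ) L xi := by
  set L'' : κ → llip I := fun i => ⟨trF h.eq (L' i).1, ll_trF h.eq (L' i).2⟩ with hL''
  rw [← bT_le_of_const (L := L) (L' := L'') hL]
  have hcmb : trF h.eq (cmb L' xi : llip I').1 = (cmb L'' xi : llip I).1 := by
    rw [coe_cmb, coe_cmb]
    funext x u
    simp only [trF, pullL_apply, Finset.sum_apply, Pi.smul_apply, hL'']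
  refine le_antisymm (le_bT fun Y hY => ?_) (le_bT fun Y' hY' => ?_)
  · have h1 := bT_le (ζ := ζ) (L := L') (xi := xi) hA' (h.v0f' hC hY)
    rw [h.mean_en, trF_add, hcmb, trF_symm] at h1
    exact h1
  · have h1 := bT_le (ζ := ζ ∘ σ) (L := L'') (xi := xi) hA (h.v0f hC hY')
    rw [h.mean_en, trF_add, hcmb]
    exact h1


end Cov

section Shift

variable {U : Type*} [DecidableEq U] {κ : Type*} [Fintype κ] {I : Finset U}
  {E : Finset (U × U)} {C : Finset U} {ζ : U → ℝ}

/-- Translation of a field. -/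
def shF (c : ℝ) (Y : (I → ℝ) → (I → ℝ)) : (I → ℝ) → (I → ℝ) := fun x => Y fun v => x v + c

theorem shF_shF (c : ℝ) (Y : (I → ℝ) → (I → ℝ)) : shF c (shF (-c) Y) = Y := by
  funext x; simp [shF]

theorem V0f.shF {Y : (I → ℝ) → (I → ℝ)} (h : V0f I E C Y) (c : ℝ) : V0f I E C (shF c Y) where
  lip := by
    obtain ⟨k, hk⟩ := h.lip
    refine ⟨k, LipschitzWith.of_dist_le_mul fun x y => ?_⟩
    have h1 : dist (fun v => x v + c) (fun v => y v + c) ≤ dist x y := by
      rw [dist_pi_le_iff dist_nonneg]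
      intro v
      rw [dist_add_right]; exact dist_le_pi_dist x y v
    exact (hk.dist_le_mul _ _).trans (mul_le_mul_of_nonneg_left h1 k.2)
  bdd := by
    obtain ⟨M, hM⟩ := h.bdd
    exact ⟨M, fun x u => hM _ _⟩
  rig := by
    obtain ⟨ρ, hρ, hr⟩ := h.rig
    have e : ∀ (x : I → ℝ) (p : U × U), Inn I p →
        ext I 0 (fun v => x v + c) p.1 - ext I 0 (fun v => x v + c) p.2 =
          ext I 0 x p.1 - ext I 0 x p.2 := by
      intro x p hp
      rw [ext_mem hp.1, ext_mem hp.2, ext_mem hp.1, ext_mem hp.2]; ring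
    refine ⟨ρ, hρ, fun x hx p hp hi hge => ?_⟩
    refine hr (fun v => x v + c) (fun q hq hqi => ?_) p hp hi ?_
    · rw [e x q hqi]; exact hx q hq hqi
    · rw [e x p hi]; exact hge
  core := fun x w hw => h.core _ w hw

theorem mean_en_shift (Y : (I → ℝ) → (I → ℝ)) (c : ℝ) :
    ∫ x, en Y x ∂(hamP I E fun u => ζ u + c) = ∫ x, en (shF c Y) x ∂(hamP I E ζ) := by
  rw [integral_hamP_real, integral_hamP_real, setIntegral_shift]
  have h1 : ∫ x in ham I E ζ, en Y (fun v => x v + c) = ∫ x in ham I E ζ, en (shF c Y) x :=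
    integral_congr_ae (Eventually.of_forall fun x => (en_shift Y c x).symm)
  rw [h1]
  congr 1
  exact Vr_shift' c

/-- **Invariance under constants of the data**, for reference fields with
`L' i (x + c) = L i x`. -/
theorem bT_shift (hA : Anch I E) (c : ℝ) {L L' : κ → llip I} {xi : κ → ℝ}
    (hL : ∀ i x, (L' i).1 (fun v => x v + c) = (L i).1 x) :
    bT C hA (fun u => ζ u + c) L' xi = bT C hA ζ L xi := by
  have hcmb : shF c (cmb L' xi : llip I).1 = (cmb L xi : llip I).1 := by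
    rw [coe_cmb, coe_cmb]
    funext x u
    simp only [shF, Finset.sum_apply, Pi.smul_apply, hL]
  refine le_antisymm (le_bT fun Y hY => ?_) (le_bT fun Y' hY' => ?_)
  · have h1 := bT_le (ζ := fun u => ζ u + c) (L := L') (xi := xi) hA (hY.shF (-c))
    rw [mean_en_shift] at h1
    have e : shF c ((cmb L' xi : llip I).1 + shF (-c) Y) = (cmb L xi : llip I).1 + Y := by
      have : shF c ((cmb L' xi : llip I).1 + shF (-c) Y) =
          shF c (cmb L' xi : llip I).1 + shF c (shF (-c) Y) := rfl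
      rw [this, hcmb, shF_shF]
    rw [e] at h1
    exact h1
  · have h1 := bT_le (ζ := ζ) (L := L) (xi := xi) hA (hY'.shF c)
    rw [mean_en_shift]
    have e : shF c ((cmb L' xi : llip I).1 + Y') = (cmb L xi : llip I).1 + shF c Y' := by
      have : shF c ((cmb L' xi : llip I).1 + Y') = shF c (cmb L' xi : llip I).1 + shF c Y' := rfl
      rw [this, hcmb]
    rw [e]
    exact h1

/-- For shift-covariant reference fields the block energy only depends on the gradients of the
data. -/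
theorem bb_shift {Z : κ → (U → ℝ) → U → ℝ} (hA : Anch I E) (hZ : RefF I Z)
    (hinv : ∀ i (h : U → ℝ) (c : ℝ) (u : U), Z i (fun v => h v + c) u = Z i h u) (c : ℝ)
    (xi : κ → ℝ) : bb C hA hZ (fun u => ζ u + c) xi = bb C hA hZ ζ xi := by
  refine bT_shift hA c fun i x => ?_
  funext u
  change Z i (ext I (fun u => ζ u + c) (fun v => x v + c)) u = Z i (ext I ζ x) u
  have e : ext I (fun u => ζ u + c) (fun v => x v + c) = fun u => ext I ζ x u + c := by
    funext v; exact ext_shift x c v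
  rw [e, hinv]

theorem bbm_shift [DecidableEq κ] {Z : κ → (U → ℝ) → U → ℝ} (hA : Anch I E) (hZ : RefF I Z)
    (hinv : ∀ i (h : U → ℝ) (c : ℝ) (u : U), Z i (fun v => h v + c) u = Z i h u) (c : ℝ) :
    bbm C hA hZ (fun u => ζ u + c) = bbm C hA hZ ζ := by
  ext i j
  have h1 : ∀ xi, bb C hA hZ (fun u => ζ u + c) xi = bb C hA hZ ζ xi :=
    fun xi => bb_shift hA hZ hinv c xi
  change (bb C hA hZ (fun u => ζ u + c) _ - bb C hA hZ (fun u => ζ u + c) _ -
    bb C hA hZ (fun u => ζ u + c) _) / 2 = (bb C hA hZ ζ _ - bb C hA hZ ζ _ - bb C hA hZ ζ _) / 2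
  rw [h1, h1, h1]

end Shift

section Relab

variable {U V : Type*} [DecidableEq U] [DecidableEq V] {κ : Type*} [Fintype κ]
  {σ : U → V} {I : Finset U} {I' : Finset V} {E : Finset (U × U)} {E' : Finset (V × V)}
  {C : Finset U} {C' : Finset V}



end Relab

end Crest.Agent.R144.BQ565
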