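import Mathlib
import Crest.Agent.R144.BQ3_565

-- ▼ part R144/StB1_565
section

/-!
R144 (S0197), helper565.  STEP B of doc 1613 (helper296): the block competitor.

Part 1: pointwise algebra.  `gs D e f h` is the squared gradient of the scalar function `f` at `h` in
the directions `e v`, `v ∈ D`.

* `gs_sub_mean`: subtracting the label average lowers the energy (identity).
* `gs_comp_le`: 1-Lipschitz truncation lowers the energy.
* `gs_comb_le`: the product rule for `(1 - η) ℓ + η U`.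
* `gs_competitor_le`: the full competitor of STEP B.
-/

set_option autoImplicit false

open MeasureTheory Set
open scoped ENNReal NNReal

noncomputable section

namespace Crest.Agent.R144.StB565

section Gs

variable {E : Type*} [NormedAddCommGroup E] [NormedSpace ℝ E] {κ : Type*} {ι : Type*}

/-- Squared gradient in the directions `e v`, `v ∈ D`. -/
def gs (D : Finset κ) (e : κ → E) (f : E → ℝ) (h : E) : ℝ := ∑ v ∈ D, (fderiv ℝ f h (e v)) ^ 2

variable {D : Finset κ} {e : κ → E}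

theorem gs_nonneg (f : E → ℝ) (h : E) : 0 ≤ gs D e f h :=
  Finset.sum_nonneg fun _ _ => sq_nonneg _

/-- The label average. -/
def avg (q : Finset ι) (u : ι → E → ℝ) (h : E) : ℝ := (∑ w ∈ q, u w h) / q.card

theorem fderiv_avg {q : Finset ι} {u : ι → E → ℝ} {h : E}
    (hu : ∀ w ∈ q, DifferentiableAt ℝ (u w) h) (x : E) :
    fderiv ℝ (avg q u) h x = (∑ w ∈ q, fderiv ℝ (u w) h x) / q.card := by
  have h1 : HasFDerivAt (fun h => ∑ w ∈ q, u w h) (∑ w ∈ q, fderiv ℝ (u w) h) h :=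
    HasFDerivAt.fun_sum fun w hw => (hu w hw).hasFDerivAt
  have h2 : HasFDerivAt (avg q u) ((q.card : ℝ)⁻¹ • ∑ w ∈ q, fderiv ℝ (u w) h) h := by
    have := h1.const_mul ((q.card : ℝ)⁻¹)
    refine this.congr_of_eventuallyEq (Filter.Eventually.of_forall fun x => ?_)
    simp only [avg]; ring
  rw [h2.fderiv]
  simp only [smul_apply, sum_apply, smul_eq_mul]
  ring

theorem differentiableAt_avg {q : Finset ι} {u : ι → E → ℝ} {h : E}
    (hu : ∀ w ∈ q, DifferentiableAt ℝ (u w) h) : DifferentiableAt ℝ (avg q u) h := by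
  have h1 : HasFDerivAt (fun h => ∑ w ∈ q, u w h) (∑ w ∈ q, fderiv ℝ (u w) h) h :=
    HasFDerivAt.fun_sum fun w hw => (hu w hw).hasFDerivAt
  have h2 : HasFDerivAt (avg q u) ((q.card : ℝ)⁻¹ • ∑ w ∈ q, fderiv ℝ (u w) h) h := by
    have := h1.const_mul ((q.card : ℝ)⁻¹)
    refine this.congr_of_eventuallyEq (Filter.Eventually.of_forall fun x => ?_)
    simp only [avg]; ring
  exact h2.differentiableAt

/-- **(B1)** Subtracting the label average lowers the energy: exact identity. -/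
theorem gs_sub_mean {q : Finset ι} (hq : q.Nonempty) {u : ι → E → ℝ} {h : E}
    (hu : ∀ w ∈ q, DifferentiableAt ℝ (u w) h) :
    ∑ w ∈ q, gs D e (fun h => u w h - avg q u h) h =
      ∑ w ∈ q, gs D e (u w) h - q.card * gs D e (avg q u) h := by
  have hc : (q.card : ℝ) ≠ 0 := by exact_mod_cast hq.card_pos.ne'
  have hd := differentiableAt_avg hu
  have e1 : ∀ w ∈ q, gs D e (fun h => u w h - avg q u h) h =
      ∑ v ∈ D, (fderiv ℝ (u w) h (e v) - fderiv ℝ (avg q u) h (e v)) ^ 2 := by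
    intro w hw
    unfold gs
    refine Finset.sum_congr rfl fun v _ => ?_
    rw [fderiv_fun_sub (hu w hw) hd]; rfl
  rw [Finset.sum_congr rfl e1]
  unfold gs
  rw [Finset.sum_comm, Finset.sum_comm (s := q), Finset.mul_sum, ← Finset.sum_sub_distrib]
  refine Finset.sum_congr rfl fun v _ => ?_
  rw [fderiv_avg hu]
  set S := ∑ w ∈ q, fderiv ℝ (u w) h (e v)
  have : ∀ w, (fderiv ℝ (u w) h (e v) - S / q.card) ^ 2 =
      fderiv ℝ (u w) h (e v) ^ 2 - 2 * (S / q.card) * fderiv ℝ (u w) h (e v) +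
        (S / q.card) ^ 2 := fun w => by ring
  simp only [this]
  rw [Finset.sum_add_distrib, Finset.sum_sub_distrib, ← Finset.mul_sum, Finset.sum_const,
    nsmul_eq_mul]
  change _ - 2 * (S / q.card) * S + _ = _
  field_simp
  ring

theorem gs_sub_mean_le {q : Finset ι} {u : ι → E → ℝ} {h : E}
    (hu : ∀ w ∈ q, DifferentiableAt ℝ (u w) h) :
    ∑ w ∈ q, gs D e (fun h => u w h - avg q u h) h ≤ ∑ w ∈ q, gs D e (u w) h := by
  rcases q.eq_empty_or_nonempty with rfl | hq
  · simp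
  · rw [gs_sub_mean hq hu]
    have := mul_nonneg (Nat.cast_nonneg (α := ℝ) q.card) (gs_nonneg (D := D) (e := e) (avg q u) h)
    linarith


theorem sq_add_le (a b : ℝ) {th : ℝ} (hth : 0 < th) :
    (a + b) ^ 2 ≤ (1 + th) * a ^ 2 + (1 + th⁻¹) * b ^ 2 := by
  have h : th * th⁻¹ = 1 := mul_inv_cancel₀ hth.ne'
  have h' := inv_pos.mpr hth
  have : 0 ≤ th⁻¹ * (th * a - b) ^ 2 := mul_nonneg h'.le (sq_nonneg _)
  have e : th⁻¹ * (th * a - b) ^ 2 = (th * th⁻¹) * th * a ^ 2 - 2 * (th * th⁻¹) * a * b +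
      th⁻¹ * b ^ 2 := by ring
  rw [e, h] at this
  nlinarith

/-- Product rule. -/
theorem hasFDerivAt_comb {eta l U : E → ℝ} {h : E} (h1 : DifferentiableAt ℝ eta h)
    (h2 : DifferentiableAt ℝ l h) (h3 : DifferentiableAt ℝ U h) :
    HasFDerivAt (fun h => (1 - eta h) * l h + eta h * U h)
      ((1 - eta h) • fderiv ℝ l h + eta h • fderiv ℝ U h + (U h - l h) • fderiv ℝ eta h) h := by
  have a1 : HasFDerivAt (fun h => (1 - eta h) * l h)
      ((1 - eta h) • fderiv ℝ l h + l h • (-fderiv ℝ eta h)) h :=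
    (h1.hasFDerivAt.const_sub 1).mul h2.hasFDerivAt
  have a2 : HasFDerivAt (fun h => eta h * U h)
      (eta h • fderiv ℝ U h + U h • fderiv ℝ eta h) h :=
    h1.hasFDerivAt.mul h3.hasFDerivAt
  refine (a1.add a2).congr_fderiv ?_
  ext x
  simp only [add_apply, smul_apply, neg_apply, smul_eq_mul]
  ring

/-- **(B2)** The product rule for energies. -/
theorem gs_comb_le {eta l U : E → ℝ} {h : E} (h1 : DifferentiableAt ℝ eta h)
    (h2 : DifferentiableAt ℝ l h) (h3 : DifferentiableAt ℝ U h) {th : ℝ} (hth : 0 < th) :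
    gs D e (fun h => (1 - eta h) * l h + eta h * U h) h ≤
      (1 + th) * (eta h ^ 2 * gs D e U h) +
      (1 + th⁻¹) * 2 * ((1 - eta h) ^ 2 * gs D e l h + (U h - l h) ^ 2 * gs D e eta h) := by
  unfold gs
  simp only [Finset.mul_sum, ← Finset.sum_add_distrib]
  refine Finset.sum_le_sum fun v _ => ?_
  rw [(hasFDerivAt_comb h1 h2 h3).fderiv]
  simp only [add_apply, smul_apply, smul_eq_mul]
  set a := fderiv ℝ l h (e v)
  set b := fderiv ℝ U h (e v)
  set c := fderiv ℝ eta h (e v)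
  have e1 := sq_add_le (eta h * b) ((1 - eta h) * a + (U h - l h) * c) hth
  have e2 : ((1 - eta h) * a + (U h - l h) * c) ^ 2 ≤
      2 * (((1 - eta h) * a) ^ 2 + ((U h - l h) * c) ^ 2) := by
    nlinarith [sq_nonneg ((1 - eta h) * a - (U h - l h) * c)]
  have hth' : 0 ≤ 1 + th⁻¹ := by have := inv_pos.mpr hth; linarith
  have e3 := mul_le_mul_of_nonneg_left e2 hth'
  calc _ = (eta h * b + ((1 - eta h) * a + (U h - l h) * c)) ^ 2 := by ring
    _ ≤ _ := e1
    _ ≤ (1 + th) * (eta h * b) ^ 2 +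
        (1 + th⁻¹) * (2 * (((1 - eta h) * a) ^ 2 + ((U h - l h) * c) ^ 2)) := by linarith
    _ = _ := by ring

end Gs

end Crest.Agent.R144.StB565
end
end

-- ▼ part R144/StB2_348
section

/-!
R144 (S0197), helper348.  STEP B of doc 1613 / doc 1728 (STB): the block competitor, on one fibre.

* `gR R w x`: squared gradient of the reference position of `w`;
* `cut`, `zz`, `cmp`: the cut function, the error of the linear approximation, the competitor;
* `adm_cmp`: the competitor has boundary labels `lab W xi` and is rigid near the walls;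
* `ae_en_cmp_le`: the pointwise energy inequality;
* `bqm_le_stb`: the integrated form.
-/

set_option autoImplicit false
set_option linter.unusedSectionVars false

open MeasureTheory Set Filter Topology
open scoped ENNReal NNReal

noncomputable section

namespace Crest.Agent.R144.StB348

open Crest.Agent.R144.Ham560
open Crest.Agent.R144.BQ565
open Crest.Agent.R144.StB565
open Crest.Agent.R144.MW121 (jac jac_apply en en_nonneg measurable_jac measurable_en)

section LipComp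

/-- Derivatives of a Lipschitz function of a differentiable function. -/
theorem norm_fderiv_comp_le {E F G : Type*} [NormedAddCommGroup E] [NormedSpace ℝ E]
    [NormedAddCommGroup F] [NormedSpace ℝ F] [NormedAddCommGroup G] [NormedSpace ℝ G]
    {g : F → G} {L : ℝ≥0} (hg : LipschitzWith L g) {f : E → F} {x : E}
    (hf : DifferentiableAt ℝ f x) (hgf : DifferentiableAt ℝ (fun y => g (f y)) x) (v : E) :
    ‖fderiv ℝ (fun y => g (f y)) x v‖ ≤ L * ‖fderiv ℝ f x v‖ := by
  have h1 := (hf.hasFDerivAt.hasLineDerivAt v).tendsto_slope_zero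
  have h2 := (hgf.hasFDerivAt.hasLineDerivAt v).tendsto_slope_zero
  refine le_of_tendsto_of_tendsto h2.norm (h1.norm.const_mul (L : ℝ))
    (Eventually.of_forall fun t => ?_)
  simp only [norm_smul]
  have h3 : ‖g (f (x + t • v)) - g (f x)‖ ≤ L * ‖f (x + t • v) - f x‖ := by
    have := hg.dist_le_mul (f (x + t • v)) (f x)
    rwa [dist_eq_norm, dist_eq_norm] at this
  calc ‖t⁻¹‖ * ‖g (f (x + t • v)) - g (f x)‖ ≤ ‖t⁻¹‖ * (L * ‖f (x + t • v) - f x‖) :=
        mul_le_mul_of_nonneg_left h3 (norm_nonneg _)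
    _ = _ := by ring

end LipComp

section Gs

variable {V : Type*} [NormedAddCommGroup V] [NormedSpace ℝ V] {κ : Type*} {D : Finset κ}
  {e : κ → V}

theorem gs_lip_le {T : ℝ → ℝ} (hT : LipschitzWith 1 T) {f : V → ℝ} {x : V}
    (hf : DifferentiableAt ℝ f x) (hTf : DifferentiableAt ℝ (fun y => T (f y)) x) :
    gs D e (fun y => T (f y)) x ≤ gs D e f x := by
  unfold gs
  refine Finset.sum_le_sum fun v _ => ?_
  have h := norm_fderiv_comp_le hT hf hTf (e v)
  rw [NNReal.coe_one, one_mul, Real.norm_eq_abs, Real.norm_eq_abs] at h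
  exact sq_le_sq.mpr h

theorem gs_add_const (f : V → ℝ) (c : ℝ) (x : V) :
    gs D e (fun y => f y + c) x = gs D e f x := by
  unfold gs
  rw [fderiv_add_const]

/-- The cut function `χ (R₁, R₂)`. -/
theorem gs_cut_le {ι : Type*} [Fintype ι] {χ : (ι → ℝ) → ℝ} {L : ℝ≥0} (hχ : LipschitzWith L χ)
    {R : ι → V → ℝ} {x : V} (hR : ∀ i, DifferentiableAt ℝ (R i) x)
    (hc : DifferentiableAt ℝ (fun y => χ (fun i => R i y)) x) :
    gs D e (fun y => χ (fun i => R i y)) x ≤ (L : ℝ) ^ 2 * ∑ i, gs D e (R i) x := by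
  have hf : DifferentiableAt ℝ (fun y i => R i y) x := differentiableAt_pi.mpr hR
  unfold gs
  rw [Finset.sum_comm, Finset.mul_sum]
  refine Finset.sum_le_sum fun v _ => ?_
  have h := norm_fderiv_comp_le hχ hf hc (e v)
  have h0 : fderiv ℝ (fun y i => R i y) x (e v) = fun i => fderiv ℝ (R i) x (e v) := by
    rw [fderiv_pi hR]; rfl
  rw [h0, Real.norm_eq_abs] at h
  have h1 : ‖(fun i => fderiv ℝ (R i) x (e v))‖ ^ 2 ≤ ∑ i, (fderiv ℝ (R i) x (e v)) ^ 2 := by
    have hs : 0 ≤ ∑ i, (fderiv ℝ (R i) x (e v)) ^ 2 := Finset.sum_nonneg fun _ _ => sq_nonneg _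
    have h2 : ‖(fun i => fderiv ℝ (R i) x (e v))‖ ≤ √(∑ i, (fderiv ℝ (R i) x (e v)) ^ 2) := by
      refine (pi_norm_le_iff_of_nonneg (Real.sqrt_nonneg _)).mpr fun i => ?_
      rw [Real.norm_eq_abs]
      refine Real.abs_le_sqrt ?_
      exact Finset.single_le_sum (f := fun i => (fderiv ℝ (R i) x (e v)) ^ 2)
        (fun _ _ => sq_nonneg _) (Finset.mem_univ i)
    calc _ ≤ √(∑ i, (fderiv ℝ (R i) x (e v)) ^ 2) ^ 2 :=
          pow_le_pow_left₀ (norm_nonneg _) h2 2
      _ = _ := Real.sq_sqrt hs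
  calc _ = |fderiv ℝ (fun y => χ (fun i => R i y)) x (e v)| ^ 2 := (sq_abs _).symm
    _ ≤ (L * ‖(fun i => fderiv ℝ (R i) x (e v))‖) ^ 2 := pow_le_pow_left₀ (abs_nonneg _) h 2
    _ = (L : ℝ) ^ 2 * ‖(fun i => fderiv ℝ (R i) x (e v))‖ ^ 2 := by ring
    _ ≤ _ := mul_le_mul_of_nonneg_left h1 (sq_nonneg _)

/-- Linear combinations. -/
theorem gs_lin_le {ι : Type*} [Fintype ι] (xi : ι → ℝ)
    {R : ι → V → ℝ} {x : V} (hR : ∀ i, DifferentiableAt ℝ (R i) x) :
    gs D e (fun y => ∑ i, xi i * R i y) x ≤ (∑ i, xi i ^ 2) * ∑ i, gs D e (R i) x := by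
  unfold gs
  rw [Finset.sum_comm, Finset.mul_sum]
  refine Finset.sum_le_sum fun v _ => ?_
  have h1 : HasFDerivAt (fun y => ∑ i, xi i * R i y) (∑ i, xi i • fderiv ℝ (R i) x) x :=
    HasFDerivAt.fun_sum fun i _ => (hR i).hasFDerivAt.const_mul (xi i)
  rw [h1.fderiv]
  have h2 : (∑ i, xi i • fderiv ℝ (R i) x) (e v) = ∑ i, xi i * fderiv ℝ (R i) x (e v) := by
    simp [sum_apply]
  rw [h2]
  exact Finset.sum_mul_sq_le_sq_mul_sq _ _ _

end Gs

section Comp

variable {U : Type*} [DecidableEq U] {I : Finset U} {E : Finset (U × U)} {ζ : U → ℝ}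
  {κ : Type*} [Fintype κ] {W : κ → U → ℝ}

/-- Directions of the fibre. -/
abbrev dir (I : Finset U) : I → (I → ℝ) := fun v => Pi.single v 1

theorem jac_eq {Y : (I → ℝ) → (I → ℝ)} {x : I → ℝ} (hY : DifferentiableAt ℝ Y x) (w v : I) :
    jac Y x w v = fderiv ℝ (fun y => Y y w) x (dir I v) := by
  rw [jac_apply]
  have h := (hasFDerivAt_pi'.mp hY.hasFDerivAt w).fderiv
  rw [h]; rfl

theorem en_eq_gs {Y : (I → ℝ) → (I → ℝ)} {x : I → ℝ} (hY : DifferentiableAt ℝ Y x) :
    en Y x = ∑ w : I, gs Finset.univ (dir I) (fun y => Y y w) x := by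
  unfold en gs
  refine Finset.sum_congr rfl fun w _ => Finset.sum_congr rfl fun v _ => ?_
  rw [jac_eq hY]

/-- The squared gradient of the reference position of `w`. -/
def gR (R : κ → (I → ℝ) → (I → ℝ)) (w : I) (x : I → ℝ) : ℝ := ∑ i, ∑ v, jac (R i) x w v ^ 2

theorem gR_nonneg (R : κ → (I → ℝ) → (I → ℝ)) (w : I) (x : I → ℝ) : 0 ≤ gR R w x :=
  Finset.sum_nonneg fun _ _ => Finset.sum_nonneg fun _ _ => sq_nonneg _


theorem gR_eq {R : κ → (I → ℝ) → (I → ℝ)} {x : I → ℝ} (hR : ∀ i, DifferentiableAt ℝ (R i) x)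
    (w : I) : gR R w x = ∑ i, gs Finset.univ (dir I) (fun y => R i y w) x := by
  unfold gR gs
  refine Finset.sum_congr rfl fun i _ => Finset.sum_congr rfl fun v _ => ?_
  rw [jac_eq (hR i)]

/-- The fibre mean. -/
def mn (u : (I → ℝ) → (I → ℝ)) (x : I → ℝ) : ℝ := (∑ w : I, u x w) / Fintype.card I

/-- The cut function. -/
def cut (χ : (κ → ℝ) → ℝ) (R : κ → (I → ℝ) → (I → ℝ)) (w : I) (x : I → ℝ) : ℝ :=
  χ (fun i => R i x w)

/-- The error of the (truncated) linear approximation. -/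
def zz (T : ℝ → ℝ) (xi ctr : κ → ℝ) (R : κ → (I → ℝ) → (I → ℝ)) (u : (I → ℝ) → (I → ℝ)) (w : I)
    (x : I → ℝ) : ℝ := T (u x w - mn u x) - ∑ i, xi i * (R i x w - ctr i)


variable {χ : (κ → ℝ) → ℝ} {T : ℝ → ℝ} {xi ctr : κ → ℝ} {R : κ → (I → ℝ) → (I → ℝ)}
  {u : (I → ℝ) → (I → ℝ)} {L LT : ℝ≥0}

theorem ll_cut (hχ : LipschitzWith L χ) (hR : ∀ i, LocallyLipschitz (R i)) (w : I) :
    LocallyLipschitz (cut χ R w) :=
  hχ.locallyLipschitz.comp (LL.pi fun i => LL.comp_apply (hR i) w)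

theorem ll_mn (hu : LocallyLipschitz u) : LocallyLipschitz (mn u) := by
  have h1 : LocallyLipschitz fun x => ∑ w : I, u x w :=
    LL.sum fun w _ => LL.comp_apply hu w
  have h2 := LL.mul h1 (LocallyLipschitz.const ((Fintype.card I : ℝ)⁻¹) : LocallyLipschitz
    fun _ : I → ℝ => ((Fintype.card I : ℝ)⁻¹))
  exact h2

theorem ll_trunc (hT : LipschitzWith LT T) (hu : LocallyLipschitz u) (w : I) :
    LocallyLipschitz fun x => T (u x w - mn u x) :=
  hT.locallyLipschitz.comp ((LL.comp_apply hu w).sub (ll_mn hu))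

theorem ll_lin (xi : κ → ℝ) (hR : ∀ i, LocallyLipschitz (R i)) (w : I) :
    LocallyLipschitz fun x => ∑ i, xi i * R i x w :=
  LL.sum fun i _ => LL.mul (LocallyLipschitz.const (xi i)) (LL.comp_apply (hR i) w)




theorem cmp_sub_lin (w : I) (x : I → ℝ) :
    (T (u x w - mn u x) + ∑ i, xi i * ctr i) - ∑ i, xi i * R i x w = zz T xi ctr R u w x := by
  simp only [zz, mul_sub, Finset.sum_sub_distrib]
  ring



end Comp

end Crest.Agent.R144.StB348
end
end

-- ▼ part R144/StB3_348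
section

/-!
R144 (S0197), helper348.  STEP B of doc 1613 / doc 1728 (STB), part 2: the truncation, the cut
function, the bound of `zz`, and the integrated form.

* `tr K`: truncation at `K`;
* `zz_le`: `|zz_w| ≤ |u_w - c - G·y_w| + 5 r Σ |g_i - ξ_i| + 4 Λ C₀`, `g = tr (4Λ) G`;
* `bqm_le_stb`: `bqm μ E ζ (lab W ξ) ≤ (1+θ) ∫ en u + ...`;
* `bqm_le_stb_split`: the same with `gR ≤ D` and the splitting `D ≤ M`, `D > M`.
-/

set_option autoImplicit false
set_option linter.unusedSectionVars false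

open MeasureTheory Set Filter Topology
open scoped ENNReal NNReal

noncomputable section

namespace Crest.Agent.R144.StB348

open Crest.Agent.R144.Ham560
open Crest.Agent.R144.BQ565
open Crest.Agent.R144.StB565
open Crest.Agent.R144.MW121 (jac jac_apply en en_nonneg measurable_jac measurable_en)

section Trunc

/-- Truncation. -/
def tr (K s : ℝ) : ℝ := max (-K) (min K s)

theorem lip_tr (K : ℝ) : LipschitzWith 1 (tr K) := by
  have h1 : LipschitzWith 1 (fun s : ℝ => min K s) := by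
    simpa using (LipschitzWith.id (α := ℝ)).const_min K
  exact h1.const_max (-K)

theorem abs_tr_le {K : ℝ} (hK : 0 ≤ K) (s : ℝ) : |tr K s| ≤ K := by
  rw [abs_le, tr]
  exact ⟨le_max_left _ _, max_le (by linarith) (min_le_left _ _)⟩

theorem tr_eq {K s : ℝ} (h : |s| ≤ K) : tr K s = s := by
  rw [abs_le] at h
  rw [tr, min_eq_right h.2, max_eq_right h.1]

theorem abs_tr_of_lt {K s : ℝ} (hK : 0 ≤ K) (h : K < |s|) : |tr K s| = K := by
  rcases lt_abs.mp h with h | h
  · rw [tr, min_eq_left h.le, max_eq_right (by linarith), abs_of_nonneg hK]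
  · rw [tr, min_eq_right (by linarith), max_eq_left (by linarith), abs_neg, abs_of_nonneg hK]

theorem abs_tr_sub_le (K s t : ℝ) : |tr K s - tr K t| ≤ |s - t| := by
  have := (lip_tr K).dist_le_mul s t
  rwa [NNReal.coe_one, one_mul, Real.dist_eq, Real.dist_eq] at this

end Trunc

section ZZ

variable {U : Type*} [DecidableEq U] {I : Finset U}

/-- The error of the truncated linear approximation, bounded. -/
theorem abs_zz_le {κ : Type*} [Fintype κ] {K : ℝ} (hK : 0 ≤ K) {xi ctr : κ → ℝ}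
    {R : κ → (I → ℝ) → (I → ℝ)} {u : (I → ℝ) → (I → ℝ)} (w : I) (x : I → ℝ) :
    |zz (tr K) xi ctr R u w x| ≤ K + ∑ i, |xi i| * |R i x w - ctr i| := by
  unfold zz
  refine (abs_sub _ _).trans (add_le_add (abs_tr_le hK _) ?_)
  refine (Finset.abs_sum_le_sum_abs _ _).trans (le_of_eq ?_)
  exact Finset.sum_congr rfl fun i _ => abs_mul _ _

/-- **Comparison with a linear function** `s ≈ G · y`, `|y_i| ≤ r / 2`, positions `P` with
`|P_i - y_i| ≤ C₀`, slope `ξ` with `|ξ_i| ≤ 2 Λ`. -/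
theorem tr_sub_le {Lam r C0 s : ℝ} (hL : 0 ≤ Lam) (hr : 0 ≤ r) {G xi y P : Fin 2 → ℝ}
    (hxi : ∀ i, |xi i| ≤ 2 * Lam) (hy : ∀ i, |y i| ≤ r / 2) (hP : ∀ i, |P i - y i| ≤ C0) :
    |tr (8 * Lam * r) s - ∑ i, xi i * P i| ≤
      |s - ∑ i, G i * y i| + 5 * r * ∑ i, |tr (4 * Lam) (G i) - xi i| + 4 * Lam * C0 := by
  have hC0 : 0 ≤ C0 := (abs_nonneg _).trans (hP 0)
  have hLr : 0 ≤ Lam * r := mul_nonneg hL hr
  have h1 : |∑ i, xi i * y i| ≤ 2 * Lam * r := by
    rw [Fin.sum_univ_two]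
    have a0 : |xi 0 * y 0| ≤ 2 * Lam * (r / 2) := by
      rw [abs_mul]; exact mul_le_mul (hxi 0) (hy 0) (abs_nonneg _) (by linarith)
    have a1 : |xi 1 * y 1| ≤ 2 * Lam * (r / 2) := by
      rw [abs_mul]; exact mul_le_mul (hxi 1) (hy 1) (abs_nonneg _) (by linarith)
    have := abs_add_le (xi 0 * y 0) (xi 1 * y 1)
    linarith
  have h2 : |∑ i, xi i * y i - ∑ i, xi i * P i| ≤ 4 * Lam * C0 := by
    rw [Fin.sum_univ_two, Fin.sum_univ_two]
    have a0 : |xi 0 * (y 0 - P 0)| ≤ 2 * Lam * C0 := by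
      rw [abs_mul, abs_sub_comm]; exact mul_le_mul (hxi 0) (hP 0) (abs_nonneg _) (by linarith)
    have a1 : |xi 1 * (y 1 - P 1)| ≤ 2 * Lam * C0 := by
      rw [abs_mul, abs_sub_comm (y 1)]
      exact mul_le_mul (hxi 1) (hP 1) (abs_nonneg _) (by linarith)
    have h3 := abs_add_le (xi 0 * (y 0 - P 0)) (xi 1 * (y 1 - P 1))
    have e : xi 0 * y 0 + xi 1 * y 1 - (xi 0 * P 0 + xi 1 * P 1) =
      xi 0 * (y 0 - P 0) + xi 1 * (y 1 - P 1) := by ring
    rw [e]; linarith
  have hsum0 : 0 ≤ ∑ i, |tr (4 * Lam) (G i) - xi i| := Finset.sum_nonneg fun _ _ => abs_nonneg _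
  have main : |tr (8 * Lam * r) s - ∑ i, xi i * y i| ≤
      |s - ∑ i, G i * y i| + 5 * r * ∑ i, |tr (4 * Lam) (G i) - xi i| := by
    by_cases hG : ∀ i, |G i| ≤ 4 * Lam
    · have e1 : ∑ i, xi i * y i = tr (8 * Lam * r) (∑ i, xi i * y i) := by
        rw [tr_eq (h1.trans (by nlinarith))]
      have b1 : |tr (8 * Lam * r) s - ∑ i, xi i * y i| ≤ |s - ∑ i, xi i * y i| := by
        rw [e1, ← e1]
        calc |tr (8 * Lam * r) s - ∑ i, xi i * y i| =
            |tr (8 * Lam * r) s - tr (8 * Lam * r) (∑ i, xi i * y i)| := by rw [← e1]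
          _ ≤ _ := abs_tr_sub_le _ _ _
      have b2 : |s - ∑ i, xi i * y i| ≤ |s - ∑ i, G i * y i| + |∑ i, (G i - xi i) * y i| := by
        have := abs_add_le (s - ∑ i, G i * y i) (∑ i, (G i - xi i) * y i)
        have e : s - ∑ i, G i * y i + ∑ i, (G i - xi i) * y i = s - ∑ i, xi i * y i := by
          simp only [sub_mul, Finset.sum_sub_distrib]; ring
        rwa [e] at this
      have b3 : |∑ i, (G i - xi i) * y i| ≤ r * ∑ i, |tr (4 * Lam) (G i) - xi i| := by
        rw [Finset.mul_sum]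
        refine (Finset.abs_sum_le_sum_abs _ _).trans (Finset.sum_le_sum fun i _ => ?_)
        rw [abs_mul, tr_eq (hG i), mul_comm]
        exact mul_le_mul_of_nonneg_right ((hy i).trans (by linarith)) (abs_nonneg _)
      have b4 : r * ∑ i, |tr (4 * Lam) (G i) - xi i| ≤
          5 * r * ∑ i, |tr (4 * Lam) (G i) - xi i| :=
        mul_le_mul_of_nonneg_right (by linarith) hsum0
      linarith
    · push Not at hG
      obtain ⟨i, hi⟩ := hG
      have c1 : 2 * Lam ≤ |tr (4 * Lam) (G i) - xi i| := by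
        have e1 := abs_tr_of_lt (by linarith : 0 ≤ 4 * Lam) hi
        have e2 := abs_sub_abs_le_abs_sub (tr (4 * Lam) (G i)) (xi i)
        have e3 := hxi i
        linarith
      have c2 : |tr (4 * Lam) (G i) - xi i| ≤ ∑ i, |tr (4 * Lam) (G i) - xi i| :=
        Finset.single_le_sum (f := fun i => |tr (4 * Lam) (G i) - xi i|)
          (fun _ _ => abs_nonneg _) (Finset.mem_univ i)
      have c3 : |tr (8 * Lam * r) s| ≤ 8 * Lam * r := abs_tr_le (by positivity) s
      have c4 := abs_sub (tr (8 * Lam * r) s) (∑ i, xi i * y i)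
      have c5 : 10 * Lam * r ≤ 5 * r * ∑ i, |tr (4 * Lam) (G i) - xi i| := by
        have := mul_le_mul_of_nonneg_left (c1.trans c2) (by positivity : 0 ≤ 5 * r)
        nlinarith
      have c6 := abs_nonneg (s - ∑ i, G i * y i)
      nlinarith
  have e : tr (8 * Lam * r) s - ∑ i, xi i * P i =
      (tr (8 * Lam * r) s - ∑ i, xi i * y i) + (∑ i, xi i * y i - ∑ i, xi i * P i) := by ring
  rw [e]
  refine (abs_add_le _ _).trans ?_
  linarith

/-- The bound of `zz`: positions `R`, coordinates `crd`, centre `ctr`. -/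
theorem zz_le {Lam r C0 : ℝ} (hL : 0 ≤ Lam) (hr : 0 ≤ r) {G xi ctr : Fin 2 → ℝ}
    {crd : Fin 2 → U → ℝ} {R : Fin 2 → (I → ℝ) → (I → ℝ)} {u : (I → ℝ) → (I → ℝ)} {w : I}
    {x : I → ℝ} (hxi : ∀ i, |xi i| ≤ 2 * Lam) (hy : ∀ i, |crd i w - ctr i| ≤ r / 2)
    (hP : ∀ i, |R i x w - crd i w| ≤ C0) :
    |zz (tr (8 * Lam * r)) xi ctr R u w x| ≤
      |u x w - mn u x - ∑ i, G i * (crd i w - ctr i)| +
        5 * r * ∑ i, |tr (4 * Lam) (G i) - xi i| + 4 * Lam * C0 := by
  unfold zz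
  refine tr_sub_le hL hr (P := fun i => R i x w - ctr i) (y := fun i => crd i w - ctr i) hxi hy
    fun i => ?_
  have e : R i x w - ctr i - (crd i w - ctr i) = R i x w - crd i w := by ring
  rw [e]; exact hP i

/-- The uniform bound of `zz`. -/
theorem zz_le_unif {Lam r C0 : ℝ} (hL : 0 ≤ Lam) (hr : 0 ≤ r) {xi ctr : Fin 2 → ℝ}
    {crd : Fin 2 → U → ℝ} {R : Fin 2 → (I → ℝ) → (I → ℝ)} {u : (I → ℝ) → (I → ℝ)} {w : I}
    {x : I → ℝ} (hxi : ∀ i, |xi i| ≤ 2 * Lam) (hy : ∀ i, |crd i w - ctr i| ≤ r / 2)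
    (hP : ∀ i, |R i x w - crd i w| ≤ C0) :
    |zz (tr (8 * Lam * r)) xi ctr R u w x| ≤ 10 * Lam * r + 4 * Lam * C0 := by
  refine (abs_zz_le (by positivity) w x).trans ?_
  have h : ∀ i, |xi i| * |R i x w - ctr i| ≤ 2 * Lam * (r / 2 + C0) := by
    intro i
    refine mul_le_mul (hxi i) ?_ (abs_nonneg _) (by linarith)
    have := abs_add_le (R i x w - crd i w) (crd i w - ctr i)
    rw [sub_add_sub_cancel] at this
    linarith [hy i, hP i]
  rw [Fin.sum_univ_two]
  linarith [h 0, h 1]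

end ZZ

section Int

variable {U : Type*} [DecidableEq U] {I : Finset U} {E : Finset (U × U)} {ζ : U → ℝ}
  {κ : Type*} [Fintype κ] {W : κ → U → ℝ}
  {χ : (κ → ℝ) → ℝ} {T : ℝ → ℝ} {xi ctr : κ → ℝ} {R : κ → (I → ℝ) → (I → ℝ)}
  {u : (I → ℝ) → (I → ℝ)} {L LT : ℝ≥0} {μ : Measure (I → ℝ)}







/-- The splitting at level `M`. -/
theorem mul_sq_le_split {g D z B M : ℝ} (hg0 : 0 ≤ g) (hg : g ≤ D) (hM : 0 ≤ M) (hz : |z| ≤ B) :
    g * z ^ 2 ≤ M * B * |z| + B ^ 2 * (if M < D then D else 0) := by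
  have hB : 0 ≤ B := (abs_nonneg _).trans hz
  have hz2 : z ^ 2 ≤ B * |z| := by
    rw [← sq_abs, sq]; exact mul_le_mul_of_nonneg_right hz (abs_nonneg _)
  have hz3 : z ^ 2 ≤ B ^ 2 := by
    rw [← sq_abs]; exact pow_le_pow_left₀ (abs_nonneg _) hz 2
  split_ifs with h
  · have h1 : g * z ^ 2 ≤ D * B ^ 2 := mul_le_mul hg hz3 (sq_nonneg _) (hg0.trans hg)
    have h2 : 0 ≤ M * B * |z| := by positivity
    linarith
  · push Not at h
    have h1 : g * z ^ 2 ≤ M * (B * |z|) := mul_le_mul (hg.trans h) hz2 (sq_nonneg _) hM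
    linarith


end Int

end Crest.Agent.R144.StB348
end
end

-- ▼ part R144/StB4_348

/-!
R144 (S0197), helper348.  STEP B, part 3: the cut function of a polygon.

`inn a lo p = min_j (a_j · p - lo_j)`, `chi a lo s p = max 0 (min 1 (inn a lo p / s))`.
`boxA`, `boxLo` : the rhombus `lo ≤ p ≤ hi` in the index coordinates.
-/

set_option autoImplicit false
set_option linter.unusedSectionVars false

open MeasureTheory Set Filter Topology
open scoped ENNReal NNReal

noncomputable section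

namespace Crest.Agent.R144.StB348

section Poly

variable {κ J : Type*} [Fintype κ] [Fintype J] [Nonempty J]

/-- Distance-like function to the complement of the polygon `a_j · p ≥ lo_j`. -/
def inn (a : J → κ → ℝ) (lo : J → ℝ) (p : κ → ℝ) : ℝ :=
  Finset.univ.inf' Finset.univ_nonempty fun j => ∑ i, a j i * p i - lo j











end Poly

section Box





end Box

end Crest.Agent.R144.StB348
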