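import Mathlib

-- ▼ part R144/Flat1_296
section

/-!
R144 / S0197, approach P, Step F (label-space flatness), part 1: the L1 functional on random fields
over `ℤ × ℤ`, block means, translations.
-/

set_option autoImplicit false

open MeasureTheory Finset
open scoped ENNReal

namespace Crest.Agent.R144.Flat296

/-- sites (index coordinates) -/
abbrev P2 : Type := ℤ × ℤ

variable {Ω : Type*} [MeasurableSpace Ω]

/-- random fields -/
abbrev Fld (Ω : Type*) : Type _ := P2 → Ω → ℝ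

/-- translation -/
def tr (z : P2) (v : Fld Ω) : Fld Ω := fun a ω => v (a + z) ω

/-- weighted L1 functional -/
noncomputable def N (μ : Measure Ω) (w : P2 → ℝ≥0∞) (v : Fld Ω) : ℝ≥0∞ :=
  ∑' a, w a * ∫⁻ ω, ‖v a ω‖ₑ ∂μ

/-- weighted L2 functional -/
noncomputable def Q (μ : Measure Ω) (w : P2 → ℝ≥0∞) (v : Fld Ω) : ℝ≥0∞ :=
  ∑' a, w a * ∫⁻ ω, ENNReal.ofReal (v a ω ^ 2) ∂μ

/-- measurable fields -/
def Mb (v : Fld Ω) : Prop := ∀ a, Measurable (v a)

section basic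

variable {μ : Measure Ω} {w w' : P2 → ℝ≥0∞} {v v' : Fld Ω}

lemma Mb.tr {v : Fld Ω} (hv : Mb v) (z : P2) : Mb (tr z v) := fun a => hv (a + z)

lemma Mb.add {v v' : Fld Ω} (hv : Mb v) (hv' : Mb v') : Mb (v + v') :=
  fun a => (hv a).add (hv' a)

lemma Mb.sub {v v' : Fld Ω} (hv : Mb v) (hv' : Mb v') : Mb (v - v') :=
  fun a => (hv a).sub (hv' a)

lemma Mb.smul {v : Fld Ω} (c : ℝ) (hv : Mb v) : Mb (c • v) :=
  fun a => (hv a).const_smul c

lemma Mb.zero : Mb (0 : Fld Ω) := fun _ => measurable_const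

lemma Mb.sum {ι : Type*} {s : Finset ι} {f : ι → Fld Ω} (h : ∀ i ∈ s, Mb (f i)) :
    Mb (∑ i ∈ s, f i) := by
  intro a
  have : (∑ i ∈ s, f i) a = ∑ i ∈ s, f i a := by simp
  rw [this]
  have h2 : (∑ i ∈ s, f i a) = fun ω => ∑ i ∈ s, f i a ω := by ext ω; simp
  rw [h2]
  exact Finset.measurable_sum s fun i hi => h i hi a


lemma N_add (hv : Mb v) : N μ w (v + v') ≤ N μ w v + N μ w v' := by
  unfold N
  rw [← ENNReal.tsum_add]
  refine ENNReal.tsum_le_tsum fun a => ?_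
  rw [← mul_add, ← lintegral_add_left (hv a).enorm]
  gcongr
  exact enorm_add_le _ _

lemma N_smul (c : ℝ) : N μ w (c • v) = ‖c‖ₑ * N μ w v := by
  unfold N
  rw [← ENNReal.tsum_mul_left]
  refine tsum_congr fun a => ?_
  have : ∀ ω, ‖(c • v) a ω‖ₑ = ‖c‖ₑ * ‖v a ω‖ₑ := fun ω => by
    simp [enorm_mul]
  simp_rw [this]
  rw [lintegral_const_mul' _ _ (by simp)]
  ring

lemma N_zero : N μ w (0 : Fld Ω) = 0 := by simp [N]

lemma N_neg : N μ w (-v) = N μ w v := by simp [N]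

lemma N_sub (hv : Mb v) : N μ w (v - v') ≤ N μ w v + N μ w v' := by
  rw [sub_eq_add_neg]
  exact (N_add hv).trans (by rw [N_neg])


lemma N_sum {ι : Type*} (s : Finset ι) (f : ι → Fld Ω) (h : ∀ i ∈ s, Mb (f i)) :
    N μ w (∑ i ∈ s, f i) ≤ ∑ i ∈ s, N μ w (f i) := by
  classical
  induction s using Finset.induction_on with
  | empty => simp [N_zero]
  | insert i s hi ih =>
    rw [Finset.sum_insert hi, Finset.sum_insert hi]
    refine (N_add (h i (by simp))).trans ?_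
    gcongr
    exact ih fun j hj => h j (by simp [hj])

lemma N_tr (z : P2) : N μ w (tr z v) = N μ (fun a => w (a - z)) v := by
  unfold N tr
  rw [← (Equiv.addRight z).tsum_eq (fun a => w (a - z) * ∫⁻ ω, ‖v a ω‖ₑ ∂μ)]
  simp

lemma N_tr_one (z : P2) : N μ (fun _ => 1) (tr z v) = N μ (fun _ => 1) v := N_tr z

lemma Q_tr_one (z : P2) : Q μ (fun _ => 1) (tr z v) = Q μ (fun _ => 1) v := by
  unfold Q tr
  rw [← (Equiv.addRight z).tsum_eq (fun a => (1:ℝ≥0∞) * ∫⁻ ω, ENNReal.ofReal (v a ω ^ 2) ∂μ)]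
  simp

/-- AM-GM: the L1 functional by the L2 functional and the total weight -/
lemma N_le_Q [IsProbabilityMeasure μ] (hw : ∀ a, w a ≤ 1) (hv : Mb v) {κ : ℝ} (hκ : 0 < κ) :
    N μ w v ≤ ENNReal.ofReal κ * ∑' a, w a + ENNReal.ofReal κ⁻¹ * Q μ (fun _ => 1) v := by
  unfold N Q
  rw [← ENNReal.tsum_mul_left, ← ENNReal.tsum_mul_left, ← ENNReal.tsum_add]
  refine ENNReal.tsum_le_tsum fun a => ?_
  have hp : ∀ ω, ‖v a ω‖ₑ ≤ ENNReal.ofReal κ + ENNReal.ofReal κ⁻¹ * ENNReal.ofReal (v a ω ^ 2) := by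
    intro ω
    rw [← ENNReal.ofReal_mul (by positivity), ← ENNReal.ofReal_add hκ.le (by positivity),
      Real.enorm_eq_ofReal_abs]
    apply ENNReal.ofReal_le_ofReal
    have h1 : 0 ≤ (|v a ω| - κ) ^ 2 := sq_nonneg _
    have h2 : κ * (κ⁻¹ * v a ω ^ 2) = v a ω ^ 2 := by field_simp
    have h3 : |v a ω| ^ 2 = v a ω ^ 2 := sq_abs _
    have h4 : κ * |v a ω| ≤ κ * (κ + κ⁻¹ * v a ω ^ 2) := by
      rw [mul_add, h2]; nlinarith [abs_nonneg (v a ω)]
    exact le_of_mul_le_mul_left h4 hκ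
  calc w a * ∫⁻ ω, ‖v a ω‖ₑ ∂μ
      ≤ w a * ∫⁻ ω, (ENNReal.ofReal κ + ENNReal.ofReal κ⁻¹ * ENNReal.ofReal (v a ω ^ 2)) ∂μ := by
        gcongr with ω; exact hp ω
    _ = w a * (ENNReal.ofReal κ + ENNReal.ofReal κ⁻¹ * ∫⁻ ω, ENNReal.ofReal (v a ω ^ 2) ∂μ) := by
        rw [lintegral_add_left measurable_const, lintegral_const_mul' _ _ (by simp)]
        simp
    _ ≤ ENNReal.ofReal κ * w a + ENNReal.ofReal κ⁻¹ * (1 * ∫⁻ ω, ENNReal.ofReal (v a ω ^ 2) ∂μ) := by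
        rw [mul_add, mul_comm (w a)]
        have h5 : ∀ X : ℝ≥0∞, w a * X ≤ X := fun X =>
          (mul_le_mul' (hw a) le_rfl).trans (one_mul X).le
        exact add_le_add le_rfl ((h5 _).trans (by rw [one_mul]))

end basic

end Crest.Agent.R144.Flat296
end

-- ▼ part R144/Flat2_296
section

/-!
R144 / S0197, approach P, Step F (label-space flatness), part 2: means over finite families, block
means, the variance identity, telescoping.
-/

set_option autoImplicit false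
set_option linter.unusedSectionVars false
set_option linter.unusedVariables false

open MeasureTheory Finset
open scoped ENNReal

namespace Crest.Agent.R144.Flat296

variable {Ω : Type*} [MeasurableSpace Ω] {μ : Measure Ω} {w : P2 → ℝ≥0∞} {v v' : Fld Ω}

/-- mean of a finite family of fields -/
noncomputable def mn {ι : Type*} (s : Finset ι) (X : ι → Fld Ω) : Fld Ω :=
  ((s.card : ℝ))⁻¹ • ∑ i ∈ s, X i

section mean

variable {ι : Type*} {s : Finset ι} {X : ι → Fld Ω}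

lemma mn_apply (a : P2) (ω : Ω) : mn s X a ω = ((s.card : ℝ))⁻¹ * ∑ i ∈ s, X i a ω := by
  simp [mn]

lemma Mb.mn (h : ∀ i ∈ s, Mb (X i)) : Mb (mn s X) := (Mb.sum h).smul _

lemma enorm_inv_card_mul (n : ℕ) (B : ℝ≥0∞) : ‖((n : ℝ))⁻¹‖ₑ * (n * B) ≤ B := by
  rcases Nat.eq_zero_or_pos n with h | h
  · subst h; simp
  · have h1 : ‖((n : ℝ))⁻¹‖ₑ = ((n : ℝ≥0∞))⁻¹ := by
      rw [enorm_inv (by positivity)]
      simp
    rw [h1, ← mul_assoc, ENNReal.inv_mul_cancel (by positivity) (by simp), one_mul]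

lemma N_mn_le (h : ∀ i ∈ s, Mb (X i)) {B : ℝ≥0∞} (hB : ∀ i ∈ s, N μ w (X i) ≤ B) :
    N μ w (mn s X) ≤ B := by
  unfold Flat296.mn
  rw [N_smul]
  refine le_trans ?_ (enorm_inv_card_mul s.card B)
  gcongr
  refine (N_sum s X h).trans ((Finset.sum_le_sum hB).trans ?_)
  simp

lemma mn_sub_const (hs : s.Nonempty) (v : Fld Ω) : mn s (fun i => X i - v) = mn s X - v := by
  have hc : (s.card : ℝ) ≠ 0 := by simpa using hs.ne_empty
  ext a ω
  have e : (mn s X - v) a ω = mn s X a ω - v a ω := rfl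
  rw [e, mn_apply, mn_apply]
  have e2 : ∀ i, (X i - v) a ω = X i a ω - v a ω := fun i => rfl
  simp_rw [e2]
  rw [Finset.sum_sub_distrib, Finset.sum_const, nsmul_eq_mul]
  field_simp

/-- the variance identity -/
lemma Q_mn (hs : s.Nonempty) (h : ∀ i ∈ s, Mb (X i)) :
    Q μ (fun _ => 1) (mn s X) + (s.card : ℝ≥0∞)⁻¹ * ∑ i ∈ s, Q μ (fun _ => 1) (X i - mn s X) =
      (s.card : ℝ≥0∞)⁻¹ * ∑ i ∈ s, Q μ (fun _ => 1) (X i) := by
  have hc : (s.card : ℝ) ≠ 0 := by simpa using hs.ne_empty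
  have hcE : (s.card : ℝ≥0∞) ≠ 0 := by simpa using hs.ne_empty
  unfold Q
  simp only [one_mul]
  rw [← Summable.tsum_finsetSum (fun i _ => ENNReal.summable),
    ← Summable.tsum_finsetSum (fun i _ => ENNReal.summable), ← ENNReal.tsum_mul_left,
    ← ENNReal.tsum_mul_left, ← ENNReal.tsum_add]
  refine tsum_congr fun a => ?_
  have hm : ∀ i ∈ s, Measurable (X i a) := fun i hi => h i hi a
  have hmm : Measurable (mn s X a) := Mb.mn h a
  have hA : ∑ i ∈ s, ∫⁻ ω, ENNReal.ofReal ((X i - mn s X) a ω ^ 2) ∂μ =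
      ∫⁻ ω, ∑ i ∈ s, ENNReal.ofReal ((X i - mn s X) a ω ^ 2) ∂μ := by
    refine (lintegral_finsetSum' s fun i hi => ?_).symm
    exact ((((hm i hi).sub hmm).pow_const 2).ennreal_ofReal).aemeasurable
  have hB : ∑ i ∈ s, ∫⁻ ω, ENNReal.ofReal (X i a ω ^ 2) ∂μ =
      ∫⁻ ω, ∑ i ∈ s, ENNReal.ofReal (X i a ω ^ 2) ∂μ := by
    refine (lintegral_finsetSum' s fun i hi => ?_).symm
    exact (((hm i hi).pow_const 2).ennreal_ofReal).aemeasurable
  rw [hA, hB, ← lintegral_const_mul' _ _ (by simp [hcE]), ← lintegral_const_mul' _ _ (by simp [hcE]),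
    ← lintegral_add_left]
  · refine lintegral_congr fun ω => ?_
    have e1 : ((s.card : ℝ≥0∞))⁻¹ = ENNReal.ofReal ((s.card : ℝ))⁻¹ := by
      rw [ENNReal.ofReal_inv_of_pos (by positivity), ENNReal.ofReal_natCast]
    rw [e1, ← ENNReal.ofReal_sum_of_nonneg (fun i _ => sq_nonneg _),
      ← ENNReal.ofReal_sum_of_nonneg (fun i _ => sq_nonneg _), ← ENNReal.ofReal_mul (by positivity),
      ← ENNReal.ofReal_mul (by positivity), ← ENNReal.ofReal_add (sq_nonneg _)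
        (mul_nonneg (by positivity) (Finset.sum_nonneg fun i _ => sq_nonneg _))]
    congr 1
    have e2 : ∀ i, (X i - mn s X) a ω = X i a ω - mn s X a ω := fun i => rfl
    simp_rw [e2]
    rw [mn_apply]
    set S := ∑ i ∈ s, X i a ω with hS
    have e3 : ∑ i ∈ s, (X i a ω - (s.card : ℝ)⁻¹ * S) ^ 2 =
        ∑ i ∈ s, X i a ω ^ 2 - 2 * ((s.card : ℝ)⁻¹ * S) * S + s.card * ((s.card : ℝ)⁻¹ * S) ^ 2 := by
      have : ∀ i, (X i a ω - (s.card : ℝ)⁻¹ * S) ^ 2 = X i a ω ^ 2 -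
          2 * ((s.card : ℝ)⁻¹ * S) * X i a ω + ((s.card : ℝ)⁻¹ * S) ^ 2 := fun i => by ring
      simp_rw [this]
      rw [Finset.sum_add_distrib, Finset.sum_sub_distrib, ← Finset.mul_sum, ← hS,
        Finset.sum_const, nsmul_eq_mul]
    rw [e3]
    field_simp
    ring
  · exact (hmm.pow_const 2).ennreal_ofReal

lemma Q_mn_le (hs : s.Nonempty) (h : ∀ i ∈ s, Mb (X i)) {B : ℝ≥0∞}
    (hB : ∀ i ∈ s, Q μ (fun _ => 1) (X i) ≤ B) : Q μ (fun _ => 1) (mn s X) ≤ B := by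
  have h1 := Q_mn (μ := μ) hs h
  have hcE : (s.card : ℝ≥0∞) ≠ 0 := by simpa using hs.ne_empty
  calc Q μ (fun _ => 1) (mn s X) ≤ (s.card : ℝ≥0∞)⁻¹ * ∑ i ∈ s, Q μ (fun _ => 1) (X i) := by
        rw [← h1]; exact le_self_add
    _ ≤ (s.card : ℝ≥0∞)⁻¹ * (s.card * B) := by
        gcongr
        refine (Finset.sum_le_sum hB).trans ?_
        simp
    _ = B := by
        rw [← mul_assoc, ENNReal.inv_mul_cancel hcE (by simp), one_mul]

end mean

/-! ### translations and block means -/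

lemma tr_tr (z z' : P2) (v : Fld Ω) : tr z (tr z' v) = tr (z + z') v := by
  ext a ω
  show v (a + z + z') ω = v (a + (z + z')) ω
  rw [add_assoc]

lemma tr_zero' (v : Fld Ω) : tr 0 v = v := by ext a ω; simp [tr]

lemma tr_sub (z : P2) (v v' : Fld Ω) : tr z (v - v') = tr z v - tr z v' := rfl


lemma tr_smul (z : P2) (c : ℝ) (v : Fld Ω) : tr z (c • v) = c • tr z v := rfl

lemma tr_sum {ι : Type*} (s : Finset ι) (X : ι → Fld Ω) (z : P2) :
    tr z (∑ i ∈ s, X i) = ∑ i ∈ s, tr z (X i) := by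
  ext a ω
  simp [tr]

lemma tr_mn {ι : Type*} (s : Finset ι) (X : ι → Fld Ω) (z : P2) :
    tr z (mn s X) = mn s (fun i => tr z (X i)) := by
  unfold Flat296.mn
  rw [tr_smul, tr_sum]

/-- the square of side `r` as an index set -/
def sq (r : ℕ) : Finset (ℕ × ℕ) := range r ×ˢ range r

/-- lattice point of a pair of naturals -/
def pt (p : ℕ × ℕ) : P2 := ((p.1 : ℤ), (p.2 : ℤ))

lemma mem_sq {r : ℕ} {p : ℕ × ℕ} : p ∈ sq r ↔ p.1 < r ∧ p.2 < r := by simp [sq]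

lemma card_sq (r : ℕ) : (sq r).card = r * r := by simp [sq]

lemma sq_nonempty {r : ℕ} (hr : 0 < r) : (sq r).Nonempty := ⟨(0, 0), by simp [mem_sq, hr]⟩

/-- block mean -/
noncomputable def bm (r : ℕ) (v : Fld Ω) : Fld Ω := mn (sq r) (fun p => tr (pt p) v)

lemma Mb.bm {v : Fld Ω} (hv : Mb v) (r : ℕ) : Mb (bm r v) := Mb.mn fun p _ => hv.tr _

lemma N_bm_le (hv : Mb v) (r : ℕ) : N μ (fun _ => 1) (bm r v) ≤ N μ (fun _ => 1) v :=
  N_mn_le (fun p _ => hv.tr _) fun p _ => (N_tr_one _).le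

lemma Q_bm_le (hv : Mb v) {r : ℕ} (hr : 0 < r) : Q μ (fun _ => 1) (bm r v) ≤ Q μ (fun _ => 1) v :=
  Q_mn_le (sq_nonempty hr) (fun p _ => hv.tr _) fun p _ => (Q_tr_one _).le

lemma tr_bm (z : P2) (r : ℕ) (v : Fld Ω) : tr z (bm r v) = bm r (tr z v) := by
  unfold Flat296.bm
  rw [tr_mn]
  congr 1
  ext p : 1
  rw [tr_tr, tr_tr, add_comm]

lemma mn_sub {ι : Type*} (s : Finset ι) (X Y : ι → Fld Ω) :
    mn s X - mn s Y = mn s (fun i => X i - Y i) := by
  unfold Flat296.mn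
  rw [Finset.sum_sub_distrib, smul_sub]

lemma bm_sub (r : ℕ) (v v' : Fld Ω) : bm r (v - v') = bm r v - bm r v' := by
  unfold Flat296.bm
  rw [mn_sub]
  rfl


lemma sum_range_mul' {M : Type*} [AddCommMonoid M] (f : ℕ → M) (ρ m : ℕ) :
    ∑ i ∈ range (ρ * m), f i = ∑ k ∈ range m, ∑ i ∈ range ρ, f (ρ * k + i) := by
  induction m with
  | zero => simp
  | succ m ih => rw [Nat.mul_succ, Finset.sum_range_add, ih, Finset.sum_range_succ]

/-- the block mean at scale `ρ m` is the mean over the sub-blocks of side `ρ` -/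
lemma bm_mul (ρ m : ℕ) (v : Fld Ω) :
    bm (ρ * m) v = mn (sq m) (fun k => tr (pt (ρ * k.1, ρ * k.2)) (bm ρ v)) := by
  unfold Flat296.bm
  simp_rw [tr_mn, tr_tr]
  unfold Flat296.mn
  rw [← Finset.smul_sum, smul_smul]
  have h1 : ((sq (ρ * m)).card : ℝ)⁻¹ = ((sq m).card : ℝ)⁻¹ * ((sq ρ).card : ℝ)⁻¹ := by
    rw [card_sq, card_sq, card_sq, ← mul_inv]
    congr 1
    push_cast
    ring
  rw [h1]
  congr 1
  unfold sq
  rw [Finset.sum_product, Finset.sum_product, sum_range_mul']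
  refine Finset.sum_congr rfl fun k _ => ?_
  simp_rw [sum_range_mul', Finset.sum_product]
  rw [Finset.sum_comm]
  refine Finset.sum_congr rfl fun l _ => ?_
  refine Finset.sum_congr rfl fun i _ => Finset.sum_congr rfl fun j _ => ?_
  congr 1

end Crest.Agent.R144.Flat296
end

-- ▼ part R144/Flat3_296
section

/-!
R144 / S0197, approach P, Step F (label-space flatness), part 3: increments, telescoping, almost
invariance of block means, the comparison of two scales.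
-/

set_option autoImplicit false
set_option linter.unusedSectionVars false
set_option linter.unusedVariables false

open MeasureTheory Finset
open scoped ENNReal

namespace Crest.Agent.R144.Flat296

variable {Ω : Type*} [MeasurableSpace Ω] {μ : Measure Ω} {w : P2 → ℝ≥0∞} {v v' : Fld Ω}

/-- increment -/
def dd (z : P2) (v : Fld Ω) : Fld Ω := tr z v - v

lemma Mb.dd {v : Fld Ω} (hv : Mb v) (z : P2) : Mb (dd z v) := (hv.tr z).sub hv

lemma dd_bm (z : P2) (r : ℕ) (v : Fld Ω) : dd z (bm r v) = bm r (dd z v) := by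
  unfold Flat296.dd
  rw [tr_bm, bm_sub]

/-- staircase sum -/
def psum (i j : ℕ) (v1 v2 : Fld Ω) : Fld Ω :=
  ∑ k ∈ range i, tr (pt (k, 0)) v1 + ∑ l ∈ range j, tr (pt (i, l)) v2

lemma tele (i j : ℕ) (u : Fld Ω) :
    tr (pt (i, j)) u - u = psum i j (dd (1, 0) u) (dd (0, 1) u) := by
  unfold psum dd
  have h1 : ∀ k : ℕ, tr (pt (k, 0)) (tr ((1 : ℤ), (0 : ℤ)) u - u) =
      tr (pt (k + 1, 0)) u - tr (pt (k, 0)) u := fun k => by
    rw [tr_sub, tr_tr]
    congr 2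
  have h2 : ∀ l : ℕ, tr (pt (i, l)) (tr ((0 : ℤ), (1 : ℤ)) u - u) =
      tr (pt (i, l + 1)) u - tr (pt (i, l)) u := fun k => by
    rw [tr_sub, tr_tr]
    congr 2
  simp_rw [h1, h2]
  rw [Finset.sum_range_sub (fun k => tr (pt (k, 0)) u), Finset.sum_range_sub
    (fun l => tr (pt (i, l)) u)]
  have h3 : tr (pt (0, 0)) u = u := by
    have : pt (0, 0) = 0 := by simp [pt]
    rw [this, tr_zero']
  rw [h3]
  abel

lemma N_psum (h1 : Mb v) (h2 : Mb v') (i j : ℕ) :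
    N μ (fun _ => 1) (psum i j v v') ≤ i * N μ (fun _ => 1) v + j * N μ (fun _ => 1) v' := by
  unfold psum
  refine (N_add (Mb.sum fun k _ => h1.tr _)).trans ?_
  refine add_le_add ((N_sum _ _ fun k _ => h1.tr _).trans ?_) ((N_sum _ _ fun k _ => h2.tr _).trans ?_)
  · simp [N_tr_one]
  · simp [N_tr_one]

lemma Mb.psum {v v' : Fld Ω} (h1 : Mb v) (h2 : Mb v') (i j : ℕ) : Mb (psum i j v v') :=
  (Mb.sum fun k _ => h1.tr _).add (Mb.sum fun k _ => h2.tr _)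

lemma enorm_inv_sq (R : ℕ) (hR : 0 < R) (B : ℝ≥0∞) :
    ‖((R * R : ℕ) : ℝ)⁻¹‖ₑ * (R * (2 * B)) = 2 * B / R := by
  have h1 : ‖(((R * R : ℕ) : ℝ))⁻¹‖ₑ = ((R : ℝ≥0∞))⁻¹ * ((R : ℝ≥0∞))⁻¹ := by
    rw [enorm_inv (by positivity)]
    have : ‖((R * R : ℕ) : ℝ)‖ₑ = (R : ℝ≥0∞) * R := by
      push_cast
      rw [enorm_mul]
      simp
    rw [this, ENNReal.mul_inv (by simp) (by simp)]
  have hR' : (R : ℝ≥0∞) ≠ 0 := by positivity
  rw [h1, mul_assoc, ← mul_assoc ((R : ℝ≥0∞))⁻¹ (R : ℝ≥0∞),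
    ENNReal.inv_mul_cancel hR' (by simp), one_mul, ENNReal.div_eq_inv_mul]

lemma N_bm_dd1 (hv : Mb v) {R : ℕ} (hR : 0 < R) :
    N μ (fun _ => 1) (bm R (dd (1, 0) v)) ≤ 2 * N μ (fun _ => 1) v / R := by
  have e : bm R (dd (1, 0) v) = (((R * R : ℕ) : ℝ)⁻¹) •
      ∑ j ∈ range R, (tr (pt (R, j)) v - tr (pt (0, j)) v) := by
    unfold bm mn
    rw [card_sq]
    congr 1
    unfold sq
    rw [Finset.sum_product_right]
    refine Finset.sum_congr rfl fun j _ => ?_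
    unfold Flat296.dd
    have h1 : ∀ k : ℕ, tr (pt (k, j)) (tr ((1 : ℤ), (0 : ℤ)) v - v) =
        tr (pt (k + 1, j)) v - tr (pt (k, j)) v := fun k => by
      rw [tr_sub, tr_tr]
      congr 2
    simp_rw [h1]
    rw [Finset.sum_range_sub (fun k => tr (pt (k, j)) v)]
  rw [e, N_smul, ← enorm_inv_sq R hR]
  gcongr
  refine (N_sum _ _ fun j _ => (hv.tr _).sub (hv.tr _)).trans ?_
  calc ∑ j ∈ range R, N μ (fun _ => 1) (tr (pt (R, j)) v - tr (pt (0, j)) v)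
      ≤ ∑ j ∈ range R, 2 * N μ (fun _ => 1) v := by
        refine Finset.sum_le_sum fun j _ => (N_sub (hv.tr _)).trans ?_
        rw [N_tr_one, N_tr_one, two_mul]
    _ = _ := by simp

lemma N_bm_dd2 (hv : Mb v) {R : ℕ} (hR : 0 < R) :
    N μ (fun _ => 1) (bm R (dd (0, 1) v)) ≤ 2 * N μ (fun _ => 1) v / R := by
  have e : bm R (dd (0, 1) v) = (((R * R : ℕ) : ℝ)⁻¹) •
      ∑ i ∈ range R, (tr (pt (i, R)) v - tr (pt (i, 0)) v) := by
    unfold bm mn
    rw [card_sq]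
    congr 1
    unfold sq
    rw [Finset.sum_product]
    refine Finset.sum_congr rfl fun i _ => ?_
    unfold Flat296.dd
    have h1 : ∀ k : ℕ, tr (pt (i, k)) (tr ((0 : ℤ), (1 : ℤ)) v - v) =
        tr (pt (i, k + 1)) v - tr (pt (i, k)) v := fun k => by
      rw [tr_sub, tr_tr]
      congr 2
    simp_rw [h1]
    rw [Finset.sum_range_sub (fun k => tr (pt (i, k)) v)]
  rw [e, N_smul, ← enorm_inv_sq R hR]
  gcongr
  refine (N_sum _ _ fun j _ => (hv.tr _).sub (hv.tr _)).trans ?_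
  calc ∑ i ∈ range R, N μ (fun _ => 1) (tr (pt (i, R)) v - tr (pt (i, 0)) v)
      ≤ ∑ j ∈ range R, 2 * N μ (fun _ => 1) v := by
        refine Finset.sum_le_sum fun j _ => (N_sub (hv.tr _)).trans ?_
        rw [N_tr_one, N_tr_one, two_mul]
    _ = _ := by simp

/-- block means at a large scale are almost invariant under shifts -/
lemma N_shift_bm (hv : Mb v) {R : ℕ} (hR : 0 < R) (i j : ℕ) :
    N μ (fun _ => 1) (tr (pt (i, j)) (bm R v) - bm R v) ≤
      ((i + j : ℕ) : ℝ≥0∞) * (2 * N μ (fun _ => 1) v / R) := by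
  rw [tele]
  refine (N_psum ((hv.bm R).dd _) ((hv.bm R).dd _) i j).trans ?_
  rw [dd_bm, dd_bm]
  calc _ ≤ i * (2 * N μ (fun _ => 1) v / R) + j * (2 * N μ (fun _ => 1) v / R) :=
        add_le_add (mul_le_mul' le_rfl (N_bm_dd1 hv hR)) (mul_le_mul' le_rfl (N_bm_dd2 hv hR))
    _ = _ := by push_cast; ring

/-- AM-GM for fields of finite support -/
lemma N_le_Q' [IsProbabilityMeasure μ] (hv : Mb v) {K : Finset P2} (hK : ∀ a ∉ K, v a = 0)
    {κ : ℝ} (hκ : 0 < κ) :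
    N μ (fun _ => 1) v ≤ ENNReal.ofReal κ * K.card + ENNReal.ofReal κ⁻¹ * Q μ (fun _ => 1) v := by
  classical
  have h1 := N_le_Q (μ := μ) (w := fun a => if a ∈ K then 1 else 0) (by intro a; split_ifs <;> simp)
    hv hκ
  have h2 : N μ (fun a => if a ∈ K then 1 else 0) v = N μ (fun _ => 1) v := by
    unfold N
    refine tsum_congr fun a => ?_
    by_cases ha : a ∈ K
    · simp [ha]
    · simp [ha, hK a ha]
  have h3 : ∑' a, (if a ∈ K then (1 : ℝ≥0∞) else 0) = K.card := by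
    rw [tsum_eq_sum (s := K) (fun a ha => by simp [ha])]
    simp
  rwa [h2, h3] at h1

/-- the variance of the sub-block means of scale `ρ` inside the blocks of side `ρ m` -/
noncomputable def Wv (μ : Measure Ω) (ρ m : ℕ) (v : Fld Ω) : ℝ≥0∞ :=
  ((sq m).card : ℝ≥0∞)⁻¹ * ∑ k ∈ sq m,
    Q μ (fun _ => 1) (tr (pt (ρ * k.1, ρ * k.2)) (bm ρ v) - bm (ρ * m) v)

lemma Q_add_Wv (hv : Mb v) {ρ m : ℕ} (hm : 0 < m) :
    Q μ (fun _ => 1) (bm (ρ * m) v) + Wv μ ρ m v = Q μ (fun _ => 1) (bm ρ v) := by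
  unfold Wv
  rw [bm_mul]
  rw [Q_mn (sq_nonempty hm) fun k _ => (hv.bm ρ).tr _]
  simp_rw [Q_tr_one]
  have hcE : ((sq m).card : ℝ≥0∞) ≠ 0 := by
    simpa using (sq_nonempty hm).ne_empty
  rw [Finset.sum_const, nsmul_eq_mul, ← mul_assoc, ENNReal.inv_mul_cancel hcE (by simp), one_mul]

/-- comparison of the block means at the scales `ρ` and `ρ m` -/
lemma N_bm_sub_le [IsProbabilityMeasure μ] (hv : Mb v) {K' K'' : Finset P2}
    (hK' : ∀ a ∉ K', v a = 0) {ρ m l : ℕ} (hρ : 0 < ρ) (hl : 0 < l) (hlm : l ≤ m)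
    (hK'' : ∀ a ∈ K', ∀ p ∈ sq (ρ * m), a - pt p ∈ K'') {κ : ℝ} (hκ : 0 < κ) :
    N μ (fun _ => 1) (bm ρ v - bm (ρ * m) v) ≤
      ENNReal.ofReal κ * K''.card + ENNReal.ofReal κ⁻¹ * ((m * m : ℕ) / (l * l : ℕ) * Wv μ ρ m v) +
        4 * (l : ℝ≥0∞) / m * N μ (fun _ => 1) v := by
  have hm : 0 < m := lt_of_lt_of_le hl hlm
  have hR : 0 < ρ * m := Nat.mul_pos hρ hm
  set E : ℕ × ℕ → Fld Ω := fun k => tr (pt (ρ * k.1, ρ * k.2)) (bm ρ v) - bm (ρ * m) v with hE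
  have hEm : ∀ k, Mb (E k) := fun k => ((hv.bm ρ).tr _).sub (hv.bm _)
  -- support of `E k`
  have hsupp0 : ∀ (s : Finset (ℕ × ℕ)) (f : ℕ × ℕ → ℕ × ℕ) (a : P2),
      (∀ p ∈ s, a + pt (f p) ∉ K') → mn s (fun p => tr (pt (f p)) v) a = 0 := by
    intro s f a h
    ext ω
    rw [mn_apply]
    have : ∑ i ∈ s, tr (pt (f i)) v a ω = 0 := Finset.sum_eq_zero fun p hp => by
      show v (a + pt (f p)) ω = 0
      rw [hK' _ (h p hp)]; rfl
    rw [this]; simp
  have hsupp : ∀ k ∈ sq m, ∀ a ∉ K'', E k a = 0 := by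
    intro k hk a ha
    have hbig : ∀ p ∈ sq (ρ * m), a + pt p ∉ K' := by
      intro p hp hc
      apply ha
      have := hK'' _ hc p hp
      simpa using this
    have h1 : bm (ρ * m) v a = 0 := hsupp0 (sq (ρ * m)) id a hbig
    have h2 : tr (pt (ρ * k.1, ρ * k.2)) (bm ρ v) a = 0 := by
      rw [tr_bm]
      unfold bm
      have h3 : (fun p => tr (pt p) (tr (pt (ρ * k.1, ρ * k.2)) v)) =
          fun p : ℕ × ℕ => tr (pt (p.1 + ρ * k.1, p.2 + ρ * k.2)) v := by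
        ext p : 1
        rw [tr_tr]
        congr 1
      rw [h3]
      refine hsupp0 (sq ρ) (fun p => (p.1 + ρ * k.1, p.2 + ρ * k.2)) a fun p hp => ?_
      refine hbig _ ?_
      rw [mem_sq] at hp hk ⊢
      constructor
      · have : ρ * k.1 + ρ ≤ ρ * m := by
          calc ρ * k.1 + ρ = ρ * (k.1 + 1) := by ring
            _ ≤ ρ * m := Nat.mul_le_mul_left _ hk.1
        show p.1 + ρ * k.1 < ρ * m
        omega
      · have : ρ * k.2 + ρ ≤ ρ * m := by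
          calc ρ * k.2 + ρ = ρ * (k.2 + 1) := by ring
            _ ≤ ρ * m := Nat.mul_le_mul_left _ hk.2
        show p.2 + ρ * k.2 < ρ * m
        omega
    ext ω
    show tr (pt (ρ * k.1, ρ * k.2)) (bm ρ v) a ω - bm (ρ * m) v a ω = 0
    rw [h1, h2]; simp
  have hsub : sq l ⊆ sq m := fun p hp => by
    rw [mem_sq] at hp ⊢; exact ⟨lt_of_lt_of_le hp.1 hlm, lt_of_lt_of_le hp.2 hlm⟩
  set D := N μ (fun _ => 1) (bm ρ v - bm (ρ * m) v) with hD
  -- one shift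
  have hone : ∀ k ∈ sq l, D ≤ (ENNReal.ofReal κ * K''.card + 4 * (l : ℝ≥0∞) / m * N μ (fun _ => 1) v) +
      ENNReal.ofReal κ⁻¹ * Q μ (fun _ => 1) (E k) := by
    intro k hk
    have e1 : D = N μ (fun _ => 1) (tr (pt (ρ * k.1, ρ * k.2)) (bm ρ v - bm (ρ * m) v)) := by
      rw [N_tr_one]
    have e2 : tr (pt (ρ * k.1, ρ * k.2)) (bm ρ v - bm (ρ * m) v) =
        E k - (tr (pt (ρ * k.1, ρ * k.2)) (bm (ρ * m) v) - bm (ρ * m) v) := by
      rw [hE, tr_sub]; simp only; abel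
    rw [e1, e2]
    refine (N_sub (hEm k)).trans ?_
    have h3 := N_le_Q' (μ := μ) (hEm k) (hsupp k (hsub hk)) hκ
    have h4 := N_shift_bm (μ := μ) hv hR (ρ * k.1) (ρ * k.2)
    have h5 : ((ρ * k.1 + ρ * k.2 : ℕ) : ℝ≥0∞) * (2 * N μ (fun _ => 1) v / (ρ * m : ℕ)) ≤
        4 * (l : ℝ≥0∞) / m * N μ (fun _ => 1) v := by
      rw [mem_sq] at hk
      have h6 : (ρ * k.1 + ρ * k.2 : ℕ) ≤ ρ * (2 * l) := by
        have : k.1 + k.2 ≤ 2 * l := by omega
        calc ρ * k.1 + ρ * k.2 = ρ * (k.1 + k.2) := by ring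
          _ ≤ _ := Nat.mul_le_mul_left _ this
      calc ((ρ * k.1 + ρ * k.2 : ℕ) : ℝ≥0∞) * (2 * N μ (fun _ => 1) v / (ρ * m : ℕ))
          ≤ ((ρ * (2 * l) : ℕ) : ℝ≥0∞) * (2 * N μ (fun _ => 1) v / (ρ * m : ℕ)) := by
            gcongr
        _ = _ := by
            have hρ' : (ρ : ℝ≥0∞) ≠ 0 := by positivity
            push_cast
            rw [ENNReal.div_eq_inv_mul, ENNReal.mul_inv (by simp) (by simp), ENNReal.div_eq_inv_mul]
            calc (ρ : ℝ≥0∞) * (2 * l) * ((ρ : ℝ≥0∞)⁻¹ * (m : ℝ≥0∞)⁻¹ * (2 * N μ (fun _ => 1) v))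
                = ((ρ : ℝ≥0∞) * (ρ : ℝ≥0∞)⁻¹) * ((m : ℝ≥0∞)⁻¹ * (2 * 2 * l) * N μ (fun _ => 1) v) := by
                  ring
              _ = _ := by
                  rw [ENNReal.mul_inv_cancel hρ' (by simp), one_mul]
                  norm_num
    calc _ ≤ (ENNReal.ofReal κ * K''.card + ENNReal.ofReal κ⁻¹ * Q μ (fun _ => 1) (E k)) +
          4 * (l : ℝ≥0∞) / m * N μ (fun _ => 1) v := add_le_add h3 (h4.trans h5)
      _ = _ := by ring
  -- average over `k ∈ sq l`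
  have hsum : ((l * l : ℕ) : ℝ≥0∞) * D ≤ ((l * l : ℕ) : ℝ≥0∞) *
      (ENNReal.ofReal κ * K''.card + 4 * (l : ℝ≥0∞) / m * N μ (fun _ => 1) v) +
      ENNReal.ofReal κ⁻¹ * (((m * m : ℕ) : ℝ≥0∞) * Wv μ ρ m v) := by
    have h1 : ∑ k ∈ sq l, D ≤ ∑ k ∈ sq l, ((ENNReal.ofReal κ * K''.card +
        4 * (l : ℝ≥0∞) / m * N μ (fun _ => 1) v) + ENNReal.ofReal κ⁻¹ * Q μ (fun _ => 1) (E k)) :=
      Finset.sum_le_sum hone
    rw [Finset.sum_const, Finset.sum_add_distrib, Finset.sum_const, ← Finset.mul_sum, card_sq,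
      nsmul_eq_mul, nsmul_eq_mul] at h1
    refine h1.trans ?_
    gcongr
    have h2 : ∑ k ∈ sq l, Q μ (fun _ => 1) (E k) ≤ ∑ k ∈ sq m, Q μ (fun _ => 1) (E k) :=
      Finset.sum_le_sum_of_subset hsub
    refine h2.trans (le_of_eq ?_)
    unfold Wv
    have hcE : ((m * m : ℕ) : ℝ≥0∞) ≠ 0 := by positivity
    rw [card_sq, ← mul_assoc, ENNReal.mul_inv_cancel hcE (ENNReal.natCast_ne_top _), one_mul]
  have hl0 : ((l * l : ℕ) : ℝ≥0∞) ≠ 0 := by positivity
  have hlt : ((l * l : ℕ) : ℝ≥0∞) ≠ ∞ := ENNReal.natCast_ne_top _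
  calc D = ((l * l : ℕ) : ℝ≥0∞)⁻¹ * (((l * l : ℕ) : ℝ≥0∞) * D) := by
        rw [← mul_assoc, ENNReal.inv_mul_cancel hl0 hlt, one_mul]
    _ ≤ ((l * l : ℕ) : ℝ≥0∞)⁻¹ * (((l * l : ℕ) : ℝ≥0∞) *
      (ENNReal.ofReal κ * K''.card + 4 * (l : ℝ≥0∞) / m * N μ (fun _ => 1) v) +
      ENNReal.ofReal κ⁻¹ * (((m * m : ℕ) : ℝ≥0∞) * Wv μ ρ m v)) := by gcongr
    _ = (ENNReal.ofReal κ * K''.card + 4 * (l : ℝ≥0∞) / m * N μ (fun _ => 1) v) +
        ((l * l : ℕ) : ℝ≥0∞)⁻¹ * (ENNReal.ofReal κ⁻¹ * (((m * m : ℕ) : ℝ≥0∞) * Wv μ ρ m v)) := by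
        rw [mul_add, ← mul_assoc, ENNReal.inv_mul_cancel hl0 hlt, one_mul]
    _ = _ := by
        simp only [ENNReal.div_eq_inv_mul]
        ring

end Crest.Agent.R144.Flat296
end

-- ▼ part R144/Flat4_296
section

/-!
R144 / S0197, approach P, Step F (label-space flatness), part 4: truncation, pigeonhole over a chain
of scales, the flatness theorem.
-/

set_option autoImplicit false
set_option linter.unusedSectionVars false
set_option linter.unusedVariables false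

open MeasureTheory Finset
open scoped ENNReal

namespace Crest.Agent.R144.Flat296

variable {Ω : Type*} [MeasurableSpace Ω] {μ : Measure Ω} {w : P2 → ℝ≥0∞} {v v' : Fld Ω}

/-- truncation at level `Λ` -/
noncomputable def tc (Λ : ℝ) (v : Fld Ω) : Fld Ω := fun a ω => max (-Λ) (min (v a ω) Λ)

lemma Mb.tc {v : Fld Ω} (hv : Mb v) (Λ : ℝ) : Mb (tc Λ v) :=
  fun a => measurable_const.max ((hv a).min measurable_const)

lemma abs_tc_le {Λ : ℝ} (hΛ : 0 ≤ Λ) (v : Fld Ω) (a : P2) (ω : Ω) : |tc Λ v a ω| ≤ Λ := by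
  rw [abs_le]
  exact ⟨le_max_left _ _, max_le (by linarith) (min_le_right _ _)⟩

lemma abs_tc_le' {Λ : ℝ} (hΛ : 0 ≤ Λ) (v : Fld Ω) (a : P2) (ω : Ω) : |tc Λ v a ω| ≤ |v a ω| := by
  show |max (-Λ) (min (v a ω) Λ)| ≤ _
  rcases le_total (v a ω) Λ with h | h
  · rw [min_eq_left h]
    rcases le_total (-Λ) (v a ω) with h' | h'
    · rw [max_eq_right h']
    · rw [max_eq_left h', abs_neg, abs_of_nonneg hΛ]
      rw [abs_of_nonpos (by linarith)]; linarith
  · rw [min_eq_right h, max_eq_right (by linarith), abs_of_nonneg hΛ]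
    exact h.trans (le_abs_self _)

lemma tc_eq_zero {Λ : ℝ} (hΛ : 0 ≤ Λ) {v : Fld Ω} {a : P2} (h : v a = 0) : tc Λ v a = 0 := by
  ext ω
  have : |tc Λ v a ω| ≤ |v a ω| := abs_tc_le' hΛ v a ω
  rw [h] at this
  simpa using this

lemma N_tc_le {Λ : ℝ} (hΛ : 0 ≤ Λ) : N μ w (tc Λ v) ≤ N μ w v := by
  unfold N
  gcongr with a ω
  rw [Real.enorm_eq_ofReal_abs, Real.enorm_eq_ofReal_abs]
  exact ENNReal.ofReal_le_ofReal (abs_tc_le' hΛ v a ω)

lemma Q_tc_le {Λ : ℝ} (hΛ : 0 ≤ Λ) :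
    Q μ (fun _ => 1) (tc Λ v) ≤ ENNReal.ofReal Λ * N μ (fun _ => 1) v := by
  unfold Q N
  rw [← ENNReal.tsum_mul_left]
  refine ENNReal.tsum_le_tsum fun a => ?_
  rw [one_mul, one_mul, ← lintegral_const_mul' _ _ (by simp)]
  refine lintegral_mono fun ω => ?_
  rw [Real.enorm_eq_ofReal_abs, ← ENNReal.ofReal_mul hΛ]
  refine ENNReal.ofReal_le_ofReal ?_
  rw [← sq_abs, pow_two]
  exact mul_le_mul (abs_tc_le hΛ v a ω) (abs_tc_le' hΛ v a ω) (abs_nonneg _) hΛ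

/-- variances over a chain of scales sum up to at most the L2 norm at the first scale -/
lemma sum_Wv_le (hv : Mb v) {ρ m : ℕ → ℕ} (hm : ∀ j, 0 < m j)
    (hρm : ∀ j, ρ (j + 1) = ρ j * m j) (J : ℕ) :
    ∑ j ∈ range J, Wv μ (ρ j) (m j) v + Q μ (fun _ => 1) (bm (ρ J) v) =
      Q μ (fun _ => 1) (bm (ρ 0) v) := by
  induction J with
  | zero => simp
  | succ J ih =>
    rw [Finset.sum_range_succ, ← ih, add_assoc, hρm J, add_comm (Wv μ (ρ J) (m J) v),
      Q_add_Wv hv (hm J)]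

/-- pigeonhole: some scale of the chain has small variances for both components -/
lemma exists_scale {v1 v2 : Fld Ω} (h1 : Mb v1) (h2 : Mb v2) {Λ : ℝ} (hΛ : 0 ≤ Λ) {ρ m : ℕ → ℕ}
    (hρ0 : 0 < ρ 0) (hm : ∀ j, 0 < m j) (hρm : ∀ j, ρ (j + 1) = ρ j * m j) {J : ℕ} (hJ : 0 < J) :
    ∃ j < J, Wv μ (ρ j) (m j) (tc Λ v1) + Wv μ (ρ j) (m j) (tc Λ v2) ≤
      ENNReal.ofReal Λ * (N μ (fun _ => 1) v1 + N μ (fun _ => 1) v2) / J := by
  by_contra hcon
  push Not at hcon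
  have hJ0 : (J : ℝ≥0∞) ≠ 0 := by positivity
  have ha : ∀ v : Fld Ω, Mb v → ∑ j ∈ range J, Wv μ (ρ j) (m j) (tc Λ v) ≤
      ENNReal.ofReal Λ * N μ (fun _ => 1) v := fun v hv => by
    calc _ ≤ Q μ (fun _ => 1) (bm (ρ 0) (tc Λ v)) := by
          rw [← sum_Wv_le (hv.tc Λ) hm hρm J]; exact le_self_add
      _ ≤ Q μ (fun _ => 1) (tc Λ v) := Q_bm_le (hv.tc Λ) hρ0
      _ ≤ _ := Q_tc_le hΛ
  have hb : ∑ j ∈ range J, (Wv μ (ρ j) (m j) (tc Λ v1) + Wv μ (ρ j) (m j) (tc Λ v2)) ≤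
      ENNReal.ofReal Λ * (N μ (fun _ => 1) v1 + N μ (fun _ => 1) v2) := by
    rw [Finset.sum_add_distrib, mul_add]
    exact add_le_add (ha v1 h1) (ha v2 h2)
  set B := ENNReal.ofReal Λ * (N μ (fun _ => 1) v1 + N μ (fun _ => 1) v2) with hB
  have hlt : B < B := by
    have hne : (range J).Nonempty := ⟨0, by simpa using hJ⟩
    have hfin : B / J ≠ ∞ := by
      intro h
      have := hcon 0 hJ
      rw [h] at this
      exact not_top_lt this
    calc B = ∑ j ∈ range J, B / J := by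
          rw [Finset.sum_const, card_range, nsmul_eq_mul, ENNReal.mul_div_cancel hJ0 (by simp)]
      _ < ∑ j ∈ range J, (Wv μ (ρ j) (m j) (tc Λ v1) + Wv μ (ρ j) (m j) (tc Λ v2)) :=
          ENNReal.sum_lt_sum_of_nonempty hne fun j hj => hcon j (mem_range.mp hj)
      _ ≤ B := hb
  exact lt_irrefl _ hlt

/-- the field restricted to a finite set of sites -/
def rst (K : Finset P2) (v : Fld Ω) : Fld Ω := fun a => if a ∈ K then v a else 0

lemma Mb.rst {v : Fld Ω} (hv : Mb v) (K : Finset P2) : Mb (rst K v) := by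
  intro a
  unfold Flat296.rst
  split_ifs
  · exact hv a
  · exact measurable_const

lemma rst_notMem {K : Finset P2} {a : P2} (h : a ∉ K) (v : Fld Ω) : rst K v a = 0 := by
  simp [rst, h]

lemma rst_mem {K : Finset P2} {a : P2} (h : a ∈ K) (v : Fld Ω) : rst K v a = v a := by
  simp [rst, h]

lemma N_rst (K : Finset P2) (v : Fld Ω) :
    N μ (fun _ => 1) (rst K v) = ∑ a ∈ K, ∫⁻ ω, ‖v a ω‖ₑ ∂μ := by
  unfold N
  rw [tsum_eq_sum (s := K) (fun a ha => by simp [rst_notMem ha])]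
  refine Finset.sum_congr rfl fun a ha => ?_
  rw [rst_mem ha, one_mul]

lemma N_rst_le (K : Finset P2) (v : Fld Ω) :
    N μ (fun _ => 1) (rst K v) ≤ N μ (fun _ => 1) v := by
  unfold N
  refine ENNReal.tsum_le_tsum fun a => ?_
  by_cases ha : a ∈ K
  · rw [rst_mem ha]
  · rw [rst_notMem ha]; simp

lemma N_rst_congr {K : Finset P2} {v v' : Fld Ω} (h : ∀ a ∈ K, v a = v' a) :
    N μ (fun _ => 1) (rst K v) = N μ (fun _ => 1) (rst K v') := by
  rw [N_rst, N_rst]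
  exact Finset.sum_congr rfl fun a ha => by rw [h a ha]

lemma rst_sub (K : Finset P2) (v v' : Fld Ω) : rst K (v - v') = rst K v - rst K v' := by
  ext a ω
  by_cases ha : a ∈ K
  · show rst K (v - v') a ω = rst K v a ω - rst K v' a ω
    rw [rst_mem ha, rst_mem ha, rst_mem ha]; rfl
  · show rst K (v - v') a ω = rst K v a ω - rst K v' a ω
    rw [rst_notMem ha, rst_notMem ha, rst_notMem ha]; simp

lemma rst_mn {ι : Type*} (K : Finset P2) (s : Finset ι) (X : ι → Fld Ω) :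
    rst K (mn s X) = mn s (fun i => rst K (X i)) := by
  ext a ω
  rw [mn_apply]
  by_cases ha : a ∈ K
  · rw [rst_mem ha, mn_apply]
    simp_rw [rst_mem ha]
  · rw [rst_notMem ha]
    simp_rw [rst_notMem ha]
    simp

lemma psum_apply (i j : ℕ) (v v' : Fld Ω) (a : P2) (ω : Ω) : psum i j v v' a ω =
    ∑ k ∈ range i, v (a + pt (k, 0)) ω + ∑ l ∈ range j, v' (a + pt (i, l)) ω := by
  unfold psum
  show (∑ k ∈ range i, tr (pt (k, 0)) v) a ω + (∑ l ∈ range j, tr (pt (i, l)) v') a ω = _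
  simp [tr]

/-- staircase sums inside a set on which the fields agree -/
lemma psum_congr {i j : ℕ} {v1 v2 v1' v2' : Fld Ω} {a : P2}
    (h1 : ∀ k < i, v1 (a + pt (k, 0)) = v1' (a + pt (k, 0)))
    (h2 : ∀ l < j, v2 (a + pt (i, l)) = v2' (a + pt (i, l))) :
    psum i j v1 v2 a = psum i j v1' v2' a := by
  ext ω
  rw [psum_apply, psum_apply]
  congr 1
  · exact Finset.sum_congr rfl fun k hk => by rw [h1 k (mem_range.mp hk)]
  · exact Finset.sum_congr rfl fun k hk => by rw [h2 k (mem_range.mp hk)]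

/-- local increments of the block mean -/
lemma dd_bm_local {u v : Fld Ω} {z : P2} {ρ : ℕ} {a : P2}
    (h : ∀ p ∈ sq ρ, dd z u (a + pt p) = v (a + pt p)) : dd z (bm ρ u) a = bm ρ v a := by
  rw [dd_bm]
  ext ω
  unfold bm
  rw [mn_apply, mn_apply]
  congr 1
  refine Finset.sum_congr rfl fun p hp => ?_
  show dd z u (a + pt p) ω = v (a + pt p) ω
  rw [h p hp]

end Crest.Agent.R144.Flat296
end

-- ▼ part R144/Flat5_296
section

/-!
R144 / S0197, approach P, Step F (label-space flatness), part 5: the flatness theorem.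

For a random field `u` over `ℤ × ℤ` and a finite window `K'`, put `v_i = 1_{K'} ∂_i u`. Along a chain of
scales `ρ 0 ∣ ρ 1 ∣ … ∣ ρ J` there is `j < J` such that on the blocks of side `r j` (in the window) the
field `u` is `L¹` close to its block mean plus the affine function with slope the mean of `∂u` over a
block of side `ρ (j+1)`.
-/

set_option autoImplicit false
set_option linter.unusedSectionVars false
set_option linter.unusedVariables false

open MeasureTheory Finset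
open scoped ENNReal

namespace Crest.Agent.R144.Flat296

variable {Ω : Type*} [MeasurableSpace Ω] {μ : Measure Ω}

lemma N_tr_bm_sub {v : Fld Ω} (hv : Mb v) {ρ R : ℕ} (hR : 0 < R) (i j r : ℕ) (hi : i ≤ r)
    (hj : j ≤ r) :
    N μ (fun _ => 1) (tr (pt (i, j)) (bm ρ v) - bm R v) ≤
      N μ (fun _ => 1) (bm ρ v - bm R v) + 4 * (r : ℝ≥0∞) / R * N μ (fun _ => 1) v := by
  have e : tr (pt (i, j)) (bm ρ v) - bm R v =
      tr (pt (i, j)) (bm ρ v - bm R v) + (tr (pt (i, j)) (bm R v) - bm R v) := by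
    rw [tr_sub]; abel
  rw [e]
  refine (N_add (((hv.bm ρ).sub (hv.bm R)).tr _)).trans ?_
  rw [N_tr_one]
  gcongr
  refine (N_shift_bm hv hR i j).trans ?_
  calc ((i + j : ℕ) : ℝ≥0∞) * (2 * N μ (fun _ => 1) v / R)
      ≤ ((2 * r : ℕ) : ℝ≥0∞) * (2 * N μ (fun _ => 1) v / R) := by
        gcongr
        omega
    _ = _ := by
        simp only [ENNReal.div_eq_inv_mul]
        push_cast
        ring_nf

lemma N_bm_sub_split {v : Fld Ω} (hv : Mb v) (ρ R : ℕ) (g : Fld Ω) (hg : Mb g) :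
    N μ (fun _ => 1) (bm ρ v - bm R v) ≤
      N μ (fun _ => 1) (bm ρ g - bm R g) + 2 * N μ (fun _ => 1) (v - g) := by
  have e : bm ρ v - bm R v = (bm ρ g - bm R g) + (bm ρ (v - g) - bm R (v - g)) := by
    rw [bm_sub, bm_sub]; abel
  rw [e]
  refine (N_add ((hg.bm ρ).sub (hg.bm R))).trans ?_
  gcongr
  refine (N_sub ((hv.sub hg).bm ρ)).trans ?_
  rw [two_mul]
  exact add_le_add (N_bm_le (hv.sub hg) ρ) (N_bm_le (hv.sub hg) R)

/-- deviation from the affine function with slopes `G1, G2` -/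
noncomputable def dev (ρ : ℕ) (u G1 G2 : Fld Ω) (p : ℕ × ℕ) : Fld Ω :=
  tr (pt p) u - bm ρ u - ((p.1 : ℝ) • G1 + (p.2 : ℝ) • G2)

/-- flatness with the mean at scale `ρ` as centre -/
lemma N_dev_le {u v1 v2 : Fld Ω} (hu : Mb u) (h1 : Mb v1) (h2 : Mb v2) {K K' : Finset P2} {L : ℕ}
    (hK : ∀ a ∈ K, ∀ p : ℕ × ℕ, p.1 < L → p.2 < L → a + pt p ∈ K')
    (hv1 : ∀ a ∈ K', dd (1, 0) u a = v1 a) (hv2 : ∀ a ∈ K', dd (0, 1) u a = v2 a)
    {ρ r R : ℕ} (hρ : 0 < ρ) (hR : 0 < R) (hL : r + ρ ≤ L) (p : ℕ × ℕ) (hp : p ∈ sq r) :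
    N μ (fun _ => 1) (rst K (dev ρ u (bm R v1) (bm R v2) p)) ≤
      ρ * (N μ (fun _ => 1) v1 + N μ (fun _ => 1) v2) +
      r * (N μ (fun _ => 1) (bm ρ v1 - bm R v1) + N μ (fun _ => 1) (bm ρ v2 - bm R v2)) +
      r * (4 * (r : ℝ≥0∞) / R * (N μ (fun _ => 1) v1 + N μ (fun _ => 1) v2)) := by
  rw [mem_sq] at hp
  obtain ⟨hpi, hpj⟩ := hp
  obtain ⟨i, j⟩ := p
  simp only at hpi hpj
  set A : Fld Ω := mn (sq ρ) (fun q => tr (pt (i, j)) (psum q.1 q.2 v1 v2)) with hA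
  set B : Fld Ω := (∑ k ∈ range i, (tr (pt (k, 0)) (bm ρ v1) - bm R v1)) +
    ∑ l ∈ range j, (tr (pt (i, l)) (bm ρ v2) - bm R v2) with hB
  have hAm : Mb A := Mb.mn fun q _ => (h1.psum h2 _ _).tr _
  have hBm : Mb B := (Mb.sum fun k _ => ((h1.bm ρ).tr _).sub (h1.bm R)).add
    (Mb.sum fun k _ => ((h2.bm ρ).tr _).sub (h2.bm R))
  -- pointwise identity on `K`
  have hkey : ∀ a ∈ K, dev ρ u (bm R v1) (bm R v2) (i, j) a = (B - A) a := by
    intro a ha
    have hz : ∀ x y : ℕ, ∀ x' y' : ℕ, pt (x, y) + pt (x', y') = pt (x + x', y + y') := by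
      intro x y x' y'; simp [pt]
    -- first part
    have hA1 : (tr (pt (i, j)) (bm ρ u) - tr (pt (i, j)) u) a = A a := by
      have e1 : tr (pt (i, j)) (bm ρ u) - tr (pt (i, j)) u =
          tr (pt (i, j)) (mn (sq ρ) (fun q => psum q.1 q.2 (dd (1, 0) u) (dd (0, 1) u))) := by
        rw [← tr_sub]
        congr 1
        unfold bm
        rw [← mn_sub_const (sq_nonempty hρ)]
        congr 1
        ext q : 1
        exact tele q.1 q.2 u
      rw [e1, tr_mn, hA]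
      ext ω
      rw [mn_apply, mn_apply]
      congr 1
      refine Finset.sum_congr rfl fun q hq => ?_
      rw [mem_sq] at hq
      show psum q.1 q.2 (dd (1, 0) u) (dd (0, 1) u) (a + pt (i, j)) ω =
        psum q.1 q.2 v1 v2 (a + pt (i, j)) ω
      refine congrFun (psum_congr ?_ ?_) ω
      · intro k hk
        refine hv1 _ ?_
        rw [add_assoc, hz]
        exact hK a ha _ (by show i + k < L; omega) (by show j + 0 < L; omega)
      · intro k hk
        refine hv2 _ ?_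
        rw [add_assoc, hz]
        exact hK a ha _ (by show i + q.1 < L; omega) (by show j + k < L; omega)
    -- second part
    have hB1 : (tr (pt (i, j)) (bm ρ u) - bm ρ u) a = psum i j (bm ρ v1) (bm ρ v2) a := by
      rw [tele]
      refine psum_congr ?_ ?_
      · intro k hk
        refine dd_bm_local fun q hq => ?_
        rw [mem_sq] at hq
        refine hv1 _ ?_
        obtain ⟨q1, q2⟩ := q
        rw [add_assoc, hz]
        exact hK a ha _ (by show k + q1 < L; simp only at hq; omega)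
          (by show 0 + q2 < L; simp only at hq; omega)
      · intro k hk
        refine dd_bm_local fun q hq => ?_
        rw [mem_sq] at hq
        refine hv2 _ ?_
        obtain ⟨q1, q2⟩ := q
        rw [add_assoc, hz]
        exact hK a ha _ (by show i + q1 < L; simp only at hq; omega)
          (by show k + q2 < L; simp only at hq; omega)
    have hB2 : B = psum i j (bm ρ v1) (bm ρ v2) - ((i : ℝ) • bm R v1 + (j : ℝ) • bm R v2) := by
      rw [hB]
      unfold psum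
      rw [Finset.sum_sub_distrib, Finset.sum_sub_distrib, Finset.sum_const, Finset.sum_const,
        card_range, card_range, ← Nat.cast_smul_eq_nsmul ℝ, ← Nat.cast_smul_eq_nsmul ℝ]
      abel
    ext ω
    have c1 := congrFun hA1 ω
    have c2 := congrFun hB1 ω
    have c3 : B a ω = psum i j (bm ρ v1) (bm ρ v2) a ω - ((i : ℝ) * bm R v1 a ω +
        (j : ℝ) * bm R v2 a ω) := by rw [hB2]; rfl
    show tr (pt (i, j)) u a ω - bm ρ u a ω - ((i : ℝ) * bm R v1 a ω + (j : ℝ) * bm R v2 a ω) =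
      B a ω - A a ω
    have c1' : tr (pt (i, j)) (bm ρ u) a ω - tr (pt (i, j)) u a ω = A a ω := c1
    have c2' : tr (pt (i, j)) (bm ρ u) a ω - bm ρ u a ω = psum i j (bm ρ v1) (bm ρ v2) a ω := c2
    rw [c3, ← c1', ← c2']
    ring
  rw [N_rst_congr hkey]
  refine (N_rst_le K _).trans ((N_sub hBm).trans ?_)
  have hNA : N μ (fun _ => 1) A ≤ ρ * (N μ (fun _ => 1) v1 + N μ (fun _ => 1) v2) := by
    refine N_mn_le (fun q _ => (h1.psum h2 _ _).tr _) fun q hq => ?_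
    rw [N_tr_one]
    rw [mem_sq] at hq
    refine (N_psum h1 h2 _ _).trans ?_
    rw [mul_add]
    gcongr
    · exact_mod_cast hq.1.le
    · exact_mod_cast hq.2.le
  have hNB : N μ (fun _ => 1) B ≤
      r * (N μ (fun _ => 1) (bm ρ v1 - bm R v1) + N μ (fun _ => 1) (bm ρ v2 - bm R v2)) +
      r * (4 * (r : ℝ≥0∞) / R * (N μ (fun _ => 1) v1 + N μ (fun _ => 1) v2)) := by
    rw [hB]
    refine (N_add (Mb.sum fun k _ => ((h1.bm ρ).tr _).sub (h1.bm R))).trans ?_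
    have g1 : N μ (fun _ => 1) (∑ k ∈ range i, (tr (pt (k, 0)) (bm ρ v1) - bm R v1)) ≤
        r * (N μ (fun _ => 1) (bm ρ v1 - bm R v1) + 4 * (r : ℝ≥0∞) / R * N μ (fun _ => 1) v1) := by
      refine (N_sum _ _ fun k _ => ((h1.bm ρ).tr _).sub (h1.bm R)).trans ?_
      refine (Finset.sum_le_sum fun k hk => N_tr_bm_sub h1 hR k 0 r
        (by rw [mem_range] at hk; omega) (Nat.zero_le _)).trans ?_
      rw [Finset.sum_const, card_range, nsmul_eq_mul]
      gcongr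
    have g2 : N μ (fun _ => 1) (∑ l ∈ range j, (tr (pt (i, l)) (bm ρ v2) - bm R v2)) ≤
        r * (N μ (fun _ => 1) (bm ρ v2 - bm R v2) + 4 * (r : ℝ≥0∞) / R * N μ (fun _ => 1) v2) := by
      refine (N_sum _ _ fun k _ => ((h2.bm ρ).tr _).sub (h2.bm R)).trans ?_
      refine (Finset.sum_le_sum fun k hk => N_tr_bm_sub h2 hR i k r hpi.le
        (by rw [mem_range] at hk; omega)).trans ?_
      rw [Finset.sum_const, card_range, nsmul_eq_mul]
      gcongr
    refine (add_le_add g1 g2).trans (le_of_eq ?_)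
    ring
  refine (add_le_add hNB hNA).trans (le_of_eq ?_)
  ring

/-- the centred deviation -/
noncomputable def cdev (r : ℕ) (u G1 G2 : Fld Ω) (p : ℕ × ℕ) : Fld Ω :=
  tr (pt p) u - bm r u - (((p.1 : ℝ) - ((r : ℝ) - 1) / 2) • G1 + ((p.2 : ℝ) - ((r : ℝ) - 1) / 2) • G2)

lemma cdev_eq {r : ℕ} (hr : 0 < r) (ρ : ℕ) (u G1 G2 : Fld Ω) (p : ℕ × ℕ) :
    cdev r u G1 G2 p = dev ρ u G1 G2 p - mn (sq r) (fun q => dev ρ u G1 G2 q) := by
  ext a ω
  have hr' : (r : ℝ) ≠ 0 := by positivity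
  have e0 : ∀ q : ℕ × ℕ, dev ρ u G1 G2 q a ω = u (a + pt q) ω - bm ρ u a ω -
      ((q.1 : ℝ) * G1 a ω + (q.2 : ℝ) * G2 a ω) := fun q => rfl
  have hg : ∑ k ∈ range r, (k : ℝ) = (r : ℝ) * (r - 1) / 2 := by
    have := Finset.sum_range_id_mul_two r
    have h2 : ((∑ k ∈ range r, k : ℕ) : ℝ) * 2 = r * (r - 1) := by
      have h3 : (((∑ k ∈ range r, k) * 2 : ℕ) : ℝ) = ((r * (r - 1) : ℕ) : ℝ) := by rw [this]
      rw [Nat.cast_mul, Nat.cast_mul, Nat.cast_sub hr] at h3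
      simpa using h3
    rw [Nat.cast_sum] at h2
    linarith
  have e1 : mn (sq r) (fun q => dev ρ u G1 G2 q) a ω = bm r u a ω - bm ρ u a ω -
      (((r : ℝ) - 1) / 2 * G1 a ω + ((r : ℝ) - 1) / 2 * G2 a ω) := by
    rw [mn_apply]
    simp_rw [e0]
    rw [Finset.sum_sub_distrib, Finset.sum_sub_distrib, Finset.sum_add_distrib, ← Finset.sum_mul,
      ← Finset.sum_mul, Finset.sum_const, card_sq]
    have f1 : ∑ q ∈ sq r, (q.1 : ℝ) = (r : ℝ) * ((r : ℝ) * (r - 1) / 2) := by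
      unfold sq
      rw [Finset.sum_product]
      simp only [Finset.sum_const, card_range, nsmul_eq_mul]
      rw [← Finset.mul_sum, hg]
    have f2 : ∑ q ∈ sq r, (q.2 : ℝ) = (r : ℝ) * ((r : ℝ) * (r - 1) / 2) := by
      unfold sq
      rw [Finset.sum_product]
      simp only [hg]
      rw [Finset.sum_const, card_range, nsmul_eq_mul]
    rw [f1, f2]
    have f3 : bm r u a ω = ((r * r : ℕ) : ℝ)⁻¹ * ∑ q ∈ sq r, u (a + pt q) ω := by
      unfold bm
      rw [mn_apply, card_sq]; rfl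
    rw [f3, nsmul_eq_mul]
    push_cast
    field_simp
  show u (a + pt p) ω - bm r u a ω - (((p.1 : ℝ) - ((r : ℝ) - 1) / 2) * G1 a ω +
    ((p.2 : ℝ) - ((r : ℝ) - 1) / 2) * G2 a ω) = dev ρ u G1 G2 p a ω -
      mn (sq r) (fun q => dev ρ u G1 G2 q) a ω
  rw [e0, e1]
  ring

lemma Mb.dev {u G1 G2 : Fld Ω} (hu : Mb u) (h1 : Mb G1) (h2 : Mb G2) (ρ : ℕ) (p : ℕ × ℕ) :
    Mb (dev ρ u G1 G2 p) :=
  ((hu.tr _).sub (hu.bm _)).sub ((h1.smul _).add (h2.smul _))

/-- **Step F**: label-space flatness at one of the scales of a chain. -/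
theorem flat [IsProbabilityMeasure μ] {u : Fld Ω} (hu : Mb u) {K K' K'' : Finset P2} {L J : ℕ}
    {ρ m l r : ℕ → ℕ} (hρ0 : 0 < ρ 0) (hl : ∀ j, 0 < l j) (hlm : ∀ j, l j ≤ m j)
    (hρm : ∀ j, ρ (j + 1) = ρ j * m j) (hJ : 0 < J) (hr : ∀ j, 0 < r j)
    (hL : ∀ j < J, r j + ρ j ≤ L)
    (hK : ∀ a ∈ K, ∀ p : ℕ × ℕ, p.1 < L → p.2 < L → a + pt p ∈ K')
    (hK'' : ∀ a ∈ K', ∀ j < J, ∀ p ∈ sq (ρ (j + 1)), a - pt p ∈ K'')
    {κ Λ : ℝ} (hκ : 0 < κ) (hΛ : 0 ≤ Λ) :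
    ∃ j < J, ∀ p ∈ sq (r j),
      N μ (fun _ => 1) (rst K (cdev (r j) u (bm (ρ (j + 1)) (rst K' (dd (1, 0) u)))
        (bm (ρ (j + 1)) (rst K' (dd (0, 1) u))) p)) ≤
      2 * (ρ j * (N μ (fun _ => 1) (rst K' (dd (1, 0) u)) + N μ (fun _ => 1) (rst K' (dd (0, 1) u))) +
        r j * (2 * (ENNReal.ofReal κ * K''.card) +
          ENNReal.ofReal κ⁻¹ * ((m j * m j : ℕ) / (l j * l j : ℕ) *
            (ENNReal.ofReal Λ * (N μ (fun _ => 1) (rst K' (dd (1, 0) u)) +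
              N μ (fun _ => 1) (rst K' (dd (0, 1) u))) / J)) +
          4 * (l j : ℝ≥0∞) / m j * (N μ (fun _ => 1) (rst K' (dd (1, 0) u)) +
              N μ (fun _ => 1) (rst K' (dd (0, 1) u))) +
          2 * (N μ (fun _ => 1) (rst K' (dd (1, 0) u) - tc Λ (rst K' (dd (1, 0) u))) +
            N μ (fun _ => 1) (rst K' (dd (0, 1) u) - tc Λ (rst K' (dd (0, 1) u))))) +
        r j * (4 * (r j : ℝ≥0∞) / ρ (j + 1) * (N μ (fun _ => 1) (rst K' (dd (1, 0) u)) +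
              N μ (fun _ => 1) (rst K' (dd (0, 1) u))))) := by
  set v1 := rst K' (dd (1, 0) u) with hv1
  set v2 := rst K' (dd (0, 1) u) with hv2
  have h1 : Mb v1 := (hu.dd _).rst _
  have h2 : Mb v2 := (hu.dd _).rst _
  have hm : ∀ j, 0 < m j := fun j => lt_of_lt_of_le (hl j) (hlm j)
  have hρ : ∀ j, 0 < ρ j := by
    intro j
    induction j with
    | zero => exact hρ0
    | succ j ih => rw [hρm j]; exact Nat.mul_pos ih (hm j)
  obtain ⟨j, hj, hW⟩ := exists_scale (μ := μ) h1 h2 hΛ hρ0 hm hρm hJ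
  refine ⟨j, hj, fun p hp => ?_⟩
  set S := N μ (fun _ => 1) v1 + N μ (fun _ => 1) v2 with hS
  set T := N μ (fun _ => 1) (v1 - tc Λ v1) + N μ (fun _ => 1) (v2 - tc Λ v2) with hT
  set R := ρ (j + 1) with hR
  have hRpos : 0 < R := hρ _
  set Bd : ℝ≥0∞ := ρ j * S + r j * (2 * (ENNReal.ofReal κ * K''.card) +
          ENNReal.ofReal κ⁻¹ * ((m j * m j : ℕ) / (l j * l j : ℕ) * (ENNReal.ofReal Λ * S / J)) +
          4 * (l j : ℝ≥0∞) / m j * S + 2 * T) + r j * (4 * (r j : ℝ≥0∞) / R * S) with hBd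
  have hD : ∀ v : Fld Ω, Mb v → (∀ a ∉ K', v a = 0) →
      N μ (fun _ => 1) (bm (ρ j) v - bm R v) ≤ ENNReal.ofReal κ * K''.card +
        ENNReal.ofReal κ⁻¹ * ((m j * m j : ℕ) / (l j * l j : ℕ) * Wv μ (ρ j) (m j) (tc Λ v)) +
        4 * (l j : ℝ≥0∞) / m j * N μ (fun _ => 1) v + 2 * N μ (fun _ => 1) (v - tc Λ v) := by
    intro v hv hv0
    refine (N_bm_sub_split hv (ρ j) R (tc Λ v) (hv.tc Λ)).trans ?_
    gcongr
    have := N_bm_sub_le (μ := μ) (hv.tc Λ) (K' := K') (K'' := K'')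
      (fun a ha => tc_eq_zero hΛ (hv0 a ha)) (hρ j) (hl j) (hlm j)
      (by rw [← hρm j]; exact fun a ha p hp => hK'' a ha j hj p hp) hκ
    rw [← hρm j, ← hR] at this
    refine this.trans ?_
    gcongr
    exact N_tc_le hΛ
  have hmain : ∀ q ∈ sq (r j), N μ (fun _ => 1) (rst K (dev (ρ j) u (bm R v1) (bm R v2) q)) ≤ Bd := by
    intro q hq
    refine (N_dev_le (μ := μ) hu h1 h2 hK (fun a ha => (rst_mem ha _).symm)
      (fun a ha => (rst_mem ha _).symm) (hρ j) hRpos (hL j hj) q hq).trans ?_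
    rw [hBd]
    refine add_le_add (add_le_add le_rfl (mul_le_mul' le_rfl ?_)) le_rfl
    calc _ ≤ (ENNReal.ofReal κ * K''.card +
        ENNReal.ofReal κ⁻¹ * ((m j * m j : ℕ) / (l j * l j : ℕ) * Wv μ (ρ j) (m j) (tc Λ v1)) +
        4 * (l j : ℝ≥0∞) / m j * N μ (fun _ => 1) v1 + 2 * N μ (fun _ => 1) (v1 - tc Λ v1)) +
        (ENNReal.ofReal κ * K''.card +
        ENNReal.ofReal κ⁻¹ * ((m j * m j : ℕ) / (l j * l j : ℕ) * Wv μ (ρ j) (m j) (tc Λ v2)) +
        4 * (l j : ℝ≥0∞) / m j * N μ (fun _ => 1) v2 + 2 * N μ (fun _ => 1) (v2 - tc Λ v2)) :=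
          add_le_add (hD v1 h1 fun a ha => rst_notMem ha _) (hD v2 h2 fun a ha => rst_notMem ha _)
      _ = 2 * (ENNReal.ofReal κ * K''.card) +
        ENNReal.ofReal κ⁻¹ * ((m j * m j : ℕ) / (l j * l j : ℕ) *
          (Wv μ (ρ j) (m j) (tc Λ v1) + Wv μ (ρ j) (m j) (tc Λ v2))) +
        4 * (l j : ℝ≥0∞) / m j * S + 2 * T := by
          rw [hS, hT]; ring
      _ ≤ _ := by gcongr
  have hdm : ∀ q, Mb (dev (ρ j) u (bm R v1) (bm R v2) q) := fun q =>
    hu.dev (h1.bm R) (h2.bm R) (ρ j) q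
  rw [cdev_eq (hr j) (ρ j), rst_sub, rst_mn]
  refine (N_sub ((hdm p).rst K)).trans ?_
  rw [two_mul]
  exact add_le_add (hmain p hp) (N_mn_le (fun q _ => (hdm q).rst K) hmain)

end Crest.Agent.R144.Flat296
end

-- ▼ part R144/Upp1_296
section

/-!
R144 / S0197, approach P, assembly of the upper bound, part 1 (helper296): the cut-off `psi` of
slopes, quadratic forms, bounded random fields and their space-averages.
-/

set_option autoImplicit false
set_option linter.unusedSectionVars false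
set_option linter.unusedVariables false

open MeasureTheory Finset
open scoped ENNReal

namespace Crest.Agent.R144.Upp296

open Crest.Agent.R144.Flat296

/-! ### the cut-off -/

/-- cut-off function: 1 on `[0,Λ]`, 0 beyond `2Λ`, affine in between -/
noncomputable def tau (Λ t : ℝ) : ℝ := max 0 (min 1 (2 - t / Λ))

/-- sup norm of a slope -/
noncomputable def sn (G : Fin 2 → ℝ) : ℝ := max |G 0| |G 1|

/-- the slope cut off smoothly between `Λ` and `2Λ` -/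
noncomputable def psi (Λ : ℝ) (G : Fin 2 → ℝ) (i : Fin 2) : ℝ := tau Λ (sn G) * G i

/-- clamping at level `c` -/
noncomputable def clp (c x : ℝ) : ℝ := max (-c) (min x c)

lemma tau_nonneg (Λ t : ℝ) : 0 ≤ tau Λ t := le_max_left _ _

lemma tau_le_one (Λ t : ℝ) : tau Λ t ≤ 1 := max_le zero_le_one (min_le_left _ _)

lemma tau_eq_one {Λ t : ℝ} (hΛ : 0 < Λ) (h : t ≤ Λ) : tau Λ t = 1 := by
  unfold tau
  have : 1 ≤ 2 - t / Λ := by
    have : t / Λ ≤ 1 := by rw [div_le_one hΛ]; exact h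
    linarith
  rw [min_eq_left this]
  simp

lemma tau_eq_zero {Λ t : ℝ} (hΛ : 0 < Λ) (h : 2 * Λ ≤ t) : tau Λ t = 0 := by
  unfold tau
  have : 2 - t / Λ ≤ 0 := by
    have : 2 ≤ t / Λ := by rw [le_div_iff₀ hΛ]; exact h
    linarith
  rw [min_eq_right (by linarith)]
  exact max_eq_left this

lemma tau_lip {Λ : ℝ} (hΛ : 0 < Λ) (s t : ℝ) : |tau Λ s - tau Λ t| ≤ |s - t| / Λ := by
  unfold tau
  refine (abs_max_sub_max_le_max _ _ _ _).trans ?_
  rw [sub_self, abs_zero, max_eq_right (abs_nonneg _)]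
  refine (abs_min_sub_min_le_max _ _ _ _).trans ?_
  rw [sub_self, abs_zero, max_eq_right (abs_nonneg _)]
  have : 2 - s / Λ - (2 - t / Λ) = -((s - t) / Λ) := by ring
  rw [this, abs_neg, abs_div, abs_of_pos hΛ]

lemma abs_le_sn (G : Fin 2 → ℝ) (i : Fin 2) : |G i| ≤ sn G := by
  fin_cases i
  · exact le_max_left _ _
  · exact le_max_right _ _


lemma sn_sub_le (G G' : Fin 2 → ℝ) : |sn G - sn G'| ≤ |G 0 - G' 0| + |G 1 - G' 1| := by
  unfold sn
  refine (abs_max_sub_max_le_max _ _ _ _).trans ?_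
  refine max_le ?_ ?_
  · exact (abs_abs_sub_abs_le_abs_sub _ _).trans (le_add_of_nonneg_right (abs_nonneg _))
  · exact (abs_abs_sub_abs_le_abs_sub _ _).trans (le_add_of_nonneg_left (abs_nonneg _))

lemma abs_psi_le {Λ : ℝ} (hΛ : 0 < Λ) (G : Fin 2 → ℝ) (i : Fin 2) : |psi Λ G i| ≤ 2 * Λ := by
  unfold psi
  rw [abs_mul, abs_of_nonneg (tau_nonneg _ _)]
  rcases le_total (2 * Λ) (sn G) with h | h
  · rw [tau_eq_zero hΛ h]; simp; positivity
  · calc tau Λ (sn G) * |G i| ≤ 1 * sn G :=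
        mul_le_mul (tau_le_one _ _) (abs_le_sn G i) (abs_nonneg _) zero_le_one
      _ ≤ 2 * Λ := by linarith

lemma psi_lip_aux {Λ : ℝ} (hΛ : 0 < Λ) (G G' : Fin 2 → ℝ) (i : Fin 2) (h : sn G' ≤ 2 * Λ) :
    |psi Λ G i - psi Λ G' i| ≤ 3 * (|G 0 - G' 0| + |G 1 - G' 1|) := by
  have hd : |G i - G' i| ≤ |G 0 - G' 0| + |G 1 - G' 1| := by
    fin_cases i
    · exact le_add_of_nonneg_right (abs_nonneg _)
    · exact le_add_of_nonneg_left (abs_nonneg _)
  have e : psi Λ G i - psi Λ G' i = tau Λ (sn G) * (G i - G' i) +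
      (tau Λ (sn G) - tau Λ (sn G')) * G' i := by unfold psi; ring
  rw [e]
  refine (abs_add_le _ _).trans ?_
  rw [abs_mul, abs_mul, abs_of_nonneg (tau_nonneg _ _)]
  have h1 : tau Λ (sn G) * |G i - G' i| ≤ |G 0 - G' 0| + |G 1 - G' 1| := by
    calc _ ≤ 1 * |G i - G' i| := mul_le_mul_of_nonneg_right (tau_le_one _ _) (abs_nonneg _)
      _ ≤ _ := by rw [one_mul]; exact hd
  have h2 : |tau Λ (sn G) - tau Λ (sn G')| * |G' i| ≤ 2 * (|G 0 - G' 0| + |G 1 - G' 1|) := by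
    calc |tau Λ (sn G) - tau Λ (sn G')| * |G' i| ≤ (|sn G - sn G'| / Λ) * (2 * Λ) :=
          mul_le_mul (tau_lip hΛ _ _) ((abs_le_sn G' i).trans h) (abs_nonneg _) (by positivity)
      _ = 2 * |sn G - sn G'| := by field_simp
      _ ≤ _ := by
          have := sn_sub_le G G'
          linarith
  linarith

lemma psi_lip {Λ : ℝ} (hΛ : 0 < Λ) (G G' : Fin 2 → ℝ) (i : Fin 2) :
    |psi Λ G i - psi Λ G' i| ≤ 3 * (|G 0 - G' 0| + |G 1 - G' 1|) := by
  rcases le_total (sn G') (2 * Λ) with h | h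
  · exact psi_lip_aux hΛ G G' i h
  · rcases le_total (sn G) (2 * Λ) with h' | h'
    · have := psi_lip_aux hΛ G' G i h'
      rw [abs_sub_comm, abs_sub_comm (G 0), abs_sub_comm (G 1)]
      exact this
    · have e1 : psi Λ G i = 0 := by unfold psi; rw [tau_eq_zero hΛ h']; ring
      have e2 : psi Λ G' i = 0 := by unfold psi; rw [tau_eq_zero hΛ h]; ring
      rw [e1, e2]; simp; positivity


lemma clp_of_abs_le {c x : ℝ} (h : |x| ≤ c) : clp c x = x := by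
  rw [abs_le] at h
  unfold clp
  rw [min_eq_left h.2, max_eq_right h.1]

lemma abs_clp_eq {c : ℝ} (hc : 0 ≤ c) {x : ℝ} (h : c ≤ |x|) : |clp c x| = c := by
  unfold clp
  rcases le_total 0 x with hx | hx
  · rw [abs_of_nonneg hx] at h
    rw [min_eq_right h, max_eq_right (by linarith), abs_of_nonneg hc]
  · rw [abs_of_nonpos hx] at h
    rw [min_eq_left (by linarith), max_eq_left (by linarith), abs_neg, abs_of_nonneg hc]

/-- `psi` does not see clamping at a level above `2Λ` -/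
lemma psi_clp {Λ c : ℝ} (hΛ : 0 < Λ) (hc : 2 * Λ ≤ c) (G : Fin 2 → ℝ) :
    psi Λ (fun i => clp c (G i)) = psi Λ G := by
  have hc0 : 0 ≤ c := by linarith
  ext i
  rcases le_total (sn G) c with h | h
  · have : (fun i => clp c (G i)) = G := by
      ext j; exact clp_of_abs_le ((abs_le_sn G j).trans h)
    rw [this]
  · have h1 : tau Λ (sn G) = 0 := tau_eq_zero hΛ (hc.trans h)
    have h2 : c ≤ sn (fun i => clp c (G i)) := by
      unfold sn at h ⊢
      rcases le_max_iff.mp h with h' | h'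
      · exact le_max_of_le_left (abs_clp_eq hc0 h').ge
      · exact le_max_of_le_right (abs_clp_eq hc0 h').ge
    have h3 : tau Λ (sn fun i => clp c (G i)) = 0 := tau_eq_zero hΛ (hc.trans h2)
    unfold psi
    rw [h1, h3]; ring

lemma abs_sub_psi_le {Λ : ℝ} (hΛ : 0 < Λ) (G : Fin 2 → ℝ) (i : Fin 2) :
    |G i - psi Λ G i| ≤ 2 * (max 0 (|G 0| - Λ / 2) + max 0 (|G 1| - Λ / 2)) := by
  have hnn : ∀ x : ℝ, 0 ≤ max 0 (x - Λ / 2) := fun x => le_max_left _ _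
  rcases le_total (sn G) Λ with h | h
  · have : psi Λ G i = G i := by unfold psi; rw [tau_eq_one hΛ h]; ring
    rw [this, sub_self, abs_zero]
    have := hnn |G 0|
    have := hnn |G 1|
    positivity
  · have e : G i - psi Λ G i = (1 - tau Λ (sn G)) * G i := by unfold psi; ring
    rw [e, abs_mul, abs_of_nonneg (by linarith [tau_le_one Λ (sn G)])]
    have h1 : (1 - tau Λ (sn G)) * |G i| ≤ sn G := by
      calc _ ≤ 1 * sn G := mul_le_mul (by linarith [tau_nonneg Λ (sn G)]) (abs_le_sn G i)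
            (abs_nonneg _) zero_le_one
        _ = _ := one_mul _
    refine h1.trans ?_
    have h2 : sn G ≤ 2 * max 0 (sn G - Λ / 2) := by
      have := le_max_right 0 (sn G - Λ / 2)
      linarith
    refine h2.trans ?_
    have h3 : max 0 (sn G - Λ / 2) ≤ max 0 (|G 0| - Λ / 2) + max 0 (|G 1| - Λ / 2) := by
      unfold sn
      rcases max_cases |G 0| |G 1| with ⟨h, _⟩ | ⟨h, _⟩
      · rw [h]; linarith [hnn |G 1|]
      · rw [h]; linarith [hnn |G 0|]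
    linarith

/-! ### quadratic forms -/

/-- quadratic form of a 2×2 array -/
noncomputable def qf (B : Fin 2 → Fin 2 → ℝ) (x : Fin 2 → ℝ) : ℝ := ∑ i, ∑ j, B i j * x i * x j

lemma qf_eq (B : Fin 2 → Fin 2 → ℝ) (x : Fin 2 → ℝ) : qf B x =
    B 0 0 * x 0 * x 0 + B 0 1 * x 0 * x 1 + (B 1 0 * x 1 * x 0 + B 1 1 * x 1 * x 1) := by
  simp [qf, Fin.sum_univ_two]

lemma qf_sub_le {B : Fin 2 → Fin 2 → ℝ} {b c : ℝ} (hb : ∀ i j, |B i j| ≤ b) {x y : Fin 2 → ℝ}
    (hx : ∀ i, |x i| ≤ c) (hy : ∀ i, |y i| ≤ c) :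
    |qf B x - qf B y| ≤ 4 * b * c * (|x 0 - y 0| + |x 1 - y 1|) := by
  have hb0 : 0 ≤ b := (abs_nonneg _).trans (hb 0 0)
  have hc0 : 0 ≤ c := (abs_nonneg _).trans (hx 0)
  have ht : ∀ i j, |B i j * x i * x j - B i j * y i * y j| ≤
      b * c * (|x i - y i| + |x j - y j|) := by
    intro i j
    have e : B i j * x i * x j - B i j * y i * y j =
        B i j * (x i * (x j - y j) + (x i - y i) * y j) := by ring
    rw [e, abs_mul]
    calc |B i j| * |x i * (x j - y j) + (x i - y i) * y j|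
        ≤ b * (c * |x j - y j| + |x i - y i| * c) := by
          refine mul_le_mul (hb i j) ?_ (abs_nonneg _) hb0
          refine (abs_add_le _ _).trans ?_
          rw [abs_mul, abs_mul]
          exact add_le_add (mul_le_mul_of_nonneg_right (hx i) (abs_nonneg _))
            (mul_le_mul_of_nonneg_left (hy j) (abs_nonneg _))
      _ = _ := by ring
  have e : qf B x - qf B y = (B 0 0 * x 0 * x 0 - B 0 0 * y 0 * y 0) +
      (B 0 1 * x 0 * x 1 - B 0 1 * y 0 * y 1) + ((B 1 0 * x 1 * x 0 - B 1 0 * y 1 * y 0) +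
      (B 1 1 * x 1 * x 1 - B 1 1 * y 1 * y 1)) := by rw [qf_eq, qf_eq]; ring
  rw [e]
  refine (abs_add_le _ _).trans ((add_le_add (abs_add_le _ _) (abs_add_le _ _)).trans ?_)
  have h00 := ht 0 0
  have h01 := ht 0 1
  have h10 := ht 1 0
  have h11 := ht 1 1
  linarith

lemma qf_sub_le' {B A : Fin 2 → Fin 2 → ℝ} {c : ℝ} {x : Fin 2 → ℝ} (hx : ∀ i, |x i| ≤ c) :
    |qf B x - qf A x| ≤ c ^ 2 * ∑ i, ∑ j, |B i j - A i j| := by
  have hc0 : 0 ≤ c := (abs_nonneg _).trans (hx 0)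
  have ht : ∀ i j, |B i j * x i * x j - A i j * x i * x j| ≤ c ^ 2 * |B i j - A i j| := by
    intro i j
    have e : B i j * x i * x j - A i j * x i * x j = (B i j - A i j) * (x i * x j) := by ring
    rw [e, abs_mul, mul_comm, abs_mul, pow_two]
    exact mul_le_mul_of_nonneg_right (mul_le_mul (hx i) (hx j) (abs_nonneg _) hc0) (abs_nonneg _)
  have e : qf B x - qf A x = (B 0 0 * x 0 * x 0 - A 0 0 * x 0 * x 0) +
      (B 0 1 * x 0 * x 1 - A 0 1 * x 0 * x 1) + ((B 1 0 * x 1 * x 0 - A 1 0 * x 1 * x 0) +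
      (B 1 1 * x 1 * x 1 - A 1 1 * x 1 * x 1)) := by rw [qf_eq, qf_eq]; ring
  rw [e]
  refine (abs_add_le _ _).trans ((add_le_add (abs_add_le _ _) (abs_add_le _ _)).trans ?_)
  have h00 := ht 0 0
  have h01 := ht 0 1
  have h10 := ht 1 0
  have h11 := ht 1 1
  simp only [Fin.sum_univ_two]
  linarith

/-! ### bounded measurable fields -/

variable {Ω : Type*} [MeasurableSpace Ω]

/-- bounded measurable random fields -/
structure Bd (f : Fld Ω) : Prop where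
  mb : Mb f
  bd : ∃ C : ℝ, ∀ a ω, |f a ω| ≤ C

namespace Bd

variable {f g : Fld Ω}

lemma const (c : ℝ) : Bd (fun (_ : P2) (_ : Ω) => c) := ⟨fun _ => measurable_const, |c|, fun _ _ => le_rfl⟩

lemma add (hf : Bd f) (hg : Bd g) : Bd (fun a ω => f a ω + g a ω) := by
  obtain ⟨C, hC⟩ := hf.bd
  obtain ⟨C', hC'⟩ := hg.bd
  exact ⟨fun a => (hf.mb a).add (hg.mb a), C + C', fun a ω =>
    (abs_add_le _ _).trans (add_le_add (hC a ω) (hC' a ω))⟩

lemma sub (hf : Bd f) (hg : Bd g) : Bd (fun a ω => f a ω - g a ω) := by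
  obtain ⟨C, hC⟩ := hf.bd
  obtain ⟨C', hC'⟩ := hg.bd
  exact ⟨fun a => (hf.mb a).sub (hg.mb a), C + C', fun a ω =>
    (abs_sub _ _).trans (add_le_add (hC a ω) (hC' a ω))⟩

lemma mul (hf : Bd f) (hg : Bd g) : Bd (fun a ω => f a ω * g a ω) := by
  obtain ⟨C, hC⟩ := hf.bd
  obtain ⟨C', hC'⟩ := hg.bd
  refine ⟨fun a => (hf.mb a).mul (hg.mb a), C * C', fun a ω => ?_⟩
  rw [abs_mul]
  exact mul_le_mul (hC a ω) (hC' a ω) (abs_nonneg _) ((abs_nonneg _).trans (hC a ω))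

lemma abs (hf : Bd f) : Bd (fun a ω => |f a ω|) := by
  obtain ⟨C, hC⟩ := hf.bd
  exact ⟨fun a => (hf.mb a).abs, C, fun a ω => by rw [abs_abs]; exact hC a ω⟩

lemma cmul (c : ℝ) (hf : Bd f) : Bd (fun a ω => c * f a ω) := (Bd.const c).mul hf

lemma max (hf : Bd f) (hg : Bd g) : Bd (fun a ω => Max.max (f a ω) (g a ω)) := by
  obtain ⟨C, hC⟩ := hf.bd
  obtain ⟨C', hC'⟩ := hg.bd
  refine ⟨fun a => (hf.mb a).max (hg.mb a), Max.max C C', fun a ω => ?_⟩
  exact (abs_max_le_max_abs_abs).trans (max_le_max (hC a ω) (hC' a ω))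

lemma min (hf : Bd f) (hg : Bd g) : Bd (fun a ω => Min.min (f a ω) (g a ω)) := by
  obtain ⟨C, hC⟩ := hf.bd
  obtain ⟨C', hC'⟩ := hg.bd
  refine ⟨fun a => (hf.mb a).min (hg.mb a), Max.max C C', fun a ω => ?_⟩
  exact (abs_min_le_max_abs_abs).trans (max_le_max (hC a ω) (hC' a ω))

lemma tr (hf : Bd f) (z : P2) : Bd (Flat296.tr z f) := by
  obtain ⟨C, hC⟩ := hf.bd
  exact ⟨hf.mb.tr z, C, fun a ω => hC _ ω⟩

lemma sum {ι : Type*} {s : Finset ι} {F : ι → Fld Ω} (h : ∀ i ∈ s, Bd (F i)) :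
    Bd (fun a ω => ∑ i ∈ s, F i a ω) := by
  classical
  induction s using Finset.induction_on with
  | empty => simpa using Bd.const (Ω := Ω) 0
  | insert i s hi ih =>
    simp_rw [Finset.sum_insert hi]
    exact (h i (by simp)).add (ih fun j hj => h j (by simp [hj]))

lemma bm (hf : Bd f) (r : ℕ) : Bd (Flat296.bm r f) := by
  have h := (Bd.sum (s := Flat296.sq r) (F := fun p => Flat296.tr (pt p) f) fun p _ => hf.tr _).cmul
    (((Flat296.sq r).card : ℝ)⁻¹)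
  refine ⟨hf.mb.bm r, ?_⟩
  obtain ⟨C, hC⟩ := h.bd
  refine ⟨C, fun a ω => ?_⟩
  have : Flat296.bm r f a ω = ((Flat296.sq r).card : ℝ)⁻¹ * ∑ p ∈ Flat296.sq r, Flat296.tr (pt p) f a ω :=
    mn_apply a ω
  rw [this]; exact hC a ω

lemma rst (hf : Bd f) (K : Finset P2) : Bd (Flat296.rst K f) := by
  obtain ⟨C, hC⟩ := hf.bd
  refine ⟨hf.mb.rst K, |C|, fun a ω => ?_⟩
  by_cases ha : a ∈ K
  · rw [rst_mem ha]; exact (hC a ω).trans (le_abs_self _)
  · rw [rst_notMem ha]; simp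

lemma dd (hf : Bd f) (z : P2) : Bd (Flat296.dd z f) := (hf.tr z).sub hf

lemma integrable (hf : Bd f) (μ : Measure Ω) [IsFiniteMeasure μ] (a : P2) : Integrable (f a) μ := by
  obtain ⟨C, hC⟩ := hf.bd
  exact Integrable.of_bound (hf.mb a).aestronglyMeasurable C
    (Filter.Eventually.of_forall fun ω => by rw [Real.norm_eq_abs]; exact hC a ω)

end Bd

lemma bd_tau {f : Fld Ω} (hf : Bd f) (Λ : ℝ) : Bd (fun a ω => tau Λ (f a ω)) := by
  unfold tau
  refine (Bd.const 0).max ((Bd.const 1).min ?_)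
  simp_rw [div_eq_inv_mul]
  exact (Bd.const 2).sub (hf.cmul _)

lemma bd_psi {G : Fin 2 → Fld Ω} (hG : ∀ i, Bd (G i)) (Λ : ℝ) (i : Fin 2) :
    Bd (fun a ω => psi Λ (fun k => G k a ω) i) := by
  unfold psi
  exact (bd_tau ((hG 0).abs.max (hG 1).abs) Λ).mul (hG i)

lemma bd_clp {f : Fld Ω} (hf : Bd f) (c : ℝ) : Bd (fun a ω => clp c (f a ω)) :=
  (Bd.const (-c)).max (hf.min (Bd.const c))

lemma bd_qf {B : Fin 2 → Fin 2 → Fld Ω} (hB : ∀ i j, Bd (B i j)) {G : Fin 2 → Fld Ω}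
    (hG : ∀ i, Bd (G i)) : Bd (fun a ω => qf (fun i j => B i j a ω) (fun i => G i a ω)) := by
  unfold qf
  exact Bd.sum fun i _ => Bd.sum fun j _ => ((hB i j).mul (hG i)).mul (hG j)

/-- sum over `K` of the expectations -/
noncomputable def Ex (μ : Measure Ω) (K : Finset P2) (f : Fld Ω) : ℝ := ∑ a ∈ K, ∫ ω, f a ω ∂μ

section Ex

variable {μ : Measure Ω} [IsFiniteMeasure μ] {K K' : Finset P2} {f g : Fld Ω}

lemma Ex_mono (hf : Bd f) (hg : Bd g) (h : ∀ a ∈ K, ∀ ω, f a ω ≤ g a ω) : Ex μ K f ≤ Ex μ K g :=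
  Finset.sum_le_sum fun a ha => integral_mono (hf.integrable μ a) (hg.integrable μ a) (h a ha)

lemma Ex_add (hf : Bd f) (hg : Bd g) : Ex μ K (fun a ω => f a ω + g a ω) = Ex μ K f + Ex μ K g := by
  unfold Ex
  rw [← Finset.sum_add_distrib]
  exact Finset.sum_congr rfl fun a _ => integral_add (hf.integrable μ a) (hg.integrable μ a)

lemma Ex_sub (hf : Bd f) (hg : Bd g) : Ex μ K (fun a ω => f a ω - g a ω) = Ex μ K f - Ex μ K g := by
  unfold Ex
  rw [← Finset.sum_sub_distrib]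
  exact Finset.sum_congr rfl fun a _ => integral_sub (hf.integrable μ a) (hg.integrable μ a)

lemma Ex_cmul (c : ℝ) (f : Fld Ω) : Ex μ K (fun a ω => c * f a ω) = c * Ex μ K f := by
  unfold Ex
  rw [Finset.mul_sum]
  exact Finset.sum_congr rfl fun a _ => integral_const_mul c _

lemma Ex_sum {ι : Type*} (s : Finset ι) (F : ι → Fld Ω) (h : ∀ i ∈ s, Bd (F i)) :
    Ex μ K (fun a ω => ∑ i ∈ s, F i a ω) = ∑ i ∈ s, Ex μ K (F i) := by
  unfold Ex
  rw [Finset.sum_comm]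
  exact Finset.sum_congr rfl fun a _ => integral_finsetSum _ fun i hi => (h i hi).integrable μ a

lemma Ex_subset (hf : ∀ a ∈ K', ∀ ω, 0 ≤ f a ω) (h : K ⊆ K') : Ex μ K f ≤ Ex μ K' f :=
  Finset.sum_le_sum_of_subset_of_nonneg h fun a ha _ => integral_nonneg (hf a ha)

lemma Ex_nonneg (hf : ∀ a ∈ K, ∀ ω, 0 ≤ f a ω) : 0 ≤ Ex μ K f :=
  Finset.sum_nonneg fun a ha => integral_nonneg (hf a ha)

/-- relation with the `ℝ≥0∞`-valued functional of Step F -/
lemma N_rst_eq (hf : Bd f) : N μ (fun _ => 1) (rst K f) = ENNReal.ofReal (Ex μ K fun a ω => |f a ω|) := by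
  rw [N_rst]
  unfold Ex
  rw [ENNReal.ofReal_sum_of_nonneg fun a _ => integral_nonneg fun ω => abs_nonneg _]
  refine Finset.sum_congr rfl fun a _ => ?_
  rw [ofReal_integral_eq_lintegral_ofReal (hf.abs.integrable μ a)
    (Filter.Eventually.of_forall fun ω => abs_nonneg _)]
  refine lintegral_congr fun ω => ?_
  rw [Real.enorm_eq_ofReal_abs]

lemma Ex_abs_le_of_N {c : ℝ} (hc : 0 ≤ c) (hf : Bd f)
    (h : N μ (fun _ => 1) (rst K f) ≤ ENNReal.ofReal c) : Ex μ K (fun a ω => |f a ω|) ≤ c := by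
  rw [N_rst_eq hf] at h
  exact (ENNReal.ofReal_le_ofReal_iff hc).mp h

end Ex

end Crest.Agent.R144.Upp296
end

-- ▼ part R144/Upp2_296
section

/-!
R144 / S0197, approach P, assembly of the upper bound, part 2 (helper296): the energy lower bound
after the law of large numbers (`energy_lln`), and the duality step (`duality`).
-/

set_option autoImplicit false
set_option linter.unusedSectionVars false
set_option linter.unusedVariables false

open MeasureTheory Finset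
open scoped ENNReal

namespace Crest.Agent.R144.Upp296

open Crest.Agent.R144.Flat296

variable {Ω : Type*} [MeasurableSpace Ω] {μ : Measure Ω} [IsFiniteMeasure μ]

lemma bm_apply (R : ℕ) (f : Fld Ω) (a : P2) (ω : Ω) :
    bm R f a ω = ((R * R : ℕ) : ℝ)⁻¹ * ∑ p ∈ Flat296.sq R, f (a + pt p) ω := by
  unfold bm
  rw [mn_apply, card_sq]; rfl

lemma mean_const {R : ℕ} (hR : 0 < R) (c : ℝ) :
    ((R * R : ℕ) : ℝ)⁻¹ * ∑ _p ∈ Flat296.sq R, c = c := by
  have : ((R * R : ℕ) : ℝ) ≠ 0 := by positivity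
  rw [Finset.sum_const, card_sq, nsmul_eq_mul, ← mul_assoc, inv_mul_cancel₀ this, one_mul]

lemma mean_le {R : ℕ} (hR : 0 < R) {f : ℕ × ℕ → ℝ} {c : ℝ} (h : ∀ p ∈ Flat296.sq R, f p ≤ c) :
    ((R * R : ℕ) : ℝ)⁻¹ * ∑ p ∈ Flat296.sq R, f p ≤ c := by
  calc _ ≤ ((R * R : ℕ) : ℝ)⁻¹ * ∑ _p ∈ Flat296.sq R, c :=
        mul_le_mul_of_nonneg_left (Finset.sum_le_sum h) (by positivity)
    _ = c := mean_const hR c

/-- expectations of block means -/
lemma Ex_bm (K : Finset P2) (R : ℕ) {f : Fld Ω} (hf : Bd f) :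
    Ex μ K (bm R f) = ((R * R : ℕ) : ℝ)⁻¹ * ∑ p ∈ Flat296.sq R, Ex μ K (tr (pt p) f) := by
  have h1 : Ex μ K (bm R f) = Ex μ K (fun a ω => ((R * R : ℕ) : ℝ)⁻¹ *
      ∑ p ∈ Flat296.sq R, tr (pt p) f a ω) := by
    unfold Ex
    refine Finset.sum_congr rfl fun a _ => integral_congr_ae (Filter.Eventually.of_forall fun ω => ?_)
    exact bm_apply R f a ω
  rw [h1, Ex_cmul, Ex_sum _ _ fun p _ => hf.tr _]

lemma Ex_tr_le {K K0 : Finset P2} {p : P2} (h : ∀ a ∈ K0, a + p ∈ K) {f : Fld Ω}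
    (hf0 : ∀ a ω, 0 ≤ f a ω) : Ex μ K0 (tr p f) ≤ Ex μ K f := by
  classical
  unfold Ex
  have h1 : ∑ a ∈ K0, ∫ ω, tr p f a ω ∂μ = ∑ x ∈ K0.image (· + p), ∫ ω, f x ω ∂μ := by
    rw [Finset.sum_image (fun a _ b _ hab => add_right_cancel hab)]
    rfl
  rw [h1]
  refine Finset.sum_le_sum_of_subset_of_nonneg ?_ fun a _ _ => integral_nonneg (hf0 a)
  intro x hx
  rw [Finset.mem_image] at hx
  obtain ⟨a, ha, rfl⟩ := hx
  exact h a ha

lemma Ex_bm_le {K K0 : Finset P2} {R : ℕ} (hR : 0 < R)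
    (h : ∀ a ∈ K0, ∀ p ∈ Flat296.sq R, a + pt p ∈ K) {f : Fld Ω} (hf : Bd f)
    (hf0 : ∀ a ω, 0 ≤ f a ω) : Ex μ K0 (bm R f) ≤ Ex μ K f := by
  rw [Ex_bm K0 R hf]
  exact mean_le hR fun p hp => Ex_tr_le (fun a ha => h a ha p hp) hf0

/-- energy lower bound after averaging the block matrices (law of large numbers) -/
theorem energy_lln {K K0 : Finset P2} {R' : ℕ} (hR' : 0 < R')
    (hK : ∀ a ∈ K0, ∀ p ∈ Flat296.sq R', a + pt p ∈ K)
    {B : Fin 2 → Fin 2 → Fld Ω} (hB : ∀ i j, Bd (B i j)) {Λ' : ℝ} (hΛ'n : 0 ≤ Λ')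
    (hB' : ∀ i j a ω, |B i j a ω| ≤ Λ')
    (hB0 : ∀ a ω x, 0 ≤ qf (fun i j => B i j a ω) x)
    {G ξ : Fin 2 → Fld Ω} (hG : ∀ i, Bd (G i)) (hξ : ∀ i, Bd (ξ i)) (A : Fin 2 → Fin 2 → ℝ)
    {Λ s t : ℝ} (hΛ : 0 < Λ)
    (hs : ∀ p ∈ Flat296.sq R', Ex μ K0 (fun a ω => |G 0 (a + pt p) ω - G 0 a ω|) +
      Ex μ K0 (fun a ω => |G 1 (a + pt p) ω - G 1 a ω|) ≤ s)
    (ht : Ex μ K (fun a ω => |clp (4 * Λ) (G 0 a ω) - ξ 0 a ω|) +
      Ex μ K (fun a ω => |clp (4 * Λ) (G 1 a ω) - ξ 1 a ω|) ≤ t) :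
    Ex μ K0 (fun a ω => qf A (psi Λ fun i => G i a ω)) ≤
      Ex μ K (fun a ω => qf (fun i j => B i j a ω) (psi Λ fun i => ξ i a ω)) +
      48 * Λ' * Λ * t + 48 * Λ' * Λ * s +
      (2 * Λ) ^ 2 * ∑ i, ∑ j, Ex μ K0 (fun a ω => |bm R' (B i j) a ω - A i j|) := by
  have hpsi : ∀ (y : Fin 2 → ℝ) i, |psi Λ y i| ≤ 2 * Λ := fun y i => abs_psi_le hΛ y i
  have hψG : ∀ i, Bd (fun a ω => psi Λ (fun k => G k a ω) i) := fun i => bd_psi hG Λ i
  have hψξ : ∀ i, Bd (fun a ω => psi Λ (fun k => ξ k a ω) i) := fun i => bd_psi hξ Λ i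
  have hAc : ∀ i j, Bd (fun (_ : P2) (_ : Ω) => A i j) := fun i j => Bd.const _
  have hBm : ∀ i j, Bd (bm R' (B i j)) := fun i j => (hB i j).bm R'
  -- step 1
  have hq1 : Bd (fun a ω => qf A (psi Λ fun i => G i a ω)) := bd_qf hAc hψG
  have hq2 : Bd (fun a ω => qf (fun i j => bm R' (B i j) a ω) (psi Λ fun i => G i a ω)) :=
    bd_qf hBm hψG
  have hdiff : ∀ i j, Bd (fun a ω => |bm R' (B i j) a ω - A i j|) := fun i j =>
    ((hBm i j).sub (hAc i j)).abs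
  have step1 : Ex μ K0 (fun a ω => qf A (psi Λ fun i => G i a ω)) ≤
      Ex μ K0 (fun a ω => qf (fun i j => bm R' (B i j) a ω) (psi Λ fun i => G i a ω)) +
      (2 * Λ) ^ 2 * ∑ i, ∑ j, Ex μ K0 (fun a ω => |bm R' (B i j) a ω - A i j|) := by
    have hsum : Bd (fun a ω => ∑ i, ∑ j, |bm R' (B i j) a ω - A i j|) :=
      Bd.sum fun i _ => Bd.sum fun j _ => hdiff i j
    have e1 : ∑ i, ∑ j, Ex μ K0 (fun a ω => |bm R' (B i j) a ω - A i j|) =
        Ex μ K0 (fun a ω => ∑ i, ∑ j, |bm R' (B i j) a ω - A i j|) := by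
      rw [Ex_sum _ _ fun i _ => Bd.sum fun j _ => hdiff i j]
      refine Finset.sum_congr rfl fun i _ => ?_
      rw [Ex_sum _ _ fun j _ => hdiff i j]
    rw [e1, ← Ex_cmul, ← Ex_add hq2 (hsum.cmul _)]
    refine Ex_mono hq1 (hq2.add (hsum.cmul _)) fun a _ ω => ?_
    have := qf_sub_le' (B := fun i j => bm R' (B i j) a ω) (A := A) (x := psi Λ fun i => G i a ω)
      (c := 2 * Λ) (hpsi _)
    have h2 := (abs_le.mp this).1
    linarith
  -- step 2 : unfold the block mean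
  set f : Fld Ω := fun a ω => qf (fun i j => B i j a ω) (psi Λ fun i => G i a ω) with hf
  have hfB : Bd f := bd_qf hB hψG
  have hf0 : ∀ a ω, 0 ≤ f a ω := fun a ω => hB0 a ω _
  set D : ℕ × ℕ → Fld Ω := fun p a ω => |G 0 (a + pt p) ω - G 0 a ω| + |G 1 (a + pt p) ω - G 1 a ω|
    with hD
  have hDB : ∀ p, Bd (D p) := fun p => (((hG 0).tr _).sub (hG 0)).abs.add (((hG 1).tr _).sub (hG 1)).abs
  have step2 : Ex μ K0 (fun a ω => qf (fun i j => bm R' (B i j) a ω) (psi Λ fun i => G i a ω)) ≤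
      Ex μ K0 (bm R' f) + 48 * Λ' * Λ * (((R' * R' : ℕ) : ℝ)⁻¹ * ∑ p ∈ Flat296.sq R', Ex μ K0 (D p)) := by
    have hsum : Bd (fun a ω => ∑ p ∈ Flat296.sq R', D p a ω) := Bd.sum fun p _ => hDB p
    have e1 : ((R' * R' : ℕ) : ℝ)⁻¹ * ∑ p ∈ Flat296.sq R', Ex μ K0 (D p) =
        Ex μ K0 (fun a ω => ((R' * R' : ℕ) : ℝ)⁻¹ * ∑ p ∈ Flat296.sq R', D p a ω) := by
      rw [Ex_cmul, Ex_sum _ _ fun p _ => hDB p]
    rw [e1, ← Ex_cmul, ← Ex_add (hfB.bm R') ((hsum.cmul _).cmul _)]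
    refine Ex_mono hq2 ((hfB.bm R').add ((hsum.cmul _).cmul _)) fun a _ ω => ?_
    -- pointwise
    set y : Fin 2 → ℝ := psi Λ fun i => G i a ω with hy
    have e2 : qf (fun i j => bm R' (B i j) a ω) y =
        ((R' * R' : ℕ) : ℝ)⁻¹ * ∑ p ∈ Flat296.sq R', qf (fun i j => B i j (a + pt p) ω) y := by
      simp only [qf_eq, bm_apply]
      rw [Finset.sum_add_distrib, Finset.sum_add_distrib, Finset.sum_add_distrib]
      simp_rw [← Finset.sum_mul]
      ring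
    rw [e2, bm_apply]
    have e3 : 48 * Λ' * Λ * (((R' * R' : ℕ) : ℝ)⁻¹ * ∑ p ∈ Flat296.sq R', D p a ω) =
        ((R' * R' : ℕ) : ℝ)⁻¹ * ∑ p ∈ Flat296.sq R', (48 * Λ' * Λ * D p a ω) := by
      rw [← Finset.mul_sum]; ring
    rw [e3, ← mul_add, ← Finset.sum_add_distrib]
    refine mul_le_mul_of_nonneg_left (Finset.sum_le_sum fun p _ => ?_) (by positivity)
    have h1 := qf_sub_le (B := fun i j => B i j (a + pt p) ω) (b := Λ') (c := 2 * Λ)
      (fun i j => hB' i j _ _) (x := y) (y := psi Λ fun i => G i (a + pt p) ω) (hpsi _) (hpsi _)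
    have h2 : ∀ i, |y i - psi Λ (fun i => G i (a + pt p) ω) i| ≤ 3 * D p a ω := fun i => by
      rw [abs_sub_comm]
      exact psi_lip hΛ _ _ i
    have h3 := (abs_le.mp h1).2
    have h4 := h2 0
    have h5 := h2 1
    have h6 : 4 * Λ' * (2 * Λ) * (|y 0 - psi Λ (fun i => G i (a + pt p) ω) 0| +
        |y 1 - psi Λ (fun i => G i (a + pt p) ω) 1|) ≤ 4 * Λ' * (2 * Λ) * (3 * D p a ω + 3 * D p a ω) := by
      exact mul_le_mul_of_nonneg_left (add_le_add h4 h5) (by positivity)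
    have h7 : f (a + pt p) ω = qf (fun i j => B i j (a + pt p) ω) (psi Λ fun i => G i (a + pt p) ω) :=
      rfl
    rw [h7]
    linarith
  have step2b : ((R' * R' : ℕ) : ℝ)⁻¹ * ∑ p ∈ Flat296.sq R', Ex μ K0 (D p) ≤ s := by
    refine mean_le hR' fun p hp => ?_
    refine le_trans (le_of_eq ?_) (hs p hp)
    exact Ex_add (((hG 0).tr (pt p)).sub (hG 0)).abs (((hG 1).tr (pt p)).sub (hG 1)).abs
  -- step 3
  have step3 : Ex μ K0 (bm R' f) ≤ Ex μ K f := Ex_bm_le hR' hK hfB hf0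
  -- step 4
  have step4 : Ex μ K f ≤ Ex μ K (fun a ω => qf (fun i j => B i j a ω) (psi Λ fun i => ξ i a ω)) +
      48 * Λ' * Λ * t := by
    set Dξ : Fld Ω := fun a ω => |clp (4 * Λ) (G 0 a ω) - ξ 0 a ω| + |clp (4 * Λ) (G 1 a ω) - ξ 1 a ω|
      with hDξ
    have hDξB : Bd Dξ := ((bd_clp (hG 0) _).sub (hξ 0)).abs.add ((bd_clp (hG 1) _).sub (hξ 1)).abs
    have hqξ : Bd (fun a ω => qf (fun i j => B i j a ω) (psi Λ fun i => ξ i a ω)) := bd_qf hB hψξ
    have h1 : Ex μ K f ≤ Ex μ K (fun a ω => qf (fun i j => B i j a ω) (psi Λ fun i => ξ i a ω)) +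
        48 * Λ' * Λ * Ex μ K Dξ := by
      rw [← Ex_cmul, ← Ex_add hqξ (hDξB.cmul _)]
      refine Ex_mono hfB (hqξ.add (hDξB.cmul _)) fun a _ ω => ?_
      have g1 := qf_sub_le (B := fun i j => B i j a ω) (b := Λ') (c := 2 * Λ)
        (fun i j => hB' i j _ _) (x := psi Λ fun i => G i a ω) (y := psi Λ fun i => ξ i a ω)
        (hpsi _) (hpsi _)
      have g2 : ∀ i, |psi Λ (fun i => G i a ω) i - psi Λ (fun i => ξ i a ω) i| ≤ 3 * Dξ a ω := by
        intro i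
        rw [← psi_clp hΛ (by linarith : 2 * Λ ≤ 4 * Λ) (fun i => G i a ω)]
        exact psi_lip hΛ _ _ i
      have g3 := (abs_le.mp g1).2
      have g4 : 4 * Λ' * (2 * Λ) * (|psi Λ (fun i => G i a ω) 0 - psi Λ (fun i => ξ i a ω) 0| +
          |psi Λ (fun i => G i a ω) 1 - psi Λ (fun i => ξ i a ω) 1|) ≤
          4 * Λ' * (2 * Λ) * (3 * Dξ a ω + 3 * Dξ a ω) :=
        mul_le_mul_of_nonneg_left (add_le_add (g2 0) (g2 1)) (by positivity)
      have g5 : f a ω = qf (fun i j => B i j a ω) (psi Λ fun i => G i a ω) := rfl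
      rw [g5]
      linarith
    have h2 : Ex μ K Dξ ≤ t := by
      refine le_trans (le_of_eq ?_) ht
      exact Ex_add ((bd_clp (hG 0) _).sub (hξ 0)).abs ((bd_clp (hG 1) _).sub (hξ 1)).abs
    refine h1.trans ?_
    gcongr
  have step2c : 48 * Λ' * Λ * (((R' * R' : ℕ) : ℝ)⁻¹ * ∑ p ∈ Flat296.sq R', Ex μ K0 (D p)) ≤
      48 * Λ' * Λ * s := mul_le_mul_of_nonneg_left step2b (by positivity)
  linarith

end Crest.Agent.R144.Upp296
end

-- ▼ part R144/Upp3_296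

/-!
R144 / S0197, approach P, assembly of the upper bound, part 3 (helper296): duality with a slowly
varying flow.
-/

set_option autoImplicit false
set_option linter.unusedSectionVars false
set_option linter.unusedVariables false

open MeasureTheory Finset
open scoped ENNReal

namespace Crest.Agent.R144.Upp296

open Crest.Agent.R144.Flat296

variable {Ω : Type*} [MeasurableSpace Ω] {μ : Measure Ω} [IsFiniteMeasure μ]

lemma Ex_congr {K : Finset P2} {f g : Fld Ω} (h : ∀ a ∈ K, ∀ ω, f a ω = g a ω) :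
    Ex μ K f = Ex μ K g := by
  unfold Ex
  exact Finset.sum_congr rfl fun a ha => integral_congr_ae (Filter.Eventually.of_forall (h a ha))

lemma Ex_union {K K' : Finset P2} (h : K' ⊆ K) (f : Fld Ω) :
    Ex μ K f = Ex μ K' f + Ex μ (K \ K') f := by
  unfold Ex
  rw [add_comm, Finset.sum_sdiff h]

/-- shift of a deterministic weight -/
lemma Ex_shift {K' K'' : Finset P2} {p : P2} (h : ∀ x ∈ K', x - p ∈ K'') {v : Fld Ω}
    (hv : ∀ a ∉ K', v a = 0) (c : P2 → ℝ) :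
    Ex μ K'' (fun a ω => c a * v (a + p) ω) = Ex μ K' (fun x ω => c (x - p) * v x ω) := by
  classical
  unfold Ex
  have h1 : ∑ x ∈ K', ∫ ω, c (x - p) * v x ω ∂μ =
      ∑ a ∈ K'.image (· - p), ∫ ω, c a * v (a + p) ω ∂μ := by
    rw [Finset.sum_image (fun a _ b _ hab => sub_left_injective hab)]
    refine Finset.sum_congr rfl fun x _ => ?_
    rw [sub_add_cancel]
  rw [h1]
  symm
  refine Finset.sum_subset ?_ ?_
  · intro a ha
    rw [Finset.mem_image] at ha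
    obtain ⟨x, hx, rfl⟩ := ha
    exact h x hx
  · intro a _ ha
    have : a + p ∉ K' := fun hc => ha (by
      rw [Finset.mem_image]
      exact ⟨a + p, hc, by simp⟩)
    rw [hv _ this]
    simp


/-- summation by parts against the block mean -/
lemma Ex_mul_bm {K' K'' : Finset P2} {R : ℕ} (hR : 0 < R)
    (h : ∀ x ∈ K', ∀ p ∈ Flat296.sq R, x - pt p ∈ K'') {v : Fld Ω} (hvB : Bd v)
    (hv : ∀ a ∉ K', v a = 0) {c : P2 → ℝ} {wj : ℝ}
    (hc : ∀ x ∈ K', ∀ p ∈ Flat296.sq R, |c x - c (x - pt p)| ≤ wj) :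
    Ex μ K' (fun x ω => c x * v x ω) ≤ Ex μ K'' (fun a ω => c a * bm R v a ω) +
      wj * Ex μ K' (fun x ω => |v x ω|) := by
  have hcB : ∀ (K : Finset P2) (c' : P2 → ℝ) (w : Fld Ω), Bd w →
      ∀ a ∈ K, Integrable (fun ω => c' a * w a ω) μ := fun K c' w hw a _ =>
    (hw.integrable μ a).const_mul _
  -- the block-mean side
  have e1 : Ex μ K'' (fun a ω => c a * bm R v a ω) =
      ((R * R : ℕ) : ℝ)⁻¹ * ∑ p ∈ Flat296.sq R, Ex μ K' (fun x ω => c (x - pt p) * v x ω) := by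
    have e2 : ∀ a ω, c a * bm R v a ω =
        ((R * R : ℕ) : ℝ)⁻¹ * ∑ p ∈ Flat296.sq R, c a * v (a + pt p) ω := by
      intro a ω
      rw [bm_apply, ← Finset.mul_sum]; ring
    rw [Ex_congr (g := fun a ω => ((R * R : ℕ) : ℝ)⁻¹ * ∑ p ∈ Flat296.sq R, c a * v (a + pt p) ω)
      fun a _ ω => e2 a ω, Ex_cmul]
    congr 1
    have e3 : Ex μ K'' (fun a ω => ∑ p ∈ Flat296.sq R, c a * v (a + pt p) ω) =
        ∑ p ∈ Flat296.sq R, Ex μ K'' (fun a ω => c a * v (a + pt p) ω) := by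
      unfold Ex
      rw [Finset.sum_comm]
      refine Finset.sum_congr rfl fun a _ => integral_finsetSum _ fun p _ => ?_
      exact ((hvB.tr (pt p)).integrable μ a).const_mul _
    rw [e3]
    exact Finset.sum_congr rfl fun p hp => Ex_shift (fun x hx => h x hx p hp) hv c
  rw [e1]
  have e4 : Ex μ K' (fun x ω => c x * v x ω) =
      ((R * R : ℕ) : ℝ)⁻¹ * ∑ p ∈ Flat296.sq R, Ex μ K' (fun x ω => c x * v x ω) :=
    (mean_const hR _).symm
  rw [e4]
  have e5 : wj * Ex μ K' (fun x ω => |v x ω|) =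
      ((R * R : ℕ) : ℝ)⁻¹ * ∑ p ∈ Flat296.sq R, wj * Ex μ K' (fun x ω => |v x ω|) :=
    (mean_const hR _).symm
  rw [e5, ← mul_add, ← Finset.sum_add_distrib]
  refine mul_le_mul_of_nonneg_left (Finset.sum_le_sum fun p hp => ?_) (by positivity)
  unfold Ex
  rw [Finset.mul_sum, ← Finset.sum_add_distrib]
  refine Finset.sum_le_sum fun x hx => ?_
  rw [← integral_const_mul, ← integral_add ((hvB.integrable μ x).const_mul _)
    ((hvB.abs.integrable μ x).const_mul _)]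
  refine integral_mono ((hvB.integrable μ x).const_mul _)
    (((hvB.integrable μ x).const_mul _).add ((hvB.abs.integrable μ x).const_mul _)) fun ω => ?_
  have h1 : (c x - c (x - pt p)) * v x ω ≤ wj * |v x ω| := by
    refine (le_abs_self _).trans ?_
    rw [abs_mul]
    exact mul_le_mul_of_nonneg_right (hc x hx p hp) (abs_nonneg _)
  show c x * v x ω ≤ c (x - pt p) * v x ω + wj * |v x ω|
  linarith

/-- block means far from `K1` only see the layer -/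
lemma Ex_bm_layer {K' K'' K0 K1 : Finset P2} {R : ℕ} (hR : 0 < R)
    (h1 : ∀ x ∈ K1, ∀ p ∈ Flat296.sq R, x - pt p ∈ K0) {v : Fld Ω} (hvB : Bd v)
    (hv : ∀ a ∉ K', v a = 0) :
    Ex μ (K'' \ K0) (fun a ω => |bm R v a ω|) ≤ Ex μ (K' \ K1) (fun x ω => |v x ω|) := by
  classical
  have hm : ∀ a ω, |bm R v a ω| ≤ bm R (fun a ω => |v a ω|) a ω := by
    intro a ω
    rw [bm_apply, bm_apply, abs_mul, abs_of_nonneg (by positivity : (0:ℝ) ≤ ((R * R : ℕ) : ℝ)⁻¹)]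
    exact mul_le_mul_of_nonneg_left (Finset.abs_sum_le_sum_abs _ _) (by positivity)
  refine (Ex_mono (hvB.bm R).abs (hvB.abs.bm R) fun a _ ω => hm a ω).trans ?_
  rw [Ex_bm _ R hvB.abs]
  refine mean_le hR fun p hp => ?_
  unfold Ex
  have e1 : ∑ a ∈ K'' \ K0, ∫ ω, tr (pt p) (fun a ω => |v a ω|) a ω ∂μ =
      ∑ x ∈ (K'' \ K0).image (· + pt p), ∫ ω, |v x ω| ∂μ := by
    rw [Finset.sum_image (fun a _ b _ hab => add_right_cancel hab)]
    rfl
  rw [e1]
  have e2 : ∑ x ∈ (K'' \ K0).image (· + pt p), ∫ ω, |v x ω| ∂μ =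
      ∑ x ∈ ((K'' \ K0).image (· + pt p)) ∩ (K' \ K1), ∫ ω, |v x ω| ∂μ := by
    symm
    refine Finset.sum_subset Finset.inter_subset_left fun x hx hx' => ?_
    rw [Finset.mem_image] at hx
    obtain ⟨a, ha, rfl⟩ := hx
    have hxK1 : a + pt p ∉ K1 := fun hc => by
      have := h1 _ hc p hp
      rw [add_sub_cancel_right] at this
      exact (Finset.mem_sdiff.mp ha).2 this
    have hxK' : a + pt p ∉ K' := fun hc => hx' (by
      rw [Finset.mem_inter, Finset.mem_sdiff]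
      exact ⟨Finset.mem_image.mpr ⟨a, ha, rfl⟩, hc, hxK1⟩)
    rw [hv _ hxK']
    simp
  rw [e2]
  exact Finset.sum_le_sum_of_subset_of_nonneg Finset.inter_subset_right fun x _ _ =>
    integral_nonneg fun ω => abs_nonneg _

/-- excess over a level of the block mean -/
lemma Ex_bm_excess {K' K'' : Finset P2} {R : ℕ} (hR : 0 < R) {v : Fld Ω} (hvB : Bd v)
    (hv : ∀ a ∉ K', v a = 0) {c : ℝ} (hc : 0 ≤ c) :
    Ex μ K'' (fun a ω => max 0 (|bm R v a ω| - c)) ≤ Ex μ K' (fun x ω => max 0 (|v x ω| - c)) := by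
  classical
  set f : Fld Ω := fun a ω => max 0 (|v a ω| - c) with hf
  have hfB : Bd f := (Bd.const 0).max (hvB.abs.sub (Bd.const c))
  have hm : ∀ a ω, max 0 (|bm R v a ω| - c) ≤ bm R f a ω := by
    intro a ω
    rw [bm_apply, bm_apply]
    have h0 : 0 ≤ ((R * R : ℕ) : ℝ)⁻¹ * ∑ p ∈ Flat296.sq R, f (a + pt p) ω :=
      mul_nonneg (by positivity) (Finset.sum_nonneg fun p _ => le_max_left _ _)
    refine max_le h0 ?_
    rw [abs_mul, abs_of_nonneg (by positivity : (0:ℝ) ≤ ((R * R : ℕ) : ℝ)⁻¹)]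
    have h1 : c = ((R * R : ℕ) : ℝ)⁻¹ * ∑ _p ∈ Flat296.sq R, c := (mean_const hR c).symm
    have h2 : ((R * R : ℕ) : ℝ)⁻¹ * |∑ p ∈ Flat296.sq R, v (a + pt p) ω| ≤
        ((R * R : ℕ) : ℝ)⁻¹ * ∑ p ∈ Flat296.sq R, |v (a + pt p) ω| :=
      mul_le_mul_of_nonneg_left (Finset.abs_sum_le_sum_abs _ _) (by positivity)
    have h3 : ((R * R : ℕ) : ℝ)⁻¹ * ∑ p ∈ Flat296.sq R, |v (a + pt p) ω| ≤
        ((R * R : ℕ) : ℝ)⁻¹ * ∑ p ∈ Flat296.sq R, (f (a + pt p) ω + c) := by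
      refine mul_le_mul_of_nonneg_left (Finset.sum_le_sum fun p _ => ?_) (by positivity)
      have := le_max_right 0 (|v (a + pt p) ω| - c)
      show |v (a + pt p) ω| ≤ max 0 (|v (a + pt p) ω| - c) + c
      linarith
    rw [Finset.sum_add_distrib, mul_add, ← h1] at h3
    linarith
  have hbB : Bd (fun a ω => max 0 (|bm R v a ω| - c)) :=
    (Bd.const 0).max ((hvB.bm R).abs.sub (Bd.const c))
  refine (Ex_mono hbB (hfB.bm R) fun a _ ω => hm a ω).trans ?_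
  rw [Ex_bm _ R hfB]
  refine mean_le hR fun p hp => ?_
  -- shift and drop the sites outside `K'`
  unfold Ex
  have e1 : ∑ a ∈ K'', ∫ ω, tr (pt p) f a ω ∂μ = ∑ x ∈ K''.image (· + pt p), ∫ ω, f x ω ∂μ := by
    rw [Finset.sum_image (fun a _ b _ hab => add_right_cancel hab)]
    rfl
  rw [e1]
  have e2 : ∑ x ∈ K''.image (· + pt p), ∫ ω, f x ω ∂μ =
      ∑ x ∈ (K''.image (· + pt p)) ∩ K', ∫ ω, f x ω ∂μ := by
    symm
    refine Finset.sum_subset Finset.inter_subset_left fun x hx hx' => ?_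
    have hxK' : x ∉ K' := fun hc' => hx' (Finset.mem_inter.mpr ⟨hx, hc'⟩)
    have : ∀ ω, f x ω = 0 := fun ω => by
      show max 0 (|v x ω| - c) = 0
      rw [hv _ hxK']
      simp [hc]
    simp [this]
  rw [e2]
  exact Finset.sum_le_sum_of_subset_of_nonneg Finset.inter_subset_right fun x _ _ =>
    integral_nonneg fun ω => le_max_left _ _

/-- **duality step**: from the variational upper bound with the energy `e` and the energy lower
bound in terms of the cut-off slopes, the variance is at most the dual energy of the flow. -/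
theorem duality {K' K'' K0 K1 Kx : Finset P2} {R : ℕ} (hR : 0 < R) {u : Fld Ω} (hu : Bd u)
    (h01 : K1 ⊆ K') (hKx : K' ⊆ Kx) (h0'' : K0 ⊆ K'')
    (hK1 : ∀ x ∈ K1, ∀ p ∈ Flat296.sq R, x - pt p ∈ K0)
    (hK'' : ∀ x ∈ K', ∀ p ∈ Flat296.sq R, x - pt p ∈ K'')
    {j : Fin 2 → P2 → ℝ} {Cj wj : ℝ} (hCj : 0 ≤ Cj) (hj : ∀ i x, |j i x| ≤ Cj)
    (hwj : 0 ≤ wj) (hjs : ∀ i, ∀ x ∈ K', ∀ p ∈ Flat296.sq R, |j i x - j i (x - pt p)| ≤ wj)
    {A : Fin 2 → Fin 2 → ℝ} {α δ V e ε0 ε1 ε2 S T Λ : ℝ} (hΛ : 0 < Λ) (hα : 0 ≤ α)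
    {d : Fin 2 → P2} (qs : P2 → ℝ)
    (hV : V ≤ 2 * (δ ^ 2 * ∑ i, Ex μ Kx (fun x ω => j i x * dd (d i) u x ω)) - e + ε0)
    (hlay : δ ^ 2 * ∑ i, Ex μ (Kx \ K1) (fun x ω => |dd (d i) u x ω|) ≤ ε1)
    (hS : δ ^ 2 * ∑ i, Ex μ K' (fun x ω => |dd (d i) u x ω|) ≤ S)
    (hT : δ ^ 2 * ∑ i, Ex μ K' (fun x ω => max 0 (|dd (d i) u x ω| - Λ / 2)) ≤ T)
    (hE : α * (δ ^ 2 * Ex μ K0 (fun a ω => qf A (psi Λ fun i => bm R (rst K' (dd (d i) u)) a ω)) - ε2)
      ≤ e)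
    (hdual : ∀ a ∈ K0, ∀ y : Fin 2 → ℝ, 2 * ∑ i, j i a * y i - α * qf A y ≤ qs a) [IsProbabilityMeasure μ] :
    V ≤ δ ^ 2 * ∑ a ∈ K0, qs a + ε0 + α * ε2 + 4 * Cj * ε1 + 2 * wj * S + 8 * Cj * T := by
  set v : Fin 2 → Fld Ω := fun i => rst K' (dd (d i) u) with hv
  have hvB : ∀ i, Bd (v i) := fun i => (hu.dd _).rst _
  have hv0 : ∀ i, ∀ a ∉ K', v i a = 0 := fun i a ha => rst_notMem ha _
  have hve : ∀ i, ∀ a ∈ K', ∀ ω, v i a ω = dd (d i) u a ω := fun i a ha ω => by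
    rw [hv]; simp only; rw [rst_mem ha]
  set G : Fin 2 → Fld Ω := fun i => bm R (v i) with hG
  have hGB : ∀ i, Bd (G i) := fun i => (hvB i).bm R
  have hδ : 0 ≤ δ ^ 2 := sq_nonneg _
  have hjB : ∀ i (w : Fld Ω), Bd w → Bd (fun a ω => j i a * w a ω) := by
    intro i w hw
    obtain ⟨C, hC⟩ := hw.bd
    refine ⟨fun a => (hw.mb a).const_mul _, Cj * |C|, fun a ω => ?_⟩
    rw [abs_mul]
    exact mul_le_mul (hj i a) ((hC a ω).trans (le_abs_self _)) (abs_nonneg _) hCj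
  -- step 1 : drop the layer
  have s1 : ∀ i, Ex μ Kx (fun x ω => j i x * dd (d i) u x ω) ≤
      Ex μ K' (fun x ω => j i x * v i x ω) + Cj * Ex μ (Kx \ K1) (fun x ω => |dd (d i) u x ω|) := by
    intro i
    rw [Ex_union hKx]
    have e1 : Ex μ K' (fun x ω => j i x * dd (d i) u x ω) = Ex μ K' (fun x ω => j i x * v i x ω) :=
      Ex_congr fun a ha ω => by rw [hve i a ha ω]
    rw [e1]
    have h2 : Ex μ (Kx \ K') (fun x ω => j i x * dd (d i) u x ω) ≤
        Cj * Ex μ (Kx \ K') (fun x ω => |dd (d i) u x ω|) := by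
      rw [← Ex_cmul]
      refine Ex_mono (hjB i _ (hu.dd _)) ((hu.dd _).abs.cmul _) fun a _ ω => ?_
      refine (le_abs_self _).trans ?_
      rw [abs_mul]
      exact mul_le_mul_of_nonneg_right (hj i a) (abs_nonneg _)
    have h3 : Ex μ (Kx \ K') (fun x ω => |dd (d i) u x ω|) ≤
        Ex μ (Kx \ K1) (fun x ω => |dd (d i) u x ω|) :=
      Ex_subset (fun a _ ω => abs_nonneg _) (Finset.sdiff_subset_sdiff (le_refl _) h01)
    have h4 := mul_le_mul_of_nonneg_left h3 hCj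
    linarith
  -- step 2 : pass to block means
  have s2 : ∀ i, Ex μ K' (fun x ω => j i x * v i x ω) ≤ Ex μ K'' (fun a ω => j i a * G i a ω) +
      wj * Ex μ K' (fun x ω => |dd (d i) u x ω|) := by
    intro i
    have := Ex_mul_bm (μ := μ) hR hK'' (hvB i) (hv0 i) (c := j i) (wj := wj) (hjs i)
    refine this.trans (le_of_eq ?_)
    congr 2
    exact Ex_congr fun a ha ω => by rw [hve i a ha ω]
  -- step 3 : drop the far block means
  have s3 : ∀ i, Ex μ K'' (fun a ω => j i a * G i a ω) ≤ Ex μ K0 (fun a ω => j i a * G i a ω) +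
      Cj * Ex μ (Kx \ K1) (fun x ω => |dd (d i) u x ω|) := by
    intro i
    rw [Ex_union h0'']
    have h2 : Ex μ (K'' \ K0) (fun a ω => j i a * G i a ω) ≤
        Cj * Ex μ (K'' \ K0) (fun a ω => |G i a ω|) := by
      rw [← Ex_cmul]
      refine Ex_mono (hjB i _ (hGB i)) ((hGB i).abs.cmul _) fun a _ ω => ?_
      refine (le_abs_self _).trans ?_
      rw [abs_mul]
      exact mul_le_mul_of_nonneg_right (hj i a) (abs_nonneg _)
    have h3 : Ex μ (K'' \ K0) (fun a ω => |G i a ω|) ≤ Ex μ (K' \ K1) (fun x ω => |v i x ω|) :=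
      Ex_bm_layer hR hK1 (hvB i) (hv0 i)
    have h4 : Ex μ (K' \ K1) (fun x ω => |v i x ω|) = Ex μ (K' \ K1) (fun x ω => |dd (d i) u x ω|) :=
      Ex_congr fun a ha ω => by rw [hve i a (Finset.mem_sdiff.mp ha).1 ω]
    have h5 : Ex μ (K' \ K1) (fun x ω => |dd (d i) u x ω|) ≤
        Ex μ (Kx \ K1) (fun x ω => |dd (d i) u x ω|) :=
      Ex_subset (fun a _ ω => abs_nonneg _) (Finset.sdiff_subset_sdiff hKx (le_refl _))
    have h6 := mul_le_mul_of_nonneg_left (h3.trans (h4.le.trans h5)) hCj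
    linarith
  -- step 4 : cut-off slopes
  have s4 : ∀ i, Ex μ K0 (fun a ω => j i a * G i a ω) ≤
      Ex μ K0 (fun a ω => j i a * psi Λ (fun k => G k a ω) i) +
      2 * Cj * ∑ k, Ex μ K' (fun x ω => max 0 (|dd (d k) u x ω| - Λ / 2)) := by
    intro i
    have hpB : Bd (fun a ω => psi Λ (fun k => G k a ω) i) := bd_psi hGB Λ i
    have hxB : ∀ k, Bd (fun a ω => max 0 (|G k a ω| - Λ / 2)) := fun k =>
      (Bd.const 0).max ((hGB k).abs.sub (Bd.const _))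
    have h2 : Ex μ K0 (fun a ω => j i a * G i a ω) ≤
        Ex μ K0 (fun a ω => j i a * psi Λ (fun k => G k a ω) i) +
        2 * Cj * Ex μ K0 (fun a ω => max 0 (|G 0 a ω| - Λ / 2) + max 0 (|G 1 a ω| - Λ / 2)) := by
      rw [← Ex_cmul, ← Ex_add (hjB i _ hpB) (((hxB 0).add (hxB 1)).cmul _)]
      refine Ex_mono (hjB i _ (hGB i)) ((hjB i _ hpB).add (((hxB 0).add (hxB 1)).cmul _))
        fun a _ ω => ?_
      have h3 := abs_sub_psi_le hΛ (fun k => G k a ω) i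
      have h4 : j i a * (G i a ω - psi Λ (fun k => G k a ω) i) ≤
          Cj * (2 * (max 0 (|G 0 a ω| - Λ / 2) + max 0 (|G 1 a ω| - Λ / 2))) := by
        refine (le_abs_self _).trans ?_
        rw [abs_mul]
        exact mul_le_mul (hj i a) h3 (abs_nonneg _) hCj
      linarith
    have h5 : Ex μ K0 (fun a ω => max 0 (|G 0 a ω| - Λ / 2) + max 0 (|G 1 a ω| - Λ / 2)) ≤
        ∑ k, Ex μ K' (fun x ω => max 0 (|dd (d k) u x ω| - Λ / 2)) := by
      rw [Ex_add (hxB 0) (hxB 1), Fin.sum_univ_two]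
      have h6 : ∀ k, Ex μ K0 (fun a ω => max 0 (|G k a ω| - Λ / 2)) ≤
          Ex μ K' (fun x ω => max 0 (|dd (d k) u x ω| - Λ / 2)) := by
        intro k
        refine (Ex_bm_excess hR (hvB k) (hv0 k) (by positivity)).trans (le_of_eq ?_)
        exact Ex_congr fun a ha ω => by rw [hve k a ha ω]
      exact add_le_add (h6 0) (h6 1)
    have h7 := mul_le_mul_of_nonneg_left h5 (by positivity : (0:ℝ) ≤ 2 * Cj)
    linarith
  -- step 5 : pointwise duality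
  have hpB : ∀ i, Bd (fun a ω => psi Λ (fun k => G k a ω) i) := fun i => bd_psi hGB Λ i
  have hqB : Bd (fun a ω => qf A (psi Λ fun i => G i a ω)) := bd_qf (fun i j => Bd.const _) hpB
  have s5 : 2 * ∑ i, Ex μ K0 (fun a ω => j i a * psi Λ (fun k => G k a ω) i) -
      α * Ex μ K0 (fun a ω => qf A (psi Λ fun i => G i a ω)) ≤ ∑ a ∈ K0, qs a := by
    rw [← Ex_sum _ _ fun i _ => hjB i _ (hpB i), ← Ex_cmul, ← Ex_cmul,
      ← Ex_sub ((Bd.sum fun i _ => hjB i _ (hpB i)).cmul _) (hqB.cmul _)]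
    unfold Ex
    refine Finset.sum_le_sum fun a ha => ?_
    have h1 : ∫ ω, (2 * ∑ i, j i a * psi Λ (fun k => G k a ω) i -
        α * qf A (psi Λ fun i => G i a ω)) ∂μ ≤ ∫ _ω, qs a ∂μ := by
      refine integral_mono ?_ (integrable_const _) fun ω => hdual a ha _
      exact (((Bd.sum fun i _ => hjB i _ (hpB i)).cmul _).sub (hqB.cmul _)).integrable μ a
    refine h1.trans (le_of_eq ?_)
    simp
  -- collect
  have t1 : ∑ i, Ex μ Kx (fun x ω => j i x * dd (d i) u x ω) ≤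
      ∑ i, Ex μ K0 (fun a ω => j i a * psi Λ (fun k => G k a ω) i) +
      2 * Cj * ∑ i, Ex μ (Kx \ K1) (fun x ω => |dd (d i) u x ω|) +
      wj * ∑ i, Ex μ K' (fun x ω => |dd (d i) u x ω|) +
      4 * Cj * ∑ k, Ex μ K' (fun x ω => max 0 (|dd (d k) u x ω| - Λ / 2)) := by
    have h0 := (((s1 0).trans (add_le_add (s2 0) le_rfl)).trans
      (add_le_add (add_le_add (s3 0) le_rfl) le_rfl))
    have h1 := (((s1 1).trans (add_le_add (s2 1) le_rfl)).trans
      (add_le_add (add_le_add (s3 1) le_rfl) le_rfl))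
    have g0 := s4 0
    have g1 := s4 1
    simp only [Fin.sum_univ_two] at *
    linarith
  have t2 := mul_le_mul_of_nonneg_left t1 hδ
  have t3 := mul_le_mul_of_nonneg_left s5 hδ
  have l1 := mul_le_mul_of_nonneg_left hlay (by positivity : (0:ℝ) ≤ 4 * Cj)
  have l2 := mul_le_mul_of_nonneg_left hS (by positivity : (0:ℝ) ≤ 2 * wj)
  have l3 := mul_le_mul_of_nonneg_left hT (by positivity : (0:ℝ) ≤ 8 * Cj)
  have hE' : α * (δ ^ 2 * Ex μ K0 (fun a ω => qf A (psi Λ fun i => G i a ω))) - α * ε2 ≤ e := by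
    have := hE
    rw [mul_sub] at this
    exact this
  nlinarith [t2, t3, l1, l2, l3, hE', hV]

end Crest.Agent.R144.Upp296
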