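import Mathlib
import Crest.Prelude.Def_TriHeights
import Crest.Agent.R144.Ham5_560

-- ▼ part R144/Tilt3_714
section

/-!
# R144 (S0197), block TILT (helper714), part 3: log-concave laws

`LCT μ X`: the upper tails of `X` are log-concave (true for linear functionals of uniform laws on
convex bodies, by Prekopa-Leindler).  If `X` and `-X` have this property and `E (X - m)² ≤ v`, then
the exponential moments of `X - m` at rate `1 / (6 √v)` are bounded by an absolute constant, and the
tilted variances are bounded by an absolute constant times `v`.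
-/

set_option autoImplicit false

namespace Crest.Agent.R144.Tilt714

open Filter Topology Metric MeasureTheory ProbabilityTheory
open scoped NNReal ENNReal Real

variable {Ω : Type*} [MeasurableSpace Ω]

/-- log-concavity of the upper tails -/
def LCT (μ : Measure Ω) (X : Ω → ℝ) : Prop :=
  ∀ x y t : ℝ, 0 < t → t < 1 →
    μ.real {ω | x ≤ X ω} ^ (1 - t) * μ.real {ω | y ≤ X ω} ^ t ≤
      μ.real {ω | (1 - t) * x + t * y ≤ X ω}

lemma LCT.sub_const {μ : Measure Ω} {X : Ω → ℝ} (h : LCT μ X) (m : ℝ) :
    LCT μ (fun ω => X ω - m) := by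
  intro x y t ht0 ht1
  have := h (x + m) (y + m) t ht0 ht1
  have e1 : ∀ z : ℝ, {ω | z ≤ X ω - m} = {ω | z + m ≤ X ω} := by
    intro z; ext ω; simp only [Set.mem_ofPred_eq]; constructor <;> intro h <;> linarith
  rw [e1, e1, e1]
  have e2 : (1 - t) * x + t * y + m = (1 - t) * (x + m) + t * (y + m) := by ring
  rw [e2]
  exact this




section tilt

variable {μ : Measure Ω} [IsProbabilityMeasure μ] {X : Ω → ℝ} {a s : ℝ}






end tilt

section lim
variable {Ω : ℕ → Type*} [∀ n, MeasurableSpace (Ω n)] {μ : ∀ n, Measure (Ω n)}
  [∀ n, IsProbabilityMeasure (μ n)] {X : ∀ n, Ω n → ℝ}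


end lim

end Crest.Agent.R144.Tilt714
end

-- ▼ part R144/Tilt4_714

/-!
# R144 (S0197), block TILT (helper714), part 4: the end of S0197 on the hammock polytope

`LCT_unif`: linear (affine) functionals of the uniform law on a convex body have log-concave tails.
`law_of_tilted_var`: the literal conclusion of S0197 from the convergence of the variances of the
affine pairing under the laws tilted by `exp (s * pairing)`, `|s| < s₀`.
-/

set_option autoImplicit false

namespace Crest.Agent.R144.Tilt714

open Filter Topology Metric MeasureTheory ProbabilityTheory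
open Crest.ProbabilityR.TriHeights Crest.Agent.R144.Ham560
open scoped NNReal ENNReal Real

section unif

variable {ι : Type*} [Fintype ι]


end unif

section ham

variable {U : Type*} [DecidableEq U] {F : Finset U} {E : Finset (U × U)} {ξ : U → ℝ}


end ham

/-- the affine pairing as a function of the free coordinates -/
noncomputable def pairX (δ : ℝ) (T : Finset Tri) (Ap Am : Set (ℤ × ℤ)) (a : ℝ) (f : ℂ → ℝ)
    (x : freeVerts T Ap Am → ℝ) : ℝ :=
  affinePairing δ T f (ext (freeVerts T Ap Am) (triXi Ap Am a) x)

lemma pairX_affine (δ : ℝ) (T : Finset Tri) (Ap Am : Set (ℤ × ℤ)) (a : ℝ) (f : ℂ → ℝ)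
    (x y : freeVerts T Ap Am → ℝ) (t : ℝ) :
    pairX δ T Ap Am a f ((1 - t) • x + t • y) =
      (1 - t) * pairX δ T Ap Am a f x + t * pairX δ T Ap Am a f y := by
  have hext : ∀ u, ext (freeVerts T Ap Am) (triXi Ap Am a) ((1 - t) • x + t • y) u =
      (1 - t) * ext (freeVerts T Ap Am) (triXi Ap Am a) x u +
        t * ext (freeVerts T Ap Am) (triXi Ap Am a) y u := by
    intro u
    by_cases hu : u ∈ freeVerts T Ap Am
    · simp [ext, hu]
    · simp only [ext, hu, dite_false]; ring
  simp only [pairX, affinePairing, hext, Finset.mul_sum, ← Finset.sum_add_distrib]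
  refine Finset.sum_congr rfl fun τ _ => Finset.sum_congr rfl fun k _ => ?_
  ring

lemma pairX_continuous (δ : ℝ) (T : Finset Tri) (Ap Am : Set (ℤ × ℤ)) (a : ℝ) (f : ℂ → ℝ) :
    Continuous (pairX δ T Ap Am a f) := by
  unfold pairX affinePairing
  refine continuous_finsetSum _ fun τ _ => continuous_finsetSum _ fun k _ => ?_
  refine Continuous.mul ?_ continuous_const
  by_cases hu : corner τ k ∈ freeVerts T Ap Am
  · simp only [ext, hu, dite_true]
    exact continuous_apply _
  · simp only [ext, hu, dite_false]
    exact continuous_const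


end Crest.Agent.R144.Tilt714
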