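import Mathlib
import Crest.Prelude.Def_TriHeights
import Crest.Agent.R144.Tilt4_714
import Crest.Agent.R144.Geo5_268

-- ▼ part R144/Skel97_144

/-!
# R144 (S0197), top glue (helper144)

`Inst` = all the data of `Tilt714.VarAsymp` in one structure (amplitude, marked domain, chart,
approximation, test function), with `I.Fr n`, `I.Ed n`, `I.xi n`, `I.X n` (the affine pairing as a
function of the free coordinates), `I.P n s` (the tilted law) and `I.g` (the Green form).

`I.Good s`: the admissible sources (the hypotheses `hv`, `hs` of `Tilt3_714`).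

`UpperB u`, `LowerB l`: the one-sided variance bounds; `AprB`: the a-priori bound.

`s0197_of_blocks`: the literal statement S0197 from the block outputs POS, UP, LO, KAP, APR of the
chain table (doc "R144 S0197 CHAIN v1").
-/

set_option autoImplicit false

namespace Crest.Agent.R144.Skel144

open Filter Topology Metric MeasureTheory ProbabilityTheory
open Crest.ProbabilityR.TriHeights Crest.Agent.R144.Ham560 Crest.Agent.R144.Tilt714
open scoped NNReal ENNReal Real ContDiff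

/-- an admissible instance of S0197 -/
structure Inst where
  a : ℝ
  ha0 : 0 < a
  ha1 : a ≤ 1 / 2
  D : Set ℂ
  γ : ℝ → ℂ
  θ : ℝ
  φ : ℂ → ℂ
  hD : IsSmoothMarkedDomain D γ θ
  hφ : DifferentiableOn ℂ φ D
  hbij : Set.BijOn φ D (Metric.ball (0 : ℂ) 1)
  δ : ℕ → ℝ
  T : ℕ → Finset Tri
  ea : ℕ → (ℤ × ℤ) × (ℤ × ℤ)
  eb : ℕ → (ℤ × ℤ) × (ℤ × ℤ)
  c : ℕ → ℝ → ℂ
  hM : IsMarkedApprox γ θ δ T ea eb c
  f : ℂ → ℝ
  hf : ContDiff ℝ ∞ f
  hfc : HasCompactSupport f
  hfs : tsupport f ⊆ D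

namespace Inst

variable (I : Inst) (n : ℕ)

/-- the plus arc -/
abbrev Ap : Set (ℤ × ℤ) := arcPlus (I.δ n) (I.T n) (I.c n) I.θ

/-- the minus arc -/
abbrev Am : Set (ℤ × ℤ) := arcMinus (I.δ n) (I.T n) (I.c n) I.θ

/-- the free vertices -/
noncomputable abbrev Fr : Finset (ℤ × ℤ) := freeVerts (I.T n) (I.Ap n) (I.Am n)

/-- the edges -/
noncomputable abbrev Ed : Finset ((ℤ × ℤ) × (ℤ × ℤ)) := triE (I.T n)

/-- the boundary data -/
noncomputable abbrev xi : ℤ × ℤ → ℝ := triXi (I.Ap n) (I.Am n) I.a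

/-- the linear statistic -/
noncomputable abbrev X : (I.Fr n → ℝ) → ℝ := pairX (I.δ n) (I.T n) (I.Ap n) (I.Am n) I.a I.f

/-- the untilted law -/
noncomputable abbrev P0 : Measure (I.Fr n → ℝ) := hamP (I.Fr n) (I.Ed n) (I.xi n)

/-- the law tilted by `s * X` -/
noncomputable abbrev P (s : ℝ) : Measure (I.Fr n → ℝ) := (I.P0 n).tilted (s * I.X n ·)

/-- the Green form of the test function -/
noncomputable abbrev g : ℝ := Crest.ProbabilityR.HexHeights.domainGreenForm I.φ I.f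

/-- admissible sources -/
def Good (s : ℝ) : Prop :=
  ∃ A : ℝ, 0 < A ∧ (∀ᶠ n in atTop, 9 * Var[I.X n; I.P0 n] ≤ A ^ 2) ∧ |s| ≤ 1 / (4 * A)

lemma abs_xi_le (u : ℤ × ℤ) : |I.xi n u| ≤ 1 / 2 :=
  (abs_triXi_le I.ha0.le u).trans I.ha1

lemma arcs_disj (v : ℤ × ℤ) (hv : v ∈ I.Ap n) : v ∉ I.Am n :=
  Geo268.arcs_disj I.hM I.hD.2.2.2.2.2.2.2.2.1 I.hD.2.2.2.2.2.2.2.2.2 n hv

lemma anch : Anch (I.Fr n) (I.Ed n) := Geo268.anch I.hM n

instance isProb : IsProbabilityMeasure (I.P0 n) :=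
  isProbabilityMeasure_hamP (I.anch n) (I.abs_xi_le n)


lemma isCompact_ham : IsCompact (ham (I.Fr n) (I.Ed n) (I.xi n)) := Ham560.isCompact_ham (I.anch n)

end Inst










end Crest.Agent.R144.Skel144
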