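import Crest.Agent.R144.Ham5_560
import Mathlib
import Crest.Agent.R144.Ham6_560
import Crest.Agent.R144.Skel97_144

-- ▼ part R144/LcB_460
section

/-!
R144 (S0197), helper460, leaf LCb of helper146's block LC: pinning cost.

* `vol_scl`  : volume under the scaling of the coordinates in `B`;
* `pin_le`   : for a symmetric convex set `K` with `|x_i| ≤ n` on `K` for `i ∈ B`:
               `(e/n)^|B| vol K ≤ vol (K ∩ {|x_i| ≤ e, i ∈ B})`;
* `ham_pin`  : the same on `ham F E 0`;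
* `ham_pin_xi` : the version with data `ξ`, `|ξ| ≤ 1/2`, on `B`;
* `hamP_pin`, `hamP_pin_xi` : probability forms.
-/

set_option autoImplicit false

open MeasureTheory Set
open scoped ENNReal

noncomputable section

namespace Crest.Agent.R144.LcB460

open Crest.Agent.R144.Ham560

section abs

variable {ι : Type*} [Fintype ι] [DecidableEq ι]

/-- Scaling of the coordinates in `B`. -/
def scl (B : Finset ι) (s : ℝ) (x : ι → ℝ) : ι → ℝ := fun i => if i ∈ B then s * x i else x i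

theorem scl_eq (B : Finset ι) (s : ℝ) :
    scl B s = Matrix.toLin' (Matrix.diagonal fun i => if i ∈ B then s else 1) := by
  funext x i
  simp only [scl, Matrix.toLin'_apply, Matrix.mulVec_diagonal]
  split_ifs <;> ring

omit [Fintype ι] in
theorem continuous_scl (B : Finset ι) (s : ℝ) : Continuous (scl B s) := by
  refine continuous_pi fun i => ?_
  unfold scl
  split_ifs
  · exact continuous_const.mul (continuous_apply i)
  · exact continuous_apply i

theorem vol_scl (B : Finset ι) {s : ℝ} (hs : 0 < s) {A : Set (ι → ℝ)} (hA : MeasurableSet A) :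
    volume A = ENNReal.ofReal s ^ B.card * volume (scl B s ⁻¹' A) := by
  have hdet : Matrix.det (Matrix.diagonal fun i => if i ∈ B then s else (1 : ℝ)) = s ^ B.card := by
    rw [Matrix.det_diagonal, Finset.prod_ite, Finset.prod_const, Finset.prod_const_one, mul_one]
    congr 2
    ext i; simp
  have h := Real.smul_map_diagonal_volume_pi (ι := ι) (D := fun i => if i ∈ B then s else (1 : ℝ))
    (by rw [hdet]; positivity)
  conv_lhs => rw [← h]
  rw [Measure.smul_apply, smul_eq_mul, hdet, abs_of_pos (by positivity), ENNReal.ofReal_pow hs.le,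
    ← scl_eq, Measure.map_apply (continuous_scl B s).measurable hA]

/-- Joining two groups of coordinates. -/
def jn (p : ι → Prop) [DecidablePred p] (b : {i // p i} → ℝ) (c : {i // ¬ p i} → ℝ) : ι → ℝ :=
  fun i => if h : p i then b ⟨i, h⟩ else c ⟨i, h⟩

omit [DecidableEq ι] in
/-- Comparison of volumes by slices. -/
theorem slice_mono (p : ι → Prop) [DecidablePred p] {K₁ K₂ : Set (ι → ℝ)}
    (h1 : MeasurableSet K₁) (h2 : MeasurableSet K₂)
    (H : ∀ b : {i // p i} → ℝ, MeasurableSet {c | jn p b c ∈ K₁} → MeasurableSet {c | jn p b c ∈ K₂} →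
      volume {c | jn p b c ∈ K₁} ≤ volume {c | jn p b c ∈ K₂}) :
    volume K₁ ≤ volume K₂ := by
  set φ := MeasurableEquiv.piEquivPiSubtypeProd (fun _ : ι => ℝ) p with hφ
  have hmp := volume_preserving_piEquivPiSubtypeProd (fun _ : ι => ℝ) p
  have hmp' : MeasurePreserving φ.symm (volume.prod volume) volume := by
    rw [← Measure.volume_eq_prod]; exact hmp.symm φ
  rw [← hmp'.measure_preimage h1.nullMeasurableSet, ← hmp'.measure_preimage h2.nullMeasurableSet,
    Measure.prod_apply (φ.symm.measurable h1), Measure.prod_apply (φ.symm.measurable h2)]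
  exact lintegral_mono fun b => H b (measurable_prodMk_left (φ.symm.measurable h1))
    (measurable_prodMk_left (φ.symm.measurable h2))

/-- Pinning the coordinates of `B` in a symmetric convex set costs at most `e / n` each. -/
theorem pin_le {K : Set (ι → ℝ)} (hK : Convex ℝ K) (hsym : ∀ x ∈ K, -x ∈ K)
    (hKm : MeasurableSet K) (B : Finset ι) {n e : ℝ} (he : 0 < e) (hen : e ≤ n)
    (hb : ∀ x ∈ K, ∀ i ∈ B, |x i| ≤ n) :
    ENNReal.ofReal (e / n) ^ B.card * volume K ≤ volume (K ∩ {x | ∀ i ∈ B, |x i| ≤ e}) := by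
  have hn : 0 < n := lt_of_lt_of_le he hen
  set s : ℝ := e / n with hs
  have hs0 : 0 < s := by positivity
  have hs1 : s ≤ 1 := by rw [hs, div_le_one hn]; exact hen
  have hsn : s * n = e := by rw [hs]; field_simp
  have hbox : MeasurableSet {x : ι → ℝ | ∀ i ∈ B, |x i| ≤ e} := by
    have : {x : ι → ℝ | ∀ i ∈ B, |x i| ≤ e} = ⋂ i ∈ B, {x | |x i| ≤ e} := by ext x; simp
    rw [this]
    exact (isClosed_biInter fun i _ =>
      isClosed_le (continuous_apply i).abs continuous_const).measurableSet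
  rw [vol_scl B hs0 (hKm.inter hbox)]
  refine mul_le_mul_right ?_ _
  rcases eq_or_lt_of_le hs1 with h1 | h1
  · refine measure_mono fun x hx => ?_
    have hx' : scl B s x = x := by
      funext i; unfold scl; rw [h1]; simp
    rw [mem_preimage, hx']
    refine ⟨hx, fun i hi => ?_⟩
    have := hb x hx i hi
    have h2 : e = n := by rw [← hsn, h1, one_mul]
    rw [h2]; exact this
  -- slices
  have hpre : MeasurableSet (scl B s ⁻¹' (K ∩ {x | ∀ i ∈ B, |x i| ≤ e})) :=
    (continuous_scl B s).measurable (hKm.inter hbox)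
  refine slice_mono (fun i => i ∈ B) hKm hpre fun b hm1 hm2 => ?_
  by_cases hbn : ∀ i, |b i| ≤ n
  · -- even quasi-concavity of the slice volumes
    refine vol_le_of_mix (s := (1 - s) / 2) (by linarith) (by linarith) hm1 hm2 ?_
    intro c hc c' hc'
    change _ ∈ K at hc hc'
    have h3 := hK hc (hsym _ hc') (by linarith : (0:ℝ) ≤ 1 - (1 - s) / 2)
      (by linarith : (0:ℝ) ≤ (1 - s) / 2) (by ring)
    have h4 : scl B s (jn (fun i => i ∈ B) b ((1 - (1 - s) / 2) • c - ((1 - s) / 2) • c')) =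
        (1 - (1 - s) / 2) • jn (fun i => i ∈ B) b c + ((1 - s) / 2) • -jn (fun i => i ∈ B) b c' := by
      funext i
      unfold scl jn
      simp only [Pi.add_apply, Pi.smul_apply, Pi.neg_apply, smul_eq_mul, Pi.sub_apply]
      by_cases hi : i ∈ B
      · simp only [hi, if_true, dif_pos]; ring
      · simp only [hi, if_false, dif_neg, not_false_eq_true]; ring
    change scl B s _ ∈ K ∩ _
    rw [h4]
    refine ⟨h3, fun i hi => ?_⟩
    rw [← h4]
    unfold scl jn
    rw [if_pos hi, dif_pos hi, abs_mul, abs_of_pos hs0, ← hsn]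
    exact mul_le_mul_of_nonneg_left (hbn ⟨i, hi⟩) hs0.le
  · -- empty slice
    push Not at hbn
    obtain ⟨⟨i, hi⟩, hlt⟩ := hbn
    have : {c | jn (fun i => i ∈ B) b c ∈ K} = ∅ := by
      rw [Set.eq_empty_iff_forall_notMem]
      intro c hc
      have := hb _ hc i hi
      unfold jn at this
      rw [dif_pos hi] at this
      linarith
    rw [this, measure_empty]
    exact bot_le

end abs

section ham

variable {U : Type*} [DecidableEq U] {F : Finset U} {E : Finset (U × U)} {ξ : U → ℝ}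

/-- Configurations with `|x_y - ξ_y| ≤ e` on `B`. -/
def near (F : Finset U) (B : Finset U) (ξ : U → ℝ) (e : ℝ) : Set (F → ℝ) :=
  {x | ∀ y : F, (y : U) ∈ B → |x y - ξ y| ≤ e}

omit [DecidableEq U] in
theorem isClosed_near (B : Finset U) (ξ : U → ℝ) (e : ℝ) : IsClosed (near F B ξ e) := by
  have : near F B ξ e = ⋂ y : F, ⋂ _ : (y : U) ∈ B, {x | |x y - ξ y| ≤ e} := by
    ext x; simp [near]
  rw [this]
  exact isClosed_iInter fun y => isClosed_iInter fun _ =>
    isClosed_le ((continuous_apply y).sub continuous_const).abs continuous_const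

theorem near_zero (B : Finset U) (e : ℝ) :
    near F B 0 e = {x | ∀ y ∈ Finset.univ.filter (fun y : F => (y : U) ∈ B), |x y| ≤ e} := by
  ext x; simp [near]

theorem card_filter_eq {B : Finset U} (hB : B ⊆ F) :
    (Finset.univ.filter (fun y : F => (y : U) ∈ B)).card = B.card := by
  have : B = (Finset.univ.filter (fun y : F => (y : U) ∈ B)).map (Function.Embedding.subtype _) := by
    ext y
    simp only [Finset.mem_map, Finset.mem_filter, Finset.mem_univ, true_and,
      Function.Embedding.subtype_apply, Subtype.exists, exists_and_left, exists_prop,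
      exists_eq_right_right]
    exact ⟨fun h => ⟨h, hB h⟩, fun h => h.1⟩
  conv_rhs => rw [this]
  rw [Finset.card_map]

/-- General pinning inside a symmetric convex set of configurations. -/
theorem pin_near {K : Set (F → ℝ)} (hK : Convex ℝ K) (hsym : ∀ x ∈ K, -x ∈ K)
    (hKm : MeasurableSet K) {B : Finset U} (hB : B ⊆ F) {n e : ℝ} (he : 0 < e) (hen : e ≤ n)
    (hb : ∀ x ∈ K, ∀ y : F, (y : U) ∈ B → |x y| ≤ n) :
    ENNReal.ofReal (e / n) ^ B.card * volume K ≤ volume (K ∩ near F B 0 e) := by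
  have h := pin_le hK hsym hKm (Finset.univ.filter (fun y : F => (y : U) ∈ B)) he hen
    (fun x hx y hy => hb x hx y (by simpa using hy))
  rwa [card_filter_eq hB, ← near_zero] at h

/-- LCb, data `0`. -/
theorem ham_pin {B : Finset U} (hB : B ⊆ F) {n e : ℝ} (he : 0 < e) (hen : e ≤ n)
    (hb : ∀ x ∈ ham F E 0, ∀ y : F, (y : U) ∈ B → |x y| ≤ n) :
    ENNReal.ofReal (e / n) ^ B.card * volume (ham F E 0) ≤
      volume (ham F E 0 ∩ near F B 0 e) :=
  pin_near convex_ham (fun x hx => by simpa using ham_neg hx) measurableSet_ham hB he hen hb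






/-- The neighbours of `B` outside `B`. -/
def bd (F : Finset U) (E : Finset (U × U)) (B : Finset U) : Finset U :=
  F.filter fun w => w ∉ B ∧ ∃ y ∈ B, w ∈ nbr E y





/-! ### probability forms -/






end ham

end Crest.Agent.R144.LcB460
end
end

-- ▼ part R144/FF_121
section

/-!
# R144 (helper121): the four functions theorem (Ahlswede-Daykin / Holley) on `ι → ℝ`

`FF E μ`: for measurable `f₁ f₂ f₃ f₄ : E → ℝ≥0∞` with
`f₁ x * f₂ y ≤ f₃ (x ⊓ y) * f₄ (x ⊔ y)` one has `∫ f₁ * ∫ f₂ ≤ ∫ f₃ * ∫ f₄`.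

* `FF_real`, `FF.prod`, `FF_pi`, `FF_fintype`;
* `vol_ff`: the version for sets.
-/

set_option autoImplicit false

open MeasureTheory Set
open scoped ENNReal

noncomputable section

namespace Crest.Agent.R144.FF121

/-- The four functions property. -/
def FF (E : Type*) [Lattice E] [MeasurableSpace E] (μ : Measure E) : Prop :=
  ∀ f₁ f₂ f₃ f₄ : E → ℝ≥0∞, Measurable f₁ → Measurable f₂ → Measurable f₃ → Measurable f₄ →
    (∀ x y, f₁ x * f₂ y ≤ f₃ (x ⊓ y) * f₄ (x ⊔ y)) →
    (∫⁻ x, f₁ x ∂μ) * (∫⁻ x, f₂ x ∂μ) ≤ (∫⁻ x, f₃ x ∂μ) * ∫⁻ x, f₄ x ∂μ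

/-- `a, b ≤ c` and `a b ≤ c d` imply `a + b ≤ c + d`. -/
lemma add_le_add_of_mul {a b c d : ℝ≥0∞} (ha : a ≤ c) (hb : b ≤ c) (hab : a * b ≤ c * d) :
    a + b ≤ c + d := by
  rcases eq_or_ne c ∞ with hc | hc
  · rw [hc]; simp
  rcases eq_or_ne c 0 with hc0 | hc0
  · rw [hc0, nonpos_iff_eq_zero] at ha hb
    simp [ha, hb]
  rcases eq_or_ne d ∞ with hd | hd
  · rw [hd]; simp
  have ha' : a ≠ ∞ := ne_top_of_le_ne_top hc ha
  have hb' : b ≠ ∞ := ne_top_of_le_ne_top hc hb
  lift a to NNReal using ha'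
  lift b to NNReal using hb'
  lift c to NNReal using hc
  lift d to NNReal using hd
  have ha1 : (a : ℝ) ≤ c := by exact_mod_cast ha
  have hb1 : (b : ℝ) ≤ c := by exact_mod_cast hb
  have hab1 : (a : ℝ) * b ≤ c * d := by
    have : a * b ≤ c * d := by exact_mod_cast hab
    exact_mod_cast this
  have hc1 : (0 : ℝ) < c := by
    have : c ≠ 0 := by exact_mod_cast hc0
    exact_mod_cast pos_iff_ne_zero.mpr this
  have key : (a : ℝ) + b ≤ c + d := by
    have h1 : 0 ≤ ((c : ℝ) - a) * (c - b) := mul_nonneg (by linarith) (by linarith)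
    have h2 : (c : ℝ) * (a + b) ≤ c * (c + d) := by nlinarith
    exact le_of_mul_le_mul_left h2 hc1
  exact_mod_cast key

theorem FF_real : FF ℝ volume := by
  intro f₁ f₂ f₃ f₄ h1 h2 h3 h4 H
  have hp : ∀ f g : ℝ → ℝ≥0∞, Measurable f → Measurable g →
      (∫⁻ x, f x) * (∫⁻ x, g x) = ∫⁻ z : ℝ × ℝ, f z.1 * g z.2 := by
    intro f g hf hg
    rw [Measure.volume_eq_prod, lintegral_prod_mul hf.aemeasurable hg.aemeasurable]
  have hsw : ∀ f g : ℝ → ℝ≥0∞, Measurable f → Measurable g →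
      ∫⁻ z : ℝ × ℝ, f z.1 * g z.2 = ∫⁻ z : ℝ × ℝ, f z.2 * g z.1 := by
    intro f g hf hg
    rw [← hp f g hf hg, mul_comm, hp g f hg hf]
    exact lintegral_congr fun z => mul_comm _ _
  have two : ∀ f g : ℝ → ℝ≥0∞, Measurable f → Measurable g →
      2 * ((∫⁻ x, f x) * (∫⁻ x, g x)) = ∫⁻ z : ℝ × ℝ, (f z.1 * g z.2 + f z.2 * g z.1) := by
    intro f g hf hg
    rw [lintegral_add_left (by fun_prop), ← hsw f g hf hg, ← hp f g hf hg, two_mul]
  have key : 2 * ((∫⁻ x, f₁ x) * (∫⁻ x, f₂ x)) ≤ 2 * ((∫⁻ x, f₃ x) * ∫⁻ x, f₄ x) := by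
    rw [two f₁ f₂ h1 h2, two f₃ f₄ h3 h4]
    refine lintegral_mono fun z => ?_
    have main : ∀ x y : ℝ, x ≤ y →
        f₁ x * f₂ y + f₁ y * f₂ x ≤ f₃ x * f₄ y + f₃ y * f₄ x := by
      intro x y hxy
      have e1 := H x y
      have e2 := H y x
      have e3 := H x x
      have e4 := H y y
      rw [inf_eq_left.mpr hxy, sup_eq_right.mpr hxy] at e1
      rw [inf_eq_right.mpr hxy, sup_eq_left.mpr hxy] at e2
      rw [inf_idem, sup_idem] at e3 e4
      refine add_le_add_of_mul e1 e2 ?_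
      calc f₁ x * f₂ y * (f₁ y * f₂ x) = (f₁ x * f₂ x) * (f₁ y * f₂ y) := by ring
        _ ≤ (f₃ x * f₄ x) * (f₃ y * f₄ y) := mul_le_mul' e3 e4
        _ = f₃ x * f₄ y * (f₃ y * f₄ x) := by ring
    rcases le_total z.1 z.2 with h | h
    · exact main _ _ h
    · have := main _ _ h
      rw [add_comm (f₁ z.2 * f₂ z.1), add_comm (f₃ z.2 * f₄ z.1)] at this
      exact this
  exact (ENNReal.mul_le_mul_iff_right (by norm_num) (by norm_num)).1 key

theorem FF.prod {E F : Type*} [Lattice E] [MeasurableSpace E] [Lattice F] [MeasurableSpace F]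
    {μ : Measure E} {ν : Measure F} [SFinite ν] [SFinite μ] (hE : FF E μ) (hF : FF F ν) :
    FF (E × F) (μ.prod ν) := by
  intro f₁ f₂ f₃ f₄ h1 h2 h3 h4 H
  rw [lintegral_prod _ h1.aemeasurable, lintegral_prod _ h2.aemeasurable,
    lintegral_prod _ h3.aemeasurable, lintegral_prod _ h4.aemeasurable]
  refine hE _ _ _ _ h1.lintegral_prod_right' h2.lintegral_prod_right' h3.lintegral_prod_right'
    h4.lintegral_prod_right' fun x x' => ?_
  exact hF _ _ _ _ (h1.comp measurable_prodMk_left) (h2.comp measurable_prodMk_left)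
    (h3.comp measurable_prodMk_left) (h4.comp measurable_prodMk_left)
    fun y y' => H (x, y) (x', y')

theorem FF.of_measurePreserving {E E' : Type*} [Lattice E] [MeasurableSpace E] [Lattice E']
    [MeasurableSpace E'] {μ : Measure E} {μ' : Measure E'} (e : E ≃ᵐ E')
    (he : MeasurePreserving e μ μ') (hinf : ∀ x y, e (x ⊓ y) = e x ⊓ e y)
    (hsup : ∀ x y, e (x ⊔ y) = e x ⊔ e y) (h : FF E μ) : FF E' μ' := by
  intro f₁ f₂ f₃ f₄ h1 h2 h3 h4 H
  rw [← he.lintegral_comp h1, ← he.lintegral_comp h2, ← he.lintegral_comp h3,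
    ← he.lintegral_comp h4]
  refine h _ _ _ _ (h1.comp e.measurable) (h2.comp e.measurable) (h3.comp e.measurable)
    (h4.comp e.measurable) fun x y => ?_
  rw [hinf, hsup]
  exact H (e x) (e y)

theorem FF_pi (n : ℕ) : FF (Fin n → ℝ) volume := by
  induction n with
  | zero =>
    intro f₁ f₂ f₃ f₄ _ _ _ _ H
    have hv : (volume : Measure (Fin 0 → ℝ)) = Measure.dirac default := by
      rw [volume_pi]; exact Measure.pi_of_empty _ _
    rw [hv]
    simp only [lintegral_dirac]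
    have := H default default
    rw [inf_idem, sup_idem] at this
    exact this
  | succ n ih =>
    have hmp := volume_preserving_piFinSuccAbove (fun _ : Fin (n + 1) => ℝ) 0
    refine FF.of_measurePreserving
      (MeasurableEquiv.piFinSuccAbove (fun _ : Fin (n + 1) => ℝ) 0).symm
      (hmp.symm _) ?_ ?_ (FF_real.prod ih)
    · intro x y
      ext i
      refine Fin.cases ?_ (fun j => ?_) i <;> simp [MeasurableEquiv.piFinSuccAbove]
    · intro x y
      ext i
      refine Fin.cases ?_ (fun j => ?_) i <;> simp [MeasurableEquiv.piFinSuccAbove]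

theorem FF_fintype {ι : Type*} [Fintype ι] : FF (ι → ℝ) volume := by
  classical
  refine FF.of_measurePreserving (E := Fin (Fintype.card ι) → ℝ)
    (MeasurableEquiv.piCongrLeft (fun _ : ι => ℝ) (Fintype.equivFin ι).symm)
    (volume_measurePreserving_piCongrLeft (fun _ : ι => ℝ) (Fintype.equivFin ι).symm) ?_ ?_
    (FF_pi _)
  · intro x y
    ext i
    obtain ⟨j, rfl⟩ := (Fintype.equivFin ι).symm.surjective i
    simp [MeasurableEquiv.coe_piCongrLeft, Equiv.piCongrLeft_apply_apply]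
  · intro x y
    ext i
    obtain ⟨j, rfl⟩ := (Fintype.equivFin ι).symm.surjective i
    simp [MeasurableEquiv.coe_piCongrLeft, Equiv.piCongrLeft_apply_apply]

/-- Four functions theorem for sets. -/
theorem vol_ff {ι : Type*} [Fintype ι] {A B C D : Set (ι → ℝ)} (hA : MeasurableSet A)
    (hB : MeasurableSet B) (hC : MeasurableSet C) (hD : MeasurableSet D)
    (H : ∀ x ∈ A, ∀ y ∈ B, x ⊓ y ∈ C ∧ x ⊔ y ∈ D) :
    volume A * volume B ≤ volume C * volume D := by
  have key := FF_fintype (ι := ι) (A.indicator 1) (B.indicator 1) (C.indicator 1) (D.indicator 1)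
    (measurable_one.indicator hA) (measurable_one.indicator hB) (measurable_one.indicator hC)
    (measurable_one.indicator hD) ?_
  · simpa [lintegral_indicator_one hA, lintegral_indicator_one hB, lintegral_indicator_one hC,
      lintegral_indicator_one hD] using key
  · intro x y
    by_cases hx : x ∈ A
    · by_cases hy : y ∈ B
      · obtain ⟨h1, h2⟩ := H x hx y hy
        simp [hx, hy, h1, h2]
      · simp [hy]
    · simp [hx]



end Crest.Agent.R144.FF121
end
end

-- ▼ part R144/LC1_121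
section

/-!
# R144 (helper121): local comparison, part 1: splitting the free vertices, volumes with data

* `join`, `measurePreserving_join`, `vol_split`: Fubini for `F = X ∪ Q`;
* `touch X E`: edges touching `X`; `away X E`: the others;
* `mem_ham_join`: `join z ∈ ham F E ξ ↔ z.1 ∈ ham Q (away X E) ξ ∧ z.2 ∈ ham X (touch X E) (ext Q ξ z.1)`.
-/

set_option autoImplicit false

open MeasureTheory Set
open scoped ENNReal

noncomputable section

namespace Crest.Agent.R144.LC121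

open Crest.Agent.R144.Ham560

variable {U : Type*} [DecidableEq U] {F X Q : Finset U} {E : Finset (U × U)} {ξ η : U → ℝ}

/-- Join the configuration `z.1` on `Q` and `z.2` on `X`. -/
def join (F X Q : Finset U) (z : (Q → ℝ) × (X → ℝ)) : F → ℝ :=
  fun f => ext Q (ext X 0 z.2) z.1 f

theorem ext_join (hF : F = X ∪ Q) (z : (Q → ℝ) × (X → ℝ)) (u : U) :
    ext F ξ (join F X Q z) u = ext X (ext Q ξ z.1) z.2 u ∨ u ∈ Q := by
  by_cases hu : u ∈ Q
  · exact Or.inr hu
  · left
    by_cases hX : u ∈ X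
    · have : u ∈ F := by rw [hF]; exact Finset.mem_union_left _ hX
      rw [ext_mem this, ext_mem hX]
      simp only [join]
      rw [ext_notMem hu, ext_mem hX]
    · have : u ∉ F := by rw [hF, Finset.mem_union]; tauto
      rw [ext_notMem this, ext_notMem hX, ext_notMem hu]

theorem ext_join_Q (hF : F = X ∪ Q) (z : (Q → ℝ) × (X → ℝ)) {u : U} (hu : u ∈ Q) :
    ext F ξ (join F X Q z) u = z.1 ⟨u, hu⟩ := by
  have : u ∈ F := by rw [hF]; exact Finset.mem_union_right _ hu
  rw [ext_mem this]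
  simp only [join]
  rw [ext_mem hu]

theorem ext_join_X (hF : F = X ∪ Q) (hd : Disjoint X Q) (z : (Q → ℝ) × (X → ℝ)) (u : U) :
    ext F ξ (join F X Q z) u = ext X (ext Q ξ z.1) z.2 u := by
  rcases ext_join (ξ := ξ) hF z u with h | h
  · exact h
  · have hX : u ∉ X := fun h' => (Finset.disjoint_left.mp hd h') h
    rw [ext_join_Q hF z h, ext_notMem hX, ext_mem h]

theorem measurable_join : Measurable (join F X Q) := by
  refine measurable_pi_lambda _ fun f => ?_
  change Measurable fun z : (Q → ℝ) × (X → ℝ) => Ham560.ext Q (Ham560.ext X 0 z.2) z.1 f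
  by_cases h : (f : U) ∈ Q
  · simp only [Ham560.ext, h, dif_pos]
    exact (measurable_pi_apply _).comp measurable_fst
  · by_cases hX : (f : U) ∈ X
    · simp only [Ham560.ext, h, hX, dif_pos, dif_neg, not_false_eq_true]
      exact (measurable_pi_apply _).comp measurable_snd
    · simp only [Ham560.ext, h, hX, dif_neg, not_false_eq_true]
      exact measurable_const

theorem measurePreserving_join (hF : F = X ∪ Q) (hd : Disjoint X Q) :
    MeasurePreserving (join F X Q) (volume.prod volume) volume := by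
  refine ⟨measurable_join, ?_⟩
  symm
  rw [volume_pi]
  refine Measure.pi_eq fun s hs => ?_
  rw [Measure.map_apply measurable_join (MeasurableSet.univ_pi hs)]
  have hQF : ∀ u ∈ Q, u ∈ F := fun u hu => by rw [hF]; exact Finset.mem_union_right _ hu
  have hXF : ∀ u ∈ X, u ∈ F := fun u hu => by rw [hF]; exact Finset.mem_union_left _ hu
  have hpre : join F X Q ⁻¹' (Set.univ.pi s) =
      (Set.univ.pi fun q : Q => s ⟨q, hQF q q.2⟩) ×ˢ
        (Set.univ.pi fun x : X => s ⟨x, hXF x x.2⟩) := by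
    ext z
    simp only [mem_preimage, mem_univ_pi, mem_prod]
    constructor
    · intro h
      refine ⟨fun q => ?_, fun x => ?_⟩
      · have := h ⟨q, hQF q q.2⟩
        simp only [join] at this
        rwa [ext_mem q.2] at this
      · have := h ⟨x, hXF x x.2⟩
        have hx : (x : U) ∉ Q := Finset.disjoint_left.mp hd x.2
        simp only [join] at this
        rwa [ext_notMem hx, ext_mem x.2] at this
    · rintro ⟨h1, h2⟩ f
      simp only [join]
      by_cases hq : (f : U) ∈ Q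
      · rw [ext_mem hq]; exact h1 ⟨f, hq⟩
      · have hx : (f : U) ∈ X := by
          have h3 : (f : U) ∈ X ∪ Q := hF ▸ f.2
          rw [Finset.mem_union] at h3
          tauto
        rw [ext_notMem hq, ext_mem hx]; exact h2 ⟨f, hx⟩
  rw [hpre, Measure.prod_prod, volume_pi_pi, volume_pi_pi]
  -- products
  set g : U → ℝ≥0∞ := fun u => if h : u ∈ F then volume (s ⟨u, h⟩) else 1 with hg
  have e1 : ∏ f : F, volume (s f) = ∏ u ∈ F, g u := by
    rw [← Finset.prod_coe_sort F g]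
    refine Finset.prod_congr rfl fun f _ => ?_
    simp [hg]
  have e2 : ∏ q : Q, volume (s ⟨q, hQF q q.2⟩) = ∏ u ∈ Q, g u := by
    rw [← Finset.prod_coe_sort Q g]
    refine Finset.prod_congr rfl fun f _ => ?_
    simp [hg, hQF f f.2]
  have e3 : ∏ x : X, volume (s ⟨x, hXF x x.2⟩) = ∏ u ∈ X, g u := by
    rw [← Finset.prod_coe_sort X g]
    refine Finset.prod_congr rfl fun f _ => ?_
    simp [hg, hXF f f.2]
  rw [e1, e2, e3, hF, Finset.prod_union hd, mul_comm]

/-- Fubini for `F = X ∪ Q`. -/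
theorem vol_split (hF : F = X ∪ Q) (hd : Disjoint X Q) {A : Set (F → ℝ)} (hA : MeasurableSet A) :
    volume A = ∫⁻ y : Q → ℝ, volume {x : X → ℝ | join F X Q (y, x) ∈ A} := by
  rw [← (measurePreserving_join hF hd).measure_preimage hA.nullMeasurableSet,
    Measure.prod_apply (measurable_join hA)]
  rfl

/-- Edges touching `X`. -/
def touch (X : Finset U) (E : Finset (U × U)) : Finset (U × U) :=
  E.filter fun p => p.1 ∈ X ∨ p.2 ∈ X

/-- Edges not touching `X`. -/
def away (X : Finset U) (E : Finset (U × U)) : Finset (U × U) :=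
  E.filter fun p => ¬ (p.1 ∈ X ∨ p.2 ∈ X)

theorem mem_touch {p : U × U} : p ∈ touch X E ↔ p ∈ E ∧ (p.1 ∈ X ∨ p.2 ∈ X) := by
  simp [touch]

theorem mem_away {p : U × U} : p ∈ away X E ↔ p ∈ E ∧ p.1 ∉ X ∧ p.2 ∉ X := by
  simp [away]

theorem mem_ham_join (hF : F = X ∪ Q) (hd : Disjoint X Q) (z : (Q → ℝ) × (X → ℝ)) :
    join F X Q z ∈ ham F E ξ ↔
      z.1 ∈ ham Q (away X E) ξ ∧ z.2 ∈ ham X (touch X E) (ext Q ξ z.1) := by
  have key : ∀ u, ext F ξ (join F X Q z) u = ext X (ext Q ξ z.1) z.2 u :=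
    ext_join_X hF hd z
  have key2 : ∀ u, u ∉ X → ext F ξ (join F X Q z) u = ext Q ξ z.1 u := by
    intro u hu
    rw [key, ext_notMem hu]
  constructor
  · intro h
    refine ⟨fun p hp => ?_, fun p hp => ?_⟩
    · obtain ⟨h1, h2, h3⟩ := mem_away.mp hp
      rw [← key2 _ h2, ← key2 _ h3]
      exact h p h1
    · obtain ⟨h1, -⟩ := mem_touch.mp hp
      rw [← key, ← key]
      exact h p h1
  · rintro ⟨h1, h2⟩ p hp
    by_cases h : p.1 ∈ X ∨ p.2 ∈ X
    · rw [key, key]
      exact h2 p (mem_touch.mpr ⟨hp, h⟩)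
    · push Not at h
      rw [key2 _ h.1, key2 _ h.2]
      exact h1 p (mem_away.mpr ⟨hp, h⟩)

/-- Fubini for the hammock polytope with an event depending on `Q` only. -/
theorem vol_ham_split (hF : F = X ∪ Q) (hd : Disjoint X Q) {A : Set (Q → ℝ)}
    (hA : MeasurableSet A) :
    volume (ham F E ξ ∩ {x | (fun q : Q => ext F ξ x q) ∈ A}) =
      ∫⁻ y in ham Q (away X E) ξ ∩ A, volume (ham X (touch X E) (ext Q ξ y)) := by
  have hm : MeasurableSet (ham F E ξ ∩ {x | (fun q : Q => ext F ξ x q) ∈ A}) := by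
    refine measurableSet_ham.inter ?_
    have : Measurable fun x : F → ℝ => (fun q : Q => ext F ξ x q) :=
      measurable_pi_lambda _ fun q => (continuous_ext (q : U)).measurable
    exact this hA
  rw [vol_split hF hd hm, ← lintegral_indicator (measurableSet_ham.inter hA)]
  refine lintegral_congr fun y => ?_
  have hq : ∀ x : X → ℝ, (fun q : Q => ext F ξ (join F X Q (y, x)) q) = y := by
    intro x
    funext q
    rw [ext_join_Q hF (y, x) q.2]
  by_cases hy : y ∈ ham Q (away X E) ξ ∩ A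
  · rw [indicator_of_mem hy]
    congr 1
    ext x
    simp only [mem_ofPred_eq, mem_inter_iff, mem_ham_join hF hd, hq]
    exact ⟨fun h => h.1.2, fun h => ⟨⟨hy.1, h⟩, hy.2⟩⟩
  · rw [indicator_of_notMem hy]
    have : {x : X → ℝ | join F X Q (y, x) ∈ ham F E ξ ∩ {x | (fun q : Q => ext F ξ x q) ∈ A}} =
        ∅ := by
      rw [Set.eq_empty_iff_forall_notMem]
      intro x hx
      simp only [mem_ofPred_eq, mem_inter_iff, mem_ham_join hF hd, hq] at hx
      exact hy ⟨hx.1.1, hx.2⟩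
    rw [this, measure_empty]

end Crest.Agent.R144.LC121
end
end

-- ▼ part R144/LC2_121
section

/-!
# R144 (helper121): local comparison, part 2: volumes as functions of the data

* `vol_ham_ff`: supermodularity in the data (four functions theorem);
* `vol_ham_le_zero`, `vol_ham_add_const`;
* `vol_layer`: the layer lemma;
* `vol_compare`: small data on `B` are almost optimal, whatever the other data with `|·| ≤ 1/2`.
-/

set_option autoImplicit false

open MeasureTheory Set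
open scoped ENNReal

noncomputable section

namespace Crest.Agent.R144.LC121

open Crest.Agent.R144.Ham560 Crest.Agent.R144.LcB460

variable {U : Type*} [DecidableEq U] {X B : Finset U} {E : Finset (U × U)} {η η' : U → ℝ}

theorem ham_congr (h : ∀ u, u ∉ X → η u = η' u) : ham X E η = ham X E η' := by
  have key : ∀ (x : X → ℝ) (u : U), Ham560.ext X η x u = Ham560.ext X η' x u := by
    intro x u
    by_cases hu : u ∈ X
    · rw [ext_mem hu, ext_mem hu]
    · rw [ext_notMem hu, ext_notMem hu, h u hu]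
  unfold ham
  simp only [key]

theorem abs_inf_sub_inf_le {a b c d : ℝ} (h1 : |a - b| ≤ 1) (h2 : |c - d| ≤ 1) :
    |a ⊓ c - b ⊓ d| ≤ 1 := by
  exact (abs_min_sub_min_le_max a c b d).trans (max_le h1 h2)

theorem abs_sup_sub_sup_le {a b c d : ℝ} (h1 : |a - b| ≤ 1) (h2 : |c - d| ≤ 1) :
    |a ⊔ c - b ⊔ d| ≤ 1 := by
  exact (abs_max_sub_max_le_max a c b d).trans (max_le h1 h2)

theorem ext_inf (x y : X → ℝ) (u : U) :
    Ham560.ext X (η ⊓ η') (x ⊓ y) u = Ham560.ext X η x u ⊓ Ham560.ext X η' y u := by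
  by_cases hu : u ∈ X
  · rw [ext_mem hu, ext_mem hu, ext_mem hu]; rfl
  · rw [ext_notMem hu, ext_notMem hu, ext_notMem hu]; rfl

theorem ext_sup (x y : X → ℝ) (u : U) :
    Ham560.ext X (η ⊔ η') (x ⊔ y) u = Ham560.ext X η x u ⊔ Ham560.ext X η' y u := by
  by_cases hu : u ∈ X
  · rw [ext_mem hu, ext_mem hu, ext_mem hu]; rfl
  · rw [ext_notMem hu, ext_notMem hu, ext_notMem hu]; rfl

theorem ham_inf {x y : X → ℝ} (hx : x ∈ ham X E η) (hy : y ∈ ham X E η') :
    x ⊓ y ∈ ham X E (η ⊓ η') := by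
  intro p hp
  rw [ext_inf, ext_inf]
  exact abs_inf_sub_inf_le (hx p hp) (hy p hp)

theorem ham_sup {x y : X → ℝ} (hx : x ∈ ham X E η) (hy : y ∈ ham X E η') :
    x ⊔ y ∈ ham X E (η ⊔ η') := by
  intro p hp
  rw [ext_sup, ext_sup]
  exact abs_sup_sub_sup_le (hx p hp) (hy p hp)

/-- Supermodularity of the volume in the data. -/
theorem vol_ham_ff : volume (ham X E η) * volume (ham X E η') ≤
    volume (ham X E (η ⊓ η')) * volume (ham X E (η ⊔ η')) :=
  FF121.vol_ff measurableSet_ham measurableSet_ham measurableSet_ham measurableSet_ham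
    fun _ hx _ hy => ⟨ham_inf hx hy, ham_sup hx hy⟩

/-- Zero data maximise the volume. -/
theorem vol_ham_le_zero : volume (ham X E η) ≤ volume (ham X E 0) := by
  refine vol_le_of_half measurableSet_ham measurableSet_ham fun x hx y hy => ?_
  have e0 : (1 / 2 : ℝ) • η + (1 / 2 : ℝ) • (-η) = 0 := by
    rw [smul_neg]; exact add_neg_cancel _
  have := ham_comb (a := 1 / 2) (b := 1 / 2) (by norm_num) (by norm_num) (by norm_num) hx
    (ham_neg hy)
  rw [e0, smul_neg, ← sub_eq_add_neg] at this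
  exact this

theorem vol_ham_add_const (k : ℝ) :
    volume (ham X E (fun u => η u + k)) = volume (ham X E η) := by
  have key : ∀ (x : X → ℝ) (u : U),
      Ham560.ext X (fun u => η u + k) (x + fun _ => k) u = Ham560.ext X η x u + k := by
    intro x u
    by_cases hu : u ∈ X
    · rw [ext_mem hu, ext_mem hu]; rfl
    · rw [ext_notMem hu, ext_notMem hu]
  have : ham X E η = (fun x => x + fun _ => k) ⁻¹' (ham X E (fun u => η u + k)) := by
    ext x
    simp only [ham, mem_preimage, mem_ofPred_eq, key]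
    refine forall₂_congr fun p _ => ?_
    rw [add_sub_add_right_eq_sub]
  rw [this, measure_preimage_add_right]

theorem vol_ham_const (k : ℝ) : volume (ham X E (fun _ => k)) = volume (ham X E 0) := by
  have := vol_ham_add_const (X := X) (E := E) (η := 0) k
  simpa using this

/-- The vertices of `X` next to `B`. -/
def lay (X : Finset U) (E : Finset (U × U)) (B : Finset U) : Finset U :=
  X.filter fun x => ∃ u ∈ B, u ∈ nbr E x

theorem lay_subset : lay X E B ⊆ X := Finset.filter_subset _ _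

/-- Layer lemma. -/
theorem vol_layer (hE : ∀ p ∈ E, p.1 ∈ X ∨ p.2 ∈ X) (hBX : Disjoint B X) {k r : ℝ}
    (hr0 : 0 ≤ r) (hr1 : r < 1) (h1 : ∀ u, u ∉ X → u ∉ B → η u = k)
    (h2 : ∀ u ∈ B, |η u - k| ≤ r) :
    ENNReal.ofReal (1 - r) ^ (lay X E B).card * volume (ham X E 0) ≤ volume (ham X E η) := by
  have hBX' : ∀ u ∈ B, u ∉ X := fun u hu => Finset.disjoint_left.mp hBX hu
  have hpin := pin_near (F := X) (K := ham X E 0) convex_ham
    (fun x hx => by simpa using ham_neg hx) measurableSet_ham (lay_subset (X := X) (E := E) (B := B))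
    (n := 1) (e := 1 - r) (by linarith) (by linarith) (fun x hx y hy => by
      obtain ⟨-, u, hu, hun⟩ := Finset.mem_filter.mp hy
      have h3 := ham_nbr hx hun
      rw [ext_mem y.2, ext_notMem (hBX' u hu)] at h3
      simpa using h3)
  rw [div_one] at hpin
  refine hpin.trans ?_
  have e1 : volume (ham X E η) = volume (ham X E (fun u => η u - k)) := by
    have := vol_ham_add_const (X := X) (E := E) (η := fun u => η u - k) k
    rw [← this]
    simp
  rw [e1]
  refine measure_mono ?_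
  rintro x ⟨hx, hn⟩ p hp
  -- value at a non-X vertex
  have hval : ∀ u v : U, u ∈ X → v ∉ X → v ∈ nbr E u →
      |Ham560.ext X 0 x u - Ham560.ext X 0 x v| ≤ 1 →
      |Ham560.ext X (fun u => η u - k) x u - Ham560.ext X (fun u => η u - k) x v| ≤ 1 := by
    intro u v hu hv hnb h0
    rw [ext_mem hu, ext_notMem hv] at h0 ⊢
    by_cases hvB : v ∈ B
    · have h3 := hn ⟨u, hu⟩ (Finset.mem_filter.mpr ⟨hu, v, hvB, hnb⟩)
      simp only [Pi.zero_apply, sub_zero] at h3
      have h4 := abs_le.mp (h2 v hvB)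
      have h5 := abs_le.mp h3
      rw [abs_le]; constructor <;> linarith
    · rw [h1 v hv hvB, sub_self]
      simpa using h0
  have h0 := hx p hp
  by_cases hp1 : p.1 ∈ X
  · by_cases hp2 : p.2 ∈ X
    · rw [ext_mem hp1, ext_mem hp2] at h0 ⊢
      exact h0
    · have hne : p.2 ≠ p.1 := fun h => hp2 (h ▸ hp1)
      exact hval _ _ hp1 hp2 (mem_nbr.mpr ⟨hne, Or.inl hp⟩) h0
  · have hp2 : p.2 ∈ X := (hE p hp).resolve_left hp1
    have hne : p.1 ≠ p.2 := fun h => hp1 (h ▸ hp2)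
    rw [abs_sub_comm] at h0 ⊢
    exact hval _ _ hp2 hp1 (mem_nbr.mpr ⟨hne, Or.inr hp⟩) h0

/-- Cancellation. -/
theorem cancel_aux {a b c z : ℝ≥0∞} (hz0 : z ≠ 0) (hz : z ≠ ∞) (h : a * (c * z) ≤ b * z) :
    c * a ≤ b := by
  have h1 : c * a * z ≤ b * z := by
    calc c * a * z = a * (c * z) := by ring
      _ ≤ b * z := h
  exact (ENNReal.mul_le_mul_iff_left hz0 hz).1 h1

theorem vol_compare_aux (hA : Anch X E) (hE : ∀ p ∈ E, p.1 ∈ X ∨ p.2 ∈ X) (hBX : Disjoint B X)
    (h1 : ∀ u ∈ B, |η' u| ≤ 1 / 8) (h2 : ∀ u, |η' u| ≤ 1 / 2) (h2' : ∀ u, |η u| ≤ 1 / 2)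
    (h3 : ∀ u, u ∉ B → η u = η' u) :
    ENNReal.ofReal (3 / 8) ^ (lay X E B).card *
      (ENNReal.ofReal (3 / 8) ^ (lay X E B).card * volume (ham X E η)) ≤
      volume (ham X E η') := by
  set c : ℝ≥0∞ := ENNReal.ofReal (3 / 8) ^ (lay X E B).card with hc
  have hfin : ∀ ζ : U → ℝ, volume (ham X E ζ) ≠ ∞ := fun ζ => (volume_ham_lt_top hA).ne
  have h38 : ENNReal.ofReal (1 - 5 / 8) = ENNReal.ofReal (3 / 8) := by norm_num
  -- upper auxiliary data
  set βA : U → ℝ := fun u => if u ∈ B then η u else 1 / 2 with hβA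
  set zA : U → ℝ := fun u => if u ∈ B then η u ⊓ η' u else 1 / 2 with hzA
  set v : U → ℝ := fun u => if u ∈ B then (if η' u < η u then η u else 1 / 2) else 1 / 2 with hv
  set w : U → ℝ := fun u => if u ∈ B then (if η' u < η u then η' u else 1 / 2) else 1 / 2 with hw
  have b1 : ∀ u, η u ≤ 1 / 2 := fun u => (abs_le.mp (h2' u)).2
  have b2 : ∀ u, -(1 / 2) ≤ η u := fun u => (abs_le.mp (h2' u)).1
  have b3 : ∀ u, η' u ≤ 1 / 2 := fun u => (abs_le.mp (h2 u)).2
  have b4 : ∀ u, -(1 / 2) ≤ η' u := fun u => (abs_le.mp (h2 u)).1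
  have e1 : η ⊓ zA = η ⊓ η' := by
    funext u
    simp only [Pi.inf_apply, hzA]
    by_cases hu : u ∈ B
    · rw [if_pos hu, ← inf_assoc, inf_idem]
    · rw [if_neg hu, inf_eq_left.mpr (b1 u), ← h3 u hu, inf_idem]
  have e2 : η ⊔ zA = βA := by
    funext u
    simp only [Pi.sup_apply, hzA, hβA]
    by_cases hu : u ∈ B
    · rw [if_pos hu, if_pos hu, sup_inf_self]
    · rw [if_neg hu, if_neg hu, sup_eq_right.mpr (b1 u)]
  have e3 : βA ⊓ w = zA := by
    funext u
    simp only [Pi.inf_apply, hzA, hβA, hw]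
    by_cases hu : u ∈ B
    · rw [if_pos hu, if_pos hu, if_pos hu]
      by_cases hlt : η' u < η u
      · rw [if_pos hlt]
      · rw [if_neg hlt, inf_eq_left.mpr (b1 u), inf_eq_left.mpr (not_lt.mp hlt)]
    · rw [if_neg hu, if_neg hu, if_neg hu, inf_idem]
  have e4 : βA ⊔ w = v := by
    funext u
    simp only [Pi.sup_apply, hv, hβA, hw]
    by_cases hu : u ∈ B
    · rw [if_pos hu, if_pos hu, if_pos hu]
      by_cases hlt : η' u < η u
      · rw [if_pos hlt, if_pos hlt, sup_eq_left.mpr hlt.le]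
      · rw [if_neg hlt, if_neg hlt, sup_eq_right.mpr (b1 u)]
    · rw [if_neg hu, if_neg hu, if_neg hu, sup_idem]
  have i1 : volume (ham X E η) * volume (ham X E zA) ≤
      volume (ham X E (η ⊓ η')) * volume (ham X E βA) := by
    have := vol_ham_ff (X := X) (E := E) (η := η) (η' := zA)
    rwa [e1, e2] at this
  have i2 : volume (ham X E βA) * volume (ham X E w) ≤
      volume (ham X E zA) * volume (ham X E v) := by
    have := vol_ham_ff (X := X) (E := E) (η := βA) (η' := w)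
    rwa [e3, e4] at this
  have i3 : c * volume (ham X E 0) ≤ volume (ham X E w) := by
    have := vol_layer (X := X) (B := B) (E := E) (η := w) (k := 1 / 2) (r := 5 / 8) hE hBX
      (by norm_num) (by norm_num) (fun u _ hu => by simp only [hw, if_neg hu]) (fun u hu => by
        simp only [hw, if_pos hu]
        have h4 := abs_le.mp (h1 u hu)
        by_cases hlt : η' u < η u
        · rw [if_pos hlt, abs_le]; constructor <;> linarith
        · rw [if_neg hlt, sub_self, abs_zero]; norm_num)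
    rwa [h38] at this
  have hZ0 : volume (ham X E 0) ≠ 0 := volume_ham_ne_zero fun u => by simp
  have hβA0 : volume (ham X E βA) ≠ 0 := volume_ham_ne_zero fun u => by
    simp only [hβA]
    by_cases hu : u ∈ B
    · rw [if_pos hu]; exact h2' u
    · rw [if_neg hu]; norm_num
  have i4 : c * volume (ham X E βA) ≤ volume (ham X E zA) := by
    refine cancel_aux hZ0 (hfin 0) ?_
    calc volume (ham X E βA) * (c * volume (ham X E 0))
        ≤ volume (ham X E βA) * volume (ham X E w) := by gcongr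
      _ ≤ volume (ham X E zA) * volume (ham X E v) := i2
      _ ≤ volume (ham X E zA) * volume (ham X E 0) := mul_le_mul' le_rfl vol_ham_le_zero
  have i5 : c * volume (ham X E η) ≤ volume (ham X E (η ⊓ η')) := by
    refine cancel_aux hβA0 (hfin βA) ?_
    calc volume (ham X E η) * (c * volume (ham X E βA))
        ≤ volume (ham X E η) * volume (ham X E zA) := by gcongr
      _ ≤ _ := i1
  -- lower auxiliary data
  set bm : U → ℝ := fun u => if u ∈ B then η' u else -(1 / 2) with hbm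
  set zm : U → ℝ := fun u => if u ∈ B then η u ⊓ η' u else -(1 / 2) with hzm
  set w' : U → ℝ := fun u => if u ∈ B then (if η' u < η u then -(1 / 2) else η' u) else -(1 / 2)
    with hw'
  set v' : U → ℝ := fun u => if u ∈ B then (if η' u < η u then -(1 / 2) else η u) else -(1 / 2)
    with hv'
  have f1 : bm ⊓ (η ⊓ η') = zm := by
    funext u
    simp only [Pi.inf_apply, hzm, hbm]
    by_cases hu : u ∈ B
    · rw [if_pos hu, if_pos hu, inf_comm (η u), ← inf_assoc, inf_idem]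
    · rw [if_neg hu, if_neg hu, ← h3 u hu, inf_idem, inf_eq_left.mpr (b2 u)]
  have f2 : bm ⊔ (η ⊓ η') = η' := by
    funext u
    simp only [Pi.sup_apply, Pi.inf_apply, hbm]
    by_cases hu : u ∈ B
    · rw [if_pos hu, inf_comm, sup_inf_self]
    · rw [if_neg hu, ← h3 u hu, inf_idem, sup_eq_right.mpr (b2 u)]
  have f3 : w' ⊓ zm = v' := by
    funext u
    simp only [Pi.inf_apply, hzm, hw', hv']
    by_cases hu : u ∈ B
    · rw [if_pos hu, if_pos hu, if_pos hu]
      by_cases hlt : η' u < η u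
      · rw [if_pos hlt, if_pos hlt, inf_eq_right.mpr hlt.le, inf_eq_left.mpr (b4 u)]
      · rw [if_neg hlt, if_neg hlt, inf_eq_left.mpr (not_lt.mp hlt),
          inf_eq_right.mpr (not_lt.mp hlt)]
    · rw [if_neg hu, if_neg hu, if_neg hu, inf_idem]
  have f4 : w' ⊔ zm = bm := by
    funext u
    simp only [Pi.sup_apply, hzm, hw', hbm]
    by_cases hu : u ∈ B
    · rw [if_pos hu, if_pos hu, if_pos hu]
      by_cases hlt : η' u < η u
      · rw [if_pos hlt, inf_eq_right.mpr hlt.le, sup_eq_right.mpr (b4 u)]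
      · rw [if_neg hlt, inf_eq_left.mpr (not_lt.mp hlt), sup_eq_left.mpr (not_lt.mp hlt)]
    · rw [if_neg hu, if_neg hu, if_neg hu, sup_idem]
  have j1 : volume (ham X E bm) * volume (ham X E (η ⊓ η')) ≤
      volume (ham X E zm) * volume (ham X E η') := by
    have := vol_ham_ff (X := X) (E := E) (η := bm) (η' := η ⊓ η')
    rwa [f1, f2] at this
  have j2 : volume (ham X E w') * volume (ham X E zm) ≤
      volume (ham X E v') * volume (ham X E bm) := by
    have := vol_ham_ff (X := X) (E := E) (η := w') (η' := zm)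
    rwa [f3, f4] at this
  have j3 : c * volume (ham X E 0) ≤ volume (ham X E w') := by
    have := vol_layer (X := X) (B := B) (E := E) (η := w') (k := -(1 / 2)) (r := 5 / 8) hE hBX
      (by norm_num) (by norm_num) (fun u _ hu => by simp only [hw', if_neg hu]) (fun u hu => by
        simp only [hw', if_pos hu]
        have h4 := abs_le.mp (h1 u hu)
        by_cases hlt : η' u < η u
        · rw [if_pos hlt, sub_self, abs_zero]; norm_num
        · rw [if_neg hlt, abs_le]; constructor <;> linarith)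
    rwa [h38] at this
  have hzm0 : volume (ham X E zm) ≠ 0 := volume_ham_ne_zero fun u => by
    simp only [hzm]
    by_cases hu : u ∈ B
    · rw [if_pos hu, abs_le]
      exact ⟨le_inf (b2 u) (b4 u), inf_le_left.trans (b1 u)⟩
    · rw [if_neg hu, abs_neg]; norm_num
  have j4 : c * volume (ham X E zm) ≤ volume (ham X E bm) := by
    refine cancel_aux hZ0 (hfin 0) ?_
    calc volume (ham X E zm) * (c * volume (ham X E 0))
        ≤ volume (ham X E zm) * volume (ham X E w') := by gcongr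
      _ = volume (ham X E w') * volume (ham X E zm) := mul_comm _ _
      _ ≤ volume (ham X E v') * volume (ham X E bm) := j2
      _ ≤ volume (ham X E 0) * volume (ham X E bm) := mul_le_mul' vol_ham_le_zero le_rfl
      _ = _ := mul_comm _ _
  have j5 : c * volume (ham X E (η ⊓ η')) ≤ volume (ham X E η') := by
    refine cancel_aux hzm0 (hfin zm) ?_
    calc volume (ham X E (η ⊓ η')) * (c * volume (ham X E zm))
        ≤ volume (ham X E (η ⊓ η')) * volume (ham X E bm) := by gcongr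
      _ = volume (ham X E bm) * volume (ham X E (η ⊓ η')) := mul_comm _ _
      _ ≤ volume (ham X E zm) * volume (ham X E η') := j1
      _ = _ := mul_comm _ _
  calc c * (c * volume (ham X E η)) ≤ c * volume (ham X E (η ⊓ η')) := by gcongr
    _ ≤ _ := j5

/-- Truncation of the data. -/
theorem vol_trunc (hA : Anch X E) :
    volume (ham X E η) ≤ volume (ham X E (fun u => max (-(1 / 2)) (min (1 / 2) (η u)))) := by
  have hfin : ∀ ζ : U → ℝ, volume (ham X E ζ) ≠ ∞ := fun ζ => (volume_ham_lt_top hA).ne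
  have hZ0 : volume (ham X E 0) ≠ 0 := volume_ham_ne_zero fun u => by simp
  have s1 : volume (ham X E η) ≤ volume (ham X E (η ⊓ fun _ => 1 / 2)) := by
    have h := vol_ham_ff (X := X) (E := E) (η := η) (η' := fun _ => 1 / 2)
    rw [vol_ham_const] at h
    have h2 : volume (ham X E η) * volume (ham X E 0) ≤
        volume (ham X E (η ⊓ fun _ => 1 / 2)) * volume (ham X E 0) :=
      h.trans (mul_le_mul' le_rfl vol_ham_le_zero)
    exact (ENNReal.mul_le_mul_iff_left hZ0 (hfin 0)).1 h2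
  have s2 : volume (ham X E (η ⊓ fun _ => 1 / 2)) ≤
      volume (ham X E ((η ⊓ fun _ => 1 / 2) ⊔ fun _ => -(1 / 2))) := by
    have h := vol_ham_ff (X := X) (E := E) (η := η ⊓ fun _ => 1 / 2) (η' := fun _ => -(1 / 2))
    rw [vol_ham_const] at h
    have h2 : volume (ham X E (η ⊓ fun _ => 1 / 2)) * volume (ham X E 0) ≤
        volume (ham X E ((η ⊓ fun _ => 1 / 2) ⊔ fun _ => -(1 / 2))) * volume (ham X E 0) := by
      refine h.trans ?_
      rw [mul_comm]
      exact mul_le_mul' le_rfl vol_ham_le_zero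
    exact (ENNReal.mul_le_mul_iff_left hZ0 (hfin 0)).1 h2
  refine (s1.trans s2).trans (le_of_eq ?_)
  congr 2
  funext u
  simp only [Pi.sup_apply, Pi.inf_apply]
  rw [sup_comm, inf_comm]

/-- Comparison of data: `η'` small on `B`, bounded by `1/2` elsewhere, `η` arbitrary on `B`. -/
theorem vol_compare (hA : Anch X E) (hE : ∀ p ∈ E, p.1 ∈ X ∨ p.2 ∈ X) (hBX : Disjoint B X)
    (h1 : ∀ u ∈ B, |η' u| ≤ 1 / 8) (h2 : ∀ u, u ∉ X → |η' u| ≤ 1 / 2)
    (h3 : ∀ u, u ∉ X → u ∉ B → η u = η' u) :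
    ENNReal.ofReal (3 / 8) ^ (2 * (lay X E B).card) * volume (ham X E η) ≤
      volume (ham X E η') := by
  -- replace the data on `X` by `0`
  set ζ : U → ℝ := fun u => if u ∈ X then 0 else η u with hζ
  set ζ' : U → ℝ := fun u => if u ∈ X then 0 else η' u with hζ'
  have e1 : ham X E η = ham X E ζ := ham_congr fun u hu => by simp [hζ, hu]
  have e2 : ham X E η' = ham X E ζ' := ham_congr fun u hu => by simp [hζ', hu]
  have hb : ∀ u, |ζ' u| ≤ 1 / 2 := by
    intro u
    simp only [hζ']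
    by_cases hu : u ∈ X
    · rw [if_pos hu, abs_zero]; norm_num
    · rw [if_neg hu]; exact h2 u hu
  rw [e1, e2, two_mul, pow_add, mul_assoc]
  set τ : U → ℝ := fun u => max (-(1 / 2)) (min (1 / 2) (ζ u)) with hτ
  have key := vol_compare_aux (X := X) (B := B) (E := E) (η := τ) (η' := ζ') hA hE hBX ?_ hb ?_ ?_
  · refine le_trans ?_ key
    exact mul_le_mul' le_rfl (mul_le_mul' le_rfl (vol_trunc hA))
  · intro u hu
    have hX : u ∉ X := Finset.disjoint_left.mp hBX hu
    simp only [hζ', if_neg hX]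
    exact h1 u hu
  · intro u
    simp only [hτ]
    rw [abs_le]
    exact ⟨le_max_left _ _, max_le (by norm_num) (min_le_left _ _)⟩
  · intro u hu
    have e3 : ζ u = ζ' u := by
      simp only [hζ, hζ']
      by_cases hX : u ∈ X
      · rw [if_pos hX, if_pos hX]
      · rw [if_neg hX, if_neg hX, h3 u hX hu]
    have h4 := abs_le.mp (hb u)
    simp only [hτ]
    rw [e3, min_eq_right h4.2, max_eq_right h4.1]

end Crest.Agent.R144.LC121
end
end

-- ▼ part R144/LC3_121
section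

/-!
# R144 (helper121): local comparison, part 3

* `Anch.touch`, `vol_forest`;
* `ham_congr_edge`;
* `upper_split`, `lower_split`: conditioning on `Q`;
* `LC_bdry`: comparison of the law on `F` with the law on `Q` with free outer side.
-/

set_option autoImplicit false

open MeasureTheory Set
open scoped ENNReal

noncomputable section

namespace Crest.Agent.R144.LC121

open Crest.Agent.R144.Ham560 Crest.Agent.R144.LcB460

variable {U : Type*} [DecidableEq U] {F X Q Q0 B : Finset U} {E : Finset (U × U)}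
  {ξ η η' : U → ℝ}

theorem nbr_touch {v w : U} (hv : v ∈ X) : w ∈ nbr (touch X E) v ↔ w ∈ nbr E v := by
  rw [mem_nbr, mem_nbr, mem_touch, mem_touch]
  constructor
  · rintro ⟨h1, h2 | h2⟩
    · exact ⟨h1, Or.inl h2.1⟩
    · exact ⟨h1, Or.inr h2.1⟩
  · rintro ⟨h1, h2 | h2⟩
    · exact ⟨h1, Or.inl ⟨h2, Or.inl hv⟩⟩
    · exact ⟨h1, Or.inr ⟨h2, Or.inr hv⟩⟩

/-- Sub-regions of an anchored region are anchored. -/
theorem Anch.touch (hA : Anch F E) (hX : X ⊆ F) : Anch X (touch X E) := by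
  intro v hv
  obtain ⟨u, hu, hp⟩ := hA v (hX hv)
  have huX : u ∉ X := fun h => hu (hX h)
  clear hu
  induction hp using Relation.ReflTransGen.head_induction_on with
  | refl => exact absurd hv huX
  | @head a b hab _ ih =>
    by_cases hb : b ∈ X
    · obtain ⟨w, hw, hp⟩ := ih hb
      exact ⟨w, hw, Relation.ReflTransGen.head ((nbr_touch hv).2 hab) hp⟩
    · exact ⟨b, hb, Relation.ReflTransGen.single ((nbr_touch hv).2 hab)⟩

/-- Data matter only at the endpoints of the edges. -/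
theorem ham_congr_edge (h : ∀ p ∈ E, (p.1 ∉ X → η p.1 = η' p.1) ∧ (p.2 ∉ X → η p.2 = η' p.2)) :
    ham X E η = ham X E η' := by
  ext x
  unfold ham
  simp only [mem_ofPred_eq]
  refine forall₂_congr fun p hp => ?_
  have key : ∀ u, (u ∉ X → η u = η' u) → Ham560.ext X η x u = Ham560.ext X η' x u := by
    intro u hu
    by_cases h : u ∈ X
    · rw [ext_mem h, ext_mem h]
    · rw [ext_notMem h, ext_notMem h, hu h]
  rw [key _ (h p hp).1, key _ (h p hp).2]

/-- A forest of free vertices: volume at most `2 ^ |B|`. -/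
theorem vol_forest : ∀ (n : ℕ) (B : Finset U) (E : Finset (U × U)) (ξ : U → ℝ), B.card = n →
    Anch B E → volume (ham B E ξ) ≤ 2 ^ n := by
  intro n
  induction n with
  | zero =>
    intro B E ξ hB _
    have hB' : B = ∅ := Finset.card_eq_zero.mp hB
    subst hB'
    have : IsEmpty (↥(∅ : Finset U)) := ⟨fun x => absurd x.2 (Finset.notMem_empty _)⟩
    have hv : volume (Set.univ : Set (↥(∅ : Finset U) → ℝ)) = 1 := by
      rw [volume_pi, Measure.pi_of_empty _ isEmptyElim]
      simp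
    rw [pow_zero, ← hv]
    exact measure_mono (subset_univ _)
  | succ n ih =>
    intro B E ξ hB hA
    -- a vertex of `B` with a neighbour outside `B`
    have hne : B.Nonempty := by
      rw [← Finset.card_pos, hB]; omega
    obtain ⟨w, hw⟩ := hne
    obtain ⟨u, hu, hp⟩ := hA w hw
    obtain ⟨v, hv, u', hu', hvu⟩ : ∃ v ∈ B, ∃ u', u' ∉ B ∧ u' ∈ nbr E v := by
      clear ih hB
      induction hp using Relation.ReflTransGen.head_induction_on with
      | refl => exact absurd hw hu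
      | @head a b hab _ ih =>
        by_cases hb : b ∈ B
        · exact ih hb
        · exact ⟨a, hw, b, hb, hab⟩
    set Y : Finset U := B.erase v with hY
    have hYB : B = Y ∪ {v} := by
      rw [hY]
      ext a
      simp only [Finset.mem_union, Finset.mem_erase, Finset.mem_singleton]
      constructor
      · intro h
        by_cases hav : a = v
        · exact Or.inr hav
        · exact Or.inl ⟨hav, h⟩
      · rintro (h | h)
        · exact h.2
        · exact h ▸ hv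
    have hd : Disjoint Y {v} := by
      rw [Finset.disjoint_singleton_right, hY]
      exact Finset.notMem_erase v B
    have hYc : Y.card = n := by rw [hY, Finset.card_erase_of_mem hv, hB]; rfl
    have hYA : Anch Y (LC121.touch Y E) := Anch.touch hA (Finset.erase_subset _ _)
    have hsp := vol_ham_split (F := B) (X := Y) (Q := {v}) (E := E) (ξ := 0) hYB hd
      (A := Set.univ) MeasurableSet.univ
    simp only [mem_univ, inter_univ, ofPred_true] at hsp
    refine vol_ham_le_zero.trans ?_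
    rw [hsp]
    have h1 : ∀ y : ({v} : Finset U) → ℝ, volume (ham Y (LC121.touch Y E)
        (Ham560.ext {v} 0 y)) ≤ 2 ^ n := fun y => ih Y _ _ hYc hYA
    have h2 : volume (ham {v} (away Y E) (0 : U → ℝ)) ≤ 2 := by
      have hsub : ham {v} (away Y E) (0 : U → ℝ) ⊆
          Set.univ.pi fun _ : ({v} : Finset U) => Set.Icc (-1 : ℝ) 1 := by
        intro y hy a _
        have hav : (a : U) = v := Finset.mem_singleton.mp a.2
        have hvY : v ∉ Y := Finset.notMem_erase v B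
        have huY : u' ∉ Y := fun h => hu' (Finset.mem_of_mem_erase h)
        have hnb : u' ∈ nbr (away Y E) v := by
          rw [mem_nbr] at hvu ⊢
          refine ⟨hvu.1, ?_⟩
          rcases hvu.2 with h | h
          · exact Or.inl (mem_away.mpr ⟨h, hvY, huY⟩)
          · exact Or.inr (mem_away.mpr ⟨h, huY, hvY⟩)
        have h3 := ham_nbr hy hnb
        have huv : u' ∉ ({v} : Finset U) := by
          rw [Finset.mem_singleton]; rintro rfl; exact hu' hv
        rw [ext_mem (Finset.mem_singleton_self v), ext_notMem huv] at h3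
        have ha : a = ⟨v, Finset.mem_singleton_self v⟩ := Subtype.ext hav
        rw [ha]
        simpa [abs_le] using h3
      refine (measure_mono hsub).trans ?_
      rw [volume_pi_pi]
      simp only [Real.volume_Icc]
      rw [Finset.prod_const]
      simp
      norm_num
    calc ∫⁻ y in ham {v} (away Y E) 0, volume (ham Y (LC121.touch Y E)
          (Ham560.ext {v} 0 y)) ≤ ∫⁻ _ in ham {v} (away Y E) (0 : U → ℝ), (2 : ℝ≥0∞) ^ n :=
          lintegral_mono fun y => h1 y
      _ = 2 ^ n * volume (ham {v} (away Y E) (0 : U → ℝ)) := by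
          rw [setLIntegral_const]
      _ ≤ 2 ^ n * 2 := mul_le_mul' le_rfl h2
      _ = 2 ^ (n + 1) := by rw [pow_succ]

/-- A region `F = X ∪ Q0 ∪ B` in which `B` separates `X` from `Q0`. -/
structure Sep (F X Q0 B : Finset U) (E : Finset (U × U)) : Prop where
  hF : F = X ∪ (Q0 ∪ B)
  dX : Disjoint X (Q0 ∪ B)
  dQ : Disjoint Q0 B
  sep : ∀ p ∈ E, ¬ (p.1 ∈ X ∧ p.2 ∈ Q0) ∧ ¬ (p.1 ∈ Q0 ∧ p.2 ∈ X)

/-- Reference data: `0` on the free vertices. -/
def base (F : Finset U) (ξ : U → ℝ) (u : U) : ℝ := if u ∈ F then 0 else ξ u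

theorem abs_base_le (hξ : ∀ u, u ∉ F → |ξ u| ≤ 1 / 2) (u : U) : |base F ξ u| ≤ 1 / 2 := by
  unfold base
  split_ifs with h
  · norm_num
  · exact hξ u h

/-- The constant of the outer side. -/
def cX (X : Finset U) (E : Finset (U × U)) (B : Finset U) : ℝ≥0∞ :=
  ENNReal.ofReal (3 / 8) ^ (2 * (lay X (touch X E) B).card)

/-- The restriction of a configuration to `Q`. -/
def res (Q : Finset U) (F : Finset U) (ξ : U → ℝ) (x : F → ℝ) : Q → ℝ :=
  fun q => Ham560.ext F ξ x q

theorem ham_dat (h : Sep F X Q0 B E) (y : (Q0 ∪ B : Finset U) → ℝ) :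
    ham X (touch X E) (Ham560.ext (Q0 ∪ B) ξ y) =
      ham X (touch X E) (fun u => if u ∈ B then Ham560.ext (Q0 ∪ B) ξ y u else base F ξ u) := by
  refine ham_congr_edge fun p hp => ?_
  obtain ⟨hpE, hpX⟩ := mem_touch.mp hp
  have main : ∀ u, u ∉ X → u ∉ Q0 → Ham560.ext (Q0 ∪ B) ξ y u =
      if u ∈ B then Ham560.ext (Q0 ∪ B) ξ y u else base F ξ u := by
    intro u hX hQ
    by_cases hB : u ∈ B
    · rw [if_pos hB]
    · have h1 : u ∉ Q0 ∪ B := by rw [Finset.mem_union]; tauto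
      have h2 : u ∉ F := by rw [h.hF, Finset.mem_union]; tauto
      rw [if_neg hB, ext_notMem h1, base, if_neg h2]
  obtain ⟨s1, s2⟩ := h.sep p hpE
  constructor
  · intro h1
    exact main _ h1 fun hQ => s2 ⟨hQ, hpX.resolve_left h1⟩
  · intro h2
    exact main _ h2 fun hQ => s1 ⟨hpX.resolve_right h2, hQ⟩

theorem outer_le (h : Sep F X Q0 B E) (hA : Anch F E) (hξ : ∀ u, u ∉ F → |ξ u| ≤ 1 / 2)
    (y : (Q0 ∪ B : Finset U) → ℝ) :
    cX X E B * volume (ham X (touch X E) (Ham560.ext (Q0 ∪ B) ξ y)) ≤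
      volume (ham X (touch X E) (base F ξ)) := by
  rw [ham_dat h]
  have hXF : X ⊆ F := by rw [h.hF]; exact Finset.subset_union_left
  have hBF : ∀ u ∈ B, u ∈ F := fun u hu => by
    rw [h.hF]; exact Finset.mem_union_right _ (Finset.mem_union_right _ hu)
  refine vol_compare (B := B) (Anch.touch hA hXF) (fun p hp => (mem_touch.mp hp).2) ?_ ?_ ?_ ?_
  · exact (Finset.disjoint_of_subset_right Finset.subset_union_right h.dX).symm
  · intro u hu
    rw [base, if_pos (hBF u hu), abs_zero]; norm_num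
  · exact fun u _ => abs_base_le hξ u
  · intro u _ hu
    exact if_neg hu

theorem le_outer (h : Sep F X Q0 B E) (hA : Anch F E) (hξ : ∀ u, u ∉ F → |ξ u| ≤ 1 / 2)
    (y : (Q0 ∪ B : Finset U) → ℝ) (hy : ∀ u ∈ B, |Ham560.ext (Q0 ∪ B) ξ y u| ≤ 1 / 8) :
    cX X E B * volume (ham X (touch X E) (base F ξ)) ≤
      volume (ham X (touch X E) (Ham560.ext (Q0 ∪ B) ξ y)) := by
  rw [ham_dat h]
  have hXF : X ⊆ F := by rw [h.hF]; exact Finset.subset_union_left
  refine vol_compare (B := B) (Anch.touch hA hXF) (fun p hp => (mem_touch.mp hp).2) ?_ ?_ ?_ ?_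
  · exact (Finset.disjoint_of_subset_right Finset.subset_union_right h.dX).symm
  · intro u hu
    rw [if_pos hu]; exact hy u hu
  · intro u _
    by_cases hu : u ∈ B
    · rw [if_pos hu]; exact (hy u hu).trans (by norm_num)
    · rw [if_neg hu]; exact abs_base_le hξ u
  · intro u _ hu
    rw [if_neg hu]

theorem upper_split (h : Sep F X Q0 B E) (hA : Anch F E) (hξ : ∀ u, u ∉ F → |ξ u| ≤ 1 / 2)
    {A : Set ((Q0 ∪ B : Finset U) → ℝ)} (hAm : MeasurableSet A) :
    cX X E B * volume (ham F E ξ ∩ {x | res (Q0 ∪ B) F ξ x ∈ A}) ≤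
      volume (ham X (touch X E) (base F ξ)) *
        volume (ham (Q0 ∪ B) (away X E) ξ ∩ A) := by
  have hsp := vol_ham_split (ξ := ξ) (E := E) h.hF h.dX hAm
  have e : {x : F → ℝ | res (Q0 ∪ B) F ξ x ∈ A} =
      {x | (fun q : (Q0 ∪ B : Finset U) => Ham560.ext F ξ x q) ∈ A} := rfl
  rw [e, hsp, ← lintegral_const_mul' _ _ (by
    unfold cX; exact ENNReal.pow_ne_top ENNReal.ofReal_ne_top)]
  calc _ ≤ ∫⁻ _ in ham (Q0 ∪ B) (away X E) ξ ∩ A, volume (ham X (touch X E) (base F ξ)) :=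
        lintegral_mono fun y => outer_le h hA hξ y
    _ = _ := setLIntegral_const _ _

theorem lower_split (h : Sep F X Q0 B E) (hA : Anch F E) (hξ : ∀ u, u ∉ F → |ξ u| ≤ 1 / 2)
    {A : Set ((Q0 ∪ B : Finset U) → ℝ)} (hAm : MeasurableSet A) :
    cX X E B * volume (ham X (touch X E) (base F ξ)) *
      volume (ham (Q0 ∪ B) (away X E) ξ ∩ (near (Q0 ∪ B) B 0 (1 / 8) ∩ A)) ≤
      volume (ham F E ξ ∩ {x | res (Q0 ∪ B) F ξ x ∈ A}) := by
  have hsp := vol_ham_split (ξ := ξ) (E := E) h.hF h.dX hAm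
  have e : {x : F → ℝ | res (Q0 ∪ B) F ξ x ∈ A} =
      {x | (fun q : (Q0 ∪ B : Finset U) => Ham560.ext F ξ x q) ∈ A} := rfl
  rw [e, hsp]
  have hm : MeasurableSet (ham (Q0 ∪ B) (away X E) ξ ∩ (near (Q0 ∪ B) B 0 (1 / 8) ∩ A)) :=
    measurableSet_ham.inter ((isClosed_near B 0 (1 / 8)).measurableSet.inter hAm)
  calc _ = ∫⁻ _ in ham (Q0 ∪ B) (away X E) ξ ∩ (near (Q0 ∪ B) B 0 (1 / 8) ∩ A),
        cX X E B * volume (ham X (touch X E) (base F ξ)) := (setLIntegral_const _ _).symm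
    _ ≤ ∫⁻ y in ham (Q0 ∪ B) (away X E) ξ ∩ (near (Q0 ∪ B) B 0 (1 / 8) ∩ A),
        volume (ham X (touch X E) (Ham560.ext (Q0 ∪ B) ξ y)) := by
        refine setLIntegral_mono' hm fun y hy => ?_
        refine le_outer h hA hξ y fun u hu => ?_
        have hu' : u ∈ Q0 ∪ B := Finset.mem_union_right _ hu
        rw [ext_mem hu']
        have := hy.2.1 ⟨u, hu'⟩ hu
        simpa using this
    _ ≤ _ := lintegral_mono_set (inter_subset_inter_right _ inter_subset_right)

end Crest.Agent.R144.LC121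
end
end

-- ▼ part R144/LC4_121
section

/-!
# R144 (helper121): LEMMA LC, local comparison without any partition function ratio

`F = X ∪ Q0 ∪ B`, `B` separates `X` from `Q0`, arbitrary data `|ξ| ≤ 1/2`.

* `LC_bdry`: `Q = Q0 ∪ B` touches the boundary only at vertices with the same value `c0`:
  `P_F^ξ (A) ≤ C^|B| P_Q^{c0} (A)` for every event `A` of the heights on `Q`.
* `LC_int`: `Q` does not touch the boundary: `P_F^ξ (A) ≤ 2 R C^|B| P_{Q \ o}^0 (A)` for gradient events.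
* `LC_tight_bdry`, `LC_tight_int`: the same for the events of LEMMA T.
-/

set_option autoImplicit false

open MeasureTheory Set
open scoped ENNReal

noncomputable section

namespace Crest.Agent.R144.LC121

open Crest.Agent.R144.Ham560 Crest.Agent.R144.LcB460

variable {U : Type*} [DecidableEq U] {F X Q Q0 B : Finset U} {E : Finset (U × U)}
  {ξ η η' : U → ℝ}

/-- Volume of the whole region against the volume of the inner region. -/
theorem inner_all (hd : Disjoint Q0 B) (hB : Anch B (away Q0 E)) :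
    volume (ham (Q0 ∪ B) E ξ) ≤ 2 ^ B.card * volume (ham Q0 (touch Q0 E) 0) := by
  have hsp := vol_ham_split (F := Q0 ∪ B) (X := Q0) (Q := B) (E := E) (ξ := ξ) rfl hd
      (A := Set.univ) MeasurableSet.univ
  simp only [mem_univ, inter_univ, ofPred_true] at hsp
  rw [hsp]
  calc _ ≤ ∫⁻ _ in ham B (away Q0 E) ξ, volume (ham Q0 (touch Q0 E) 0) :=
        lintegral_mono fun y => vol_ham_le_zero
    _ = volume (ham Q0 (touch Q0 E) 0) * volume (ham B (away Q0 E) ξ) := setLIntegral_const _ _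
    _ ≤ volume (ham Q0 (touch Q0 E) 0) * 2 ^ B.card :=
        mul_le_mul' le_rfl (vol_forest _ _ _ _ rfl hB)
    _ = _ := mul_comm _ _

/-- Volume with small heights on `B` against the volume of the inner region. -/
theorem inner_near (hd : Disjoint Q0 B) {c0 : ℝ} (hc0 : |c0| ≤ 1 / 2)
    (hξ : ∀ u, u ∉ Q0 ∪ B → |ξ u| ≤ 1 / 2)
    (hc : ∀ p ∈ E, (p.1 ∈ Q0 → p.2 ∉ Q0 ∪ B → ξ p.2 = c0) ∧
      (p.2 ∈ Q0 → p.1 ∉ Q0 ∪ B → ξ p.1 = c0)) :
    ENNReal.ofReal (3 / 8) ^ (lay Q0 (touch Q0 E) B).card * ENNReal.ofReal (1 / 4) ^ B.card *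
      volume (ham Q0 (touch Q0 E) 0) ≤
      volume (ham (Q0 ∪ B) E ξ ∩ near (Q0 ∪ B) B 0 (1 / 8)) := by
  -- the box
  set bx : Set (B → ℝ) := Set.univ.pi fun _ : B => Set.Icc (-(1 / 8) : ℝ) (1 / 8) with hbx
  have hbxm : MeasurableSet bx := MeasurableSet.univ_pi fun _ => measurableSet_Icc
  have hsp := vol_ham_split (F := Q0 ∪ B) (X := Q0) (Q := B) (E := E) (ξ := ξ) rfl hd hbxm
  have e1 : ham (Q0 ∪ B) E ξ ∩ {x | (fun q : B => Ham560.ext (Q0 ∪ B) ξ x q) ∈ bx} ⊆
      ham (Q0 ∪ B) E ξ ∩ near (Q0 ∪ B) B 0 (1 / 8) := by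
    rintro x ⟨hx, hb⟩
    refine ⟨hx, fun y hy => ?_⟩
    have h1 := hb ⟨y, hy⟩ (mem_univ _)
    change Ham560.ext (Q0 ∪ B) ξ x y ∈ _ at h1
    rw [ext_mem y.2, mem_Icc] at h1
    simp only [Pi.zero_apply, sub_zero]
    rw [abs_le]
    exact h1
  refine le_trans ?_ (measure_mono e1)
  rw [hsp]
  -- every point of the box is admissible
  have hbox : ∀ b ∈ bx, ∀ u, u ∉ Q0 → |Ham560.ext B ξ b u| ≤ 1 / 2 := by
    intro b hb u hu
    by_cases huB : u ∈ B
    · rw [ext_mem huB]
      have h1 := hb ⟨u, huB⟩ (mem_univ _)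
      rw [mem_Icc] at h1
      rw [abs_le]; constructor <;> linarith [h1.1, h1.2]
    · rw [ext_notMem huB]
      exact hξ u (by rw [Finset.mem_union]; tauto)
  have hsub : bx ⊆ ham B (away Q0 E) ξ ∩ bx := by
    intro b hb
    refine ⟨fun p hp => ?_, hb⟩
    obtain ⟨-, h1, h2⟩ := mem_away.mp hp
    have h3 := abs_le.mp (hbox b hb _ h1)
    have h4 := abs_le.mp (hbox b hb _ h2)
    rw [abs_le]; constructor <;> linarith
  have hvol : volume bx = ENNReal.ofReal (1 / 4) ^ B.card := by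
    rw [hbx, volume_pi_pi]
    simp only [Real.volume_Icc]
    rw [Finset.prod_const, Finset.card_univ, Fintype.card_coe]
    norm_num
  have hlow : ∀ b ∈ bx, ENNReal.ofReal (3 / 8) ^ (lay Q0 (touch Q0 E) B).card *
      volume (ham Q0 (touch Q0 E) 0) ≤ volume (ham Q0 (touch Q0 E) (Ham560.ext B ξ b)) := by
    intro b hb
    set ζ : U → ℝ := fun u => if u ∈ B then Ham560.ext B ξ b u else c0 with hζ
    have e2 : ham Q0 (touch Q0 E) (Ham560.ext B ξ b) = ham Q0 (touch Q0 E) ζ := by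
      refine ham_congr_edge fun p hp => ?_
      obtain ⟨hpE, hpQ⟩ := mem_touch.mp hp
      obtain ⟨s1, s2⟩ := hc p hpE
      constructor
      · intro h1
        simp only [hζ]
        by_cases hB : p.1 ∈ B
        · rw [if_pos hB]
        · rw [if_neg hB, ext_notMem hB]
          exact s2 (hpQ.resolve_left h1) (by rw [Finset.mem_union]; tauto)
      · intro h2
        simp only [hζ]
        by_cases hB : p.2 ∈ B
        · rw [if_pos hB]
        · rw [if_neg hB, ext_notMem hB]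
          exact s1 (hpQ.resolve_right h2) (by rw [Finset.mem_union]; tauto)
    rw [e2]
    have h38 : ENNReal.ofReal (1 - 5 / 8) = ENNReal.ofReal (3 / 8) := by norm_num
    rw [← h38]
    refine vol_layer (k := c0) (r := 5 / 8) (fun p hp => (mem_touch.mp hp).2) hd.symm
      (by norm_num) (by norm_num) (fun u _ hu => ?_) (fun u hu => ?_)
    · simp only [hζ, if_neg hu]
    · simp only [hζ, if_pos hu]
      rw [ext_mem hu]
      have h1 := hb ⟨u, hu⟩ (mem_univ _)
      rw [mem_Icc] at h1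
      have h2 := abs_le.mp hc0
      rw [abs_le]; constructor <;> linarith [h1.1, h1.2]
  calc _ = ENNReal.ofReal (3 / 8) ^ (lay Q0 (touch Q0 E) B).card *
        volume (ham Q0 (touch Q0 E) 0) * volume bx := by rw [hvol]; ring
    _ = ∫⁻ _ in bx, ENNReal.ofReal (3 / 8) ^ (lay Q0 (touch Q0 E) B).card *
        volume (ham Q0 (touch Q0 E) 0) := (setLIntegral_const _ _).symm
    _ ≤ ∫⁻ y in bx, volume (ham Q0 (touch Q0 E) (Ham560.ext B ξ y)) :=
        setLIntegral_mono' hbxm hlow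
    _ ≤ _ := lintegral_mono_set hsub

/-- The constant of the inner side. -/
def cQ (Q0 : Finset U) (E : Finset (U × U)) (B : Finset U) : ℝ≥0∞ :=
  ENNReal.ofReal (3 / 8) ^ (lay Q0 (touch Q0 E) B).card * ENNReal.ofReal (1 / 4) ^ B.card


end Crest.Agent.R144.LC121
end
end

-- ▼ part R144/LC5_121
section

/-!
# R144 (helper121): LEMMA LC for the tight events

* `LC_tight_bdry`: `B` is anchored to the boundary;
* `LC_tight_int`: `B` without one vertex `o` is anchored to `o` (one factor `2 R`, `R` = sup norm bound).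
-/

set_option autoImplicit false

open MeasureTheory Set
open scoped ENNReal

noncomputable section

namespace Crest.Agent.R144.LC121

open Crest.Agent.R144.Ham560 Crest.Agent.R144.LcB460

variable {U : Type*} [DecidableEq U] {F X Q Q' Q0 B : Finset U} {E : Finset (U × U)}
  {ξ η η' : U → ℝ} {S : List ((U × U) × ℝ)}

theorem nbr_mono {E E' : Finset (U × U)} (h : E ⊆ E') (v : U) : nbr E v ⊆ nbr E' v := by
  intro w hw
  rw [mem_nbr] at hw ⊢
  exact ⟨hw.1, hw.2.imp (fun h' => h h') fun h' => h h'⟩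

theorem touch_subset : touch X E ⊆ E := Finset.filter_subset _ _

theorem away_subset : away X E ⊆ E := Finset.filter_subset _ _

/-- Fresh lists that avoid `X`. -/
theorem fresh_away (hF : F = X ∪ Q) (hS : FreshR F E S)
    (hX : ∀ q ∈ S, q.1.1 ∉ X ∧ q.1.2 ∉ X) : FreshR Q (away X E) S := by
  induction hS with
  | nil => exact FreshR.nil
  | @cons v u w S hS hv hu hw hf ih =>
    have h1 := hX _ List.mem_cons_self
    refine FreshR.cons (ih fun q hq => hX q (List.mem_cons_of_mem _ hq)) ?_ ?_ hw hf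
    · have := h1.1
      rw [hF, Finset.mem_union] at hv
      exact hv.resolve_left this
    · rw [mem_nbr] at hu ⊢
      refine ⟨hu.1, ?_⟩
      rcases hu.2 with h | h
      · exact Or.inl (mem_away.mpr ⟨h, h1.1, h1.2⟩)
      · exact Or.inr (mem_away.mpr ⟨h, h1.2, h1.1⟩)

/-- Fresh lists whose heads are in `X`. -/
theorem fresh_touch (hS : FreshR Q E S) (hX : ∀ q ∈ S, q.1.1 ∈ X) : FreshR X (touch X E) S := by
  induction hS with
  | nil => exact FreshR.nil
  | @cons v u w S hS hv hu hw hf ih =>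
    have h1 := hX _ List.mem_cons_self
    refine FreshR.cons (ih fun q hq => hX q (List.mem_cons_of_mem _ hq)) h1 ?_ hw hf
    exact (nbr_touch h1).2 hu

/-- The tightness condition alone. -/
def tev (Q : Finset U) (ξ : U → ℝ) (S : List ((U × U) × ℝ)) : Set (Q → ℝ) :=
  {y | ∀ q ∈ S, 1 - q.2 ≤ |Ham560.ext Q ξ y q.1.1 - Ham560.ext Q ξ y q.1.2|}

theorem isClosed_tev : IsClosed (tev Q ξ S) := by
  have : tev Q ξ S = ⋂ q ∈ S, {y | 1 - q.2 ≤ |Ham560.ext Q ξ y q.1.1 - Ham560.ext Q ξ y q.1.2|} := by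
    ext y; simp [tev]
  rw [this]
  exact isClosed_biInter fun q _ => isClosed_le continuous_const
    ((continuous_ext _).sub (continuous_ext _)).abs

theorem ext_res (hF : F = X ∪ Q) {u : U} (hu : u ∉ X) (x : F → ℝ) :
    Ham560.ext Q ξ (res Q F ξ x) u = Ham560.ext F ξ x u := by
  by_cases hQ : u ∈ Q
  · rw [ext_mem hQ]; rfl
  · rw [ext_notMem hQ, ext_notMem]
    rw [hF, Finset.mem_union]; tauto

theorem tight_res (hF : F = X ∪ Q) (hX : ∀ q ∈ S, q.1.1 ∉ X ∧ q.1.2 ∉ X) :
    tightR F E ξ S = ham F E ξ ∩ {x | res Q F ξ x ∈ tev Q ξ S} := by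
  ext x
  simp only [tightR, tev, mem_ofPred_eq, mem_inter_iff]
  refine and_congr_right fun _ => forall₂_congr fun q hq => ?_
  obtain ⟨h1, h2⟩ := hX q hq
  rw [ext_res hF h1, ext_res hF h2]

/-- Common hypotheses on the data near `Q0`. -/
theorem near_data (h : Sep F X Q0 B E) (hξ : ∀ u, u ∉ F → |ξ u| ≤ 1 / 2)
    {c0 : ℝ} (hc0 : |c0| ≤ 1 / 2)
    (hc : ∀ p ∈ away X E, (p.1 ∈ Q0 → p.2 ∉ Q0 ∪ B → ξ p.2 = c0) ∧
      (p.2 ∈ Q0 → p.1 ∉ Q0 ∪ B → ξ p.1 = c0)) :
    cQ Q0 (away X E) B * volume (ham Q0 (touch Q0 (away X E)) 0) ≤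
      volume (ham (Q0 ∪ B) (away X E) ξ ∩ near (Q0 ∪ B) B 0 (1 / 8)) := by
  set ξ' : U → ℝ := fun u => if u ∈ X then 0 else ξ u with hξ'
  have hsame : ham (Q0 ∪ B) (away X E) ξ = ham (Q0 ∪ B) (away X E) ξ' := by
    refine ham_congr_edge fun p hp => ?_
    obtain ⟨-, h1, h2⟩ := mem_away.mp hp
    exact ⟨fun _ => by simp [hξ', h1], fun _ => by simp [hξ', h2]⟩
  rw [hsame]
  exact inner_near (ξ := ξ') (E := away X E) h.dQ hc0 (fun u hu => by
      simp only [hξ']
      by_cases hX : u ∈ X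
      · rw [if_pos hX, abs_zero]; norm_num
      · rw [if_neg hX]
        refine hξ u ?_
        rw [h.hF, Finset.mem_union]; tauto) (fun p hp => by
      obtain ⟨-, h1, h2⟩ := mem_away.mp hp
      obtain ⟨t1, t2⟩ := hc p hp
      simp only [hξ', if_neg h1, if_neg h2]
      exact ⟨t1, t2⟩)

/-- From an upper bound for the event on `Q` to an upper bound on `F`. -/
theorem assemble (h : Sep F X Q0 B E) (hA : Anch F E) (hξ : ∀ u, u ∉ F → |ξ u| ≤ 1 / 2)
    {c0 : ℝ} (hc0 : |c0| ≤ 1 / 2)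
    (hc : ∀ p ∈ away X E, (p.1 ∈ Q0 → p.2 ∉ Q0 ∪ B → ξ p.2 = c0) ∧
      (p.2 ∈ Q0 → p.1 ∉ Q0 ∪ B → ξ p.1 = c0))
    {A : Set ((Q0 ∪ B : Finset U) → ℝ)} (hAm : MeasurableSet A) {κ : ℝ≥0∞}
    (hup : volume (ham (Q0 ∪ B) (away X E) ξ ∩ A) ≤
      κ * volume (ham Q0 (touch Q0 (away X E)) 0)) :
    cX X E B ^ 2 * cQ Q0 (away X E) B *
      volume (ham F E ξ ∩ {x | res (Q0 ∪ B) F ξ x ∈ A}) ≤ κ * volume (ham F E ξ) := by
  have s1 := upper_split h hA hξ hAm
  have s2 := lower_split h hA hξ (A := Set.univ) MeasurableSet.univ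
  have s4 := near_data h hξ hc0 hc
  simp only [mem_univ, inter_univ, ofPred_true] at s2
  set N := volume (ham F E ξ ∩ {x | res (Q0 ∪ B) F ξ x ∈ A})
  set D := volume (ham F E ξ)
  set ZX := volume (ham X (touch X E) (base F ξ))
  set vA := volume (ham (Q0 ∪ B) (away X E) ξ ∩ A)
  set vn := volume (ham (Q0 ∪ B) (away X E) ξ ∩ near (Q0 ∪ B) B 0 (1 / 8))
  set ZQ := volume (ham Q0 (touch Q0 (away X E)) 0)
  calc cX X E B ^ 2 * cQ Q0 (away X E) B * N
      = cX X E B * cQ Q0 (away X E) B * (cX X E B * N) := by ring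
    _ ≤ cX X E B * cQ Q0 (away X E) B * (ZX * (κ * ZQ)) :=
        mul_le_mul' le_rfl (s1.trans (mul_le_mul' le_rfl hup))
    _ = κ * (cX X E B * ZX) * (cQ Q0 (away X E) B * ZQ) := by ring
    _ ≤ κ * (cX X E B * ZX) * vn := mul_le_mul' le_rfl s4
    _ = κ * (cX X E B * ZX * vn) := by ring
    _ ≤ κ * D := mul_le_mul' le_rfl s2

/-- LEMMA LC for tight events, `B` anchored to the boundary. -/
theorem LC_tight_bdry (h : Sep F X Q0 B E) (hA : Anch F E) (hξ : ∀ u, u ∉ F → |ξ u| ≤ 1 / 2)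
    (hB : Anch B (away Q0 (away X E))) {c0 : ℝ} (hc0 : |c0| ≤ 1 / 2)
    (hc : ∀ p ∈ away X E, (p.1 ∈ Q0 → p.2 ∉ Q0 ∪ B → ξ p.2 = c0) ∧
      (p.2 ∈ Q0 → p.1 ∉ Q0 ∪ B → ξ p.1 = c0))
    {n : ℕ} (hn : ∀ v ∈ F, (nbr E v).card ≤ n) (hS : FreshR F E S)
    (hX : ∀ q ∈ S, q.1.1 ∉ X ∧ q.1.2 ∉ X) :
    cX X E B ^ 2 * cQ Q0 (away X E) B * volume (tightR F E ξ S) ≤
      2 ^ B.card * wgt n S * volume (ham F E ξ) := by
  rw [tight_res h.hF hX]
  refine assemble h hA hξ hc0 hc isClosed_tev.measurableSet ?_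
  have h1 : ham (Q0 ∪ B) (away X E) ξ ∩ tev (Q0 ∪ B) ξ S = tightR (Q0 ∪ B) (away X E) ξ S := rfl
  rw [h1]
  have h2 := vol_tightR_le (ξ := ξ) (fresh_away h.hF hS hX) (n := n) (fun v hv =>
    (Finset.card_le_card (nbr_mono away_subset v)).trans (hn v (by
      rw [h.hF]; exact Finset.mem_union_right _ hv)))
  have h3 := inner_all (ξ := (0 : U → ℝ)) h.dQ hB
  calc _ ≤ wgt n S * volume (ham (Q0 ∪ B) (away X E) 0) := h2
    _ ≤ wgt n S * (2 ^ B.card * volume (ham Q0 (touch Q0 (away X E)) 0)) :=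
        mul_le_mul' le_rfl h3
    _ = _ := by ring

theorem ham_touch_zero : ham Q (touch Q E) (0 : U → ℝ) = ham Q E 0 := by
  ext x
  unfold ham
  simp only [mem_ofPred_eq]
  constructor
  · intro h p hp
    by_cases hq : p.1 ∈ Q ∨ p.2 ∈ Q
    · exact h p (mem_touch.mpr ⟨hp, hq⟩)
    · push Not at hq
      rw [ext_notMem hq.1, ext_notMem hq.2]
      simp
  · exact fun h p hp => h p (mem_touch.mp hp).1

/-- Slicing over the height at `o`. -/
theorem slice_le {o : U} (hQ : Q = Q' ∪ {o}) (ho : o ∉ Q') {n : ℕ}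
    (hn : ∀ v ∈ Q, (nbr E v).card ≤ n) (hS : FreshR Q E S) (hSo : ∀ q ∈ S, q.1.1 ≠ o) {R : ℝ} :
    volume (ham Q E ξ ∩ (tev Q ξ S ∩ {y | |Ham560.ext Q ξ y o| ≤ R})) ≤
      ENNReal.ofReal (2 * R) * (wgt n S * volume (ham Q' E 0)) := by
  have hd : Disjoint Q' {o} := Finset.disjoint_singleton_right.mpr ho
  have hm : MeasurableSet (ham Q E ξ ∩ (tev Q ξ S ∩ {y | |Ham560.ext Q ξ y o| ≤ R})) :=
    measurableSet_ham.inter (isClosed_tev.measurableSet.inter
      (isClosed_le (continuous_ext o).abs continuous_const).measurableSet)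
  rw [vol_split hQ hd hm]
  have hoo : o ∈ ({o} : Finset U) := Finset.mem_singleton_self o
  set bx : Set (({o} : Finset U) → ℝ) := {y | |y ⟨o, hoo⟩| ≤ R} with hbx
  have hbxm : MeasurableSet bx :=
    (isClosed_le (continuous_apply _).abs continuous_const).measurableSet
  have hbv : volume bx = ENNReal.ofReal (2 * R) := by
    have e : bx = Set.univ.pi fun _ : ({o} : Finset U) => Set.Icc (-R) R := by
      ext y
      simp only [hbx, mem_ofPred_eq, mem_pi, mem_univ, true_implies, mem_Icc]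
      constructor
      · rintro h ⟨a, ha⟩
        have : a = o := Finset.mem_singleton.mp ha
        subst this
        exact abs_le.mp h
      · intro h
        exact abs_le.mpr (h ⟨o, hoo⟩)
    rw [e, volume_pi_pi]
    simp only [Real.volume_Icc]
    rw [Finset.prod_const, Finset.card_univ, Fintype.card_coe, Finset.card_singleton, pow_one]
    congr 1; ring
  have hFr : FreshR Q' (touch Q' E) S := by
    refine fresh_touch hS fun q hq => ?_
    have h1 : q.1.1 ∈ Q := by
      clear hSo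
      induction hS with
      | nil => simp at hq
      | @cons v u w S hS hv hu hw hf ih =>
        rcases List.mem_cons.mp hq with rfl | hq
        · exact hv
        · exact ih (by
            refine measurableSet_ham.inter (isClosed_tev.measurableSet.inter
              (isClosed_le (continuous_ext o).abs continuous_const).measurableSet)) hq
    rw [hQ, Finset.mem_union, Finset.mem_singleton] at h1
    exact h1.resolve_right (hSo q hq)
  have hsl : ∀ y : ({o} : Finset U) → ℝ, volume {x : Q' → ℝ | join Q Q' {o} (y, x) ∈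
      ham Q E ξ ∩ (tev Q ξ S ∩ {y | |Ham560.ext Q ξ y o| ≤ R})} ≤
      bx.indicator (fun _ => wgt n S * volume (ham Q' E 0)) y := by
    intro y
    by_cases hy : y ∈ bx
    · rw [indicator_of_mem hy]
      have hsub : {x : Q' → ℝ | join Q Q' {o} (y, x) ∈
          ham Q E ξ ∩ (tev Q ξ S ∩ {y | |Ham560.ext Q ξ y o| ≤ R})} ⊆
          tightR Q' (touch Q' E) (Ham560.ext {o} ξ y) S := by
        rintro x ⟨h1, h2, -⟩
        refine ⟨((mem_ham_join hQ hd (y, x)).mp h1).2, fun q hq => ?_⟩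
        have := h2 q hq
        rw [ext_join_X hQ hd, ext_join_X hQ hd] at this
        exact this
      refine (measure_mono hsub).trans ?_
      rw [← ham_touch_zero (Q := Q')]
      refine vol_tightR_le hFr fun v hv => ?_
      exact (Finset.card_le_card (nbr_mono touch_subset v)).trans (hn v (by
        rw [hQ]; exact Finset.mem_union_left _ hv))
    · rw [indicator_of_notMem hy]
      have : {x : Q' → ℝ | join Q Q' {o} (y, x) ∈
          ham Q E ξ ∩ (tev Q ξ S ∩ {y | |Ham560.ext Q ξ y o| ≤ R})} = ∅ := by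
        rw [Set.eq_empty_iff_forall_notMem]
        rintro x ⟨-, -, h3⟩
        refine hy ?_
        change |Ham560.ext Q ξ _ o| ≤ R at h3
        rw [ext_join_Q hQ _ hoo] at h3
        exact h3
      rw [this, measure_empty]
  calc _ ≤ ∫⁻ y, bx.indicator (fun _ => wgt n S * volume (ham Q' E 0)) y := lintegral_mono hsl
    _ = wgt n S * volume (ham Q' E 0) * volume bx := by
        rw [lintegral_indicator hbxm, setLIntegral_const]
    _ = _ := by rw [hbv, mul_comm]

/-- LEMMA LC for tight events, `B` anchored to one of its vertices. -/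
theorem LC_tight_int (h : Sep F X Q0 B E) (hA : Anch F E) (hξ : ∀ u, u ∉ F → |ξ u| ≤ 1 / 2)
    {o : U} (ho : o ∈ B) (hB : Anch (B.erase o) (away Q0 (away X E))) {c0 : ℝ} (hc0 : |c0| ≤ 1 / 2)
    (hc : ∀ p ∈ away X E, (p.1 ∈ Q0 → p.2 ∉ Q0 ∪ B → ξ p.2 = c0) ∧
      (p.2 ∈ Q0 → p.1 ∉ Q0 ∪ B → ξ p.1 = c0))
    {R : ℝ} (hR : ∀ x ∈ ham F E ξ, |Ham560.ext F ξ x o| ≤ R)
    {n : ℕ} (hn : ∀ v ∈ F, (nbr E v).card ≤ n) (hS : FreshR F E S)
    (hX : ∀ q ∈ S, q.1.1 ∉ X ∧ q.1.2 ∉ X) (hSo : ∀ q ∈ S, q.1.1 ≠ o) :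
    cX X E B ^ 2 * cQ Q0 (away X E) B * volume (tightR F E ξ S) ≤
      2 ^ B.card * ENNReal.ofReal (2 * R) * wgt n S * volume (ham F E ξ) := by
  have hoX : o ∉ X := fun h' => Finset.disjoint_left.mp h.dX h' (Finset.mem_union_right _ ho)
  have hoQ0 : o ∉ Q0 := fun h' => Finset.disjoint_left.mp h.dQ h' ho
  have e1 : tightR F E ξ S = ham F E ξ ∩ {x | res (Q0 ∪ B) F ξ x ∈
      (tev (Q0 ∪ B) ξ S ∩ {y | |Ham560.ext (Q0 ∪ B) ξ y o| ≤ R})} := by
    rw [tight_res h.hF hX]
    ext x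
    simp only [mem_inter_iff, mem_ofPred_eq, ext_res h.hF hoX]
    exact ⟨fun h => ⟨h.1, h.2, hR x h.1⟩, fun h => ⟨h.1, h.2.1⟩⟩
  rw [e1]
  refine assemble h hA hξ hc0 hc (isClosed_tev.measurableSet.inter
      (isClosed_le (continuous_ext o).abs continuous_const).measurableSet) ?_
  have hQ : Q0 ∪ B = (Q0 ∪ B.erase o) ∪ {o} := by
    ext a
    simp only [Finset.mem_union, Finset.mem_erase, Finset.mem_singleton]
    constructor
    · rintro (h | h)
      · exact Or.inl (Or.inl h)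
      · by_cases hao : a = o
        · exact Or.inr hao
        · exact Or.inl (Or.inr ⟨hao, h⟩)
    · rintro ((h | h) | h)
      · exact Or.inl h
      · exact Or.inr h.2
      · exact Or.inr (h ▸ ho)
  have ho' : o ∉ Q0 ∪ B.erase o := by
    simp only [Finset.mem_union, Finset.mem_erase]; tauto
  have h2 := slice_le (ξ := ξ) (R := R) hQ ho' (n := n) (fun v hv =>
    (Finset.card_le_card (nbr_mono (away_subset (X := X)) v)).trans (hn v (by
      rw [h.hF]; exact Finset.mem_union_right _ hv))) (fresh_away h.hF hS hX) hSo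
  have h3 := inner_all (ξ := (0 : U → ℝ)) (Q0 := Q0) (B := B.erase o)
    (Finset.disjoint_of_subset_right (Finset.erase_subset _ _) h.dQ) hB
  have h4 : (2 : ℝ≥0∞) ^ (B.erase o).card ≤ 2 ^ B.card :=
    pow_le_pow_right₀ (by norm_num) (Finset.card_le_card (Finset.erase_subset _ _))
  calc _ ≤ ENNReal.ofReal (2 * R) * (wgt n S * volume (ham (Q0 ∪ B.erase o) (away X E) 0)) := h2
    _ ≤ ENNReal.ofReal (2 * R) * (wgt n S * (2 ^ B.card *
          volume (ham Q0 (touch Q0 (away X E)) 0))) :=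
        mul_le_mul' le_rfl (mul_le_mul' le_rfl (h3.trans (mul_le_mul' h4 le_rfl)))
    _ = _ := by ring

end Crest.Agent.R144.LC121
end
end

-- ▼ part R144/LC6_121
section

/-!
# R144 (helper121): LEMMA LC in boxes of `ℤ × ℤ`

`LC_box`: for a fresh list `S` of edges inside the box of radius `r` about `z`, boundary data constant in
the box, `vol (tightR F E ξ S) ≤ KL ^ (10 r + 5) * max 1 (2 R) * wgt n S * vol (ham F E ξ)`.
The factor `max 1 (2 R)` is absent if the box contains a fixed site (`LC_box_bdry`).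
-/

set_option autoImplicit false

open MeasureTheory Set
open scoped ENNReal

noncomputable section

namespace Crest.Agent.R144.LC121

open Crest.Agent.R144.Ham560 Crest.Agent.R144.LcB460

/-- Boxes of `ℤ × ℤ`. -/
def box (z : ℤ × ℤ) (r : ℕ) : Finset (ℤ × ℤ) :=
  Finset.Icc (z.1 - r) (z.1 + r) ×ˢ Finset.Icc (z.2 - r) (z.2 + r)

theorem mem_box {z u : ℤ × ℤ} {r : ℕ} : u ∈ box z r ↔ |u.1 - z.1| ≤ r ∧ |u.2 - z.2| ≤ r := by
  rw [box, Finset.mem_product, Finset.mem_Icc, Finset.mem_Icc, abs_le, abs_le]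
  constructor <;> rintro ⟨⟨h1, h2⟩, h3, h4⟩ <;> refine ⟨⟨?_, ?_⟩, ?_, ?_⟩ <;> linarith

/-- The boundary layer of the box and the row of `w`. -/
def wall (z w : ℤ × ℤ) (r : ℕ) : Finset (ℤ × ℤ) :=
  (box z r).filter fun u => |u.1 - z.1| = r ∨ |u.2 - z.2| = r ∨ u.2 = w.2

theorem mem_wall {z w u : ℤ × ℤ} {r : ℕ} : u ∈ wall z w r ↔
    (|u.1 - z.1| ≤ r ∧ |u.2 - z.2| ≤ r) ∧ (|u.1 - z.1| = r ∨ |u.2 - z.2| = r ∨ u.2 = w.2) := by
  rw [wall, Finset.mem_filter, mem_box]

theorem wall_subset {z w : ℤ × ℤ} {r : ℕ} : wall z w r ⊆ box z r := Finset.filter_subset _ _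

theorem card_wall (z w : ℤ × ℤ) (r : ℕ) : (wall z w r).card ≤ 10 * r + 5 := by
  have hsub : wall z w r ⊆
      (({z.1 - r, z.1 + r} : Finset ℤ) ×ˢ Finset.Icc (z.2 - r) (z.2 + r)) ∪
      (Finset.Icc (z.1 - r) (z.1 + r) ×ˢ ({z.2 - r, z.2 + r, w.2} : Finset ℤ)) := by
    intro u hu
    obtain ⟨⟨h1, h2⟩, h3⟩ := mem_wall.mp hu
    rw [abs_le] at h1 h2
    simp only [Finset.mem_union, Finset.mem_product, Finset.mem_insert, Finset.mem_singleton,
      Finset.mem_Icc]
    rcases h3 with h3 | h3 | h3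
    · left
      refine ⟨?_, by linarith, by linarith⟩
      rcases abs_eq (by positivity : (0 : ℤ) ≤ r) |>.mp h3 with h | h
      · right; linarith
      · left; linarith
    · right
      refine ⟨⟨by linarith, by linarith⟩, ?_⟩
      rcases abs_eq (by positivity : (0 : ℤ) ≤ r) |>.mp h3 with h | h
      · right; left; linarith
      · left; linarith
    · right
      exact ⟨⟨by linarith, by linarith⟩, Or.inr (Or.inr h3)⟩
  have hI : ∀ a : ℤ, (Finset.Icc (a - r) (a + r)).card = 2 * r + 1 := by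
    intro a
    rw [Int.card_Icc]
    omega
  have c2 : (({z.1 - r, z.1 + r} : Finset ℤ)).card ≤ 2 := Finset.card_le_two
  have c3 : (({z.2 - r, z.2 + r, w.2} : Finset ℤ)).card ≤ 3 := Finset.card_le_three
  calc (wall z w r).card ≤ _ := Finset.card_le_card hsub
    _ ≤ _ := Finset.card_union_le _ _
    _ = (({z.1 - r, z.1 + r} : Finset ℤ)).card * (2 * r + 1) +
        (2 * r + 1) * (({z.2 - r, z.2 + r, w.2} : Finset ℤ)).card := by
        rw [Finset.card_product, Finset.card_product, hI, hI]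
    _ ≤ 2 * (2 * r + 1) + (2 * r + 1) * 3 := by gcongr
    _ = 10 * r + 5 := by ring

/-- Unit steps inside `W`. -/
def Stp (W : Finset (ℤ × ℤ)) (a b : ℤ × ℤ) : Prop :=
  a ∈ W ∧ b ∈ W ∧ (b = (a.1 + 1, a.2) ∨ b = (a.1 - 1, a.2) ∨ b = (a.1, a.2 + 1) ∨
    b = (a.1, a.2 - 1))

theorem Stp.symm {W : Finset (ℤ × ℤ)} {a b : ℤ × ℤ} (h : Stp W a b) : Stp W b a := by
  obtain ⟨h1, h2, h3⟩ := h
  refine ⟨h2, h1, ?_⟩
  rcases h3 with rfl | rfl | rfl | rfl
  · right; left; ext <;> simp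
  · left; ext <;> simp
  · right; right; right; ext <;> simp
  · right; right; left; ext <;> simp

theorem rtg_symm {W : Finset (ℤ × ℤ)} {a b : ℤ × ℤ} (h : Relation.ReflTransGen (Stp W) a b) :
    Relation.ReflTransGen (Stp W) b a := by
  induction h with
  | refl => exact Relation.ReflTransGen.refl
  | tail _ h ih => exact Relation.ReflTransGen.head h.symm ih

theorem horiz {W : Finset (ℤ × ℤ)} (a b c : ℤ)
    (h : ∀ x, min a c ≤ x → x ≤ max a c → (x, b) ∈ W) :
    Relation.ReflTransGen (Stp W) (a, b) (c, b) := by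
  have key : ∀ (n : ℕ) (a : ℤ), (∀ x, a ≤ x → x ≤ a + n → (x, b) ∈ W) →
      Relation.ReflTransGen (Stp W) (a, b) (a + n, b) := by
    intro n
    induction n with
    | zero => intro a _; simpa using Relation.ReflTransGen.refl
    | succ n ih =>
      intro a h
      refine (ih a fun x h1 h2 => h x h1 (by push_cast; linarith)).tail ?_
      refine ⟨h _ (by linarith) (by push_cast; linarith), h _ (by push_cast; linarith) (by push_cast; linarith), Or.inl ?_⟩
      ext
      · push_cast; ring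
      · rfl
  rcases le_total a c with hac | hac
  · have := key (c - a).toNat a (fun x h1 h2 => h x ((min_le_left _ _).trans h1) (by
      rw [Int.toNat_of_nonneg (by linarith)] at h2
      exact le_trans (by linarith) (le_max_right _ _)))
    rwa [Int.toNat_of_nonneg (by linarith), show a + (c - a) = c by ring] at this
  · have := key (a - c).toNat c (fun x h1 h2 => h x ((min_le_right _ _).trans h1) (by
      rw [Int.toNat_of_nonneg (by linarith)] at h2
      exact le_trans (by linarith) (le_max_left _ _)))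
    rw [Int.toNat_of_nonneg (by linarith), show c + (a - c) = a by ring] at this
    exact rtg_symm this

theorem verti {W : Finset (ℤ × ℤ)} (a b c : ℤ)
    (h : ∀ x, min b c ≤ x → x ≤ max b c → (a, x) ∈ W) :
    Relation.ReflTransGen (Stp W) (a, b) (a, c) := by
  have key : ∀ (n : ℕ) (b : ℤ), (∀ x, b ≤ x → x ≤ b + n → (a, x) ∈ W) →
      Relation.ReflTransGen (Stp W) (a, b) (a, b + n) := by
    intro n
    induction n with
    | zero => intro b _; simpa using Relation.ReflTransGen.refl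
    | succ n ih =>
      intro b h
      refine (ih b fun x h1 h2 => h x h1 (by push_cast; linarith)).tail ?_
      refine ⟨h _ (by linarith) (by push_cast; linarith), h _ (by push_cast; linarith) (by push_cast; linarith), Or.inr (Or.inr (Or.inl ?_))⟩
      ext
      · rfl
      · push_cast; ring
  rcases le_total b c with hac | hac
  · have := key (c - b).toNat b (fun x h1 h2 => h x ((min_le_left _ _).trans h1) (by
      rw [Int.toNat_of_nonneg (by linarith)] at h2
      exact le_trans (by linarith) (le_max_right _ _)))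
    rwa [Int.toNat_of_nonneg (by linarith), show b + (c - b) = c by ring] at this
  · have := key (b - c).toNat c (fun x h1 h2 => h x ((min_le_right _ _).trans h1) (by
      rw [Int.toNat_of_nonneg (by linarith)] at h2
      exact le_trans (by linarith) (le_max_left _ _)))
    rw [Int.toNat_of_nonneg (by linarith), show c + (b - c) = b by ring] at this
    exact rtg_symm this

/-- The wall is connected to `w`. -/
theorem wall_conn {z w : ℤ × ℤ} {r : ℕ} (hw : w ∈ box z r) {u : ℤ × ℤ} (hu : u ∈ wall z w r) :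
    Relation.ReflTransGen (Stp (wall z w r)) u w := by
  obtain ⟨w1, w2⟩ := w
  obtain ⟨u1, u2⟩ := u
  have hw' := mem_box.mp hw
  simp only [abs_le] at hw'
  -- the row of `w`
  have row : ∀ v : ℤ, |v - z.1| ≤ r →
      Relation.ReflTransGen (Stp (wall z (w1, w2) r)) (v, w2) (w1, w2) := by
    intro v hv
    rw [abs_le] at hv
    refine horiz _ _ _ fun x h1 h2 => mem_wall.mpr ⟨?_, Or.inr (Or.inr rfl)⟩
    simp only [abs_le]
    have h3 : z.1 - r ≤ x := le_trans (le_min (by linarith [hv.1]) (by linarith [hw'.1.1])) h1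
    have h4 : x ≤ z.1 + r := h2.trans (max_le (by linarith [hv.2]) (by linarith [hw'.1.2]))
    exact ⟨⟨by linarith, by linarith⟩, by linarith [hw'.2.1], by linarith [hw'.2.2]⟩
  -- the sides
  have side : ∀ v c : ℤ, |v - z.1| = r → |c - z.2| ≤ r →
      Relation.ReflTransGen (Stp (wall z (w1, w2) r)) (v, c) (w1, w2) := by
    intro v c hv hc
    refine Relation.ReflTransGen.trans ?_ (row v hv.le)
    rw [abs_le] at hc
    refine verti _ _ _ fun x h1 h2 => mem_wall.mpr ⟨⟨hv.le, ?_⟩, Or.inl hv⟩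
    have h3 : z.2 - r ≤ x := le_trans (le_min (by linarith [hc.1]) (by linarith [hw'.2.1])) h1
    have h4 : x ≤ z.2 + r := h2.trans (max_le (by linarith [hc.2]) (by linarith [hw'.2.2]))
    simp only [abs_le]
    exact ⟨by linarith, by linarith⟩
  obtain ⟨⟨h1, h2⟩, h3⟩ := mem_wall.mp hu
  simp only at h1 h2 h3
  rcases h3 with h3 | h3 | h3
  · exact side u1 u2 h3 h2
  · have hr : |z.1 + r - z.1| = (r : ℤ) := by
      rw [show z.1 + (r : ℤ) - z.1 = r by ring]; exact abs_of_nonneg (by positivity)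
    refine Relation.ReflTransGen.trans ?_ (side (z.1 + r) u2 hr h2)
    rw [abs_le] at h1
    refine horiz _ _ _ fun x h4 h5 => mem_wall.mpr ⟨⟨?_, h2⟩, Or.inr (Or.inl h3)⟩
    have h6 : z.1 - r ≤ x := le_trans (le_min (by linarith [h1.1]) (by linarith)) h4
    have h7 : x ≤ z.1 + r := h5.trans (max_le (by linarith [h1.2]) le_rfl)
    simp only [abs_le]
    exact ⟨by linarith, by linarith⟩
  · rw [h3]; exact row u1 h1

theorem anch_of_conn {W B : Finset (ℤ × ℤ)} {E' : Finset ((ℤ × ℤ) × (ℤ × ℤ))} {w : ℤ × ℤ}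
    (hw : w ∉ B) (hB : B ⊆ W) (hc : ∀ u ∈ W, Relation.ReflTransGen (Stp W) u w)
    (hE : ∀ a b, Stp W a b → a ∈ B → b ∈ nbr E' a) : Anch B E' := by
  intro v hv
  have h := hc v (hB hv)
  clear hc
  induction h using Relation.ReflTransGen.head_induction_on with
  | refl => exact absurd hv hw
  | @head a b hab _ ih =>
    have h1 := hE a b hab hv
    by_cases hb : b ∈ B
    · obtain ⟨u, hu, hp⟩ := ih hb
      exact ⟨u, hu, Relation.ReflTransGen.head h1 hp⟩
    · exact ⟨b, hb, Relation.ReflTransGen.single h1⟩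

/-- Unit steps. -/
def Uni (a b : ℤ × ℤ) : Prop :=
  b = (a.1 + 1, a.2) ∨ b = (a.1 - 1, a.2) ∨ b = (a.1, a.2 + 1) ∨ b = (a.1, a.2 - 1)

/-- Edges are short and contain the unit steps of the free vertices. -/
structure Lat (F : Finset (ℤ × ℤ)) (E : Finset ((ℤ × ℤ) × (ℤ × ℤ))) : Prop where
  short : ∀ p ∈ E, |p.1.1 - p.2.1| ≤ 1 ∧ |p.1.2 - p.2.2| ≤ 1
  unit : ∀ a ∈ F, ∀ b, Uni a b → b ∈ nbr E a

variable {F X Q0 B : Finset (ℤ × ℤ)} {E : Finset ((ℤ × ℤ) × (ℤ × ℤ))} {ξ : ℤ × ℤ → ℝ}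
  {S : List (((ℤ × ℤ) × (ℤ × ℤ)) × ℝ)} {z w : ℤ × ℤ} {r : ℕ}

/-- The outer region. -/
def oX (F : Finset (ℤ × ℤ)) (z : ℤ × ℤ) (r : ℕ) : Finset (ℤ × ℤ) := F.filter fun u => u ∉ box z r

/-- The inner region. -/
def oQ (F : Finset (ℤ × ℤ)) (z w : ℤ × ℤ) (r : ℕ) : Finset (ℤ × ℤ) :=
  F.filter fun u => u ∈ box z r ∧ u ∉ wall z w r

/-- The separating layer. -/
def oB (F : Finset (ℤ × ℤ)) (z w : ℤ × ℤ) (r : ℕ) : Finset (ℤ × ℤ) := F.filter fun u => u ∈ wall z w r

theorem inner_step {a b : ℤ × ℤ} (h1 : |a.1 - b.1| ≤ 1 ∧ |a.2 - b.2| ≤ 1) (ha : a ∈ box z r)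
    (ha' : a ∉ wall z w r) : b ∈ box z r := by
  rw [mem_wall] at ha'
  rw [mem_box] at ha ⊢
  obtain ⟨h2, h3⟩ := ha
  push Not at ha'
  obtain ⟨h4, h5, -⟩ := ha' ⟨h2, h3⟩
  have h6 : |a.1 - z.1| ≤ r - 1 := by
    have := lt_of_le_of_ne h2 h4
    linarith [Int.le_sub_one_of_lt this]
  have h7 : |a.2 - z.2| ≤ r - 1 := by
    have := lt_of_le_of_ne h3 h5
    linarith [Int.le_sub_one_of_lt this]
  rw [abs_le] at *
  rw [abs_le] at *
  refine ⟨⟨?_, ?_⟩, ?_, ?_⟩ <;> linarith [h1.1.1, h1.1.2, h1.2.1, h1.2.2]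

theorem sep_box (hL : Lat F E) : Sep F (oX F z r) (oQ F z w r) (oB F z w r) E where
  hF := by
    ext u
    simp only [oX, oQ, oB, Finset.mem_union, Finset.mem_filter]
    have : u ∈ wall z w r → u ∈ box z r := fun h => wall_subset h
    tauto
  dX := by
    rw [Finset.disjoint_left]
    intro u h1 h2
    simp only [oX, oQ, oB, Finset.mem_union, Finset.mem_filter] at h1 h2
    have : u ∈ wall z w r → u ∈ box z r := fun h => wall_subset h
    tauto
  dQ := by
    rw [Finset.disjoint_left]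
    intro u h1 h2
    simp only [oQ, oB, Finset.mem_filter] at h1 h2
    tauto
  sep := by
    intro p hp
    obtain ⟨s1, s2⟩ := hL.short p hp
    constructor
    · rintro ⟨h1, h2⟩
      simp only [oX, oQ, Finset.mem_filter] at h1 h2
      exact h1.2 (inner_step (a := p.2) (b := p.1) ⟨by rw [abs_sub_comm]; exact s1,
        by rw [abs_sub_comm]; exact s2⟩ h2.2.1 h2.2.2)
    · rintro ⟨h1, h2⟩
      simp only [oX, oQ, Finset.mem_filter] at h1 h2
      exact h2.2 (inner_step (a := p.1) (b := p.2) ⟨s1, s2⟩ h1.2.1 h1.2.2)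

/-- Edges of the wall survive. -/
theorem wall_edge (hL : Lat F E) {a b : ℤ × ℤ} (h : Stp (wall z w r) a b) (ha : a ∈ F) :
    b ∈ nbr (away (oQ F z w r) (away (oX F z r) E)) a := by
  obtain ⟨h1, h2, h3⟩ := h
  have h4 := hL.unit a ha b h3
  have key : ∀ u ∈ wall z w r, u ∉ oQ F z w r ∧ u ∉ oX F z r := by
    intro u hu
    simp only [oX, oQ, Finset.mem_filter]
    have : u ∈ box z r := wall_subset hu
    tauto
  rw [mem_nbr] at h4 ⊢
  refine ⟨h4.1, ?_⟩
  rcases h4.2 with h | h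
  · exact Or.inl (mem_away.mpr ⟨mem_away.mpr ⟨h, (key a h1).2, (key b h2).2⟩, (key a h1).1,
      (key b h2).1⟩)
  · exact Or.inr (mem_away.mpr ⟨mem_away.mpr ⟨h, (key b h2).2, (key a h1).2⟩, (key b h2).1,
      (key a h1).1⟩)

theorem card_lay {E' : Finset ((ℤ × ℤ) × (ℤ × ℤ))} (hL : Lat F E) (hE : E' ⊆ E) :
    (lay X E' B).card ≤ 9 * B.card := by
  classical
  have hsub : lay X E' B ⊆ (B ×ˢ (Finset.Icc (-1 : ℤ) 1 ×ˢ Finset.Icc (-1 : ℤ) 1)).image
      fun q => (q.1.1 + q.2.1, q.1.2 + q.2.2) := by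
    intro u hu
    rw [lay, Finset.mem_filter] at hu
    obtain ⟨-, b, hb, hbu⟩ := hu
    rw [mem_nbr] at hbu
    have h1 : |u.1 - b.1| ≤ 1 ∧ |u.2 - b.2| ≤ 1 := by
      rcases hbu.2 with h | h
      · exact hL.short _ (hE h)
      · have := hL.short _ (hE h)
        rw [abs_sub_comm u.1, abs_sub_comm u.2]; exact this
    rw [Finset.mem_image]
    refine ⟨(b, (u.1 - b.1, u.2 - b.2)), ?_, ?_⟩
    · simp only [Finset.mem_product, Finset.mem_Icc]
      exact ⟨hb, abs_le.mp h1.1, abs_le.mp h1.2⟩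
    · ext <;> simp
  refine (Finset.card_le_card hsub).trans (Finset.card_image_le.trans ?_)
  rw [Finset.card_product, Finset.card_product]
  simp
  omega

/-- The constant of LEMMA LC. -/
def KL : ℝ := 8 * (8 / 3) ^ 45

theorem one_le_KL : 1 ≤ KL := by unfold KL; norm_num

theorem const_le (hL : Lat F E) :
    ENNReal.ofReal ((3 / 8) ^ 45 / 4) ^ B.card ≤
      cX X E B ^ 2 * cQ Q0 (away X E) B := by
  have h38 : ENNReal.ofReal (3 / 8) ≤ 1 := by
    rw [← ENNReal.ofReal_one]; exact ENNReal.ofReal_le_ofReal (by norm_num)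
  have h1 : ENNReal.ofReal (3 / 8) ^ (36 * B.card) ≤ cX X E B ^ 2 := by
    rw [cX, ← pow_mul]
    refine pow_le_pow_right_of_le_one' h38 ?_
    have := card_lay (X := X) (B := B) hL (touch_subset (X := X) (E := E))
    omega
  have h2 : ENNReal.ofReal (3 / 8) ^ (9 * B.card) ≤
      ENNReal.ofReal (3 / 8) ^ (lay Q0 (touch Q0 (away X E)) B).card :=
    pow_le_pow_right_of_le_one' h38
      (card_lay hL ((touch_subset (X := Q0) (E := away X E)).trans away_subset))
  calc ENNReal.ofReal ((3 / 8) ^ 45 / 4) ^ B.card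
      = ENNReal.ofReal (3 / 8) ^ (36 * B.card) * (ENNReal.ofReal (3 / 8) ^ (9 * B.card) *
          ENNReal.ofReal (1 / 4) ^ B.card) := by
        rw [show ((3 : ℝ) / 8) ^ 45 / 4 = (3 / 8) ^ 36 * ((3 / 8) ^ 9 * (1 / 4)) by ring,
          ENNReal.ofReal_mul (by positivity), ENNReal.ofReal_mul (by positivity),
          ENNReal.ofReal_pow (by norm_num), ENNReal.ofReal_pow (by norm_num), mul_pow, mul_pow,
          ← pow_mul, ← pow_mul]
    _ ≤ _ := by
        unfold cQ
        exact mul_le_mul' h1 (mul_le_mul' h2 le_rfl)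

/-- Division by the constants. -/
theorem divide (hL : Lat F E) (hBc : B.card ≤ 10 * r + 5) {N M : ℝ≥0∞}
    (h : cX X E B ^ 2 * cQ Q0 (away X E) B * N ≤ 2 ^ B.card * M) :
    N ≤ ENNReal.ofReal KL ^ (10 * r + 5) * M := by
  have hK : ENNReal.ofReal KL * ENNReal.ofReal ((3 / 8) ^ 45 / 4) = 2 := by
    rw [← ENNReal.ofReal_mul (by unfold KL; positivity)]
    have : KL * ((3 / 8) ^ 45 / 4) = 2 := by
      unfold KL
      norm_num
    rw [this]; simp
  have h1 : ENNReal.ofReal ((3 / 8) ^ 45 / 4) ^ B.card * N ≤ 2 ^ B.card * M :=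
    (mul_le_mul' (const_le hL) le_rfl).trans h
  have hc0 : ENNReal.ofReal ((3 / 8) ^ 45 / 4) ^ B.card ≠ 0 := by
    refine pow_ne_zero _ ?_
    rw [Ne, ENNReal.ofReal_eq_zero, not_le]
    positivity
  have hct : ENNReal.ofReal ((3 / 8) ^ 45 / 4) ^ B.card ≠ ∞ :=
    ENNReal.pow_ne_top ENNReal.ofReal_ne_top
  have h2 : N ≤ ENNReal.ofReal KL ^ B.card * M := by
    refine (ENNReal.mul_le_mul_iff_right hc0 hct).1 (h1.trans (le_of_eq ?_))
    rw [← mul_assoc, ← mul_pow, mul_comm (ENNReal.ofReal ((3 / 8) ^ 45 / 4)), hK]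
  refine h2.trans (mul_le_mul' ?_ le_rfl)
  refine pow_le_pow_right₀ ?_ hBc
  rw [← ENNReal.ofReal_one]
  exact ENNReal.ofReal_le_ofReal one_le_KL

theorem card_oB : (oB F z w r).card ≤ 10 * r + 5 := by
  refine (Finset.card_le_card ?_).trans (card_wall z w r)
  intro u hu
  exact (Finset.mem_filter.mp hu).2

/-- The fixed sites of the box joined to a free site of the box carry the value `c0`. -/
def Flt (F : Finset (ℤ × ℤ)) (E : Finset ((ℤ × ℤ) × (ℤ × ℤ))) (ξ : ℤ × ℤ → ℝ) (z : ℤ × ℤ) (r : ℕ)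
    (c0 : ℝ) : Prop :=
  ∀ v ∈ F, v ∈ box z r → ∀ u ∈ nbr E v, u ∈ box z r → u ∉ F → ξ u = c0

theorem box_data {c0 : ℝ} (hL : Lat F E) (hc : Flt F E ξ z r c0) :
    ∀ p ∈ away (oX F z r) E, (p.1 ∈ oQ F z w r → p.2 ∉ oQ F z w r ∪ oB F z w r → ξ p.2 = c0) ∧
      (p.2 ∈ oQ F z w r → p.1 ∉ oQ F z w r ∪ oB F z w r → ξ p.1 = c0) := by
  intro p hp
  obtain ⟨hpE, -, -⟩ := mem_away.mp hp
  obtain ⟨s1, s2⟩ := hL.short p hpE
  have key : ∀ v ∈ oQ F z w r, ∀ u, ((v, u) ∈ E ∨ (u, v) ∈ E) → u ∈ box z r →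
      u ∉ oQ F z w r ∪ oB F z w r → ξ u = c0 := by
    intro v hv u hvu hu h
    simp only [oQ, Finset.mem_filter] at hv
    have huF : u ∉ F := fun hF => h (by
      simp only [oQ, oB, Finset.mem_union, Finset.mem_filter]; tauto)
    refine hc v hv.1 hv.2.1 u ?_ hu huF
    rw [mem_nbr]
    exact ⟨fun h' => huF (h' ▸ hv.1), hvu⟩
  constructor
  · intro h1 h2
    have h1' := h1
    simp only [oQ, Finset.mem_filter] at h1
    exact key _ h1' _ (Or.inl hpE) (inner_step (a := p.1) (b := p.2) ⟨s1, s2⟩ h1.2.1 h1.2.2) h2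
  · intro h1 h2
    have h1' := h1
    simp only [oQ, Finset.mem_filter] at h1
    exact key _ h1' _ (Or.inr hpE) (inner_step (a := p.2) (b := p.1) ⟨by rw [abs_sub_comm]; exact s1,
        by rw [abs_sub_comm]; exact s2⟩ h1.2.1 h1.2.2) h2

theorem box_avoid (hS : ∀ q ∈ S, q.1.1 ∈ box z r ∧ q.1.2 ∈ box z r) :
    ∀ q ∈ S, q.1.1 ∉ oX F z r ∧ q.1.2 ∉ oX F z r := by
  intro q hq
  obtain ⟨h1, h2⟩ := hS q hq
  simp only [oX, Finset.mem_filter]
  tauto

/-- LEMMA LC in a box containing a fixed site. -/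
theorem LC_box_bdry (hL : Lat F E) (hA : Anch F E) (hξ : ∀ u, u ∉ F → |ξ u| ≤ 1 / 2)
    {c0 : ℝ} (hc0 : |c0| ≤ 1 / 2) (hc : Flt F E ξ z r c0)
    (hw : w ∈ box z r) (hwF : w ∉ F)
    {n : ℕ} (hn : ∀ v ∈ F, (nbr E v).card ≤ n) (hS : FreshR F E S)
    (hSb : ∀ q ∈ S, q.1.1 ∈ box z r ∧ q.1.2 ∈ box z r) :
    volume (tightR F E ξ S) ≤
      ENNReal.ofReal KL ^ (10 * r + 5) * (wgt n S * volume (ham F E ξ)) := by
  refine divide (X := oX F z r) (B := oB F z w r) (Q0 := oQ F z w r) hL card_oB ?_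
  have h := LC_tight_bdry (sep_box (z := z) (w := w) (r := r) hL) hA hξ ?_ hc0 (box_data hL hc) hn
    hS (box_avoid hSb)
  · rw [mul_assoc (2 ^ _)] at h; exact h
  · refine anch_of_conn (W := wall z w r) (w := w) ?_ ?_ (fun u hu => wall_conn hw hu) ?_
    · simp only [oB, Finset.mem_filter]; tauto
    · intro u hu; exact (Finset.mem_filter.mp hu).2
    · intro a b hab ha
      exact wall_edge hL hab (Finset.mem_filter.mp ha).1

/-- LEMMA LC in a box of free sites. -/
theorem LC_box_int (hL : Lat F E) (hA : Anch F E) (hξ : ∀ u, u ∉ F → |ξ u| ≤ 1 / 2)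
    (hF : box z r ⊆ F) {R : ℝ} (hR : ∀ x ∈ ham F E ξ, ∀ u, |Ham560.ext F ξ x u| ≤ R)
    {n : ℕ} (hn : ∀ v ∈ F, (nbr E v).card ≤ n) (hS : FreshR F E S)
    (hSb : ∀ q ∈ S, q.1.1 ∈ box z r ∧ q.1.2 ∈ box z r)
    (hSo : ∀ q ∈ S, q.1.1 ≠ (z.1 + r, z.2 + r)) :
    volume (tightR F E ξ S) ≤
      ENNReal.ofReal KL ^ (10 * r + 5) *
        (ENNReal.ofReal (2 * R) * wgt n S * volume (ham F E ξ)) := by
  set o : ℤ × ℤ := (z.1 + r, z.2 + r) with ho
  have hr : |(r : ℤ)| = r := abs_of_nonneg (by positivity)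
  have hob : o ∈ box z r := by
    rw [mem_box, ho]
    simp only [add_sub_cancel_left, hr, le_refl, and_self]
  have how : o ∈ wall z o r := by
    rw [mem_wall]
    exact ⟨mem_box.mp hob, Or.inr (Or.inr rfl)⟩
  have hoB : o ∈ oB F z o r := Finset.mem_filter.mpr ⟨hF hob, how⟩
  refine divide (X := oX F z r) (B := oB F z o r) (Q0 := oQ F z o r) hL card_oB ?_
  have h := LC_tight_int (sep_box (z := z) (w := o) (r := r) hL) hA hξ hoB ?_ (c0 := 0) (by norm_num)
    (box_data hL fun v _ _ u _ hu huF => absurd (hF hu) huF) (R := R) (fun x hx => hR x hx o) hn hS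
    (box_avoid hSb) hSo
  · rw [mul_assoc (2 ^ _), mul_assoc (2 ^ _)] at h; exact h
  · refine anch_of_conn (W := wall z o r) (w := o) (Finset.notMem_erase _ _) ?_
      (fun u hu => wall_conn hob hu) ?_
    · intro u hu; exact (Finset.mem_filter.mp (Finset.mem_of_mem_erase hu)).2
    · intro a b hab ha
      exact wall_edge hL hab (Finset.mem_filter.mp (Finset.mem_of_mem_erase ha)).1

/-- LEMMA LC in a box. -/
theorem LC_box (hL : Lat F E) (hA : Anch F E) (hξ : ∀ u, u ∉ F → |ξ u| ≤ 1 / 2)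
    {c0 : ℝ} (hc0 : |c0| ≤ 1 / 2) (hc : Flt F E ξ z r c0)
    {R : ℝ} (hR : ∀ x ∈ ham F E ξ, ∀ u, |Ham560.ext F ξ x u| ≤ R)
    {n : ℕ} (hn : ∀ v ∈ F, (nbr E v).card ≤ n) (hS : FreshR F E S)
    (hSb : ∀ q ∈ S, q.1.1 ∈ box z r ∧ q.1.2 ∈ box z r)
    (hSo : ∀ q ∈ S, q.1.1 ≠ (z.1 + r, z.2 + r)) :
    volume (tightR F E ξ S) ≤
      ENNReal.ofReal KL ^ (10 * r + 5) *
        (ENNReal.ofReal (max 1 (2 * R)) * wgt n S * volume (ham F E ξ)) := by
  by_cases hF : box z r ⊆ F
  · refine (LC_box_int hL hA hξ hF hR hn hS hSb hSo).trans (mul_le_mul' le_rfl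
      (mul_le_mul' (mul_le_mul' (ENNReal.ofReal_le_ofReal (le_max_right _ _)) le_rfl) le_rfl))
  · rw [Finset.not_subset] at hF
    obtain ⟨w, hw, hwF⟩ := hF
    refine (LC_box_bdry hL hA hξ hc0 hc hw hwF hn hS hSb).trans (mul_le_mul' le_rfl ?_)
    rw [mul_assoc]
    refine le_mul_of_one_le_left' ?_
    rw [← ENNReal.ofReal_one]
    exact ENNReal.ofReal_le_ofReal (le_max_left _ _)

/-- Probability form. -/
theorem hamP_le {U : Type*} [DecidableEq U] {F : Finset U} {E : Finset (U × U)} {ξ : U → ℝ}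
    (hA : Anch F E) (hv : volume (ham F E ξ) ≠ 0) {T : Set (F → ℝ)} (hT : MeasurableSet T)
    {κ : ℝ≥0∞} (h : volume (ham F E ξ ∩ T) ≤ κ * volume (ham F E ξ)) : hamP F E ξ T ≤ κ := by
  rw [hamP, Measure.smul_apply, Measure.restrict_apply hT, smul_eq_mul, inter_comm]
  calc (volume (ham F E ξ))⁻¹ * volume (ham F E ξ ∩ T)
      ≤ (volume (ham F E ξ))⁻¹ * (κ * volume (ham F E ξ)) := mul_le_mul' le_rfl h
    _ = κ * ((volume (ham F E ξ))⁻¹ * volume (ham F E ξ)) := by ring
    _ = κ := by rw [ENNReal.inv_mul_cancel hv (volume_ham_lt_top hA).ne, mul_one]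

theorem isClosed_tightR : IsClosed (tightR F E ξ S) := by
  have : tightR F E ξ S = ham F E ξ ∩ tev F ξ S := rfl
  rw [this]
  exact isClosed_ham.inter isClosed_tev

/-- LEMMA LC in a box, probability form. -/
theorem LC_box_prob (hL : Lat F E) (hA : Anch F E) (hξ : ∀ u, u ∉ F → |ξ u| ≤ 1 / 2)
    {c0 : ℝ} (hc0 : |c0| ≤ 1 / 2) (hc : Flt F E ξ z r c0)
    {R : ℝ} (hR : ∀ x ∈ ham F E ξ, ∀ u, |Ham560.ext F ξ x u| ≤ R)
    {n : ℕ} (hn : ∀ v ∈ F, (nbr E v).card ≤ n) (hS : FreshR F E S)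
    (hSb : ∀ q ∈ S, q.1.1 ∈ box z r ∧ q.1.2 ∈ box z r)
    (hSo : ∀ q ∈ S, q.1.1 ≠ (z.1 + r, z.2 + r)) :
    hamP F E ξ (tightR F E ξ S) ≤
      ENNReal.ofReal KL ^ (10 * r + 5) * (ENNReal.ofReal (max 1 (2 * R)) * wgt n S) := by
  have hv : volume (ham F E ξ) ≠ 0 := by
    have e : ham F E ξ = ham F E (base F ξ) := ham_congr fun u hu => by rw [base, if_neg hu]
    rw [e]
    exact volume_ham_ne_zero (abs_base_le hξ)
  refine hamP_le hA hv isClosed_tightR.measurableSet ?_
  have e : ham F E ξ ∩ tightR F E ξ S = tightR F E ξ S :=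
    inter_eq_right.mpr fun x hx => hx.1
  rw [e, mul_assoc]
  exact LC_box hL hA hξ hc0 hc hR hn hS hSb hSo

end Crest.Agent.R144.LC121
end
end

-- ▼ part R144/LCL_121

/-!
# R144 (helper121): LEMMA LC for the instances of S0197

* `lat_inst`, `card_nbr_le` : the lattice structure of a marked polygon;
* `height_bound` : heights are at most `C / δ`;
* `flat_inst` : away from the two marks the boundary data are constant in boxes of small diameter;
* `lcl`, `lcl_fresh` : joint tightness bound in boxes.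
-/

set_option autoImplicit false

open MeasureTheory Set Filter Topology
open scoped ENNReal

noncomputable section

namespace Crest.Agent.R144.LC121

open Crest.Agent.R144.Ham560 Crest.Agent.R144.LcB460 Crest.Agent.R144.Skel144
open Crest.ProbabilityR.TriHeights Crest.ProbabilityR.HexHeights

/-! ### lattice facts -/

theorem adj_of_isEdge {T : Finset Tri} {x y : ℤ × ℤ} (h : IsEdge T x y) : Adj x y := by
  obtain ⟨hne, t, -, hx, hy⟩ := h
  obtain ⟨⟨u1, u2⟩, b⟩ := t
  obtain ⟨x1, x2⟩ := x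
  obtain ⟨y1, y2⟩ := y
  rw [Ne, Prod.mk.injEq] at hne
  unfold Adj
  cases b
  · rw [Geo268.mem_corners_false] at hx hy
    simp only at hx hy ⊢
    omega
  · rw [Geo268.mem_corners_true] at hx hy
    simp only at hx hy ⊢
    omega

theorem card_nbr_triE (T : Finset Tri) (v : ℤ × ℤ) : (nbr (triE T) v).card ≤ 6 := by
  have hsub : nbr (triE T) v ⊆ {(v.1 + 1, v.2), (v.1 - 1, v.2), (v.1, v.2 + 1), (v.1, v.2 - 1),
      (v.1 + 1, v.2 - 1), (v.1 - 1, v.2 + 1)} := by
    intro w hw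
    rw [mem_nbr_triE] at hw
    have h := adj_of_isEdge hw
    obtain ⟨w1, w2⟩ := w
    unfold Adj at h
    simp only [Finset.mem_insert, Finset.mem_singleton, Prod.mk.injEq] at h ⊢
    omega
  exact (Finset.card_le_card hsub).trans Finset.card_le_six

theorem lat_of {T : Finset Tri} {F : Finset (ℤ × ℤ)}
    (hF : ∀ v ∈ F, ∀ w, Adj v w → IsEdge T v w) : Lat F (triE T) where
  short := by
    intro p hp
    have h := adj_of_isEdge (mem_triE.mp hp)
    unfold Adj at h
    rw [abs_le, abs_le]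
    omega
  unit := by
    intro a ha b hab
    rw [mem_nbr_triE]
    refine hF a ha b ?_
    unfold Adj
    rcases hab with rfl | rfl | rfl | rfl
    · left; constructor <;> simp
    · right; left; constructor <;> simp
    · right; right; left; constructor <;> simp
    · right; right; right; left; constructor <;> simp

theorem dist_centre_le {δ : ℝ} (hδ : 0 ≤ δ) (u v : ℤ × ℤ) :
    dist (centre δ u) (centre δ v) ≤ δ * (|(u.1 : ℝ) - v.1| + |(u.2 : ℝ) - v.2|) := by
  have hω : ‖(1 / 2 : ℂ) + (Real.sqrt 3 / 2 : ℝ) * Complex.I‖ = 1 := by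
    rw [← sq_eq_sq₀ (norm_nonneg _) zero_le_one, ← Complex.normSq_eq_norm_sq, Complex.normSq_apply]
    have h3 : Real.sqrt 3 * Real.sqrt 3 = 3 := Real.mul_self_sqrt (by norm_num)
    simp
    nlinarith
  rw [dist_eq_norm]
  have e : centre δ u - centre δ v = (δ : ℂ) * ((((u.1 : ℝ) - v.1 : ℝ) : ℂ) +
      (((u.2 : ℝ) - v.2 : ℝ) : ℂ) * (1 / 2 + (Real.sqrt 3 / 2 : ℝ) * Complex.I)) := by
    unfold centre
    push_cast
    ring
  rw [e, norm_mul, Complex.norm_real, Real.norm_eq_abs, abs_of_nonneg hδ]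
  refine mul_le_mul_of_nonneg_left ?_ hδ
  refine (norm_add_le _ _).trans ?_
  rw [norm_mul, hω, Complex.norm_real, Complex.norm_real, Real.norm_eq_abs, Real.norm_eq_abs,
    mul_one]

theorem dist_centre_box {δ : ℝ} (hδ : 0 ≤ δ) {z u : ℤ × ℤ} {r : ℕ} (hu : u ∈ box z r) :
    dist (centre δ u) (centre δ z) ≤ 2 * (δ * r) := by
  refine (dist_centre_le hδ u z).trans ?_
  obtain ⟨h1, h2⟩ := mem_box.mp hu
  have h1' : |(u.1 : ℝ) - z.1| ≤ r := by exact_mod_cast h1
  have h2' : |(u.2 : ℝ) - z.2| ≤ r := by exact_mod_cast h2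
  nlinarith

/-! ### boundedness -/

theorem isBounded_polygon (δ : ℝ) (T : Finset Tri) : Bornology.IsBounded (polygon δ T) := by
  refine Bornology.IsBounded.subset ?_ interior_subset
  have : IsCompact (⋃ t ∈ T, triRegion δ t) :=
    T.finite_toSet.isCompact_biUnion fun t _ =>
      (((corners t).finite_toSet.image _).isCompact_convexHull ℝ)
  exact this.isBounded

theorem polygon_bound {D : Set ℂ} {γ : ℝ → ℂ} {θ : ℝ} {δ : ℕ → ℝ} {T : ℕ → Finset Tri}
    {ea eb : ℕ → (ℤ × ℤ) × (ℤ × ℤ)} {c : ℕ → ℝ → ℂ} (hD : IsSmoothMarkedDomain D γ θ)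
    (h : IsMarkedApprox γ θ δ T ea eb c) :
    ∃ M : ℝ, 0 < M ∧ ∀ᶠ n in atTop, ∀ z ∈ polygon (δ n) (T n), ‖z‖ ≤ M := by
  have hγ : Geo268.Cur γ := (Geo268.dom_of_marked hD).reg.cur
  obtain ⟨M, hM⟩ := hγ.exists_bound
  have hM0 : 0 ≤ M := (norm_nonneg _).trans (hM 0).le
  refine ⟨M + 1, by linarith, ?_⟩
  filter_upwards [Metric.tendstoUniformly_iff.1 h.2.2.2.2 1 one_pos] with n hn z hz
  have hb := isBounded_polygon (δ n) (T n)
  refine Complex.norm_le_of_forall_mem_frontier_norm_le (f := fun z => z) hb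
    (differentiable_id (𝕜 := ℂ)).diffContOnCl (fun w hw => ?_) (subset_closure hz)
  rw [← Geo268.marked_range h n] at hw
  obtain ⟨s, rfl⟩ := hw
  have h1 := hn s
  rw [dist_comm, dist_eq_norm] at h1
  have h2 : ‖c n s‖ ≤ ‖c n s - γ s‖ + ‖γ s‖ := norm_le_norm_sub_add _ _
  have := hM s
  linarith

variable (I : Inst)

theorem lat_inst (n : ℕ) : Lat (I.Fr n) (I.Ed n) :=
  lat_of fun v hv _ hw => Geo268.isEdge_of_adj (I.hM.1 n) ((Geo268.mem_free_iff I.hM n v).1 hv) hw

theorem height_bound : ∃ C : ℝ, 1 ≤ C ∧ ∀ᶠ n in atTop,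
    ∀ x ∈ ham (I.Fr n) (I.Ed n) (I.xi n), ∀ u, |Ham560.ext (I.Fr n) (I.xi n) x u| ≤ C / I.δ n := by
  obtain ⟨M, hM0, hM⟩ := polygon_bound I.hD I.hM
  refine ⟨2 * M + 2, by linarith, ?_⟩
  have hδ1 : ∀ᶠ n in atTop, I.δ n < 1 := (tendsto_order.1 I.hM.2.1).2 1 one_pos
  filter_upwards [hM, hδ1] with n hn hδn x hx u
  have hδ := I.hM.1 n
  have hC : 2 * M / I.δ n + 2 ≤ (2 * M + 2) / I.δ n := by
    rw [add_div]
    have : (2 : ℝ) ≤ 2 / I.δ n := by rw [le_div_iff₀ hδ]; linarith
    linarith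
  refine le_trans ?_ hC
  have hpos : 0 ≤ 2 * M / I.δ n := by positivity
  by_cases hu : u ∈ I.Fr n
  swap
  · rw [ext_notMem hu]
    have := I.abs_xi_le n u
    linarith
  -- the first exit to the right
  have hin : ∀ w ∈ I.Fr n, ‖centre (I.δ n) w‖ ≤ M := fun w hw =>
    hn _ ((Geo268.mem_free_iff I.hM n w).1 hw)
  have hshift : ∀ j : ℕ, centre (I.δ n) (u.1 + j, u.2) = centre (I.δ n) u + ((I.δ n * j : ℝ) : ℂ) := by
    intro j
    unfold centre
    push_cast
    ring
  have hj : ∀ j : ℕ, ((u.1 + j, u.2) : ℤ × ℤ) ∈ I.Fr n → (j : ℝ) ≤ 2 * M / I.δ n := by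
    intro j hj
    have h1 := hin _ hj
    have h2 := hin _ hu
    rw [hshift] at h1
    have h3 : ‖((I.δ n * j : ℝ) : ℂ)‖ ≤ 2 * M := by
      calc ‖((I.δ n * j : ℝ) : ℂ)‖ = ‖(centre (I.δ n) u + ((I.δ n * j : ℝ) : ℂ)) - centre (I.δ n) u‖ := by
            rw [add_sub_cancel_left]
        _ ≤ ‖centre (I.δ n) u + ((I.δ n * j : ℝ) : ℂ)‖ + ‖centre (I.δ n) u‖ := norm_sub_le _ _
        _ ≤ 2 * M := by linarith
    rw [Complex.norm_real, Real.norm_eq_abs, abs_of_nonneg (by positivity)] at h3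
    rw [le_div_iff₀ hδ]
    linarith
  have hex : ∃ k : ℕ, ((u.1 + k, u.2) : ℤ × ℤ) ∉ I.Fr n := by
    obtain ⟨k, hk⟩ := exists_nat_gt (2 * M / I.δ n)
    exact ⟨k, fun h => absurd (hj k h) (not_le.2 hk)⟩
  obtain ⟨k, hk, hmin⟩ : ∃ k : ℕ, ((u.1 + k, u.2) : ℤ × ℤ) ∉ I.Fr n ∧
      ∀ j < k, ((u.1 + j, u.2) : ℤ × ℤ) ∈ I.Fr n := by
    classical
    exact ⟨Nat.find hex, Nat.find_spec hex, fun j hj => by
      have := Nat.find_min hex hj
      rwa [not_not] at this⟩
  have hpath : ∀ j ≤ k, |Ham560.ext (I.Fr n) (I.xi n) x u -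
      Ham560.ext (I.Fr n) (I.xi n) x (u.1 + j, u.2)| ≤ j := by
    intro j
    induction j with
    | zero => intro _; simp
    | succ j ih =>
      intro hjk
      have h1 := ih (by omega)
      have h2 : ((u.1 + (j + 1 : ℕ), u.2) : ℤ × ℤ) ∈ nbr (I.Ed n) (u.1 + j, u.2) := by
        refine (lat_inst I n).unit _ (hmin j (by omega)) _ (Or.inl ?_)
        push_cast
        ext <;> simp; ring
      have h3 := ham_nbr hx h2
      rw [abs_le] at h1 h3 ⊢
      push_cast at h3 ⊢
      constructor <;> linarith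
  have h1 := hpath k le_rfl
  rw [ext_notMem hk] at h1
  have h2 := I.abs_xi_le n (u.1 + k, u.2)
  have h3 : (k : ℝ) ≤ 2 * M / I.δ n + 1 := by
    rcases Nat.eq_zero_or_pos k with h | h
    · rw [h]; push_cast; linarith
    · have := hj (k - 1) (hmin (k - 1) (by omega))
      rw [Nat.cast_sub h] at this
      push_cast at this
      linarith
  rw [abs_le] at h1 h2 ⊢
  constructor <;> linarith

/-! ### constant data away from the marks -/

theorem arcs_apart {D : Set ℂ} {γ : ℝ → ℂ} {θ : ℝ} (hD : IsSmoothMarkedDomain D γ θ) {ε : ℝ}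
    (hε : 0 < ε) : ∃ d : ℝ, 0 < d ∧ ∀ s ∈ Icc 0 θ, ∀ t ∈ Icc θ (2 * Real.pi),
      ε ≤ dist (γ s) (γ 0) → ε ≤ dist (γ s) (γ θ) → ε ≤ dist (γ t) (γ 0) → ε ≤ dist (γ t) (γ θ) →
      d ≤ dist (γ s) (γ t) := by
  obtain ⟨-, -, -, hcd, hper, -, hinj, -, h0, h1⟩ := hD
  have hcont : Continuous γ := hcd.continuous
  set K : Set ℂ := {z | ε ≤ dist z (γ 0) ∧ ε ≤ dist z (γ θ)} with hK
  have hKc : IsClosed K :=
    (isClosed_le continuous_const (continuous_id.dist continuous_const)).inter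
      (isClosed_le continuous_const (continuous_id.dist continuous_const))
  set A : Set ℂ := γ '' Icc 0 θ ∩ K with hA
  set B : Set ℂ := γ '' Icc θ (2 * Real.pi) ∩ K with hB
  have hAc : IsCompact A := (isCompact_Icc.image hcont).inter_right hKc
  have hBc : IsClosed B := ((isCompact_Icc.image hcont).inter_right hKc).isClosed
  have hdisj : Disjoint A B := by
    rw [disjoint_left]
    rintro z ⟨⟨s, hs, rfl⟩, hz1, hz2⟩ ⟨⟨t, ht, hts⟩, -, -⟩
    have hs0 : s ≠ 0 := by
      rintro rfl; rw [dist_self] at hz1; linarith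
    have hsθ : s ≠ θ := by
      rintro rfl; rw [dist_self] at hz2; linarith
    have hs' : s ∈ Ico 0 (2 * Real.pi) := ⟨hs.1, lt_of_le_of_lt hs.2 h1⟩
    rcases lt_or_eq_of_le ht.2 with h | h
    · have := hinj hs' (⟨h0.le.trans ht.1, h⟩ : t ∈ Ico 0 (2 * Real.pi)) hts.symm
      subst this
      exact hsθ (le_antisymm hs.2 ht.1)
    · rw [h] at hts
      have e : γ (2 * Real.pi) = γ 0 := by simpa using hper 0
      rw [e] at hts
      have := hinj hs' (⟨le_rfl, by positivity⟩ : (0 : ℝ) ∈ Ico 0 (2 * Real.pi)) hts.symm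
      exact hs0 this
  obtain ⟨d, hd, hdd⟩ := Metric.exists_pos_forall_lt_edist hAc hBc hdisj
  refine ⟨d, by exact_mod_cast hd, fun s hs t ht a1 a2 a3 a4 => ?_⟩
  have := hdd (γ s) ⟨mem_image_of_mem _ hs, a1, a2⟩ (γ t) ⟨mem_image_of_mem _ ht, a3, a4⟩
  rw [edist_dist] at this
  have h2 : ((d : NNReal) : ℝ) < dist (γ s) (γ t) := by
    rw [← ENNReal.ofReal_coe_nnreal] at this
    exact (ENNReal.ofReal_lt_ofReal_iff_of_nonneg (by positivity)).1 this
  exact h2.le

theorem flat_inst {ε : ℝ} (hε : 0 < ε) : ∃ ρ : ℝ, 0 < ρ ∧ ∀ᶠ n in atTop, ∀ (z : ℤ × ℤ) (r : ℕ),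
    I.δ n * r ≤ ρ → ε ≤ dist (centre (I.δ n) z) (I.γ 0) → ε ≤ dist (centre (I.δ n) z) (I.γ I.θ) →
    ∃ c0 : ℝ, |c0| ≤ 1 / 2 ∧ Flt (I.Fr n) (I.Ed n) (I.xi n) z r c0 := by
  obtain ⟨d, hd, hdd⟩ := arcs_apart I.hD (half_pos hε)
  set η : ℝ := min (ε / 8) (d / 8) with hη
  have hη0 : 0 < η := by positivity
  have hη1 : η ≤ ε / 8 := min_le_left _ _
  have hη2 : η ≤ d / 8 := min_le_right _ _
  refine ⟨η / 2, by positivity, ?_⟩
  filter_upwards [Metric.tendstoUniformly_iff.1 I.hM.2.2.2.2 η hη0] with n hn z r hr hz0 hzθ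
  have hδ := I.hM.1 n
  -- a plus site and a minus site cannot both be in the box
  have key : ∀ u ∈ I.Ap n, ∀ v ∈ I.Am n, u ∈ box z r → v ∈ box z r → False := by
    rintro u ⟨-, s, hs0, hs1, hs⟩ v ⟨-, t, ht0, ht1, ht⟩ hu hv
    have d1 : dist (I.γ s) (centre (I.δ n) z) ≤ 2 * η := by
      have h1 := hn s
      have h2 := dist_centre_box hδ.le hu
      rw [hs] at h1
      calc _ ≤ dist (I.γ s) (centre (I.δ n) u) + dist (centre (I.δ n) u) (centre (I.δ n) z) :=
            dist_triangle _ _ _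
        _ ≤ _ := by linarith
    have d2 : dist (I.γ t) (centre (I.δ n) z) ≤ 2 * η := by
      have h1 := hn t
      have h2 := dist_centre_box hδ.le hv
      rw [ht] at h1
      calc _ ≤ dist (I.γ t) (centre (I.δ n) v) + dist (centre (I.δ n) v) (centre (I.δ n) z) :=
            dist_triangle _ _ _
        _ ≤ _ := by linarith
    have far : ∀ p q : ℂ, dist p (centre (I.δ n) z) ≤ 2 * η → ε ≤ dist (centre (I.δ n) z) q →
        ε / 2 ≤ dist p q := by
      intro p q h1 h2
      have := dist_triangle (centre (I.δ n) z) p q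
      rw [dist_comm (centre (I.δ n) z) p] at this
      linarith
    have h3 := hdd s ⟨hs0.le, hs1.le⟩ t ⟨ht0.le, ht1.le⟩ (far _ _ d1 hz0) (far _ _ d1 hzθ)
      (far _ _ d2 hz0) (far _ _ d2 hzθ)
    have h4 : dist (I.γ s) (I.γ t) ≤ 4 * η := by
      have := dist_triangle (I.γ s) (centre (I.δ n) z) (I.γ t)
      rw [dist_comm (centre (I.δ n) z) (I.γ t)] at this
      have d1' : dist (I.γ s) (centre (I.δ n) z) ≤ 2 * η := d1
      have d2' : dist (I.γ t) (centre (I.δ n) z) ≤ 2 * η := d2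
      linarith
    linarith
  have hax : |I.a| ≤ 1 / 2 := by rw [abs_of_pos I.ha0]; exact I.ha1
  by_cases hp : ∃ u ∈ I.Ap n, u ∈ box z r
  · obtain ⟨u0, hu0, hu0b⟩ := hp
    refine ⟨I.a, hax, fun v hv _ u hu hub huF => ?_⟩
    have hve := (mem_nbr_triE.mp hu)
    have huv : u ∈ verts (I.T n) := by
      obtain ⟨-, t, ht, -, h2⟩ := hve
      exact Finset.mem_biUnion.mpr ⟨t, ht, h2⟩
    have : u ∈ I.Ap n := by
      by_contra h
      have h2 : u ∈ I.Am n := by
        by_contra h3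
        exact huF (mem_freeVerts'.mpr ⟨huv, h, h3⟩)
      exact key u0 hu0 u h2 hu0b hub
    simp only [Inst.xi, triXi, if_pos this]
  · push Not at hp
    refine ⟨-I.a, by rwa [abs_neg], fun v hv _ u hu hub huF => ?_⟩
    have hve := (mem_nbr_triE.mp hu)
    have huv : u ∈ verts (I.T n) := by
      obtain ⟨-, t, ht, -, h2⟩ := hve
      exact Finset.mem_biUnion.mpr ⟨t, ht, h2⟩
    have h1 : u ∉ I.Ap n := fun h => hp u h hub
    have h2 : u ∈ I.Am n := by
      by_contra h3
      exact huF (mem_freeVerts'.mpr ⟨huv, h1, h3⟩)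
    simp only [Inst.xi, triXi, if_neg h1, if_pos h2]

/-! ### the joint tightness bound -/

theorem box_mono {z : ℤ × ℤ} {r r' : ℕ} (h : r ≤ r') : box z r ⊆ box z r' := by
  intro u hu
  rw [mem_box] at hu ⊢
  have : (r : ℤ) ≤ r' := by exact_mod_cast h
  exact ⟨hu.1.trans this, hu.2.trans this⟩


/-- **LEMMA LC for the instances of S0197**, edge dependent radii. -/
theorem lcl {ε : ℝ} (hε : 0 < ε) : ∃ ρ : ℝ, 0 < ρ ∧ ∃ C : ℝ, 1 ≤ C ∧ ∀ᶠ n in atTop,
    ∀ (z : ℤ × ℤ) (r : ℕ), I.δ n * r ≤ ρ → ε ≤ dist (centre (I.δ n) z) (I.γ 0) →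
    ε ≤ dist (centre (I.δ n) z) (I.γ I.θ) →
    ∀ S : List (((ℤ × ℤ) × (ℤ × ℤ)) × ℝ), FreshR (I.Fr n) (I.Ed n) S →
      (∀ q ∈ S, q.1.1 ∈ box z r ∧ q.1.2 ∈ box z r) →
      I.P0 n (tightR (I.Fr n) (I.Ed n) (I.xi n) S) ≤
        ENNReal.ofReal (C / I.δ n) * ENNReal.ofReal C ^ r * wgt 6 S := by
  obtain ⟨ρ, hρ, hρf⟩ := flat_inst I hε
  obtain ⟨C, hC, hCb⟩ := height_bound I
  have hK := one_le_KL
  refine ⟨ρ / 2, by positivity, KL ^ 25 * (2 * C), ?_, ?_⟩
  · have : (1 : ℝ) ≤ KL ^ 25 := one_le_pow₀ hK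
    nlinarith
  have hδ1 : ∀ᶠ n in atTop, I.δ n < min 1 (ρ / 2) :=
    (tendsto_order.1 I.hM.2.1).2 _ (by positivity)
  filter_upwards [hρf, hCb, hδ1] with n hn hCn hδn z r hr hz0 hzθ S hS hSb
  have hδ := I.hM.1 n
  have hδn1 : I.δ n < 1 := hδn.trans_le (min_le_left _ _)
  have hδn2 : I.δ n < ρ / 2 := hδn.trans_le (min_le_right _ _)
  obtain ⟨c0, hc0, hF⟩ := hn z (r + 1) (by push_cast; linarith) hz0 hzθ
  have hS' : ∀ q ∈ S, q.1.1 ∈ box z (r + 1) ∧ q.1.2 ∈ box z (r + 1) := fun q hq =>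
    ⟨box_mono (Nat.le_succ r) (hSb q hq).1, box_mono (Nat.le_succ r) (hSb q hq).2⟩
  have hSo : ∀ q ∈ S, q.1.1 ≠ (z.1 + (r + 1 : ℕ), z.2 + (r + 1 : ℕ)) := by
    intro q hq h
    have h1 := (mem_box.mp (hSb q hq).1).1
    rw [h] at h1
    simp only [add_sub_cancel_left] at h1
    rw [abs_of_nonneg (by positivity)] at h1
    push_cast at h1
    linarith
  have hmain := LC_box_prob (lat_inst I n) (I.anch n) (fun u _ => I.abs_xi_le n u) hc0 hF hCn
    (fun v _ => card_nbr_triE (I.T n) v) hS hS' hSo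
  refine hmain.trans ?_
  have e1 : max 1 (2 * (C / I.δ n)) ≤ KL ^ 25 * (2 * C) / I.δ n / KL ^ 25 := by
    rw [mul_div_assoc (KL ^ 25), mul_div_cancel_left₀ _ (by positivity : KL ^ 25 ≠ 0)]
    refine max_le ?_ (le_of_eq (by ring))
    rw [one_le_div hδ]; linarith
  have e2 : ENNReal.ofReal KL ^ (10 * (r + 1) + 5) ≤
      ENNReal.ofReal (KL ^ 25) * ENNReal.ofReal (KL ^ 25 * (2 * C)) ^ r := by
    have hK1 : (1 : ℝ≥0∞) ≤ ENNReal.ofReal KL := by
      rw [← ENNReal.ofReal_one]; exact ENNReal.ofReal_le_ofReal hK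
    rw [ENNReal.ofReal_pow (by positivity)]
    calc ENNReal.ofReal KL ^ (10 * (r + 1) + 5) ≤ ENNReal.ofReal KL ^ (25 + 25 * r) :=
          pow_le_pow_right₀ hK1 (by omega)
      _ = ENNReal.ofReal KL ^ 25 * (ENNReal.ofReal KL ^ 25) ^ r := by rw [pow_add, pow_mul]
      _ ≤ _ := by
          refine mul_le_mul' le_rfl (pow_le_pow_left' ?_ r)
          rw [← ENNReal.ofReal_pow (by positivity)]
          refine ENNReal.ofReal_le_ofReal ?_
          have : 0 < KL ^ 25 := by positivity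
          nlinarith
  calc _ ≤ ENNReal.ofReal (KL ^ 25) * ENNReal.ofReal (KL ^ 25 * (2 * C)) ^ r *
        (ENNReal.ofReal (KL ^ 25 * (2 * C) / I.δ n / KL ^ 25) * wgt 6 S) :=
        mul_le_mul' e2 (mul_le_mul' (ENNReal.ofReal_le_ofReal e1) le_rfl)
    _ = (ENNReal.ofReal (KL ^ 25) * ENNReal.ofReal (KL ^ 25 * (2 * C) / I.δ n / KL ^ 25)) *
        ENNReal.ofReal (KL ^ 25 * (2 * C)) ^ r * wgt 6 S := by ring
    _ = _ := by
        rw [← ENNReal.ofReal_mul (by positivity), mul_div_cancel₀ _ (by positivity : KL ^ 25 ≠ 0)]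

/-- LEMMA LC for the instances of S0197, one radius. -/
theorem lcl_fresh {ε : ℝ} (hε : 0 < ε) : ∃ ρ : ℝ, 0 < ρ ∧ ∃ C : ℝ, 1 ≤ C ∧ ∀ᶠ n in atTop,
    ∀ (z : ℤ × ℤ) (r : ℕ), I.δ n * r ≤ ρ → ε ≤ dist (centre (I.δ n) z) (I.γ 0) →
    ε ≤ dist (centre (I.δ n) z) (I.γ I.θ) →
    ∀ T : List ((ℤ × ℤ) × (ℤ × ℤ)), Fresh (I.Fr n) (I.Ed n) T →
      (∀ q ∈ T, q.1 ∈ box z r ∧ q.2 ∈ box z r) → ∀ ε' : ℝ, 0 < ε' →
      I.P0 n {h | h ∈ ham (I.Fr n) (I.Ed n) (I.xi n) ∧ ∀ q ∈ T,
          1 - ε' ≤ |Ham560.ext (I.Fr n) (I.xi n) h q.1 - Ham560.ext (I.Fr n) (I.xi n) h q.2|} ≤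
        ENNReal.ofReal (C / I.δ n) * ENNReal.ofReal C ^ r *
          ENNReal.ofReal (2304 * ε') ^ T.length := by
  obtain ⟨ρ, hρ, C, hC, h⟩ := lcl I hε
  refine ⟨ρ, hρ, C, hC, ?_⟩
  filter_upwards [h] with n hn z r hr hz0 hzθ T hT hTb ε' hε'
  have h1 := hn z r hr hz0 hzθ (T.map fun q => (q, ε')) (hT.toR hε') (by
    intro q hq
    obtain ⟨q', hq', rfl⟩ := List.mem_map.mp hq
    exact hTb q' hq')
  rw [wgt_const] at h1
  have e : (64 : ℝ) * ((6 : ℕ) : ℝ) ^ 2 * ε' = 2304 * ε' := by norm_num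
  rw [e] at h1
  refine le_trans (measure_mono ?_) h1
  rintro x ⟨hx, hx2⟩
  refine ⟨hx, fun q hq => ?_⟩
  obtain ⟨q', hq', rfl⟩ := List.mem_map.mp hq
  exact hx2 q' hq'

end Crest.Agent.R144.LC121
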