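import Crest.Agent.R144.It1_844
import Crest.Agent.R161.Lsm_375

/-!
# R144, integer models: height FKG, comparison of boundary conditions, L-natural (helper844)

All for `0 ≤ x ≤ 1`.

* `WL x Λ` : log-supermodular, shift invariant weight on all of `P2 → ℤ`, equal to `wt x Λ` on
  Lipschitz heights;
* `fkg` : association of monotone observables under `ex x Λ τ`;
* `holley`, `ex_mono_bc` : `τ ≤ τ'` implies `ex x Λ τ f ≤ ex x Λ τ' f` for monotone `f`;
* `cond_mono` : comparison of two conditioned laws;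
* `shift_ineq` : L-natural (translation-submodular) inequality for pairs of events;
* `pin_logConcave` : `h v` has a log-concave law.
-/

set_option autoImplicit false

noncomputable section

namespace Crest.Agent.R144.It844

open Finset MeasureTheory
open Crest.ProbabilityR.HexHeights (Adj)
open Crest.Agent.R161.Lsm375

/-- pair weight -/
def ph (x : ℝ) (a b : ℤ) : ℝ := if |a - b| ≤ 1 then (if a = b then 1 else x) else 0

theorem ph_nonneg {x : ℝ} (hx0 : 0 ≤ x) (a b : ℤ) : 0 ≤ ph x a b := by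
  unfold ph; split_ifs <;> positivity

theorem ph_shift (x : ℝ) (a b s : ℤ) : ph x (a + s) (b + s) = ph x a b := by
  unfold ph
  simp only [add_sub_add_right_eq_sub, add_left_inj]

theorem ph_comm (x : ℝ) (a b : ℤ) : ph x a b = ph x b a := by
  unfold ph
  rw [abs_sub_comm]
  simp only [eq_comm]

theorem ph_neg (x : ℝ) (a b : ℤ) : ph x (-a) (-b) = ph x a b := by
  unfold ph
  have e : |-a - -b| = |a - b| := by
    rw [← abs_neg]; congr 1; ring
  rw [e]
  simp only [neg_inj]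

theorem ph_key {x : ℝ} (hx0 : 0 ≤ x) (hx1 : x ≤ 1) (d p q : ℤ) (hp : 0 ≤ p) (hq : 0 ≤ q) (b : ℤ) :
    ph x (b + d) b * ph x (b + d + p) (b - q) ≤ ph x (b + d) (b - q) * ph x (b + d + p) b := by
  by_cases h1 : |d| ≤ 1
  · by_cases h4 : |d + p + q| ≤ 1
    · rw [abs_le] at h1 h4
      have hp2 : p ≤ 2 := by omega
      have hq2 : q ≤ 2 := by omega
      obtain ⟨h1a, h1b⟩ := h1
      have ex2 : x * x ≤ 1 := by nlinarith
      have e1 : b + d - b = d := by ring
      have e2 : b + d + p - (b - q) = d + p + q := by ring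
      have e3 : b + d - (b - q) = d + q := by ring
      have e4 : b + d + p - b = d + p := by ring
      have i1 : (b + d = b) ↔ d = 0 := by constructor <;> intro h <;> omega
      have i2 : (b + d + p = b - q) ↔ d + p + q = 0 := by constructor <;> intro h <;> omega
      have i3 : (b + d = b - q) ↔ d + q = 0 := by constructor <;> intro h <;> omega
      have i4 : (b + d + p = b) ↔ d + p = 0 := by constructor <;> intro h <;> omega
      unfold ph
      simp only [e1, e2, e3, e4, i1, i2, i3, i4]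
      interval_cases d <;> interval_cases p <;> interval_cases q <;>
        first
          | (exfalso; omega)
          | (norm_num; done)
          | (norm_num; exact ex2)
          | (norm_num; nlinarith)
          | (norm_num [abs_le]; nlinarith)
    · have e2 : b + d + p - (b - q) = d + p + q := by ring
      have : ph x (b + d + p) (b - q) = 0 := by
        unfold ph; rw [e2, if_neg h4]
      rw [this, mul_zero]
      exact mul_nonneg (ph_nonneg hx0 _ _) (ph_nonneg hx0 _ _)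
  · have e1 : b + d - b = d := by ring
    have : ph x (b + d) b = 0 := by
      unfold ph; rw [e1, if_neg h1]
    rw [this, zero_mul]
    exact mul_nonneg (ph_nonneg hx0 _ _) (ph_nonneg hx0 _ _)

theorem lsm_pair {x : ℝ} (hx0 : 0 ≤ x) (hx1 : x ≤ 1) : LSM (fun p : ℤ × ℤ => ph x p.1 p.2) := by
  refine ⟨fun p => ph_nonneg hx0 _ _, ?_⟩
  rintro ⟨a, b⟩ ⟨a', b'⟩
  simp only [Prod.mk_inf_mk, Prod.mk_sup_mk]
  rcases le_total a a' with h1 | h1 <;> rcases le_total b b' with h2 | h2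
  · rw [inf_eq_left.2 h1, inf_eq_left.2 h2, sup_eq_right.2 h1, sup_eq_right.2 h2]
  · rw [inf_eq_left.2 h1, inf_eq_right.2 h2, sup_eq_right.2 h1, sup_eq_left.2 h2]
    have := ph_key hx0 hx1 (a - b) (a' - a) (b - b') (by omega) (by omega) b
    have e1 : b + (a - b) = a := by ring
    have e2 : a + (a' - a) = a' := by ring
    have e3 : b - (b - b') = b' := by ring
    rwa [e1, e2, e3] at this
  · rw [inf_eq_right.2 h1, inf_eq_left.2 h2, sup_eq_left.2 h1, sup_eq_right.2 h2]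
    have := ph_key hx0 hx1 (a' - b') (a - a') (b' - b) (by omega) (by omega) b'
    have e1 : b' + (a' - b') = a' := by ring
    have e2 : a' + (a - a') = a := by ring
    have e3 : b' - (b' - b) = b := by ring
    rw [e1, e2, e3] at this
    linarith
  · rw [inf_eq_right.2 h1, inf_eq_right.2 h2, sup_eq_left.2 h1, sup_eq_left.2 h2, mul_comm]

theorem lsm_edge {x : ℝ} (hx0 : 0 ≤ x) (hx1 : x ≤ 1) (u v : P2) :
    LSM (fun h : P2 → ℤ => ph x (h u) (h v)) :=
  (lsm_pair hx0 hx1).comp (fun h : P2 → ℤ => (h u, h v)) (fun _ _ => rfl) (fun _ _ => rfl)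

/-- triangle weight, defined for all heights -/
def E3 (x : ℝ) (h : P2 → ℤ) (u : P2) : ℝ :=
  ph x (h u) (h (u.1 + 1, u.2)) * ph x (h u) (h (u.1, u.2 + 1)) *
    ph x (h (u.1 + 1, u.2)) (h (u.1, u.2 + 1))

theorem lsm_E3 {x : ℝ} (hx0 : 0 ≤ x) (hx1 : x ≤ 1) (u : P2) : LSM (fun h : P2 → ℤ => E3 x h u) :=
  ((lsm_edge hx0 hx1 _ _).mul (lsm_edge hx0 hx1 _ _)).mul (lsm_edge hx0 hx1 _ _)

theorem E3_eq_tw (x : ℝ) {h : P2 → ℤ} (hh : Lip h) (u : P2) : E3 x h u = tw x h u := by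
  obtain ⟨h1, h2, h3⟩ := lip_iff.1 hh u
  unfold E3 ph
  rw [if_pos h1, if_pos h2, if_pos h3]
  rw [abs_le] at h1 h2 h3
  by_cases e1 : h u = h (u.1 + 1, u.2)
  · by_cases e2 : h u = h (u.1, u.2 + 1)
    · have hc : Cst h u := ⟨e1, e2⟩
      rw [tw, if_pos hc, if_pos e1, if_pos e2, if_pos (e1 ▸ e2)]
      norm_num
    · have hc : ¬ Cst h u := fun hc => e2 hc.2
      rw [tw, if_neg hc, if_pos e1, if_neg e2, if_neg (e1 ▸ e2)]
      ring
  · by_cases e2 : h u = h (u.1, u.2 + 1)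
    · have hc : ¬ Cst h u := fun hc => e1 hc.1
      rw [tw, if_neg hc, if_neg e1, if_pos e2, if_neg (fun e => e1 (e2.trans e.symm))]
      ring
    · have hc : ¬ Cst h u := fun hc => e1 hc.1
      have e3 : h (u.1 + 1, u.2) = h (u.1, u.2 + 1) := by omega
      rw [tw, if_neg hc, if_neg e1, if_neg e2, if_pos e3]
      ring

/-- log-supermodular weight on all heights -/
def WL (x : ℝ) (Λ : Finset P2) (h : P2 → ℤ) : ℝ := ∏ u ∈ upT Λ, E3 x h u

theorem lsm_WL {x : ℝ} (hx0 : 0 ≤ x) (hx1 : x ≤ 1) (Λ : Finset P2) : LSM (WL x Λ) :=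
  LSM.prod _ fun _ _ => lsm_E3 hx0 hx1 _

theorem WL_eq_wt (x : ℝ) (Λ : Finset P2) {h : P2 → ℤ} (hh : Lip h) : WL x Λ h = wt x Λ h :=
  Finset.prod_congr rfl fun u _ => E3_eq_tw x hh u


/-- adding a constant, as an order isomorphism -/
def shiftP (s : ℤ) : (P2 → ℤ) ≃o (P2 → ℤ) := OrderIso.addRight (fun _ => s)

@[simp] theorem shiftP_apply (s : ℤ) (a : P2 → ℤ) (v : P2) : shiftP s a v = a v + s := rfl

@[simp] theorem shiftP_symm_apply (s : ℤ) (a : P2 → ℤ) (v : P2) : (shiftP s).symm a v = a v - s := by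
  have : (shiftP s).symm a = fun v => a v - s := by
    rw [OrderIso.symm_apply_eq]
    funext y
    simp
  rw [this]



theorem sum_wt_eq {x : ℝ} {Λ : Finset P2} {τ : P2 → ℤ} (f : (P2 → ℤ) → ℝ) :
    ∑ h ∈ conf Λ τ, wt x Λ h • f h = ∑ h ∈ conf Λ τ, WL x Λ h * f h :=
  Finset.sum_congr rfl fun h hh => by rw [WL_eq_wt x Λ (mem_conf.1 hh).1, smul_eq_mul]

theorem Z_eq_WL (x : ℝ) (Λ : Finset P2) (τ : P2 → ℤ) : Z x Λ τ = ∑ h ∈ conf Λ τ, WL x Λ h :=
  Finset.sum_congr rfl fun h hh => (WL_eq_wt x Λ (mem_conf.1 hh).1).symm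

/-! ### association -/

/-- **height FKG** -/
theorem fkg {x : ℝ} (hx0 : 0 < x) (hx1 : x ≤ 1) {Λ : Finset P2} {τ : P2 → ℤ} (hτ : Lip τ)
    {f g : (P2 → ℤ) → ℝ}
    (hf : ∀ a ∈ conf Λ τ, ∀ b ∈ conf Λ τ, a ≤ b → f a ≤ f b)
    (hg : ∀ a ∈ conf Λ τ, ∀ b ∈ conf Λ τ, a ≤ b → g a ≤ g b) :
    ex x Λ τ f * ex x Λ τ g ≤ ex x Λ τ (fun h => f h * g h) := by
  classical
  have key := (lsm_WL hx0.le hx1 Λ).fkg (conf Λ τ) (fun a ha b hb => conf_inf_sup ha hb) hf hg
  unfold ex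
  rw [sum_wt_eq, sum_wt_eq, sum_wt_eq]
  rw [← Z_eq_WL] at key
  have hZ := Z_pos hx0 hτ (Λ := Λ)
  simp only [smul_eq_mul]
  rw [inv_mul_eq_div, inv_mul_eq_div, inv_mul_eq_div, div_mul_div_comm, div_le_div_iff₀ (by positivity) hZ]
  nlinarith [key, hZ]

/-- Holley / Ahlswede–Daykin comparison of two finite families of heights -/
theorem holley_sum {μ : (P2 → ℤ) → ℝ} (hμ : LSM μ) (A B : Finset (P2 → ℤ))
    (hAB : ∀ a ∈ A, ∀ b ∈ B, a ⊓ b ∈ A ∧ a ⊔ b ∈ B) {f : (P2 → ℤ) → ℝ}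
    (hf : ∀ a ∈ A, ∀ b ∈ B, a ≤ b → f a ≤ f b) :
    (∑ a ∈ A, μ a * f a) * (∑ b ∈ B, μ b) ≤ (∑ a ∈ A, μ a) * ∑ b ∈ B, μ b * f b := by
  classical
  obtain ⟨m, hm⟩ : ∃ m : ℝ, (∀ a ∈ A, 0 ≤ f a + m) ∧ ∀ b ∈ B, 0 ≤ f b + m := by
    refine ⟨∑ a ∈ A ∪ B, |f a|, fun a ha => ?_, fun a ha => ?_⟩
    · have h1 : |f a| ≤ ∑ a ∈ A ∪ B, |f a| :=
        Finset.single_le_sum (f := fun a => |f a|) (fun b _ => abs_nonneg _)
          (Finset.mem_union_left B ha)
      have h2 := neg_abs_le (f a)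
      linarith
    · have h1 : |f a| ≤ ∑ a ∈ A ∪ B, |f a| :=
        Finset.single_le_sum (f := fun a => |f a|) (fun b _ => abs_nonneg _)
          (Finset.mem_union_right A ha)
      have h2 := neg_abs_le (f a)
      linarith
  set ιA : (P2 → ℤ) → ℝ := fun a => if a ∈ A then 1 else 0
  set ιB : (P2 → ℤ) → ℝ := fun a => if a ∈ B then 1 else 0
  have nA : ∀ a, 0 ≤ ιA a * (μ a * (f a + m)) := fun a => by
    by_cases h : a ∈ A
    · simpa [ιA, h] using mul_nonneg (hμ.1 a) (hm.1 a h)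
    · simp [ιA, h]
  have nB : ∀ a, 0 ≤ ιB a * μ a := fun a => by
    by_cases h : a ∈ B
    · simpa [ιB, h] using hμ.1 a
    · simp [ιB, h]
  have nA' : ∀ a, 0 ≤ ιA a * μ a := fun a => by
    by_cases h : a ∈ A
    · simpa [ιA, h] using hμ.1 a
    · simp [ιA, h]
  have nB' : ∀ a, 0 ≤ ιB a * (μ a * (f a + m)) := fun a => by
    by_cases h : a ∈ B
    · simpa [ιB, h] using mul_nonneg (hμ.1 a) (hm.2 a h)
    · simp [ιB, h]
  have key := four_functions_theorem (α := P2 → ℤ) (β := ℝ)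
    (fun a => ιA a * (μ a * (f a + m))) (fun b => ιB b * μ b)
    (fun a => ιA a * μ a) (fun b => ιB b * (μ b * (f b + m)))
    nA nB nA' nB'
    (fun a b => by
      by_cases ha : a ∈ A
      · by_cases hb : b ∈ B
        · obtain ⟨h1, h2⟩ := hAB a ha b hb
          simp only [ιA, ιB, ha, hb, h1, h2, if_true, one_mul]
          have e1 : f a + m ≤ f (a ⊔ b) + m := by
            have := hf a ha _ h2 le_sup_left
            linarith
          calc μ a * (f a + m) * μ b = (μ a * μ b) * (f a + m) := by ring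
            _ ≤ (μ (a ⊓ b) * μ (a ⊔ b)) * (f (a ⊔ b) + m) :=
                mul_le_mul (hμ.2 a b) e1 (hm.1 a ha) (mul_nonneg (hμ.1 _) (hμ.1 _))
            _ = _ := by ring
        · simp only [ιB, hb, if_false, zero_mul, mul_zero]
          exact mul_nonneg (nA' _) (nB' _)
      · simp only [ιA, ha, if_false, zero_mul]
        exact mul_nonneg (nA' _) (nB' _))
    A B
  have e : ∀ (C : Finset (P2 → ℤ)) (φ : (P2 → ℤ) → ℝ),
      ∑ a ∈ C, (if a ∈ C then (1 : ℝ) else 0) * φ a = ∑ a ∈ C, φ a := fun C φ =>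
    Finset.sum_congr rfl fun a ha => by simp [ha]
  have e1 : ∀ (C D : Finset (P2 → ℤ)) (φ : (P2 → ℤ) → ℝ), (∀ a ∈ C, 0 ≤ φ a) →
      ∑ a ∈ D, (if a ∈ C then (1 : ℝ) else 0) * φ a ≤ ∑ a ∈ C, φ a := by
    intro C D φ hφ
    calc ∑ a ∈ D, (if a ∈ C then (1 : ℝ) else 0) * φ a = ∑ a ∈ D ∩ C, φ a := by
          rw [← Finset.filter_mem_eq_inter, Finset.sum_filter]
          exact Finset.sum_congr rfl fun a _ => by split_ifs <;> simp
      _ ≤ _ := Finset.sum_le_sum_of_subset_of_nonneg Finset.inter_subset_right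
          fun a ha _ => hφ a ha
  rw [e A, e B] at key
  have key2 : (∑ a ∈ A, μ a * (f a + m)) * (∑ b ∈ B, μ b) ≤
      (∑ a ∈ A, μ a) * ∑ b ∈ B, μ b * (f b + m) := by
    refine key.trans (mul_le_mul (e1 A _ _ fun a _ => hμ.1 a)
      (e1 B _ _ fun a ha => mul_nonneg (hμ.1 a) (hm.2 a ha)) ?_ ?_)
    · exact Finset.sum_nonneg fun a _ => nB' a
    · exact Finset.sum_nonneg fun a _ => hμ.1 a
  have s1 : ∀ C : Finset (P2 → ℤ), ∑ a ∈ C, μ a * (f a + m) = ∑ a ∈ C, μ a * f a + m * ∑ a ∈ C, μ a := by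
    intro C
    rw [Finset.mul_sum, ← Finset.sum_add_distrib]
    exact Finset.sum_congr rfl fun a _ => by ring
  rw [s1, s1] at key2
  nlinarith [key2]

/-- normalised form: comparison of the two conditioned laws (both with weight `WL`) -/
theorem holley {μ : (P2 → ℤ) → ℝ} (hμ : LSM μ) (A B : Finset (P2 → ℤ))
    (hA : 0 < ∑ a ∈ A, μ a) (hB : 0 < ∑ a ∈ B, μ a)
    (hAB : ∀ a ∈ A, ∀ b ∈ B, a ⊓ b ∈ A ∧ a ⊔ b ∈ B) {f : (P2 → ℤ) → ℝ}
    (hf : ∀ a ∈ A, ∀ b ∈ B, a ≤ b → f a ≤ f b) :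
    (∑ a ∈ A, μ a * f a) / (∑ a ∈ A, μ a) ≤ (∑ b ∈ B, μ b * f b) / ∑ b ∈ B, μ b := by
  rw [div_le_div_iff₀ hA hB]
  have := holley_sum hμ A B hAB hf
  linarith

/-- monotonicity in the boundary condition -/
theorem ex_mono_bc {x : ℝ} (hx0 : 0 < x) (hx1 : x ≤ 1) {Λ : Finset P2} {τ τ' : P2 → ℤ} (hτ : Lip τ)
    (hτ' : Lip τ') (hle : ∀ v, v ∉ Λ → τ v ≤ τ' v) {f : (P2 → ℤ) → ℝ}
    (hf : ∀ a ∈ conf Λ τ, ∀ b ∈ conf Λ τ', a ≤ b → f a ≤ f b) :
    ex x Λ τ f ≤ ex x Λ τ' f := by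
  classical
  unfold ex
  rw [sum_wt_eq, sum_wt_eq, smul_eq_mul, smul_eq_mul, inv_mul_eq_div, inv_mul_eq_div]
  have e1 := Z_eq_WL x Λ τ
  have e2 := Z_eq_WL x Λ τ'
  have p1 := Z_pos hx0 hτ (Λ := Λ)
  have p2 := Z_pos hx0 hτ' (Λ := Λ)
  rw [e1, e2]
  refine holley (lsm_WL hx0.le hx1 Λ) _ _ (e1 ▸ p1) (e2 ▸ p2) (fun a ha b hb => ?_) hf
  rw [mem_conf] at ha hb
  refine ⟨mem_conf.2 ⟨ha.1.inf hb.1, fun v hv => ?_⟩, mem_conf.2 ⟨ha.1.sup hb.1, fun v hv => ?_⟩⟩
  · simp only [Pi.inf_apply, ha.2 v hv, hb.2 v hv]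
    exact min_eq_left (hle v hv)
  · simp only [Pi.sup_apply, ha.2 v hv, hb.2 v hv]
    exact max_eq_right (hle v hv)

/-! ### shifts and reflections of the boundary condition -/

theorem conf_add_const {Λ : Finset P2} {τ : P2 → ℤ} (m : ℤ) {h : P2 → ℤ} :
    (fun v => h v + m) ∈ conf Λ (fun v => τ v + m) ↔ h ∈ conf Λ τ := by
  simp only [mem_conf]
  constructor
  · rintro ⟨h1, h2⟩
    refine ⟨fun u v huv => by have := h1 u v huv; simpa using this, fun v hv => by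
      have := h2 v hv; simpa using this⟩
  · rintro ⟨h1, h2⟩
    exact ⟨h1.add_const m, fun v hv => by simp only [h2 v hv]⟩

theorem wt_add_const (x : ℝ) (Λ : Finset P2) (h : P2 → ℤ) (m : ℤ) :
    wt x Λ (fun v => h v + m) = wt x Λ h := by
  unfold wt
  refine Finset.prod_congr rfl fun u _ => ?_
  have : Cst (fun v => h v + m) u ↔ Cst h u := by simp [Cst]
  simp only [tw, this]

theorem wt_neg (x : ℝ) (Λ : Finset P2) (h : P2 → ℤ) : wt x Λ (fun v => - h v) = wt x Λ h := by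
  unfold wt
  refine Finset.prod_congr rfl fun u _ => ?_
  have : Cst (fun v => - h v) u ↔ Cst h u := by simp [Cst]
  simp only [tw, this]

theorem sum_conf_add {M : Type*} [AddCommMonoid M] (Λ : Finset P2) (τ : P2 → ℤ) (m : ℤ)
    (Φ : (P2 → ℤ) → M) :
    ∑ h ∈ conf Λ (fun v => τ v + m), Φ h = ∑ h ∈ conf Λ τ, Φ (fun v => h v + m) := by
  symm
  refine Finset.sum_bij (fun h _ => fun v => h v + m) ?_ ?_ ?_ ?_
  · intro h hh; exact (conf_add_const m).2 hh
  · intro a _ b _ e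
    funext v
    have := congrFun e v
    simpa using this
  · intro g hg
    refine ⟨fun v => g v - m, ?_, ?_⟩
    · rw [← conf_add_const m]
      simpa using hg
    · funext v; simp
  · intro h _; rfl

theorem sum_conf_neg {M : Type*} [AddCommMonoid M] (Λ : Finset P2) (τ : P2 → ℤ)
    (Φ : (P2 → ℤ) → M) :
    ∑ h ∈ conf Λ (fun v => - τ v), Φ h = ∑ h ∈ conf Λ τ, Φ (fun v => - h v) := by
  have hm : ∀ {τ h : P2 → ℤ}, h ∈ conf Λ τ → (fun v => - h v) ∈ conf Λ (fun v => - τ v) := by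
    intro τ h hh
    rw [mem_conf] at *
    exact ⟨hh.1.neg, fun v hv => by simp only [hh.2 v hv]⟩
  symm
  refine Finset.sum_bij (fun h _ => fun v => - h v) ?_ ?_ ?_ ?_
  · intro h hh; exact hm hh
  · intro a _ b _ e
    funext v
    have := congrFun e v
    simpa using this
  · intro g hg
    refine ⟨fun v => - g v, ?_, ?_⟩
    · have := hm hg
      simpa using this
    · funext v; simp
  · intro h _; rfl

section symm
variable {V : Type*} [AddCommGroup V] [Module ℝ V]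

theorem ex_add_const (x : ℝ) (Λ : Finset P2) (τ : P2 → ℤ) (m : ℤ) (f : (P2 → ℤ) → V) :
    ex x Λ (fun v => τ v + m) f = ex x Λ τ (fun h => f (fun v => h v + m)) := by
  unfold ex Z
  rw [sum_conf_add, sum_conf_add]
  simp only [wt_add_const]

theorem ex_neg (x : ℝ) (Λ : Finset P2) (τ : P2 → ℤ) (f : (P2 → ℤ) → V) :
    ex x Λ (fun v => - τ v) f = ex x Λ τ (fun h => f (fun v => - h v)) := by
  unfold ex Z
  rw [sum_conf_neg, sum_conf_neg]
  simp only [wt_neg]

end symm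

/-! ### L-natural -/





end Crest.Agent.R144.It844
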