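import Mathlib
import Crest.Agent.R144.It2_844

-- ▼ part R144/Dpl1_702
section

/-!
# R144: the one dimensional discrete Prékopa–Leindler inequality of Klartag–Lehec (helper702)

If `F s * G t ≤ z (s+t) * z (s+t+1)` for all integers `s, t` (`F, G, z ≥ 0`), then
`(∑ F) (∑ G) ≤ (∑_{even} z) (∑_{odd} z)`.

Proof: north-west corner coupling of the two laws (a monotone chain of atoms), the entropy
inequality is a one line induction using convexity of `t log t`, Gibbs' inequality at the end.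
-/

set_option autoImplicit false

noncomputable section

namespace Crest.Agent.R144.Dpl702

/-! ### the function `t log t` -/

def phi (t : ℝ) : ℝ := t * Real.log t

@[simp] theorem phi_zero : phi 0 = 0 := by simp [phi]

theorem phi_exch {c r w : ℝ} (hc : 0 ≤ c) (hcr : c ≤ r) (hw : 0 ≤ w) :
    phi r + phi (c + w) ≤ phi c + phi (r + w) := by
  rcases eq_or_lt_of_le (show c ≤ r + w by linarith) with h | h
  · have h1 : r = c := by linarith
    have h2 : w = 0 := by linarith
    subst h1; subst h2; simp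
  · have hd : 0 < r + w - c := by linarith
    have conv := Real.convexOn_mul_log
    have hmem1 : c ∈ Set.Ici (0 : ℝ) := hc
    have hmem2 : r + w ∈ Set.Ici (0 : ℝ) := by simp only [Set.mem_Ici]; linarith
    -- `r = (1-l) c + l (r+w)` with `l = (r-c)/(r+w-c)`
    set l : ℝ := (r - c) / (r + w - c) with hl
    have hl0 : 0 ≤ l := div_nonneg (by linarith) hd.le
    have hl1 : l ≤ 1 := by rw [hl, div_le_one hd]; linarith
    have e1 : (1 - l) * c + l * (r + w) = r := by
      rw [hl]; field_simp; ring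
    have e2 : l * c + (1 - l) * (r + w) = c + w := by
      rw [hl]; field_simp; ring
    have i1 := conv.2 hmem1 hmem2 (show (0 : ℝ) ≤ 1 - l by linarith) hl0 (by ring)
    have i2 := conv.2 hmem1 hmem2 hl0 (show (0 : ℝ) ≤ 1 - l by linarith) (by ring)
    simp only [smul_eq_mul, e1, e2] at i1 i2
    simp only [phi]
    nlinarith [i1, i2]

theorem phi_super {a b : ℝ} (ha : 0 ≤ a) (hb : 0 ≤ b) : phi a + phi b ≤ phi (a + b) := by
  have := phi_exch (le_refl 0) ha hb
  simpa using this

/-! ### chains of atoms -/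

/-- an atom: `(x, y, w)` -/
abbrev Atm : Type := ℤ × ℤ × ℝ

/-- `x`-cost: sum of `phi` over the maximal runs of equal first coordinate, `r` being the mass of
the current run at `x0` -/
def Vx : ℝ → ℤ → List Atm → ℝ
  | r, _, [] => phi r
  | r, x0, a :: M => if a.1 = x0 then Vx (r + a.2.2) x0 M else phi r + Vx a.2.2 a.1 M

def Vy : ℝ → ℤ → List Atm → ℝ
  | r, _, [] => phi r
  | r, y0, a :: M => if a.2.1 = y0 then Vy (r + a.2.2) y0 M else phi r + Vy a.2.2 a.2.1 M

/-- cost of the alternating partition -/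
def Psi : ℝ → ℤ → List Atm → ℝ
  | c, _, [] => phi c
  | c, s0, a :: M => if a.1 + a.2.1 = s0 + 1 then phi (c + a.2.2) + Psi a.2.2 (a.1 + a.2.1) M
      else phi c + phi a.2.2 + Psi a.2.2 (a.1 + a.2.1) M

/-- `M` is a monotone chain starting after `(x0,y0)` with nonnegative weights -/
def Mon : ℤ → ℤ → List Atm → Prop
  | _, _, [] => True
  | x0, y0, a :: M => x0 ≤ a.1 ∧ y0 ≤ a.2.1 ∧ x0 + y0 < a.1 + a.2.1 ∧ 0 < a.2.2 ∧ Mon a.1 a.2.1 M

theorem cost_ineq (M : List Atm) : ∀ (x0 y0 : ℤ) (rx ry c : ℝ), Mon x0 y0 M → 0 ≤ c →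
    ((rx = c ∧ c ≤ ry) ∨ (ry = c ∧ c ≤ rx)) →
    phi (max rx ry) + Psi c (x0 + y0) M ≤ Vx rx x0 M + Vy ry y0 M := by
  induction M with
  | nil =>
    intro x0 y0 rx ry c _ hc h
    simp only [Psi, Vx, Vy]
    rcases h with ⟨rfl, h⟩ | ⟨rfl, h⟩
    · rw [max_eq_right h]; linarith
    · rw [max_eq_left h]
  | cons a M ih =>
    intro x0 y0 rx ry c hM hc h
    obtain ⟨hx, hy, hs, hw, hM'⟩ := hM
    obtain ⟨x, y, w⟩ := a
    simp only at hx hy hs hw hM'
    have hrx : 0 ≤ rx := by rcases h with ⟨rfl, h⟩ | ⟨rfl, h⟩ <;> linarith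
    have hry : 0 ≤ ry := by rcases h with ⟨rfl, h⟩ | ⟨rfl, h⟩ <;> linarith
    have hmm : phi (max rx ry) + phi c = phi rx + phi ry := by
      rcases h with ⟨rfl, h⟩ | ⟨rfl, h⟩
      · rw [max_eq_right h]; ring
      · rw [max_eq_left h]
    -- the two exchange inequalities
    have hX : phi (max rx ry) + phi (c + w) ≤ phi (rx + w) + phi ry := by
      rcases h with ⟨rfl, h⟩ | ⟨rfl, h⟩
      · rw [max_eq_right h]; linarith
      · rw [max_eq_left h]; have := phi_exch hc h hw.le; linarith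
    have hY : phi (max rx ry) + phi (c + w) ≤ phi rx + phi (ry + w) := by
      rcases h with ⟨rfl, h⟩ | ⟨rfl, h⟩
      · rw [max_eq_right h]; have := phi_exch hc h hw.le; linarith
      · rw [max_eq_left h]
    have sx := phi_super hrx hw.le
    have sy := phi_super hry hw.le
    simp only [Psi, Vx, Vy]
    by_cases hxe : x = x0
    · by_cases hye : y = y0
      · exfalso; omega
      · rw [if_pos hxe, if_neg hye]
        have ih' := ih x y (rx + w) w w hM' hw.le (Or.inr ⟨rfl, by linarith⟩)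
        rw [max_eq_left (show w ≤ rx + w by linarith)] at ih'
        rw [hxe] at ih' ⊢
        by_cases hu : x0 + y = x0 + y0 + 1
        · rw [if_pos hu]; linarith
        · rw [if_neg hu]; linarith
    · by_cases hye : y = y0
      · rw [if_neg hxe, if_pos hye]
        have ih' := ih x y w (ry + w) w hM' hw.le (Or.inl ⟨rfl, by linarith⟩)
        rw [max_eq_right (show w ≤ ry + w by linarith)] at ih'
        rw [hye] at ih' ⊢
        by_cases hu : x + y0 = x0 + y0 + 1
        · rw [if_pos hu]; linarith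
        · rw [if_neg hu]; linarith
      · rw [if_neg hxe, if_neg hye]
        have ih' := ih x y w w w hM' hw.le (Or.inl ⟨rfl, le_refl _⟩)
        rw [max_self] at ih'
        have hu : ¬ (x + y = x0 + y0 + 1) := by omega
        rw [if_neg hu]; linarith

/-! ### the classes of the alternating partition as a list of `(position, mass)` -/

def Cls : ℝ → ℤ → List Atm → List (ℤ × ℝ)
  | c, s0, [] => [(s0 + 1, c)]
  | c, s0, a :: M => if a.1 + a.2.1 = s0 + 1 then (s0 + 1, c + a.2.2) :: Cls a.2.2 (a.1 + a.2.1) M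
      else (s0 + 1, c) :: (a.1 + a.2.1, a.2.2) :: Cls a.2.2 (a.1 + a.2.1) M

theorem Cls_phi (M : List Atm) : ∀ (c : ℝ) (s0 : ℤ),
    ((Cls c s0 M).map fun p => phi p.2).sum = Psi c s0 M := by
  induction M with
  | nil => intro c s0; simp [Cls, Psi]
  | cons a M ih =>
    intro c s0
    simp only [Cls, Psi]
    split_ifs with h
    · simp [ih]
    · simp [ih, add_assoc]

/-- linear functionals of the classes -/
theorem Cls_lin (f : ℤ → ℝ) (M : List Atm) : ∀ (c : ℝ) (s0 : ℤ),
    ((Cls c s0 M).map fun p => p.2 * f p.1).sum =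
      c * f (s0 + 1) + (M.map fun a => a.2.2 * (f (a.1 + a.2.1) + f (a.1 + a.2.1 + 1))).sum := by
  induction M with
  | nil => intro c s0; simp [Cls]
  | cons a M ih =>
    intro c s0
    simp only [Cls]
    split_ifs with h
    · simp only [List.map_cons, List.sum_cons, ih]
      rw [h]; ring
    · simp only [List.map_cons, List.sum_cons, ih]
      ring

/-- the positions are strictly increasing, larger than `s0`, and the masses positive -/
theorem Cls_pos (M : List Atm) : ∀ (c : ℝ) (x0 y0 : ℤ), Mon x0 y0 M → 0 < c →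
    (∀ p ∈ Cls c (x0 + y0) M, x0 + y0 < p.1 ∧ 0 < p.2) ∧
    ((Cls c (x0 + y0) M).map Prod.fst).Pairwise (· < ·) := by
  induction M with
  | nil => intro c x0 y0 _ hc; simp [Cls, hc]
  | cons a M ih =>
    intro c x0 y0 hM hc
    obtain ⟨hx, hy, hs, hw, hM'⟩ := hM
    obtain ⟨ih1, ih2⟩ := ih a.2.2 a.1 a.2.1 hM' hw
    simp only [Cls]
    split_ifs with h
    · refine ⟨?_, ?_⟩
      · intro p hp
        rcases List.mem_cons.1 hp with rfl | hp
        · exact ⟨by simp, by simp only; linarith⟩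
        · obtain ⟨h1, h2⟩ := ih1 p hp
          exact ⟨by omega, h2⟩
      · simp only [List.map_cons, List.pairwise_cons]
        refine ⟨?_, ih2⟩
        intro q hq
        obtain ⟨p, hp, rfl⟩ := List.mem_map.1 hq
        have := (ih1 p hp).1
        omega
    · refine ⟨?_, ?_⟩
      · intro p hp
        rcases List.mem_cons.1 hp with rfl | hp
        · exact ⟨by simp, hc⟩
        · rcases List.mem_cons.1 hp with rfl | hp
          · exact ⟨hs, hw⟩
          · obtain ⟨h1, h2⟩ := ih1 p hp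
            exact ⟨by omega, h2⟩
      · simp only [List.map_cons, List.pairwise_cons]
        refine ⟨?_, ?_, ih2⟩
        · intro q hq
          rcases List.mem_cons.1 hq with rfl | hq
          · omega
          · obtain ⟨p, hp, rfl⟩ := List.mem_map.1 hq
            have := (ih1 p hp).1
            omega
        · intro q hq
          obtain ⟨p, hp, rfl⟩ := List.mem_map.1 hq
          exact (ih1 p hp).1

/-! ### north-west corner coupling -/

def nw : List (ℤ × ℝ) → List (ℤ × ℝ) → List Atm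
  | [], _ => []
  | _ :: _, [] => []
  | a :: l1, b :: l2 =>
    if a.2 < b.2 then (a.1, b.1, a.2) :: nw l1 ((b.1, b.2 - a.2) :: l2)
    else if b.2 < a.2 then (a.1, b.1, b.2) :: nw ((a.1, a.2 - b.2) :: l1) l2
    else (a.1, b.1, a.2) :: nw l1 l2
termination_by l1 l2 => l1.length + l2.length

/-- sorted list of positive atoms -/
def Srt (l : List (ℤ × ℝ)) : Prop := (l.map Prod.fst).Pairwise (· < ·) ∧ ∀ p ∈ l, 0 < p.2

def tot (l : List (ℤ × ℝ)) : ℝ := (l.map Prod.snd).sum

@[simp] theorem tot_nil : tot [] = 0 := rfl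
@[simp] theorem tot_cons (a : ℤ × ℝ) (l : List (ℤ × ℝ)) : tot (a :: l) = a.2 + tot l := by
  simp [tot]

theorem Srt.tail {a : ℤ × ℝ} {l : List (ℤ × ℝ)} (h : Srt (a :: l)) : Srt l := by
  refine ⟨?_, fun p hp => h.2 p (List.mem_cons_of_mem _ hp)⟩
  have := h.1
  rw [List.map_cons, List.pairwise_cons] at this
  exact this.2

theorem Srt.lt {a b : ℤ × ℝ} {l : List (ℤ × ℝ)} (h : Srt (a :: b :: l)) : a.1 < b.1 := by
  have := h.1
  rw [List.map_cons, List.pairwise_cons] at this
  exact this.1 _ (by simp)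

theorem Srt.repl {a : ℤ × ℝ} {l : List (ℤ × ℝ)} (h : Srt (a :: l)) {w : ℝ} (hw : 0 < w) :
    Srt ((a.1, w) :: l) := by
  refine ⟨by simpa using h.1, fun p hp => ?_⟩
  rcases List.mem_cons.1 hp with rfl | hp
  · exact hw
  · exact h.2 p (List.mem_cons_of_mem _ hp)

theorem tot_nonneg {l : List (ℤ × ℝ)} (h : Srt l) : 0 ≤ tot l :=
  List.sum_nonneg (by
    intro x hx
    obtain ⟨p, hp, rfl⟩ := List.mem_map.1 hx
    exact (h.2 p hp).le)

theorem eq_nil_of_tot {l : List (ℤ × ℝ)} (h : Srt l) (h0 : tot l ≤ 0) : l = [] := by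
  cases l with
  | nil => rfl
  | cons a l =>
    exfalso
    have h1 := h.2 a (by simp)
    have h2 := tot_nonneg h.tail
    simp only [tot_cons] at h0
    linarith


theorem nw_mon : ∀ (n : ℕ) (l1 l2 : List (ℤ × ℝ)), l1.length + l2.length ≤ n → Srt l1 → Srt l2 →
    ∀ x0 y0 : ℤ, (∀ p ∈ l1.head?, x0 ≤ p.1) → (∀ p ∈ l2.head?, y0 ≤ p.1) →
      (∀ p ∈ l1.head?, ∀ q ∈ l2.head?, x0 + y0 < p.1 + q.1) → Mon x0 y0 (nw l1 l2) := by
  intro n
  induction n with
  | zero =>
    intro l1 l2 hn h1 h2 x0 y0 hx hy hs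
    have : l1 = [] := List.length_eq_zero_iff.1 (by omega)
    subst this
    simp [nw, Mon]
  | succ n ih =>
    intro l1 l2 hn h1 h2 x0 y0 hx hy hs
    match l1, l2 with
    | [], _ => simp [nw, Mon]
    | _ :: _, [] => simp [nw, Mon]
    | a :: l1, b :: l2 =>
      simp only [List.head?_cons, Option.mem_def, Option.some.injEq, forall_eq'] at hx hy hs
      have ha := h1.2 a (by simp)
      have hb := h2.2 b (by simp)
      simp only [List.length_cons] at hn
      rw [nw]
      split_ifs with c1 c2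
      · refine ⟨hx, hy, hs, ha, ih _ _ (by simp only [List.length_cons]; omega) h1.tail
          (h2.repl (by linarith)) _ _ ?_ ?_ ?_⟩
        · intro p hp
          cases l1 with
          | nil => simp at hp
          | cons a' l1 => simp only [List.head?_cons, Option.mem_def, Option.some.injEq] at hp
                          subst hp; exact h1.lt.le
        · simp
        · intro p hp q hq
          simp only [List.head?_cons, Option.mem_def, Option.some.injEq] at hq
          subst hq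
          cases l1 with
          | nil => simp at hp
          | cons a' l1 => simp only [List.head?_cons, Option.mem_def, Option.some.injEq] at hp
                          subst hp; have := h1.lt; simp only; omega
      · refine ⟨hx, hy, hs, hb, ih _ _ (by simp only [List.length_cons]; omega)
          (h1.repl (by linarith)) h2.tail _ _ ?_ ?_ ?_⟩
        · simp
        · intro p hp
          cases l2 with
          | nil => simp at hp
          | cons a' l1 => simp only [List.head?_cons, Option.mem_def, Option.some.injEq] at hp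
                          subst hp; exact h2.lt.le
        · intro p hp q hq
          simp only [List.head?_cons, Option.mem_def, Option.some.injEq] at hp
          subst hp
          cases l2 with
          | nil => simp at hq
          | cons a' l1 => simp only [List.head?_cons, Option.mem_def, Option.some.injEq] at hq
                          subst hq; have := h2.lt; simp only; omega
      · refine ⟨hx, hy, hs, ha, ih _ _ (by omega) h1.tail h2.tail _ _ ?_ ?_ ?_⟩
        · intro p hp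
          cases l1 with
          | nil => simp at hp
          | cons a' l1 => simp only [List.head?_cons, Option.mem_def, Option.some.injEq] at hp
                          subst hp; exact h1.lt.le
        · intro p hp
          cases l2 with
          | nil => simp at hp
          | cons a' l1 => simp only [List.head?_cons, Option.mem_def, Option.some.injEq] at hp
                          subst hp; exact h2.lt.le
        · intro p hp q hq
          cases l1 with
          | nil => simp at hp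
          | cons a' l1 =>
            cases l2 with
            | nil => simp at hq
            | cons b' l2 =>
              simp only [List.head?_cons, Option.mem_def, Option.some.injEq] at hp hq
              subst hp; subst hq
              have i1 := h1.lt
              have i2 := h2.lt
              simp only at *
              omega

/-- first marginal -/
theorem nw_fst (f : ℤ → ℝ) : ∀ (n : ℕ) (l1 l2 : List (ℤ × ℝ)), l1.length + l2.length ≤ n →
    Srt l1 → Srt l2 → tot l1 = tot l2 →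
    ((nw l1 l2).map fun a => a.2.2 * f a.1).sum = (l1.map fun p => p.2 * f p.1).sum := by
  intro n
  induction n with
  | zero =>
    intro l1 l2 hn h1 h2 ht
    have : l1 = [] := List.length_eq_zero_iff.1 (by omega)
    subst this
    simp [nw]
  | succ n ih =>
    intro l1 l2 hn h1 h2 ht
    match l1, l2 with
    | [], _ => simp [nw]
    | a :: l1, [] =>
      have := eq_nil_of_tot h1 (by rw [ht]; simp)
      simp at this
    | a :: l1, b :: l2 =>
      have ha := h1.2 a (by simp)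
      have hb := h2.2 b (by simp)
      simp only [List.length_cons] at hn
      simp only [tot_cons] at ht
      rw [nw]
      split_ifs with c1 c2
      · rw [List.map_cons, List.sum_cons, ih _ _ (by simp only [List.length_cons]; omega) h1.tail
          (h2.repl (by linarith)) (by simp only [tot_cons]; linarith)]
        simp
      · rw [List.map_cons, List.sum_cons, ih _ _ (by simp only [List.length_cons]; omega)
          (h1.repl (by linarith)) h2.tail (by simp only [tot_cons]; linarith)]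
        simp only [List.map_cons, List.sum_cons]
        ring
      · rw [List.map_cons, List.sum_cons, ih _ _ (by omega) h1.tail h2.tail (by linarith)]
        simp

/-- second marginal -/
theorem nw_snd (f : ℤ → ℝ) : ∀ (n : ℕ) (l1 l2 : List (ℤ × ℝ)), l1.length + l2.length ≤ n →
    Srt l1 → Srt l2 → tot l1 = tot l2 →
    ((nw l1 l2).map fun a => a.2.2 * f a.2.1).sum = (l2.map fun p => p.2 * f p.1).sum := by
  intro n
  induction n with
  | zero =>
    intro l1 l2 hn h1 h2 ht
    have : l1 = [] := List.length_eq_zero_iff.1 (by omega)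
    subst this
    have : l2 = [] := List.length_eq_zero_iff.1 (by omega)
    subst this
    simp [nw]
  | succ n ih =>
    intro l1 l2 hn h1 h2 ht
    match l1, l2 with
    | [], [] => simp [nw]
    | [], b :: l2 =>
      have := eq_nil_of_tot h2 (by rw [← ht]; simp)
      simp at this
    | a :: l1, [] =>
      have := eq_nil_of_tot h1 (by rw [ht]; simp)
      simp at this
    | a :: l1, b :: l2 =>
      have ha := h1.2 a (by simp)
      have hb := h2.2 b (by simp)
      simp only [List.length_cons] at hn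
      simp only [tot_cons] at ht
      rw [nw]
      split_ifs with c1 c2
      · rw [List.map_cons, List.sum_cons, ih _ _ (by simp only [List.length_cons]; omega) h1.tail
          (h2.repl (by linarith)) (by simp only [tot_cons]; linarith)]
        simp only [List.map_cons, List.sum_cons]
        ring
      · rw [List.map_cons, List.sum_cons, ih _ _ (by simp only [List.length_cons]; omega)
          (h1.repl (by linarith)) h2.tail (by simp only [tot_cons]; linarith)]
        simp
      · have hab : a.2 = b.2 := le_antisymm (not_lt.1 c2) (not_lt.1 c1)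
        rw [List.map_cons, List.sum_cons, ih _ _ (by omega) h1.tail h2.tail (by linarith)]
        simp [hab]

theorem Vx_fresh (r : ℝ) (x0 s : ℤ) (hs : x0 ≠ s) (M : List Atm) (hM : ∀ a ∈ M.head?, a.1 = s)
    (hne : M ≠ []) : Vx r x0 M = phi r + Vx 0 s M := by
  cases M with
  | nil => exact absurd rfl hne
  | cons a M =>
    have h : a.1 = s := hM a (by simp)
    rw [Vx, if_neg (by rw [h]; exact fun h => hs h.symm), Vx, if_pos h, zero_add, h]

theorem Vy_fresh (r : ℝ) (x0 s : ℤ) (hs : x0 ≠ s) (M : List Atm) (hM : ∀ a ∈ M.head?, a.2.1 = s)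
    (hne : M ≠ []) : Vy r x0 M = phi r + Vy 0 s M := by
  cases M with
  | nil => exact absurd rfl hne
  | cons a M =>
    have h : a.2.1 = s := hM a (by simp)
    rw [Vy, if_neg (by rw [h]; exact fun h => hs h.symm), Vy, if_pos h, zero_add, h]

theorem nw_head {a b : ℤ × ℝ} {l1 l2 : List (ℤ × ℝ)} :
    nw (a :: l1) (b :: l2) ≠ [] ∧ ∀ c ∈ (nw (a :: l1) (b :: l2)).head?, c.1 = a.1 ∧ c.2.1 = b.1 := by
  rw [nw]
  split_ifs <;> simp

theorem nw_Vx : ∀ (n : ℕ) (a : ℤ × ℝ) (l1 l2 : List (ℤ × ℝ)), l1.length + l2.length ≤ n →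
    Srt (a :: l1) → Srt l2 → tot (a :: l1) = tot l2 → ∀ p : ℝ,
    Vx p a.1 (nw (a :: l1) l2) = phi (p + a.2) + (l1.map fun q => phi q.2).sum := by
  intro n
  induction n with
  | zero =>
    intro a l1 l2 hn h1 h2 ht p
    have : l2 = [] := List.length_eq_zero_iff.1 (by omega)
    subst this
    have := eq_nil_of_tot h1 (by rw [ht]; simp)
    simp at this
  | succ n ih =>
    intro a l1 l2 hn h1 h2 ht p
    match l2 with
    | [] =>
      have := eq_nil_of_tot h1 (by rw [ht]; simp)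
      simp at this
    | b :: l2 =>
      have ha := h1.2 a (by simp)
      have hb := h2.2 b (by simp)
      simp only [List.length_cons] at hn
      simp only [tot_cons] at ht
      rw [nw]
      split_ifs with c1 c2
      · rw [Vx, if_pos rfl]
        cases l1 with
        | nil =>
          exfalso
          have := tot_nonneg h2.tail
          simp only [tot_nil] at ht
          linarith
        | cons a' l1 =>
          have hl := h1.lt
          obtain ⟨hne, hh⟩ := @nw_head a' (b.1, b.2 - a.2) l1 l2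
          rw [Vx_fresh _ _ a'.1 hl.ne _ (fun c hc => (hh c hc).1) hne]
          rw [ih a' l1 ((b.1, b.2 - a.2) :: l2) (by simp only [List.length_cons] at hn ⊢; omega)
            h1.tail (h2.repl (by linarith)) (by simp only [tot_cons] at ht ⊢; linarith)]
          simp
      · rw [Vx, if_pos rfl]
        have := ih (a.1, a.2 - b.2) l1 l2 (by omega) (h1.repl (by linarith)) h2.tail
          (by simp only [tot_cons]; linarith) (p + b.2)
        simp only at this
        rw [this]
        ring_nf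
      · rw [Vx, if_pos rfl]
        cases l1 with
        | nil =>
          have : l2 = [] := eq_nil_of_tot h2.tail (by simp only [tot_nil] at ht; linarith)
          subst this
          simp [nw, Vx]
        | cons a' l1 =>
          cases l2 with
          | nil =>
            exfalso
            have := tot_nonneg h1.tail.tail
            have := h1.tail.2 a' (by simp)
            simp only [tot_nil, tot_cons] at ht
            linarith
          | cons b' l2 =>
            have hl := h1.lt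
            obtain ⟨hne, hh⟩ := @nw_head a' b' l1 l2
            rw [Vx_fresh _ _ a'.1 hl.ne _ (fun c hc => (hh c hc).1) hne]
            rw [ih a' l1 (b' :: l2) (by simp only [List.length_cons] at hn ⊢; omega)
              h1.tail h2.tail (by linarith)]
            simp

theorem nw_Vy : ∀ (n : ℕ) (b : ℤ × ℝ) (l1 l2 : List (ℤ × ℝ)), l1.length + l2.length ≤ n →
    Srt l1 → Srt (b :: l2) → tot l1 = tot (b :: l2) → ∀ p : ℝ,
    Vy p b.1 (nw l1 (b :: l2)) = phi (p + b.2) + (l2.map fun q => phi q.2).sum := by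
  intro n
  induction n with
  | zero =>
    intro b l1 l2 hn h1 h2 ht p
    have : l1 = [] := List.length_eq_zero_iff.1 (by omega)
    subst this
    have := eq_nil_of_tot h2 (by rw [← ht]; simp)
    simp at this
  | succ n ih =>
    intro b l1 l2 hn h1 h2 ht p
    match l1 with
    | [] =>
      have := eq_nil_of_tot h2 (by rw [← ht]; simp)
      simp at this
    | a :: l1 =>
      have ha := h1.2 a (by simp)
      have hb := h2.2 b (by simp)
      simp only [List.length_cons] at hn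
      simp only [tot_cons] at ht
      rw [nw]
      split_ifs with c1 c2
      · rw [Vy, if_pos rfl]
        have := ih (b.1, b.2 - a.2) l1 l2 (by omega) h1.tail (h2.repl (by linarith))
          (by simp only [tot_cons]; linarith) (p + a.2)
        simp only at this
        rw [this]
        ring_nf
      · rw [Vy, if_pos rfl]
        cases l2 with
        | nil =>
          exfalso
          have := tot_nonneg h1.tail
          simp only [tot_nil] at ht
          linarith
        | cons b' l2 =>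
          have hl := h2.lt
          obtain ⟨hne, hh⟩ := @nw_head (a.1, a.2 - b.2) b' l1 l2
          rw [Vy_fresh _ _ b'.1 hl.ne _ (fun c hc => (hh c hc).2) hne]
          rw [ih b' ((a.1, a.2 - b.2) :: l1) l2 (by simp only [List.length_cons] at hn ⊢; omega)
            (h1.repl (by linarith)) h2.tail (by simp only [tot_cons] at ht ⊢; linarith)]
          simp
      · have hab : a.2 = b.2 := le_antisymm (not_lt.1 c2) (not_lt.1 c1)
        rw [Vy, if_pos rfl]
        cases l2 with
        | nil =>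
          have : l1 = [] := eq_nil_of_tot h1.tail (by simp only [tot_nil] at ht; linarith)
          subst this
          simp [nw, Vy, hab]
        | cons b' l2 =>
          cases l1 with
          | nil =>
            exfalso
            have := tot_nonneg h2.tail.tail
            have := h2.tail.2 b' (by simp)
            simp only [tot_nil, tot_cons] at ht
            linarith
          | cons a' l1 =>
            have hl := h2.lt
            obtain ⟨hne, hh⟩ := @nw_head a' b' l1 l2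
            rw [Vy_fresh _ _ b'.1 hl.ne _ (fun c hc => (hh c hc).2) hne]
            rw [ih b' (a' :: l1) l2 (by simp only [List.length_cons] at hn ⊢; omega)
              h1.tail h2.tail (by linarith)]
            simp [hab]

end Crest.Agent.R144.Dpl702
end
private theorem rz_7218c83df8 : type_of% @_root_.Crest.Agent.R144.Dpl702.Cls.eq_def := @_root_.Crest.Agent.R144.Dpl702.Cls.eq_def -- L138
private theorem rz_dc852cdd0a : type_of% @_root_.Crest.Agent.R144.Dpl702.Cls.eq_1 := @_root_.Crest.Agent.R144.Dpl702.Cls.eq_1 -- L138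
private theorem rz_c73b17a2e1 : type_of% @_root_.Crest.Agent.R144.Dpl702.Mon.eq_def := @_root_.Crest.Agent.R144.Dpl702.Mon.eq_def -- L75
private theorem rz_5d6dc5826a : type_of% @_root_.Crest.Agent.R144.Dpl702.Mon.eq_1 := @_root_.Crest.Agent.R144.Dpl702.Mon.eq_1 -- L75
private theorem rz_b59698624f : type_of% @_root_.Crest.Agent.R144.Dpl702.Psi.eq_def := @_root_.Crest.Agent.R144.Dpl702.Psi.eq_def -- L69
private theorem rz_d31b7d77dd : type_of% @_root_.Crest.Agent.R144.Dpl702.Psi.eq_1 := @_root_.Crest.Agent.R144.Dpl702.Psi.eq_1 -- L69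
private theorem rz_2b678deec6 : type_of% @_root_.Crest.Agent.R144.Dpl702.Vx.eq_def := @_root_.Crest.Agent.R144.Dpl702.Vx.eq_def -- L60
private theorem rz_a5110b8b3b : type_of% @_root_.Crest.Agent.R144.Dpl702.Vx.eq_1 := @_root_.Crest.Agent.R144.Dpl702.Vx.eq_1 -- L60
private theorem rz_c865a69a1d : type_of% @_root_.Crest.Agent.R144.Dpl702.Vy.eq_def := @_root_.Crest.Agent.R144.Dpl702.Vy.eq_def -- L64
private theorem rz_6df5e943e2 : type_of% @_root_.Crest.Agent.R144.Dpl702.Vy.eq_1 := @_root_.Crest.Agent.R144.Dpl702.Vy.eq_1 -- L64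
private theorem rz_72d04cb850 : type_of% @_root_.Crest.Agent.R144.Dpl702.nw.eq_1 := @_root_.Crest.Agent.R144.Dpl702.nw.eq_1 -- L215
end

-- ▼ part R144/Dpl2_702
section

/-!
# R144: one dimensional Klartag–Lehec inequality (real form), helper702
-/

set_option autoImplicit false

noncomputable section

namespace Crest.Agent.R144.Dpl702

open Finset

theorem Cls_mem (M : List Atm) : ∀ (c : ℝ) (s0 : ℤ), ∀ p ∈ Cls c s0 M,
    p.1 = s0 + 1 ∨ ∃ a ∈ M, p.1 = a.1 + a.2.1 ∨ p.1 = a.1 + a.2.1 + 1 := by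
  induction M with
  | nil => intro c s0 p hp; simp only [Cls, List.mem_singleton] at hp; left; rw [hp]
  | cons a M ih =>
    intro c s0 p hp
    simp only [Cls] at hp
    split_ifs at hp with h
    · rcases List.mem_cons.1 hp with rfl | hp
      · left; rfl
      · right
        rcases ih _ _ p hp with h1 | ⟨b, hb, h1⟩
        · exact ⟨a, by simp, Or.inr h1⟩
        · exact ⟨b, List.mem_cons_of_mem _ hb, h1⟩
    · rcases List.mem_cons.1 hp with rfl | hp
      · left; rfl
      · right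
        rcases List.mem_cons.1 hp with rfl | hp
        · exact ⟨a, by simp, Or.inl rfl⟩
        · rcases ih _ _ p hp with h1 | ⟨b, hb, h1⟩
          · exact ⟨a, by simp, Or.inr h1⟩
          · exact ⟨b, List.mem_cons_of_mem _ hb, h1⟩

theorem nw_mem : ∀ (n : ℕ) (l1 l2 : List (ℤ × ℝ)), l1.length + l2.length ≤ n →
    ∀ a ∈ nw l1 l2, a.1 ∈ l1.map Prod.fst ∧ a.2.1 ∈ l2.map Prod.fst := by
  intro n
  induction n with
  | zero =>
    intro l1 l2 hn a ha
    have : l1 = [] := List.length_eq_zero_iff.1 (by omega)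
    subst this
    simp [nw] at ha
  | succ n ih =>
    intro l1 l2 hn c hc
    match l1, l2 with
    | [], _ => simp [nw] at hc
    | _ :: _, [] => simp [nw] at hc
    | a :: l1, b :: l2 =>
      simp only [List.length_cons] at hn
      rw [nw] at hc
      split_ifs at hc with c1 c2
      · rcases List.mem_cons.1 hc with rfl | hc
        · simp
        · obtain ⟨h1, h2⟩ := ih _ _ (by simp only [List.length_cons]; omega) c hc
          refine ⟨by rw [List.map_cons]; exact List.mem_cons_of_mem _ h1, by simpa using h2⟩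
      · rcases List.mem_cons.1 hc with rfl | hc
        · simp
        · obtain ⟨h1, h2⟩ := ih _ _ (by simp only [List.length_cons]; omega) c hc
          refine ⟨by simpa using h1, by rw [List.map_cons]; exact List.mem_cons_of_mem _ h2⟩
      · rcases List.mem_cons.1 hc with rfl | hc
        · simp
        · obtain ⟨h1, h2⟩ := ih _ _ (by omega) c hc
          exact ⟨by rw [List.map_cons]; exact List.mem_cons_of_mem _ h1,
            by rw [List.map_cons]; exact List.mem_cons_of_mem _ h2⟩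

/-- the sorted list of atoms of a function on a finite set -/
def mkL (A : Finset ℤ) (F : ℤ → ℝ) : List (ℤ × ℝ) := (A.sort (· ≤ ·)).map fun s => (s, F s)

theorem mkL_sum (A : Finset ℤ) (F : ℤ → ℝ) (g : ℤ × ℝ → ℝ) :
    ((mkL A F).map g).sum = ∑ s ∈ A, g (s, F s) := by
  unfold mkL
  rw [List.map_map, Finset.sum_eq_multiset_sum, ← Finset.sort_eq A (· ≤ ·), Multiset.map_coe,
    Multiset.sum_coe]
  rfl

theorem mkL_fst (A : Finset ℤ) (F : ℤ → ℝ) : (mkL A F).map Prod.fst = A.sort (· ≤ ·) := by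
  unfold mkL
  rw [List.map_map]
  simp [Function.comp_def]

theorem mkL_srt (A : Finset ℤ) (F : ℤ → ℝ) (hF : ∀ s ∈ A, 0 < F s) : Srt (mkL A F) := by
  refine ⟨?_, ?_⟩
  · rw [mkL_fst]
    exact (Finset.sortedLT_sort A).pairwise
  · intro p hp
    obtain ⟨s, hs, rfl⟩ := List.mem_map.1 hp
    exact hF s ((Finset.mem_sort _).1 hs)

theorem mkL_tot (A : Finset ℤ) (F : ℤ → ℝ) : tot (mkL A F) = ∑ s ∈ A, F s :=
  mkL_sum A F Prod.snd

theorem mkL_ne {A : Finset ℤ} (hA : A.Nonempty) (F : ℤ → ℝ) : mkL A F ≠ [] := by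
  intro h
  have := mkL_fst A F
  rw [h] at this
  have h2 : A.sort (· ≤ ·) = [] := by simpa using this.symm
  obtain ⟨s, hs⟩ := hA
  have : s ∈ A.sort (· ≤ ·) := (Finset.mem_sort _).2 hs
  rw [h2] at this
  simp at this

theorem sum_map_sub' {α : Type*} (l : List α) (f g : α → ℝ) :
    (l.map fun a => f a - g a).sum = (l.map f).sum - (l.map g).sum := by
  induction l with
  | nil => simp
  | cons a l ih => simp only [List.map_cons, List.sum_cons, ih]; ring

/-- the normalised form: `ΣF = ΣG = 1` -/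
theorem kl1_aux (F G z : ℤ → ℝ) (A B C : Finset ℤ) (a b : ℝ) (ha : 0 < a) (hb : 0 < b)
    (hF : ∀ s ∈ A, 0 < F s) (hG : ∀ s ∈ B, 0 < G s) (hFa : ∑ s ∈ A, F s = 1)
    (hGb : ∑ s ∈ B, G s = 1)
    (hz : ∀ j, 0 ≤ z j) (h : ∀ s ∈ A, ∀ t ∈ B, (a * F s) * (b * G t) ≤ z (s + t) * z (s + t + 1))
    (hC : ∀ s ∈ A, ∀ t ∈ B, s + t ∈ C ∧ s + t + 1 ∈ C) :
    a * b ≤ (∑ j ∈ C with Even j, z j) * (∑ j ∈ C with ¬ Even j, z j) := by
  classical
  have hAne : A.Nonempty := by
    rw [Finset.nonempty_iff_ne_empty]; rintro rfl; simp at hFa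
  have hBne : B.Nonempty := by
    rw [Finset.nonempty_iff_ne_empty]; rintro rfl; simp at hGb
  set L1 := mkL A F with hL1
  set L2 := mkL B G with hL2
  have s1 : Srt L1 := mkL_srt A F hF
  have s2 : Srt L2 := mkL_srt B G hG
  have ht : tot L1 = tot L2 := by rw [hL1, hL2, mkL_tot, mkL_tot, hFa, hGb]
  obtain ⟨p1, l1, e1⟩ := List.exists_cons_of_ne_nil (mkL_ne hAne F)
  obtain ⟨p2, l2, e2⟩ := List.exists_cons_of_ne_nil (mkL_ne hBne G)
  rw [← hL1] at e1
  rw [← hL2] at e2
  obtain ⟨hMne, hMh⟩ := @nw_head p1 p2 l1 l2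
  obtain ⟨a1, M, eM⟩ := List.exists_cons_of_ne_nil hMne
  have ha1 : a1.1 = p1.1 ∧ a1.2.1 = p2.1 := hMh a1 (by rw [eM]; simp)
  rw [← e1, ← e2] at eM
  -- membership
  have hmem : ∀ c ∈ a1 :: M, c.1 ∈ A ∧ c.2.1 ∈ B := by
    intro c hc
    rw [← eM] at hc
    obtain ⟨h1, h2⟩ := nw_mem _ L1 L2 le_rfl c hc
    rw [hL1, mkL_fst] at h1
    rw [hL2, mkL_fst] at h2
    exact ⟨(Finset.mem_sort _).1 h1, (Finset.mem_sort _).1 h2⟩
  -- monotone
  have hmon : Mon (p1.1 - 1) p2.1 (a1 :: M) := by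
    rw [← eM]
    refine nw_mon _ L1 L2 le_rfl s1 s2 _ _ ?_ ?_ ?_
    · rw [e1]; simp
    · rw [e2]; simp
    · rw [e1, e2]; simp
  obtain ⟨-, -, -, hw1, hmon1⟩ := hmon
  -- costs
  have cx := nw_Vx _ p1 l1 L2 le_rfl (e1 ▸ s1) s2 (e1 ▸ ht) 0
  have cy := nw_Vy _ p2 L1 l2 le_rfl s1 (e2 ▸ s2) (e2 ▸ ht) 0
  rw [← e1, eM, Vx, if_pos ha1.1, zero_add, zero_add] at cx
  rw [← e2, eM, Vy, if_pos ha1.2, zero_add, zero_add] at cy
  have cost := cost_ineq M a1.1 a1.2.1 a1.2.2 a1.2.2 a1.2.2 hmon1 hw1.le (Or.inl ⟨rfl, le_rfl⟩)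
  rw [max_self] at cost
  rw [ha1.1] at cost
  rw [ha1.2] at cost
  have sF : ∑ s ∈ A, phi (F s) = phi p1.2 + (l1.map fun q => phi q.2).sum := by
    have := mkL_sum A F (fun q => phi q.2)
    rw [← hL1, e1, List.map_cons, List.sum_cons] at this
    exact this.symm
  have sG : ∑ s ∈ B, phi (G s) = phi p2.2 + (l2.map fun q => phi q.2).sum := by
    have := mkL_sum B G (fun q => phi q.2)
    rw [← hL2, e2, List.map_cons, List.sum_cons] at this
    exact this.symm
  set R : List (ℤ × ℝ) := (a1.1 + a1.2.1, a1.2.2) :: Cls a1.2.2 (a1.1 + a1.2.1) M with hR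
  have hRphi : (R.map fun p => phi p.2).sum ≤ ∑ s ∈ A, phi (F s) + ∑ s ∈ B, phi (G s) := by
    rw [hR, List.map_cons, List.sum_cons, Cls_phi, sF, sG, ← cx, ← cy, ha1.1, ha1.2]
    linarith
  have hRlin : ∀ f : ℤ → ℝ, (R.map fun p => p.2 * f p.1).sum =
      ((a1 :: M).map fun c => c.2.2 * (f (c.1 + c.2.1) + f (c.1 + c.2.1 + 1))).sum := by
    intro f
    rw [hR, List.map_cons, List.sum_cons, Cls_lin, List.map_cons, List.sum_cons]
    ring
  obtain ⟨hp1, hp2⟩ := Cls_pos M a1.2.2 a1.1 a1.2.1 hmon1 hw1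
  have hRpos : ∀ p ∈ R, 0 < p.2 := by
    intro p hp
    rcases List.mem_cons.1 hp with rfl | hp
    · exact hw1
    · exact (hp1 p hp).2
  have hRnd : (R.map Prod.fst).Nodup := by
    rw [hR, List.map_cons, List.nodup_cons]
    refine ⟨?_, hp2.imp fun h => ne_of_lt h⟩
    intro hmem
    obtain ⟨p, hp, he⟩ := List.mem_map.1 hmem
    have := (hp1 p hp).1
    rw [he] at this
    exact lt_irrefl _ this
  have hRC : ∀ p ∈ R, ∃ c ∈ a1 :: M, p.1 = c.1 + c.2.1 ∨ p.1 = c.1 + c.2.1 + 1 := by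
    intro p hp
    rcases List.mem_cons.1 hp with rfl | hp
    · exact ⟨a1, by simp, Or.inl rfl⟩
    · rcases Cls_mem M _ _ p hp with h1 | ⟨c, hc, h1⟩
      · exact ⟨a1, by simp, Or.inr h1⟩
      · exact ⟨c, List.mem_cons_of_mem _ hc, h1⟩
  -- positivity of z
  have hzz : ∀ c ∈ a1 :: M, 0 < z (c.1 + c.2.1) ∧ 0 < z (c.1 + c.2.1 + 1) := by
    intro c hc
    obtain ⟨h1, h2⟩ := hmem c hc
    have h3 := h _ h1 _ h2
    have h4 : 0 < (a * F c.1) * (b * G c.2.1) :=
      mul_pos (mul_pos ha (hF _ h1)) (mul_pos hb (hG _ h2))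
    have h5 := lt_of_lt_of_le h4 h3
    constructor
    · rcases (hz (c.1 + c.2.1)).eq_or_lt with h6 | h6
      · rw [← h6, zero_mul] at h5; exact absurd h5 (lt_irrefl _)
      · exact h6
    · rcases (hz (c.1 + c.2.1 + 1)).eq_or_lt with h6 | h6
      · rw [← h6, mul_zero] at h5; exact absurd h5 (lt_irrefl _)
      · exact h6
  have hRz : ∀ p ∈ R, 0 < z p.1 ∧ p.1 ∈ C := by
    intro p hp
    obtain ⟨c, hc, h1⟩ := hRC p hp
    obtain ⟨h2, h3⟩ := hzz c hc
    obtain ⟨h4, h5⟩ := hmem c hc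
    obtain ⟨h6, h7⟩ := hC _ h4 _ h5
    rcases h1 with h1 | h1
    · rw [h1]; exact ⟨h2, h6⟩
    · rw [h1]; exact ⟨h3, h7⟩
  -- the two totals
  set Ze : ℝ := ∑ j ∈ C with Even j, z j with hZe
  set Zo : ℝ := ∑ j ∈ C with ¬ Even j, z j with hZo
  have hpos : 0 < Ze ∧ 0 < Zo := by
    obtain ⟨h2, h3⟩ := hzz a1 (by simp)
    obtain ⟨h4, h5⟩ := hmem a1 (by simp)
    obtain ⟨h6, h7⟩ := hC _ h4 _ h5
    by_cases hev : Even (a1.1 + a1.2.1)
    · have hod : ¬ Even (a1.1 + a1.2.1 + 1) := by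
        rw [Int.even_add_one]; simpa using hev
      exact ⟨Finset.sum_pos' (fun j _ => hz j) ⟨_, Finset.mem_filter.2 ⟨h6, hev⟩, h2⟩,
        Finset.sum_pos' (fun j _ => hz j) ⟨_, Finset.mem_filter.2 ⟨h7, hod⟩, h3⟩⟩
    · have hod : Even (a1.1 + a1.2.1 + 1) := by
        rw [Int.even_add_one]; simpa using hev
      exact ⟨Finset.sum_pos' (fun j _ => hz j) ⟨_, Finset.mem_filter.2 ⟨h7, hod⟩, h3⟩,
        Finset.sum_pos' (fun j _ => hz j) ⟨_, Finset.mem_filter.2 ⟨h6, hev⟩, h2⟩⟩
  obtain ⟨hZe0, hZo0⟩ := hpos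
  set Zp : ℤ → ℝ := fun j => if Even j then Ze else Zo with hZp
  have hZp0 : ∀ j, 0 < Zp j := by
    intro j; simp only [hZp]; split_ifs <;> assumption
  -- Gibbs
  have gibbs : ∀ p ∈ R, p.2 * Real.log (z p.1) - phi p.2 - p.2 * Real.log (Zp p.1) ≤
      z p.1 / Zp p.1 - p.2 := by
    intro p hp
    have h1 := hRpos p hp
    have h2 := (hRz p hp).1
    have h3 := hZp0 p.1
    have h4 := Real.log_le_sub_one_of_pos (show 0 < z p.1 / (p.2 * Zp p.1) by positivity)
    rw [Real.log_div h2.ne' (by positivity), Real.log_mul h1.ne' h3.ne'] at h4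
    have h5 := mul_le_mul_of_nonneg_left h4 h1.le
    have h6 : p.2 * (z p.1 / (p.2 * Zp p.1) - 1) = z p.1 / Zp p.1 - p.2 := by
      field_simp
    rw [h6] at h5
    simp only [phi]
    linarith
  have sumw : ((a1 :: M).map fun c => c.2.2).sum = 1 := by
    have := nw_fst (fun _ => 1) _ L1 L2 le_rfl s1 s2 ht
    rw [eM] at this
    simp only [mul_one] at this
    rw [this, ← hFa, ← mkL_tot]
    rfl
  have hRone : (R.map fun p => p.2).sum = 2 := by
    have := hRlin (fun _ => 1)
    simp only [mul_one] at this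
    rw [this]
    have h2 : ((a1 :: M).map fun c : Atm => c.2.2 * ((1 : ℝ) + 1)).sum =
        2 * ((a1 :: M).map fun c => c.2.2).sum := by
      rw [← List.sum_map_mul_left]
      congr 1
      refine List.map_congr_left fun c _ => by ring
    rw [h2, sumw, mul_one]
  have hRq : (R.map fun p => z p.1 / Zp p.1).sum ≤ 2 := by
    have e0 : (R.map fun p => z p.1 / Zp p.1) = (R.map Prod.fst).map fun j => z j / Zp j := by
      rw [List.map_map]; rfl
    rw [e0]
    have e3 : ((R.map Prod.fst).map fun j => z j / Zp j).sum =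
        ∑ j ∈ (R.map Prod.fst).toFinset, z j / Zp j := by
      rw [List.sum_toFinset _ hRnd]
    rw [e3]
    have e4 : (R.map Prod.fst).toFinset ⊆ C := by
      intro j hj
      rw [List.mem_toFinset] at hj
      obtain ⟨p, hp, rfl⟩ := List.mem_map.1 hj
      exact (hRz p hp).2
    refine (Finset.sum_le_sum_of_subset_of_nonneg e4 fun j _ _ =>
      div_nonneg (hz j) (hZp0 j).le).trans ?_
    rw [← Finset.sum_filter_add_sum_filter_not C (fun j => Even j)]
    have e5 : ∑ j ∈ C with Even j, z j / Zp j = 1 := by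
      have : ∑ j ∈ C with Even j, z j / Zp j = ∑ j ∈ C with Even j, z j / Ze :=
        Finset.sum_congr rfl fun j hj => by
          simp only [hZp]; rw [if_pos (Finset.mem_filter.1 hj).2]
      rw [this, ← Finset.sum_div, ← hZe, div_self hZe0.ne']
    have e6 : ∑ j ∈ C with ¬ Even j, z j / Zp j = 1 := by
      have : ∑ j ∈ C with ¬ Even j, z j / Zp j = ∑ j ∈ C with ¬ Even j, z j / Zo :=
        Finset.sum_congr rfl fun j hj => by
          simp only [hZp]; rw [if_neg (Finset.mem_filter.1 hj).2]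
      rw [this, ← Finset.sum_div, ← hZo, div_self hZo0.ne']
    rw [e5, e6]; norm_num
  have hsum : (R.map fun p => p.2 * Real.log (z p.1)).sum - (R.map fun p => phi p.2).sum -
      (R.map fun p => p.2 * Real.log (Zp p.1)).sum ≤ 0 := by
    have h1 : (R.map fun p => p.2 * Real.log (z p.1) - phi p.2 - p.2 * Real.log (Zp p.1)).sum ≤
        (R.map fun p => z p.1 / Zp p.1 - p.2).sum := List.sum_le_sum gibbs
    rw [sum_map_sub' R (fun p => p.2 * Real.log (z p.1) - phi p.2) (fun p => p.2 * Real.log (Zp p.1)),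
      sum_map_sub' R (fun p => p.2 * Real.log (z p.1)) (fun p => phi p.2),
      sum_map_sub' R (fun p => z p.1 / Zp p.1) (fun p => p.2)] at h1
    linarith
  -- the Z-part
  have hZlog : (R.map fun p => p.2 * Real.log (Zp p.1)).sum = Real.log Ze + Real.log Zo := by
    rw [hRlin (fun j => Real.log (Zp j))]
    have : ((a1 :: M).map fun c : Atm =>
        c.2.2 * (Real.log (Zp (c.1 + c.2.1)) + Real.log (Zp (c.1 + c.2.1 + 1)))).sum =
        ((a1 :: M).map fun c => (Real.log Ze + Real.log Zo) * c.2.2).sum := by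
      congr 1
      refine List.map_congr_left fun c _ => ?_
      simp only [hZp, Int.even_add_one]
      by_cases hev : Even (c.1 + c.2.1)
      · simp only [hev, not_true_eq_false, if_true, if_false]; ring
      · simp only [hev, not_false_eq_true, if_true, if_false]; ring
    rw [this, List.sum_map_mul_left, sumw, mul_one]
  -- the z-part
  have hzlog : Real.log a + Real.log b + ∑ s ∈ A, phi (F s) + ∑ s ∈ B, phi (G s) ≤
      (R.map fun p => p.2 * Real.log (z p.1)).sum := by
    rw [hRlin (fun j => Real.log (z j))]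
    have m1 := nw_fst (fun s => Real.log (a * F s)) _ L1 L2 le_rfl s1 s2 ht
    have m2 := nw_snd (fun s => Real.log (b * G s)) _ L1 L2 le_rfl s1 s2 ht
    rw [eM] at m1 m2
    have q1 : (L1.map fun p => p.2 * Real.log (a * F p.1)).sum =
        Real.log a + ∑ s ∈ A, phi (F s) := by
      rw [hL1, mkL_sum A F (fun p => p.2 * Real.log (a * F p.1))]
      have : ∀ s ∈ A, F s * Real.log (a * F s) = Real.log a * F s + phi (F s) := by
        intro s hs
        rw [Real.log_mul ha.ne' (hF s hs).ne', phi]; ring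
      rw [Finset.sum_congr rfl this, Finset.sum_add_distrib, ← Finset.mul_sum, hFa, mul_one]
    have q2 : (L2.map fun p => p.2 * Real.log (b * G p.1)).sum =
        Real.log b + ∑ s ∈ B, phi (G s) := by
      rw [hL2, mkL_sum B G (fun p => p.2 * Real.log (b * G p.1))]
      have : ∀ s ∈ B, G s * Real.log (b * G s) = Real.log b * G s + phi (G s) := by
        intro s hs
        rw [Real.log_mul hb.ne' (hG s hs).ne', phi]; ring
      rw [Finset.sum_congr rfl this, Finset.sum_add_distrib, ← Finset.mul_sum, hGb, mul_one]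
    have q3 : Real.log a + Real.log b + ∑ s ∈ A, phi (F s) + ∑ s ∈ B, phi (G s) =
        ((a1 :: M).map fun c : Atm => c.2.2 * Real.log (a * F c.1) +
          c.2.2 * Real.log (b * G c.2.1)).sum := by
      rw [List.sum_map_add, m1, m2, q1, q2]; ring
    rw [q3]
    refine List.sum_le_sum fun c hc => ?_
    obtain ⟨h1, h2⟩ := hmem c hc
    obtain ⟨h3, h4⟩ := hzz c hc
    have hcw : 0 < c.2.2 := by
      have hall : ∀ (N : List Atm) (x y : ℤ), Mon x y N → ∀ c ∈ N, 0 < c.2.2 := by
        intro N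
        induction N with
        | nil => intro x y _ c hc; simp at hc
        | cons d N ih =>
          intro x y hN c hc
          obtain ⟨-, -, -, hd, hN'⟩ := hN
          rcases List.mem_cons.1 hc with rfl | hc
          · exact hd
          · exact ih _ _ hN' c hc
      rcases List.mem_cons.1 hc with rfl | hc
      · exact hw1
      · exact hall M _ _ hmon1 c hc
    rw [← mul_add]
    refine mul_le_mul_of_nonneg_left ?_ hcw.le
    have h5 := h _ h1 _ h2
    have p1 := mul_pos ha (hF _ h1)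
    have p2 := mul_pos hb (hG _ h2)
    rw [← Real.log_mul p1.ne' p2.ne', ← Real.log_mul h3.ne' h4.ne']
    exact Real.log_le_log (mul_pos p1 p2) h5
  have final : Real.log (a * b) ≤ Real.log (Ze * Zo) := by
    rw [Real.log_mul ha.ne' hb.ne', Real.log_mul hZe0.ne' hZo0.ne']
    linarith
  exact (Real.log_le_log_iff (mul_pos ha hb) (mul_pos hZe0 hZo0)).1 final

/-- one dimensional Klartag–Lehec inequality, real form -/
theorem kl1_real (F G z : ℤ → ℝ) (A B C : Finset ℤ) (hF : ∀ s, 0 ≤ F s) (hG : ∀ s, 0 ≤ G s)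
    (hz : ∀ j, 0 ≤ z j) (h : ∀ s ∈ A, ∀ t ∈ B, F s * G t ≤ z (s + t) * z (s + t + 1))
    (hC : ∀ s ∈ A, ∀ t ∈ B, s + t ∈ C ∧ s + t + 1 ∈ C) :
    (∑ s ∈ A, F s) * (∑ s ∈ B, G s) ≤
      (∑ j ∈ C with Even j, z j) * (∑ j ∈ C with ¬ Even j, z j) := by
  classical
  have hR : 0 ≤ (∑ j ∈ C with Even j, z j) * (∑ j ∈ C with ¬ Even j, z j) :=
    mul_nonneg (Finset.sum_nonneg fun j _ => hz j) (Finset.sum_nonneg fun j _ => hz j)
  rcases (Finset.sum_nonneg fun s (_ : s ∈ A) => hF s).eq_or_lt with hA | hA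
  · rw [← hA, zero_mul]; exact hR
  rcases (Finset.sum_nonneg fun s (_ : s ∈ B) => hG s).eq_or_lt with hB | hB
  · rw [← hB, mul_zero]; exact hR
  set A' := A.filter fun s => 0 < F s with hA'
  set B' := B.filter fun s => 0 < G s with hB'
  set a := ∑ s ∈ A, F s with haa
  set b := ∑ s ∈ B, G s with hbb
  have eA : ∑ s ∈ A', F s = a := by
    rw [hA', Finset.sum_filter, haa]
    refine Finset.sum_congr rfl fun s _ => ?_
    split_ifs with h0
    · rfl
    · exact le_antisymm (hF s) (not_lt.1 h0)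
  have eB : ∑ s ∈ B', G s = b := by
    rw [hB', Finset.sum_filter, hbb]
    refine Finset.sum_congr rfl fun s _ => ?_
    split_ifs with h0
    · rfl
    · exact le_antisymm (hG s) (not_lt.1 h0)
  refine kl1_aux (fun s => F s / a) (fun s => G s / b) z A' B' C a b hA hB ?_ ?_ ?_ ?_ hz ?_ ?_
  · intro s hs; exact div_pos (Finset.mem_filter.1 hs).2 hA
  · intro s hs; exact div_pos (Finset.mem_filter.1 hs).2 hB
  · rw [← Finset.sum_div, eA, div_self hA.ne']
  · rw [← Finset.sum_div, eB, div_self hB.ne']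
  · intro s hs t ht
    have : a * (F s / a) * (b * (G t / b)) = F s * G t := by field_simp
    rw [this]
    exact h s (Finset.mem_filter.1 hs).1 t (Finset.mem_filter.1 ht).1
  · intro s hs t ht
    exact hC s (Finset.mem_filter.1 hs).1 t (Finset.mem_filter.1 ht).1

end Crest.Agent.R144.Dpl702
end
end

-- ▼ part R144/Dpl3_702
section

/-!
# R144: Klartag–Lehec discrete Prékopa–Leindler on `ι → ℤ`, `ℝ≥0∞`-valued (helper702)

`kl_pi` : if `f x * g y ≤ h ⌊(x+y)/2⌋ * k ⌈(x+y)/2⌉` for all `x y : ι → ℤ` then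
`(∑' f) * (∑' g) ≤ (∑' h) * (∑' k)`.
-/

set_option autoImplicit false

noncomputable section

namespace Crest.Agent.R144.Dpl702

open Finset
open scoped ENNReal

theorem kl1 (F G H K : ℤ → ℝ≥0∞)
    (hh : ∀ s t : ℤ, F s * G t ≤ H ((s + t) / 2) * K ((s + t + 1) / 2)) :
    (∑' s, F s) * (∑' s, G s) ≤ (∑' s, H s) * (∑' s, K s) := by
  classical
  by_cases hH0 : ∑' s, H s = 0
  · have hH : ∀ s, H s = 0 := ENNReal.tsum_eq_zero.1 hH0
    have hFG : ∀ s t, F s * G t = 0 := fun s t => le_antisymm (by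
      have := hh s t; rw [hH, zero_mul] at this; exact this) bot_le
    rw [← ENNReal.tsum_mul_right]
    simp_rw [← ENNReal.tsum_mul_left, hFG]
    simp
  by_cases hK0 : ∑' s, K s = 0
  · have hK : ∀ s, K s = 0 := ENNReal.tsum_eq_zero.1 hK0
    have hFG : ∀ s t, F s * G t = 0 := fun s t => le_antisymm (by
      have := hh s t; rw [hK, mul_zero] at this; exact this) bot_le
    rw [← ENNReal.tsum_mul_right]
    simp_rw [← ENNReal.tsum_mul_left, hFG]
    simp
  by_cases hH1 : ∑' s, H s = ⊤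
  · rw [hH1, ENNReal.top_mul hK0]; exact le_top
  by_cases hK1 : ∑' s, K s = ⊤
  · rw [hK1, ENNReal.mul_top hH0]; exact le_top
  have hHf : ∀ s, H s ≠ ⊤ := fun s => ne_top_of_le_ne_top hH1 (ENNReal.le_tsum s)
  have hKf : ∀ s, K s ≠ ⊤ := fun s => ne_top_of_le_ne_top hK1 (ENNReal.le_tsum s)
  by_cases hFt : ∃ s, F s = ⊤
  · obtain ⟨s, hs⟩ := hFt
    have hG : ∀ t, G t = 0 := by
      intro t
      by_contra h0
      have := hh s t
      rw [hs, ENNReal.top_mul h0] at this
      exact (ENNReal.mul_lt_top (hHf _).lt_top (hKf _).lt_top).ne (le_antisymm le_top this)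
    simp [hG]
  by_cases hGt : ∃ t, G t = ⊤
  · obtain ⟨t, ht⟩ := hGt
    have hF : ∀ s, F s = 0 := by
      intro s
      by_contra h0
      have := hh s t
      rw [ht, ENNReal.mul_top h0] at this
      exact (ENNReal.mul_lt_top (hHf _).lt_top (hKf _).lt_top).ne (le_antisymm le_top this)
    simp [hF]
  push Not at hFt hGt
  -- reduce to finite sets
  rw [ENNReal.tsum_eq_iSup_sum (f := F), ENNReal.iSup_mul]
  refine iSup_le fun A => ?_
  rw [ENNReal.tsum_eq_iSup_sum (f := G), ENNReal.mul_iSup]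
  refine iSup_le fun B => ?_
  -- real version
  set z : ℤ → ℝ := fun j => if Even j then (K (j / 2)).toReal else (H (j / 2)).toReal with hz
  set C : Finset ℤ := ((A ×ˢ B).image fun p => p.1 + p.2) ∪ ((A ×ˢ B).image fun p => p.1 + p.2 + 1)
    with hC
  have key := kl1_real (fun s => (F s).toReal) (fun s => (G s).toReal) z A B C
    (fun _ => ENNReal.toReal_nonneg) (fun _ => ENNReal.toReal_nonneg)
    (fun j => by simp only [hz]; split_ifs <;> exact ENNReal.toReal_nonneg)
    (by
      intro s _ t _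
      have h1 := hh s t
      have h2 := ENNReal.toReal_mono
        (ENNReal.mul_lt_top (hHf ((s + t) / 2)).lt_top (hKf ((s + t + 1) / 2)).lt_top).ne h1
      rw [ENNReal.toReal_mul, ENNReal.toReal_mul] at h2
      refine h2.trans (le_of_eq ?_)
      simp only [hz]
      by_cases hev : Even (s + t)
      · have hod : ¬ Even (s + t + 1) := by rw [Int.even_add_one]; simpa using hev
        rw [if_pos hev, if_neg hod]
        obtain ⟨m, hm⟩ := hev
        have e1 : (s + t) / 2 = m := by omega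
        have e2 : (s + t + 1) / 2 = m := by omega
        rw [e1, e2, mul_comm]
      · have hod : Even (s + t + 1) := by rw [Int.even_add_one]; simpa using hev
        rw [if_neg hev, if_pos hod])
    (by
      intro s hs t ht
      refine ⟨Finset.mem_union_left _ (Finset.mem_image.2 ⟨(s, t), by simp [hs, ht], rfl⟩),
        Finset.mem_union_right _ (Finset.mem_image.2 ⟨(s, t), by simp [hs, ht], rfl⟩)⟩)
  -- compare the two factors
  have bK : ENNReal.ofReal (∑ j ∈ C with Even j, z j) ≤ ∑' s, K s := by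
    rw [ENNReal.ofReal_sum_of_nonneg (fun j _ => by
      simp only [hz]; split_ifs <;> exact ENNReal.toReal_nonneg)]
    have e1 : ∑ j ∈ C with Even j, ENNReal.ofReal (z j) = ∑ j ∈ C with Even j, K (j / 2) := by
      refine Finset.sum_congr rfl fun j hj => ?_
      simp only [hz]
      rw [if_pos (Finset.mem_filter.1 hj).2, ENNReal.ofReal_toReal (hKf _)]
    have e2 : ∑ j ∈ C with Even j, K (j / 2) =
        ∑ m ∈ (C.filter fun j => Even j).image (fun j => j / 2), K m := by
      rw [Finset.sum_image]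
      intro j hj j' hj' he
      have h1 := (Finset.mem_filter.1 hj).2
      have h2 := (Finset.mem_filter.1 hj').2
      rw [Int.even_iff] at h1 h2
      simp only at he
      omega
    rw [e1, e2]
    exact ENNReal.sum_le_tsum _
  have bH : ENNReal.ofReal (∑ j ∈ C with ¬ Even j, z j) ≤ ∑' s, H s := by
    rw [ENNReal.ofReal_sum_of_nonneg (fun j _ => by
      simp only [hz]; split_ifs <;> exact ENNReal.toReal_nonneg)]
    have e1 : ∑ j ∈ C with ¬ Even j, ENNReal.ofReal (z j) = ∑ j ∈ C with ¬ Even j, H (j / 2) := by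
      refine Finset.sum_congr rfl fun j hj => ?_
      simp only [hz]
      rw [if_neg (Finset.mem_filter.1 hj).2, ENNReal.ofReal_toReal (hHf _)]
    have e2 : ∑ j ∈ C with ¬ Even j, H (j / 2) =
        ∑ m ∈ (C.filter fun j => ¬ Even j).image (fun j => j / 2), H m := by
      rw [Finset.sum_image]
      intro j hj j' hj' he
      have h1 := (Finset.mem_filter.1 hj).2
      have h2 := (Finset.mem_filter.1 hj').2
      rw [Int.even_iff] at h1 h2
      simp only at he
      omega
    rw [e1, e2]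
    exact ENNReal.sum_le_tsum _
  have eF : ∑ s ∈ A, F s = ENNReal.ofReal (∑ s ∈ A, (F s).toReal) := by
    rw [ENNReal.ofReal_sum_of_nonneg (fun _ _ => ENNReal.toReal_nonneg)]
    exact Finset.sum_congr rfl fun s _ => (ENNReal.ofReal_toReal (hFt s)).symm
  have eG : ∑ s ∈ B, G s = ENNReal.ofReal (∑ s ∈ B, (G s).toReal) := by
    rw [ENNReal.ofReal_sum_of_nonneg (fun _ _ => ENNReal.toReal_nonneg)]
    exact Finset.sum_congr rfl fun s _ => (ENNReal.ofReal_toReal (hGt s)).symm
  rw [eF, eG, ← ENNReal.ofReal_mul (Finset.sum_nonneg fun _ _ => ENNReal.toReal_nonneg)]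
  refine (ENNReal.ofReal_le_ofReal key).trans ?_
  rw [ENNReal.ofReal_mul (Finset.sum_nonneg fun j _ => by
      simp only [hz]; split_ifs <;> exact ENNReal.toReal_nonneg), mul_comm]
  exact mul_le_mul' bH bK

/-- floor of the midpoint -/
def fl {ι : Type*} (x y : ι → ℤ) : ι → ℤ := fun i => (x i + y i) / 2

/-- ceiling of the midpoint -/
def ce {ι : Type*} (x y : ι → ℤ) : ι → ℤ := fun i => (x i + y i + 1) / 2

theorem fl_add_ce {ι : Type*} (x y : ι → ℤ) (i : ι) : fl x y i + ce x y i = x i + y i := by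
  simp only [fl, ce]; omega

theorem ce_sub_fl {ι : Type*} (x y : ι → ℤ) (i : ι) :
    ce x y i - fl x y i = 0 ∨ ce x y i - fl x y i = 1 := by
  simp only [fl, ce]; omega

theorem klFin : ∀ (n : ℕ) (f g h k : (Fin n → ℤ) → ℝ≥0∞),
    (∀ x y, f x * g y ≤ h (fl x y) * k (ce x y)) →
    (∑' x, f x) * (∑' x, g x) ≤ (∑' x, h x) * (∑' x, k x) := by
  intro n
  induction n with
  | zero =>
    intro f g h k hh
    have e : ∀ q : (Fin 0 → ℤ) → ℝ≥0∞, ∑' x, q x = q 0 := fun q => by
      rw [tsum_eq_single (0 : Fin 0 → ℤ) (fun b hb => absurd (Subsingleton.elim b 0) hb)]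
    rw [e, e, e, e]
    have := hh 0 0
    have e1 : fl (0 : Fin 0 → ℤ) 0 = 0 := Subsingleton.elim _ _
    have e2 : ce (0 : Fin 0 → ℤ) 0 = 0 := Subsingleton.elim _ _
    rwa [e1, e2] at this
  | succ n ih =>
    intro f g h k hh
    have e : ∀ q : (Fin (n + 1) → ℤ) → ℝ≥0∞, ∑' x, q x = ∑' s : ℤ, ∑' x : Fin n → ℤ,
        q (Fin.cons s x) := fun q => by
      rw [← (Fin.consEquiv (fun _ => ℤ)).tsum_eq q, ENNReal.tsum_prod']
      rfl
    rw [e f, e g, e h, e k]
    refine kl1 _ _ _ _ fun s t => ih _ _ _ _ fun x y => ?_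
    have h1 := hh (Fin.cons s x) (Fin.cons t y)
    have e1 : fl (Fin.cons s x : Fin (n + 1) → ℤ) (Fin.cons t y) =
        Fin.cons ((s + t) / 2) (fl x y) := by
      funext i
      refine Fin.cases ?_ (fun i => ?_) i
      · simp [fl]
      · simp [fl]
    have e2 : ce (Fin.cons s x : Fin (n + 1) → ℤ) (Fin.cons t y) =
        Fin.cons ((s + t + 1) / 2) (ce x y) := by
      funext i
      refine Fin.cases ?_ (fun i => ?_) i
      · simp [ce]
      · simp [ce]
    rwa [e1, e2] at h1

/-- Klartag–Lehec inequality -/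
theorem kl_pi {ι : Type*} [Finite ι] (f g h k : (ι → ℤ) → ℝ≥0∞)
    (hh : ∀ x y, f x * g y ≤ h (fl x y) * k (ce x y)) :
    (∑' x, f x) * (∑' x, g x) ≤ (∑' x, h x) * (∑' x, k x) := by
  obtain ⟨n, ⟨e⟩⟩ := Finite.exists_equiv_fin ι
  let E : (Fin n → ℤ) ≃ (ι → ℤ) := e.symm.arrowCongr (Equiv.refl ℤ)
  have hE : ∀ (x : Fin n → ℤ) (i : ι), E x i = x (e i) := fun x i => rfl
  rw [← E.tsum_eq f, ← E.tsum_eq g, ← E.tsum_eq h, ← E.tsum_eq k]
  exact klFin n _ _ _ _ fun x y => hh (E x) (E y)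


end Crest.Agent.R144.Dpl702
end
end

-- ▼ part R144/Dpl4_702
section

/-!
# R144: discrete Prékopa–Leindler for finite families of heights and for the integer models (helper702)

* `kl_fin4` : four functions version on finite families of functions `V → ℤ` (any `V`);
* `kl_fin`  : one weight;
* `mp_fin`  : midpoint property of an observable `X` with `X (fl a b) + X (ce a b) = X a + X b` and
  `|X (fl a b) - X (ce a b)| ≤ L`;
* `tw_fl_ce`, `wt_fl_ce`, `lip_fl`, `lip_ce`, `conf_fl_ce` : the weights of `It1_844` (`x ^ 2 ≤ 1`);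
* `pr_fl_ce`, `pr_mp`.
-/

set_option autoImplicit false

noncomputable section

namespace Crest.Agent.R144.Dpl702

open Finset
open scoped ENNReal

variable {V : Type*}

/-- a finite family of functions is separated by finitely many coordinates -/
theorem exists_sep (U : Finset (V → ℤ)) :
    ∃ s : Finset V, ∀ a ∈ U, ∀ b ∈ U, (∀ v ∈ s, a v = b v) → a = b := by
  classical
  have h1 : ∀ p : (V → ℤ) × (V → ℤ), ∃ s : Finset V, p.1 ≠ p.2 → ∃ v ∈ s, p.1 v ≠ p.2 v := by
    intro p
    by_cases h : p.1 = p.2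
    · exact ⟨∅, fun h' => absurd h h'⟩
    · obtain ⟨v, hv⟩ := Function.ne_iff.1 h
      exact ⟨{v}, fun _ => ⟨v, by simp, hv⟩⟩
  choose s hs using h1
  refine ⟨(U ×ˢ U).biUnion s, fun a ha b hb hab => ?_⟩
  by_contra hne
  obtain ⟨v, hv, hv2⟩ := hs (a, b) hne
  exact hv2 (hab v (Finset.mem_biUnion.2 ⟨(a, b), by simp [ha, hb], hv⟩))

/-- **discrete Prékopa–Leindler, four functions, finite families** -/
theorem kl_fin4 (f g h k : (V → ℤ) → ℝ) (A B C D : Finset (V → ℤ))
    (hf : ∀ a ∈ A, 0 ≤ f a) (hg : ∀ a ∈ B, 0 ≤ g a) (hh : ∀ a ∈ C, 0 ≤ h a)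
    (hk : ∀ a ∈ D, 0 ≤ k a)
    (hAB : ∀ a ∈ A, ∀ b ∈ B, f a ≠ 0 → g b ≠ 0 →
      fl a b ∈ C ∧ ce a b ∈ D ∧ f a * g b ≤ h (fl a b) * k (ce a b)) :
    (∑ a ∈ A, f a) * (∑ b ∈ B, g b) ≤ (∑ c ∈ C, h c) * ∑ d ∈ D, k d := by
  classical
  obtain ⟨s, hs⟩ := exists_sep (A ∪ B)
  let r : (V → ℤ) → (s → ℤ) := fun a v => a v
  have hr : ∀ a ∈ A ∪ B, ∀ b ∈ A ∪ B, r a = r b → a = b := fun a ha b hb e =>
    hs a ha b hb fun v hv => congrFun e ⟨v, hv⟩
  let F : ((V → ℤ) → ℝ) → Finset (V → ℤ) → (s → ℤ) → ℝ≥0∞ := fun φ S x =>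
    ∑ a ∈ S, if x = r a then ENNReal.ofReal (φ a) else 0
  have hF : ∀ (φ : (V → ℤ) → ℝ) (S : Finset (V → ℤ)), (∀ a ∈ S, 0 ≤ φ a) →
      ∑' x, F φ S x = ENNReal.ofReal (∑ a ∈ S, φ a) := by
    intro φ S hφ
    rw [ENNReal.ofReal_sum_of_nonneg hφ]
    simp only [F]
    rw [Summable.tsum_finsetSum fun _ _ => ENNReal.summable]
    refine Finset.sum_congr rfl fun a _ => ?_
    exact tsum_ite_eq (r a) (fun _ => ENNReal.ofReal (φ a))
  have h1 : ∀ (φ : (V → ℤ) → ℝ) (S : Finset (V → ℤ)), S ⊆ A ∪ B → ∀ x : s → ℤ,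
      F φ S x ≠ 0 → ∃ a ∈ S, x = r a ∧ F φ S x = ENNReal.ofReal (φ a) ∧ φ a ≠ 0 := by
    intro φ S hS x hx
    obtain ⟨a, ha, hax⟩ := Finset.exists_ne_zero_of_sum_ne_zero hx
    have hxa : x = r a := by
      by_contra h'
      rw [if_neg h'] at hax
      exact hax rfl
    have e : F φ S x = ENNReal.ofReal (φ a) := by
      simp only [F]
      rw [Finset.sum_eq_single a]
      · rw [if_pos hxa]
      · intro b hb hba
        rw [if_neg]
        intro e
        exact hba (hr b (hS hb) a (hS ha) (e.symm.trans hxa))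
      · intro h'; exact absurd ha h'
    refine ⟨a, ha, hxa, e, ?_⟩
    intro h0
    rw [e, h0, ENNReal.ofReal_zero] at hx
    exact hx rfl
  have key := kl_pi (F f A) (F g B) (F h C) (F k D) (by
    intro x y
    by_cases hx : F f A x = 0
    · rw [hx, zero_mul]; exact bot_le
    by_cases hy : F g B y = 0
    · rw [hy, mul_zero]; exact bot_le
    obtain ⟨a, ha, hxa, e1, n1⟩ := h1 f A Finset.subset_union_left x hx
    obtain ⟨b, hb, hyb, e2, n2⟩ := h1 g B Finset.subset_union_right y hy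
    obtain ⟨hC, hD, hle⟩ := hAB a ha b hb n1 n2
    rw [e1, e2, ← ENNReal.ofReal_mul (hf a ha)]
    refine (ENNReal.ofReal_le_ofReal hle).trans ?_
    rw [ENNReal.ofReal_mul (hh _ hC)]
    refine mul_le_mul' ?_ ?_
    · have e3 : fl x y = r (fl a b) := by rw [hxa, hyb]; rfl
      have : (if fl x y = r (fl a b) then ENNReal.ofReal (h (fl a b)) else 0) ≤ F h C (fl x y) :=
        Finset.single_le_sum (f := fun c => if fl x y = r c then ENNReal.ofReal (h c) else 0)
          (fun _ _ => bot_le) hC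
      rwa [if_pos e3] at this
    · have e3 : ce x y = r (ce a b) := by rw [hxa, hyb]; rfl
      have : (if ce x y = r (ce a b) then ENNReal.ofReal (k (ce a b)) else 0) ≤ F k D (ce x y) :=
        Finset.single_le_sum (f := fun c => if ce x y = r c then ENNReal.ofReal (k c) else 0)
          (fun _ _ => bot_le) hD
      rwa [if_pos e3] at this)
  rw [hF f A hf, hF g B hg, hF h C hh, hF k D hk,
    ← ENNReal.ofReal_mul (Finset.sum_nonneg hf), ← ENNReal.ofReal_mul (Finset.sum_nonneg hh)] at key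
  exact (ENNReal.ofReal_le_ofReal_iff
    (mul_nonneg (Finset.sum_nonneg hh) (Finset.sum_nonneg hk))).1 key


/-- a finite family of functions closed under the two roundings of the midpoint, with a weight
satisfying the midpoint inequality -/
structure Nat2 (S : Finset (V → ℤ)) (W : (V → ℤ) → ℝ) : Prop where
  nonneg : ∀ a ∈ S, 0 ≤ W a
  closed : ∀ a ∈ S, ∀ b ∈ S, fl a b ∈ S ∧ ce a b ∈ S
  ineq : ∀ a ∈ S, ∀ b ∈ S, W a * W b ≤ W (fl a b) * W (ce a b)

/-- an observable compatible with the roundings, with defect `L` -/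
def MidLin (S : Finset (V → ℤ)) (X : (V → ℤ) → ℝ) (L : ℝ) : Prop :=
  ∀ a ∈ S, ∀ b ∈ S, X (fl a b) + X (ce a b) = X a + X b ∧ |X (fl a b) - X (ce a b)| ≤ L

theorem MidLin.neg {S : Finset (V → ℤ)} {X : (V → ℤ) → ℝ} {L : ℝ} (h : MidLin S X L) :
    MidLin S (fun a => - X a) L := by
  intro a ha b hb
  obtain ⟨h1, h2⟩ := h a ha b hb
  refine ⟨by linarith, ?_⟩
  have : - X (fl a b) - - X (ce a b) = - (X (fl a b) - X (ce a b)) := by ring
  rw [this, abs_neg]
  exact h2

theorem MidLin.sub_const {S : Finset (V → ℤ)} {X : (V → ℤ) → ℝ} {L : ℝ} (h : MidLin S X L) (c : ℝ) :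
    MidLin S (fun a => X a - c) L := by
  intro a ha b hb
  obtain ⟨h1, h2⟩ := h a ha b hb
  refine ⟨by linarith, ?_⟩
  have : X (fl a b) - c - (X (ce a b) - c) = X (fl a b) - X (ce a b) := by ring
  rw [this]
  exact h2

theorem MidLin.mul_const {S : Finset (V → ℤ)} {X : (V → ℤ) → ℝ} {L : ℝ} (h : MidLin S X L) (c : ℝ) :
    MidLin S (fun a => c * X a) (|c| * L) := by
  intro a ha b hb
  obtain ⟨h1, h2⟩ := h a ha b hb
  refine ⟨by rw [← mul_add, h1, mul_add], ?_⟩
  rw [← mul_sub, abs_mul]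
  exact mul_le_mul_of_nonneg_left h2 (abs_nonneg c)

theorem MidLin.mono {S : Finset (V → ℤ)} {X : (V → ℤ) → ℝ} {L L' : ℝ} (h : MidLin S X L)
    (hL : L ≤ L') : MidLin S X L' := fun a ha b hb =>
  ⟨(h a ha b hb).1, (h a ha b hb).2.trans hL⟩

theorem midLin_eval (S : Finset (V → ℤ)) (v : V) : MidLin S (fun a => (a v : ℝ)) 1 := by
  intro a _ b _
  have h1 := fl_add_ce a b v
  have h2 := ce_sub_fl a b v
  have h3 : |fl a b v - ce a b v| ≤ 1 := by
    rcases h2 with h2 | h2 <;> rw [abs_le] <;> constructor <;> omega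
  show ((fl a b v : ℤ) : ℝ) + (ce a b v : ℤ) = (a v : ℝ) + (b v : ℝ) ∧
    |((fl a b v : ℤ) : ℝ) - (ce a b v : ℤ)| ≤ 1
  exact ⟨by exact_mod_cast h1, by exact_mod_cast h3⟩

/-- linear observables -/
theorem midLin_sum (S : Finset (V → ℤ)) (s : Finset V) (f : V → ℝ) :
    MidLin S (fun a => ∑ v ∈ s, f v * (a v : ℝ)) (∑ v ∈ s, |f v|) := by
  intro a ha b hb
  refine ⟨?_, ?_⟩
  · rw [← Finset.sum_add_distrib, ← Finset.sum_add_distrib]
    refine Finset.sum_congr rfl fun v _ => ?_
    rw [← mul_add, ← mul_add, (midLin_eval S v a ha b hb).1]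
  · rw [← Finset.sum_sub_distrib]
    refine (Finset.abs_sum_le_sum_abs _ _).trans (Finset.sum_le_sum fun v _ => ?_)
    rw [← mul_sub, abs_mul]
    have := (midLin_eval S v a ha b hb).2
    have h0 := abs_nonneg (f v)
    nlinarith

open Classical in
/-- **midpoint property**, unnormalised -/
theorem mp_fin {S : Finset (V → ℤ)} {W : (V → ℤ) → ℝ} (hSW : Nat2 S W) {X : (V → ℤ) → ℝ} {L : ℝ}
    (hX : MidLin S X L) (s t : ℝ) :
    (∑ a ∈ S with s ≤ X a, W a) * (∑ a ∈ S with t ≤ X a, W a) ≤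
      (∑ a ∈ S with (s + t - L) / 2 ≤ X a, W a) ^ 2 := by
  rw [sq]
  refine kl_fin4 W W W W _ _ _ _ (fun a ha => hSW.nonneg a (Finset.mem_filter.1 ha).1)
    (fun a ha => hSW.nonneg a (Finset.mem_filter.1 ha).1)
    (fun a ha => hSW.nonneg a (Finset.mem_filter.1 ha).1)
    (fun a ha => hSW.nonneg a (Finset.mem_filter.1 ha).1) ?_
  intro a ha b hb _ _
  rw [Finset.mem_filter] at ha hb
  obtain ⟨h1, h2⟩ := hX a ha.1 b hb.1
  obtain ⟨h3, h4⟩ := hSW.closed a ha.1 b hb.1
  rw [abs_le] at h2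
  refine ⟨Finset.mem_filter.2 ⟨h3, ?_⟩, Finset.mem_filter.2 ⟨h4, ?_⟩, hSW.ineq a ha.1 b hb.1⟩
  · linarith [ha.2, hb.2]
  · linarith [ha.2, hb.2]

/-! ### the integer models of `It1_844` -/

open Crest.Agent.R144.It844
open Crest.ProbabilityR.HexHeights (Adj)

theorem lip_fl {h g : P2 → ℤ} (hh : Lip h) (hg : Lip g) : Lip (fl h g) := by
  intro u v huv
  have h1 := hh u v huv
  have h2 := hg u v huv
  simp only [fl]
  rw [abs_le] at *
  omega

theorem lip_ce {h g : P2 → ℤ} (hh : Lip h) (hg : Lip g) : Lip (ce h g) := by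
  intro u v huv
  have h1 := hh u v huv
  have h2 := hg u v huv
  simp only [ce]
  rw [abs_le] at *
  omega

theorem cst_fl_ce {h g : P2 → ℤ} (u : P2) (h1 : Cst h u) (h2 : Cst g u) :
    Cst (fl h g) u ∧ Cst (ce h g) u := by
  unfold Cst fl ce at *
  obtain ⟨a1, a2⟩ := h1
  obtain ⟨b1, b2⟩ := h2
  rw [← a1, ← a2, ← b1, ← b2]
  exact ⟨⟨rfl, rfl⟩, rfl, rfl⟩

theorem cst_or {h g : P2 → ℤ} (hg : Lip g) (u : P2) (h1 : Cst h u) :
    Cst (fl h g) u ∨ Cst (ce h g) u := by
  obtain ⟨g1, g2, g3⟩ := lip_iff.1 hg u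
  unfold Cst fl ce at *
  obtain ⟨a1, a2⟩ := h1
  rw [← a1, ← a2]
  rw [abs_le] at g1 g2 g3
  generalize g u = p at *
  generalize g (u.1 + 1, u.2) = q at *
  generalize g (u.1, u.2 + 1) = r at *
  generalize h u = a at *
  omega

theorem cst_or' {h g : P2 → ℤ} (hh : Lip h) (u : P2) (h1 : Cst g u) :
    Cst (fl h g) u ∨ Cst (ce h g) u := by
  have e1 : fl h g = fl g h := by funext v; simp only [fl, add_comm]
  have e2 : ce h g = ce g h := by funext v; simp only [ce, add_comm (h v)]
  rw [e1, e2]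
  exact cst_or hh u h1

theorem tw_fl_ce {x : ℝ} (hx : x ^ 2 ≤ 1) {h g : P2 → ℤ} (hh : Lip h) (hg : Lip g) (u : P2) :
    tw x h u * tw x g u ≤ tw x (fl h g) u * tw x (ce h g) u := by
  have hx0 : 0 ≤ x ^ 2 := sq_nonneg x
  by_cases h1 : Cst h u
  · by_cases h2 : Cst g u
    · obtain ⟨h3, h4⟩ := cst_fl_ce u h1 h2
      simp only [tw, if_pos h1, if_pos h2, if_pos h3, if_pos h4]
      exact le_rfl
    · simp only [tw, if_pos h1, if_neg h2]
      rcases cst_or hg u h1 with h3 | h3
      · rw [if_pos h3]; split_ifs <;> nlinarith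
      · rw [if_pos h3]; split_ifs <;> nlinarith
  · by_cases h2 : Cst g u
    · simp only [tw, if_neg h1, if_pos h2]
      rcases cst_or' hh u h2 with h3 | h3
      · rw [if_pos h3]; split_ifs <;> nlinarith
      · rw [if_pos h3]; split_ifs <;> nlinarith
    · simp only [tw, if_neg h1, if_neg h2]
      split_ifs <;> nlinarith

theorem prod_tw_fl_ce {x : ℝ} (hx : x ^ 2 ≤ 1) (U : Finset P2) {h g : P2 → ℤ} (hh : Lip h)
    (hg : Lip g) : (∏ u ∈ U, tw x h u) * (∏ u ∈ U, tw x g u) ≤
      (∏ u ∈ U, tw x (fl h g) u) * ∏ u ∈ U, tw x (ce h g) u := by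
  rw [← Finset.prod_mul_distrib, ← Finset.prod_mul_distrib]
  exact Finset.prod_le_prod (fun u _ => mul_nonneg (tw_nonneg _ _ _) (tw_nonneg _ _ _))
    fun u _ => tw_fl_ce hx hh hg u

theorem wt_fl_ce {x : ℝ} (hx : x ^ 2 ≤ 1) (Λ : Finset P2) {h g : P2 → ℤ} (hh : Lip h)
    (hg : Lip g) : wt x Λ h * wt x Λ g ≤ wt x Λ (fl h g) * wt x Λ (ce h g) :=
  prod_tw_fl_ce hx (upT Λ) hh hg

/-- different boundary data -/
theorem conf_fl_ce' {Λ : Finset P2} {τ τ' h g : P2 → ℤ} (hh : h ∈ conf Λ τ) (hg : g ∈ conf Λ τ') :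
    fl h g ∈ conf Λ (fl τ τ') ∧ ce h g ∈ conf Λ (ce τ τ') := by
  rw [mem_conf] at hh hg
  refine ⟨mem_conf.2 ⟨lip_fl hh.1 hg.1, fun v hv => ?_⟩,
    mem_conf.2 ⟨lip_ce hh.1 hg.1, fun v hv => ?_⟩⟩
  · simp only [fl, hh.2 v hv, hg.2 v hv]
  · simp only [ce, hh.2 v hv, hg.2 v hv]

theorem fl_self (τ : V → ℤ) : fl τ τ = τ := by funext v; simp only [fl]; omega
theorem ce_self (τ : V → ℤ) : ce τ τ = τ := by funext v; simp only [ce]; omega

theorem conf_fl_ce {Λ : Finset P2} {τ h g : P2 → ℤ} (hh : h ∈ conf Λ τ) (hg : g ∈ conf Λ τ) :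
    fl h g ∈ conf Λ τ ∧ ce h g ∈ conf Λ τ := by
  have := conf_fl_ce' hh hg
  rwa [fl_self, ce_self] at this

theorem nat2_conf {x : ℝ} (hx : x ^ 2 ≤ 1) (Λ : Finset P2) (τ : P2 → ℤ) :
    Nat2 (conf Λ τ) (wt x Λ) :=
  ⟨fun _ _ => wt_nonneg _ _ _, fun _ ha _ hb => conf_fl_ce ha hb, fun _ ha _ hb =>
    wt_fl_ce hx Λ (mem_conf.1 ha).1 (mem_conf.1 hb).1⟩


open Classical in
theorem pr_eq {x : ℝ} {Λ : Finset P2} {τ : P2 → ℤ} (A : Set (P2 → ℤ)) :
    pr x Λ τ A = (Z x Λ τ)⁻¹ * ∑ h ∈ conf Λ τ with h ∈ A, wt x Λ h := by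
  unfold pr ex
  rw [Finset.sum_filter, smul_eq_mul]
  congr 1
  refine Finset.sum_congr rfl fun h _ => ?_
  by_cases hA : h ∈ A
  · simp [hA]
  · simp [hA]



end Crest.Agent.R144.Dpl702
end
end

-- ▼ part R144/Dpl5_702

/-!
# R144: uniform moment bounds from the midpoint property (helper702)

A finite weighted family `(S, w)` of total mass one and an observable `X` whose upper tail function
`tl S w X t = ∑_{t ≤ X a} w a` satisfies `tl s * tl t ≤ tl ((s + t - L) / 2) ^ 2` has
`∑ w (max X 0) ^ n ≤ Cm n * (2 M + L) ^ n` as soon as `tl M ≤ 1/4` and `3/4 ≤ tl (-M)`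
(`upper_moment`); in particular with `M = 2 σ`, `∑ w X ^ 2 ≤ σ ^ 2`.
`abs_moment_tl`, `abs_moment` : the two-sided version for a `Nat2` family.
`ex_abs_moment` : the integer models: for `0 < x ≤ 1`, `X` linear with `∑ |f| = L`
`E |X - m| ^ n ≤ 2 * Cm n * (4 σ + L) ^ n` whenever `E (X - m) ^ 2 ≤ σ ^ 2`.
-/

set_option autoImplicit false

noncomputable section

namespace Crest.Agent.R144.Dpl702

open Finset

/-- absolute constants -/
def Cm (n : ℕ) : ℝ := 1 + ∑' k : ℕ, (2 * (k : ℝ)) ^ n * (1 / 3 : ℝ) ^ k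

theorem summable_cm (n : ℕ) : Summable fun k : ℕ => (2 * (k : ℝ)) ^ n * (1 / 3 : ℝ) ^ k := by
  have h := summable_pow_mul_geometric_of_norm_lt_one n (r := (1 / 3 : ℝ))
    (by rw [Real.norm_of_nonneg (by norm_num)]; norm_num)
  refine (h.mul_left ((2 : ℝ) ^ n)).congr fun k => ?_
  rw [mul_pow, mul_assoc]

theorem cm_nonneg (n : ℕ) : 0 ≤ Cm n := by
  unfold Cm
  have : 0 ≤ ∑' k : ℕ, (2 * (k : ℝ)) ^ n * (1 / 3 : ℝ) ^ k := tsum_nonneg fun k => by positivity
  linarith

theorem sum_le_cm (n J : ℕ) :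
    1 + ∑ j ∈ Finset.range J, (2 * (2 : ℝ) ^ j) ^ n * (1 / 3 : ℝ) ^ (2 ^ j) ≤ Cm n := by
  unfold Cm
  have h1 : ∑ j ∈ Finset.range J, (2 * (2 : ℝ) ^ j) ^ n * (1 / 3 : ℝ) ^ (2 ^ j) =
      ∑ k ∈ (Finset.range J).image (fun j : ℕ => (2 : ℕ) ^ j),
        (2 * ((k : ℕ) : ℝ)) ^ n * (1 / 3 : ℝ) ^ k := by
    rw [Finset.sum_image (fun a _ b _ h => Nat.pow_right_injective (le_refl 2) h)]
    refine Finset.sum_congr rfl fun j _ => ?_
    push_cast
    rfl
  rw [h1]
  have := (summable_cm n).sum_le_tsum ((Finset.range J).image (fun j : ℕ => (2 : ℕ) ^ j))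
    (fun k _ => by positivity)
  linarith

section abstract

variable {ι : Type*}

open Classical in
/-- upper tail -/
def tl (S : Finset ι) (w X : ι → ℝ) (t : ℝ) : ℝ := ∑ a ∈ S with t ≤ X a, w a

theorem tl_nonneg {S : Finset ι} {w X : ι → ℝ} (hw : ∀ a ∈ S, 0 ≤ w a) (t : ℝ) :
    0 ≤ tl S w X t :=
  Finset.sum_nonneg fun a ha => hw a (Finset.mem_filter.1 ha).1

theorem tl_le_one {S : Finset ι} {w X : ι → ℝ} (hw : ∀ a ∈ S, 0 ≤ w a) (h1 : ∑ a ∈ S, w a = 1)
    (t : ℝ) : tl S w X t ≤ 1 := by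
  rw [← h1]
  exact Finset.sum_le_sum_of_subset_of_nonneg (Finset.filter_subset _ _) fun a ha _ => hw a ha

theorem tl_eq (S : Finset ι) (w X : ι → ℝ) (t : ℝ) :
    tl S w X t = ∑ a ∈ S, w a * (if t ≤ X a then 1 else 0) := by
  classical
  unfold tl
  rw [Finset.sum_filter]
  exact Finset.sum_congr rfl fun a _ => by split_ifs <;> simp

/-- **one-sided moment bound** -/
theorem upper_moment {S : Finset ι} {w X : ι → ℝ} (hw : ∀ a ∈ S, 0 ≤ w a)
    (h1 : ∑ a ∈ S, w a = 1) {L M : ℝ} (hL : 0 ≤ L) (hM : 0 < M) (hu : tl S w X M ≤ 1 / 4)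
    (hl : 3 / 4 ≤ tl S w X (-M))
    (hmp : ∀ s t, tl S w X s * tl S w X t ≤ tl S w X ((s + t - L) / 2) ^ 2) (n : ℕ) :
    ∑ a ∈ S, w a * (max (X a) 0) ^ n ≤ Cm n * (2 * M + L) ^ n := by
  classical
  set u : ℝ := 2 * M + L with hu'
  have hupos : 0 < u := by linarith
  set c : ℝ := M + L with hc
  set q : ℝ := tl S w X (-M) with hq
  have hq1 : q ≤ 1 := tl_le_one hw h1 _
  have hq0 : 0 < q := by linarith
  let a : ℕ → ℝ := fun j => 2 ^ j * u - c
  have a0 : a 0 = M := by simp only [a, pow_zero, one_mul, hu', hc]; ring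
  have as : ∀ j, a (j + 1) = 2 * a j + c := by intro j; simp only [a]; ring
  have tail : ∀ j, tl S w X (a j) ≤ q * (1 / 3 : ℝ) ^ (2 ^ j) := by
    intro j
    induction j with
    | zero =>
      rw [a0, pow_zero, pow_one]
      linarith
    | succ j ih =>
      have h2 := hmp (a (j + 1)) (-M)
      have e : (a (j + 1) + -M - L) / 2 = a j := by rw [as, hc]; ring
      rw [e, ← hq] at h2
      have h3 : tl S w X (a j) ^ 2 ≤ (q * (1 / 3 : ℝ) ^ (2 ^ j)) ^ 2 :=
        pow_le_pow_left₀ (tl_nonneg hw _) ih 2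
      have h4 : tl S w X (a (j + 1)) * q ≤ (q * (1 / 3 : ℝ) ^ (2 ^ (j + 1))) * q := by
        refine (h2.trans h3).trans (le_of_eq ?_)
        rw [mul_pow, ← pow_mul, pow_succ 2 j]
        ring
      exact le_of_mul_le_mul_right h4 hq0
  -- a level above all values
  obtain ⟨J, hJ⟩ : ∃ J : ℕ, ∀ b ∈ S, X b < a J := by
    have h2 : Filter.Tendsto a Filter.atTop Filter.atTop := by
      refine Filter.tendsto_atTop_add_const_right _ _ ?_
      exact (tendsto_pow_atTop_atTop_of_one_lt (by norm_num : (1 : ℝ) < 2)).atTop_mul_const hupos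
    have h3 : ∀ b ∈ S, ∀ᶠ J in Filter.atTop, X b < a J := fun b _ => h2.eventually_gt_atTop (X b)
    exact ((Filter.eventually_all_finset S).2 h3).exists
  have mono : Monotone a := by
    refine monotone_nat_of_le_succ fun j => ?_
    simp only [a]
    have : (2 : ℝ) ^ j * u ≤ 2 ^ (j + 1) * u := by
      refine mul_le_mul_of_nonneg_right ?_ hupos.le
      exact pow_le_pow_right₀ (by norm_num) (Nat.le_succ j)
    linarith
  have point : ∀ b ∈ S, (max (X b) 0) ^ n ≤ u ^ n *
      (1 + ∑ j ∈ Finset.range J, (2 * (2 : ℝ) ^ j) ^ n * (if a j ≤ X b then 1 else 0)) := by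
    intro b hb
    have hex : ∃ j, X b < a j := ⟨J, hJ b hb⟩
    have hfin : Nat.find hex ≤ J := Nat.find_min' hex (hJ b hb)
    have hspec := Nat.find_spec hex
    have hnn : ∀ j ∈ Finset.range J,
        0 ≤ (2 * (2 : ℝ) ^ j) ^ n * (if a j ≤ X b then (1 : ℝ) else 0) := by
      intro j _
      split_ifs <;> positivity
    rcases Nat.eq_zero_or_pos (Nat.find hex) with h0 | h0
    · rw [h0, a0] at hspec
      have h2 : (max (X b) 0) ^ n ≤ u ^ n := by
        refine pow_le_pow_left₀ (le_max_right _ _) (max_le ?_ hupos.le) n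
        linarith
      have h3 := Finset.sum_nonneg hnn
      calc (max (X b) 0) ^ n ≤ u ^ n * 1 := by rw [mul_one]; exact h2
        _ ≤ _ := mul_le_mul_of_nonneg_left (by linarith) (by positivity)
    · obtain ⟨j, hj⟩ : ∃ j, Nat.find hex = j + 1 := ⟨Nat.find hex - 1, by omega⟩
      have hjJ : j < J := by omega
      have hge : a j ≤ X b := by
        by_contra hlt
        exact Nat.find_min hex (m := j) (by omega) (not_le.1 hlt)
      rw [hj] at hspec
      have h2 : (max (X b) 0) ^ n ≤ (2 * 2 ^ j * u) ^ n := by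
        refine pow_le_pow_left₀ (le_max_right _ _) (max_le ?_ (by positivity)) n
        refine hspec.le.trans ?_
        simp only [a, pow_succ]
        have : 0 ≤ c := by rw [hc]; linarith
        nlinarith
      have h3 := Finset.single_le_sum hnn (Finset.mem_range.2 hjJ)
      rw [if_pos hge, mul_one] at h3
      calc (max (X b) 0) ^ n ≤ (2 * 2 ^ j * u) ^ n := h2
        _ = u ^ n * (2 * 2 ^ j) ^ n := by rw [mul_pow, mul_comm]
        _ ≤ _ := mul_le_mul_of_nonneg_left (by linarith) (by positivity)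
  calc ∑ b ∈ S, w b * (max (X b) 0) ^ n ≤ ∑ b ∈ S, w b * (u ^ n *
        (1 + ∑ j ∈ Finset.range J, (2 * (2 : ℝ) ^ j) ^ n * (if a j ≤ X b then 1 else 0))) :=
        Finset.sum_le_sum fun b hb => mul_le_mul_of_nonneg_left (point b hb) (hw b hb)
    _ = u ^ n * (∑ b ∈ S, w b + ∑ j ∈ Finset.range J, (2 * (2 : ℝ) ^ j) ^ n *
        ∑ b ∈ S, w b * (if a j ≤ X b then 1 else 0)) := by
        simp only [mul_add, mul_one, Finset.sum_add_distrib, Finset.mul_sum]
        congr 1
        · exact Finset.sum_congr rfl fun b _ => by ring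
        · rw [Finset.sum_comm]
          refine Finset.sum_congr rfl fun j _ => Finset.sum_congr rfl fun b _ => by ring
    _ = u ^ n * (1 + ∑ j ∈ Finset.range J, (2 * (2 : ℝ) ^ j) ^ n * tl S w X (a j)) := by
        rw [h1]
        congr 2
        exact Finset.sum_congr rfl fun j _ => by rw [tl_eq]
    _ ≤ u ^ n * (1 + ∑ j ∈ Finset.range J, (2 * (2 : ℝ) ^ j) ^ n * (1 / 3 : ℝ) ^ (2 ^ j)) := by
        refine mul_le_mul_of_nonneg_left ?_ (by positivity)
        refine add_le_add le_rfl (Finset.sum_le_sum fun j _ => ?_)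
        refine mul_le_mul_of_nonneg_left ((tail j).trans ?_) (by positivity)
        have : (0 : ℝ) ≤ (1 / 3 : ℝ) ^ (2 ^ j) := by positivity
        nlinarith
    _ ≤ u ^ n * Cm n := mul_le_mul_of_nonneg_left (sum_le_cm n J) (by positivity)
    _ = Cm n * u ^ n := mul_comm _ _

/-- Chebyshev -/
theorem tl_cheb {S : Finset ι} {w X : ι → ℝ} (hw : ∀ a ∈ S, 0 ≤ w a) {σ : ℝ} (hσ : 0 < σ)
    (hv : ∑ a ∈ S, w a * X a ^ 2 ≤ σ ^ 2) : tl S w X (2 * σ) ≤ 1 / 4 := by
  have h2 : (2 * σ) ^ 2 * tl S w X (2 * σ) ≤ ∑ a ∈ S, w a * X a ^ 2 := by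
    rw [tl_eq, Finset.mul_sum]
    refine Finset.sum_le_sum fun a ha => ?_
    split_ifs with h
    · have h3 : (2 * σ) ^ 2 ≤ X a ^ 2 := pow_le_pow_left₀ (by linarith) h 2
      nlinarith [hw a ha]
    · have := mul_nonneg (hw a ha) (sq_nonneg (X a))
      linarith
  have h3 : (2 * σ) ^ 2 * tl S w X (2 * σ) ≤ σ ^ 2 := h2.trans hv
  have h4 : 0 < σ ^ 2 := by positivity
  nlinarith

theorem tl_neg {S : Finset ι} {w X : ι → ℝ} (hw : ∀ a ∈ S, 0 ≤ w a) (h1 : ∑ a ∈ S, w a = 1)
    (t : ℝ) : 1 - tl S w (fun a => - X a) t ≤ tl S w X (-t) := by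
  rw [tl_eq, tl_eq, sub_le_iff_le_add]
  refine h1.symm.le.trans ?_
  rw [← Finset.sum_add_distrib]
  refine Finset.sum_le_sum fun a ha => ?_
  have h0 := hw a ha
  by_cases h : t ≤ - X a
  · rw [if_pos h, mul_one]
    have : 0 ≤ w a * (if -t ≤ X a then (1 : ℝ) else 0) := mul_nonneg h0 (by split_ifs <;> norm_num)
    linarith
  · rw [if_neg h, if_pos (by linarith)]
    simp

/-- two-sided bound, tail form -/
theorem two_sided {S : Finset ι} {w X : ι → ℝ} (hw : ∀ a ∈ S, 0 ≤ w a)
    (h1 : ∑ a ∈ S, w a = 1) {L M : ℝ} (hL : 0 ≤ L) (hM : 0 < M) (hu : tl S w X M ≤ 1 / 4)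
    (hl : tl S w (fun a => - X a) M ≤ 1 / 4)
    (hmp : ∀ s t, tl S w X s * tl S w X t ≤ tl S w X ((s + t - L) / 2) ^ 2)
    (hmp' : ∀ s t, tl S w (fun a => - X a) s * tl S w (fun a => - X a) t ≤
      tl S w (fun a => - X a) ((s + t - L) / 2) ^ 2) (n : ℕ) :
    ∑ a ∈ S, w a * |X a| ^ n ≤ 2 * Cm n * (2 * M + L) ^ n := by
  have e1 : 3 / 4 ≤ tl S w X (-M) := by
    have := tl_neg hw h1 (X := X) M
    linarith
  have e2 : 3 / 4 ≤ tl S w (fun a => - X a) (-M) := by
    have := tl_neg hw h1 (X := fun a => - X a) M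
    simp only [neg_neg] at this
    linarith
  have k1 := upper_moment hw h1 hL hM hu e1 hmp n
  have k2 := upper_moment hw h1 hL hM hl e2 hmp' n
  calc ∑ a ∈ S, w a * |X a| ^ n ≤ ∑ a ∈ S, (w a * (max (X a) 0) ^ n + w a * (max (- X a) 0) ^ n) := by
        refine Finset.sum_le_sum fun a ha => ?_
        rw [← mul_add]
        refine mul_le_mul_of_nonneg_left ?_ (hw a ha)
        rcases le_total 0 (X a) with h | h
        · rw [abs_of_nonneg h, max_eq_left h]
          have : 0 ≤ (max (- X a) 0) ^ n := pow_nonneg (le_max_right _ _) n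
          linarith
        · rw [abs_of_nonpos h, max_eq_left (neg_nonneg.2 h)]
          have : 0 ≤ (max (X a) 0) ^ n := pow_nonneg (le_max_right _ _) n
          linarith
    _ ≤ _ := by rw [Finset.sum_add_distrib]; linarith

end abstract

variable {V : Type*}

theorem tl_div (S : Finset (V → ℤ)) (W X : (V → ℤ) → ℝ) (Z t : ℝ) :
    tl S (fun a => W a / Z) X t = tl S W X t / Z := by
  unfold tl
  rw [Finset.sum_div]

theorem tl_mp {S : Finset (V → ℤ)} {W : (V → ℤ) → ℝ} (hSW : Nat2 S W)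
    {X : (V → ℤ) → ℝ} {L : ℝ} (hX : MidLin S X L) (Z : ℝ) (s t : ℝ) :
    tl S (fun a => W a / Z) X s * tl S (fun a => W a / Z) X t ≤
      tl S (fun a => W a / Z) X ((s + t - L) / 2) ^ 2 := by
  rw [tl_div, tl_div, tl_div, div_mul_div_comm, div_pow, sq Z]
  have := mp_fin hSW hX s t
  exact div_le_div_of_nonneg_right this (mul_self_nonneg Z)

/-- **moment bound for a `Nat2` family**, tail form: if `X ≥ M` and `X ≤ -M` both have probability
at most `1/4`, then `E |X| ^ n ≤ 2 Cm n (2 M + L) ^ n`. -/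
theorem abs_moment_tl {S : Finset (V → ℤ)} {W : (V → ℤ) → ℝ} (hSW : Nat2 S W)
    (hZ : 0 < ∑ a ∈ S, W a) {X : (V → ℤ) → ℝ} {L M : ℝ} (hX : MidLin S X L) (hL : 0 ≤ L)
    (hM : 0 < M) (hu : tl S W X M / (∑ a ∈ S, W a) ≤ 1 / 4)
    (hl : tl S W (fun a => - X a) M / (∑ a ∈ S, W a) ≤ 1 / 4) (n : ℕ) :
    (∑ a ∈ S, W a * |X a| ^ n) / (∑ a ∈ S, W a) ≤ 2 * Cm n * (2 * M + L) ^ n := by
  have hw : ∀ a ∈ S, 0 ≤ W a / (∑ a ∈ S, W a) := fun a ha => div_nonneg (hSW.nonneg a ha) hZ.le
  have h1 : ∑ a ∈ S, W a / (∑ a ∈ S, W a) = 1 := by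
    rw [← Finset.sum_div]; exact div_self hZ.ne'
  rw [← tl_div] at hu hl
  have := two_sided hw h1 hL hM hu hl (tl_mp hSW hX _) (tl_mp hSW hX.neg _) n
  refine le_trans (le_of_eq ?_) this
  rw [Finset.sum_div]
  exact Finset.sum_congr rfl fun a _ => by ring

/-- **moment bound for a `Nat2` family** -/
theorem abs_moment {S : Finset (V → ℤ)} {W : (V → ℤ) → ℝ} (hSW : Nat2 S W)
    (hZ : 0 < ∑ a ∈ S, W a) {X : (V → ℤ) → ℝ} {L σ : ℝ} (hX : MidLin S X L) (hL : 0 ≤ L)
    (hσ : 0 ≤ σ) (hv : (∑ a ∈ S, W a * X a ^ 2) / (∑ a ∈ S, W a) ≤ σ ^ 2) (n : ℕ) :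
    (∑ a ∈ S, W a * |X a| ^ n) / (∑ a ∈ S, W a) ≤ 2 * Cm n * (4 * σ + L) ^ n := by
  have key : ∀ ε : ℝ, 0 < ε →
      (∑ a ∈ S, W a * |X a| ^ n) / (∑ a ∈ S, W a) ≤ 2 * Cm n * (4 * (σ + ε) + L) ^ n := by
    intro ε hε
    have hw : ∀ a ∈ S, 0 ≤ W a / (∑ a ∈ S, W a) := fun a ha => div_nonneg (hSW.nonneg a ha) hZ.le
    have hv1 : ∑ a ∈ S, (W a / (∑ a ∈ S, W a)) * X a ^ 2 ≤ (σ + ε) ^ 2 := by
      refine le_trans (le_of_eq ?_) (hv.trans (pow_le_pow_left₀ hσ (by linarith) 2))
      rw [Finset.sum_div]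
      exact Finset.sum_congr rfl fun a _ => by ring
    have c1 := tl_cheb hw (by linarith : 0 < σ + ε) hv1
    have c2 := tl_cheb (X := fun a => - X a) hw (by linarith : 0 < σ + ε) (by
      simpa only [neg_sq] using hv1)
    rw [tl_div] at c1 c2
    have := abs_moment_tl hSW hZ hX hL (by linarith : 0 < 2 * (σ + ε)) c1 c2 n
    refine this.trans (le_of_eq ?_)
    ring
  have hlim : Filter.Tendsto (fun ε : ℝ => 2 * Cm n * (4 * (σ + ε) + L) ^ n)
      (nhdsWithin 0 (Set.Ioi 0)) (nhds (2 * Cm n * (4 * (σ + 0) + L) ^ n)) := by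
    refine Filter.Tendsto.mono_left ?_ nhdsWithin_le_nhds
    have : Continuous fun ε : ℝ => 2 * Cm n * (4 * (σ + ε) + L) ^ n := by fun_prop
    exact this.tendsto 0
  rw [add_zero] at hlim
  exact ge_of_tendsto hlim (Filter.eventually_of_mem self_mem_nhdsWithin fun ε hε => key ε hε)

/-! ### the integer models -/

open Crest.Agent.R144.It844

/-- **moments of compatible observables in the integer models** (`0 < x ≤ 1`, any Lipschitz `τ`) -/
theorem ex_abs_moment {x : ℝ} (hx0 : 0 < x) (hx1 : x ≤ 1) {Λ : Finset P2} {τ : P2 → ℤ}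
    (hτ : Lip τ) {X : (P2 → ℤ) → ℝ} {L σ : ℝ} (hX : MidLin (conf Λ τ) X L) (hL : 0 ≤ L)
    (hσ : 0 ≤ σ) (hv : ex x Λ τ (fun h => X h ^ 2) ≤ σ ^ 2) (n : ℕ) :
    ex x Λ τ (fun h => |X h| ^ n) ≤ 2 * Cm n * (4 * σ + L) ^ n := by
  have hx2 : x ^ 2 ≤ 1 := pow_le_one₀ hx0.le hx1
  have e : ∀ F : (P2 → ℤ) → ℝ, ex x Λ τ F =
      (∑ a ∈ conf Λ τ, wt x Λ a * F a) / ∑ a ∈ conf Λ τ, wt x Λ a := by
    intro F
    unfold ex Z
    rw [smul_eq_mul, inv_mul_eq_div]
    rfl
  rw [e] at hv ⊢
  exact abs_moment (nat2_conf hx2 Λ τ) (Z_pos hx0 hτ) hX hL hσ hv n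

/-- central moments of linear observables: `E |X - m| ^ n ≤ 2 Cm n (4 σ + ∑ |f|) ^ n`,
`E (X - m) ^ 2 ≤ σ ^ 2` -/
theorem ex_abs_moment_linear {x : ℝ} (hx0 : 0 < x) (hx1 : x ≤ 1) {Λ : Finset P2} {τ : P2 → ℤ}
    (hτ : Lip τ) (s : Finset P2) (f : P2 → ℝ) (m : ℝ) {σ : ℝ} (hσ : 0 ≤ σ)
    (hv : ex x Λ τ (fun h => (∑ v ∈ s, f v * (h v : ℝ) - m) ^ 2) ≤ σ ^ 2) (n : ℕ) :
    ex x Λ τ (fun h => |∑ v ∈ s, f v * (h v : ℝ) - m| ^ n) ≤
      2 * Cm n * (4 * σ + ∑ v ∈ s, |f v|) ^ n :=
  ex_abs_moment hx0 hx1 hτ ((midLin_sum (conf Λ τ) s f).sub_const m)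
    (Finset.sum_nonneg fun _ _ => abs_nonneg _) hσ hv n


end Crest.Agent.R144.Dpl702
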