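import Crest.Agent.R144.It1_844
import Crest.Agent.R161.Geo_729

/-!
# R144, up-triangle lattice: geometry and exactness (helper349)

`T' =` lattice of up triangles, indexed by `P2` with the same adjacency `Adj` (two up triangles are adjacent
iff they share a site iff they share an adjacent down triangle).

* `cr t i` : the three corners `t, t+e1, t+e2` of the up triangle `t` (`TriHeights.corner (t, true)`);
* `dn t i` : the down triangle adjacent to `t` across the side opposite to the corner `i`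
  (`t, t-e1, t-e2`; the down triangle `w` is `TriHeights (w, false)`, with corners `w+e1, w+e2, w+e1+e2`,
  adjacent to the up triangles `w, w+e1, w+e2`);
* for a finite set `F` of up triangles: `VF F` all sites, `IV F` interior sites (all three up triangles in `F`),
  `ID F` interior down triangles (all three adjacent up triangles in `F`);
* `SC F` : the complement of `F` is `Adj`-connected;
* `poin` : closed finitely supported patterns on the plane are exact;
* `exact_F` : patterns supported in `F`, even at every site, come from signs of `ID F`.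
-/

set_option autoImplicit false

namespace Crest.Agent.R144.Zg349

open Finset
open Crest.Agent.R144.It844
open Crest.ProbabilityR.HexHeights (Adj)

/-- corners of the up triangle `t` -/
def cr (t : P2) : Fin 3 → P2 := ![t, (t.1 + 1, t.2), (t.1, t.2 + 1)]
/-- down triangle adjacent to the up triangle `t`, opposite to the corner `i` -/
def dn (t : P2) : Fin 3 → P2 := ![t, (t.1 - 1, t.2), (t.1, t.2 - 1)]

@[simp] theorem cr0 (t : P2) : cr t 0 = t := rfl
@[simp] theorem cr1 (t : P2) : cr t 1 = (t.1 + 1, t.2) := rfl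
@[simp] theorem cr2 (t : P2) : cr t 2 = (t.1, t.2 + 1) := rfl
@[simp] theorem dn0 (t : P2) : dn t 0 = t := rfl
@[simp] theorem dn1 (t : P2) : dn t 1 = (t.1 - 1, t.2) := rfl
@[simp] theorem dn2 (t : P2) : dn t 2 = (t.1, t.2 - 1) := rfl


/-- set of corners of the up triangle `t` -/
def up (t : P2) : Finset P2 := {t, (t.1 + 1, t.2), (t.1, t.2 + 1)}

theorem mem_up {t v : P2} : v ∈ up t ↔ v = t ∨ v = (t.1 + 1, t.2) ∨ v = (t.1, t.2 + 1) := by
  simp [up]

theorem mem_up' {t v : P2} : v ∈ up t ↔ t = v ∨ t = (v.1 - 1, v.2) ∨ t = (v.1, v.2 - 1) := by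
  rw [mem_up]
  obtain ⟨a, b⟩ := t
  obtain ⟨x, y⟩ := v
  simp only [Prod.mk.injEq]
  omega

theorem cr_mem_up (t : P2) (i : Fin 3) : cr t i ∈ up t := by
  rw [mem_up]; fin_cases i <;> simp [cr]

theorem mem_up_iff {t v : P2} : v ∈ up t ↔ ∃ i, v = cr t i := by
  rw [mem_up]
  constructor
  · rintro (h | h | h)
    · exact ⟨0, h⟩
    · exact ⟨1, h⟩
    · exact ⟨2, h⟩
  · rintro ⟨i, h⟩
    fin_cases i
    · exact Or.inl h
    · exact Or.inr (Or.inl h)
    · exact Or.inr (Or.inr h)

/-- sharing a down triangle implies sharing a corner -/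
theorem share {t t' : P2} {i j : Fin 3} (h : dn t i = dn t' j) : ∃ v ∈ up t, v ∈ up t' := by
  obtain ⟨a, b⟩ := t
  obtain ⟨x, y⟩ := t'
  have key : (a = x ∧ b = y) ∨ (a = x - 1 ∧ b = y) ∨ (a = x ∧ b = y - 1) ∨ (a - 1 = x ∧ b = y) ∨
      (a = x ∧ b - 1 = y) ∨ (a - 1 = x ∧ b = y - 1) ∨ (a = x - 1 ∧ b - 1 = y) := by
    fin_cases i <;> fin_cases j <;> simp [dn, Prod.mk.injEq] at h <;> omega
  simp only [mem_up]
  rcases key with ⟨rfl, rfl⟩ | ⟨rfl, rfl⟩ | ⟨rfl, rfl⟩ | ⟨rfl, rfl⟩ | ⟨rfl, rfl⟩ | ⟨rfl, rfl⟩ | ⟨rfl, rfl⟩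
  · exact ⟨(a, b), by simp⟩
  · exact ⟨(x, b), by simp⟩
  · exact ⟨(a, y), by simp⟩
  · exact ⟨(a, b), by simp⟩
  · exact ⟨(a, b), by simp⟩
  · exact ⟨(a, y), by simp⟩
  · exact ⟨(x, b), by simp⟩

/-! ### domains -/

/-- interior sites of a set of up triangles -/
def IV (F : Finset P2) : Finset P2 := F.filter fun v => (v.1 - 1, v.2) ∈ F ∧ (v.1, v.2 - 1) ∈ F
/-- interior down triangles -/
def ID (F : Finset P2) : Finset P2 := F.filter fun w => (w.1 + 1, w.2) ∈ F ∧ (w.1, w.2 + 1) ∈ F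
/-- all sites of a set of up triangles -/
def VF (F : Finset P2) : Finset P2 := F.biUnion up

theorem mem_IV {F : Finset P2} {v : P2} :
    v ∈ IV F ↔ v ∈ F ∧ (v.1 - 1, v.2) ∈ F ∧ (v.1, v.2 - 1) ∈ F := by simp [IV]

theorem mem_IV' {F : Finset P2} {v : P2} : v ∈ IV F ↔ ∀ t, v ∈ up t → t ∈ F := by
  rw [mem_IV]
  constructor
  · rintro ⟨h1, h2, h3⟩ t ht
    rcases mem_up'.1 ht with h | h | h <;> rw [h] <;> assumption
  · intro h
    exact ⟨h v (mem_up'.2 (Or.inl rfl)), h _ (mem_up'.2 (Or.inr (Or.inl rfl))),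
      h _ (mem_up'.2 (Or.inr (Or.inr rfl)))⟩

theorem mem_ID {F : Finset P2} {w : P2} :
    w ∈ ID F ↔ w ∈ F ∧ (w.1 + 1, w.2) ∈ F ∧ (w.1, w.2 + 1) ∈ F := by simp [ID]

theorem mem_ID' {F : Finset P2} {w : P2} : w ∈ ID F ↔ ∀ t i, w = dn t i → t ∈ F := by
  rw [mem_ID]
  constructor
  · rintro ⟨h1, h2, h3⟩ t i ht
    fin_cases i
    · simp only [Fin.zero_eta, dn0] at ht
      rwa [← ht]
    · simp only [Fin.mk_one, dn1] at ht
      rw [ht] at h2
      simpa using h2
    · simp only [Fin.reduceFinMk, dn2] at ht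
      rw [ht] at h3
      simpa using h3
  · intro h
    exact ⟨h w 0 rfl, h (w.1 + 1, w.2) 1 (by simp), h (w.1, w.2 + 1) 2 (by simp)⟩

theorem mem_VF {F : Finset P2} {v : P2} : v ∈ VF F ↔ ∃ t ∈ F, v ∈ up t := by simp [VF]

theorem mem_VF' {F : Finset P2} {v : P2} :
    v ∈ VF F ↔ v ∈ F ∨ (v.1 - 1, v.2) ∈ F ∨ (v.1, v.2 - 1) ∈ F := by
  rw [mem_VF]
  constructor
  · rintro ⟨t, ht, hv⟩
    rcases mem_up'.1 hv with h | h | h
    · rw [h] at ht; exact Or.inl ht
    · rw [h] at ht; exact Or.inr (Or.inl ht)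
    · rw [h] at ht; exact Or.inr (Or.inr ht)
  · rintro (h | h | h)
    · exact ⟨_, h, mem_up'.2 (Or.inl rfl)⟩
    · exact ⟨_, h, mem_up'.2 (Or.inr (Or.inl rfl))⟩
    · exact ⟨_, h, mem_up'.2 (Or.inr (Or.inr rfl))⟩

theorem IV_sub (F : Finset P2) : IV F ⊆ F := Finset.filter_subset _ _
theorem ID_sub (F : Finset P2) : ID F ⊆ F := Finset.filter_subset _ _
theorem IV_sub_VF (F : Finset P2) : IV F ⊆ VF F := fun _ h => mem_VF'.2 (Or.inl (IV_sub F h))

theorem IV_mono {F G : Finset P2} (h : F ⊆ G) : IV F ⊆ IV G := fun v hv => by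
  rw [mem_IV] at hv ⊢
  exact ⟨h hv.1, h hv.2.1, h hv.2.2⟩

theorem ID_mono {F G : Finset P2} (h : F ⊆ G) : ID F ⊆ ID G := fun v hv => by
  rw [mem_ID] at hv ⊢
  exact ⟨h hv.1, h hv.2.1, h hv.2.2⟩

theorem VF_mono {F G : Finset P2} (h : F ⊆ G) : VF F ⊆ VF G := Finset.biUnion_subset_biUnion_of_subset_left _ h

/-! ### connectedness of the complement -/

/-- step inside `S` -/
def StepIn (S : Set P2) (a b : P2) : Prop := a ∈ S ∧ b ∈ S ∧ Adj a b

/-- `S` is `Adj`-connected (same as `HexDom353.Conn Adj S`) -/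
def IsConn (S : Set P2) : Prop := ∀ u ∈ S, ∀ v ∈ S, Relation.ReflTransGen (StepIn S) u v

/-- simply connected set of up triangles: the complement is connected -/
def SC (F : Finset P2) : Prop := IsConn ((F : Set P2)ᶜ)

/-- adjacent up triangles share a site -/
theorem adj_site {t t' : P2} (h : Adj t t') : ∃ v, v ∈ up t ∧ v ∈ up t' := by
  obtain ⟨a, b⟩ := t
  rcases adj_iff.1 h with rfl | rfl | rfl | rfl | rfl | rfl <;> simp only [mem_up]
  · exact ⟨(a + 1, b), by simp⟩
  · exact ⟨(a, b), by simp⟩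
  · exact ⟨(a, b + 1), by simp⟩
  · exact ⟨(a, b), by simp⟩
  · exact ⟨(a + 1, b), by simp⟩
  · exact ⟨(a, b + 1), by simp⟩

/-- adjacent up triangles share a down triangle -/
theorem adj_dn {t t' : P2} (h : Adj t t') : ∃ i j, dn t i = dn t' j := by
  obtain ⟨a, b⟩ := t
  rcases adj_iff.1 h with rfl | rfl | rfl | rfl | rfl | rfl
  · exact ⟨0, 1, by simp⟩
  · exact ⟨1, 0, by simp⟩
  · exact ⟨0, 2, by simp⟩
  · exact ⟨2, 0, by simp⟩
  · exact ⟨2, 1, by simp⟩
  · exact ⟨1, 2, by simp⟩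

/-- a function that is constant on the sites of every triangle off `F` is constant on non-interior sites -/
theorem const_site {A : Type*} {F : Finset P2} (hF : SC F) (g : P2 → A)
    (hg : ∀ t, t ∉ F → ∀ v ∈ up t, g v = g t) {v w : P2} (hv : v ∉ IV F) (hw : w ∉ IV F) :
    g v = g w := by
  rw [mem_IV'] at hv hw
  push Not at hv hw
  obtain ⟨t, htv, htF⟩ := hv
  obtain ⟨t', htw, htF'⟩ := hw
  rw [hg t htF v htv, hg t' htF' w htw]
  have h := hF t (by simpa using htF) t' (by simpa using htF')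
  clear htw htv
  induction h with
  | refl => rfl
  | @tail b c _ h2 ih =>
    obtain ⟨hb, hc, hbc⟩ := h2
    have hb' : b ∉ F := by simpa using hb
    have hc' : c ∉ F := by simpa using hc
    obtain ⟨x, hx1, hx2⟩ := adj_site hbc
    have h1 := ih hb'
    rw [h1, ← hg b hb' x hx1, hg c hc' x hx2]

/-- a function that is constant on the three down triangles around every triangle off `F` is constant on
non-interior down triangles -/
theorem const_dn {A : Type*} {F : Finset P2} (hF : SC F) (g : P2 → A)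
    (hg : ∀ t, t ∉ F → ∀ i, g (dn t i) = g t) {v w : P2} (hv : v ∉ ID F) (hw : w ∉ ID F) :
    g v = g w := by
  rw [mem_ID'] at hv hw
  push Not at hv hw
  obtain ⟨t, i, htv, htF⟩ := hv
  obtain ⟨t', j, htw, htF'⟩ := hw
  rw [htv, htw, hg t htF i, hg t' htF' j]
  have h := hF t (by simpa using htF) t' (by simpa using htF')
  clear htw htv
  induction h with
  | refl => rfl
  | @tail b c _ h2 ih =>
    obtain ⟨hb, hc, hbc⟩ := h2
    have hb' : b ∉ F := by simpa using hb
    have hc' : c ∉ F := by simpa using hc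
    obtain ⟨i', j', hx⟩ := adj_dn hbc
    have h1 := ih hb'
    rw [h1, ← hg b hb' i', hx, hg c hc' j']

/-! ### Poincaré lemma -/

/-- pattern of a dual function on the up triangle `t` : jumps seen from the corners `1` and `2` -/
def dq (σ : P2 → ZMod 2) (t : P2) : ZMod 2 × ZMod 2 :=
  (σ (dn t 0) + σ (dn t 2), σ (dn t 0) + σ (dn t 1))

/-- defect of a pattern at a site -/
def defect (q : P2 → ZMod 2 × ZMod 2) (v : P2) : ZMod 2 :=
  (q v).1 + (q v).2 + (q (v.1 - 1, v.2)).1 + (q (v.1, v.2 - 1)).2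

theorem defect_dq (σ : P2 → ZMod 2) (v : P2) : defect (dq σ) v = 0 := by
  obtain ⟨a, b⟩ := v
  simp only [defect, dq, dn0, dn1, dn2]
  generalize σ (a, b) = x
  generalize σ (a, b - 1) = y
  generalize σ (a - 1, b) = z
  generalize σ (a - 1, b - 1) = w
  revert x y z w
  decide

/-- **Exactness on the plane.** -/
theorem poin (q : P2 → ZMod 2 × ZMod 2) (S : Finset P2) (hS : ∀ t, t ∉ S → q t = 0)
    (hq : ∀ v, defect q v = 0) :
    ∃ σ : P2 → ZMod 2, (∀ t, dq σ t = q t) ∧ ∃ N : ℤ, ∀ w : P2, w.1 ≤ N → σ w = 0 := by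
  -- a vertical line to the left of the support
  obtain ⟨N, hN⟩ : ∃ N : ℤ, ∀ t ∈ S, N + 1 < t.1 := by
    rcases (S.image fun t => t.1).eq_empty_or_nonempty with h | h
    · exact ⟨0, fun t ht => by
        have : t.1 ∈ S.image fun t => t.1 := Finset.mem_image_of_mem _ ht
        rw [h] at this; exact absurd this (by simp)⟩
    · exact ⟨Finset.min' _ h - 2, fun t ht => by
        have := Finset.min'_le _ t.1 (Finset.mem_image_of_mem (fun t : P2 => t.1) ht)
        omega⟩
  have hzero : ∀ t : P2, t.1 ≤ N + 1 → q t = 0 := fun t ht => hS t fun h => by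
    have := hN t h
    omega
  obtain ⟨g, hg1, hg2, hg3⟩ := Crest.Agent.R161.Geo729.poincare
    (fun p : P2 => (q (p.1 + 1, p.2)).2) (fun p : P2 => (q (p.1, p.2 + 1)).1) N
    (fun i j h => by simp only; rw [hzero _ (by simp only; omega)]; rfl)
    (fun i j h => by simp only; rw [hzero _ (by simp only; omega)]; rfl)
    (fun i j => by
      have h := hq (i + 1, j + 1)
      simp only [defect, add_sub_cancel_right] at h
      simp only
      generalize (q (i + 1, j + 1)).1 = x1 at *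
      generalize (q (i + 1, j + 1)).2 = x2 at *
      generalize (q (i, j + 1)).1 = x3 at *
      generalize (q (i + 1, j)).2 = x4 at *
      revert x1 x2 x3 x4
      decide)
  refine ⟨g, fun t => ?_, N, fun w hw => hg3 w.1 w.2 hw⟩
  obtain ⟨a, b⟩ := t
  have h1 := hg1 (a - 1) b
  have h2 := hg2 a (b - 1)
  simp only [sub_add_cancel] at h1 h2
  simp only [dq, dn0, dn1, dn2]
  refine Prod.ext ?_ ?_
  · simp only
    rw [h2]
    generalize g (a, b - 1) = x
    generalize (q (a, b)).1 = y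
    revert x y
    decide
  · simp only
    rw [h1]
    generalize g (a - 1, b) = x
    generalize (q (a, b)).2 = y
    revert x y
    decide

theorem exists_far (S : Finset P2) (N : ℤ) : ∃ w : P2, w.1 ≤ N ∧ w ∉ S := by
  by_contra h
  push Not at h
  have hinj : Function.Injective fun n : ℕ => ((N, (n : ℤ)) : P2) := by
    intro a b hab
    simp only [Prod.mk.injEq, true_and] at hab
    exact_mod_cast hab
  have : (Set.range fun n : ℕ => ((N, (n : ℤ)) : P2)).Finite :=
    (S : Set P2).toFinite.subset (by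
      rintro _ ⟨n, rfl⟩
      exact h (N, (n : ℤ)) le_rfl)
  exact Set.infinite_range_of_injective hinj this

/-- **Exactness in a simply connected set `F` of up triangles** (signs of down triangles `+` off `ID F`). -/
theorem exact_F {F : Finset P2} (hF : SC F) (q : P2 → ZMod 2 × ZMod 2) (hS : ∀ t, t ∉ F → q t = 0)
    (hq : ∀ v, defect q v = 0) :
    ∃ σ : P2 → ZMod 2, (∀ t, dq σ t = q t) ∧ ∀ w, w ∉ ID F → σ w = 0 := by
  obtain ⟨σ, h1, N, h2⟩ := poin q F hS hq
  refine ⟨σ, h1, fun w hw => ?_⟩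
  obtain ⟨w0, h3, h4⟩ := exists_far (ID F) N
  rw [const_dn hF σ (fun t ht i => ?_) hw h4, h2 w0 h3]
  have h5 := h1 t
  rw [hS t ht] at h5
  simp only [dq] at h5
  have e1 := congrArg Prod.fst h5
  have e2 := congrArg Prod.snd h5
  simp only [Prod.fst_zero, Prod.snd_zero] at e1 e2
  have k : ∀ x y : ZMod 2, x + y = 0 → y = x := by decide
  fin_cases i
  · rfl
  · exact k _ _ e2
  · exact k _ _ e1

end Crest.Agent.R144.Zg349
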