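import Crest.Agent.R144.Pst3_967
import Crest.Agent.R144.Zg_349

-- ▼ part R144/Pst4_967
section

/-!
# R144, plane state of the integer models (helper967), part 4: DLR equation, complex observables, uniqueness

* `exists_kernel` : for a local gradient observable `F` the function `h ↦ ex x Λ h F` agrees on Lipschitz
  heights with a local gradient observable;
* `ZeroLim.dlr` : `∫ F dP = ∫ (ex x Λ h F) dP(h)` for every finite `Λ` and local gradient observable `F`
  (real or complex); `ZeroLim.dlr_pinned` : the same for every local `F` when `0 ∉ Λ`;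
* `ZeroLim.complex` : convergence for complex observables;
* `PinnedZ.ext` : a pinned law is determined by its local gradient observables.
-/

set_option autoImplicit false

noncomputable section

namespace Crest.Agent.R144.Pst967

open MeasureTheory Filter Topology
open Crest.ProbabilityR.HexHeights (Adj)
open Crest.Agent.R144.It844

variable {V : Type*} [AddCommGroup V] [Module ℝ V]

/-- the boundary heights matter only on the support and next to `Λ` -/
theorem ex_local' (x : ℝ) {Λ : Finset P2} {τ τ' : Hz} (hτ : Lip τ) (hτ' : Lip τ') {S : Set P2}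
    {F : Hz → V} (hF : LocZ S F) (h : ∀ v, v ∈ S ∨ v ∈ nbhd Λ → τ v = τ' v) :
    ex x Λ τ F = ex x Λ τ' F := by
  classical
  let f : Hz → V := fun a => F (fun v => if v ∈ Λ then a v else τ v)
  have h1 : ex x Λ τ F = ex x Λ τ f := by
    refine ex_congr fun a ha => ?_
    refine hF _ _ fun v _ => ?_
    by_cases hv : v ∈ Λ
    · simp [hv]
    · simp [hv, (mem_conf.1 ha).2 v hv]
  have h2 : ex x Λ τ' F = ex x Λ τ' f := by
    refine ex_congr fun a ha => ?_
    refine hF _ _ fun v hvS => ?_
    by_cases hv : v ∈ Λ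
    · simp [hv]
    · simp [hv, (mem_conf.1 ha).2 v hv, h v (Or.inl hvS)]
  rw [h1, h2]
  refine ex_local x hτ hτ' (fun v _ hn => h v (Or.inr hn)) f fun a b hab => ?_
  have : (fun v => if v ∈ Λ then a v else τ v) = fun v => if v ∈ Λ then b v else τ v := by
    funext v
    by_cases hv : v ∈ Λ
    · simp [hv, hab v hv]
    · simp [hv]
  simp only [f, this]

theorem nbhd_finite (Λ : Finset P2) : (nbhd Λ).Finite := by
  classical
  refine Set.Finite.subset (Finset.finite_toSet (Λ ∪ Λ.biUnion fun w =>
    ({(w.1 + 1, w.2), (w.1 - 1, w.2), (w.1, w.2 + 1), (w.1, w.2 - 1), (w.1 + 1, w.2 - 1),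
      (w.1 - 1, w.2 + 1)} : Finset P2))) ?_
  intro v hv
  rw [Finset.mem_coe, Finset.mem_union]
  rcases hv with hv | ⟨w, hw, hv⟩
  · exact Or.inl hv
  · right
    rw [Finset.mem_biUnion]
    refine ⟨w, hw, ?_⟩
    have := adj_iff.1 hv
    simpa using this

/-- conditional expectations of local gradient observables are local gradient observables -/
theorem exists_kernel (x : ℝ) (Λ : Finset P2) {F : Hz → V} (hF : GObs F) :
    ∃ G : Hz → V, GObs G ∧ ∀ h, Lip h → G h = ex x Λ h F := by
  classical
  obtain ⟨⟨S, hS⟩, hN⟩ := hF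
  set T : Finset P2 := S ∪ (nbhd_finite Λ).toFinset with hT
  have hTm : ∀ v, v ∈ (S : Set P2) ∨ v ∈ nbhd Λ → v ∈ T := by
    intro v hv
    rw [hT, Finset.mem_union, Set.Finite.mem_toFinset]
    exact hv
  let Q : Hz → Hz → Prop := fun h g => Lip g ∧ ∀ v ∈ T, g v = h v
  let G : Hz → V := fun h => if hh : ∃ g, Q h g then ex x Λ (Classical.choose hh) F else 0
  have hG : ∀ h g, Q h g → G h = ex x Λ g F := by
    intro h g hg
    have hh : ∃ g, Q h g := ⟨g, hg⟩
    have h1 : G h = ex x Λ (Classical.choose hh) F := dif_pos hh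
    rw [h1]
    have h2 := Classical.choose_spec hh
    refine ex_local' x h2.1 hg.1 hS fun v hv => ?_
    rw [h2.2 v (hTm v hv), hg.2 v (hTm v hv)]
  refine ⟨G, ⟨⟨T, fun h g hhg => ?_⟩, fun h c => ?_⟩, fun h hl => hG h h ⟨hl, fun _ _ => rfl⟩⟩
  · by_cases hh : ∃ k, Q h k
    · obtain ⟨k, hk⟩ := hh
      have hk' : Q g k := ⟨hk.1, fun v hv => (hk.2 v hv).trans (hhg v hv)⟩
      rw [hG h k hk, hG g k hk']
    · have hg : ¬ ∃ k, Q g k := by
        rintro ⟨k, hk⟩
        exact hh ⟨k, hk.1, fun v hv => (hk.2 v hv).trans (hhg v hv).symm⟩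
      simp only [G, dif_neg hh, dif_neg hg]
  · by_cases hh : ∃ k, Q h k
    · obtain ⟨k, hk⟩ := hh
      have hk' : Q (fun v => h v + c) (fun v => k v + c) :=
        ⟨hk.1.add_const c, fun v hv => by simp only [hk.2 v hv]⟩
      rw [hG h k hk, hG _ _ hk', ex_add_const]
      simp only [hN _ c]
    · have hg : ¬ ∃ k, Q (fun v => h v + c) k := by
        rintro ⟨k, hk⟩
        refine hh ⟨fun v => k v - c, ?_, fun v hv => ?_⟩
        · have := hk.1.add_const (-c)
          simpa only [sub_eq_add_neg] using this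
        · have := hk.2 v hv
          simp only at this ⊢
          rw [this]
          ring
      simp only [G, dif_neg hh, dif_neg hg]

variable {𝓒 : Set (Finset P2)}

theorem mem_lC_of_subset (Λ : Finset P2) : ∀ᶠ Λ' in lC 𝓒, Λ ⊆ Λ' :=
  mem_lC.2 ⟨Λ, fun _ _ h => h⟩

/-- **DLR equation** of the plane gradient law -/
theorem ZeroLim.dlr {x : ℝ} (hx : 0 < x) (h𝓒 : Cls 𝓒) {P : Measure Hz} (hZ : PinnedZ P)
    (hP : ZeroLim x 𝓒 P) (Λ : Finset P2) {F : Hz → ℝ} (hF : GObs F) :
    ∫ h, F h ∂P = ∫ h, ex x Λ h F ∂P := by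
  have hne := h𝓒.neBot
  obtain ⟨G, hG, hGe⟩ := exists_kernel x Λ hF
  have h1 : ∫ h, ex x Λ h F ∂P = ∫ h, G h ∂P := by
    refine integral_congr_ae ?_
    filter_upwards [hZ.lip] with h hh
    exact (hGe h hh).symm
  rw [h1]
  refine tendsto_nhds_unique (hP F hF) ?_
  refine (hP G hG).congr' ?_
  filter_upwards [mem_lC_of_subset Λ] with Λ' hΛ'
  rw [ex_tower hx hΛ' _ F]
  exact ex_congr fun h hh => hGe h (mem_conf.1 hh).1

theorem im_ex (x : ℝ) (Λ : Finset P2) (τ : Hz) (f : Hz → ℂ) :
    (ex x Λ τ f).im = ex x Λ τ (fun h => (f h).im) := by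
  unfold ex
  rw [Complex.real_smul, Complex.im_ofReal_mul, smul_eq_mul, Complex.im_sum]
  congr 1
  refine Finset.sum_congr rfl fun h _ => ?_
  rw [Complex.real_smul, Complex.im_ofReal_mul, smul_eq_mul]





/-- the gradient version of a function of the heights -/
def nz {β : Type*} (F : Hz → β) : Hz → β := fun h => F (fun v => h v - h 0)

theorem gobs_nz {β : Type*} {F : Hz → β} (hF : ∃ S : Finset P2, LocZ (S : Set P2) F) :
    GObs (nz F) := by
  classical
  obtain ⟨S, hS⟩ := hF
  refine ⟨⟨insert 0 S, fun h g hg => hS _ _ fun v hv => ?_⟩, fun h c => ?_⟩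
  · have h1 := hg v (by rw [Finset.coe_insert]; exact Or.inr hv)
    have h2 := hg 0 (by rw [Finset.coe_insert]; exact Or.inl rfl)
    rw [h1, h2]
  · unfold nz
    congr 1
    funext v
    ring

theorem nz_eq {β : Type*} (F : Hz → β) {h : Hz} (h0 : h 0 = 0) : nz F h = F h := by
  unfold nz
  congr 1
  funext v
  rw [h0, sub_zero]

theorem PinnedZ.integral_nz {E : Type*} [NormedAddCommGroup E] [NormedSpace ℝ E] {P : Measure Hz}
    (hZ : PinnedZ P) (F : Hz → E) : ∫ h, nz F h ∂P = ∫ h, F h ∂P := by
  refine integral_congr_ae ?_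
  filter_upwards [hZ.zero] with h hh
  exact nz_eq F hh




/-- a pinned law is determined by its local gradient observables -/
theorem PinnedZ.ext {P Q : Measure Hz} (hP : PinnedZ P) (hQ : PinnedZ Q)
    (h : ∀ F : Hz → ℝ, GObs F → ∫ h, F h ∂P = ∫ h, F h ∂Q) : P = Q := by
  classical
  have hp := hP.prob
  have hq := hQ.prob
  -- all local functions
  have hloc : ∀ F : Hz → ℝ, (∃ S : Finset P2, LocZ (S : Set P2) F) → ∫ h, F h ∂P = ∫ h, F h ∂Q := by
    intro F hF
    rw [← hP.integral_nz F, ← hQ.integral_nz F]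
    exact h _ (gobs_nz hF)
  refine ext_of_generate_finite (measurableCylinders fun _ : P2 => ℤ)
    (generateFrom_measurableCylinders (α := fun _ : P2 => ℤ)).symm isPiSystem_measurableCylinders
    (fun A hA => ?_) (by rw [measure_univ, measure_univ])
  have hm : MeasurableSet A := MeasurableSet.of_mem_measurableCylinders hA
  obtain ⟨S, B, hB, rfl⟩ := (mem_measurableCylinders A).1 hA
  have h1 := hloc ((cylinder S B).indicator fun _ => (1 : ℝ)) ⟨S, fun a b hab => by
    have : a ∈ cylinder S B ↔ b ∈ cylinder S B := by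
      rw [mem_cylinder, mem_cylinder]
      have : S.restrict a = S.restrict b := by
        funext v
        exact hab v v.2
      rw [this]
    by_cases ha : a ∈ cylinder S B
    · rw [Set.indicator_of_mem ha, Set.indicator_of_mem (this.1 ha)]
    · rw [Set.indicator_of_notMem ha, Set.indicator_of_notMem fun hb => ha (this.2 hb)]⟩
  rw [integral_indicator hm, integral_indicator hm] at h1
  simp only [integral_const, MeasurableSet.univ, measureReal_restrict_apply, Set.univ_inter,
    smul_eq_mul, mul_one] at h1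
  exact (measureReal_eq_measureReal_iff).1 h1

end Crest.Agent.R144.Pst967
end
end

-- ▼ part R144/Pst5_967

/-!
# R144, plane state of the integer models (helper967), part 5: the class of simply connected volumes

* `hexB n` : hexagonal ball `|x|, |y|, |x + y| ≤ n`, invariant under all lattice automorphisms fixing `0`;
  its complement is connected;
* `scs = {Λ | IsConn Λᶜ}` (finite sets with `Adj`-connected complement) and `cls_scs : Cls scs`.
-/

set_option autoImplicit false

noncomputable section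

namespace Crest.Agent.R144.Pst967

open MeasureTheory Filter Topology
open Crest.ProbabilityR.HexHeights (Adj)
open Crest.Agent.R144.It844
open Crest.Agent.R144.Zg349 (IsConn StepIn)

theorem stepIn_symm {S : Set P2} {a b : P2} (h : StepIn S a b) : StepIn S b a :=
  ⟨h.2.1, h.1, adj_symm h.2.2⟩

theorem path_symm {S : Set P2} {a b : P2} (h : Relation.ReflTransGen (StepIn S) a b) :
    Relation.ReflTransGen (StepIn S) b a := by
  induction h with
  | refl => exact Relation.ReflTransGen.refl
  | tail _ h2 ih => exact Relation.ReflTransGen.head (stepIn_symm h2) ih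

/-- horizontal path to the right -/
theorem path_right {S : Set P2} (y a : ℤ) (k : ℕ) (h : ∀ i : ℕ, i ≤ k → (a + (i : ℤ), y) ∈ S) :
    Relation.ReflTransGen (StepIn S) (a, y) (a + (k : ℤ), y) := by
  induction k with
  | zero => simpa using Relation.ReflTransGen.refl
  | succ k ih =>
    refine (ih fun i hi => h i (by omega)).tail ⟨h k (by omega), h (k + 1) le_rfl, ?_⟩
    rw [adj_iff]
    left
    ext <;> simp [add_assoc]

theorem path_up {S : Set P2} (x a : ℤ) (k : ℕ) (h : ∀ i : ℕ, i ≤ k → (x, a + (i : ℤ)) ∈ S) :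
    Relation.ReflTransGen (StepIn S) (x, a) (x, a + (k : ℤ)) := by
  induction k with
  | zero => simpa using Relation.ReflTransGen.refl
  | succ k ih =>
    refine (ih fun i hi => h i (by omega)).tail ⟨h k (by omega), h (k + 1) le_rfl, ?_⟩
    rw [adj_iff]
    right; right; left
    ext <;> simp [add_assoc]

theorem path_h {S : Set P2} (y a b : ℤ) (h : ∀ t : ℤ, min a b ≤ t → t ≤ max a b → (t, y) ∈ S) :
    Relation.ReflTransGen (StepIn S) (a, y) (b, y) := by
  rcases le_total a b with hab | hab
  · have h1 := path_right (S := S) y a (b - a).toNat fun i hi => h _ (by omega) (by omega)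
    have e : a + ((b - a).toNat : ℤ) = b := by omega
    rwa [e] at h1
  · have h1 := path_right (S := S) y b (a - b).toNat fun i hi => h _ (by omega) (by omega)
    have e : b + ((a - b).toNat : ℤ) = a := by omega
    rw [e] at h1
    exact path_symm h1

theorem path_v {S : Set P2} (x a b : ℤ) (h : ∀ t : ℤ, min a b ≤ t → t ≤ max a b → (x, t) ∈ S) :
    Relation.ReflTransGen (StepIn S) (x, a) (x, b) := by
  rcases le_total a b with hab | hab
  · have h1 := path_up (S := S) x a (b - a).toNat fun i hi => h _ (by omega) (by omega)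
    have e : a + ((b - a).toNat : ℤ) = b := by omega
    rwa [e] at h1
  · have h1 := path_up (S := S) x b (a - b).toNat fun i hi => h _ (by omega) (by omega)
    have e : b + ((a - b).toNat : ℤ) = a := by omega
    rw [e] at h1
    exact path_symm h1

/-- hexagonal ball -/
def hexB (n : ℕ) : Finset P2 :=
  ((Finset.Icc (-(n : ℤ)) n) ×ˢ (Finset.Icc (-(n : ℤ)) n)).filter fun v => |v.1 + v.2| ≤ (n : ℤ)

theorem mem_hexB {n : ℕ} {v : P2} : v ∈ hexB n ↔ |v.1| ≤ n ∧ |v.2| ≤ n ∧ |v.1 + v.2| ≤ n := by
  unfold hexB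
  simp only [Finset.mem_filter, Finset.mem_product, Finset.mem_Icc, abs_le]
  tauto

theorem hexB_mono {n m : ℕ} (h : n ≤ m) : hexB n ⊆ hexB m := by
  intro v hv
  rw [mem_hexB] at *
  have : (n : ℤ) ≤ m := by exact_mod_cast h
  exact ⟨hv.1.trans this, hv.2.1.trans this, hv.2.2.trans this⟩

theorem hexB_th {n : ℕ} (v : P2) : Tp952.th v ∈ hexB n ↔ v ∈ hexB n := by
  rw [mem_hexB, mem_hexB]
  simp only [Tp952.th, abs_neg]
  rw [show v.1 + v.2 + -v.2 = v.1 by ring]
  tauto

theorem subset_hexB (S : Finset P2) : ∃ n : ℕ, S ⊆ hexB n := by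
  refine ⟨∑ v ∈ S, (v.1.natAbs + v.2.natAbs), fun v hv => ?_⟩
  have h1 : v.1.natAbs + v.2.natAbs ≤ ∑ v ∈ S, (v.1.natAbs + v.2.natAbs) :=
    Finset.single_le_sum (f := fun v : P2 => v.1.natAbs + v.2.natAbs) (fun _ _ => Nat.zero_le _) hv
  rw [mem_hexB]
  generalize ∑ v ∈ S, (v.1.natAbs + v.2.natAbs) = n at *
  refine ⟨?_, ?_, ?_⟩ <;> rw [abs_le] <;> omega

/-- the complement of a hexagonal ball is connected -/
theorem conn_hexB (n : ℕ) : IsConn ((hexB n : Set P2)ᶜ) := by
  set S : Set P2 := (hexB n : Set P2)ᶜ with hS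
  have hmem : ∀ x y : ℤ, (x, y) ∈ S ↔ ((n : ℤ) < x ∨ x < -n ∨ (n : ℤ) < y ∨ y < -n ∨
      (n : ℤ) < x + y ∨ x + y < -n) := by
    intro x y
    rw [hS, Set.mem_compl_iff, Finset.mem_coe, mem_hexB]
    simp only [abs_le]
    constructor
    · intro h
      by_contra hc
      push Not at hc
      exact h ⟨⟨by omega, by omega⟩, ⟨by omega, by omega⟩, by omega, by omega⟩
    · rintro h ⟨h1, h2, h3⟩
      omega
  -- everything is joined to the base point
  set M : ℤ := (n : ℤ) + 1 with hM
  have key1 : ∀ x y : ℤ, ((n : ℤ) < x ∨ x < -n) →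
      Relation.ReflTransGen (StepIn S) (x, y) (M, M) := by
    intro x y hx
    refine (path_v x y M fun t _ _ => (hmem x t).2 (by omega)).trans ?_
    exact path_h M x M fun t _ _ => (hmem t M).2 (by omega)
  have key2 : ∀ x y : ℤ, ((n : ℤ) < y ∨ y < -n) →
      Relation.ReflTransGen (StepIn S) (x, y) (M, M) := by
    intro x y hy
    refine (path_h y x M fun t _ _ => (hmem t y).2 (by omega)).trans ?_
    exact path_v M y M fun t _ _ => (hmem M t).2 (by omega)
  have key : ∀ v ∈ S, Relation.ReflTransGen (StepIn S) v (M, M) := by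
    rintro ⟨x, y⟩ hv
    rw [hmem] at hv
    rcases hv with h | h | h | h | h | h
    · exact key1 x y (Or.inl h)
    · exact key1 x y (Or.inr h)
    · exact key2 x y (Or.inl h)
    · exact key2 x y (Or.inr h)
    · refine (path_h y x (max x M) fun t h1 h2 => (hmem t y).2 ?_).trans
        (key1 (max x M) y (Or.inl (by omega)))
      have : x ≤ t := by
        have := min_le_left x (max x M)
        rw [min_eq_left (le_max_left x M)] at h1
        exact h1
      omega
    · refine (path_h y x (min x (-M)) fun t h1 h2 => (hmem t y).2 ?_).trans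
        (key1 (min x (-M)) y (Or.inr (by omega)))
      have : t ≤ x := by
        rw [max_eq_left (min_le_left x (-M))] at h2
        exact h2
      omega
  intro u hu v hv
  exact (key u hu).trans (path_symm (key v hv))

/-- finite sets of sites with connected complement -/
def scs : Set (Finset P2) := {Λ | IsConn ((Λ : Set P2)ᶜ)}

theorem mem_scs {Λ : Finset P2} : Λ ∈ scs ↔ IsConn ((Λ : Set P2)ᶜ) := Iff.rfl

theorem hexB_mem_scs (n : ℕ) : hexB n ∈ scs := conn_hexB n

theorem map_mem_scs {σ : P2 ≃ P2} (hσ : Sym σ) {Λ : Finset P2} (hΛ : Λ ∈ scs) :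
    Λ.map σ.toEmbedding ∈ scs := by
  have hm : ∀ v : P2, v ∈ ((Λ.map σ.toEmbedding : Finset P2) : Set P2)ᶜ ↔
      σ.symm v ∈ ((Λ : Finset P2) : Set P2)ᶜ := by
    intro v
    simp only [Set.mem_compl_iff, Finset.mem_coe, Finset.mem_map, Equiv.coe_toEmbedding, not_iff_not]
    constructor
    · rintro ⟨a, ha, rfl⟩
      simpa using ha
    · intro h
      exact ⟨_, h, by simp⟩
  intro u hu v hv
  have h1 := hΛ (σ.symm u) ((hm u).1 hu) (σ.symm v) ((hm v).1 hv)
  have h2 : ∀ a b : P2, Relation.ReflTransGen (StepIn ((Λ : Set P2)ᶜ)) a b →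
      Relation.ReflTransGen (StepIn ((Λ.map σ.toEmbedding : Finset P2) : Set P2)ᶜ) (σ a) (σ b) := by
    intro a b hab
    induction hab with
    | refl => exact Relation.ReflTransGen.refl
    | tail _ h3 ih =>
      refine ih.tail ⟨(hm _).2 ?_, (hm _).2 ?_, (hσ _ _).2 h3.2.2⟩
      · simpa using h3.1
      · simpa using h3.2.1
  have h3 := h2 _ _ h1
  simpa using h3

/-- **the class of simply connected volumes** -/
theorem cls_scs : Cls scs where
  map σ hσ Λ hΛ := map_mem_scs hσ hΛ
  refl S := by
    obtain ⟨n, hn⟩ := subset_hexB S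
    exact ⟨hexB n, hexB_mem_scs n, hn, hexB_th⟩


end Crest.Agent.R144.Pst967
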