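import Crest.Agent.R144.Zf_349
import Crest.Agent.R144.Pst5_967

/-!
# R144, integer models: THE RSW INTERFACE (helper867)

* `ball a n` : hexagonal ball of radius `n` around `a`;
* `Blk a m N` (`BlkP a m N`): a layer of minus-closed (plus-closed) up-triangles separates `ball a m`
  from the outside of `ball a N`;
* `RSWZ c` : the uniform RSW statement for minus-closed layers under the maximal laws `E c F`;
* `RSWZ.minus`, `RSWZ.plus` : conditional forms (given any `(s1, z)` information outside a ball);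
* `RSWZ.decay`, `RSWZ.decayP`, `RSWZ.block` : several scales.
-/

set_option autoImplicit false

noncomputable section

namespace Crest.Agent.R144.Rsw867

open Finset
open Crest.Agent.R144.It844 (P2 adj_iff)
open Crest.Agent.R144.Zg349 Crest.Agent.R144.Zd349 Crest.Agent.R144.Zm349 Crest.Agent.R144.Ze349
open Crest.Agent.R144.Zf349
open Crest.Agent.R144.Pst967 (hexB mem_hexB hexB_mono conn_hexB stepIn_symm path_symm)
open Crest.ProbabilityR.HexHeights (Adj)

/-! ### balls -/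

/-- hexagonal ball of radius `n` around `a` -/
def ball (a : P2) (n : ℕ) : Finset P2 := (hexB n).image fun v => v + a

theorem mem_ball' {a v : P2} {n : ℕ} : v ∈ ball a n ↔ v - a ∈ hexB n := by
  unfold ball
  rw [Finset.mem_image]
  constructor
  · rintro ⟨w, hw, rfl⟩
    simpa using hw
  · intro h
    exact ⟨_, h, by simp⟩

theorem mem_ball {a v : P2} {n : ℕ} : v ∈ ball a n ↔
    |v.1 - a.1| ≤ n ∧ |v.2 - a.2| ≤ n ∧ |v.1 - a.1 + (v.2 - a.2)| ≤ n := by
  rw [mem_ball', mem_hexB]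
  rfl

theorem ball_mono (a : P2) {m n : ℕ} (h : m ≤ n) : ball a m ⊆ ball a n := fun v hv => by
  rw [mem_ball'] at *
  exact hexB_mono h hv

theorem ball_zero_eq (n : ℕ) : ball 0 n = hexB n := by
  ext v
  rw [mem_ball', sub_zero]

/-- neighbours of a ball -/
theorem adj_ball {a v w : P2} {n : ℕ} (hv : v ∈ ball a n) (h : Adj v w) : w ∈ ball a (n + 1) := by
  rw [mem_ball] at *
  rw [adj_iff] at h
  obtain ⟨h1, h2, h3⟩ := hv
  rw [abs_le] at h1 h2 h3
  simp only [abs_le]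
  push_cast
  rcases h with h | h | h | h | h | h <;> subst h <;> simp only <;> omega

theorem conn_shift {S : Set P2} (a : P2) (h : IsConn S) : IsConn {v | v - a ∈ S} := by
  intro u hu v hv
  have h1 := h (u - a) hu (v - a) hv
  have h2 : ∀ x y : P2, Relation.ReflTransGen (StepIn S) x y →
      Relation.ReflTransGen (StepIn {v | v - a ∈ S}) (x + a) (y + a) := by
    intro x y hxy
    induction hxy with
    | refl => exact Relation.ReflTransGen.refl
    | tail _ h3 ih =>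
      refine ih.tail ⟨?_, ?_, ?_⟩
      · show _ - a ∈ S
        simpa using h3.1
      · show _ - a ∈ S
        simpa using h3.2.1
      · exact (Crest.Agent.R144.Psr712.adj_tr a _ _).2 h3.2.2
  have h3 := h2 _ _ h1
  simpa using h3

theorem sc_ball (a : P2) (n : ℕ) : SC (ball a n) := by
  have h := conn_shift a (conn_hexB n)
  have e : {v : P2 | v - a ∈ (hexB n : Set P2)ᶜ} = ((ball a n : Finset P2) : Set P2)ᶜ := by
    ext v
    show (v - a ∈ (hexB n : Set P2)ᶜ) ↔ v ∈ ((ball a n : Finset P2) : Set P2)ᶜ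
    simp only [Set.mem_compl_iff, Finset.mem_coe, mem_ball']
  rw [e] at h
  exact h

/-! ### paths -/

theorem path_mono {S T : Set P2} (h : S ⊆ T) {u v : P2} (p : Relation.ReflTransGen (StepIn S) u v) :
    Relation.ReflTransGen (StepIn T) u v :=
  Relation.ReflTransGen.mono (fun _ _ hab => ⟨h hab.1, h hab.2.1, hab.2.2⟩) _ _ p

/-- cut a path at its first visit of `X` -/
theorem first_hit {S : Set P2} (X : Set P2) {u v : P2} (hu : u ∉ X)
    (p : Relation.ReflTransGen (StepIn S) u v) :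
    (v ∉ X ∧ Relation.ReflTransGen (StepIn (S ∩ Xᶜ)) u v) ∨
      ∃ w ∈ X, Relation.ReflTransGen (StepIn (S ∩ {t | t ∉ X ∨ ∃ t', t' ∉ X ∧ Adj t' t})) u w := by
  induction p with
  | refl => exact Or.inl ⟨hu, Relation.ReflTransGen.refl⟩
  | @tail b d _ hbd ih =>
    rcases ih with ⟨hb, hp⟩ | h
    · by_cases hd : d ∈ X
      · right
        refine ⟨d, hd, (path_mono ?_ hp).tail ⟨⟨hbd.1, Or.inl hb⟩, ⟨hbd.2.1, Or.inr ⟨b, hb, hbd.2.2⟩⟩,
          hbd.2.2⟩⟩
        exact fun t ht => ⟨ht.1, Or.inl ht.2⟩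
      · exact Or.inl ⟨hd, hp.tail ⟨⟨hbd.1, hb⟩, ⟨hbd.2.1, hd⟩, hbd.2.2⟩⟩
    · exact Or.inr h

/-- keep only the part of a path between the outside of `Y` and `X`, `X ⊆ Y` -/
theorem trim {S : Set P2} {X Y : Set P2} (hXY : X ⊆ Y) {u v : P2} (hu : u ∉ Y) (hv : v ∈ X)
    (p : Relation.ReflTransGen (StepIn S) u v) :
    ∃ u' v', u' ∉ Y ∧ v' ∈ X ∧ Relation.ReflTransGen
      (StepIn (S ∩ {t | (t ∈ Y ∨ ∃ t', t' ∈ Y ∧ Adj t' t) ∧ (t ∉ X ∨ ∃ t', t' ∉ X ∧ Adj t' t)}))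
        u' v' := by
  rcases first_hit X (fun h => hu (hXY h)) p with ⟨h, _⟩ | ⟨w, hw, hp⟩
  · exact absurd hv h
  · have hq := path_symm hp
    have hwY : w ∉ Yᶜ := fun h => h (hXY hw)
    rcases first_hit Yᶜ hwY hq with ⟨h, _⟩ | ⟨z, hz, hr⟩
    · exact absurd hu h
    · refine ⟨z, w, hz, hw, path_symm (path_mono ?_ hr)⟩
      rintro t ⟨⟨h1, h2⟩, h3⟩
      refine ⟨h1, ?_, h2⟩
      rcases h3 with h3 | ⟨t', h3, h4⟩
      · exact Or.inl (not_not.1 h3)
      · exact Or.inr ⟨t', not_not.1 h3, h4⟩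

/-! ### blocking layers -/

/-- no path of not-`S` triangles from outside `ball a N` to `ball a m` -/
def Sepr (S : Set P2) (a : P2) (m N : ℕ) : Prop :=
  ∀ u v, u ∉ ball a N → v ∈ ball a m → ¬ Relation.ReflTransGen (StepIn Sᶜ) u v

theorem Sepr.mono {S T : Set P2} (h : S ⊆ T) {a : P2} {m N : ℕ} (hs : Sepr S a m N) :
    Sepr T a m N := fun u v hu hv p =>
  hs u v hu hv (path_mono (Set.compl_subset_compl.2 h) p)

theorem Sepr.mono_ball {S : Set P2} {a : P2} {m m' N N' : ℕ} (hs : Sepr S a m N) (hm : m' ≤ m)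
    (hN : N ≤ N') : Sepr S a m' N' := fun u v hu hv p =>
  hs u v (fun h => hu (ball_mono a hN h)) (ball_mono a hm hv) p

/-- only triangles of the annulus matter -/
theorem Sepr.congr {S T : Set P2} {a : P2} {m N : ℕ} (hmN : m ≤ N)
    (h : ∀ t ∈ ball a (N + 1), (∀ k : ℕ, k + 1 ≤ m → t ∉ ball a k) → (t ∈ S → t ∈ T))
    (hs : Sepr S a m N) : Sepr T a m N := by
  intro u v hu hv p
  obtain ⟨u', v', hu', hv', q⟩ := trim (X := (ball a m : Set P2)) (Y := (ball a N : Set P2))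
    (fun x hx => ball_mono a hmN hx) (u := u) (v := v) (fun hh => hu hh) hv p
  refine hs u' v' (fun hh => hu' hh) hv' (path_mono ?_ q)
  rintro t ⟨h1, h2, h3⟩ h4
  refine h1 (h t ?_ ?_ h4)
  · rcases h2 with h2 | ⟨t', h2, h5⟩
    · exact ball_mono a (Nat.le_succ N) h2
    · exact adj_ball h2 h5
  · intro k hk hk'
    rcases h3 with h3 | ⟨t', h3, h5⟩
    · exact h3 (ball_mono a (by omega) hk')
    · exact h3 (ball_mono a hk (adj_ball hk' (It844.adj_symm h5)))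

/-- a layer of minus-closed triangles separates `ball a m` from outside `ball a N` -/
def Blk (a : P2) (m N : ℕ) : Set Cfg := {ω | Sepr {t | mC ω t} a m N}

/-- a layer of plus-closed triangles separates `ball a m` from outside `ball a N` -/
def BlkP (a : P2) (m N : ℕ) : Set Cfg := {ω | Sepr {t | pC ω t} a m N}


theorem pC_addH2 (ω : Cfg) (t : P2) : pC (addH 2 ω) t ↔ mC ω t := by
  unfold mC pC addH
  simp only [s1_add_two, Bool.not_eq_true']


theorem blkP_addH2 {ω : Cfg} {a : P2} {m N : ℕ} : addH 2 ω ∈ BlkP a m N ↔ ω ∈ Blk a m N := by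
  show Sepr _ a m N ↔ Sepr _ a m N
  simp only [pC_addH2]

open Classical in
/-- indicator -/
def ind (A : Set Cfg) (ω : Cfg) : ℝ := if ω ∈ A then 1 else 0

theorem ind_nonneg (A : Set Cfg) (ω : Cfg) : 0 ≤ ind A ω := by
  unfold ind; split_ifs <;> norm_num
theorem ind_le_one (A : Set Cfg) (ω : Cfg) : ind A ω ≤ 1 := by
  unfold ind; split_ifs <;> norm_num
theorem ind_of_mem {A : Set Cfg} {ω : Cfg} (h : ω ∈ A) : ind A ω = 1 := if_pos h
theorem ind_of_not_mem {A : Set Cfg} {ω : Cfg} (h : ω ∉ A) : ind A ω = 0 := if_neg h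
theorem ind_le_ind {A B : Set Cfg} {ω ω' : Cfg} (h : ω ∈ A → ω' ∈ B) : ind A ω ≤ ind B ω' := by
  by_cases hA : ω ∈ A
  · rw [ind_of_mem hA, ind_of_mem (h hA)]
  · rw [ind_of_not_mem hA]; exact ind_nonneg _ _
theorem ind_congr {A B : Set Cfg} {ω ω' : Cfg} (h : ω ∈ A ↔ ω' ∈ B) : ind A ω = ind B ω' :=
  le_antisymm (ind_le_ind h.1) (ind_le_ind h.2)
theorem ind_compl (A : Set Cfg) (ω : Cfg) : ind Aᶜ ω = 1 - ind A ω := by
  by_cases hA : ω ∈ A
  · rw [ind_of_mem hA, ind_of_not_mem (show ω ∉ Aᶜ from not_not.2 hA)]; norm_num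
  · rw [ind_of_not_mem hA, ind_of_mem (show ω ∈ Aᶜ from hA)]; norm_num
theorem Pr_eq (c : ℝ) (F : Finset P2) (A : Set Cfg) : Pr c F A = E c F (ind A) := rfl

theorem incP_blkP (a : P2) (m N : ℕ) : IncP (ind (BlkP a m N)) := fun _ _ h =>
  ind_le_ind fun hω => Sepr.mono (fun t ht => h.p t ht) hω

theorem incP_not_blk (a : P2) (m N : ℕ) : IncP (ind (Blk a m N)ᶜ) := fun _ _ h =>
  ind_le_ind fun hω hω' => hω (Sepr.mono (fun t ht => h.m t ht) hω')

theorem mem_IV_ball {a t : P2} {n : ℕ} {B : Finset P2} (hB : ball a (n + 1) ⊆ B)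
    (ht : t ∈ ball a n) : t ∈ IV B := by
  rw [mem_IV]
  refine ⟨hB (ball_mono a (Nat.le_succ n) ht), hB (adj_ball ht ?_), hB (adj_ball ht ?_)⟩
  · rw [adj_iff]; right; left; rfl
  · rw [adj_iff]; right; right; right; left; rfl

/-- `ind (Blk a m N)` is seen inside every volume containing `ball a (N + 2)` -/
theorem inTZ_blk (a : P2) {m N : ℕ} (hmN : m ≤ N) {B : Finset P2} (hB : ball a (N + 2) ⊆ B) :
    InTZ B (ind (Blk a m N)) := by
  have key : ∀ ω ω' : Cfg, (∀ v ∈ IV B, s1 (ω.1 v) = s1 (ω'.1 v)) → (∀ t ∈ B, ω.2 t = ω'.2 t) →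
      ω ∈ Blk a m N → ω' ∈ Blk a m N := by
    intro ω ω' h1 h2 h
    refine Sepr.congr hmN (fun t ht _ hm => ?_) h
    have e1 := h2 t (hB (ball_mono a (by omega) ht))
    have e2 := h1 t (mem_IV_ball hB ht)
    exact ⟨by rw [← e1]; exact hm.1, by rw [← e2]; exact hm.2⟩
  intro ω ω' h1 h2
  exact ind_congr ⟨key ω ω' h1 h2, key ω' ω (fun v hv => (h1 v hv).symm) fun t ht => (h2 t ht).symm⟩

theorem inTZ_blkP (a : P2) {m N : ℕ} (hmN : m ≤ N) {B : Finset P2} (hB : ball a (N + 2) ⊆ B) :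
    InTZ B (ind (BlkP a m N)) := by
  have key : ∀ ω ω' : Cfg, (∀ v ∈ IV B, s1 (ω.1 v) = s1 (ω'.1 v)) → (∀ t ∈ B, ω.2 t = ω'.2 t) →
      ω ∈ BlkP a m N → ω' ∈ BlkP a m N := by
    intro ω ω' h1 h2 h
    refine Sepr.congr hmN (fun t ht _ hm => ?_) h
    have e1 := h2 t (hB (ball_mono a (by omega) ht))
    have e2 := h1 t (mem_IV_ball hB ht)
    exact ⟨by rw [← e1]; exact hm.1, by rw [← e2]; exact hm.2⟩
  intro ω ω' h1 h2
  exact ind_congr ⟨key ω ω' h1 h2, key ω' ω (fun v hv => (h1 v hv).symm) fun t ht => (h2 t ht).symm⟩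

/-- `ind (Blk a m N)` is seen off every volume contained in `ball a (m - 1)` -/
theorem offTZ_blk (a : P2) {m N : ℕ} (hmN : m ≤ N) {B : Finset P2} {k : ℕ} (hk : k + 1 ≤ m)
    (hB : B ⊆ ball a k) : OffTZ B (ind (Blk a m N)) := by
  have key : ∀ ω ω' : Cfg, (∀ v, v ∉ IV B → s1 (ω.1 v) = s1 (ω'.1 v)) →
      (∀ t, t ∉ B → ω.2 t = ω'.2 t) → ω ∈ Blk a m N → ω' ∈ Blk a m N := by
    intro ω ω' h1 h2 h
    refine Sepr.congr hmN (fun t _ ht hm => ?_) h
    have hb : t ∉ B := fun hb => ht k hk (hB hb)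
    have e1 := h2 t hb
    have e2 := h1 t fun h => hb (IV_sub B h)
    exact ⟨by rw [← e1]; exact hm.1, by rw [← e2]; exact hm.2⟩
  intro ω ω' h1 h2
  exact ind_congr ⟨key ω ω' h1 h2, key ω' ω (fun v hv => (h1 v hv).symm) fun t ht => (h2 t ht).symm⟩

theorem offTZ_blkP (a : P2) {m N : ℕ} (hmN : m ≤ N) {B : Finset P2} {k : ℕ} (hk : k + 1 ≤ m)
    (hB : B ⊆ ball a k) : OffTZ B (ind (BlkP a m N)) := by
  have key : ∀ ω ω' : Cfg, (∀ v, v ∉ IV B → s1 (ω.1 v) = s1 (ω'.1 v)) →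
      (∀ t, t ∉ B → ω.2 t = ω'.2 t) → ω ∈ BlkP a m N → ω' ∈ BlkP a m N := by
    intro ω ω' h1 h2 h
    refine Sepr.congr hmN (fun t _ ht hm => ?_) h
    have hb : t ∉ B := fun hb => ht k hk (hB hb)
    have e1 := h2 t hb
    have e2 := h1 t fun h => hb (IV_sub B h)
    exact ⟨by rw [← e1]; exact hm.1, by rw [← e2]; exact hm.2⟩
  intro ω ω' h1 h2
  exact ind_congr ⟨key ω ω' h1 h2, key ω' ω (fun v hv => (h1 v hv).symm) fun t ht => (h2 t ht).symm⟩

theorem inTZ_compl {B : Finset P2} {A : Set Cfg} (h : InTZ B (ind A)) : InTZ B (ind Aᶜ) :=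
  fun ω ω' h1 h2 => by rw [ind_compl, ind_compl, h ω ω' h1 h2]

theorem offTZ_compl {B : Finset P2} {A : Set Cfg} (h : OffTZ B (ind A)) : OffTZ B (ind Aᶜ) :=
  fun ω ω' h1 h2 => by rw [ind_compl, ind_compl, h ω ω' h1 h2]

theorem offTZ_mul {B : Finset P2} {f g : Cfg → ℝ} (hf : OffTZ B f) (hg : OffTZ B g) :
    OffTZ B fun ω => f ω * g ω := fun ω ω' h1 h2 => by
  show f ω * g ω = f ω' * g ω'
  rw [hf ω ω' h1 h2, hg ω ω' h1 h2]

theorem offTZ_mono {B B' : Finset P2} (h : B' ⊆ B) {g : Cfg → ℝ} (hg : OffTZ B g) : OffTZ B' g :=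
  fun ω ω' h1 h2 => hg ω ω' (fun v hv => h1 v fun hv' => hv (IV_mono h hv'))
    (fun t ht => h2 t fun ht' => ht (h ht'))

/-! ### the RSW statement -/

/-- **THE RSW INTERFACE.** Under the maximal laws, a layer of minus-closed triangles separates
`ball a n` from outside `ball a (2 n)` with probability at least `p`, for every simply connected volume
containing `ball a (K n)`. -/
def RSWZ (c : ℝ) : Prop := ∃ (K : ℕ) (p : ℝ), 4 ≤ K ∧ 0 < p ∧ ∀ n : ℕ, 1 ≤ n → ∀ (a : P2) (F : Finset P2),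
  SC F → ball a (K * n) ⊆ F → p ≤ Pr c F (Blk a n (2 * n))

/-- conditional forms at all scales -/
structure RSW (c : ℝ) (K : ℕ) (p : ℝ) : Prop where
  K4 : 4 ≤ K
  p0 : 0 < p
  p1 : p ≤ 1 / 2
  /-- minus-closed layers, given any `(s1, z)` information off `ball a (K n) ⊆ F` -/
  minus : ∀ (n : ℕ), 1 ≤ n → ∀ (a : P2) (F : Finset P2), SC F → ball a (K * n) ⊆ F →
    ∀ g : Cfg → ℝ, (∀ ω, 0 ≤ g ω) → OffTZ (ball a (K * n)) g →
      p * E c F g ≤ E c F (fun ω => g ω * ind (Blk a n (2 * n)) ω)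
  /-- plus-closed layers, the ball in any position -/
  plus : ∀ (n : ℕ), 1 ≤ n → ∀ (a : P2) (F : Finset P2), SC F →
    ∀ g : Cfg → ℝ, (∀ ω, 0 ≤ g ω) → OffTZ (ball a (K * n)) g →
      p * E c F g ≤ E c F (fun ω => g ω * ind (BlkP a n (2 * n)) ω)

theorem ball_sub_scale (a : P2) {K n : ℕ} (hK : 4 ≤ K) (hn : 1 ≤ n) :
    ball a (2 * n + 2) ⊆ ball a (K * n) := ball_mono a (by nlinarith)

theorem RSWZ.rsw {c : ℝ} (hc : 1 ≤ c) (h : RSWZ c) : ∃ (K : ℕ) (p : ℝ), RSW c K p := by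
  obtain ⟨K, p', hK, hp', h'⟩ := h
  obtain ⟨p, hp, hle, h⟩ : ∃ p : ℝ, 0 < p ∧ p ≤ 1 / 2 ∧ ∀ n : ℕ, 1 ≤ n → ∀ (a : P2)
      (F : Finset P2), SC F → ball a (K * n) ⊆ F → p ≤ Pr c F (Blk a n (2 * n)) :=
    ⟨min p' (1 / 2), lt_min hp' (by norm_num), min_le_right _ _, fun n hn a F hF hB =>
      (min_le_left _ _).trans (h' n hn a F hF hB)⟩
  refine ⟨K, p, hK, hp, hle, ?_, ?_⟩
  · intro n hn a F hF hBF g hg0 hg
    have hin := inTZ_compl (inTZ_blk a (m := n) (N := 2 * n) (by omega) (ball_sub_scale a hK hn))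
    have h1 := upper hc hF (sc_ball a (K * n)) hBF (incP_not_blk a n (2 * n)) hin hg0 hg
    have h2 := h n hn a (ball a (K * n)) (sc_ball _ _) (Finset.Subset.refl _)
    have h3 : E c (ball a (K * n)) (ind (Blk a n (2 * n))ᶜ) ≤ 1 - p := by
      have e : E c (ball a (K * n)) (ind (Blk a n (2 * n))ᶜ) =
          1 - E c (ball a (K * n)) (ind (Blk a n (2 * n))) := by
        rw [← E_const hc (ball a (K * n)) 1, ← E_sub]
        exact E_congr fun ω _ => ind_compl _ _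
      rw [e]
      rw [Pr_eq] at h2
      linarith
    have e2 : E c F (fun ω => g ω * ind (Blk a n (2 * n))ᶜ ω) =
        E c F g - E c F (fun ω => g ω * ind (Blk a n (2 * n)) ω) := by
      rw [← E_sub]
      exact E_congr fun ω _ => by rw [ind_compl]; ring
    have hg1 : 0 ≤ E c F g := E_nonneg hc fun ω _ => hg0 ω
    rw [e2] at h1
    nlinarith [mul_le_mul_of_nonneg_left h3 hg1]
  · intro n hn a F hF g hg0 hg
    have hin := inTZ_blkP a (m := n) (N := 2 * n) (by omega) (ball_sub_scale a hK hn)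
    have h1 := lower hc hF (sc_ball a (K * n)) (incP_blkP a n (2 * n)) hin hg0 hg
    have h2 := h n hn a (ball a (K * n)) (sc_ball _ _) (Finset.Subset.refl _)
    have e : E c (ball a (K * n)) (fun ω => ind (BlkP a n (2 * n)) (addH 2 ω)) =
        E c (ball a (K * n)) (ind (Blk a n (2 * n))) :=
      E_congr fun ω _ => ind_congr blkP_addH2
    rw [e] at h1
    rw [Pr_eq] at h2
    have hg1 : 0 ≤ E c F g := E_nonneg hc fun ω _ => hg0 ω
    nlinarith [mul_le_mul_of_nonneg_left h2 hg1]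

/-! ### several scales -/

section scales

variable {c : ℝ} {K : ℕ} {p : ℝ}

theorem blk_anti {a : P2} {m m' N N' : ℕ} (hm : m ≤ m') (hN : N' ≤ N) :
    Blk a m' N' ⊆ Blk a m N := fun _ h => Sepr.mono_ball h hm hN

theorem blkP_anti {a : P2} {m m' N N' : ℕ} (hm : m ≤ m') (hN : N' ≤ N) :
    BlkP a m' N' ⊆ BlkP a m N := fun _ h => Sepr.mono_ball h hm hN

theorem scale_step {K n' n : ℕ} (hn : 1 ≤ n) {k : ℕ} (hn' : n' = (K + 1) ^ (k + 1) * n) :
    K * ((K + 1) ^ k * n) + 1 ≤ n' := by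
  have h1 : 1 ≤ (K + 1) ^ k * n := Nat.mul_pos (by positivity) hn
  rw [hn', pow_succ]
  nlinarith

/-- complement form of `RSW.minus` -/
theorem RSW.minus' (h : RSW c K p) {n : ℕ} (hn : 1 ≤ n) {a : P2} {F : Finset P2} (hF : SC F)
    (hB : ball a (K * n) ⊆ F) {g : Cfg → ℝ} (hg0 : ∀ ω, 0 ≤ g ω) (hg : OffTZ (ball a (K * n)) g) :
    E c F (fun ω => g ω * ind (Blk a n (2 * n))ᶜ ω) ≤ (1 - p) * E c F g := by
  have h1 := h.minus n hn a F hF hB g hg0 hg
  have e2 : E c F (fun ω => g ω * ind (Blk a n (2 * n))ᶜ ω) =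
      E c F g - E c F (fun ω => g ω * ind (Blk a n (2 * n)) ω) := by
    rw [← E_sub]
    exact E_congr fun ω _ => by rw [ind_compl]; ring
  rw [e2]
  linarith

theorem RSW.plus' (h : RSW c K p) {n : ℕ} (hn : 1 ≤ n) {a : P2} {F : Finset P2} (hF : SC F)
    {g : Cfg → ℝ} (hg0 : ∀ ω, 0 ≤ g ω) (hg : OffTZ (ball a (K * n)) g) :
    E c F (fun ω => g ω * ind (BlkP a n (2 * n))ᶜ ω) ≤ (1 - p) * E c F g := by
  have h1 := h.plus n hn a F hF g hg0 hg
  have e2 : E c F (fun ω => g ω * ind (BlkP a n (2 * n))ᶜ ω) =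
      E c F g - E c F (fun ω => g ω * ind (BlkP a n (2 * n)) ω) := by
    rw [← E_sub]
    exact E_congr fun ω _ => by rw [ind_compl]; ring
  rw [e2]
  linarith

/-- no minus-closed layer in `k + 1` scales -/
theorem RSW.iter (hc : 1 ≤ c) (h : RSW c K p) {a : P2} {F : Finset P2} (hF : SC F) (k : ℕ) {n : ℕ}
    (hn : 1 ≤ n) (hB : ball a (K * ((K + 1) ^ k * n)) ⊆ F) {g : Cfg → ℝ} (hg0 : ∀ ω, 0 ≤ g ω)
    (hg : OffTZ (ball a (K * ((K + 1) ^ k * n))) g) :
    E c F (fun ω => g ω * ind (Blk a n (2 * ((K + 1) ^ k * n)))ᶜ ω) ≤ (1 - p) ^ (k + 1) * E c F g := by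
  induction k generalizing g with
  | zero =>
    simp only [pow_zero, one_mul, zero_add, pow_one] at hB hg ⊢
    exact h.minus' hn hF hB hg0 hg
  | succ k ih =>
    set n' := (K + 1) ^ (k + 1) * n with hn'
    have h1n : 1 ≤ n' := Nat.mul_pos (by positivity) hn
    have hst := scale_step (K := K) hn hn'
    have hsub : ball a (K * ((K + 1) ^ k * n)) ⊆ ball a (K * n') := by
      refine ball_mono a ?_
      have : n' ≤ K * n' := Nat.le_mul_of_pos_left _ (by have := h.K4; omega)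
      omega
    have h2n : n ≤ n' := by
      rw [hn']; exact Nat.le_mul_of_pos_left _ (by positivity)
    set g' : Cfg → ℝ := fun ω => g ω * ind (Blk a n' (2 * n'))ᶜ ω with hg'
    have hg'0 : ∀ ω, 0 ≤ g' ω := fun ω => mul_nonneg (hg0 ω) (ind_nonneg _ _)
    have hg'off : OffTZ (ball a (K * ((K + 1) ^ k * n))) g' :=
      offTZ_mul (offTZ_mono hsub hg) (offTZ_compl (offTZ_blk a (by omega) hst (Finset.Subset.refl _)))
    have e1 := ih (hsub.trans hB) hg'0 hg'off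
    have e2 := h.minus' h1n hF hB hg0 hg
    have e3 : E c F (fun ω => g ω * ind (Blk a n (2 * n'))ᶜ ω) ≤
        E c F (fun ω => g' ω * ind (Blk a n (2 * ((K + 1) ^ k * n)))ᶜ ω) := by
      refine E_mono hc fun ω _ => ?_
      rw [hg']
      have i1 : ind (Blk a n (2 * n'))ᶜ ω ≤ ind (Blk a n' (2 * n'))ᶜ ω :=
        ind_le_ind fun hω hω' => hω (blk_anti h2n le_rfl hω')
      have i2 : ind (Blk a n (2 * n'))ᶜ ω ≤ ind (Blk a n (2 * ((K + 1) ^ k * n)))ᶜ ω := by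
        refine ind_le_ind fun hω hω' => hω (blk_anti le_rfl ?_ hω')
        have : (K + 1) ^ k * n ≤ K * ((K + 1) ^ k * n) :=
          Nat.le_mul_of_pos_left _ (by have := h.K4; omega)
        omega
      have i3 : ind (Blk a n (2 * n'))ᶜ ω ≤
          ind (Blk a n' (2 * n'))ᶜ ω * ind (Blk a n (2 * ((K + 1) ^ k * n)))ᶜ ω := by
        have : ind (Blk a n (2 * n'))ᶜ ω = ind (Blk a n (2 * n'))ᶜ ω * ind (Blk a n (2 * n'))ᶜ ω := by
          by_cases hω : ω ∈ (Blk a n (2 * n'))ᶜ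
          · rw [ind_of_mem hω]; norm_num
          · rw [ind_of_not_mem hω]; norm_num
        rw [this]
        exact mul_le_mul i1 i2 (ind_nonneg _ _) (ind_nonneg _ _)
      calc g ω * ind (Blk a n (2 * n'))ᶜ ω ≤ g ω * (ind (Blk a n' (2 * n'))ᶜ ω *
            ind (Blk a n (2 * ((K + 1) ^ k * n)))ᶜ ω) := mul_le_mul_of_nonneg_left i3 (hg0 ω)
        _ = _ := by ring
    have hp : (0 : ℝ) ≤ (1 - p) ^ (k + 1) := by
      have := h.p1
      have : (0 : ℝ) ≤ 1 - p := by linarith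
      positivity
    calc _ ≤ _ := e3
      _ ≤ (1 - p) ^ (k + 1) * E c F g' := e1
      _ ≤ (1 - p) ^ (k + 1) * ((1 - p) * E c F g) := mul_le_mul_of_nonneg_left e2 hp
      _ = (1 - p) ^ (k + 1 + 1) * E c F g := by ring

/-- no plus-closed layer in `k + 1` scales (ball in any position) -/
theorem RSW.iterP (hc : 1 ≤ c) (h : RSW c K p) {a : P2} {F : Finset P2} (hF : SC F) (k : ℕ) {n : ℕ}
    (hn : 1 ≤ n) {g : Cfg → ℝ} (hg0 : ∀ ω, 0 ≤ g ω)
    (hg : OffTZ (ball a (K * ((K + 1) ^ k * n))) g) :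
    E c F (fun ω => g ω * ind (BlkP a n (2 * ((K + 1) ^ k * n)))ᶜ ω) ≤
      (1 - p) ^ (k + 1) * E c F g := by
  induction k generalizing g with
  | zero =>
    simp only [pow_zero, one_mul, zero_add, pow_one] at hg ⊢
    exact h.plus' hn hF hg0 hg
  | succ k ih =>
    set n' := (K + 1) ^ (k + 1) * n with hn'
    have h1n : 1 ≤ n' := Nat.mul_pos (by positivity) hn
    have hst := scale_step (K := K) hn hn'
    have hsub : ball a (K * ((K + 1) ^ k * n)) ⊆ ball a (K * n') := by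
      refine ball_mono a ?_
      have : n' ≤ K * n' := Nat.le_mul_of_pos_left _ (by have := h.K4; omega)
      omega
    have h2n : n ≤ n' := by
      rw [hn']; exact Nat.le_mul_of_pos_left _ (by positivity)
    set g' : Cfg → ℝ := fun ω => g ω * ind (BlkP a n' (2 * n'))ᶜ ω with hg'
    have hg'0 : ∀ ω, 0 ≤ g' ω := fun ω => mul_nonneg (hg0 ω) (ind_nonneg _ _)
    have hg'off : OffTZ (ball a (K * ((K + 1) ^ k * n))) g' :=
      offTZ_mul (offTZ_mono hsub hg) (offTZ_compl (offTZ_blkP a (by omega) hst (Finset.Subset.refl _)))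
    have e1 := ih hg'0 hg'off
    have e2 := h.plus' h1n hF hg0 hg
    have e3 : E c F (fun ω => g ω * ind (BlkP a n (2 * n'))ᶜ ω) ≤
        E c F (fun ω => g' ω * ind (BlkP a n (2 * ((K + 1) ^ k * n)))ᶜ ω) := by
      refine E_mono hc fun ω _ => ?_
      rw [hg']
      have i1 : ind (BlkP a n (2 * n'))ᶜ ω ≤ ind (BlkP a n' (2 * n'))ᶜ ω :=
        ind_le_ind fun hω hω' => hω (blkP_anti h2n le_rfl hω')
      have i2 : ind (BlkP a n (2 * n'))ᶜ ω ≤ ind (BlkP a n (2 * ((K + 1) ^ k * n)))ᶜ ω := by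
        refine ind_le_ind fun hω hω' => hω (blkP_anti le_rfl ?_ hω')
        have : (K + 1) ^ k * n ≤ K * ((K + 1) ^ k * n) :=
          Nat.le_mul_of_pos_left _ (by have := h.K4; omega)
        omega
      have i3 : ind (BlkP a n (2 * n'))ᶜ ω ≤
          ind (BlkP a n' (2 * n'))ᶜ ω * ind (BlkP a n (2 * ((K + 1) ^ k * n)))ᶜ ω := by
        have : ind (BlkP a n (2 * n'))ᶜ ω =
            ind (BlkP a n (2 * n'))ᶜ ω * ind (BlkP a n (2 * n'))ᶜ ω := by
          by_cases hω : ω ∈ (BlkP a n (2 * n'))ᶜ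
          · rw [ind_of_mem hω]; norm_num
          · rw [ind_of_not_mem hω]; norm_num
        rw [this]
        exact mul_le_mul i1 i2 (ind_nonneg _ _) (ind_nonneg _ _)
      calc g ω * ind (BlkP a n (2 * n'))ᶜ ω ≤ g ω * (ind (BlkP a n' (2 * n'))ᶜ ω *
            ind (BlkP a n (2 * ((K + 1) ^ k * n)))ᶜ ω) := mul_le_mul_of_nonneg_left i3 (hg0 ω)
        _ = _ := by ring
    have hp : (0 : ℝ) ≤ (1 - p) ^ (k + 1) := by
      have := h.p1
      have : (0 : ℝ) ≤ 1 - p := by linarith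
      positivity
    calc _ ≤ _ := e3
      _ ≤ (1 - p) ^ (k + 1) * E c F g' := e1
      _ ≤ (1 - p) ^ (k + 1) * ((1 - p) * E c F g) := mul_le_mul_of_nonneg_left e2 hp
      _ = (1 - p) ^ (k + 1 + 1) * E c F g := by ring

/-- arithmetic of scales -/
theorem exists_scale {K : ℕ} {p : ℝ} (hK : 4 ≤ K) (hp : 0 < p) (hp1 : p ≤ 1 / 2) :
    ∃ (C α : ℝ), 1 ≤ C ∧ 0 < α ∧ ∀ m N : ℕ, 1 ≤ m → 1 ≤ N →
      (N < 2 * m ∧ 1 ≤ C * ((m : ℝ) / N) ^ α) ∨
      ∃ k : ℕ, 2 * ((K + 1) ^ k * m) ≤ N ∧ (1 - p) ^ (k + 1) ≤ C * ((m : ℝ) / N) ^ α := by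
  have hK1 : (1 : ℝ) < (K : ℝ) + 1 := by
    have : (4 : ℝ) ≤ K := by exact_mod_cast hK
    linarith
  have hl : 0 < Real.log ((K : ℝ) + 1) := Real.log_pos hK1
  have hq : 0 < 1 - p := by linarith
  have hq1 : 1 - p < 1 := by linarith
  set α : ℝ := -Real.log (1 - p) / Real.log ((K : ℝ) + 1) with hα
  have hα0 : 0 < α := div_pos (neg_pos.2 (Real.log_neg hq hq1)) hl
  have hbase : (1 - p) = ((K : ℝ) + 1) ^ (-α) := by
    rw [Real.rpow_def_of_pos (by linarith), hα]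
    rw [show Real.log ((K : ℝ) + 1) * -(-Real.log (1 - p) / Real.log ((K : ℝ) + 1)) =
      Real.log (1 - p) by field_simp]
    exact (Real.exp_log hq).symm
  refine ⟨2 ^ α, α, Real.one_le_rpow (by norm_num) hα0.le, hα0, fun m N hm h0 => ?_⟩
  have hm0 : (0 : ℝ) < m := by exact_mod_cast hm
  by_cases hN : N < 2 * m
  · left
    refine ⟨hN, ?_⟩
    have hN0 : (0 : ℝ) < N := by exact_mod_cast h0
    rw [← Real.mul_rpow (by norm_num) (by positivity)]
    refine Real.one_le_rpow ?_ hα0.le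
    rw [← mul_div_assoc, le_div_iff₀ hN0, one_mul]
    exact_mod_cast hN.le
  · right
    push Not at hN
    have hex : ∃ k : ℕ, N < 2 * ((K + 1) ^ (k + 1) * m) := by
      refine ⟨N, ?_⟩
      have h1 : N < (K + 1) ^ N := Nat.lt_pow_self (by omega)
      have h2 : (K + 1) ^ N ≤ (K + 1) ^ (N + 1) := Nat.pow_le_pow_right (by omega) (by omega)
      nlinarith
    obtain ⟨k, hk, hk'⟩ : ∃ k : ℕ, 2 * ((K + 1) ^ k * m) ≤ N ∧ N < 2 * ((K + 1) ^ (k + 1) * m) := by
      classical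
      refine ⟨Nat.find hex, ?_, Nat.find_spec hex⟩
      rcases Nat.eq_zero_or_pos (Nat.find hex) with h0 | h0
      · rw [h0, pow_zero, one_mul]
        exact hN
      · have h2 := Nat.find_min hex (m := Nat.find hex - 1) (by omega)
        rw [Nat.sub_add_cancel h0] at h2
        omega
    refine ⟨k, hk, ?_⟩
    have hN0 : (0 : ℝ) < N := by
      have : 0 < N := by omega
      exact_mod_cast this
    have h3 : (N : ℝ) ≤ 2 * (((K : ℝ) + 1) ^ (k + 1) * m) := by exact_mod_cast hk'.le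
    have h4 : (1 - p) ^ (k + 1) = (((K : ℝ) + 1) ^ (k + 1))⁻¹ ^ α := by
      rw [hbase, ← Real.rpow_natCast, ← Real.rpow_mul (by linarith), ← Real.rpow_natCast,
        ← Real.rpow_neg (by linarith), ← Real.rpow_mul (by linarith)]
      congr 1
      ring
    rw [h4, ← Real.mul_rpow (by norm_num) (by positivity)]
    refine Real.rpow_le_rpow (by positivity) ?_ hα0.le
    rw [inv_le_comm₀ (by positivity) (by positivity), ← mul_div_assoc, inv_div, div_le_iff₀ (by positivity)]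
    linarith

/-- **power decay, minus-closed layers** -/
theorem RSW.decay (hc : 1 ≤ c) (h : RSW c K p) : ∃ (C α : ℝ), 1 ≤ C ∧ 0 < α ∧
    ∀ m N : ℕ, 1 ≤ m → 1 ≤ N → ∀ (a : P2) (F : Finset P2), SC F → ball a (K * N) ⊆ F →
      ∀ g : Cfg → ℝ, (∀ ω, 0 ≤ g ω) → OffTZ (ball a (K * N)) g →
        E c F (fun ω => g ω * ind (Blk a m N)ᶜ ω) ≤ C * ((m : ℝ) / N) ^ α * E c F g := by
  obtain ⟨C, α, hC, hα, hs⟩ := exists_scale h.K4 h.p0 h.p1
  refine ⟨C, α, hC, hα, fun m N hm hN a F hF hB g hg0 hg => ?_⟩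
  have hg1 : 0 ≤ E c F g := E_nonneg hc fun ω _ => hg0 ω
  rcases hs m N hm hN with ⟨_, h1⟩ | ⟨k, hk, h1⟩
  · refine le_trans ?_ (le_mul_of_one_le_left hg1 h1)
    exact E_mono hc fun ω _ => mul_le_of_le_one_right (hg0 ω) (ind_le_one _ _)
  · have hsub : ball a (K * ((K + 1) ^ k * m)) ⊆ ball a (K * N) :=
      ball_mono a (Nat.mul_le_mul_left _ (by omega))
    refine le_trans ?_ ((h.iter hc hF k hm (hsub.trans hB) hg0 (offTZ_mono hsub hg)).trans
      (mul_le_mul_of_nonneg_right h1 hg1))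
    exact E_mono hc fun ω _ => mul_le_mul_of_nonneg_left
      (ind_le_ind fun hω hω' => hω (blk_anti le_rfl hk hω')) (hg0 ω)


theorem offTZ_one (B : Finset P2) : OffTZ B (fun _ => 1) := fun _ _ _ _ => rfl

/-- **BLOCK** (967's form): a minus-closed layer around every fixed ball, with probability `→ 1`,
uniformly in the volume -/
theorem RSW.block (hc : 1 ≤ c) (h : RSW c K p) (m : ℕ) {ε : ℝ} (hε : 0 < ε) :
    ∃ N : ℕ, ∀ (a : P2) (F : Finset P2), SC F → ball a N ⊆ F → 1 - ε ≤ Pr c F (Blk a m N) := by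
  obtain ⟨k, hk⟩ : ∃ k : ℕ, (1 - p) ^ (k + 1) ≤ ε := by
    obtain ⟨k, hk⟩ := exists_pow_lt_of_lt_one hε (show 1 - p < 1 by linarith [h.p0])
    refine ⟨k, le_trans ?_ hk.le⟩
    exact pow_le_pow_of_le_one (by linarith [h.p1]) (by linarith [h.p0]) (Nat.le_succ k)
  have hm1 : 1 ≤ m + 1 := by omega
  refine ⟨K * ((K + 1) ^ k * (m + 1)), fun a F hF hB => ?_⟩
  have h1 := h.iter hc hF k hm1 hB (g := fun _ => 1) (fun _ => zero_le_one) (offTZ_one _)
  rw [E_const hc F 1, mul_one] at h1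
  simp only [one_mul] at h1
  have e : E c F (ind (Blk a (m + 1) (2 * ((K + 1) ^ k * (m + 1))))ᶜ) =
      1 - Pr c F (Blk a (m + 1) (2 * ((K + 1) ^ k * (m + 1)))) := by
    rw [Pr_eq, ← E_const hc F 1, ← E_sub]
    exact E_congr fun ω _ => by rw [ind_compl]
  have h2 : 1 - ε ≤ Pr c F (Blk a (m + 1) (2 * ((K + 1) ^ k * (m + 1)))) := by
    have : E c F (ind (Blk a (m + 1) (2 * ((K + 1) ^ k * (m + 1))))ᶜ) ≤ (1 - p) ^ (k + 1) := h1
    linarith
  refine h2.trans ?_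
  rw [Pr_eq, Pr_eq]
  refine E_mono hc fun ω _ => ind_le_ind fun hω => blk_anti (by omega) ?_ hω
  have := h.K4
  exact Nat.mul_le_mul_right _ (by omega)

end scales

end Crest.Agent.R144.Rsw867
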