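import Crest.Agent.R144.Hf2_702
import Crest.Agent.R144.Dpl5_702
import Crest.Agent.R144.Rsw0_867

-- ▼ part R144/Hf3_702
section

/-!
# R144, block HALF (helper702), part 3: moments and reflection in the F-type model

* `nat2_htsI`, `EI_abs_moment`, `EH_abs_moment` : all moments from the second one;
* `EI_refl` : symmetry under `h ↦ 1 - h`; `EI_linear_zero`.
-/

set_option autoImplicit false
set_option linter.unusedVariables false

noncomputable section

namespace Crest.Agent.R144.Hf702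

open Finset
open Crest.Agent.R144.It844 (P2 Lip Cst tw)
open Crest.Agent.R144.Dpl702
open Crest.Agent.R144.Zg349 Crest.Agent.R144.Zd349 Crest.Agent.R144.Zm349

theorem nat2_htsI {x : ℝ} (hx : x ^ 2 ≤ 1) (F I : Finset P2) :
    Nat2 (htsI F I) (fun h => ∏ t ∈ F, tw x h t) := by
  refine ⟨fun h _ => Finset.prod_nonneg fun t _ => tw_nonneg x h t, fun a ha b hb => ?_,
    fun a ha b hb => ?_⟩
  · rw [mem_htsI] at ha hb
    obtain ⟨ha1, ha2⟩ := ha
    obtain ⟨hb1, hb2⟩ := hb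
    have key : ∀ p q : ℤ, (p = 0 ∨ p = 1) → (q = 0 ∨ q = 1) →
        ((p + q) / 2 = 0 ∨ (p + q) / 2 = 1) ∧ ((p + q + 1) / 2 = 0 ∨ (p + q + 1) / 2 = 1) := by
      rintro p q (rfl | rfl) (rfl | rfl) <;> decide
    have l1 := lip_fl ha1.toLip hb1.toLip
    have l2 := lip_ce ha1.toLip hb1.toLip
    have cl : ∀ {h : P2 → ℤ}, Lip h → ∀ t ∈ F, ∀ i j, |h (cr t i) - h (cr t j)| ≤ 1 := by
      intro h hl t _ i j
      rw [Crest.Agent.R144.It844.lip_iff] at hl
      obtain ⟨h1, h2, h3⟩ := hl t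
      fin_cases i <;> fin_cases j <;>
        simp only [Fin.zero_eta, Fin.mk_one, Fin.reduceFinMk, cr0, cr1, cr2, sub_self, abs_zero,
          zero_le_one] <;> first | assumption | (rw [abs_sub_comm]; assumption)
    constructor
    · rw [mem_htsI]
      refine ⟨⟨cl l1, fun v hv => (key _ _ (ha1.bd v hv) (hb1.bd v hv)).1, fun v hv => ?_⟩,
        fun v hv => (key _ _ (ha2 v hv) (hb2 v hv)).1⟩
      simp only [fl, ha1.off v hv, hb1.off v hv]; rfl
    · rw [mem_htsI]
      refine ⟨⟨cl l2, fun v hv => (key _ _ (ha1.bd v hv) (hb1.bd v hv)).2, fun v hv => ?_⟩,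
        fun v hv => (key _ _ (ha2 v hv) (hb2 v hv)).2⟩
      simp only [ce, ha1.off v hv, hb1.off v hv]; rfl
  · exact prod_tw_fl_ce hx F (mem_htsI.1 ha).1.toLip (mem_htsI.1 hb).1.toLip

theorem EI_abs_moment {x : ℝ} (hx0 : 0 ≤ x) (hx1 : x ≤ 1) (F I : Finset P2) {X : (P2 → ℤ) → ℝ}
    {L σ : ℝ} (hX : MidLin (htsI F I) X L) (hL : 0 ≤ L) (hσ : 0 ≤ σ)
    (hv : EI x F I (fun h => X h ^ 2) ≤ σ ^ 2) (n : ℕ) :
    EI x F I (fun h => |X h| ^ n) ≤ 2 * Cm n * (4 * σ + L) ^ n := by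
  have hx2 : x ^ 2 ≤ 1 := pow_le_one₀ hx0 hx1
  have hZ : 0 < ∑ h ∈ htsI F I, ∏ t ∈ F, tw x h t := by
    have := SI_one_pos x F I
    unfold SI at this
    simpa using this
  have e : ∀ Φ : (P2 → ℤ) → ℝ, EI x F I Φ =
      (∑ h ∈ htsI F I, (∏ t ∈ F, tw x h t) * Φ h) / ∑ h ∈ htsI F I, ∏ t ∈ F, tw x h t := by
    intro Φ
    unfold EI SI
    simp only [mul_one]
  rw [e] at hv ⊢
  exact abs_moment (nat2_htsI hx2 F I) hZ hX hL hσ hv n

/-- moments of linear statistics -/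
theorem EI_abs_moment_linear {x : ℝ} (hx0 : 0 ≤ x) (hx1 : x ≤ 1) (F I S : Finset P2) (f : P2 → ℝ)
    {σ : ℝ} (hσ : 0 ≤ σ) (hv : EI x F I (fun h => (∑ v ∈ S, f v * ((h v : ℝ) - 1 / 2)) ^ 2) ≤ σ ^ 2)
    (n : ℕ) :
    EI x F I (fun h => |∑ v ∈ S, f v * ((h v : ℝ) - 1 / 2)| ^ n) ≤
      2 * Cm n * (4 * σ + ∑ v ∈ S, |f v|) ^ n := by
  have e : ∀ h : P2 → ℤ, ∑ v ∈ S, f v * ((h v : ℝ) - 1 / 2) =
      ∑ v ∈ S, f v * (h v : ℝ) - ∑ v ∈ S, f v * (1 / 2) := fun h => by
    rw [← Finset.sum_sub_distrib]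
    exact Finset.sum_congr rfl fun v _ => by ring
  have hX : MidLin (htsI F I) (fun h => ∑ v ∈ S, f v * ((h v : ℝ) - 1 / 2)) (∑ v ∈ S, |f v|) := by
    have := (midLin_sum (htsI F I) S f).sub_const (∑ v ∈ S, f v * (1 / 2))
    intro a ha b hb
    have h1 := this a ha b hb
    simp only [e]
    exact h1
  exact EI_abs_moment hx0 hx1 F I hX (Finset.sum_nonneg fun _ _ => abs_nonneg _) hσ hv n

/-! ### reflection -/

/-- `h ↦ 1 - h` on the sites of `F` -/
def rfl1 (F : Finset P2) (h : P2 → ℤ) (v : P2) : ℤ := if v ∈ VF F then 1 - h v else h v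

theorem rfl1_invol (F : Finset P2) (h : P2 → ℤ) : rfl1 F (rfl1 F h) = h := by
  funext v
  unfold rfl1
  by_cases hv : v ∈ VF F
  · simp only [if_pos hv]; ring
  · simp only [if_neg hv]

theorem rfl1_mem {F I : Finset P2} {h : P2 → ℤ} (hh : h ∈ htsI F I) : rfl1 F h ∈ htsI F I := by
  rw [mem_htsI] at hh ⊢
  obtain ⟨h1, h2⟩ := hh
  have key : ∀ v, (h v = 0 ∨ h v = 1) → rfl1 F h v = 0 ∨ rfl1 F h v = 1 := by
    intro v hv
    unfold rfl1
    split_ifs
    · rcases hv with hv | hv <;> rw [hv] <;> decide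
    · exact hv
  refine ⟨⟨fun t ht i j => ?_, fun v hv => key v (h1.bd v hv), fun v hv => ?_⟩,
    fun v hv => key v (h2 v hv)⟩
  · unfold rfl1
    rw [if_pos (cr_mem ht i), if_pos (cr_mem ht j)]
    have := h1.lip t ht j i
    rw [show 1 - h (cr t i) - (1 - h (cr t j)) = h (cr t j) - h (cr t i) by ring]
    exact this
  · unfold rfl1
    rw [if_neg hv]
    exact h1.off v hv

theorem tw_rfl1 (x : ℝ) {F : Finset P2} {t : P2} (ht : t ∈ F) (h : P2 → ℤ) :
    tw x (rfl1 F h) t = tw x h t := by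
  unfold tw
  have e : Cst (rfl1 F h) t ↔ Cst h t := by
    have h0 := cr_mem ht 0
    have h1 := cr_mem ht 1
    have h2 := cr_mem ht 2
    simp only [cr0, cr1, cr2] at h0 h1 h2
    unfold Cst rfl1
    rw [if_pos h0, if_pos h1, if_pos h2]
    constructor
    · rintro ⟨a, b⟩; exact ⟨by omega, by omega⟩
    · rintro ⟨a, b⟩; exact ⟨by omega, by omega⟩
  by_cases hc : Cst h t
  · rw [if_pos hc, if_pos (e.2 hc)]
  · rw [if_neg hc, if_neg fun h' => hc (e.1 h')]

theorem EI_refl (x : ℝ) (F I : Finset P2) (Φ : (P2 → ℤ) → ℝ) :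
    EI x F I (fun h => Φ (rfl1 F h)) = EI x F I Φ := by
  unfold EI
  congr 1
  unfold SI
  refine Finset.sum_nbij' (i := rfl1 F) (j := rfl1 F) (fun h hh => rfl1_mem hh)
    (fun h hh => rfl1_mem hh) (fun h _ => rfl1_invol F h) (fun h _ => rfl1_invol F h) fun h hh => ?_
  congr 1
  exact (Finset.prod_congr rfl fun t ht => tw_rfl1 x ht h).symm

theorem EI_smul (x : ℝ) (F I : Finset P2) (a : ℝ) (f : (P2 → ℤ) → ℝ) :
    EI x F I (fun h => a * f h) = a * EI x F I f := by
  unfold EI SI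
  rw [mul_div_assoc', Finset.mul_sum]
  congr 1
  exact Finset.sum_congr rfl fun h _ => by ring

theorem EI_congr {x : ℝ} {F I : Finset P2} {f g : (P2 → ℤ) → ℝ} (h : ∀ a ∈ htsI F I, f a = g a) :
    EI x F I f = EI x F I g := by
  unfold EI SI
  congr 1
  exact Finset.sum_congr rfl fun a ha => by rw [h a ha]

theorem EI_add (x : ℝ) (F I : Finset P2) (f g : (P2 → ℤ) → ℝ) :
    EI x F I (fun h => f h + g h) = EI x F I f + EI x F I g := by
  unfold EI SI
  rw [← add_div, ← Finset.sum_add_distrib]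
  congr 1
  exact Finset.sum_congr rfl fun h _ => by ring


theorem EI_const (x : ℝ) (F I : Finset P2) (a : ℝ) : EI x F I (fun _ => a) = a := by
  unfold EI
  have : SI x F I (fun _ => a) = a * SI x F I (fun _ => 1) := by
    unfold SI
    rw [Finset.mul_sum]
    exact Finset.sum_congr rfl fun h _ => by ring
  rw [this, mul_div_assoc, div_self (SI_one_pos x F I).ne', mul_one]

theorem EI_le {x : ℝ} {F I : Finset P2} {f g : (P2 → ℤ) → ℝ} (h : ∀ a ∈ htsI F I, f a ≤ g a) :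
    EI x F I f ≤ EI x F I g := by
  unfold EI SI
  refine div_le_div_of_nonneg_right ?_ (SI_one_pos x F I).le
  exact Finset.sum_le_sum fun a ha => mul_le_mul_of_nonneg_left (h a ha)
    (Finset.prod_nonneg fun t _ => tw_nonneg x a t)




end Crest.Agent.R144.Hf702
end
end

-- ▼ part R144/Hf4_702

/-!
# R144, block HALF (helper702), part 4: exploration of a set of triangles from outside

For a set `S` of triangles (the "closed" ones) and a finite set `D` with connected complement: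
* `Xg S D` : triangles joined to the outside of `D` by triangles not in `S`;
* `Bg S D` : the unexplored domain; `sc_Bg`, `layer_Bg` (its neighbours are in `S`), `Bg_congr`;
* `ball_sub_Bg` : if `S` separates `ball a m` from outside `ball a N` (867's `Sepr`) then `ball a k`, `k + 1 ≤ m`,
  is contained in `Bg S (ball a (N + 1))`;
* `PBI a N B` : the indicator that the plus-closed exploration from outside `ball a N` leaves `B` unexplored.
-/

set_option autoImplicit false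
set_option linter.unusedVariables false

noncomputable section

namespace Crest.Agent.R144.Hf702

open Finset
open Crest.Agent.R144.It844 (P2 adj_symm adj_iff)
open Crest.Agent.R144.Zg349 Crest.Agent.R144.Zd349 Crest.Agent.R144.Zm349 Crest.Agent.R144.Ze349
open Crest.Agent.R144.Pst967 (path_symm)
open Crest.Agent.R144.Rsw867
open Crest.ProbabilityR.HexHeights (Adj)

/-- explored set -/
def Xg (S : Set P2) (D : Finset P2) : Set P2 :=
  {t | ∃ t0, t0 ∉ D ∧ Relation.ReflTransGen (fun a b => Adj a b ∧ b ∉ S) t0 t}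

theorem xg_of_notMem (S : Set P2) {D : Finset P2} {t : P2} (h : t ∉ D) : t ∈ Xg S D :=
  ⟨t, h, Relation.ReflTransGen.refl⟩

theorem xg_step {S : Set P2} {D : Finset P2} {t t' : P2} (h : t ∈ Xg S D) (h1 : Adj t t')
    (h2 : t' ∉ S) : t' ∈ Xg S D := by
  obtain ⟨t0, h3, h4⟩ := h
  exact ⟨t0, h3, h4.tail ⟨h1, h2⟩⟩

open Classical in
/-- the unexplored domain -/
def Bg (S : Set P2) (D : Finset P2) : Finset P2 :=
  D.filter fun t => t ∉ Xg S D ∧ ∀ t', Adj t t' → t' ∉ Xg S D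

theorem mem_Bg {S : Set P2} {D : Finset P2} {t : P2} :
    t ∈ Bg S D ↔ t ∉ Xg S D ∧ ∀ t', Adj t t' → t' ∉ Xg S D := by
  classical
  unfold Bg
  rw [Finset.mem_filter]
  refine ⟨fun h => h.2, fun h => ⟨?_, h⟩⟩
  by_contra h1
  exact h.1 (xg_of_notMem S h1)

theorem notMem_Bg {S : Set P2} {D : Finset P2} {t : P2} :
    t ∉ Bg S D ↔ t ∈ Xg S D ∨ ∃ t', Adj t t' ∧ t' ∈ Xg S D := by
  rw [mem_Bg]
  push Not
  constructor
  · intro h
    by_cases h1 : t ∈ Xg S D
    · exact Or.inl h1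
    · exact Or.inr (h h1)
  · rintro (h | h) h1
    · exact absurd h h1
    · exact h

theorem layer_Bg {S : Set P2} {D : Finset P2} {t t' : P2} (h : t ∈ Bg S D) (ht' : t' ∉ Bg S D)
    (ha : Adj t t') : t' ∈ S := by
  rw [mem_Bg] at h
  rw [notMem_Bg] at ht'
  have h1 : t' ∉ Xg S D := h.2 t' ha
  rcases ht' with h2 | ⟨u, hu, hux⟩
  · exact absurd h2 h1
  · by_contra h3
    exact h1 (xg_step hux (adj_symm hu) h3)

theorem Bg_sub (S : Set P2) (D : Finset P2) : Bg S D ⊆ D := by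
  classical
  exact Finset.filter_subset _ _

/-- the complement of the unexplored domain is connected -/
theorem sc_Bg (S : Set P2) {D : Finset P2} (hD : SC D) : SC (Bg S D) := by
  set T : Set P2 := ((Bg S D : Finset P2) : Set P2)ᶜ with hT
  have hmem : ∀ t, t ∈ T ↔ t ∉ Bg S D := fun t => by
    rw [hT, Set.mem_compl_iff, Finset.mem_coe]
  have hX : ∀ t, t ∈ Xg S D → t ∈ T := fun t ht => by
    rw [hmem, notMem_Bg]; exact Or.inl ht
  have h1 : ∀ t0 t, t0 ∉ D → Relation.ReflTransGen (fun a b => Adj a b ∧ b ∉ S) t0 t →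
      Relation.ReflTransGen (StepIn T) t0 t := by
    intro t0 t h0 h
    induction h with
    | refl => exact Relation.ReflTransGen.refl
    | @tail b d h2 h3 ih =>
      exact ih.tail ⟨hX _ ⟨t0, h0, h2⟩, hX _ ⟨t0, h0, h2.tail h3⟩, h3.1⟩
  have h2 : ∀ t ∈ T, ∃ t0, t0 ∉ D ∧ Relation.ReflTransGen (StepIn T) t0 t := by
    intro t ht
    have ht' := ht
    rw [hmem, notMem_Bg] at ht
    rcases ht with ⟨t0, h3, h4⟩ | ⟨u, hu, t0, h3, h4⟩
    · exact ⟨t0, h3, h1 t0 t h3 h4⟩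
    · exact ⟨t0, h3, (h1 t0 u h3 h4).tail ⟨hX u ⟨t0, h3, h4⟩, ht', adj_symm hu⟩⟩
  have h3 : ∀ t0 t1, t0 ∉ D → t1 ∉ D → Relation.ReflTransGen (StepIn T) t0 t1 := by
    intro t0 t1 ht0 ht1
    have := hD t0 (by simpa using ht0) t1 (by simpa using ht1)
    refine Relation.ReflTransGen.mono (fun a b hab => ?_) _ _ this
    exact ⟨hX a (xg_of_notMem S (by simpa using hab.1)),
      hX b (xg_of_notMem S (by simpa using hab.2.1)), hab.2.2⟩
  intro u hu v hv
  obtain ⟨t0, h4, h5⟩ := h2 u hu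
  obtain ⟨t1, h6, h7⟩ := h2 v hv
  exact ((path_symm h5).trans (h3 t0 t1 h4 h6)).trans h7

/-- the unexplored domain depends on the part of `S` outside of it -/
theorem Bg_congr {S S' : Set P2} {D B : Finset P2} (hst : ∀ t, t ∉ B → (t ∈ S ↔ t ∈ S'))
    (hB : Bg S D = B) : Bg S' D = B := by
  have hX : Xg S' D = Xg S D := by
    ext t
    constructor
    · rintro ⟨t0, h3, h4⟩
      induction h4 with
      | refl => exact xg_of_notMem S h3
      | @tail b d _ h5 ih =>
        by_contra h6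
        have h7 : d ∉ B := by
          rw [← hB, notMem_Bg]
          exact Or.inr ⟨b, adj_symm h5.1, ih⟩
        exact h6 (xg_step ih h5.1 fun h8 => h5.2 ((hst d h7).1 h8))
    · rintro ⟨t0, h3, h4⟩
      induction h4 with
      | refl => exact xg_of_notMem S' h3
      | @tail b d h4 h5 ih =>
        refine xg_step ih h5.1 fun h6 => ?_
        have h7 : d ∉ B := by
          rw [← hB, notMem_Bg]
          exact Or.inl ⟨t0, h3, h4.tail h5⟩
        exact h5.2 ((hst d h7).2 h6)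
  rw [← hB]
  ext t
  rw [mem_Bg, mem_Bg, hX]

/-- separation implies that the exploration does not reach the small ball -/
theorem notMem_Xg_of_sepr {S : Set P2} {a : P2} {m N : ℕ} (hmN : m ≤ N) (h : Sepr S a m N) {t : P2}
    (ht : t ∈ ball a m) : t ∉ Xg S (ball a (N + 1)) := by
  rintro ⟨t0, h0, hp⟩
  -- the path without its first vertex lies in the complement of `S`
  have key : ∀ t, Relation.ReflTransGen (fun a b => Adj a b ∧ b ∉ S) t0 t → t = t0 ∨
      ∃ u, u ∉ ball a N ∧ u ∉ S ∧ t ∉ S ∧ Relation.ReflTransGen (StepIn Sᶜ) u t := by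
    intro t hp
    induction hp with
    | refl => exact Or.inl rfl
    | @tail b d _ hbd ih =>
      right
      rcases ih with rfl | ⟨u, hu, huS, hbS, hpu⟩
      · refine ⟨d, fun hd => h0 ?_, hbd.2, hbd.2, Relation.ReflTransGen.refl⟩
        exact adj_ball hd (adj_symm hbd.1)
      · exact ⟨u, hu, huS, hbd.2, hpu.tail ⟨hbS, hbd.2, hbd.1⟩⟩
  rcases key t hp with rfl | ⟨u, hu, -, -, hpu⟩
  · exact h0 (ball_mono a (by omega) ht)
  · exact h u t hu ht hpu

theorem ball_sub_Bg {S : Set P2} {a : P2} {k m N : ℕ} (hkm : k + 1 ≤ m) (hmN : m ≤ N)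
    (h : Sepr S a m N) : ball a k ⊆ Bg S (ball a (N + 1)) := by
  intro t ht
  rw [mem_Bg]
  refine ⟨notMem_Xg_of_sepr hmN h (ball_mono a (by omega) ht), fun t' ha => ?_⟩
  exact notMem_Xg_of_sepr hmN h (ball_mono a hkm (adj_ball ht ha))

/-! ### plus-closed exploration -/

/-- unexplored domain of the plus-closed exploration -/
def PB (D : Finset P2) (ω : Cfg) : Finset P2 := Bg {t | pC ω t} D

open Classical in
/-- indicator of `PB D ω = B` -/
def PBI (D B : Finset P2) (ω : Cfg) : ℝ := if PB D ω = B then 1 else 0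

/-- the neighbours of `B` are plus closed -/
def PLay (B : Finset P2) (ω : Cfg) : Prop := ∀ t ∈ B, ∀ t', t' ∉ B → Adj t t' → pC ω t'

theorem PBI_nonneg (D B : Finset P2) (ω : Cfg) : 0 ≤ PBI D B ω := by
  unfold PBI; split_ifs <;> norm_num

theorem pLay_PB (D : Finset P2) (ω : Cfg) : PLay (PB D ω) ω := fun _ ht _ ht' ha =>
  layer_Bg ht ht' ha

theorem pLay_of_PBI {D B : Finset P2} {ω : Cfg} (h : PBI D B ω ≠ 0) : PLay B ω := by
  unfold PBI at h
  by_cases h1 : PB D ω = B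
  · rw [← h1]; exact pLay_PB D ω
  · rw [if_neg h1] at h; exact absurd rfl h

theorem pC_congr {B : Finset P2} {ω ω' : Cfg} (h1 : ∀ v, v ∉ IV B → s1 (ω.1 v) = s1 (ω'.1 v))
    (h2 : ∀ t, t ∉ B → ω.2 t = ω'.2 t) {t : P2} (ht : t ∉ B) : pC ω t ↔ pC ω' t := by
  unfold pC
  rw [h1 t (fun h => ht (IV_sub B h)), h2 t ht]

theorem offTZ_PBI (D B : Finset P2) : OffTZ B (PBI D B) := by
  intro ω ω' h1 h2
  unfold PBI
  have key : ∀ ω ω' : Cfg, (∀ v, v ∉ IV B → s1 (ω.1 v) = s1 (ω'.1 v)) →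
      (∀ t, t ∉ B → ω.2 t = ω'.2 t) → PB D ω = B → PB D ω' = B := fun ω ω' h1 h2 h =>
    Bg_congr (fun t ht => pC_congr h1 h2 ht) h
  by_cases h : PB D ω = B
  · rw [if_pos h, if_pos (key ω ω' h1 h2 h)]
  · rw [if_neg h, if_neg fun h' => h (key ω' ω (fun v hv => (h1 v hv).symm)
      (fun t ht => (h2 t ht).symm) h')]

theorem sum_PBI (D : Finset P2) (ω : Cfg) : ∑ B ∈ D.powerset, PBI D B ω = 1 := by
  classical
  unfold PBI
  rw [Finset.sum_ite_eq, if_pos]
  exact Finset.mem_powerset.2 (Bg_sub _ D)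

end Crest.Agent.R144.Hf702
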