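import Crest.Agent.R144.Zs3_349
import Crest.Agent.R144.Ccn2_311
import Crest.Agent.R144.Hf4_702

/-!
# R144, block BND, part 0 (helper991): definitions of DOC 1945 and elementary facts

Ambient law: 349's `E c G`; the domain enters only through `Cn N` (`s1 = +` on the non-free sites `N`) and
`Kn X` (the triangles of `X`, all corners non-free, are plus closed).

* `Cn`, `Kn` : indicators, `IncP`, values, factorisation over a block `B`;
* `ht01` : on valid configurations with `Cn N = 1` the heights are `0` or `1` on `N` (`N` connected and not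
  contained in the interior);
* `Hs a n` : no path of sites with `h ≥ 1` from outside `ball a (2 n + 2)` to `ball a n`;
* `Cross N o r R` : a path of free sites with `h ≥ 1` from outside `ball o R` to `ball o r`;
* `Arm0 N y n b R` : a path of sites with `h ≤ 0` inside `ball b R` from `ball y n` to a site of `N`;
* literal statements `BulkH` (B3), `FKGh` (B4), `LemB` (B2).
-/

set_option autoImplicit false
set_option linter.unusedSectionVars false
set_option linter.unusedSimpArgs false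

noncomputable section

namespace Crest.Agent.R144.Bnd991

open Finset
open Crest.Agent.R144.It844 (P2 Lip adj_iff adj_symm lip_iff)
open Crest.Agent.R144.Zg349 Crest.Agent.R144.Zd349 Crest.Agent.R144.Zm349 Crest.Agent.R144.Ze349
open Crest.Agent.R144.Zs349
open Crest.Agent.R144.Ccn2311 (incP_mul inTZ_mul inTZ_mono offTZ_anti inTZ_off inTZ_const offTZ_const)
open Crest.Agent.R144.Rsw867 (ball mem_ball ball_mono adj_ball sc_ball Sepr Blk BlkP ind ind_nonneg ind_le_one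
  offTZ_mul path_mono)
open Crest.ProbabilityR.HexHeights (Adj)

/-! ### the constraints -/

open Classical in
/-- indicator of `s1 = +` on the set of sites `N` -/
def Cn (N : Set P2) (ω : Cfg) : ℝ := if ∀ v ∈ N, s1 (ω.1 v) = true then 1 else 0

open Classical in
/-- indicator of "every triangle of `X` is plus closed" -/
def Kn (X : Set P2) (ω : Cfg) : ℝ := if ∀ t ∈ X, pC ω t then 1 else 0

theorem Cn_of {N : Set P2} {ω : Cfg} (h : ∀ v ∈ N, s1 (ω.1 v) = true) : Cn N ω = 1 := if_pos h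
theorem Cn_of_not {N : Set P2} {ω : Cfg} (h : ¬ ∀ v ∈ N, s1 (ω.1 v) = true) : Cn N ω = 0 := if_neg h
theorem Kn_of {X : Set P2} {ω : Cfg} (h : ∀ t ∈ X, pC ω t) : Kn X ω = 1 := if_pos h
theorem Kn_of_not {X : Set P2} {ω : Cfg} (h : ¬ ∀ t ∈ X, pC ω t) : Kn X ω = 0 := if_neg h

theorem Cn_nonneg (N : Set P2) (ω : Cfg) : 0 ≤ Cn N ω := by unfold Cn; split_ifs <;> norm_num
theorem Kn_nonneg (X : Set P2) (ω : Cfg) : 0 ≤ Kn X ω := by unfold Kn; split_ifs <;> norm_num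

theorem Cn_ne {N : Set P2} {ω : Cfg} : Cn N ω ≠ 0 ↔ ∀ v ∈ N, s1 (ω.1 v) = true := by
  by_cases h : ∀ v ∈ N, s1 (ω.1 v) = true
  · rw [Cn_of h]; exact ⟨fun _ => h, fun _ => one_ne_zero⟩
  · rw [Cn_of_not h]; exact ⟨fun h' => absurd rfl h', fun h' => absurd h' h⟩

theorem Kn_ne {X : Set P2} {ω : Cfg} : Kn X ω ≠ 0 ↔ ∀ t ∈ X, pC ω t := by
  by_cases h : ∀ t ∈ X, pC ω t
  · rw [Kn_of h]; exact ⟨fun _ => h, fun _ => one_ne_zero⟩
  · rw [Kn_of_not h]; exact ⟨fun h' => absurd rfl h', fun h' => absurd h' h⟩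

theorem Cn_le {N N' : Set P2} {ω ω' : Cfg}
    (h : (∀ v ∈ N, s1 (ω.1 v) = true) → ∀ v ∈ N', s1 (ω'.1 v) = true) : Cn N ω ≤ Cn N' ω' := by
  by_cases h1 : ∀ v ∈ N, s1 (ω.1 v) = true
  · rw [Cn_of h1, Cn_of (h h1)]
  · rw [Cn_of_not h1]; exact Cn_nonneg _ _

theorem Cn_congr {N N' : Set P2} {ω ω' : Cfg}
    (h : (∀ v ∈ N, s1 (ω.1 v) = true) ↔ ∀ v ∈ N', s1 (ω'.1 v) = true) : Cn N ω = Cn N' ω' :=
  le_antisymm (Cn_le h.1) (Cn_le h.2)

theorem Kn_le {X X' : Set P2} {ω ω' : Cfg} (h : (∀ t ∈ X, pC ω t) → ∀ t ∈ X', pC ω' t) :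
    Kn X ω ≤ Kn X' ω' := by
  by_cases h1 : ∀ t ∈ X, pC ω t
  · rw [Kn_of h1, Kn_of (h h1)]
  · rw [Kn_of_not h1]; exact Kn_nonneg _ _

theorem Kn_congr {X X' : Set P2} {ω ω' : Cfg} (h : (∀ t ∈ X, pC ω t) ↔ ∀ t ∈ X', pC ω' t) :
    Kn X ω = Kn X' ω' := le_antisymm (Kn_le h.1) (Kn_le h.2)

theorem incP_Cn (N : Set P2) : IncP (Cn N) := fun _ _ h => Cn_le fun h1 v hv => h.v v (h1 v hv)
theorem incP_Kn (X : Set P2) : IncP (Kn X) := fun _ _ h => Kn_le fun h1 t ht => h.p t (h1 t ht)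


theorem Cn_union (N N' : Set P2) (ω : Cfg) : Cn (N ∪ N') ω = Cn N ω * Cn N' ω := by
  by_cases h : ∀ v ∈ N, s1 (ω.1 v) = true
  · rw [Cn_of h, one_mul]
    refine Cn_congr ⟨fun h1 v hv => h1 v (Or.inr hv), fun h1 v hv => ?_⟩
    rcases hv with hv | hv
    · exact h v hv
    · exact h1 v hv
  · rw [Cn_of_not h, zero_mul]
    exact Cn_of_not fun h1 => h fun v hv => h1 v (Set.mem_union_left _ hv)

theorem Kn_union (X X' : Set P2) (ω : Cfg) : Kn (X ∪ X') ω = Kn X ω * Kn X' ω := by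
  by_cases h : ∀ t ∈ X, pC ω t
  · rw [Kn_of h, one_mul]
    refine Kn_congr ⟨fun h1 v hv => h1 v (Or.inr hv), fun h1 v hv => ?_⟩
    rcases hv with hv | hv
    · exact h v hv
    · exact h1 v hv
  · rw [Kn_of_not h, zero_mul]
    exact Kn_of_not fun h1 => h fun v hv => h1 v (Set.mem_union_left _ hv)

/-- factorisation over a block -/
theorem Cn_split (N : Set P2) (B : Finset P2) (ω : Cfg) :
    Cn N ω = Cn (N \ (IV B : Set P2)) ω * Cn (N ∩ (IV B : Set P2)) ω := by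
  rw [← Cn_union, Set.sdiff_union_inter]

theorem Kn_split (X : Set P2) (B : Finset P2) (ω : Cfg) :
    Kn X ω = Kn (X \ (B : Set P2)) ω * Kn (X ∩ (B : Set P2)) ω := by
  rw [← Kn_union, Set.sdiff_union_inter]

theorem inTZ_Cn {N : Set P2} {B : Finset P2} (h : N ⊆ (IV B : Set P2)) : InTZ B (Cn N) :=
  fun ω ω' h1 _ => Cn_congr ⟨fun h2 v hv => by rw [← h1 v (h hv)]; exact h2 v hv,
    fun h2 v hv => by rw [h1 v (h hv)]; exact h2 v hv⟩

theorem offTZ_Cn {N : Set P2} {B : Finset P2} (h : ∀ v ∈ N, v ∉ IV B) : OffTZ B (Cn N) :=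
  fun ω ω' h1 _ => Cn_congr ⟨fun h2 v hv => by rw [← h1 v (h v hv)]; exact h2 v hv,
    fun h2 v hv => by rw [h1 v (h v hv)]; exact h2 v hv⟩

theorem inTZ_Cn_inter (N : Set P2) (B : Finset P2) : InTZ B (Cn (N ∩ (IV B : Set P2))) :=
  inTZ_Cn Set.inter_subset_right
theorem offTZ_Cn_diff (N : Set P2) (B : Finset P2) : OffTZ B (Cn (N \ (IV B : Set P2))) :=
  offTZ_Cn fun _ h => h.2

theorem inTZ_Kn {X : Set P2} {B : Finset P2} (h : ∀ t ∈ X, t ∈ IV B) : InTZ B (Kn X) := by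
  have key : ∀ ω ω' : Cfg, (∀ v ∈ IV B, s1 (ω.1 v) = s1 (ω'.1 v)) → (∀ t ∈ B, ω.2 t = ω'.2 t) →
      (∀ t ∈ X, pC ω t) → ∀ t ∈ X, pC ω' t := fun ω ω' h1 h2 h3 t ht =>
    ⟨by rw [← h2 t (IV_sub B (h t ht))]; exact (h3 t ht).1, by rw [← h1 t (h t ht)]; exact (h3 t ht).2⟩
  exact fun ω ω' h1 h2 => Kn_congr ⟨key ω ω' h1 h2, key ω' ω (fun v hv => (h1 v hv).symm)
    fun t ht => (h2 t ht).symm⟩

theorem offTZ_Kn {X : Set P2} {B : Finset P2} (h : ∀ t ∈ X, t ∉ B) : OffTZ B (Kn X) := by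
  have key : ∀ ω ω' : Cfg, (∀ v, v ∉ IV B → s1 (ω.1 v) = s1 (ω'.1 v)) →
      (∀ t, t ∉ B → ω.2 t = ω'.2 t) → (∀ t ∈ X, pC ω t) → ∀ t ∈ X, pC ω' t := fun ω ω' h1 h2 h3 t ht =>
    ⟨by rw [← h2 t (h t ht)]; exact (h3 t ht).1,
      by rw [← h1 t fun h4 => h t ht (IV_sub B h4)]; exact (h3 t ht).2⟩
  exact fun ω ω' h1 h2 => Kn_congr ⟨key ω ω' h1 h2, key ω' ω (fun v hv => (h1 v hv).symm)
    fun t ht => (h2 t ht).symm⟩

/-! ### heights on the non-free sites -/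

/-- `N` is connected and not contained in the interior of `F` -/
structure Anc (N : Set P2) (F : Finset P2) : Prop where
  conn : IsConn N
  out : ∃ v ∈ N, v ∉ IV F

theorem Anc.mono {N : Set P2} {F F' : Finset P2} (h : F' ⊆ F) (hN : Anc N F) : Anc N F' :=
  ⟨hN.conn, hN.out.imp fun _ hv => ⟨hv.1, fun h1 => hv.2 (IV_mono h h1)⟩⟩

/-- a property of sites of `N` that is true off the interior and goes from a site to the next one
inside the interior is true on `N` -/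
theorem Anc.induct {N : Set P2} {F : Finset P2} (hN : Anc N F) {P : P2 → Prop}
    (h0 : ∀ v ∈ N, v ∉ IV F → P v)
    (h1 : ∀ u ∈ N, ∀ v ∈ N, Adj u v → P u → v ∈ IV F → P v) : ∀ v ∈ N, P v := by
  obtain ⟨u, hu, hu'⟩ := hN.out
  intro v hv
  have hp := hN.conn u hu v hv
  induction hp with
  | refl => exact h0 u hu hu'
  | @tail b d _ hbd ih =>
    by_cases hd : d ∈ IV F
    · exact h1 b hbd.1 d hbd.2.1 hbd.2.2 (ih hbd.1) hd
    · exact h0 d hbd.2.1 hd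

theorem lip_adj {h : P2 → ℤ} (hl : Lip h) {u v : P2} (ha : Adj u v) : |h u - h v| ≤ 1 := by
  rw [lip_iff] at hl
  obtain ⟨a, b⟩ := u
  rcases adj_iff.1 ha with rfl | rfl | rfl | rfl | rfl | rfl
  · exact (hl (a, b)).1
  · have := (hl (a - 1, b)).1
    simp only [sub_add_cancel] at this
    rw [abs_sub_comm]; exact this
  · exact (hl (a, b)).2.1
  · have := (hl (a, b - 1)).2.1
    simp only [sub_add_cancel] at this
    rw [abs_sub_comm]; exact this
  · have := (hl (a, b - 1)).2.2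
    simp only [sub_add_cancel] at this
    rw [abs_sub_comm]; exact this
  · have := (hl (a - 1, b)).2.2
    simp only [sub_add_cancel] at this
    exact this

/-- heights are `0` or `1` on `N` -/
theorem ht01 {N : Set P2} {F : Finset P2} {ω : Cfg} (hN : Anc N F) (hω : Valid F ω)
    (hC : ∀ v ∈ N, s1 (ω.1 v) = true) {v : P2} (hv : v ∈ N) : ω.1 v = 0 ∨ ω.1 v = 1 := by
  refine hN.induct (P := fun v => ω.1 v = 0 ∨ ω.1 v = 1) (fun v _ h => hω.ht.bd v h)
    (fun u hu v hv ha hP _ => ?_) v hv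
  have h1 := s1_true.1 (hC v hv)
  have h2 := abs_le.1 (lip_adj hω.ht.toLip ha)
  omega

/-! ### events -/

/-- no path of sites with `h ≥ 1` from outside `ball a (2 n + 2)` to `ball a n` -/
def Hs (a : P2) (n : ℕ) : Set Cfg := {ω | Sepr {v | ω.1 v ≤ 0} a n (2 * n + 2)}

/-- a path of free sites with `h ≥ 1` from outside `ball o R` to `ball o r` -/
def Cross (N : Set P2) (o : P2) (r R : ℕ) : Set Cfg := {ω | ¬ Sepr {v | v ∈ N ∨ ω.1 v ≤ 0} o r R}

/-- a path of sites with `h ≤ 0` inside `ball b R` from `ball y n` to a site of `N` -/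
def Arm0 (N : Set P2) (y : P2) (n : ℕ) (b : P2) (R : ℕ) : Set Cfg :=
  {ω | ∃ u ∈ ball y n, ∃ v ∈ ball b R, v ∈ N ∧
    Relation.ReflTransGen (StepIn {w | ω.1 w ≤ 0 ∧ w ∈ ball b R}) u v}

/-- half line of triangles starting at `b` in the direction `(0, 1)` -/
def ray (b : P2) : Set P2 := {t | t.1 = b.1 ∧ b.2 ≤ t.2}

/-! ### literal statements of the blocks -/

/-- **B3 (BULK).** -/
def BulkH (c : ℝ) (K : ℕ) (p : ℝ) : Prop :=
  ∀ (N : Set P2) (Q : Finset P2) (a : P2) (n : ℕ), SC Q → 1 ≤ n → ball a (K * n) ⊆ Q →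
    (∀ v ∈ ball a (K * n), v ∉ N) →
      p / 2 * E c Q (Cn N) ≤ E c Q (fun ω => Cn N ω * ind (Hs a n) ω)

/-- **B4 (FKG in the heights).** -/
def FKGh (c : ℝ) : Prop :=
  ∀ (N : Set P2) (Q : Finset P2), SC Q → Anc N Q → ∀ f g : (P2 → ℤ) → ℝ, Antitone f → Antitone g →
    (∀ h, 0 ≤ f h) → (∀ h, 0 ≤ g h) →
      E c Q (fun ω => Cn N ω * f ω.1) * E c Q (fun ω => Cn N ω * g ω.1) ≤
        E c Q (Cn N) * E c Q (fun ω => Cn N ω * (f ω.1 * g ω.1))

/-- **B2 (LEMMA B).** `A` : ratio of `|y - b|` and of the radius `n` of the small ball. -/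
def LemB (c : ℝ) (K A R : ℕ) (c1 : ℝ) : Prop :=
  ∀ (N : Set P2) (Q : Finset P2) (b y : P2) (n : ℕ), 1 ≤ n → SC Q → Anc N Q →
    (∀ t, t ∈ ball b (R * n) → (t ∈ Q ↔ t ∉ ray b)) →
    (∀ t ∈ ball b (R * n), t ∈ ray b → ∀ v ∈ up t, v ∈ N) →
    y ∈ ball b (A * n) → (∀ v ∈ ball y (K * n), v ∉ N) →
      c1 * E c Q (Cn N) ≤ E c Q (fun ω => Cn N ω * ind (Arm0 N y n b (R * n)) ω)

end Crest.Agent.R144.Bnd991
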