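import Crest.Agent.R144.Bnd5_991

-- ▼ part R144/Bnd6_991
section

/-!
# R144, block BND, part 6 (helper991): frame + LEMMA A ⟹ one scale of `multi`
-/

set_option autoImplicit false
set_option linter.unusedSectionVars false
set_option linter.unusedVariables false

noncomputable section

namespace Crest.Agent.R144.Bnd991

open Finset
open Crest.Agent.R144.It844 (P2 Lip adj_iff adj_symm lip_iff)
open Crest.Agent.R144.Zg349 Crest.Agent.R144.Zd349 Crest.Agent.R144.Zm349 Crest.Agent.R144.Ze349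
open Crest.Agent.R144.Ccn2311 (Em)
open Crest.Agent.R144.Rsw867 (ball mem_ball ball_mono adj_ball sc_ball Sepr Blk BlkP ind ind_nonneg ind_le_one
  RSW ind_congr)
open Crest.Agent.R144.Hf702 (PB)
open Crest.ProbabilityR.HexHeights (Adj)

section
variable {K A R n r1 r2 k : ℕ} {N : Set P2} {o : P2} {h : ℤ} {b y : Bool → P2} {a : ℕ → P2}
  (hF : Frame K A R n r1 r2 k N o h b y a) (hK : 4 ≤ K)
include hF hK

theorem Frame.W5 : 5 * n ≤ (K + 1) * n := Nat.mul_le_mul_right _ (by omega)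

theorem Frame.Bk_ann {t : P2} (ht : t ∈ Bk K n r1 r2 o) :
    t ∈ ball o (r2 + mg K n) ∧ t ∉ ball o (r1 - mg K n) := by
  have h5 := hF.W5 hK
  rw [mem_Bk] at ht
  exact ⟨ball_mono o (by unfold mg; omega) ht.1.1, fun h' => ht.1.2 (ball_mono o (by unfold mg; omega) h')⟩

theorem Frame.Dk_ann {t : P2} (ht : t ∈ Dk n r1 r2 o) :
    t ∈ ball o (r2 + mg K n) ∧ t ∉ ball o (r1 - mg K n) := by
  have h5 := hF.W5 hK
  rw [mem_Dk] at ht
  exact ⟨ball_mono o (by unfold mg; omega) ht.1, fun h' => ht.2 (ball_mono o (by unfold mg; omega) h')⟩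

theorem Frame.Xk_ann {t : P2} (ht : t ∈ Xk K n r1 r2 o b) :
    t ∈ ball o (r2 + mg K n) ∧ t ∉ ball o (r1 - mg K n) := by
  have h5 := hF.W5 hK
  exact ⟨ball_mono o (by unfold mg; omega) ht.1, fun h' => ht.2.1 (ball_mono o (by unfold mg; omega) h')⟩

theorem Frame.Xk_sub_Ys {t : P2} (ht : t ∈ Xk K n r1 r2 o b) : t ∈ Ys K n o b := by
  rw [mem_Ys]
  rcases ht.2.2 with h | h | h
  · exact Or.inl h.2
  · exact Or.inr (Or.inl h)
  · exact Or.inr (Or.inr h)

theorem Frame.Xk_col {t : P2} (ht : t ∈ Xk K n r1 r2 o b) : 2 ≤ |t.1 - o.1| := by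
  have h1 := hF.colb
  rcases ht.2.2 with h | h | h
  · exact h.1
  · rw [mem_ray] at h
    rw [h.1, le_abs]
    omega
  · rw [mem_ray] at h
    rw [h.1, le_abs]
    omega

/-- plus-closed triangles have an interior base in the block -/
theorem Frame.XB {t : P2} (ht : t ∈ Xk K n r1 r2 o b) : t ∈ IV (Bk K n r1 r2 o) := by
  have h5 := hF.W5 hK
  have hrin := hF.rin'
  have hcol := hF.Xk_col hK ht
  have key : ∀ s : P2, s ∈ ball t 1 → s.1 ≠ o.1 → s ∈ Bk K n r1 r2 o := by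
    intro s hs hne
    rw [mem_Bk]
    refine ⟨⟨ball_tri' hs ht.1 (by omega), ball_far hs ht.2.1 (by omega)⟩, fun h => hne h.1⟩
  rw [le_abs] at hcol
  rw [mem_IV]
  refine ⟨key t (ball_self _ _) (by omega), key _ ?_ (by dsimp only; omega), key _ ?_ (by dsimp only; omega)⟩
  · rw [mem_ball]; simp
  · rw [mem_ball]; simp

theorem Frame.layY {t t' : P2} (ht : t ∈ Dk n r1 r2 o) (ht2 : t ∉ Yk K n r1 r2 o b)
    (ht' : t' ∈ Yk K n r1 r2 o b) (ha : Adj t t') : t' ∈ Xk K n r1 r2 o b := by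
  have h5 := hF.W5 hK
  have hrin := hF.rin'
  rw [mem_Yk] at ht2 ht'
  have ht3 : t ∉ Ys K n o b := fun h => ht2 ⟨ht, h⟩
  obtain ⟨hD', hY'⟩ := ht'
  have hD := mem_Dk.1 hD'
  refine ⟨ball_mono o (by omega) hD.1, fun h' => hD.2 (ball_mono o (by omega) h'), ?_⟩
  rw [mem_Ys] at hY' ht3
  push Not at ht3
  rcases hY' with h1 | h1
  · left
    refine ⟨?_, h1.1, h1.2⟩
    by_contra hlt
    push Not at hlt
    have hadj := adj_ball1 (adj_symm ha)
    have h6 := ht3.1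
    have h7 : t' ∉ ball o 2 := fun h' => hD.2 (ball_mono o (by omega) h')
    rw [mem_ball] at hadj h7
    simp only [abs_le, abs_lt] at hadj h7 hlt h6
    have hwd : 4 ≤ wd K n := by unfold wd; omega
    have h8 := h6 (by push_cast at hadj ⊢; omega)
    apply h7
    push_cast at hadj ⊢
    omega
  · exact Or.inr h1

/-- a triangle of the middle region with a non-free corner -/
theorem Frame.MN : ∃ t ∈ Mk K n r1 r2 o b, ∃ v ∈ up t, v ∈ N := by
  have h5 := hF.W5 hK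
  have hrin := hF.rin
  have h12 := hF.r12
  have hcol := hF.colb
  have hmg : 12 ≤ mg K n := by unfold mg; omega
  set t : P2 := (o.1 + (wd K n + 1), o.2 + (r1 - wd K n - 1)) with ht
  have hr : (wd K n : ℤ) + 12 ≤ r1 := by
    have : wd K n + 12 ≤ r1 := by omega
    exact_mod_cast this
  have hin : t ∈ ball o (r2 + 1) ∧ t ∉ ball o (r1 - 1) := by
    rw [mem_ball, mem_ball]
    simp only [ht, abs_le]
    have h12' : (r1 : ℤ) < r2 := by exact_mod_cast h12
    have h13 : ((r1 - 1 : ℕ) : ℤ) = r1 - 1 := by omega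
    rw [h13]
    push_cast
    constructor
    · omega
    · omega
  have hY : t ∉ Ys K n o b := by
    rw [mem_Ys, mem_ray, mem_ray]
    simp only [ht, abs_le]
    omega
  refine ⟨t, mem_Mk.2 ⟨hin, hY⟩, t, base_mem_up t, hF.strip t ?_ ?_ ?_ ?_⟩
  · simp only [ht, abs_le]
    omega
  · simp only [ht]
    omega
  · exact fun h' => hin.2 (ball_mono o (by omega) h')
  · exact ball_mono o (by omega) hin.1

theorem Frame.MD {t : P2} (ht : t ∈ Mk K n r1 r2 o b) :
    t ∈ Dk n r1 r2 o ∧ t ∉ Yk K n r1 r2 o b := by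
  rw [mem_Mk] at ht
  refine ⟨?_, fun h => ht.2 (mem_Yk.1 h).2⟩
  rw [mem_Dk]
  exact ⟨ball_mono o (by omega) ht.1.1, fun h' => ht.1.2 (ball_mono o (by omega) h')⟩

/-- the crossing event sees the free sites of the annulus -/
theorem Frame.cross_loc {ω ω' : Cfg} (hh : ∀ t ∈ Mk K n r1 r2 o b, ∀ v ∈ up t, ω.1 v = ω'.1 v) :
    ind (Cross N o r1 r2) ω = ind (Cross N o r1 r2) ω' := by
  have hrin := hF.rin'
  have h12 := hF.r12
  have hfree : ∀ v, v ∈ ball o (r2 + 1) → v ∉ ball o (r1 - 1) → v ∉ N → ω.1 v = ω'.1 v := by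
    intro v h1 h2 h3
    refine hh v (mem_Mk.2 ⟨⟨h1, h2⟩, hF.free_notMem ?_ ?_ h3⟩) v (base_mem_up v)
    · exact ball_mono o (by unfold mg; omega) h1
    · exact fun h' => h2 (ball_mono o (by unfold mg; omega) h')
  have key : ∀ ω ω' : Cfg, (∀ v, v ∈ ball o (r2 + 1) → v ∉ ball o (r1 - 1) → v ∉ N → ω.1 v = ω'.1 v) →
      Sepr {v | v ∈ N ∨ ω.1 v ≤ 0} o r1 r2 → Sepr {v | v ∈ N ∨ ω'.1 v ≤ 0} o r1 r2 := by
    intro ω ω' hh h
    refine Sepr.congr (by omega) (fun v hv1 hv2 hv3 => ?_) h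
    by_cases hvN : v ∈ N
    · exact Or.inl hvN
    · rcases hv3 with hv3 | hv3
      · exact absurd hv3 hvN
      · right
        rw [← hh v hv1 (hv2 (r1 - 1) (by omega)) hvN]
        exact hv3
  refine ind_congr ?_
  show (¬ _) ↔ (¬ _)
  exact not_congr ⟨key ω ω' hfree, key ω' ω fun v h1 h2 h3 => (hfree v h1 h2 h3).symm⟩

/-- **One scale.** -/
theorem Frame.scale {c p : ℝ} (hc : 1 ≤ c) (hR : RSW c K p) (hGM : GM K n r1 r2 o b) {q : ℕ → ℝ}
    (hA : LemA c K A R q) {F : Finset P2} (hN : Anc N F) (hFb : ball o (r2 + mg K n) ⊆ F)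
    {X : Set P2} (hX : ∀ t ∈ X, t ∈ ball o (r2 + mg K n) → t ∉ ball o (r1 - mg K n) →
      t ∈ Xk K n r1 r2 o b) (hX' : Xk K n r1 r2 o b ⊆ X) {L : ℕ} (hL : r2 + 3 + n ≤ L * n) :
    Scale c (p ^ ((2 * L + 1) ^ 2)) (q k) F N X (Bk K n r1 r2 o) (Dk n r1 r2 o) (Yk K n r1 r2 o b)
      (Mk K n r1 r2 o b) (ind (Cross N o r1 r2)) (good (Ir K n r1 r2 L o) (cen o n) n) where
  scB := hGM.scB
  scD := hGM.scD
  DF := fun t ht => hFb (hF.Dk_ann hK ht).1
  XB := fun t ht htB => by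
    have h1 := hF.Bk_ann hK htB
    exact hF.XB hK (hX t ht h1.1 h1.2)
  XY := fun t ht htD => by
    have h1 := hF.Dk_ann hK htD
    exact mem_Yk.2 ⟨htD, hF.Xk_sub_Ys hK (hX t ht h1.1 h1.2)⟩
  layY := fun t ht ht2 t' ht' ha => hX' (hF.layY hK ht ht2 ht' ha)
  MD := fun t ht => hF.MD hK ht
  Mc := hGM.Mc
  MN := hF.MN hK
  χ0 := ind_nonneg _
  χ1 := ind_le_one _
  χloc := fun ω ω' hh => hF.cross_loc hK hh
  g0 := good_nonneg
  g1 := good_le_one
  ginc := incP_good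
  gin := inTZ_good fun i hi => by
    have hn := hF.n1
    have h4 : 2 * n + 2 ≤ K * n := by nlinarith
    exact (ball_mono _ h4).trans (ring_Bk hF.r12.le hF.rin' hi)
  gEm := by
    have h1 := em_good hc hR hF.n1 hGM.scB (I := Ir K n r1 r2 L o) (a := cen o n)
      (fun i hi => ring_Bk hF.r12.le hF.rin' hi)
    refine le_trans ?_ h1
    exact pow_le_pow_of_le_one hR.p0.le (by linarith [hR.p1]) (card_Ir _ _ _ _ _ _)
  main := fun Q hQ h1 h2 => by
    refine hA n r1 r2 k N o h b y a hF Q hQ (hN.mono fun t ht => hFb (hF.Dk_ann hK (h2 t ht).1).1) ?_ ?_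
    · exact fun t ht1 ht2 ht3 => h1 t (mem_Mk.2 ⟨⟨ht1, ht2⟩, ht3⟩)
    · exact fun t ht hY => (h2 t ht).2 (mem_Yk.2 ⟨(h2 t ht).1, hY⟩)

/-- the ring event protects the middle region -/
theorem Frame.hgood {X : Set P2} (hX' : Xk K n r1 r2 o b ⊆ X) {L : ℕ} (hL : r2 + 3 + n ≤ L * n)
    {D : Finset P2} (hD : Dk n r1 r2 o ⊆ D) {ω : Cfg} (hKn : Kn X ω ≠ 0)
    (hg : good (Ir K n r1 r2 L o) (cen o n) n ω ≠ 0) :
    ∀ t ∈ Mk K n r1 r2 o b, t ∈ PB D ω := by
  have h5 := hF.W5 hK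
  have hrin := hF.rin'
  have h12 := hF.r12
  have hn := hF.n1
  have hwd : 4 ≤ wd K n := by unfold wd; omega
  refine ring_PB (D' := Dk n r1 r2 o) (X := X) (C := {t | |t.1 - o.1| ≤ 1 ∧ o.2 ≤ t.2}) (o := o)
    (r := r1 - 3) (R := r2 + 2) hD ?_ ?_ ?_ (fun i hi => ring_Dk h12.le (by omega) hi) ?_ hKn hg
  · intro t h1 h2
    rw [mem_Dk]
    exact ⟨ball_mono o (by omega) h1, fun h' => h2 (ball_mono o (by omega) h')⟩
  · intro u hu h1 h2 u' ha
    have hadj := adj_ball1 ha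
    have h6 : u ∉ ball o 2 := fun h' => h2 (ball_mono o (by omega) h')
    obtain ⟨hu1, hu2⟩ := hu
    by_cases h7 : |u'.1 - o.1| ≤ 1 ∧ o.2 ≤ u'.2
    · exact Or.inl h7
    · right
      apply hX'
      refine ⟨ball_tri' hadj h1 (by omega), ball_far hadj h2 (by omega), Or.inl ?_⟩
      rw [mem_ball] at hadj h6
      simp only [abs_le, le_abs] at hadj h6 h7 hu1 ⊢
      push_cast at hadj h6 ⊢
      have hwd' : (4 : ℤ) ≤ wd K n := by exact_mod_cast hwd
      omega
  · intro u hu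
    by_cases hs : |u.1 - o.1| ≤ wd K n ∧ o.2 ≤ u.2
    · by_cases h1 : |u.1 - o.1| ≤ 1
      · exact Or.inl ⟨h1, hs.2⟩
      · right; left
        apply hX'
        refine ⟨?_, ?_, Or.inl ⟨?_, hs⟩⟩
        · rcases hu with h | h
          · exact ball_mono o (by omega) h.1
          · exact ball_mono o (by omega) h.1
        · rcases hu with h | h
          · exact fun h' => h.2 (ball_mono o (by omega) h')
          · exact fun h' => h.2 (ball_mono o (by omega) h')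
        · push Not at h1
          rw [lt_abs] at h1
          rw [le_abs]
          omega
    · right; right
      refine cover_Ir hn h12.le hL ⟨?_, hs⟩
      rcases hu with h | h
      · exact Or.inl h
      · right
        have e : r1 - 3 + 1 = r1 - 2 := by omega
        rw [e] at h
        exact h
  · intro t ht
    have hM := mem_Mk.1 ht
    have hYt := hM.2
    rw [mem_Ys] at hYt
    push Not at hYt
    have e : r1 - 3 + 1 = r1 - 2 := by omega
    rw [e]
    refine ⟨⟨ball_mono o (by omega) hM.1.1, fun h' => hM.1.2 (ball_mono o (by omega) h'), ?_⟩, ?_⟩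
    · rintro ⟨h1, h2⟩
      exact absurd h2 (not_le.2 (hYt.1 (h1.trans (by exact_mod_cast (by omega : 1 ≤ wd K n)))))
    · intro t' ha
      have hadj := adj_ball1 ha
      refine ⟨ball_tri' hadj hM.1.1 (by omega), ball_far hadj hM.1.2 (by omega), ?_⟩
      rintro ⟨h1, h2⟩
      have h6 : t' ∉ ball o 2 := ball_far hadj hM.1.2 (by omega)
      have h7 := hYt.1
      rw [mem_ball] at hadj h6
      simp only [abs_le] at hadj h6 h7 h1
      push_cast at hadj h6
      have hwd' : (4 : ℤ) ≤ wd K n := by exact_mod_cast hwd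
      have h8 := h7 (by omega)
      omega

end

end Crest.Agent.R144.Bnd991
end
end

-- ▼ part R144/Bnd7_991

/-!
# R144, block BND, part 7 (helper991): several scales around a boundary point

* `Scs` : a finite family of frames with common `N`, `o`, separated annuli, `n, r1, r2, k` bounded;
* `Scs.decay` : `E c G (Kn X * Cn N * ind (Cross N o s d)) ≤ (1 - q c0) ^ #S * E c G (Kn X * Cn N)`.
-/

set_option autoImplicit false
set_option linter.unusedSectionVars false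
set_option linter.unusedVariables false

noncomputable section

namespace Crest.Agent.R144.Bnd991

open Finset
open Crest.Agent.R144.It844 (P2 Lip adj_iff adj_symm lip_iff)
open Crest.Agent.R144.Zg349 Crest.Agent.R144.Zd349 Crest.Agent.R144.Zm349 Crest.Agent.R144.Ze349
open Crest.Agent.R144.Ccn2311 (Em)
open Crest.Agent.R144.Rsw867 (ball mem_ball ball_mono adj_ball sc_ball Sepr Blk BlkP ind ind_nonneg ind_le_one
  RSW ind_congr ind_le_ind ind_of_mem ind_of_not_mem)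
open Crest.Agent.R144.Hf702 (PB)
open Crest.ProbabilityR.HexHeights (Adj)

/-- a family of frames around `o` between the radii `s` and `d` -/
structure Scs (K A R L km : ℕ) (N : Set P2) (o : P2) (s d : ℕ) {ι : Type*} (S : Finset ι)
    (n r1 r2 k : ι → ℕ) (h : ι → ℤ) (b y : ι → Bool → P2) (a : ι → ℕ → P2) : Prop where
  fr : ∀ j ∈ S, Frame K A R (n j) (r1 j) (r2 j) (k j) N o (h j) (b j) (y j) (a j)
  gm : ∀ j ∈ S, GM K (n j) (r1 j) (r2 j) o (b j)
  hL : ∀ j ∈ S, r2 j + 3 + n j ≤ L * n j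
  hk : ∀ j ∈ S, k j ≤ km
  sep : ∀ i ∈ S, ∀ j ∈ S, i ≠ j → r2 i + mg K (n i) < r1 j - mg K (n j) ∨
    r2 j + mg K (n j) < r1 i - mg K (n i)
  hs : ∀ j ∈ S, s ≤ r1 j
  hd : ∀ j ∈ S, r2 j + mg K (n j) ≤ d

theorem Scale.mono_q {c c0 q q' : ℝ} (hc : 1 ≤ c) (hq : q' ≤ q) {F : Finset P2} {N X : Set P2}
    {B D Y M : Finset P2} {χ good : Cfg → ℝ} (h : Scale c c0 q F N X B D Y M χ good) :
    Scale c c0 q' F N X B D Y M χ good :=
  { h with
    main := fun Q hQ h1 h2 => (h.main Q hQ h1 h2).trans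
      (mul_le_mul_of_nonneg_right (by linarith) (E_nonneg hc fun ω _ => Cn_nonneg _ _)) }

section
variable {K A R L km : ℕ} {N : Set P2} {o : P2} {s d : ℕ} {ι : Type*} {S : Finset ι}
  {n r1 r2 k : ι → ℕ} {h : ι → ℤ} {b y : ι → Bool → P2} {a : ι → ℕ → P2}

/-- plus closed set of the family -/
def XS (K : ℕ) (o : P2) (S : Finset ι) (n r1 r2 : ι → ℕ) (b : ι → Bool → P2) : Set P2 :=
  {t | ∃ j ∈ S, t ∈ Xk K (n j) (r1 j) (r2 j) o (b j)}

theorem annuli_disj {K : ℕ} {o t : P2} {n1 n2 a1 a2 b1 b2 : ℕ}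
    (hsep : a2 + mg K n1 < b1 - mg K n2 ∨ b2 + mg K n2 < a1 - mg K n1)
    (h1 : t ∈ ball o (a2 + mg K n1) ∧ t ∉ ball o (a1 - mg K n1))
    (h2 : t ∈ ball o (b2 + mg K n2) ∧ t ∉ ball o (b1 - mg K n2)) : False := by
  rcases hsep with h | h
  · exact h2.2 (ball_mono o h.le h1.1)
  · exact h1.2 (ball_mono o h.le h2.1)

/-- margins of the exploration domains -/
theorem Frame.Dk_ann' {n r1 r2 k : ℕ} {h : ℤ} {b y : Bool → P2} {a : ℕ → P2}
    (hF : Frame K A R n r1 r2 k N o h b y a) (hK : 4 ≤ K) {t u : P2} (ht : t ∈ Dk n r1 r2 o)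
    (hu : u ∈ ball t 1) : u ∈ ball o (r2 + mg K n) ∧ u ∉ ball o (r1 - mg K n) := by
  have h5 := hF.W5 hK
  have hrin := hF.rin'
  rw [mem_Dk] at ht
  exact ⟨ball_tri' hu ht.1 (by unfold mg; omega), ball_far hu ht.2 (by unfold mg; omega)⟩

variable [DecidableEq ι]

/-- **Decay of the crossing event over several scales.** -/
theorem Scs.decay (H : Scs K A R L km N o s d S n r1 r2 k h b y a) {c p : ℝ} (hc : 1 ≤ c)
    (hR : RSW c K p) {q : ℕ → ℝ} (hA : LemA c K A R q) {q0 : ℝ} (hq0 : 0 ≤ q0) (hq1 : q0 ≤ 1)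
    (hq : ∀ i ≤ km, q0 ≤ q i) {G : Finset P2} (hG : SC G) (hN : Anc N G) (hGb : ball o d ⊆ G) :
    E c G (fun ω => Kn (XS K o S n r1 r2 b) ω * Cn N ω * ind (Cross N o s d) ω) ≤
      (1 - q0 * p ^ ((2 * L + 1) ^ 2)) ^ S.card *
        E c G (fun ω => Kn (XS K o S n r1 r2 b) ω * Cn N ω) := by
  classical
  have hK := hR.K4
  have hp1 : p ≤ 1 := by linarith [hR.p1]
  have hpow : p ^ ((2 * L + 1) ^ 2) ≤ 1 := pow_le_one₀ hR.p0.le hp1
  have hpow0 : 0 ≤ p ^ ((2 * L + 1) ^ 2) := pow_nonneg hR.p0.le _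
  set X := XS K o S n r1 r2 b with hX
  have hsc : ∀ j ∈ S, Scale c (p ^ ((2 * L + 1) ^ 2)) q0 G N X (Bk K (n j) (r1 j) (r2 j) o)
      (Dk (n j) (r1 j) (r2 j) o) (Yk K (n j) (r1 j) (r2 j) o (b j)) (Mk K (n j) (r1 j) (r2 j) o (b j))
      (ind (Cross N o (r1 j) (r2 j))) (good (Ir K (n j) (r1 j) (r2 j) L o) (cen o (n j)) (n j)) := by
    intro j hj
    refine Scale.mono_q hc (hq _ (H.hk j hj)) ((H.fr j hj).scale hK hc hR (H.gm j hj) hA hN
      ((ball_mono o (H.hd j hj)).trans hGb) ?_ ?_ (H.hL j hj))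
    · rintro t ⟨i, hi, ht⟩ h1 h2
      by_cases hij : i = j
      · rw [← hij]; exact ht
      · exact (annuli_disj (H.sep i hi j hj hij) ((H.fr i hi).Xk_ann hK ht) ⟨h1, h2⟩).elim
    · exact fun t ht => ⟨j, hj, ht⟩
  have hm := multi (S := S) (B := fun j => Bk K (n j) (r1 j) (r2 j) o)
    (D := fun j => Dk (n j) (r1 j) (r2 j) o) (Y := fun j => Yk K (n j) (r1 j) (r2 j) o (b j))
    (M := fun j => Mk K (n j) (r1 j) (r2 j) o (b j)) (χ := fun j => ind (Cross N o (r1 j) (r2 j)))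
    (good := fun j => good (Ir K (n j) (r1 j) (r2 j) L o) (cen o (n j)) (n j))
    hc hG hq0 hq1 (by nlinarith) hN hsc ?_ ?_ ?_ ?_
  · refine le_trans (E_mono hc fun ω _ => ?_) hm
    refine mul_le_mul_of_nonneg_left ?_ (mul_nonneg (Kn_nonneg _ _) (Cn_nonneg _ _))
    by_cases hω : ω ∈ Cross N o s d
    · rw [Finset.prod_eq_one fun j hj => ?_]
      · exact ind_le_one _ _
      · refine ind_of_mem fun hsep => hω ?_
        have h1 := H.hs j hj
        have h2 := H.hd j hj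
        exact Sepr.mono_ball hsep h1 (by omega)
    · rw [ind_of_not_mem hω]
      exact Finset.prod_nonneg fun _ _ => ind_nonneg _ _
  · intro i hi j hj hij
    rw [Finset.disjoint_left]
    intro t h1 h2
    exact annuli_disj (H.sep i hi j hj hij) ((H.fr i hi).Bk_ann hK h1) ((H.fr j hj).Bk_ann hK h2)
  · intro i hi j hj hij t ht t' ht' ha
    exact annuli_disj (H.sep i hi j hj hij) ((H.fr i hi).Dk_ann' hK ht (adj_ball1 ha))
      ((H.fr j hj).Dk_ann' hK ht' (ball_self _ _))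
  · intro i hi j hj hij t ht t' ht' v hv hv'
    exact annuli_disj (H.sep i hi j hj hij) ((H.fr i hi).Dk_ann' hK ht (up_ball1 hv))
      ((H.fr j hj).Dk_ann' hK ht' (up_ball1 hv'))
  · intro j hj ω _ hKn hg
    refine (H.fr j hj).hgood hK (X := X) ?_ (H.hL j hj) ?_ hKn hg
    · exact fun t ht => ⟨j, hj, ht⟩
    · exact Finset.subset_biUnion_of_mem (fun j => Dk (n j) (r1 j) (r2 j) o) hj

/-- corners of the plus closed set are not free -/
theorem Scs.corner (H : Scs K A R L km N o s d S n r1 r2 k h b y a) (hK : 4 ≤ K) :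
    ∀ t ∈ XS K o S n r1 r2 b, ∀ v ∈ up t, v ∈ N := by
  rintro t ⟨j, hj, ht⟩ v hv
  exact (H.fr j hj).Xk_corner hK ht hv

/-- the plus closed set is in the ball -/
theorem Scs.XS_sub (H : Scs K A R L km N o s d S n r1 r2 k h b y a) (hK : 4 ≤ K) :
    ∀ t ∈ XS K o S n r1 r2 b, t ∈ ball o d := by
  rintro t ⟨j, hj, ht⟩
  exact ball_mono o (H.hd j hj) ((H.fr j hj).Xk_ann hK ht).1

end

end Crest.Agent.R144.Bnd991
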