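import Crest.Agent.R144.Zo2_349

-- ▼ part R144/Zo3_349
section

/-!
# R144: `(s1, Z)` marginal of the law with fixed boundary heights `ξ ∈ {0, 1}` (helper349)

`Λ` finite with connected complement, `ξ v ∈ {0, 1}` off `Λ` (so `s1 = +` there, `s2` prescribed).
* `exists_lift0`, `conf_inj0`, `sum_conf0` : heights ↔ colours;
* `Cmp Λ ξ Z` : the boundary values of `s2` extend to a function constant on the open triangles;
* `cmp_plus` : `Cmp` only depends on the PLUS closed triangles (for compatible `s1`);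
* `S0_tz` : the marginal is `NmL Λ * fw up c K T Z * nL Λ Z * 1{Cmp Z}`.
-/

set_option autoImplicit false
set_option linter.unusedSectionVars false
set_option linter.unusedSimpArgs false

noncomputable section

namespace Crest.Agent.R144.Zo349

open Finset
open Crest.Agent.R144.It844 (P2 Lip Cst adj_iff adj_symm lip_iff upT mem_upT tw adj_up exists_exit)
open Crest.Agent.R144.Zg349 Crest.Agent.R144.Zk349 Crest.Agent.R144.Zd349 Crest.Agent.R144.Zm349
open Crest.Agent.R144.HyA349 Crest.Agent.R144.HyB349 Crest.Agent.R144.HyC349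
open Crest.Agent.R144.Ze349 Crest.Agent.R144.Zs349
open Crest.ProbabilityR.HexHeights (Adj)
open Crest.Agent.R161.KWabs729 (z2_cases)
open Crest.Agent.R144.Pst967 (hexB subset_hexB conn_hexB)

/-- boundary values of the F-type at prescribed `s2` -/
def Bv (Λ : Finset P2) (ξ : P2 → ℤ) : Prop := ∀ v, v ∉ Λ → ξ v = 0 ∨ ξ v = 1

/-- boundary sites with `s2 = -` -/
def A0 (Λ : Finset P2) (ξ : P2 → ℤ) : Finset P2 := (VF (upT Λ) \ Λ).filter fun v => ξ v = 1

/-- `s1` minus sites -/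
def tmL (Λ : Finset P2) (h : P2 → ℤ) : Finset P2 := Λ.filter fun v => s1 (h v) = false
/-- `s2` minus sites in `Λ` -/
def amL (Λ : Finset P2) (h : P2 → ℤ) : Finset P2 := Λ.filter fun v => s2 (h v) = false

section
variable {Λ : Finset P2} {ξ : P2 → ℤ}

theorem s1_off (hξ : Bv Λ ξ) {h : P2 → ℤ} (hh : h ∈ It844.conf Λ ξ) {v : P2} (hv : v ∉ Λ) :
    s1 (h v) = true := by
  rw [(It844.mem_conf.1 hh).2 v hv]
  rcases hξ v hv with h1 | h1 <;> rw [h1] <;> decide

theorem mem_tmL (hξ : Bv Λ ξ) {h : P2 → ℤ} (hh : h ∈ It844.conf Λ ξ) {v : P2} :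
    v ∈ tmL Λ h ↔ s1 (h v) = false := by
  unfold tmL
  rw [Finset.mem_filter, and_iff_right_iff_imp]
  intro h1
  by_contra h2
  rw [s1_off hξ hh h2] at h1
  exact absurd h1 (by decide)

theorem mem_amL (hξ : Bv Λ ξ) {h : P2 → ℤ} (hh : h ∈ It844.conf Λ ξ) {v : P2} (hv : v ∈ VF (upT Λ)) :
    v ∈ amL Λ h ∪ A0 Λ ξ ↔ s2 (h v) = false := by
  unfold amL A0
  rw [Finset.mem_union, Finset.mem_filter, Finset.mem_filter, Finset.mem_sdiff]
  by_cases h1 : v ∈ Λ
  · tauto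
  · rw [(It844.mem_conf.1 hh).2 v h1]
    rcases hξ v h1 with h2 | h2 <;> rw [h2]
    · simp only [h1, hv, false_and, not_false_eq_true, and_self, true_and, false_or]
      decide
    · simp only [h1, hv, false_and, not_false_eq_true, and_self, true_and, false_or]
      decide

theorem c1_iff0 (hξ : Bv Λ ξ) {h : P2 → ℤ} (hh : h ∈ It844.conf Λ ξ) (t : P2) :
    C1 h t ↔ M3 (cr t) (ch (tmL Λ h)) := by
  rw [m3_ch, mem_tmL hξ hh, mem_tmL hξ hh, mem_tmL hξ hh]
  unfold C1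
  generalize s1 (h (cr t 0)) = a
  generalize s1 (h (cr t 1)) = b
  generalize s1 (h (cr t 2)) = d
  revert a b d
  decide

theorem cr_mem_VF' {W : Finset P2} {t : P2} (ht : t ∈ W) (i : Fin 3) : cr t i ∈ VF W :=
  mem_VF.2 ⟨t, ht, cr_mem_up t i⟩

theorem c2_iff0 (hξ : Bv Λ ξ) {h : P2 → ℤ} (hh : h ∈ It844.conf Λ ξ) {t : P2} (ht : t ∈ upT Λ) :
    C2 h t ↔ M3 (cr t) (ch (amL Λ h ∪ A0 Λ ξ)) := by
  rw [m3_ch, mem_amL hξ hh (cr_mem_VF' ht 0), mem_amL hξ hh (cr_mem_VF' ht 1),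
    mem_amL hξ hh (cr_mem_VF' ht 2)]
  unfold C2
  generalize s2 (h (cr t 0)) = a
  generalize s2 (h (cr t 1)) = b
  generalize s2 (h (cr t 2)) = d
  revert a b d
  decide

/-- heights are determined by their colours -/
theorem conf_inj0 (hξ : Bv Λ ξ) {h g : P2 → ℤ} (hh : h ∈ It844.conf Λ ξ) (hg : g ∈ It844.conf Λ ξ)
    (e1 : tmL Λ h = tmL Λ g) (e2 : amL Λ h = amL Λ g) : h = g := by
  have k : ∀ a b : Bool, (a = false ↔ b = false) → a = b := by decide
  have f1 := It844.mem_conf.1 hh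
  have f2 := It844.mem_conf.1 hg
  have hm : ∀ v, (h v - g v) % 4 = 0 := by
    intro v
    by_cases hv : v ∈ Λ
    · refine mod4_of_s (k _ _ ?_) (k _ _ ?_)
      · rw [← mem_tmL hξ hh, ← mem_tmL hξ hg, e1]
      · have a1 : v ∈ amL Λ h ↔ s2 (h v) = false := by
          unfold amL; rw [Finset.mem_filter, and_iff_right hv]
        have a2 : v ∈ amL Λ g ↔ s2 (g v) = false := by
          unfold amL; rw [Finset.mem_filter, and_iff_right hv]
        rw [← a1, ← a2, e2]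
    · rw [f1.2 v hv, f2.2 v hv]; norm_num
  funext v
  obtain ⟨j, -, hj, hj'⟩ := exists_exit Λ v
  have key : ∀ i : ℕ, i ≤ j → h (v.1 + (i : ℤ), v.2) - g (v.1 + (i : ℤ), v.2) = h v - g v := by
    intro i
    induction i with
    | zero => intro _; simp
    | succ i ih =>
      intro hi
      rw [← ih (by omega)]
      have l1 := abs_le.1 (lip_cr f1.1 (v.1 + (i : ℤ), v.2) 0 1)
      have l2 := abs_le.1 (lip_cr f2.1 (v.1 + (i : ℤ), v.2) 0 1)
      have m1 := hm (v.1 + (i : ℤ), v.2)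
      have m2 := hm (v.1 + (i : ℤ) + 1, v.2)
      simp only [cr0, cr1] at l1 l2
      have e : v.1 + (((i + 1 : ℕ) : ℤ)) = v.1 + i + 1 := by push_cast; ring
      rw [e]
      omega
  have h1 := key j le_rfl
  rw [f1.2 _ hj, f2.2 _ hj] at h1
  omega

/-- **Lift** with prescribed boundary heights. -/
theorem exists_lift0 (hΛ : IsConn ((Λ : Set P2)ᶜ)) (hξ : Bv Λ ξ) {T A : Finset P2}
    (hT : T ⊆ Λ) (hA : A ⊆ Λ) (hc : ∀ t ∈ upT Λ, M3 (cr t) (ch T) ∨ M3 (cr t) (ch (A ∪ A0 Λ ξ))) :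
    ∃ h ∈ It844.conf Λ ξ, tmL Λ h = T ∧ amL Λ h = A := by
  classical
  obtain ⟨n, hn⟩ := subset_hexB (upT Λ)
  set F := hexB n with hF
  have hSC : SC F := conn_hexB n
  have hIV : Λ ⊆ IV F := fun v hv => mem_IV'.2 fun t ht => hn (mem_upT_iff.2 ⟨v, hv, ht⟩)
  have hA0 : A0 Λ ξ ⊆ VF (upT Λ) := fun v hv =>
    (Finset.mem_sdiff.1 (Finset.mem_filter.1 hv).1).1
  have hA' : A ∪ A0 Λ ξ ⊆ VF F :=
    Finset.union_subset ((hA.trans hIV).trans (IV_sub_VF F)) (hA0.trans (VF_mono hn))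
  obtain ⟨h, h1, h2, h3⟩ := exists_height hSC (hT.trans hIV) hA' (fun t _ => by
    by_cases ht : t ∈ upT Λ
    · exact hc t ht
    · left
      rw [m3_ch]
      have : ∀ i, cr t i ∉ T := fun i hi => ht (mem_upT_iff.2 ⟨_, hT hi, cr_mem_up t i⟩)
      simp only [this]
      decide)
  have hl := h1.toLip
  -- off `Λ`
  have hoff : ∀ v, v ∉ Λ → (h v % 4 = 0 ∨ h v % 4 = 1) := by
    intro v hv
    have : s1 (h v) = true := (h2 v).2 fun h' => hv (hT h')
    rw [s1_true] at this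
    omega
  have hstep : ∀ u v, u ∉ Λ → v ∉ Λ → Adj u v → h u / 4 = h v / 4 := by
    intro u v hu hv huv
    have a1 := hoff u hu
    have a2 := hoff v hv
    have a3 := abs_le.1 (hl u v huv)
    omega
  obtain ⟨v1, hv1⟩ := Infinite.exists_notMem_finset (Λ ∪ VF F)
  rw [Finset.mem_union, not_or] at hv1
  have hz : ∀ v, v ∉ Λ → h v = 0 ∨ h v = 1 := by
    intro v hv
    have hp : ∀ w, Relation.ReflTransGen (StepIn ((Λ : Set P2)ᶜ)) v w → h v / 4 = h w / 4 := by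
      intro w hw
      induction hw with
      | refl => rfl
      | @tail b d _ h6 ih =>
        rw [ih]
        exact hstep b d (by simpa using h6.1) (by simpa using h6.2.1) h6.2.2
    have h5 : h v / 4 = h v1 / 4 := hp v1 (hΛ v (by simpa using hv) v1 (by simpa using hv1.1))
    rw [h1.off v1 hv1.2] at h5
    have := hoff v hv
    omega
  have hK : ∀ v, v ∉ Λ → v ∈ VF (upT Λ) → h v = ξ v := by
    intro v hv hvK
    have a1 : v ∈ A0 Λ ξ ↔ ξ v = 1 := by
      unfold A0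
      rw [Finset.mem_filter, and_iff_right (Finset.mem_sdiff.2 ⟨hvK, hv⟩)]
    have a2 : s2 (h v) = true ↔ v ∉ A0 Λ ξ := by
      rw [h3, Finset.mem_union, not_or]
      exact ⟨fun h => h.2, fun h => ⟨fun h' => hv (hA h'), h⟩⟩
    rw [a1] at a2
    rcases hz v hv with b | b <;> rcases hξ v hv with b' | b' <;> rw [b, b'] at a2 <;> rw [b, b'] <;>
      (exfalso; revert a2; decide)
  refine ⟨fun v => if v ∈ Λ then h v else ξ v, It844.mem_conf.2 ⟨?_, fun v hv => if_neg hv⟩, ?_, ?_⟩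
  · intro u v huv
    have nb : ∀ u v, Adj u v → u ∈ Λ → v ∉ Λ → v ∈ VF (upT Λ) := by
      intro u v huv hu hv
      obtain ⟨w, i, k, l, _, _, _, rfl, rfl⟩ := adj_cr huv
      exact mem_VF.2 ⟨w, mem_upT_iff.2 ⟨_, hu, cr_mem_up w k⟩, cr_mem_up w l⟩
    simp only
    by_cases hu : u ∈ Λ <;> by_cases hv : v ∈ Λ
    · rw [if_pos hu, if_pos hv]; exact hl u v huv
    · rw [if_pos hu, if_neg hv, ← hK v hv (nb u v huv hu hv)]; exact hl u v huv
    · rw [if_neg hu, if_pos hv, ← hK u hu (nb v u (adj_symm huv) hv hu)]; exact hl u v huv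
    · rw [if_neg hu, if_neg hv]
      rcases hξ u hu with b | b <;> rcases hξ v hv with b' | b' <;> rw [b, b'] <;> decide
  · ext v
    unfold tmL
    rw [Finset.mem_filter]
    show v ∈ Λ ∧ s1 (if v ∈ Λ then h v else ξ v) = false ↔ v ∈ T
    by_cases hv : v ∈ Λ
    · rw [if_pos hv, and_iff_right hv]
      have := h2 v
      rcases hb : s1 (h v) with _ | _
      · rw [hb] at this; simp only [true_iff]; by_contra h'; exact absurd (this.2 h') (by decide)
      · rw [hb] at this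
        simp only [Bool.true_eq_false, false_iff]
        exact this.1 rfl
    · exact ⟨fun h => absurd h.1 hv, fun h => absurd (hT h) hv⟩
  · ext v
    unfold amL
    rw [Finset.mem_filter]
    show v ∈ Λ ∧ s2 (if v ∈ Λ then h v else ξ v) = false ↔ v ∈ A
    by_cases hv : v ∈ Λ
    · rw [if_pos hv, and_iff_right hv]
      have h4 := h3 v
      have h5 : v ∉ A0 Λ ξ := fun h => (Finset.mem_sdiff.1 (Finset.mem_filter.1 h).1).2 hv
      rw [Finset.mem_union, not_or, and_iff_left h5] at h4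
      rcases hb : s2 (h v) with _ | _
      · rw [hb] at h4; simp only [true_iff]; by_contra h'; exact absurd (h4.2 h') (by decide)
      · rw [hb] at h4
        simp only [Bool.true_eq_false, false_iff]
        exact h4.1 rfl
    · exact ⟨fun h => absurd h.1 hv, fun h => absurd (hA h) hv⟩

open Classical in
/-- sums over heights as sums over colours -/
theorem sum_conf0 (hΛ : IsConn ((Λ : Set P2)ᶜ)) (hξ : Bv Λ ξ) (G : Finset P2 → Finset P2 → ℝ) :
    ∑ h ∈ It844.conf Λ ξ, G (tmL Λ h) (amL Λ h) = ∑ T ∈ Λ.powerset, ∑ A ∈ Λ.powerset,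
      if ∀ t ∈ upT Λ, M3 (cr t) (ch T) ∨ M3 (cr t) (ch (A ∪ A0 Λ ξ)) then G T A else 0 := by
  rw [← Finset.sum_product', ← Finset.sum_filter]
  refine Finset.sum_bij (fun h _ => (tmL Λ h, amL Λ h)) ?_ ?_ ?_ ?_
  · intro h hh
    rw [Finset.mem_filter, Finset.mem_product, Finset.mem_powerset, Finset.mem_powerset]
    refine ⟨⟨Finset.filter_subset _ _, Finset.filter_subset _ _⟩, fun t ht => ?_⟩
    rw [← c1_iff0 hξ hh, ← c2_iff0 hξ hh ht]
    exact c1_or_c2 fun i j => lip_cr (It844.mem_conf.1 hh).1 t i j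
  · intro h hh g hg e
    have := Prod.ext_iff.1 e
    exact conf_inj0 hξ hh hg this.1 this.2
  · rintro ⟨T, A⟩ hTA
    rw [Finset.mem_filter, Finset.mem_product, Finset.mem_powerset, Finset.mem_powerset] at hTA
    obtain ⟨⟨hT, hA⟩, hc⟩ := hTA
    obtain ⟨h, hh, h1, h2⟩ := exists_lift0 hΛ hξ hT hA hc
    exact ⟨h, hh, Prod.ext h1 h2⟩
  · intro h _
    rfl

end

/-! ### compatibility of the boundary values -/

/-- the boundary values of `s2` extend to a function which is constant on the open triangles -/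
def Cmp (Λ : Finset P2) (ξ : P2 → ℤ) (Z : Finset P2) : Prop :=
  ∃ A ⊆ Λ, ∀ t ∈ upT Λ \ Z, M3 (cr t) (ch (A ∪ A0 Λ ξ))

theorem Cmp.mono {Λ : Finset P2} {ξ : P2 → ℤ} {Z Z' : Finset P2} (h : Z ⊆ Z') (hc : Cmp Λ ξ Z) :
    Cmp Λ ξ Z' := by
  obtain ⟨A, hA, h1⟩ := hc
  exact ⟨A, hA, fun t ht => h1 t (Finset.sdiff_subset_sdiff (Finset.Subset.refl _) h ht)⟩

/-- `ξ = 0` -/
theorem cmp_zero (Λ : Finset P2) {ξ : P2 → ℤ} (hξ : ∀ v, v ∉ Λ → ξ v = 0) (Z : Finset P2) :
    Cmp Λ ξ Z := by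
  refine ⟨∅, Finset.empty_subset _, fun t _ => ?_⟩
  have : A0 Λ ξ = ∅ := by
    unfold A0
    rw [Finset.filter_eq_empty_iff]
    intro v hv
    rw [hξ v (Finset.mem_sdiff.1 hv).2]
    decide
  rw [this, Finset.empty_union]
  exact ⟨rfl, rfl⟩

/-- **compatibility only depends on the plus closed triangles** -/
theorem cmp_plus {Λ : Finset P2} {ξ : P2 → ℤ} (hΛ : IsConn ((Λ : Set P2)ᶜ)) (hξ : Bv Λ ξ)
    {T Z : Finset P2} (hT : T ⊆ Λ) (hs : ∀ t ∈ Z, Cs up T t) :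
    Cmp Λ ξ Z ↔ Cmp Λ ξ (Z.filter fun t => t ∉ T) := by
  refine ⟨?_, Cmp.mono (Finset.filter_subset _ _)⟩
  rintro ⟨A, hA, h1⟩
  obtain ⟨h, hh, h2, h3⟩ := exists_lift0 hΛ hξ hT hA (fun t ht => by
    by_cases hz : t ∈ Z
    · exact Or.inl (cs_iff.1 (hs t hz))
    · exact Or.inr (h1 t (Finset.mem_sdiff.2 ⟨ht, hz⟩)))
  have hl := (It844.mem_conf.1 hh).1
  refine ⟨Λ.filter fun v => 1 ≤ h v, Finset.filter_subset _ _, fun t ht => ?_⟩
  rw [Finset.mem_sdiff, Finset.mem_filter, not_and, not_not] at ht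
  obtain ⟨htK, ht⟩ := ht
  have key : ∀ i, cr t i ∈ (Λ.filter fun v => 1 ≤ h v) ∪ A0 Λ ξ ↔ 1 ≤ h (cr t i) := by
    intro i
    unfold A0
    rw [Finset.mem_union, Finset.mem_filter, Finset.mem_filter, Finset.mem_sdiff]
    by_cases hi : cr t i ∈ Λ
    · tauto
    · rw [(It844.mem_conf.1 hh).2 _ hi]
      have := cr_mem_VF' htK i
      rcases hξ _ hi with h4 | h4 <;> rw [h4] <;> simp [hi, this]
  rw [m3_ch, key, key, key]
  have l1 := abs_le.1 (lip_cr hl t 0 1)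
  have l2 := abs_le.1 (lip_cr hl t 0 2)
  by_cases hz : t ∈ Z
  · have h4 := cs_minus (hs t hz) (ht hz)
    rw [← h2] at h4
    have b0 := (mem_tmL hξ hh).1 (h4 _ (cr_mem_up t 0))
    have b1 := (mem_tmL hξ hh).1 (h4 _ (cr_mem_up t 1))
    have b2 := (mem_tmL hξ hh).1 (h4 _ (cr_mem_up t 2))
    rw [s1_false] at b0 b1 b2
    omega
  · have h4 := h1 t (Finset.mem_sdiff.2 ⟨htK, hz⟩)
    rw [← h3, ← c2_iff0 hξ hh htK] at h4
    obtain ⟨b1, b2⟩ := h4
    unfold s2 at b1 b2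
    rw [decide_eq_decide] at b1 b2
    omega

open Classical in
/-- indicator of compatibility -/
def cI (Λ : Finset P2) (ξ : P2 → ℤ) (Z : Finset P2) : ℝ := if Cmp Λ ξ Z then 1 else 0

theorem cI_nonneg (Λ : Finset P2) (ξ : P2 → ℤ) (Z : Finset P2) : 0 ≤ cI Λ ξ Z := by
  unfold cI; split_ifs <;> norm_num

theorem cI_mono {Λ : Finset P2} {ξ : P2 → ℤ} {Z Z' : Finset P2} (h : Z ⊆ Z') :
    cI Λ ξ Z ≤ cI Λ ξ Z' := by
  unfold cI
  by_cases h1 : Cmp Λ ξ Z
  · rw [if_pos h1, if_pos (h1.mono h)]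
  · rw [if_neg h1]; split_ifs <;> norm_num

theorem M3_add {α : Type*} {c : Fin 3 → α} {s s0 : α → ZMod 2} (h : M3 c s0) :
    M3 c (s + s0) ↔ M3 c s := by
  obtain ⟨h1, h2⟩ := h
  unfold M3
  simp only [Pi.add_apply]
  rw [← h1, ← h2, add_left_inj, add_left_inj]

/-- the count of `A` with prescribed boundary values -/
theorem count_xi {Λ : Finset P2} {ξ : P2 → ℤ} (Z : Finset P2) :
    ∑ A ∈ Λ.powerset, ∏ t ∈ upT Λ \ Z, (if M3 (cr t) (ch (A ∪ A0 Λ ξ)) then (1 : ℝ) else 0) =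
      cI Λ ξ Z * ∑ A ∈ Λ.powerset, ∏ t ∈ upT Λ \ Z, (if M3 (cr t) (ch A) then (1 : ℝ) else 0) := by
  classical
  by_cases h : Cmp Λ ξ Z
  · unfold cI
    rw [if_pos h, one_mul]
    obtain ⟨A1, hA1, h1⟩ := h
    have hdis : ∀ A ⊆ Λ, ch (A ∪ A0 Λ ξ) = ch A + ch (A0 Λ ξ) := by
      intro A hA
      funext v
      have hv : v ∈ A → v ∉ A0 Λ ξ := fun h h' =>
        (Finset.mem_sdiff.1 (Finset.mem_filter.1 h').1).2 (hA h)
      rw [Pi.add_apply]
      unfold ch
      by_cases a : v ∈ A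
      · rw [if_pos (Finset.mem_union_left _ a), if_pos a, if_neg (hv a), add_zero]
      · by_cases b : v ∈ A0 Λ ξ
        · rw [if_pos (Finset.mem_union_right _ b), if_neg a, if_pos b, zero_add]
        · rw [if_neg (fun h => (Finset.mem_union.1 h).elim a b), if_neg a, if_neg b, add_zero]
    have e1 : ∑ A ∈ Λ.powerset, ∏ t ∈ upT Λ \ Z,
        (if M3 (cr t) (ch (A ∪ A0 Λ ξ)) then (1 : ℝ) else 0) =
        ∑ s ∈ fs Λ, ∏ t ∈ upT Λ \ Z, (if M3 (cr t) (s + ch (A0 Λ ξ)) then (1 : ℝ) else 0) := by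
      rw [sum_fs]
      refine Finset.sum_congr rfl fun A hA => ?_
      rw [hdis A (Finset.mem_powerset.1 hA)]
    have e2 : ∑ A ∈ Λ.powerset, ∏ t ∈ upT Λ \ Z, (if M3 (cr t) (ch A) then (1 : ℝ) else 0) =
        ∑ s ∈ fs Λ, ∏ t ∈ upT Λ \ Z, (if M3 (cr t) s then (1 : ℝ) else 0) := by
      rw [sum_fs]
    have hA1' : ch A1 ∈ fs Λ := mem_fs.2 fun v hv => by
      unfold ch
      rw [if_neg fun h => hv (hA1 h)]
    rw [e1, e2]
    refine Finset.sum_bij' (fun s _ => s + ch A1) (fun s _ => s + ch A1)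
      (fun s hs => add_mem_fs Λ s hs _ hA1') (fun s hs => add_mem_fs Λ s hs _ hA1')
      (fun s _ => fun_add_self s _) (fun s _ => fun_add_self s _) ?_
    intro s _
    refine Finset.prod_congr rfl fun t ht => ?_
    have h2 := h1 t ht
    rw [hdis A1 hA1] at h2
    have h3 : M3 (cr t) (s + ch (A0 Λ ξ)) ↔ M3 (cr t) (s + ch A1) := by
      rw [← M3_add (s := s + ch A1) h2]
      have e : s + ch A1 + (ch A1 + ch (A0 Λ ξ)) = s + ch (A0 Λ ξ) := by
        rw [← add_assoc, fun_add_self]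
      rw [e]
    simp only [h3]
  · unfold cI
    rw [if_neg h, zero_mul]
    refine Finset.sum_eq_zero fun A hA => ?_
    by_contra hne
    apply h
    refine ⟨A, Finset.mem_powerset.1 hA, fun t ht => ?_⟩
    by_contra h1
    exact hne (Finset.prod_eq_zero ht (if_neg h1))

/-! ### the `(s1, Z)` marginal -/

/-- number of dual spin functions constant around the triangles of `Z` -/
def nL (Λ Z : Finset P2) : ℝ := ∑ σ ∈ fsg (VA Λ), ∏ t ∈ Z, (if M3 (dnp Λ t) σ then (1 : ℝ) else 0)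

theorem nL_pos (Λ Z : Finset P2) : 0 < nL Λ Z := by
  unfold nL
  refine Finset.sum_pos' (fun σ _ => Finset.prod_nonneg fun t _ => by split_ifs <;> norm_num)
    ⟨0, zero_mem_fsg _, Finset.prod_pos fun t _ => ?_⟩
  rw [if_pos ⟨rfl, rfl⟩]
  norm_num

/-- normalisation -/
def NmL (Λ : Finset P2) : ℝ := ck Λ / 4 ^ (upT Λ).card

theorem NmL_pos (Λ : Finset P2) : 0 < NmL Λ := div_pos (ck_pos Λ) (by positivity)

theorem tz_conf0 {Λ : Finset P2} {ξ : P2 → ℤ} (hξ : Bv Λ ξ) {f : Cfg → ℝ} (hf : TZ f) {ω : Cfg}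
    (h : ω ∈ cf Λ ξ) : f ω = f (mkZ (upT Λ) (tmL Λ ω.1) (zm (upT Λ) ω)) := by
  rw [mem_cf] at h
  have hh : ω.1 ∈ It844.conf Λ ξ := It844.mem_conf.2 h.1
  refine hf _ _ (fun v => ?_) (fun e => ?_)
  · apply bool_eq_of_iff
    rw [mkZ_s, mem_tmL hξ hh, sf_iff, not_not]
  · apply bool_eq_of_iff
    rw [mkZ_z]
    unfold zm
    rw [Finset.mem_filter]
    constructor
    · intro hz
      by_cases he : e ∈ upT Λ
      · exact Or.inr ⟨he, hz⟩
      · exact Or.inl he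
    · rintro (he | he)
      · exact h.2 e he
      · exact he.2

theorem ew_eq0 {Λ : Finset P2} {ξ : P2 → ℤ} (hξ : Bv Λ ξ) {h : P2 → ℤ} (hh : h ∈ It844.conf Λ ξ)
    (c : ℝ) {Z : Finset P2} {t : P2} (ht : t ∈ upT Λ) :
    ew c (h, zb (upT Λ) Z) t = ewS c (tmL Λ h) (amL Λ h ∪ A0 Λ ξ) Z t := by
  have e : (zb (upT Λ) Z t = true) ↔ t ∈ Z := by
    unfold zb
    rw [decide_eq_true_eq]
    constructor
    · rintro (h | h)
      · exact absurd ht h
      · exact h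
    · exact Or.inr
  unfold ew ewS
  simp only [c1_iff0 hξ hh, c2_iff0 hξ hh ht, e]

/-- **The `(s1, Z)` marginal.** -/
theorem S0_tz {Λ : Finset P2} {ξ : P2 → ℤ} (hΛ : IsConn ((Λ : Set P2)ᶜ)) (hξ : Bv Λ ξ) (c : ℝ)
    {f : Cfg → ℝ} (hf : TZ f) :
    S0 c Λ ξ f = NmL Λ * ∑ T ∈ Λ.powerset, ∑ Z ∈ (upT Λ).powerset,
      fw up c (upT Λ) T Z * nL Λ Z * (cI Λ ξ Z * f (mkZ (upT Λ) T Z)) := by
  classical
  set K := upT Λ with hK
  have h0 : S0 c Λ ξ f = ∑ h ∈ It844.conf Λ ξ, ∑ Z ∈ K.powerset,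
      (∏ t ∈ K, ewS c (tmL Λ h) (amL Λ h ∪ A0 Λ ξ) Z t) * f (mkZ K (tmL Λ h) Z) := by
    unfold S0 cf
    rw [Finset.sum_product]
    refine Finset.sum_congr rfl fun h hh => ?_
    rw [sum_zs]
    refine Finset.sum_congr rfl fun Z hZ => ?_
    rw [Finset.mem_powerset] at hZ
    have hm : (h, zb K Z) ∈ cf Λ ξ := by
      rw [mem_cf]
      refine ⟨It844.mem_conf.1 hh, fun t ht => ?_⟩
      show zb K Z t = true
      unfold zb
      rw [decide_eq_true_eq]
      exact Or.inl ht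
    rw [tz_conf0 hξ hf hm, ← hK, zm_zb hZ]
    congr 1
    exact Finset.prod_congr rfl fun t ht => ew_eq0 hξ hh c ht
  rw [h0, sum_conf0 hΛ hξ (fun T A => ∑ Z ∈ K.powerset,
    (∏ t ∈ K, ewS c T (A ∪ A0 Λ ξ) Z t) * f (mkZ K T Z)), Finset.mul_sum]
  refine Finset.sum_congr rfl fun T _ => ?_
  have h1 : ∀ A ∈ Λ.powerset, (if ∀ t ∈ upT Λ, M3 (cr t) (ch T) ∨ M3 (cr t) (ch (A ∪ A0 Λ ξ)) then
      ∑ Z ∈ K.powerset, (∏ t ∈ K, ewS c T (A ∪ A0 Λ ξ) Z t) * f (mkZ K T Z) else 0) =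
      ∑ Z ∈ K.powerset, (∏ t ∈ K, ewS c T (A ∪ A0 Λ ξ) Z t) * f (mkZ K T Z) := by
    intro A _
    split_ifs with h
    · rfl
    · push Not at h
      obtain ⟨t, ht, h1, h2⟩ := h
      symm
      refine Finset.sum_eq_zero fun Z _ => ?_
      rw [Finset.prod_eq_zero (i := t) ht, zero_mul]
      unfold ewS
      rw [if_neg h1, if_neg h2]
      split_ifs <;> rfl
  rw [Finset.sum_congr rfl h1, Finset.sum_comm, Finset.mul_sum]
  refine Finset.sum_congr rfl fun Z hZ => ?_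
  rw [Finset.mem_powerset] at hZ
  have e1 : ∀ A : Finset P2, ∏ t ∈ K, ewS c T A Z t =
      ((∏ t ∈ Z, if M3 (cr t) (ch T) then (1 : ℝ) else 0) *
        ∏ t ∈ K \ Z, if M3 (cr t) (ch T) then c - 1 else 1) *
      ∏ t ∈ K \ Z, (if M3 (cr t) (ch A) then (1 : ℝ) else 0) := by
    intro A
    rw [← Finset.prod_inter_mul_prod_sdiff K Z, Finset.inter_eq_right.2 hZ, mul_assoc,
      ← Finset.prod_mul_distrib]
    congr 1
    · refine Finset.prod_congr rfl fun t ht => ?_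
      unfold ewS
      rw [if_pos ht]
    · refine Finset.prod_congr rfl fun t ht => ?_
      unfold ewS
      rw [if_neg (Finset.mem_sdiff.1 ht).2]
      split_ifs <;> ring
  have e2 : fw up c K T Z = 4 ^ Z.card * ((∏ t ∈ Z, if M3 (cr t) (ch T) then (1 : ℝ) else 0) *
        ∏ t ∈ K \ Z, if M3 (cr t) (ch T) then c - 1 else 1) := by
    unfold fw
    rw [← Finset.prod_inter_mul_prod_sdiff K Z, Finset.inter_eq_right.2 hZ, ← mul_assoc,
      ← Finset.prod_const, ← Finset.prod_mul_distrib]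
    congr 1
    · refine Finset.prod_congr rfl fun t ht => ?_
      simp only [cs_iff]
      rw [if_pos ht, if_pos ht]
      split_ifs <;> ring
    · refine Finset.prod_congr rfl fun t ht => ?_
      simp only [cs_iff]
      rw [if_neg (Finset.mem_sdiff.1 ht).2, if_neg (Finset.mem_sdiff.1 ht).2]
  have e3 : (K \ Z).card + Z.card = K.card := Finset.card_sdiff_add_card_eq_card hZ
  rw [← Finset.sum_mul, Finset.sum_congr rfl fun A _ => e1 (A ∪ A0 Λ ξ), ← Finset.mul_sum,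
    count_xi, count0 hΛ hZ, e2]
  unfold NmL nL
  rw [← hK, ← e3, pow_add]
  have h4 : (4 : ℝ) ^ (K \ Z).card ≠ 0 := by positivity
  have h5 : (4 : ℝ) ^ Z.card ≠ 0 := by positivity
  field_simp

end Crest.Agent.R144.Zo349
end
end

-- ▼ part R144/Zo4_349
section

/-!
# R144: environments for the law with fixed boundary heights (helper349)

`B ⊆ upT Λ` simply connected set of up triangles with `IV B ⊆ Λ`.
* hyperedges `Hy` = up triangles `t` and wirings `w a`; `EBL c Λ B η f`;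
* `decompL` : environment decomposition;
* `maxL`, `minL` : extremal environments, `psi_wired`, `EBL_max`, `EBL_min` : they are the F-type law of `B` and
  its shift by `2`.
-/

set_option autoImplicit false
set_option linter.unusedSectionVars false
set_option linter.unusedSimpArgs false

noncomputable section

namespace Crest.Agent.R144.Zo349

open Finset
open Crest.Agent.R144.It844 (P2 Lip Cst adj_iff adj_symm lip_iff upT mem_upT tw adj_up exists_exit)
open Crest.Agent.R144.Zg349 Crest.Agent.R144.Zk349 Crest.Agent.R144.Zd349 Crest.Agent.R144.Zm349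
open Crest.Agent.R144.HyA349 Crest.Agent.R144.HyB349 Crest.Agent.R144.HyC349
open Crest.Agent.R144.Ze349 Crest.Agent.R144.Zs349 Crest.Agent.R144.Zf349
open Crest.ProbabilityR.HexHeights (Adj)
open Crest.Agent.R161.KWabs729 (z2_cases)

/-- hyperedges -/
inductive Hy : Type
  | t (t : P2)
  | w (a : Du)
  deriving DecidableEq

/-- corners of a hyperedge -/
def uph (B : Finset P2) : Hy → Finset P2
  | Hy.t t => up t
  | Hy.w _ => VF B \ IV B

/-- target of a wired dual -/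
def tgt (B : Finset P2) : Du → Du
  | Du.p t i => if dn t i ∈ ID B then Du.f (dn t i) else Du.r
  | _ => Du.r

theorem tgt_p (B : Finset P2) (t : P2) (i : Fin 3) :
    tgt B (Du.p t i) = if dn t i ∈ ID B then Du.f (dn t i) else Du.r := rfl

/-- dual vertices of a hyperedge -/
def dnh (Λ B : Finset P2) : Hy → Fin 3 → Du
  | Hy.t t => dnp Λ t
  | Hy.w a => ![a, tgt B a, tgt B a]

/-- triangles as hyperedges -/
def emb (Z : Finset P2) : Finset Hy := Z.image Hy.t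

theorem mem_emb {Z : Finset P2} {e : Hy} : e ∈ emb Z ↔ ∃ t ∈ Z, Hy.t t = e := by
  unfold emb; rw [Finset.mem_image]

theorem t_mem_emb {Z : Finset P2} {t : P2} : Hy.t t ∈ emb Z ↔ t ∈ Z := by
  rw [mem_emb]
  constructor
  · rintro ⟨s, hs, h⟩
    injection h with h
    rwa [← h]
  · exact fun h => ⟨t, h, rfl⟩

theorem w_notMem_emb {Z : Finset P2} {a : Du} : Hy.w a ∉ emb Z := by
  rw [mem_emb]
  rintro ⟨t, _, h⟩
  exact Hy.noConfusion h

theorem t_inj : Function.Injective Hy.t := fun _ _ h => by injection h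

/-- triangles of a set of hyperedges -/
def pull (P : Finset Hy) : Finset P2 := P.biUnion fun e => match e with
  | Hy.t s => {s}
  | Hy.w _ => ∅

theorem mem_pull {P : Finset Hy} {t : P2} : t ∈ pull P ↔ Hy.t t ∈ P := by
  unfold pull
  rw [Finset.mem_biUnion]
  constructor
  · rintro ⟨e, he, h⟩
    cases e with
    | t s =>
      simp only [Finset.mem_singleton] at h
      rwa [h]
    | w a => simp at h
  · intro h
    exact ⟨Hy.t t, h, by simp⟩

theorem pull_mono {P P' : Finset Hy} (h : P ⊆ P') : pull P ⊆ pull P' := fun t ht =>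
  mem_pull.2 (h (mem_pull.1 ht))

theorem emb_union (Z Z' : Finset P2) : emb (Z ∪ Z') = emb Z ∪ emb Z' := Finset.image_union _ _


theorem psi_emb (Λ B : Finset P2) (c : ℝ) (Z : Finset P2) :
    psi (dnh Λ B) (VA Λ) c (emb Z) ∅ = nL Λ Z := by
  rw [psi_fsg]
  unfold nL emb
  refine Finset.sum_congr rfl fun σ _ => ?_
  rw [Finset.prod_image fun x _ y _ h => t_inj h]
  rfl

theorem psi_emb0 (Λ B : Finset P2) (c : ℝ) : psi (dnh Λ B) (VA Λ) c ∅ ∅ = nL Λ ∅ := by
  have h := psi_emb Λ B c ∅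
  have e : emb ∅ = ∅ := Finset.image_empty _
  rwa [e] at h

theorem sum_emb (B : Finset P2) (G : Finset Hy → ℝ) :
    ∑ Z ∈ (emb B).powerset, G Z = ∑ Z ∈ B.powerset, G (emb Z) := by
  classical
  have h : (emb B).powerset = B.powerset.image emb := by
    ext Z
    rw [Finset.mem_powerset, Finset.mem_image]
    constructor
    · intro hZ
      refine ⟨pull Z, Finset.mem_powerset.2 fun t ht => t_mem_emb.1 (hZ (mem_pull.1 ht)), ?_⟩
      ext e
      rw [mem_emb]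
      constructor
      · rintro ⟨t, ht, rfl⟩
        exact mem_pull.1 ht
      · intro he
        obtain ⟨t, _, rfl⟩ := mem_emb.1 (hZ he)
        exact ⟨t, mem_pull.2 he, rfl⟩
    · rintro ⟨Z', hZ', rfl⟩
      exact Finset.image_subset_image (Finset.mem_powerset.1 hZ')
  rw [h, Finset.sum_image]
  intro x _ y _ hxy
  ext t
  rw [← t_mem_emb, ← t_mem_emb (Z := y), hxy]

theorem fw_emb (c : ℝ) (B E X Z : Finset P2) :
    fw (uph B) c (emb E) X (emb Z) = fw up c E X Z := by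
  unfold fw
  unfold emb
  rw [Finset.prod_image fun x _ y _ h => t_inj h]
  refine Finset.prod_congr rfl fun t _ => ?_
  have h1 : Cs (uph B) X (Hy.t t) ↔ Cs up X t := Iff.rfl
  have h2 : Hy.t t ∈ Z.image Hy.t ↔ t ∈ Z := t_mem_emb
  simp only [h1, h2]

theorem pull_E2 (B E X Z : Finset P2) :
    pull (emb Z ∩ E2 (uph B) (emb E) X) = Z ∩ E2 up E X := by
  ext t
  rw [mem_pull, Finset.mem_inter, Finset.mem_inter, t_mem_emb]
  unfold E2
  rw [Finset.mem_filter, Finset.mem_filter, t_mem_emb]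
  rfl

theorem pull_E1 (B E X Z : Finset P2) :
    pull (emb Z ∩ E1 (uph B) (emb E) X) = Z ∩ E1 up E X := by
  ext t
  rw [mem_pull, Finset.mem_inter, Finset.mem_inter, t_mem_emb]
  unfold E1
  rw [Finset.mem_filter, Finset.mem_filter, t_mem_emb]
  rfl

/-- environment expectation -/
def EBL (c : ℝ) (Λ B : Finset P2) (η : BC P2 Hy) (f : Finset P2 → Finset P2 → Finset P2 → ℝ) : ℝ :=
  En (uph B) (dnh Λ B) (VA Λ) (IV B) (emb B) c η fun T P M => f T (pull P) (pull M)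

abbrev SepL (Λ B : Finset P2) (η : BC P2 Hy) : Prop :=
  Sep (uph B) (dnh Λ B) (VA Λ) (IV B) (emb B) η

theorem EBL_eq (c : ℝ) (Λ B : Finset P2) {η : BC P2 Hy} (hs : SepL Λ B η)
    (f : Finset P2 → Finset P2 → Finset P2 → ℝ) :
    EBL c Λ B η f = nL Λ ∅ * ∑ T ∈ (IV B).powerset, ∑ Z ∈ B.powerset,
      fw up c B (T ∪ η.T0) Z * psi (dnh Λ B) (VA Λ) c (η.Dp ∪ η.Dm ∪ emb Z) ∅ *
        f T (Z ∩ E2 up B (T ∪ η.T0)) (Z ∩ E1 up B (T ∪ η.T0)) := by
  unfold EBL
  rw [En_Z c hs, psi_emb0]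
  congr 1
  refine Finset.sum_congr rfl fun T _ => ?_
  rw [sum_emb]
  refine Finset.sum_congr rfl fun Z _ => ?_
  rw [fw_emb, pull_E2, pull_E1]

/-- increasing functions stay increasing -/
theorem inc_pull {f : Finset P2 → Finset P2 → Finset P2 → ℝ} (hf : Inc f) :
    Inc fun (T : Finset P2) (P M : Finset Hy) => f T (pull P) (pull M) :=
  fun _ _ _ _ _ _ h1 h2 h3 => hf _ _ _ _ _ _ h1 (pull_mono h2) (pull_mono h3)

theorem EBL_fkg {c : ℝ} (hc : 1 ≤ c) {Λ B : Finset P2} {η : BC P2 Hy}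
    (hη : η.Ok (IV B) (emb B)) {f g : Finset P2 → Finset P2 → Finset P2 → ℝ}
    (hf : Inc f) (hg : Inc g) :
    EBL c Λ B η f * EBL c Λ B η g ≤
      EBL c Λ B η (fun _ _ _ => 1) * EBL c Λ B η (fun T P M => f T P M * g T P M) :=
  En_fkg (up := uph B) (dn := dnh Λ B) (VA := VA Λ) hc hη (inc_pull hf) (inc_pull hg)

theorem EBL_mono {c : ℝ} (hc : 1 ≤ c) {Λ B : Finset P2} {η η' : BC P2 Hy}
    (hη : η.Ok (IV B) (emb B)) (hη' : η'.Ok (IV B) (emb B)) (hle : η.Le η')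
    {f : Finset P2 → Finset P2 → Finset P2 → ℝ} (hf : Inc f) :
    EBL c Λ B η f * EBL c Λ B η' (fun _ _ _ => 1) ≤
      EBL c Λ B η (fun _ _ _ => 1) * EBL c Λ B η' f :=
  En_mono (up := uph B) (dn := dnh Λ B) (VA := VA Λ) hc hη hη' hle (inc_pull hf)

theorem EBL_one_pos {c : ℝ} (hc : 1 ≤ c) {Λ B : Finset P2} {η : BC P2 Hy}
    (hη : η.Ok (IV B) (emb B)) : 0 < EBL c Λ B η (fun _ _ _ => 1) :=
  En_one_pos (up := uph B) (dn := dnh Λ B) (VA := VA Λ) hc hη

theorem EBL_nonneg {c : ℝ} (hc : 1 ≤ c) {Λ B : Finset P2} {η : BC P2 Hy}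
    {f : Finset P2 → Finset P2 → Finset P2 → ℝ} (hf : ∀ T P M, 0 ≤ f T P M) :
    0 ≤ EBL c Λ B η f := by
  unfold EBL En
  refine Finset.sum_nonneg fun T _ => Finset.sum_nonneg fun M _ => Finset.sum_nonneg
    fun P _ => ?_
  exact mul_nonneg (mul_nonneg (aw_nonneg _ _ hc _ _ _) (aw_nonneg _ _ hc _ _ _)) (hf _ _ _)

/-! ### sharing sites -/

theorem share_dn {t t' : P2} {i j : Fin 3} (h : dn t i = dn t' j) :
    ∃ k l, k ≠ i ∧ l ≠ j ∧ cr t k = cr t' l := by
  obtain ⟨a, b⟩ := t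
  obtain ⟨x, y⟩ := t'
  fin_cases i <;> fin_cases j <;>
    simp only [Fin.zero_eta, Fin.mk_one, Fin.reduceFinMk, dn0, dn1, dn2, Prod.mk.injEq] at h <;>
    obtain ⟨h1, h2⟩ := h
  · exact ⟨1, 1, by decide, by decide, by simp [h1, h2]⟩
  · exact ⟨1, 0, by decide, by decide, by simp; omega⟩
  · exact ⟨2, 0, by decide, by decide, by simp; omega⟩
  · exact ⟨0, 1, by decide, by decide, by simp; omega⟩
  · exact ⟨0, 0, by decide, by decide, by simp; omega⟩
  · exact ⟨2, 1, by decide, by decide, by simp; omega⟩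
  · exact ⟨0, 2, by decide, by decide, by simp; omega⟩
  · exact ⟨1, 2, by decide, by decide, by simp; omega⟩
  · exact ⟨0, 0, by decide, by decide, by simp; omega⟩

theorem share_dnp {Λ : Finset P2} {t t' : P2} {i j : Fin 3} (h : dnp Λ t i = dnp Λ t' j) :
    ∃ v ∈ up t, v ∈ up t' := by
  unfold dnp at h
  split_ifs at h with h1 h2
  · injection h with h
    exact share h
  · injection h with h3 h4
    subst h3
    exact ⟨t, base_mem_up t, base_mem_up t⟩

/-! ### the environments seen by `B` -/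

/-- environment seen by `B` -/
def etaL (T1 Z1 : Finset P2) : BC P2 Hy :=
  ⟨T1, emb (Z1.filter fun t => t ∉ T1), emb (Z1.filter fun t => t ∈ T1)⟩

theorem etaL_union (T1 Z1 : Finset P2) : (etaL T1 Z1).Dp ∪ (etaL T1 Z1).Dm = emb Z1 := by
  unfold etaL
  simp only
  rw [← emb_union]
  congr 1
  ext e
  simp only [Finset.mem_union, Finset.mem_filter]
  tauto

theorem emb_disj {Z B : Finset P2} (h : ∀ t ∈ Z, t ∉ B) : Disjoint (emb Z) (emb B) := by
  rw [Finset.disjoint_left]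
  intro e h1 h2
  obtain ⟨t, ht, rfl⟩ := mem_emb.1 h1
  exact h t ht (t_mem_emb.1 h2)

theorem etaL_ok {B Λ K T1 Z1 : Finset P2} (hT1 : T1 ⊆ Λ \ IV B) (hZ1 : Z1 ⊆ K \ B) :
    (etaL T1 Z1).Ok (IV B) (emb B) := by
  refine ⟨?_, emb_disj fun t ht => (Finset.mem_sdiff.1 (hZ1 (Finset.mem_filter.1 ht).1)).2,
    emb_disj fun t ht => (Finset.mem_sdiff.1 (hZ1 (Finset.mem_filter.1 ht).1)).2⟩
  rw [Finset.disjoint_left]
  intro v hv
  exact (Finset.mem_sdiff.mp (hT1 hv)).2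

theorem etaL_sep {Λ B K T1 Z1 : Finset P2} (hZ1 : Z1 ⊆ K \ B) (h : ∀ t ∈ Z1, Cs up T1 t) :
    SepL Λ B (etaL T1 Z1) := by
  constructor
  · intro e he v hv
    obtain ⟨t, ht, rfl⟩ := mem_emb.1 he
    rw [Finset.mem_filter] at ht
    refine ⟨fun hv' => (Finset.mem_sdiff.mp (hZ1 ht.1)).2 (mem_of_corner hv hv'), ?_⟩
    exact cs_plus (h t ht.1) ht.2 v hv
  · intro e he v hv
    obtain ⟨t, ht, rfl⟩ := mem_emb.1 he
    rw [Finset.mem_filter] at ht
    exact cs_minus (h t ht.1) ht.2 v hv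
  · intro e he e' he' i j hij _
    have a : ∀ (s : Finset P2) e, e ∈ emb B ∪ emb s → ∃ t, Hy.t t = e := by
      intro s e h
      rcases Finset.mem_union.1 h with h | h <;> obtain ⟨t, _, h⟩ := mem_emb.1 h <;> exact ⟨t, h⟩
    obtain ⟨t, rfl⟩ := a _ e he
    obtain ⟨t', rfl⟩ := a _ e' he'
    exact share_dnp (Λ := Λ) hij
  · intro e he
    obtain ⟨t, _, rfl⟩ := mem_emb.1 he
    exact ⟨t, base_mem_up t⟩

/-- **Environment decomposition.** -/
theorem decompL (c : ℝ) {Λ B K : Finset P2} (hBK : B ⊆ K) (hIV : IV B ⊆ Λ)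
    (Φ : Finset P2 → Finset P2 → Finset P2 → Finset P2 → Finset P2 → ℝ) :
    nL Λ ∅ * ∑ T ∈ Λ.powerset, ∑ Z ∈ K.powerset, fw up c K T Z * nL Λ Z *
      Φ (T \ IV B) (Z \ B) (T ∩ IV B) (Z ∩ E2 up B T) (Z ∩ E1 up B T) =
    ∑ T1 ∈ (Λ \ IV B).powerset, ∑ Z1 ∈ (K \ B).powerset,
      fw up c (K \ B) T1 Z1 * EBL c Λ B (etaL T1 Z1) (Φ T1 Z1) := by
  rw [sum_powerset_split hIV, Finset.mul_sum]
  refine Finset.sum_congr rfl fun T1 hT1 => ?_
  rw [Finset.mem_powerset] at hT1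
  have h0 : ∀ T2 ∈ (IV B).powerset,
      ∑ Z ∈ K.powerset, fw up c K (T2 ∪ T1) Z * nL Λ Z *
        Φ ((T2 ∪ T1) \ IV B) (Z \ B) ((T2 ∪ T1) ∩ IV B) (Z ∩ E2 up B (T2 ∪ T1))
          (Z ∩ E1 up B (T2 ∪ T1)) =
      ∑ Z1 ∈ (K \ B).powerset, ∑ Z2 ∈ B.powerset,
        fw up c (K \ B) T1 Z1 * fw up c B (T2 ∪ T1) Z2 *
          nL Λ (Z2 ∪ Z1) * Φ T1 Z1 T2 (Z2 ∩ E2 up B (T2 ∪ T1))
            (Z2 ∩ E1 up B (T2 ∪ T1)) := by
    intro T2 hT2
    rw [Finset.mem_powerset] at hT2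
    rw [sum_powerset_split hBK]
    refine Finset.sum_congr rfl fun Z1 hZ1 => Finset.sum_congr rfl fun Z2 hZ2 => ?_
    rw [Finset.mem_powerset] at hZ1 hZ2
    rw [fw_split c hBK hT2 hZ2 hZ1]
    have a1 : (T2 ∪ T1) \ IV B = T1 := by
      ext x
      have := fun h : x ∈ T1 => (Finset.mem_sdiff.mp (hT1 h)).2
      have := fun h : x ∈ T2 => hT2 h
      simp only [Finset.mem_union, Finset.mem_sdiff]
      tauto
    have a2 : (T2 ∪ T1) ∩ IV B = T2 := by
      ext x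
      have := fun h : x ∈ T1 => (Finset.mem_sdiff.mp (hT1 h)).2
      have := fun h : x ∈ T2 => hT2 h
      simp only [Finset.mem_union, Finset.mem_inter]
      tauto
    have a3 : (Z2 ∪ Z1) \ B = Z1 := by
      ext x
      have := fun h : x ∈ Z1 => (Finset.mem_sdiff.mp (hZ1 h)).2
      have := fun h : x ∈ Z2 => hZ2 h
      simp only [Finset.mem_union, Finset.mem_sdiff]
      tauto
    have a4 : ∀ W ⊆ B, (Z2 ∪ Z1) ∩ W = Z2 ∩ W := by
      intro W hW
      ext x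
      have := fun h : x ∈ Z1 => (Finset.mem_sdiff.mp (hZ1 h)).2
      have := fun h : x ∈ W => hW h
      simp only [Finset.mem_union, Finset.mem_inter]
      tauto
    rw [a1, a2, a3, a4 _ (E2_sub _ _ _), a4 _ (E1_sub _ _ _)]
  rw [Finset.sum_congr rfl h0, Finset.sum_comm, Finset.mul_sum]
  refine Finset.sum_congr rfl fun Z1 hZ1 => ?_
  rw [Finset.mem_powerset] at hZ1
  by_cases hs : ∀ t ∈ Z1, Cs up T1 t
  · rw [EBL_eq c Λ B (etaL_sep hZ1 hs) (Φ T1 Z1), etaL_union]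
    have hT0 : (etaL T1 Z1).T0 = T1 := rfl
    rw [hT0]
    rw [Finset.mul_sum, Finset.mul_sum, Finset.mul_sum]
    refine Finset.sum_congr rfl fun T2 hT2 => ?_
    rw [Finset.mul_sum, Finset.mul_sum, Finset.mul_sum]
    refine Finset.sum_congr rfl fun Z2 hZ2 => ?_
    rw [← emb_union, psi_emb, Finset.union_comm Z2]
    ring
  · rw [fw_zero_of_not c _ _ hZ1 hs]
    simp only [zero_mul]
    rw [Finset.sum_eq_zero (fun _ _ => Finset.sum_const_zero), mul_zero]

/-! ### extremal environments -/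

open Classical in
/-- wirings of all dual vertices which are not interior to `B` -/
def wires (Λ B : Finset P2) : Finset Hy :=
  ((VA Λ).filter fun a => ∀ w ∈ ID B, a ≠ Du.f w).image Hy.w

theorem mem_wires {Λ B : Finset P2} {e : Hy} :
    e ∈ wires Λ B ↔ ∃ a ∈ VA Λ, (∀ w ∈ ID B, a ≠ Du.f w) ∧ Hy.w a = e := by
  unfold wires
  rw [Finset.mem_image]
  constructor
  · rintro ⟨a, ha, h⟩
    rw [Finset.mem_filter] at ha
    exact ⟨a, ha.1, ha.2, h⟩
  · rintro ⟨a, h1, h2, h3⟩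
    exact ⟨a, Finset.mem_filter.2 ⟨h1, h2⟩, h3⟩

/-- maximal environment -/
def maxL (Λ B : Finset P2) : BC P2 Hy := ⟨∅, emb (upT Λ \ B) ∪ wires Λ B, ∅⟩

/-- minimal environment -/
def minL (Λ B : Finset P2) : BC P2 Hy :=
  ⟨(Λ ∪ VF B) \ IV B, ∅, emb ((upT Λ \ B).filter fun t => up t ⊆ (Λ ∪ VF B) \ IV B) ∪ wires Λ B⟩

theorem wires_disj (Λ B E : Finset P2) : Disjoint (wires Λ B) (emb E) := by
  rw [Finset.disjoint_left]
  intro e h1 h2
  obtain ⟨a, _, _, rfl⟩ := mem_wires.1 h1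
  exact w_notMem_emb h2

theorem maxL_ok (Λ B : Finset P2) : (maxL Λ B).Ok (IV B) (emb B) := by
  refine ⟨Finset.disjoint_empty_left _, ?_, Finset.disjoint_empty_left _⟩
  exact Finset.disjoint_union_left.2 ⟨emb_disj fun t ht => (Finset.mem_sdiff.1 ht).2, wires_disj _ _ _⟩

theorem minL_ok (Λ B : Finset P2) : (minL Λ B).Ok (IV B) (emb B) := by
  refine ⟨Finset.sdiff_disjoint, Finset.disjoint_empty_left _, ?_⟩
  exact Finset.disjoint_union_left.2 ⟨emb_disj fun t ht =>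
    (Finset.mem_sdiff.1 (Finset.mem_filter.1 ht).1).2, wires_disj _ _ _⟩

/-- a triangle of `B` touching a wired dual has a boundary site -/
theorem wire_corner {Λ B : Finset P2} (hIV : IV B ⊆ Λ) {a : Du} (ha : a ∈ VA Λ)
    (haB : ∀ w ∈ ID B, a ≠ Du.f w) {t : P2} (ht : t ∈ B) {j : Fin 3}
    (h : a = dnp Λ t j ∨ tgt B a = dnp Λ t j) :
    ∃ v ∈ up t, v ∈ VF B \ IV B := by
  have fin : (∃ k, cr t k ∉ IV B) → ∃ v ∈ up t, v ∈ VF B \ IV B := by
    rintro ⟨k, hk⟩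
    exact ⟨cr t k, cr_mem_up t k, Finset.mem_sdiff.2 ⟨cr_mem_VF' ht k, hk⟩⟩
  apply fin
  by_cases h1 : Tc Λ t j
  · have e : dnp Λ t j = Du.f (dn t j) := if_pos h1
    rw [e] at h
    rcases h with h | h
    · -- `a = f w`, `w` not interior
      have hw : dn t j ∉ ID B := fun h' => haB _ h' h
      rw [mem_ID'] at hw
      push Not at hw
      obtain ⟨s, i, h2, h3⟩ := hw
      obtain ⟨k, l, _, _, h4⟩ := share_dn h2
      refine ⟨k, fun h5 => h3 (mem_of_corner (cr_mem_up s l) ?_)⟩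
      rwa [← h4]
    · -- target
      cases a with
      | f w => exact Du.noConfusion h
      | r => exact Du.noConfusion h
      | p s i =>
        rw [tgt_p] at h
        split_ifs at h with h2
        injection h with h
        obtain ⟨k, l, hk, hl, h4⟩ := share_dn h
        refine ⟨l, fun h5 => p_mem ha ⟨k, hk, hIV ?_⟩⟩
        rwa [h4]
  · -- private dual: the side `j` is off `Λ`
    obtain ⟨k, hk⟩ : ∃ k : Fin 3, k ≠ j := by
      have : ∀ j : Fin 3, ∃ k, k ≠ j := by decide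
      exact this j
    exact ⟨k, fun h5 => h1 ⟨k, hk, hIV h5⟩⟩

theorem dnh_w {Λ B : Finset P2} {a : Du} (i : Fin 3) :
    dnh Λ B (Hy.w a) i = a ∨ dnh Λ B (Hy.w a) i = tgt B a := by
  fin_cases i
  · exact Or.inl rfl
  · exact Or.inr rfl
  · exact Or.inr rfl

theorem maxL_sep {Λ B : Finset P2} (hIV : IV B ⊆ Λ) : SepL Λ B (maxL Λ B) := by
  constructor
  · intro e he v hv
    rcases Finset.mem_union.1 he with he | he
    · obtain ⟨t, ht, rfl⟩ := mem_emb.1 he
      exact ⟨fun hv' => (Finset.mem_sdiff.mp ht).2 (mem_of_corner hv hv'), by simp [maxL]⟩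
    · obtain ⟨a, _, _, rfl⟩ := mem_wires.1 he
      exact ⟨(Finset.mem_sdiff.1 hv).2, by simp [maxL]⟩
  · intro e he
    exact absurd he (by simp [maxL])
  · intro e he e' he' i j hij hmem
    have h1 : ∃ t' ∈ B, Hy.t t' = e' := by
      have : e' ∈ emb B := by simpa [maxL] using he'
      exact mem_emb.1 this
    obtain ⟨t', ht', rfl⟩ := h1
    have h2 : (∃ t, Hy.t t = e) ∨ e ∈ wires Λ B := by
      rcases Finset.mem_union.1 he with h | h
      · obtain ⟨t, _, h⟩ := mem_emb.1 h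
        exact Or.inl ⟨t, h⟩
      · rcases Finset.mem_union.1 h with h | h
        · obtain ⟨t, _, h⟩ := mem_emb.1 h
          exact Or.inl ⟨t, h⟩
        · exact Or.inr h
    rcases h2 with ⟨t, rfl⟩ | h2
    · exact share_dnp (Λ := Λ) hij
    · obtain ⟨a, ha, haB, rfl⟩ := mem_wires.1 h2
      have hj : dnh Λ B (Hy.t t') j = dnp Λ t' j := rfl
      rw [hij, hj] at hmem
      obtain ⟨v, hv, hv'⟩ := wire_corner hIV ha haB ht' (j := j)
        ((dnh_w (Λ := Λ) (B := B) (a := a) i).imp (fun h => by rw [← h, hij, hj])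
          (fun h => by rw [← h, hij, hj]))
      exact ⟨v, hv', hv⟩
  · intro e he
    obtain ⟨t, _, rfl⟩ := mem_emb.1 he
    exact ⟨t, base_mem_up t⟩

theorem minL_sep {Λ B : Finset P2} (hIV : IV B ⊆ Λ) : SepL Λ B (minL Λ B) := by
  constructor
  · intro e he
    exact absurd he (by simp [minL])
  · intro e he v hv
    rcases Finset.mem_union.1 he with he | he
    · obtain ⟨t, ht, rfl⟩ := mem_emb.1 he
      exact (Finset.mem_filter.1 ht).2 hv
    · obtain ⟨a, _, _, rfl⟩ := mem_wires.1 he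
      have h1 := Finset.mem_sdiff.1 hv
      exact Finset.mem_sdiff.2 ⟨Finset.mem_union_right _ h1.1, h1.2⟩
  · intro e' he' e he j i hij hmem
    have h1 : ∃ t' ∈ B, Hy.t t' = e' := by
      have : e' ∈ emb B := by simpa [minL] using he'
      exact mem_emb.1 this
    obtain ⟨t', ht', rfl⟩ := h1
    have h2 : (∃ t, Hy.t t = e) ∨ e ∈ wires Λ B := by
      rcases Finset.mem_union.1 he with h | h
      · obtain ⟨t, _, h⟩ := mem_emb.1 h
        exact Or.inl ⟨t, h⟩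
      · rcases Finset.mem_union.1 h with h | h
        · obtain ⟨t, _, h⟩ := mem_emb.1 h
          exact Or.inl ⟨t, h⟩
        · exact Or.inr h
    have hj : dnh Λ B (Hy.t t') j = dnp Λ t' j := rfl
    rcases h2 with ⟨t, rfl⟩ | h2
    · exact share_dnp (Λ := Λ) hij
    · obtain ⟨a, ha, haB, rfl⟩ := mem_wires.1 h2
      rw [hj] at hmem
      obtain ⟨v, hv, hv'⟩ := wire_corner hIV ha haB ht' (j := j)
        ((dnh_w (Λ := Λ) (B := B) (a := a) i).imp (fun h => by rw [← h, ← hij, hj])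
          (fun h => by rw [← h, ← hij, hj]))
      exact ⟨v, hv, hv'⟩
  · intro e he
    obtain ⟨t, _, rfl⟩ := mem_emb.1 he
    exact ⟨t, base_mem_up t⟩

/-- `psi` as the number of admissible spin functions -/
theorem psi_card {β ε : Type*} [DecidableEq β] [DecidableEq ε] (dn : ε → Fin 3 → β) (VA : Finset β)
    (c : ℝ) (D : Finset ε) [DecidablePred fun s : β → ZMod 2 => ∀ e ∈ D, M3 (dn e) s] :
    psi dn VA c D ∅ = (((fsg VA).filter fun s => ∀ e ∈ D, M3 (dn e) s).card : ℝ) := by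
  rw [psi_fsg, Finset.card_filter, Nat.cast_sum]
  refine Finset.sum_congr rfl fun s _ => ?_
  by_cases h : ∀ e ∈ D, M3 (dn e) s
  · rw [if_pos h]
    push_cast
    exact Finset.prod_eq_one fun e he => if_pos (h e he)
  · rw [if_neg h]
    push Not at h
    obtain ⟨e, he, h1⟩ := h
    push_cast
    exact Finset.prod_eq_zero he (if_neg h1)

theorem M3_const {α : Type*} {c : Fin 3 → α} {s : α → ZMod 2} (h : ∀ i, s (c i) = 0) : M3 c s :=
  ⟨by rw [h, h], by rw [h, h]⟩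

/-- **the wired dual count is the one of `B`** -/
theorem psi_wired (c : ℝ) {Λ B R Z : Finset P2} (hBK : B ⊆ upT Λ) (hR : R ⊆ upT Λ \ B) (hZ : Z ⊆ B) :
    psi (dnh Λ B) (VA Λ) c (emb R ∪ wires Λ B ∪ emb Z) ∅ = ncl B Z := by
  classical
  unfold ncl
  rw [psi_card, psi_card]
  congr 1
  -- interior duals are dual vertices
  have hf : ∀ w ∈ ID B, Du.f w ∈ VA Λ := fun w hw => f_mem (hBK (ID_sub B hw)) 0
  have hpt : ∀ t i, t ∉ B → dn t i ∉ ID B := fun t i ht h => ht ((mem_ID'.1 h) t i rfl)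
  -- consequences of the wirings
  have W1 : ∀ σ : Du → ZMod 2, (∀ a, a ∉ VA Λ → σ a = 0) → (∀ e ∈ wires Λ B, M3 (dnh Λ B e) σ) →
      (∀ w, w ∉ ID B → σ (Du.f w) = 0) ∧
      (∀ t i, Du.p t i ∈ VA Λ → σ (Du.p t i) = σ (Du.f (dn t i))) := by
    intro σ h0 hw
    have hr : σ Du.r = 0 := h0 _ r_notMem
    have key : ∀ a ∈ VA Λ, (∀ w ∈ ID B, a ≠ Du.f w) → σ a = σ (tgt B a) := fun a ha h =>
      (hw (Hy.w a) (mem_wires.2 ⟨a, ha, h, rfl⟩)).1
    have a1 : ∀ w, w ∉ ID B → σ (Du.f w) = 0 := by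
      intro w hwB
      by_cases ha : Du.f w ∈ VA Λ
      · rw [key _ ha fun w' hw' h => by injection h with h; exact hwB (h ▸ hw')]
        exact hr
      · exact h0 _ ha
    refine ⟨a1, fun t i ha => ?_⟩
    rw [key _ ha fun w' _ h => Du.noConfusion h]
    rw [tgt_p]
    by_cases h : dn t i ∈ ID B
    · rw [if_pos h]
    · rw [if_neg h, hr, a1 _ h]
  -- values around a triangle of `B`
  have W2 : ∀ σ : Du → ZMod 2, (∀ t i, Du.p t i ∈ VA Λ → σ (Du.p t i) = σ (Du.f (dn t i))) →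
      ∀ t ∈ B, (M3 (dnp Λ t) σ ↔ M3 (dn t) fun w => σ (Du.f w)) := by
    intro σ h t ht
    have key : ∀ i, σ (dnp Λ t i) = σ (Du.f (dn t i)) := by
      intro i
      by_cases h1 : Tc Λ t i
      · have e : dnp Λ t i = Du.f (dn t i) := if_pos h1
        rw [e]
      · have e : dnp Λ t i = Du.p t i := if_neg h1
        rw [e]
        exact h t i (e ▸ dnp_mem (hBK ht) i)
    unfold M3
    rw [key, key, key]
  let J : (P2 → ZMod 2) → Du → ZMod 2 := fun s a => match a with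
    | Du.f w => s w
    | Du.p t i => if Du.p t i ∈ VA Λ then s (dn t i) else 0
    | Du.r => 0
  refine Finset.card_nbij' (fun σ w => σ (Du.f w)) J ?_ ?_ ?_ ?_
  · intro σ hσ
    rw [Finset.mem_coe, Finset.mem_filter, mem_fsg] at hσ
    obtain ⟨h0, h1⟩ := hσ
    obtain ⟨b1, b2⟩ := W1 σ h0 fun e he => h1 e (Finset.mem_union_left _ (Finset.mem_union_right _ he))
    rw [Finset.mem_coe, Finset.mem_filter, mem_fsg]
    refine ⟨b1, fun t ht => (W2 σ b2 t (hZ ht)).1 ?_⟩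
    exact h1 (Hy.t t) (Finset.mem_union_right _ (t_mem_emb.2 ht))
  · intro s hs
    rw [Finset.mem_coe, Finset.mem_filter, mem_fsg] at hs
    obtain ⟨h0, h1⟩ := hs
    rw [Finset.mem_coe, Finset.mem_filter, mem_fsg]
    have c0 : ∀ a, a ∉ VA Λ → J s a = 0 := by
      intro a ha
      cases a with
      | f w => exact h0 w fun h => ha (hf w h)
      | p t i => exact if_neg ha
      | r => rfl
    have c1 : ∀ t i, Du.p t i ∈ VA Λ → J s (Du.p t i) = J s (Du.f (dn t i)) := fun t i h => if_pos h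
    refine ⟨c0, fun e he => ?_⟩
    rcases Finset.mem_union.1 he with he | he
    · rcases Finset.mem_union.1 he with he | he
      · obtain ⟨t, ht, rfl⟩ := mem_emb.1 he
        have ht' := Finset.mem_sdiff.1 (hR ht)
        refine M3_const fun i => ?_
        show J s (dnp Λ t i) = 0
        unfold dnp
        by_cases h2 : Tc Λ t i
        · rw [if_pos h2]
          exact h0 _ (hpt t i ht'.2)
        · rw [if_neg h2]
          show (if Du.p t i ∈ VA Λ then s (dn t i) else 0) = 0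
          rw [h0 _ (hpt t i ht'.2), ite_self]
      · obtain ⟨a, ha, haB, rfl⟩ := mem_wires.1 he
        have key : J s a = J s (tgt B a) := by
          cases a with
          | f w =>
            show s w = 0
            exact h0 w fun h => haB w h rfl
          | p t i =>
            rw [c1 t i ha]
            rw [tgt_p]
            by_cases h : dn t i ∈ ID B
            · rw [if_pos h]
            · rw [if_neg h]
              exact h0 _ h
          | r => rfl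
        exact ⟨key, key⟩
    · obtain ⟨t, ht, rfl⟩ := mem_emb.1 he
      exact (W2 (J s) c1 t (hZ ht)).2 (h1 t ht)
  · intro σ hσ
    rw [Finset.mem_coe, Finset.mem_filter, mem_fsg] at hσ
    obtain ⟨h0, h1⟩ := hσ
    obtain ⟨b1, b2⟩ := W1 σ h0 fun e he => h1 e (Finset.mem_union_left _ (Finset.mem_union_right _ he))
    funext a
    cases a with
    | f w => rfl
    | p t i =>
      show (if Du.p t i ∈ VA Λ then σ (Du.f (dn t i)) else 0) = σ (Du.p t i)
      by_cases h : Du.p t i ∈ VA Λ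
      · rw [if_pos h, b2 t i h]
      · rw [if_neg h, h0 _ h]
    | r => exact (h0 _ r_notMem).symm
  · intro s _
    rfl

/-- the maximal environment is the F-type law of `B` -/
theorem EBL_max (c : ℝ) {Λ B : Finset P2} (hBK : B ⊆ upT Λ) (hIV : IV B ⊆ Λ)
    (φ : Finset P2 → Finset P2 → Finset P2 → ℝ) :
    EBL c Λ B (maxL Λ B) φ * ncl B ∅ = nL Λ ∅ * EB c (ID B) B (eta ∅ ∅) φ := by
  rw [EBL_eq c Λ B (maxL_sep hIV), EB_eq c (ID B) B (eta0_sep _ B)]
  simp only [psi_ncl]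
  have h1 : ∀ T ∈ (IV B).powerset, ∀ Z ∈ B.powerset,
      fw up c B (T ∪ (maxL Λ B).T0) Z *
        psi (dnh Λ B) (VA Λ) c ((maxL Λ B).Dp ∪ (maxL Λ B).Dm ∪ emb Z) ∅ *
        φ T (Z ∩ E2 up B (T ∪ (maxL Λ B).T0)) (Z ∩ E1 up B (T ∪ (maxL Λ B).T0)) =
      fw up c B (T ∪ (eta ∅ ∅).T0) Z * ncl B ((eta ∅ ∅).Dp ∪ (eta ∅ ∅).Dm ∪ Z) *
        φ T (Z ∩ E2 up B (T ∪ (eta ∅ ∅).T0)) (Z ∩ E1 up B (T ∪ (eta ∅ ∅).T0)) := by
    intro T _ Z hZ
    rw [Finset.mem_powerset] at hZ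
    have e1 : (maxL Λ B).Dp ∪ (maxL Λ B).Dm ∪ emb Z = emb (upT Λ \ B) ∪ wires Λ B ∪ emb Z := by
      unfold maxL
      simp only [Finset.union_empty]
    have e2 : (eta ∅ ∅).Dp ∪ (eta ∅ ∅).Dm ∪ Z = Z := by simp [eta]
    rw [e1, e2, psi_wired c hBK (Finset.Subset.refl _) hZ]
    rfl
  rw [Finset.sum_congr rfl (fun T hT => Finset.sum_congr rfl (h1 T hT))]
  ring

/-- the minimal environment is the shifted F-type law of `B` -/
theorem EBL_min (c : ℝ) {Λ B : Finset P2} (hB : SC B) (hBK : B ⊆ upT Λ) (hIV : IV B ⊆ Λ)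
    {f : Cfg → ℝ} (hf : IncP f) (hin : InTZ B f) :
    EBL c Λ B (minL Λ B) (fun T P M => f (mk B T P M)) * Nm B =
      nL Λ ∅ * S c B (fun ω => f (addH 2 ω)) := by
  rw [S_tz hB c (hf.tz.addH2), EBL_eq c Λ B (minL_sep hIV)]
  rw [sum_powerset_compl (IV B)]
  have e0 : (minL Λ B).T0 = (Λ ∪ VF B) \ IV B := rfl
  have h1 : ∀ T ∈ (IV B).powerset, ∀ Z ∈ B.powerset,
      fw up c B ((IV B \ T) ∪ (minL Λ B).T0) Z *
        psi (dnh Λ B) (VA Λ) c ((minL Λ B).Dp ∪ (minL Λ B).Dm ∪ emb Z) ∅ *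
        f (mk B (IV B \ T) (Z ∩ E2 up B ((IV B \ T) ∪ (minL Λ B).T0))
          (Z ∩ E1 up B ((IV B \ T) ∪ (minL Λ B).T0))) =
      fw up c B T Z * ncl B Z * f (addH 2 (mkZ B T Z)) := by
    intro T hT Z hZ
    rw [Finset.mem_powerset] at hT hZ
    have e1 : (minL Λ B).Dp ∪ (minL Λ B).Dm ∪ emb Z =
        emb ((upT Λ \ B).filter fun t => up t ⊆ (Λ ∪ VF B) \ IV B) ∪ wires Λ B ∪ emb Z := by
      unfold minL
      simp only [Finset.empty_union]
    rw [e0, e1, psi_wired c hBK (Finset.filter_subset _ _) hZ]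
    have hmem : ∀ v ∈ VF B, (v ∈ (IV B \ T) ∪ ((Λ ∪ VF B) \ IV B) ↔ v ∉ T) := by
      intro v hv
      have := fun h : v ∈ T => hT h
      simp only [Finset.mem_union, Finset.mem_sdiff]
      tauto
    have hcs : ∀ t ∈ B, (Cs up ((IV B \ T) ∪ ((Λ ∪ VF B) \ IV B)) t ↔ Cs up T t) := by
      intro t ht
      unfold Cs
      have a1 : ∀ v ∈ up t, (v ∈ (IV B \ T) ∪ ((Λ ∪ VF B) \ IV B) ↔ v ∉ T) := fun v hv =>
        hmem v (mem_VF.2 ⟨t, ht, hv⟩)
      constructor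
      · rintro (h | h)
        · exact Or.inr fun v hv => (a1 v hv).1 (h v hv)
        · exact Or.inl fun v hv => not_not.1 (mt (a1 v hv).2 (h v hv))
      · rintro (h | h)
        · exact Or.inr fun v hv h' => (a1 v hv).1 h' (h v hv)
        · exact Or.inl fun v hv => (a1 v hv).2 (h v hv)
    have hfw : fw up c B ((IV B \ T) ∪ ((Λ ∪ VF B) \ IV B)) Z = fw up c B T Z := by
      unfold fw
      refine Finset.prod_congr rfl fun t ht => ?_
      simp only [hcs t ht]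
    rw [hfw]
    by_cases hs : ∀ t ∈ Z, Cs up T t
    · have h3 : f (mk B (IV B \ T) (Z ∩ E2 up B ((IV B \ T) ∪ ((Λ ∪ VF B) \ IV B)))
          (Z ∩ E1 up B ((IV B \ T) ∪ ((Λ ∪ VF B) \ IV B)))) = f (addH 2 (mkZ B T Z)) := by
        apply hin.eq_of_agree hf
        · intro v hv
          apply bool_eq_of_iff
          rw [mk_s, mkZ_add2_s, Finset.mem_sdiff]
          tauto
        · intro t ht htv
          apply bool_eq_of_iff
          have h4 : (addH 2 (mkZ B T Z)).2 t = (mkZ B T Z).2 t := rfl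
          rw [h4, mk_z, mkZ_z]
          have a1 : ∀ v ∈ up t, (v ∈ (IV B \ T) ∪ ((Λ ∪ VF B) \ IV B) ↔ v ∉ T) := fun v hv =>
            hmem v (mem_VF.2 ⟨t, ht, hv⟩)
          constructor
          · rintro (h | h | h)
            · exact Or.inl h
            · exact Or.inr (Finset.mem_inter.1 h.1).1
            · exact Or.inr (Finset.mem_inter.1 h.1).1
          · rintro (h | h)
            · exact Or.inl h
            · by_cases htT : t ∈ T
              · refine Or.inr (Or.inl ⟨Finset.mem_inter.2 ⟨h, ?_⟩, fun h' =>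
                  (Finset.mem_sdiff.1 h').2 htT⟩)
                refine Finset.mem_filter.2 ⟨ht, fun v hv h' => (a1 v hv).1 h' ?_⟩
                exact cs_minus (hs t h) htT v hv
              · refine Or.inr (Or.inr ⟨Finset.mem_inter.2 ⟨h, ?_⟩, Finset.mem_sdiff.2 ⟨htv, htT⟩⟩)
                refine Finset.mem_filter.2 ⟨ht, fun v hv => (a1 v hv).2 ?_⟩
                exact cs_plus (hs t h) htT v hv
      rw [h3]
    · rw [fw_zero_of_not c _ _ hZ hs]
      ring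
  rw [Finset.sum_congr rfl (fun T hT => Finset.sum_congr rfl (h1 T hT))]
  unfold Nm
  ring

end Crest.Agent.R144.Zo349
end
end

-- ▼ part R144/Zo5_349

/-!
# R144: comparison of the law with fixed boundary heights with the F-type laws (helper349)

`Λ` finite with connected complement, `B` simply connected set of up triangles, `B ⊆ upT Λ`, `IV B ⊆ Λ`, `f`
increasing and in `B`, `g ≥ 0` off `B`:
* `upper0` : boundary height `0` : `E0 [g f] ≤ E0 [g] E_B [f]`;
* `lower0` : any boundary heights `ξ ∈ {0, 1}` : `E0 [g] E_B [f ∘ addH 2] ≤ E0 [g f]`.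
-/

set_option autoImplicit false
set_option linter.unusedSectionVars false
set_option linter.unusedSimpArgs false

noncomputable section

namespace Crest.Agent.R144.Zo349

open Finset
open Crest.Agent.R144.It844 (P2 Lip Cst adj_iff adj_symm lip_iff upT mem_upT tw adj_up exists_exit)
open Crest.Agent.R144.Zg349 Crest.Agent.R144.Zk349 Crest.Agent.R144.Zd349 Crest.Agent.R144.Zm349
open Crest.Agent.R144.HyA349 Crest.Agent.R144.HyB349 Crest.Agent.R144.HyC349
open Crest.Agent.R144.Ze349 Crest.Agent.R144.Zs349 Crest.Agent.R144.Zf349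
open Crest.ProbabilityR.HexHeights (Adj)

theorem EBL_smul (c : ℝ) (Λ B : Finset P2) (η : BC P2 Hy) (a : ℝ)
    (f : Finset P2 → Finset P2 → Finset P2 → ℝ) :
    EBL c Λ B η (fun T P M => a * f T P M) = a * EBL c Λ B η f := by
  unfold EBL En
  simp only [Finset.mul_sum]
  refine Finset.sum_congr rfl fun T _ => Finset.sum_congr rfl fun M _ => Finset.sum_congr rfl
    fun P _ => ?_
  ring

/-- compatibility factor seen by `B` -/
def cJ (Λ : Finset P2) (ξ : P2 → ℤ) (T1 Z1 P : Finset P2) : ℝ :=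
  cI Λ ξ ((Z1.filter fun t => t ∉ T1) ∪ P)

theorem cJ_inc (Λ : Finset P2) (ξ : P2 → ℤ) (T1 Z1 : Finset P2) :
    Inc (fun (_ : Finset P2) (P _M : Finset P2) => cJ Λ ξ T1 Z1 P) :=
  fun _ _ _ _ _ _ _ hP _ => cI_mono (Finset.union_subset_union (Finset.Subset.refl _) hP)

theorem cJ_nonneg (Λ : Finset P2) (ξ : P2 → ℤ) (T1 Z1 P : Finset P2) : 0 ≤ cJ Λ ξ T1 Z1 P :=
  cI_nonneg _ _ _

/-- **Environment representation.** -/
theorem envL (c : ℝ) {Λ B : Finset P2} {ξ : P2 → ℤ} (hΛ : IsConn ((Λ : Set P2)ᶜ)) (hξ : Bv Λ ξ)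
    (hBK : B ⊆ upT Λ) (hIV : IV B ⊆ Λ) {f g : Cfg → ℝ} (hf : IncP f) (hin : InTZ B f)
    (hg : OffTZ B g) :
    nL Λ ∅ * S0 c Λ ξ (fun ω => g ω * f ω) =
      NmL Λ * ∑ T1 ∈ (Λ \ IV B).powerset, ∑ Z1 ∈ (upT Λ \ B).powerset,
        fw up c (upT Λ \ B) T1 Z1 * g (mkZ (upT Λ) T1 Z1) *
          EBL c Λ B (etaL T1 Z1) (fun T P M => cJ Λ ξ T1 Z1 P * f (mk B T P M)) := by
  set K := upT Λ with hK
  have hd := decompL c (Λ := Λ) (K := K) hBK hIV
    (fun T1 Z1 T P M => g (mkZ K T1 Z1) * (cJ Λ ξ T1 Z1 P * f (mk B T P M)))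
  simp only [EBL_smul] at hd
  simp only [mul_assoc] at hd ⊢
  rw [← hd, S0_tz hΛ hξ c (hg.tz.mul hf.tz), ← hK]
  have h1 : ∀ T ∈ Λ.powerset, ∀ Z ∈ K.powerset,
      fw up c K T Z * nL Λ Z * (cI Λ ξ Z * (g (mkZ K T Z) * f (mkZ K T Z))) =
      fw up c K T Z * (nL Λ Z * (g (mkZ K (T \ IV B) (Z \ B)) *
        (cJ Λ ξ (T \ IV B) (Z \ B) (Z ∩ E2 up B T) *
          f (mk B (T ∩ IV B) (Z ∩ E2 up B T) (Z ∩ E1 up B T))))) := by
    intro T hT Z hZ
    rw [Finset.mem_powerset] at hT hZ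
    by_cases hs : ∀ t ∈ Z, Cs up T t
    · have hgv : g (mkZ K T Z) = g (mkZ K (T \ IV B) (Z \ B)) := by
        refine hg _ _ (fun v hv => ?_) (fun e he => ?_)
        · apply bool_eq_of_iff
          rw [mkZ_s, mkZ_s, Finset.mem_sdiff]
          tauto
        · apply bool_eq_of_iff
          rw [mkZ_z, mkZ_z, Finset.mem_sdiff]
          tauto
      have hfv : f (mkZ K T Z) = f (mk B (T ∩ IV B) (Z ∩ E2 up B T) (Z ∩ E1 up B T)) := by
        apply hin.eq_of_agree hf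
        · intro v hv
          apply bool_eq_of_iff
          rw [mkZ_s, mk_s, Finset.mem_inter]
          tauto
        · intro t ht htv
          apply bool_eq_of_iff
          rw [mkZ_z, mk_z]
          have h1 := hBK ht
          constructor
          · rintro (h | h)
            · exact absurd h1 h
            · by_cases htT : t ∈ T
              · exact Or.inr (Or.inr ⟨Finset.mem_inter.2 ⟨h, Finset.mem_filter.2 ⟨ht,
                  cs_minus (hs t h) htT⟩⟩, Finset.mem_inter.2 ⟨htT, htv⟩⟩)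
              · exact Or.inr (Or.inl ⟨Finset.mem_inter.2 ⟨h, Finset.mem_filter.2 ⟨ht,
                  cs_plus (hs t h) htT⟩⟩, fun h' => htT (Finset.mem_inter.1 h').1⟩)
          · rintro (h | h | h)
            · exact absurd ht h
            · exact Or.inr (Finset.mem_inter.1 h.1).1
            · exact Or.inr (Finset.mem_inter.1 h.1).1
      have hset : (Z.filter fun t => t ∉ T) =
          ((Z \ B).filter fun t => t ∉ T \ IV B) ∪ (Z ∩ E2 up B T) := by
        ext t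
        rw [Finset.mem_filter, Finset.mem_union, Finset.mem_filter, Finset.mem_sdiff,
          Finset.mem_sdiff, Finset.mem_inter]
        unfold E2
        rw [Finset.mem_filter]
        constructor
        · rintro ⟨h1, h2⟩
          by_cases hB : t ∈ B
          · exact Or.inr ⟨h1, hB, cs_plus (hs t h1) h2⟩
          · exact Or.inl ⟨⟨h1, hB⟩, fun h => h2 h.1⟩
        · rintro (⟨⟨h1, h2⟩, h3⟩ | ⟨h1, _, h2⟩)
          · exact ⟨h1, fun h => h3 ⟨h, fun h' => h2 (IV_sub B h')⟩⟩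
          · exact ⟨h1, h2 t (base_mem_up t)⟩
      have hcI : cI Λ ξ Z = cJ Λ ξ (T \ IV B) (Z \ B) (Z ∩ E2 up B T) := by
        unfold cJ cI
        rw [← hset]
        have := cmp_plus hΛ hξ hT hs
        by_cases h : Cmp Λ ξ Z
        · rw [if_pos h, if_pos (this.1 h)]
        · rw [if_neg h, if_neg fun h' => h (this.2 h')]
      rw [hgv, hfv, hcI]
      ring
    · rw [fw_zero_of_not c _ _ hZ hs]
      ring
  rw [Finset.sum_congr rfl fun T hT => Finset.sum_congr rfl (h1 T hT)]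
  ring

theorem one_rep (c : ℝ) {Λ B : Finset P2} {ξ : P2 → ℤ} (hΛ : IsConn ((Λ : Set P2)ᶜ)) (hξ : Bv Λ ξ)
    (hBK : B ⊆ upT Λ) (hIV : IV B ⊆ Λ) {g : Cfg → ℝ} (hg : OffTZ B g) :
    nL Λ ∅ * S0 c Λ ξ g =
      NmL Λ * ∑ T1 ∈ (Λ \ IV B).powerset, ∑ Z1 ∈ (upT Λ \ B).powerset,
        fw up c (upT Λ \ B) T1 Z1 * g (mkZ (upT Λ) T1 Z1) *
          EBL c Λ B (etaL T1 Z1) (fun _ P _ => cJ Λ ξ T1 Z1 P) := by
  have h := envL c hΛ hξ hBK hIV incP_one (inTZ_one B) hg
  simp only [mul_one] at h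
  exact h

/-- comparison of sums over environments -/
theorem sum_envL_le {c : ℝ} (hc : 1 ≤ c) {Λ B K : Finset P2} {g : Cfg → ℝ} (hg : ∀ ω, 0 ≤ g ω)
    {a b : Finset P2 → Finset P2 → ℝ}
    (h : ∀ T1 ⊆ Λ \ IV B, ∀ Z1 ⊆ K \ B, (∀ t ∈ Z1, Cs up T1 t) → a T1 Z1 ≤ b T1 Z1) :
    NmL Λ * ∑ T1 ∈ (Λ \ IV B).powerset, ∑ Z1 ∈ (K \ B).powerset,
        fw up c (K \ B) T1 Z1 * g (mkZ K T1 Z1) * a T1 Z1 ≤
      NmL Λ * ∑ T1 ∈ (Λ \ IV B).powerset, ∑ Z1 ∈ (K \ B).powerset,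
        fw up c (K \ B) T1 Z1 * g (mkZ K T1 Z1) * b T1 Z1 := by
  refine mul_le_mul_of_nonneg_left (Finset.sum_le_sum fun T1 hT1 => Finset.sum_le_sum
    fun Z1 hZ1 => ?_) (NmL_pos Λ).le
  rw [Finset.mem_powerset] at hT1 hZ1
  by_cases hs : ∀ t ∈ Z1, Cs up T1 t
  · exact mul_le_mul_of_nonneg_left (h T1 hT1 Z1 hZ1 hs)
      (mul_nonneg (fw_nonneg up hc _ _ _) (hg _))
  · rw [fw_zero_of_not c _ _ hZ1 hs]
    simp

/-- **Upper comparison**, boundary height `0`. -/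
theorem upper0 {c : ℝ} (hc : 1 ≤ c) {Λ B : Finset P2} {ξ : P2 → ℤ} (hΛ : IsConn ((Λ : Set P2)ᶜ))
    (hξ : ∀ v, v ∉ Λ → ξ v = 0) (hB : SC B) (hBK : B ⊆ upT Λ) (hIV : IV B ⊆ Λ) (hLip : Lip ξ)
    {f g : Cfg → ℝ} (hf : IncP f) (hin : InTZ B f) (hg0 : ∀ ω, 0 ≤ g ω) (hg : OffTZ B g) :
    E0 c Λ ξ (fun ω => g ω * f ω) ≤ E0 c Λ ξ g * E c B f := by
  have hBv : Bv Λ ξ := fun v hv => Or.inl (hξ v hv)
  set fB : Finset P2 → Finset P2 → Finset P2 → ℝ := fun T P M => f (mk B T P M) with hfB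
  have hincB : Inc fB := mkG_inc B hf
  set o' := EB c (ID B) B (eta ∅ ∅) (fun _ _ _ => 1) with ho'
  set f' := EB c (ID B) B (eta ∅ ∅) fB with hf'
  have hcJ : ∀ T1 Z1 P, cJ Λ ξ T1 Z1 P = 1 := fun T1 Z1 P => by
    unfold cJ cI
    rw [if_pos (cmp_zero Λ hξ _)]
  have hloc : ∀ T1 ⊆ Λ \ IV B, ∀ Z1 ⊆ upT Λ \ B, (∀ t ∈ Z1, Cs Zg349.up T1 t) →
      EBL c Λ B (etaL T1 Z1) (fun T P M => cJ Λ ξ T1 Z1 P * fB T P M) * o' ≤
        EBL c Λ B (etaL T1 Z1) (fun _ P _ => cJ Λ ξ T1 Z1 P) * f' := by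
    intro T1 hT1 Z1 hZ1 hs
    simp only [hcJ, one_mul]
    have hle : (etaL T1 Z1).Le (maxL Λ B) := by
      refine ⟨Finset.empty_subset _, ?_, Finset.empty_subset _⟩
      intro e he
      obtain ⟨t, ht, rfl⟩ := mem_emb.1 he
      exact Finset.mem_union_left _ (t_mem_emb.2 (hZ1 (Finset.mem_filter.1 ht).1))
    have h1 := EBL_mono hc (Λ := Λ) (etaL_ok hT1 hZ1) (maxL_ok Λ B) hle hincB
    have h2 := EBL_max c hBK hIV fB
    have h3 := EBL_max c hBK hIV (fun _ _ _ => 1)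
    have p1 := ncl_pos B ∅
    have p2 := nL_pos Λ ∅
    have h4 := mul_le_mul_of_nonneg_right h1 p1.le
    have h5 : EBL c Λ B (etaL T1 Z1) fB * (nL Λ ∅ * o') ≤
        EBL c Λ B (etaL T1 Z1) (fun _ _ _ => 1) * (nL Λ ∅ * f') := by
      rw [ho', hf', ← h2, ← h3]
      linarith
    have h6 : nL Λ ∅ * (EBL c Λ B (etaL T1 Z1) fB * o') ≤ nL Λ ∅ *
        (EBL c Λ B (etaL T1 Z1) (fun _ _ _ => 1) * f') := by
      linarith
    exact le_of_mul_le_mul_left h6 p2
  have s1 := envL c hΛ hBv hBK hIV hf hin hg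
  have s2 := one_rep c hΛ hBv hBK hIV hg
  have p2 := nL_pos Λ ∅
  have hmain : S0 c Λ ξ (fun ω => g ω * f ω) * o' ≤ S0 c Λ ξ g * f' := by
    have h7 := sum_envL_le hc (Λ := Λ) (B := B) (K := upT Λ) hg0
      (a := fun T1 Z1 => EBL c Λ B (etaL T1 Z1) (fun T P M => cJ Λ ξ T1 Z1 P * fB T P M) * o')
      (b := fun T1 Z1 => EBL c Λ B (etaL T1 Z1) (fun _ P _ => cJ Λ ξ T1 Z1 P) * f') hloc
    refine le_of_mul_le_mul_left ?_ p2
    rw [← mul_assoc, ← mul_assoc, s1, s2, mul_assoc, mul_assoc, Finset.sum_mul, Finset.sum_mul]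
    simp only [Finset.sum_mul, mul_assoc] at h7 ⊢
    exact h7
  have hZ0 := Z0_pos hc (Λ := Λ) hLip
  have hKB := Kc_pos B B
  have o1 : 0 < o' := EB_one_pos hc (eta0_ok B)
  have hEB : E c B f = f' / o' := by
    rw [E_eq_S, rep_self c hB hf.tz, Z_eq c hB]
    exact mul_div_mul_left _ _ hKB.ne'
  unfold E0
  rw [hEB, div_mul_div_comm, div_le_div_iff₀ hZ0 (mul_pos hZ0 o1)]
  nlinarith [mul_le_mul_of_nonneg_left hmain hZ0.le]


end Crest.Agent.R144.Zo349
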