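import Crest.Agent.R144.Bx3_695
import Crest.Agent.R144.Zo5_349
import Crest.Agent.R144.Ccn2_311
import Crest.Agent.R144.Bnd2_991

-- ▼ part R144/Ef1_725
section

/-!
# R144, block BND, (F3), part 1 (helper725): spatial Markov property of the law with fixed boundary heights

`c = x⁻²`, `Λ ⊆ Λ'`.
* `E0_dlr` : `φ` not depending on the heights in `Λ` and on the closed indicators of `upT Λ` ⟹
  `E0 c Λ' ξ (φ ω * f ω.1) = E0 c Λ' ξ (φ ω * ex x Λ ω.1 f)`;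
* `le_E0` : `τ ≤ ω.1` off `Λ` on the support of `φ ≥ 0`, `f` increasing ⟹ `ex x Λ τ f * E0 φ ≤ E0 (φ f)`.
-/

set_option autoImplicit false
set_option linter.unusedVariables false
set_option linter.unusedSectionVars false

noncomputable section

namespace Crest.Agent.R144.Ef725

open Finset
open Crest.Agent.R144.It844 (P2 Lip Cst tw upT mem_upT ex)
open Crest.Agent.R144.Zg349 Crest.Agent.R144.Zk349 Crest.Agent.R144.Zd349
open Crest.Agent.R144.Zm349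
open Crest.Agent.R144.Ze349 (sum_powerset_split)
open Crest.Agent.R144.Zo349
open Crest.Agent.R144.Zs349 (lip_cr)
open Crest.Agent.R144.Bx695 (Off cw outA outA_congr ew_congr prod_cw)
open Crest.ProbabilityR.HexHeights (Adj)

theorem sum_powerset_ewL (c : ℝ) {F U : Finset P2} (hU : U ⊆ F) {h : P2 → ℤ} (hh : Lip h) :
    ∑ Z ∈ U.powerset, ∏ t ∈ U, ew c (h, zb F Z) t = ∏ t ∈ U, cw c h t := by
  have h1 : ∀ t ∈ U, cw c h t = (if C1 h t then (1 : ℝ) else 0) +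
      (if C2 h t then (if C1 h t then c - 1 else 1) else 0) := by
    intro t ht
    have hl := fun i j => lip_cr hh t i j
    have k1 := cst_iff (h := h) (t := t) hl
    have k2 := c1_or_c2 (h := h) (t := t) hl
    unfold cw
    by_cases a : C1 h t
    · by_cases b : C2 h t
      · rw [if_pos (k1.2 ⟨a, b⟩), if_pos a, if_pos b, if_pos a]; ring
      · rw [if_neg (fun e => b (k1.1 e).2), if_pos a, if_neg b]; ring
    · have b := k2.resolve_left a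
      rw [if_neg (fun e => a (k1.1 e).1), if_neg a, if_pos b, if_neg a]; ring
  rw [Finset.prod_congr rfl h1, Finset.prod_add]
  refine Finset.sum_congr rfl fun Z hZ => ?_
  rw [Finset.mem_powerset] at hZ
  rw [← Finset.prod_inter_mul_prod_sdiff U Z, Finset.inter_eq_right.2 hZ]
  congr 1
  · refine Finset.prod_congr rfl fun t ht => ?_
    have : zb F Z t = true := by unfold zb; rw [decide_eq_true_eq]; exact Or.inr ht
    unfold ew
    rw [if_pos this]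
  · refine Finset.prod_congr rfl fun t ht => ?_
    obtain ⟨h1, h2⟩ := Finset.mem_sdiff.1 ht
    have : ¬ zb F Z t = true := by
      unfold zb; rw [decide_eq_true_eq]; push Not; exact ⟨hU h1, h2⟩
    unfold ew
    rw [if_neg this]

theorem sum_zs_offL (c : ℝ) {F Λ : Finset P2} (hΛ : upT Λ ⊆ F) {φ : Cfg → ℝ} (hφ : Off Λ φ)
    {h : P2 → ℤ} (hh : Lip h) :
    ∑ z ∈ zs F, wt c F (h, z) * φ (h, z) =
      outA c F (upT Λ) φ h * ∏ t ∈ upT Λ, cw c h t := by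
  classical
  rw [sum_zs, sum_powerset_split hΛ (fun Z => wt c F (h, zb F Z) * φ (h, zb F Z))]
  unfold outA
  rw [Finset.sum_mul]
  refine Finset.sum_congr rfl fun Z1 hZ1 => ?_
  rw [Finset.mem_powerset] at hZ1
  rw [← sum_powerset_ewL c hΛ hh, Finset.mul_sum]
  refine Finset.sum_congr rfl fun Z2 hZ2 => ?_
  rw [Finset.mem_powerset] at hZ2
  have z1 : ∀ t, t ∉ upT Λ → zb F (Z2 ∪ Z1) t = zb F Z1 t := by
    intro t ht
    unfold zb
    rw [decide_eq_decide, Finset.mem_union]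
    have : t ∉ Z2 := fun h => ht (hZ2 h)
    tauto
  have z2 : ∀ t, t ∈ upT Λ → zb F (Z2 ∪ Z1) t = zb F Z2 t := by
    intro t ht
    unfold zb
    rw [decide_eq_decide, Finset.mem_union]
    have : t ∉ Z1 := fun h => (Finset.mem_sdiff.1 (hZ1 h)).2 ht
    tauto
  have e1 : φ (h, zb F (Z2 ∪ Z1)) = φ (h, zb F Z1) := hφ _ _ (fun _ _ => rfl) z1
  have e2 : wt c F (h, zb F (Z2 ∪ Z1)) =
      (∏ t ∈ F \ upT Λ, ew c (h, zb F Z1) t) * ∏ t ∈ upT Λ, ew c (h, zb F Z2) t := by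
    unfold wt
    rw [← Finset.prod_sdiff hΛ]
    congr 1
    · exact Finset.prod_congr rfl fun t ht => ew_congr (z1 t (Finset.mem_sdiff.1 ht).2) fun _ => rfl
    · exact Finset.prod_congr rfl fun t ht => ew_congr (z2 t ht) fun _ => rfl
  rw [e1, e2]
  ring

theorem S0_off {x : ℝ} (hx : x ≠ 0) {Λ' Λ : Finset P2} (hΛ : Λ ⊆ Λ') (ξ : P2 → ℤ) {φ : Cfg → ℝ}
    (hφ : Off Λ φ) (f : (P2 → ℤ) → ℝ) :
    S0 ((x ^ 2)⁻¹) Λ' ξ (fun ω => φ ω * f ω.1) = ((x ^ 2)⁻¹) ^ (upT Λ).card *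
      ∑ h ∈ It844.conf Λ' ξ, outA ((x ^ 2)⁻¹) (upT Λ') (upT Λ) φ h * It844.wt x Λ h * f h := by
  unfold S0 cf
  rw [Finset.sum_product, Finset.mul_sum]
  refine Finset.sum_congr rfl fun h hh => ?_
  have h1 := sum_zs_offL ((x ^ 2)⁻¹) (It844.upT_mono hΛ) hφ (It844.mem_conf.1 hh).1
  rw [prod_cw hx] at h1
  calc ∑ z ∈ zs (upT Λ'), wt ((x ^ 2)⁻¹) (upT Λ') (h, z) * (φ (h, z) * f h)
      = (∑ z ∈ zs (upT Λ'), wt ((x ^ 2)⁻¹) (upT Λ') (h, z) * φ (h, z)) * f h := by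
        rw [Finset.sum_mul]
        exact Finset.sum_congr rfl fun z _ => by ring
    _ = _ := by rw [h1]; ring

theorem conf_sub {Λ' Λ : Finset P2} (hΛ : Λ ⊆ Λ') {ξ h g : P2 → ℤ} (hh : h ∈ It844.conf Λ' ξ)
    (hg : g ∈ It844.conf Λ h) : g ∈ It844.conf Λ' ξ := by
  rw [It844.mem_conf] at *
  exact ⟨hg.1, fun v hv => by rw [hg.2 v fun h' => hv (hΛ h')]; exact hh.2 v hv⟩

/-- **Spatial Markov property, fixed boundary heights.** -/
theorem E0_dlr {x : ℝ} (hx : 0 < x) {Λ' Λ : Finset P2} (hΛ : Λ ⊆ Λ') (ξ : P2 → ℤ) {φ : Cfg → ℝ}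
    (hφ : Off Λ φ) (f : (P2 → ℤ) → ℝ) :
    E0 ((x ^ 2)⁻¹) Λ' ξ (fun ω => φ ω * f ω.1) = E0 ((x ^ 2)⁻¹) Λ' ξ (fun ω => φ ω * ex x Λ ω.1 f) := by
  classical
  unfold E0
  rw [S0_off hx.ne' hΛ ξ hφ, S0_off hx.ne' hΛ ξ hφ (fun h => ex x Λ h f)]
  congr 2
  set A := outA ((x ^ 2)⁻¹) (upT Λ') (upT Λ) φ with hA
  have e1 : ∀ h ∈ It844.conf Λ' ξ, A h * It844.wt x Λ h * ex x Λ h f =
      ∑ g ∈ It844.conf Λ' ξ, if g ∈ It844.conf Λ h then
        A h * It844.wt x Λ h * (It844.Z x Λ h)⁻¹ * (It844.wt x Λ g * f g) else 0 := by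
    intro h hh
    rw [← Finset.sum_filter]
    have e2 : (It844.conf Λ' ξ).filter (fun g => g ∈ It844.conf Λ h) = It844.conf Λ h := by
      ext g
      rw [Finset.mem_filter]
      exact ⟨fun hg => hg.2, fun hg => ⟨conf_sub hΛ hh hg, hg⟩⟩
    rw [e2]
    unfold ex
    rw [smul_eq_mul, ← mul_assoc, Finset.mul_sum]
    refine Finset.sum_congr rfl fun g _ => ?_
    rw [smul_eq_mul]
  symm
  rw [Finset.sum_congr rfl e1, Finset.sum_comm]
  refine Finset.sum_congr rfl fun g hg => ?_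
  have hgL : Lip g := (It844.mem_conf.1 hg).1
  have e3 : ∀ h ∈ It844.conf Λ' ξ, (if g ∈ It844.conf Λ h then
        A h * It844.wt x Λ h * (It844.Z x Λ h)⁻¹ * (It844.wt x Λ g * f g) else 0) =
      if h ∈ It844.conf Λ g then
        It844.wt x Λ h * (A g * (It844.Z x Λ g)⁻¹ * (It844.wt x Λ g * f g)) else 0 := by
    intro h hh
    have hhL : Lip h := (It844.mem_conf.1 hh).1
    by_cases h1 : g ∈ It844.conf Λ h
    · have h2 : h ∈ It844.conf Λ g := ((It844.mem_conf_symm hhL).1 h1).2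
      rw [if_pos h1, if_pos h2]
      have hoff : ∀ v, v ∉ Λ → h v = g v := (It844.mem_conf.1 h2).2
      have a1 : A h = A g := outA_congr hφ hoff
      rw [It844.Z_congr x hoff, a1]
      ring
    · have h2 : h ∉ It844.conf Λ g := fun h2 => h1 ((It844.mem_conf_symm hgL).1 h2).2
      rw [if_neg h1, if_neg h2]
  rw [Finset.sum_congr rfl e3, ← Finset.sum_filter]
  have e4 : (It844.conf Λ' ξ).filter (fun h => h ∈ It844.conf Λ g) = It844.conf Λ g := by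
    ext h
    rw [Finset.mem_filter]
    exact ⟨fun hg' => hg'.2, fun hg' => ⟨conf_sub hΛ hg hg', hg'⟩⟩
  rw [e4, ← Finset.sum_mul]
  have hZ := It844.Z_pos hx hgL (Λ := Λ)
  show It844.Z x Λ g * (A g * (It844.Z x Λ g)⁻¹ * (It844.wt x Λ g * f g)) = A g * It844.wt x Λ g * f g
  field_simp

/-- **lower comparison** -/
theorem le_E0 {x : ℝ} (hx0 : 0 < x) (hx1 : x ≤ 1) {Λ' Λ : Finset P2} (hΛ : Λ ⊆ Λ') {ξ τ : P2 → ℤ}
    {φ : Cfg → ℝ} {f : (P2 → ℤ) → ℝ} (hφ0 : ∀ ω ∈ cf Λ' ξ, 0 ≤ φ ω) (hφ : Off Λ φ) (hτ : Lip τ)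
    (hle : ∀ ω ∈ cf Λ' ξ, φ ω ≠ 0 → ∀ v, v ∉ Λ → τ v ≤ ω.1 v) (hf : Monotone f) :
    ex x Λ τ f * E0 ((x ^ 2)⁻¹) Λ' ξ φ ≤ E0 ((x ^ 2)⁻¹) Λ' ξ (fun ω => φ ω * f ω.1) := by
  have hc : (1 : ℝ) ≤ (x ^ 2)⁻¹ := by
    rw [one_le_inv₀ (by positivity)]
    exact pow_le_one₀ hx0.le hx1
  rw [E0_dlr hx0 hΛ ξ hφ, ← E0_smul]
  refine E0_mono hc fun ω hω _ => ?_
  by_cases h0 : φ ω = 0
  · rw [h0]; simp
  · rw [mul_comm]
    exact mul_le_mul_of_nonneg_left (It844.ex_mono_bc hx0 hx1 hτ (mem_cf.1 hω).1.1 (hle ω hω h0)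
      fun a _ b _ hab => hf hab) (hφ0 ω hω)

end Crest.Agent.R144.Ef725
end
end

-- ▼ part R144/Bnl_991

/-!
# R144, block BND (helper991): lower comparison for the law with fixed boundary heights, conditional form

* `lower02` : `E0 [g f1] * Em_B [f2] ≤ E0 [g f1 f2]`, boundary heights `ξ ∈ {0, 1}` arbitrary, `f1, f2 ≥ 0`
  increasing in `B`, `g ≥ 0` off `B` (349's `lower0` + 311's `lower2`);
* `lowB_E0` : 311's interface `LowB` for `E0 c Λ ξ`, allowed blocks `SC B`, `B ⊆ upT Λ`, `IV B ⊆ Λ`;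
* `Fac B f` : `f = g1 * f1`, `g1 ≥ 0` off `B`, `f1 ≥ 0` increasing in `B`; `fac_Cn`, `fac_Kn`, `fac_off`;
* `plusF`, `iterF`, `decayF` : plus-closed layers in presence of `f`, for every law with `LowB`.
-/

set_option autoImplicit false
set_option linter.unusedSectionVars false
set_option linter.unusedSimpArgs false

noncomputable section

namespace Crest.Agent.R144.Bnl991

open Finset
open Crest.Agent.R144.It844 (P2 Lip Cst adj_iff adj_symm lip_iff upT mem_upT tw adj_up exists_exit)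
open Crest.Agent.R144.Zg349 Crest.Agent.R144.Zk349 Crest.Agent.R144.Zd349 Crest.Agent.R144.Zm349
open Crest.Agent.R144.HyA349 Crest.Agent.R144.HyB349 Crest.Agent.R144.HyC349
open Crest.Agent.R144.Ze349 Crest.Agent.R144.Zs349 Crest.Agent.R144.Zf349 Crest.Agent.R144.Zo349
open Crest.Agent.R144.Ccn2311 (Em incP_mul inTZ_mul inTZ_mono offTZ_anti LowB inTZ_const)
open Crest.Agent.R144.Ccnt311 (alg_top)
open Crest.Agent.R144.Bnd991
open Crest.Agent.R144.Rsw867 (ball mem_ball ball_mono adj_ball sc_ball Sepr Blk BlkP ind ind_nonneg ind_le_one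
  offTZ_mul path_mono RSW incP_blkP inTZ_blkP blkP_addH2 offTZ_one ind_of_mem ind_of_not_mem ind_congr
  ind_compl ind_le_ind blkP_anti offTZ_mono offTZ_compl offTZ_blkP exists_scale scale_step)
open Crest.ProbabilityR.HexHeights (Adj)

/-- **Conditional association + lower comparison**, fixed boundary heights in `{0, 1}`. -/
theorem lower02 {c : ℝ} (hc : 1 ≤ c) {Λ B : Finset P2} {ξ : P2 → ℤ} (hΛ : IsConn ((Λ : Set P2)ᶜ))
    (hξ : Bv Λ ξ) (hB : SC B) (hBK : B ⊆ upT Λ) (hIV : IV B ⊆ Λ) (hLip : Lip ξ)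
    {f1 f2 g : Cfg → ℝ} (hf1 : IncP f1) (hin1 : InTZ B f1) (h10 : ∀ ω, 0 ≤ f1 ω)
    (hf2 : IncP f2) (hin2 : InTZ B f2) (h20 : ∀ ω, 0 ≤ f2 ω)
    (hg0 : ∀ ω, 0 ≤ g ω) (hg : OffTZ B g) :
    E0 c Λ ξ (fun ω => g ω * f1 ω) * Em c B f2 ≤ E0 c Λ ξ (fun ω => g ω * (f1 ω * f2 ω)) := by
  set fB : Finset P2 → Finset P2 → Finset P2 → ℝ := fun T P M => f2 (mk B T P M) with hfB
  have hincB : Inc fB := mkG_inc B hf2
  set mf := EBL c Λ B (minL Λ B) fB with hmf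
  set m1 := EBL c Λ B (minL Λ B) (fun _ _ _ => 1) with hm1
  have hm1pos : 0 < m1 := EBL_one_pos hc (minL_ok Λ B)
  have hloc : ∀ T1 ⊆ Λ \ IV B, ∀ Z1 ⊆ upT Λ \ B, (∀ t ∈ Z1, Cs up T1 t) →
      EBL c Λ B (etaL T1 Z1) (fun T P M => cJ Λ ξ T1 Z1 P * f1 (mk B T P M)) * mf ≤
        EBL c Λ B (etaL T1 Z1)
          (fun T P M => cJ Λ ξ T1 Z1 P * (f1 (mk B T P M) * f2 (mk B T P M))) * m1 := by
    intro T1 hT1 Z1 hZ1 hs
    have hA1 : Inc (fun T P M => cJ Λ ξ T1 Z1 P * f1 (mk B T P M)) := by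
      intro T T' P P' M M' hT hP hM
      exact mul_le_mul (cJ_inc Λ ξ T1 Z1 T T' P P' M M' hT hP hM)
        (mkG_inc B hf1 _ _ _ _ _ _ hT hP hM) (h10 _) (cJ_nonneg _ _ _ _ _)
    have hle : (minL Λ B).Le (etaL T1 Z1) := by
      refine ⟨?_, Finset.empty_subset _, ?_⟩
      · intro v hv
        have h := Finset.mem_sdiff.1 (hT1 hv)
        exact Finset.mem_sdiff.2 ⟨Finset.mem_union_left _ h.1, h.2⟩
      · intro e he
        obtain ⟨t, ht, rfl⟩ := mem_emb.1 he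
        rw [Finset.mem_filter] at ht
        refine Finset.mem_union_left _ (t_mem_emb.2 (Finset.mem_filter.2 ⟨hZ1 ht.1, fun v hv => ?_⟩))
        have h := Finset.mem_sdiff.1 (hT1 (cs_minus (hs t ht.1) ht.2 v hv))
        exact Finset.mem_sdiff.2 ⟨Finset.mem_union_left _ h.1, h.2⟩
    have hok := etaL_ok (B := B) hT1 hZ1
    have h1 := EBL_mono hc (Λ := Λ) (minL_ok Λ B) hok hle hincB
    have h2 := EBL_fkg hc (Λ := Λ) hok hA1 hincB
    have o1 : 0 < EBL c Λ B (etaL T1 Z1) (fun _ _ _ => 1) := EBL_one_pos hc hok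
    have hA : 0 ≤ EBL c Λ B (etaL T1 Z1) (fun T P M => cJ Λ ξ T1 Z1 P * f1 (mk B T P M)) :=
      EBL_nonneg hc fun _ P _ => mul_nonneg (cJ_nonneg Λ ξ T1 Z1 P) (h10 _)
    have e3 : EBL c Λ B (etaL T1 Z1) (fun T P M => cJ Λ ξ T1 Z1 P * f1 (mk B T P M) * fB T P M) =
        EBL c Λ B (etaL T1 Z1)
          (fun T P M => cJ Λ ξ T1 Z1 P * (f1 (mk B T P M) * f2 (mk B T P M))) := by
      congr 1
      funext T P M
      rw [hfB]; ring
    rw [e3] at h2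
    set o := EBL c Λ B (etaL T1 Z1) (fun _ _ _ => 1)
    set a := EBL c Λ B (etaL T1 Z1) (fun T P M => cJ Λ ξ T1 Z1 P * f1 (mk B T P M))
    set b := EBL c Λ B (etaL T1 Z1) fB
    set d := EBL c Λ B (etaL T1 Z1)
      (fun T P M => cJ Λ ξ T1 Z1 P * (f1 (mk B T P M) * f2 (mk B T P M)))
    have h3 : a * (mf * o) ≤ a * (m1 * b) := mul_le_mul_of_nonneg_left h1 hA
    have h4 : m1 * (a * b) ≤ m1 * (o * d) := mul_le_mul_of_nonneg_left h2 hm1pos.le
    have h5 : o * (a * mf) ≤ o * (d * m1) := by linarith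
    exact le_of_mul_le_mul_left h5 o1
  have s1 := envL c hΛ hξ hBK hIV (incP_mul hf1 hf2 h10 h20) (inTZ_mul hin1 hin2) hg
  have s2 := envL c hΛ hξ hBK hIV hf1 hin1 hg
  have p2 := nL_pos Λ ∅
  have hmain : S0 c Λ ξ (fun ω => g ω * f1 ω) * mf ≤
      S0 c Λ ξ (fun ω => g ω * (f1 ω * f2 ω)) * m1 := by
    have h7 := sum_envL_le hc (Λ := Λ) (B := B) (K := upT Λ) hg0
      (a := fun T1 Z1 => EBL c Λ B (etaL T1 Z1)
        (fun T P M => cJ Λ ξ T1 Z1 P * f1 (mk B T P M)) * mf)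
      (b := fun T1 Z1 => EBL c Λ B (etaL T1 Z1)
        (fun T P M => cJ Λ ξ T1 Z1 P * (f1 (mk B T P M) * f2 (mk B T P M))) * m1) hloc
    refine le_of_mul_le_mul_left ?_ p2
    rw [← mul_assoc, ← mul_assoc, s1, s2, mul_assoc, mul_assoc, Finset.sum_mul, Finset.sum_mul]
    simp only [Finset.sum_mul, mul_assoc] at h7 ⊢
    exact h7
  have e1 := EBL_min c (Λ := Λ) hB hBK hIV hf2 hin2
  have e2 := EBL_min c (Λ := Λ) hB hBK hIV incP_one (inTZ_one B)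
  rw [S_one] at e2
  have hZ0 := Z0_pos hc (Λ := Λ) hLip
  have hZB := Z_pos hc B
  have hn := Nm_pos B
  have hratio : Em c B f2 = mf / m1 := by
    unfold Ccn2311.Em
    rw [E_eq_S, div_eq_div_iff hZB.ne' hm1pos.ne']
    have h8 : nL Λ ∅ * Nm B * (S c B (fun ω => f2 (addH 2 ω)) * m1) =
        nL Λ ∅ * Nm B * (mf * Z c B) := by
      calc _ = (nL Λ ∅ * S c B (fun ω => f2 (addH 2 ω))) * (m1 * Nm B) := by ring
        _ = (mf * Nm B) * (nL Λ ∅ * Z c B) := by rw [← e1, e2]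
        _ = _ := by ring
    exact mul_left_cancel₀ (by positivity) h8
  unfold E0
  rw [hratio, div_mul_div_comm, div_le_div_iff₀ (mul_pos hZ0 hm1pos) hZ0]
  nlinarith [mul_le_mul_of_nonneg_left hmain hZ0.le]


/-- 311's interface for the law with fixed boundary heights -/
theorem lowB_E0 {c : ℝ} (hc : 1 ≤ c) {Λ : Finset P2} {ξ : P2 → ℤ} (hΛ : IsConn ((Λ : Set P2)ᶜ))
    (hξ : Bv Λ ξ) (hLip : Lip ξ) :
    LowB c (fun B => SC B ∧ B ⊆ upT Λ ∧ IV B ⊆ Λ) (fun _ => True) (E0 c Λ ξ) where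
  alg := alg_top
  law := ⟨fun _ _ _ _ => E0_add _ _, fun a _ _ => E0_smul a _, fun _ _ _ _ h => E0_mono hc fun _ _ _ => h _,
    E0_const hc hLip 1⟩
  loc := fun _ _ _ => trivial
  lb := fun _ hB _ _ _ h1 h2 h3 h4 h5 h6 _ h7 h8 =>
    lower02 hc hΛ hξ hB.1 hB.2.1 hB.2.2 hLip h1 h2 h3 h4 h5 h6 h7 h8

/-! ### observables that factor over a block -/

/-- `f = g1 * f1`, `g1 ≥ 0` off `B`, `f1 ≥ 0` increasing in `B` -/
def Fac (B : Finset P2) (f : Cfg → ℝ) : Prop :=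
  ∃ g1 f1 : Cfg → ℝ, (∀ ω, f ω = g1 ω * f1 ω) ∧ (∀ ω, 0 ≤ g1 ω) ∧ OffTZ B g1 ∧ (∀ ω, 0 ≤ f1 ω) ∧
    IncP f1 ∧ InTZ B f1

theorem Fac.nonneg {B : Finset P2} {f : Cfg → ℝ} (h : Fac B f) (ω : Cfg) : 0 ≤ f ω := by
  obtain ⟨g1, f1, e, h1, _, h3, _, _⟩ := h
  rw [e]; exact mul_nonneg (h1 ω) (h3 ω)

theorem Fac.mul {B : Finset P2} {f f' : Cfg → ℝ} (h : Fac B f) (h' : Fac B f') :
    Fac B (fun ω => f ω * f' ω) := by
  obtain ⟨g1, f1, e, h1, h2, h3, h4, h5⟩ := h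
  obtain ⟨g1', f1', e', h1', h2', h3', h4', h5'⟩ := h'
  refine ⟨fun ω => g1 ω * g1' ω, fun ω => f1 ω * f1' ω, fun ω => ?_, fun ω => mul_nonneg (h1 ω) (h1' ω),
    offTZ_mul h2 h2', fun ω => mul_nonneg (h3 ω) (h3' ω), incP_mul h4 h4' h3 h3', inTZ_mul h5 h5'⟩
  show f ω * f' ω = g1 ω * g1' ω * (f1 ω * f1' ω)
  rw [e, e']; ring

theorem fac_off {B : Finset P2} {g : Cfg → ℝ} (h0 : ∀ ω, 0 ≤ g ω) (h : OffTZ B g) : Fac B g :=
  ⟨g, fun _ => 1, fun ω => (mul_one _).symm, h0, h, fun _ => zero_le_one, incP_one, inTZ_const B 1⟩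


theorem fac_Cn (N : Set P2) (B : Finset P2) : Fac B (Cn N) :=
  ⟨Cn (N \ (IV B : Set P2)), Cn (N ∩ (IV B : Set P2)), Cn_split N B, Cn_nonneg _, offTZ_Cn_diff N B,
    Cn_nonneg _, incP_Cn _, inTZ_Cn_inter N B⟩

theorem fac_Kn {X : Set P2} {B : Finset P2} (h : ∀ t ∈ X, t ∈ B → t ∈ IV B) : Fac B (Kn X) :=
  ⟨Kn (X \ (B : Set P2)), Kn (X ∩ (B : Set P2)), Kn_split X B, Kn_nonneg _, offTZ_Kn fun _ ht => ht.2,
    Kn_nonneg _, incP_Kn _, inTZ_Kn fun t ht => h t ht.1 ht.2⟩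

/-! ### plus-closed layers for every law with the interface `LowB` -/

section
variable {c : ℝ} {K : ℕ} {p : ℝ} {Bl : Finset P2 → Prop} {E' : (Cfg → ℝ) → ℝ}

theorem lowB_fac (h : LowB c Bl (fun _ => True) E') {B : Finset P2} (hB : Bl B) {f f2 : Cfg → ℝ}
    (hf : Fac B f) (h1 : IncP f2) (h2 : InTZ B f2) (h0 : ∀ ω, 0 ≤ f2 ω) :
    E' f * Em c B f2 ≤ E' (fun ω => f ω * f2 ω) := by
  obtain ⟨g1, f1, e, a1, a2, a3, a4, a5⟩ := hf
  have := h.lb B hB f1 f2 g1 a4 a5 a3 h1 h2 h0 trivial a1 a2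
  have e1 : f = fun ω => g1 ω * f1 ω := funext e
  have e2 : (fun ω => f ω * f2 ω) = fun ω => g1 ω * (f1 ω * f2 ω) := by
    funext ω; rw [e]; ring
  rw [e2, e1]
  exact this

theorem law_nonneg (h : LowB c Bl (fun _ => True) E') {f : Cfg → ℝ} (hf : ∀ ω, 0 ≤ f ω) : 0 ≤ E' f := by
  have h1 := h.law.mono (fun _ => 0 * 1) f trivial trivial (fun ω => by simpa using hf ω)
  rw [h.law.smul 0 (fun _ => 1) trivial, zero_mul] at h1
  exact h1

theorem plusF (hc : 1 ≤ c) (hR : RSW c K p) (h : LowB c Bl (fun _ => True) E') {n : ℕ} (hn : 1 ≤ n)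
    {a : P2} (hB : Bl (ball a (K * n))) {f : Cfg → ℝ} (hf : Fac (ball a (K * n)) f) :
    p * E' f ≤ E' (fun ω => f ω * ind (BlkP a n (2 * n)) ω) := by
  have h1 := lowB_fac h hB hf (incP_blkP a n (2 * n))
    (inTZ_blkP a (m := n) (N := 2 * n) (by omega) (Rsw867.ball_sub_scale a hR.K4 hn)) (ind_nonneg _)
  have h2 := em_blkP hc hR hn a (sc_ball a (K * n)) (Finset.Subset.refl _)
  have h3 : 0 ≤ E' f := law_nonneg h hf.nonneg
  nlinarith [mul_le_mul_of_nonneg_left h2 h3]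

theorem plusF' (hc : 1 ≤ c) (hR : RSW c K p) (h : LowB c Bl (fun _ => True) E') {n : ℕ} (hn : 1 ≤ n)
    {a : P2} (hB : Bl (ball a (K * n))) {f : Cfg → ℝ} (hf : Fac (ball a (K * n)) f) :
    E' (fun ω => f ω * ind (BlkP a n (2 * n))ᶜ ω) ≤ (1 - p) * E' f := by
  have h1 := plusF hc hR h hn hB hf
  have e : (fun ω => f ω * ind (BlkP a n (2 * n))ᶜ ω) =
      fun ω => f ω + (-1) * (f ω * ind (BlkP a n (2 * n)) ω) := by
    funext ω; rw [ind_compl]; ring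
  rw [e, h.law.add _ _ trivial trivial, h.law.smul _ _ trivial]
  linarith

theorem iterF (hc : 1 ≤ c) (hR : RSW c K p) (h : LowB c Bl (fun _ => True) E') {a : P2} (k : ℕ) {n : ℕ}
    (hn : 1 ≤ n) {f : Cfg → ℝ}
    (hf : ∀ j ≤ k, Bl (ball a (K * ((K + 1) ^ j * n))) ∧ Fac (ball a (K * ((K + 1) ^ j * n))) f) :
    E' (fun ω => f ω * ind (BlkP a n (2 * ((K + 1) ^ k * n)))ᶜ ω) ≤ (1 - p) ^ (k + 1) * E' f := by
  induction k generalizing f with
  | zero =>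
    have := hf 0 le_rfl
    simp only [pow_zero, one_mul, zero_add, pow_one] at this ⊢
    exact plusF' hc hR h hn this.1 this.2
  | succ k ih =>
    set n' := (K + 1) ^ (k + 1) * n with hn'
    have h1n : 1 ≤ n' := Nat.mul_pos (by positivity) hn
    have h2n : n ≤ n' := by
      rw [hn']; exact Nat.le_mul_of_pos_left _ (by positivity)
    have hK4 := hR.K4
    set g' : Cfg → ℝ := fun ω => f ω * ind (BlkP a n' (2 * n'))ᶜ ω with hg'
    have hg'f : ∀ j ≤ k, Bl (ball a (K * ((K + 1) ^ j * n))) ∧ Fac (ball a (K * ((K + 1) ^ j * n))) g' := by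
      intro j hj
      obtain ⟨b1, b2⟩ := hf j (by omega)
      refine ⟨b1, b2.mul (fac_off (ind_nonneg _) (offTZ_compl (offTZ_blkP a (by omega) ?_
        (Finset.Subset.refl _))))⟩
      have h5 : K * ((K + 1) ^ k * n) + 1 ≤ n' := scale_step hn hn'
      have h6 : (K + 1) ^ j * n ≤ (K + 1) ^ k * n :=
        Nat.mul_le_mul_right _ (Nat.pow_le_pow_right (by omega) hj)
      have h7 := Nat.mul_le_mul_left K h6
      omega
    have e1 := ih hg'f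
    obtain ⟨b1, b2⟩ := hf (k + 1) le_rfl
    have e2 := plusF' hc hR h h1n b1 b2
    have e3 : E' (fun ω => f ω * ind (BlkP a n (2 * n'))ᶜ ω) ≤
        E' (fun ω => g' ω * ind (BlkP a n (2 * ((K + 1) ^ k * n)))ᶜ ω) := by
      refine h.law.mono _ _ trivial trivial fun ω => ?_
      have i1 : ind (BlkP a n (2 * n'))ᶜ ω ≤ ind (BlkP a n' (2 * n'))ᶜ ω :=
        ind_le_ind fun hω hω' => hω (blkP_anti h2n le_rfl hω')
      have i2 : ind (BlkP a n (2 * n'))ᶜ ω ≤ ind (BlkP a n (2 * ((K + 1) ^ k * n)))ᶜ ω := by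
        refine ind_le_ind fun hω hω' => hω (blkP_anti le_rfl ?_ hω')
        have h5 : K * ((K + 1) ^ k * n) + 1 ≤ n' := scale_step hn hn'
        have : (K + 1) ^ k * n ≤ K * ((K + 1) ^ k * n) := Nat.le_mul_of_pos_left _ (by omega)
        omega
      have i3 : ind (BlkP a n (2 * n'))ᶜ ω ≤
          ind (BlkP a n' (2 * n'))ᶜ ω * ind (BlkP a n (2 * ((K + 1) ^ k * n)))ᶜ ω := by
        have : ind (BlkP a n (2 * n'))ᶜ ω =
            ind (BlkP a n (2 * n'))ᶜ ω * ind (BlkP a n (2 * n'))ᶜ ω := by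
          by_cases hω : ω ∈ (BlkP a n (2 * n'))ᶜ
          · rw [ind_of_mem hω]; norm_num
          · rw [ind_of_not_mem hω]; norm_num
        rw [this]
        exact mul_le_mul i1 i2 (ind_nonneg _ _) (ind_nonneg _ _)
      calc f ω * ind (BlkP a n (2 * n'))ᶜ ω ≤ f ω * (ind (BlkP a n' (2 * n'))ᶜ ω *
            ind (BlkP a n (2 * ((K + 1) ^ k * n)))ᶜ ω) := mul_le_mul_of_nonneg_left i3 (b2.nonneg ω)
        _ = _ := by rw [hg']; ring
    have hp : (0 : ℝ) ≤ (1 - p) ^ (k + 1) := by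
      have := hR.p1
      have : (0 : ℝ) ≤ 1 - p := by linarith
      positivity
    calc _ ≤ _ := e3
      _ ≤ (1 - p) ^ (k + 1) * E' g' := e1
      _ ≤ (1 - p) ^ (k + 1) * ((1 - p) * E' f) := mul_le_mul_of_nonneg_left e2 hp
      _ = (1 - p) ^ (k + 1 + 1) * E' f := by ring

/-- **Power decay of "no plus-closed layer" in presence of a factorised observable.** -/
theorem decayF (hc : 1 ≤ c) (hR : RSW c K p) : ∃ (C α : ℝ), 1 ≤ C ∧ 0 < α ∧
    ∀ (Bl : Finset P2 → Prop) (E' : (Cfg → ℝ) → ℝ), LowB c Bl (fun _ => True) E' →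
      ∀ m N : ℕ, 1 ≤ m → 1 ≤ N → ∀ (a : P2) (f : Cfg → ℝ), (∀ ω, 0 ≤ f ω) →
        (∀ r, K * m ≤ r → r ≤ K * N → Bl (ball a r) ∧ Fac (ball a r) f) →
          E' (fun ω => f ω * ind (BlkP a m N)ᶜ ω) ≤ C * ((m : ℝ) / N) ^ α * E' f := by
  obtain ⟨C, α, hC, hα, hs⟩ := exists_scale hR.K4 hR.p0 hR.p1
  refine ⟨C, α, hC, hα, fun Bl E' h m N hm hN a f hf0 hf => ?_⟩
  have hf1 : 0 ≤ E' f := law_nonneg h hf0
  rcases hs m N hm hN with ⟨_, h1⟩ | ⟨k, hk, h1⟩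
  · refine le_trans ?_ (le_mul_of_one_le_left hf1 h1)
    exact h.law.mono _ _ trivial trivial fun ω => mul_le_of_le_one_right (hf0 ω) (ind_le_one _ _)
  · have hj : ∀ j ≤ k, m ≤ (K + 1) ^ j * m ∧ (K + 1) ^ j * m ≤ N := by
      intro j hj
      have h6 : (K + 1) ^ j * m ≤ (K + 1) ^ k * m :=
        Nat.mul_le_mul_right _ (Nat.pow_le_pow_right (by omega) hj)
      exact ⟨Nat.le_mul_of_pos_left _ (by positivity), by omega⟩
    have h2 := iterF hc hR h k hm (a := a) (f := f) fun j hjk =>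
      hf _ (Nat.mul_le_mul_left K (hj j hjk).1) (Nat.mul_le_mul_left K (hj j hjk).2)
    refine le_trans ?_ (h2.trans (mul_le_mul_of_nonneg_right h1 hf1))
    exact h.law.mono _ _ trivial trivial fun ω => mul_le_mul_of_nonneg_left
      (ind_le_ind fun hω hω' => hω (blkP_anti le_rfl hk hω')) (hf0 ω)

end

end Crest.Agent.R144.Bnl991
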