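import Crest.Agent.R144.Hf2_702
import Crest.Agent.R144.It3_844

/-!
# R144, block B4 of BND (helper695), part 1: height lattice structure of the F-type law

* `hv_inf`, `hv_sup` : the admissible heights of `F` form a lattice;
* `KcI X ω` = indicator of "all triangles of `X` are closed"; `C1I X h` = indicator of "`s1` constant on the
  triangles of `X`"; `cw c h t` = height weight of `t` (`c` on constant triangles);
* `S_kc` : `S c F (KcI X ω * φ ω.1) = ∑_{h ∈ hts F} ∏_{F \ X} cw c h t * (C1I X h * φ h)`;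
* `holley_wt` : Ahlswede–Daykin for the weights `∏_{t ∈ Y} cw c h t`, arbitrary `Y`;
* `E_holley`, `E_fkg` : the corresponding statements for `E c F (KcI X ω * φ ω.1 * f ω.1)`.
-/

set_option autoImplicit false
set_option linter.unusedVariables false
set_option linter.unusedSectionVars false

noncomputable section

namespace Crest.Agent.R144.Bx695

open Finset
open Crest.Agent.R144.It844 (P2 ph ph_nonneg Lip Cst tw E3 E3_eq_tw lsm_E3 upT mem_upT)
open Crest.Agent.R161.Lsm375 (LSM)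
open Crest.Agent.R144.Zg349 Crest.Agent.R144.Zk349 Crest.Agent.R144.Zd349
open Crest.Agent.R144.Zm349
open Crest.Agent.R144.Hf702 (E3_eq_tw' tw_mul)
open Crest.ProbabilityR.HexHeights (Adj)

/-! ### the lattice of admissible heights -/

theorem hv_inf {F : Finset P2} {a b : P2 → ℤ} (ha : HV F a) (hb : HV F b) : HV F (a ⊓ b) where
  lip := fun t ht i j => by
    have h1 := ha.lip t ht i j
    have h2 := hb.lip t ht i j
    simp only [Pi.inf_apply]
    rw [abs_le] at *
    omega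
  bd := fun v hv => by
    simp only [Pi.inf_apply]
    rcases ha.bd v hv with h1 | h1 <;> rcases hb.bd v hv with h2 | h2 <;> rw [h1, h2] <;> decide
  off := fun v hv => by
    simp only [Pi.inf_apply]
    rw [ha.off v hv, hb.off v hv]; decide

theorem hv_sup {F : Finset P2} {a b : P2 → ℤ} (ha : HV F a) (hb : HV F b) : HV F (a ⊔ b) where
  lip := fun t ht i j => by
    have h1 := ha.lip t ht i j
    have h2 := hb.lip t ht i j
    simp only [Pi.sup_apply]
    rw [abs_le] at *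
    omega
  bd := fun v hv => by
    simp only [Pi.sup_apply]
    rcases ha.bd v hv with h1 | h1 <;> rcases hb.bd v hv with h2 | h2 <;> rw [h1, h2] <;> decide
  off := fun v hv => by
    simp only [Pi.sup_apply]
    rw [ha.off v hv, hb.off v hv]; decide

/-! ### summing out the closed indicators -/

/-- height weight of a triangle -/
def cw (c : ℝ) (h : P2 → ℤ) (t : P2) : ℝ := if Cst h t then c else 1


open Classical in
/-- all triangles of `X` are closed -/
def KcI (X : Finset P2) (ω : Cfg) : ℝ := if ∀ t ∈ X, ω.2 t = true then 1 else 0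

open Classical in
/-- `s1` is constant on the triangles of `X` -/
def C1I (X : Finset P2) (h : P2 → ℤ) : ℝ := if ∀ t ∈ X, C1 h t then 1 else 0


theorem C1I_nonneg (X : Finset P2) (h : P2 → ℤ) : 0 ≤ C1I X h := by
  unfold C1I; split_ifs
  · exact zero_le_one
  · exact le_rfl


/-- outside `F` the first colour is constant on every triangle -/
theorem c1_off {F : Finset P2} {h : P2 → ℤ} (hh : HV F h) {t : P2} (ht : t ∉ F) : C1 h t := by
  have key : ∀ k, s1 (h (cr t k)) = true := fun k =>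
    hh.s1_bd fun hk => ht ((mem_IV'.1 hk) t (cr_mem_up t k))
  exact ⟨by rw [key, key], by rw [key, key]⟩

theorem sum_zs_kc (c : ℝ) {F : Finset P2} (X : Finset P2) {h : P2 → ℤ} (hh : HV F h) :
    ∑ z ∈ zs F, wt c F (h, z) * KcI X (h, z) = (∏ t ∈ F \ X, cw c h t) * C1I X h := by
  classical
  rw [sum_zs]
  set A : P2 → ℝ := fun t => if C1 h t then (1 : ℝ) else 0 with hA
  set B : P2 → ℝ := fun t => if t ∈ X then (0 : ℝ) else
    (if C2 h t then (if C1 h t then c - 1 else 1) else 0) with hB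
  have h1 : ∀ t ∈ F, A t + B t = if t ∈ X then (if C1 h t then (1 : ℝ) else 0) else cw c h t := by
    intro t ht
    have k1 := cst_iff (hh.lip t ht)
    have k2 := c1_or_c2 (hh.lip t ht)
    simp only [hA, hB, cw]
    by_cases hX : t ∈ X
    · rw [if_pos hX, if_pos hX, add_zero]
    · rw [if_neg hX, if_neg hX]
      by_cases a : C1 h t
      · by_cases b : C2 h t
        · rw [if_pos (k1.2 ⟨a, b⟩), if_pos a, if_pos b, if_pos a]; ring
        · rw [if_neg (fun e => b (k1.1 e).2), if_pos a, if_neg b]; ring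
      · have b := k2.resolve_left a
        rw [if_neg (fun e => a (k1.1 e).1), if_neg a, if_pos b, if_neg a]; ring
  have h2 : (∏ t ∈ F \ X, cw c h t) * C1I X h = ∏ t ∈ F, (A t + B t) := by
    rw [Finset.prod_congr rfl h1, ← Finset.prod_inter_mul_prod_sdiff F X, mul_comm]
    congr 1
    · have e : ∀ t ∈ F ∩ X, (if t ∈ X then (if C1 h t then (1 : ℝ) else 0) else cw c h t) =
          if C1 h t then (1 : ℝ) else 0 := fun t ht => if_pos (Finset.mem_inter.1 ht).2
      rw [Finset.prod_congr rfl e, Finset.prod_ite_zero]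
      unfold C1I
      have e2 : (∀ t ∈ X, C1 h t) ↔ ∀ t ∈ F ∩ X, C1 h t := by
        constructor
        · exact fun a t ht => a t (Finset.mem_inter.1 ht).2
        · intro a t ht
          by_cases hF : t ∈ F
          · exact a t (Finset.mem_inter.2 ⟨hF, ht⟩)
          · exact c1_off hh hF
      by_cases hc : ∀ t ∈ X, C1 h t
      · rw [if_pos hc, if_pos (e2.1 hc)]; simp
      · rw [if_neg hc, if_neg fun a => hc (e2.2 a)]
    · exact Finset.prod_congr rfl fun t ht => (if_neg (Finset.mem_sdiff.1 ht).2).symm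
  rw [h2, Finset.prod_add]
  refine Finset.sum_congr rfl fun Z hZ => ?_
  rw [Finset.mem_powerset] at hZ
  have h3 : KcI X (h, zb F Z) = ∏ t ∈ F \ Z, if t ∈ X then (0 : ℝ) else 1 := by
    rw [show (∏ t ∈ F \ Z, if t ∈ X then (0 : ℝ) else 1) = ∏ t ∈ F \ Z, if t ∉ X then (1 : ℝ) else 0 from
      Finset.prod_congr rfl fun t _ => by by_cases hX : t ∈ X <;> simp [hX], Finset.prod_ite_zero]
    unfold KcI
    have e2 : (∀ t ∈ X, zb F Z t = true) ↔ ∀ t ∈ F \ Z, t ∉ X := by
      constructor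
      · intro a t ht hX
        have := a t hX
        unfold zb at this
        rw [decide_eq_true_eq] at this
        rw [Finset.mem_sdiff] at ht
        rcases this with h | h
        · exact h ht.1
        · exact ht.2 h
      · intro a t hX
        unfold zb
        rw [decide_eq_true_eq]
        by_contra hcon
        push Not at hcon
        exact a t (Finset.mem_sdiff.2 hcon) hX
    by_cases hc : ∀ t ∈ X, zb F Z t = true
    · rw [if_pos hc, if_pos (e2.1 hc)]; simp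
    · rw [if_neg hc, if_neg fun a => hc (e2.2 a)]
  rw [h3]
  unfold wt
  rw [← Finset.prod_inter_mul_prod_sdiff F Z, Finset.inter_eq_right.2 hZ, mul_assoc,
    ← Finset.prod_mul_distrib]
  congr 1
  · refine Finset.prod_congr rfl fun t ht => ?_
    have : zb F Z t = true := by unfold zb; rw [decide_eq_true_eq]; exact Or.inr ht
    unfold ew
    rw [if_pos this]
  · refine Finset.prod_congr rfl fun t ht => ?_
    obtain ⟨h1, h2⟩ := Finset.mem_sdiff.1 ht
    have : ¬ zb F Z t = true := by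
      unfold zb; rw [decide_eq_true_eq]; push Not; exact ⟨h1, h2⟩
    unfold ew
    rw [if_neg this]
    simp only [hB]
    by_cases hX : t ∈ X
    · rw [if_pos hX, if_pos hX, mul_zero]
    · rw [if_neg hX, if_neg hX, mul_one]

/-- unnormalised sums over heights -/
def SB (c : ℝ) (F Y : Finset P2) (φ : (P2 → ℤ) → ℝ) : ℝ := ∑ h ∈ hts F, (∏ t ∈ Y, cw c h t) * φ h

theorem S_kc (c : ℝ) (F X : Finset P2) (φ : (P2 → ℤ) → ℝ) :
    S c F (fun ω => KcI X ω * φ ω.1) = SB c F (F \ X) (fun h => C1I X h * φ h) := by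
  unfold S SB conf
  rw [Finset.sum_product]
  refine Finset.sum_congr rfl fun h hh => ?_
  have h1 := sum_zs_kc c X (mem_hts.1 hh)
  calc ∑ z ∈ zs F, wt c F (h, z) * (KcI X (h, z) * φ h)
      = (∑ z ∈ zs F, wt c F (h, z) * KcI X (h, z)) * φ h := by
        rw [Finset.sum_mul]
        exact Finset.sum_congr rfl fun z _ => by ring
    _ = _ := by rw [h1]; ring

/-! ### log-supermodularity -/

theorem cw_eq_E3 {x : ℝ} (hx : x ≠ 0) {F : Finset P2} {h : P2 → ℤ} (hh : HV F h) (t : P2) :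
    cw ((x ^ 2)⁻¹) h t = (x ^ 2)⁻¹ * E3 x h t := by
  rw [E3_eq_tw x hh.toLip, tw_mul hx]
  rfl

theorem exists_x {c : ℝ} (hc : 1 ≤ c) : ∃ x : ℝ, 0 < x ∧ x ≤ 1 ∧ (x ^ 2)⁻¹ = c := by
  have h0 : 0 < c := lt_of_lt_of_le one_pos hc
  refine ⟨(Real.sqrt c)⁻¹, inv_pos.2 (Real.sqrt_pos.2 h0), ?_, ?_⟩
  · rw [inv_le_one_iff₀]
    exact Or.inr (Real.one_le_sqrt.2 hc)
  · rw [inv_pow, Real.sq_sqrt h0.le, inv_inv]

/-- `φ` and `ψ` satisfy the four functions condition on the admissible heights of `F` -/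
def AD (F : Finset P2) (φ ψ : (P2 → ℤ) → ℝ) : Prop :=
  ∀ a b, HV F a → HV F b → φ a * ψ b ≤ φ (a ⊓ b) * ψ (a ⊔ b)

/-- increasing on the admissible heights of `F` -/
def IncH (F : Finset P2) (f : (P2 → ℤ) → ℝ) : Prop := ∀ a b, HV F a → HV F b → a ≤ b → f a ≤ f b

/-- **Holley, weight form** -/
theorem SB_holley {c : ℝ} (hc : 1 ≤ c) {F Y : Finset P2} {φ ψ f : (P2 → ℤ) → ℝ}
    (hφ : ∀ a, HV F a → 0 ≤ φ a) (hψ : ∀ a, HV F a → 0 ≤ ψ a) (had : AD F φ ψ) (hf : IncH F f) :
    SB c F Y (fun h => φ h * f h) * SB c F Y ψ ≤ SB c F Y φ * SB c F Y (fun h => ψ h * f h) := by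
  classical
  obtain ⟨x, hx0, hx1, rfl⟩ := exists_x hc
  set c : ℝ := (x ^ 2)⁻¹
  set μ : (P2 → ℤ) → ℝ := fun h => ∏ t ∈ Y, E3 x h t with hμd
  have hμ : LSM μ := LSM.prod _ fun _ _ => lsm_E3 hx0.le hx1 _
  have hSB : ∀ g : (P2 → ℤ) → ℝ, SB c F Y g = c ^ Y.card * ∑ h ∈ hts F, μ h * g h := by
    intro g
    unfold SB
    rw [Finset.mul_sum]
    refine Finset.sum_congr rfl fun h hh => ?_
    rw [Finset.prod_congr rfl fun t _ => cw_eq_E3 hx0.ne' (mem_hts.1 hh) t, Finset.prod_mul_distrib,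
      Finset.prod_const]
    ring
  obtain ⟨m, hm⟩ : ∃ m : ℝ, ∀ a ∈ hts F, 0 ≤ f a + m := by
    refine ⟨∑ a ∈ hts F, |f a|, fun a ha => ?_⟩
    have h1 : |f a| ≤ ∑ a ∈ hts F, |f a| :=
      Finset.single_le_sum (f := fun a => |f a|) (fun b _ => abs_nonneg _) ha
    have h2 := neg_abs_le (f a)
    linarith
  set ι : (P2 → ℤ) → ℝ := fun a => if a ∈ hts F then 1 else 0 with hι
  have hs : ∀ a b, a ∈ hts F → b ∈ hts F → a ⊓ b ∈ hts F ∧ a ⊔ b ∈ hts F := fun a b ha hb =>
    ⟨mem_hts.2 (hv_inf (mem_hts.1 ha) (mem_hts.1 hb)), mem_hts.2 (hv_sup (mem_hts.1 ha) (mem_hts.1 hb))⟩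
  have nn : ∀ (φ' : (P2 → ℤ) → ℝ), (∀ a, HV F a → 0 ≤ φ' a) → ∀ a, 0 ≤ ι a * (μ a * φ' a) := by
    intro φ' h' a
    by_cases h : a ∈ hts F
    · simp only [hι, if_pos h, one_mul]
      exact mul_nonneg (hμ.1 a) (h' a (mem_hts.1 h))
    · simp only [hι, if_neg h, zero_mul]; exact le_rfl
  have nφf : ∀ a, HV F a → 0 ≤ φ a * (f a + m) := fun a ha =>
    mul_nonneg (hφ a ha) (hm a (mem_hts.2 ha))
  have nψf : ∀ a, HV F a → 0 ≤ ψ a * (f a + m) := fun a ha =>
    mul_nonneg (hψ a ha) (hm a (mem_hts.2 ha))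
  have key := four_functions_theorem (α := P2 → ℤ) (β := ℝ)
    (fun a => ι a * (μ a * (φ a * (f a + m)))) (fun b => ι b * (μ b * ψ b))
    (fun a => ι a * (μ a * φ a)) (fun b => ι b * (μ b * (ψ b * (f b + m))))
    (nn _ nφf) (nn _ hψ) (nn _ hφ) (nn _ nψf)
    (fun a b => by
      by_cases ha : a ∈ hts F
      · by_cases hb : b ∈ hts F
        · obtain ⟨h1, h2⟩ := hs a b ha hb
          simp only [hι, if_pos ha, if_pos hb, if_pos h1, if_pos h2, one_mul]
          have ha' := mem_hts.1 ha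
          have hb' := mem_hts.1 hb
          have e1 : f a + m ≤ f (a ⊔ b) + m := by
            have := hf a (a ⊔ b) ha' (mem_hts.1 h2) le_sup_left
            linarith
          have e2 := had a b ha' hb'
          have e3 := hμ.2 a b
          calc μ a * (φ a * (f a + m)) * (μ b * ψ b)
              = (μ a * μ b) * ((φ a * ψ b) * (f a + m)) := by ring
            _ ≤ (μ (a ⊓ b) * μ (a ⊔ b)) * ((φ (a ⊓ b) * ψ (a ⊔ b)) * (f (a ⊔ b) + m)) := by
                refine mul_le_mul e3 (mul_le_mul e2 e1 (hm a ha) ?_) ?_ ?_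
                · exact mul_nonneg (hφ _ (mem_hts.1 h1)) (hψ _ (mem_hts.1 h2))
                · exact mul_nonneg (mul_nonneg (hφ _ ha') (hψ _ hb')) (hm a ha)
                · exact mul_nonneg (hμ.1 _) (hμ.1 _)
            _ = _ := by ring
        · have e := nn _ hφ (a ⊓ b)
          have e' := nn _ nψf (a ⊔ b)
          simp only [hι, if_neg hb, zero_mul, mul_zero]
          exact mul_nonneg e e'
      · have e := nn _ hφ (a ⊓ b)
        have e' := nn _ nψf (a ⊔ b)
        simp only [hι, if_neg ha, zero_mul]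
        exact mul_nonneg e e')
    (hts F) (hts F)
  have e1 : ∀ (g : (P2 → ℤ) → ℝ), ∑ a ∈ hts F, ι a * g a = ∑ a ∈ hts F, g a := fun g =>
    Finset.sum_congr rfl fun a ha => by simp only [hι, if_pos ha, one_mul]
  have e2 : ∀ (D : Finset (P2 → ℤ)) (g : (P2 → ℤ) → ℝ), (∀ a, HV F a → 0 ≤ g a) →
      ∑ a ∈ D, ι a * g a ≤ ∑ a ∈ hts F, g a := by
    intro D g hg
    calc ∑ a ∈ D, ι a * g a = ∑ a ∈ D ∩ hts F, g a := by
          rw [← Finset.filter_mem_eq_inter, Finset.sum_filter]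
          exact Finset.sum_congr rfl fun a _ => by simp only [hι]; split_ifs <;> simp
      _ ≤ _ := Finset.sum_le_sum_of_subset_of_nonneg Finset.inter_subset_right
          fun a ha _ => hg a (mem_hts.1 ha)
  rw [e1, e1] at key
  have m1 : ∀ a, HV F a → 0 ≤ μ a * φ a := fun a ha => mul_nonneg (hμ.1 a) (hφ a ha)
  have m2 : ∀ a, HV F a → 0 ≤ μ a * (ψ a * (f a + m)) := fun a ha => mul_nonneg (hμ.1 a) (nψf a ha)
  have key2 : (∑ a ∈ hts F, μ a * (φ a * (f a + m))) * (∑ b ∈ hts F, μ b * ψ b) ≤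
      (∑ a ∈ hts F, μ a * φ a) * ∑ b ∈ hts F, μ b * (ψ b * (f b + m)) := by
    refine key.trans (mul_le_mul (e2 _ _ m1) (e2 _ _ m2) ?_ ?_)
    · exact Finset.sum_nonneg fun a _ => nn _ nψf a
    · exact Finset.sum_nonneg fun a ha => m1 a (mem_hts.1 ha)
  have s1 : ∀ g : (P2 → ℤ) → ℝ, ∑ a ∈ hts F, μ a * (g a * (f a + m)) =
      ∑ a ∈ hts F, μ a * (g a * f a) + m * ∑ a ∈ hts F, μ a * g a := by
    intro g
    rw [Finset.mul_sum, ← Finset.sum_add_distrib]
    exact Finset.sum_congr rfl fun a _ => by ring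
  rw [s1, s1] at key2
  rw [hSB, hSB, hSB, hSB]
  have hcp : 0 ≤ c ^ Y.card := by positivity
  set P1 := ∑ h ∈ hts F, μ h * (φ h * f h)
  set P2' := ∑ h ∈ hts F, μ h * ψ h
  set P3 := ∑ h ∈ hts F, μ h * φ h
  set P4 := ∑ h ∈ hts F, μ h * (ψ h * f h)
  have key3 : P1 * P2' ≤ P3 * P4 := by nlinarith [key2]
  calc c ^ Y.card * P1 * (c ^ Y.card * P2') = (c ^ Y.card * c ^ Y.card) * (P1 * P2') := by ring
    _ ≤ (c ^ Y.card * c ^ Y.card) * (P3 * P4) := mul_le_mul_of_nonneg_left key3 (mul_nonneg hcp hcp)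
    _ = _ := by ring

/-- a law-free rewriting of `E` -/
theorem E_kc {c : ℝ} (F X : Finset P2) (φ : (P2 → ℤ) → ℝ) :
    E c F (fun ω => KcI X ω * φ ω.1) = SB c F (F \ X) (fun h => C1I X h * φ h) / Z c F := by
  rw [E_eq_S, S_kc]

/-- **Holley for the F-type law, closed triangles `X`, two data `φ`, `ψ`.** -/
theorem E_holley {c : ℝ} (hc : 1 ≤ c) {F X : Finset P2} {φ ψ f : (P2 → ℤ) → ℝ}
    (hφ : ∀ a, HV F a → 0 ≤ C1I X a * φ a) (hψ : ∀ a, HV F a → 0 ≤ C1I X a * ψ a)
    (had : AD F (fun a => C1I X a * φ a) (fun a => C1I X a * ψ a)) (hf : IncH F f) :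
    E c F (fun ω => KcI X ω * φ ω.1 * f ω.1) * E c F (fun ω => KcI X ω * ψ ω.1) ≤
      E c F (fun ω => KcI X ω * φ ω.1) * E c F (fun ω => KcI X ω * ψ ω.1 * f ω.1) := by
  have key := SB_holley hc (Y := F \ X) hφ hψ had hf
  have hZ := Z_pos hc F
  have e1 : ∀ g : (P2 → ℤ) → ℝ, E c F (fun ω => KcI X ω * g ω.1 * f ω.1) =
      SB c F (F \ X) (fun h => C1I X h * g h * f h) / Z c F := by
    intro g
    have := E_kc (c := c) F X (fun h => g h * f h)
    simp only [← mul_assoc] at this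
    exact this
  rw [e1, e1, E_kc, E_kc, div_mul_div_comm, div_mul_div_comm]
  exact div_le_div_of_nonneg_right key (mul_pos hZ hZ).le

/-- **FKG for the F-type law with closed triangles `X` and log-supermodular data `φ`.** -/
theorem E_fkg {c : ℝ} (hc : 1 ≤ c) {F X : Finset P2} {φ f g : (P2 → ℤ) → ℝ}
    (hφ : ∀ a, HV F a → 0 ≤ C1I X a * φ a)
    (had : AD F (fun a => C1I X a * φ a) (fun a => C1I X a * φ a)) (hf : IncH F f) (hg : IncH F g) :
    E c F (fun ω => KcI X ω * φ ω.1 * f ω.1) * E c F (fun ω => KcI X ω * φ ω.1 * g ω.1) ≤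
      E c F (fun ω => KcI X ω * φ ω.1) * E c F (fun ω => KcI X ω * φ ω.1 * (f ω.1 * g ω.1)) := by
  classical
  obtain ⟨m, hm⟩ : ∃ m : ℝ, ∀ a ∈ hts F, 0 ≤ g a + m := by
    refine ⟨∑ a ∈ hts F, |g a|, fun a ha => ?_⟩
    have h1 : |g a| ≤ ∑ a ∈ hts F, |g a| :=
      Finset.single_le_sum (f := fun a => |g a|) (fun b _ => abs_nonneg _) ha
    have h2 := neg_abs_le (g a)
    linarith
  have nn : ∀ a, HV F a → 0 ≤ g a + m := fun a ha => hm a (mem_hts.2 ha)
  have key := E_holley hc (X := X) (φ := φ) (ψ := fun a => φ a * (g a + m)) (f := f) hφ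
    (fun a ha => by
      have := mul_nonneg (hφ a ha) (nn a ha)
      rwa [mul_assoc] at this)
    (fun a b ha hb => by
      have h1 := had a b ha hb
      have h2 : g b + m ≤ g (a ⊔ b) + m := by
        have := hg b (a ⊔ b) hb (hv_sup ha hb) le_sup_right
        linarith
      have h3 := nn b hb
      have h4 : 0 ≤ C1I X (a ⊓ b) * φ (a ⊓ b) * (C1I X (a ⊔ b) * φ (a ⊔ b)) :=
        mul_nonneg (hφ _ (hv_inf ha hb)) (hφ _ (hv_sup ha hb))
      simp only at h1 ⊢
      calc C1I X a * φ a * (C1I X b * (φ b * (g b + m)))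
          = (C1I X a * φ a * (C1I X b * φ b)) * (g b + m) := by ring
        _ ≤ (C1I X (a ⊓ b) * φ (a ⊓ b) * (C1I X (a ⊔ b) * φ (a ⊔ b))) * (g (a ⊔ b) + m) :=
            mul_le_mul h1 h2 h3 h4
        _ = _ := by ring) hf
  have e1 : E c F (fun ω => KcI X ω * (φ ω.1 * (g ω.1 + m))) =
      E c F (fun ω => KcI X ω * φ ω.1 * g ω.1) + m * E c F (fun ω => KcI X ω * φ ω.1) := by
    rw [← E_smul, ← E_add]
    exact E_congr fun ω _ => by ring
  have e2 : E c F (fun ω => KcI X ω * (φ ω.1 * (g ω.1 + m)) * f ω.1) =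
      E c F (fun ω => KcI X ω * φ ω.1 * (f ω.1 * g ω.1)) +
        m * E c F (fun ω => KcI X ω * φ ω.1 * f ω.1) := by
    rw [← E_smul, ← E_add]
    exact E_congr fun ω _ => by ring
  rw [e1, e2] at key
  nlinarith [key]

end Crest.Agent.R144.Bx695
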