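import Crest.Agent.R144.Zm_349

/-!
# R144: F-type model, association and domain monotonicity of `(s1, Z⁺, -Z⁻)` (helper349)

* `pC ω t` / `mC ω t` : the up triangle `t` is closed and plus / minus (sign `s1` of its base site);
* `LeP ω ω'`, `IncP f` : increasing in `s1`, in the plus closed set, decreasing in the minus closed set;
* `TZ f` (functions of `(s1, z)`), `InTZ B f`, `OffTZ B g`;
* `assoc` : **association** `E f * E g ≤ E (f g)` for `IncP f, g`, every simply connected `F`, every `c ≥ 1`;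
* `dom_mono` : **domain monotonicity** `F ⊆ F' → E c F' f ≤ E c F f`;
* `master`, `decomp`, `rep` : environment representation.

Port of R161/AtFkE_729.
-/

set_option autoImplicit false
set_option linter.unusedSectionVars false
set_option linter.unusedSimpArgs false

noncomputable section

namespace Crest.Agent.R144.Ze349

open Finset
open Crest.Agent.R144.It844 (P2)
open Crest.Agent.R144.Zg349 Crest.Agent.R144.Zk349 Crest.Agent.R144.Zd349 Crest.Agent.R144.Zm349
open Crest.Agent.R144.HyA349 Crest.Agent.R144.HyB349 Crest.Agent.R144.HyC349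

/-- closed plus triangle -/
def pC (ω : Cfg) (t : P2) : Prop := ω.2 t = true ∧ s1 (ω.1 t) = true
/-- closed minus triangle -/
def mC (ω : Cfg) (t : P2) : Prop := ω.2 t = true ∧ s1 (ω.1 t) = false

/-- `ω'` is more plus than `ω`. -/
structure LeP (ω ω' : Cfg) : Prop where
  v : ∀ x, s1 (ω.1 x) = true → s1 (ω'.1 x) = true
  p : ∀ t, pC ω t → pC ω' t
  m : ∀ t, mC ω' t → mC ω t

/-- increasing observables -/
def IncP (f : Cfg → ℝ) : Prop := ∀ ω ω', LeP ω ω' → f ω ≤ f ω'

/-- observables of `(s1, z)` -/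
def TZ (f : Cfg → ℝ) : Prop :=
  ∀ ω ω' : Cfg, (∀ v, s1 (ω.1 v) = s1 (ω'.1 v)) → (∀ t, ω.2 t = ω'.2 t) → f ω = f ω'

/-- `f` depends only on `(s1, z)` inside `B`: sites interior to `B`, triangles of `B`. -/
def InTZ (B : Finset P2) (f : Cfg → ℝ) : Prop :=
  ∀ ω ω' : Cfg, (∀ v ∈ IV B, s1 (ω.1 v) = s1 (ω'.1 v)) → (∀ t ∈ B, ω.2 t = ω'.2 t) → f ω = f ω'

/-- `g` depends only on `(s1, z)` off `B`. -/
def OffTZ (B : Finset P2) (g : Cfg → ℝ) : Prop :=
  ∀ ω ω' : Cfg, (∀ v, v ∉ IV B → s1 (ω.1 v) = s1 (ω'.1 v)) → (∀ t, t ∉ B → ω.2 t = ω'.2 t) →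
    g ω = g ω'

/-- shift of all heights -/
def addH (a : ℤ) (ω : Cfg) : Cfg := (fun v => ω.1 v + a, ω.2)

theorem leP_of_agree {ω ω' : Cfg} (h1 : ∀ v, s1 (ω.1 v) = s1 (ω'.1 v))
    (h2 : ∀ t, ω.2 t = ω'.2 t) : LeP ω ω' :=
  ⟨fun x h => by rw [← h1]; exact h, fun t h => ⟨by rw [← h2]; exact h.1, by rw [← h1]; exact h.2⟩,
    fun t h => ⟨by rw [h2]; exact h.1, by rw [h1]; exact h.2⟩⟩

theorem IncP.eq_of_agree {f : Cfg → ℝ} (hf : IncP f) {ω ω' : Cfg}
    (h1 : ∀ v, s1 (ω.1 v) = s1 (ω'.1 v)) (h2 : ∀ t, ω.2 t = ω'.2 t) : f ω = f ω' :=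
  le_antisymm (hf _ _ (leP_of_agree h1 h2))
    (hf _ _ (leP_of_agree (fun v => (h1 v).symm) (fun e => (h2 e).symm)))

theorem IncP.tz {f : Cfg → ℝ} (hf : IncP f) : TZ f := fun _ _ h1 h2 => hf.eq_of_agree h1 h2

theorem InTZ.tz {B : Finset P2} {f : Cfg → ℝ} (hf : InTZ B f) : TZ f := fun _ _ h1 h2 =>
  hf _ _ (fun v _ => h1 v) (fun e _ => h2 e)

theorem OffTZ.tz {B : Finset P2} {f : Cfg → ℝ} (hf : OffTZ B f) : TZ f := fun _ _ h1 h2 =>
  hf _ _ (fun v _ => h1 v) (fun e _ => h2 e)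

theorem TZ.mul {f g : Cfg → ℝ} (hf : TZ f) (hg : TZ g) : TZ fun ω => f ω * g ω :=
  fun ω ω' h1 h2 => by
    show f ω * g ω = f ω' * g ω'
    rw [hf ω ω' h1 h2, hg ω ω' h1 h2]

theorem s1_shift2 {a b : ℤ} (h : s1 a = s1 b) : s1 (a + 2) = s1 (b + 2) := by
  rw [s1_add_two, s1_add_two, h]

theorem TZ.addH2 {f : Cfg → ℝ} (hf : TZ f) : TZ fun ω => f (addH 2 ω) :=
  fun ω ω' h1 h2 => hf _ _ (fun v => s1_shift2 (h1 v)) h2

/-- Under `InTZ`, an increasing function does not see the closed status of triangles whose base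
site is not interior. -/
theorem InTZ.eq_of_agree {B : Finset P2} {f : Cfg → ℝ} (hin : InTZ B f) (hf : IncP f) {ω ω' : Cfg}
    (h1 : ∀ v ∈ IV B, s1 (ω.1 v) = s1 (ω'.1 v))
    (h2 : ∀ t ∈ B, t ∈ IV B → ω.2 t = ω'.2 t) : f ω = f ω' := by
  classical
  have s0 : s1 0 = true := by decide
  have s2' : s1 2 = false := by decide
  have key : ∀ ω ω' : Cfg, (∀ v ∈ IV B, s1 (ω.1 v) = s1 (ω'.1 v)) →
      (∀ t ∈ B, t ∈ IV B → ω.2 t = ω'.2 t) → f ω ≤ f ω' := by
    intro ω ω' h1 h2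
    let a : Cfg := (fun v => if v ∈ IV B then ω.1 v else 2, fun e => if e ∈ B then ω.2 e else false)
    let b : Cfg := (fun v => if v ∈ IV B then ω'.1 v else 0, fun e => if e ∈ B then ω'.2 e else false)
    have ha : f ω = f a := by
      refine hin _ _ (fun v hv => ?_) (fun e he => ?_)
      · simp [a, hv]
      · simp [a, he]
    have hb : f ω' = f b := by
      refine hin _ _ (fun v hv => ?_) (fun e he => ?_)
      · simp [b, hv]
      · simp [b, he]
    rw [ha, hb]
    apply hf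
    refine ⟨fun x hx => ?_, fun e he => ?_, fun e he => ?_⟩
    · by_cases hv : x ∈ IV B
      · simp only [a, b, hv, if_true] at hx ⊢
        rw [← h1 x hv]; exact hx
      · simp only [b, hv, if_false]; exact s0
    · obtain ⟨he1, he2⟩ := he
      by_cases hv : e ∈ IV B
      · by_cases hE : e ∈ B
        · refine ⟨?_, ?_⟩
          · simp only [a, b, hE, if_true] at he1 ⊢
            rw [← h2 e hE hv]
            exact he1
          · simp only [a, b, hv, if_true] at he2 ⊢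
            rw [← h1 _ hv]; exact he2
        · simp only [a, hE, if_false] at he1
          exact absurd he1 (by simp)
      · simp only [a, hv, if_false] at he2
        rw [s2'] at he2
        exact absurd he2 (by decide)
    · obtain ⟨he1, he2⟩ := he
      by_cases hv : e ∈ IV B
      · by_cases hE : e ∈ B
        · refine ⟨?_, ?_⟩
          · simp only [a, b, hE, if_true] at he1 ⊢
            rw [h2 e hE hv]
            exact he1
          · simp only [a, b, hv, if_true] at he2 ⊢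
            rw [h1 _ hv]; exact he2
        · simp only [b, hE, if_false] at he1
          exact absurd he1 (by simp)
      · simp only [b, hv, if_false] at he2
        rw [s0] at he2
        exact absurd he2 (by decide)
  exact le_antisymm (key ω ω' h1 h2)
    (key ω' ω (fun v hv => (h1 v hv).symm) (fun e he hv => (h2 e he hv).symm))

/-! ### representatives -/

open Classical in
/-- configuration with given minus sites, plus-closed and minus-closed triangles -/
def mk (G T : Finset P2) (P M : Finset P2) : Cfg :=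
  (fun v => if v ∈ T then 2 else 0, fun t => decide (t ∉ G ∨ (t ∈ P ∧ t ∉ T) ∨ (t ∈ M ∧ t ∈ T)))

open Classical in
/-- configuration with given minus sites and closed triangles -/
def mkZ (G T : Finset P2) (Z : Finset P2) : Cfg :=
  (fun v => if v ∈ T then 2 else 0, fun t => decide (t ∉ G ∨ t ∈ Z))

theorem mk_s (G T : Finset P2) (P M : Finset P2) (v : P2) :
    s1 ((mk G T P M).1 v) = true ↔ v ∉ T := by
  unfold mk
  by_cases h : v ∈ T
  · simp only [h, if_true, not_true_eq_false, iff_false]; decide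
  · simp only [h, if_false, not_false_eq_true, iff_true]; decide

theorem mkZ_s (G T : Finset P2) (Z : Finset P2) (v : P2) :
    s1 ((mkZ G T Z).1 v) = true ↔ v ∉ T := by
  unfold mkZ
  by_cases h : v ∈ T
  · simp only [h, if_true, not_true_eq_false, iff_false]; decide
  · simp only [h, if_false, not_false_eq_true, iff_true]; decide

theorem mk_z (G T : Finset P2) (P M : Finset P2) (e : P2) :
    (mk G T P M).2 e = true ↔ (e ∉ G ∨ (e ∈ P ∧ e ∉ T) ∨ (e ∈ M ∧ e ∈ T)) := by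
  unfold mk
  simp only [decide_eq_true_eq]

theorem mkZ_z (G T : Finset P2) (Z : Finset P2) (e : P2) :
    (mkZ G T Z).2 e = true ↔ (e ∉ G ∨ e ∈ Z) := by
  unfold mkZ
  simp only [decide_eq_true_eq]

theorem bool_eq_of_iff {a b : Bool} (h : a = true ↔ b = true) : a = b := by
  cases a <;> cases b <;> simp_all

theorem sf_iff {a : ℤ} : s1 a = false ↔ ¬ (s1 a = true) := by
  cases s1 a <;> simp

theorem mk_leP (G : Finset P2) {T T' : Finset P2} {P P' M M' : Finset P2} (hT : T' ⊆ T)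
    (hP : P ⊆ P') (hM : M' ⊆ M) : LeP (mk G T P M) (mk G T' P' M') := by
  refine ⟨fun x hx => ?_, fun e he => ?_, fun e he => ?_⟩
  · rw [mk_s] at hx ⊢
    exact fun h => hx (hT h)
  · obtain ⟨h1, h2⟩ := he
    rw [mk_s] at h2
    rw [mk_z] at h1
    refine ⟨?_, ?_⟩
    · rw [mk_z]
      rcases h1 with h1 | h1 | h1
      · exact Or.inl h1
      · exact Or.inr (Or.inl ⟨hP h1.1, fun h => h1.2 (hT h)⟩)
      · exact absurd h1.2 h2
    · rw [mk_s]
      exact fun h => h2 (hT h)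
  · obtain ⟨h1, h2⟩ := he
    rw [sf_iff, mk_s, not_not] at h2
    rw [mk_z] at h1
    refine ⟨?_, ?_⟩
    · rw [mk_z]
      rcases h1 with h1 | h1 | h1
      · exact Or.inl h1
      · exact absurd h2 h1.2
      · exact Or.inr (Or.inr ⟨hM h1.1, hT h1.2⟩)
    · rw [sf_iff, mk_s, not_not]
      exact hT h2

theorem tz_conf {F : Finset P2} {f : Cfg → ℝ} (hf : TZ f) {ω : Cfg} (h : Valid F ω) :
    f ω = f (mkZ F (tm F ω.1) (zm F ω)) := by
  refine hf _ _ (fun v => ?_) (fun e => ?_)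
  · apply bool_eq_of_iff
    rw [mkZ_s, mem_tm h.ht, sf_iff, not_not]
  · apply bool_eq_of_iff
    rw [mkZ_z]
    unfold zm
    rw [Finset.mem_filter]
    constructor
    · intro hz
      by_cases he : e ∈ F
      · exact Or.inr ⟨he, hz⟩
      · exact Or.inl he
    · rintro (he | he)
      · exact h.cl e he
      · exact he.2

/-- normalisation of the marginal -/
def Nm (F : Finset P2) : ℝ := 2 ^ (VF F).card / 4 ^ F.card

theorem Nm_pos (F : Finset P2) : 0 < Nm F := by unfold Nm; positivity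

theorem S_tz {F : Finset P2} (hF : SC F) (c : ℝ) {f : Cfg → ℝ} (hf : TZ f) :
    S c F f = Nm F *
      ∑ T ∈ (IV F).powerset, ∑ Z ∈ F.powerset, fw up c F T Z * ncl F Z * f (mkZ F T Z) := by
  unfold Nm
  rw [← sum_conf_tz hF c (fun T Z => f (mkZ F T Z))]
  unfold S
  refine Finset.sum_congr rfl fun ω hω => ?_
  show wt c F ω * f ω = wt c F ω * f (mkZ F (tm F ω.1) (zm F ω))
  rw [← tz_conf hf (mem_conf.mp hω)]

/-! ### geometry of interior sites and triangles -/

theorem mem_of_corner {B : Finset P2} {t v : P2} (hv : v ∈ up t) (h : v ∈ IV B) : t ∈ B :=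
  (mem_IV'.1 h) t hv

theorem sum_powerset_split {α : Type*} [DecidableEq α] {A B : Finset α} (h : B ⊆ A)
    (F : Finset α → ℝ) :
    ∑ T ∈ A.powerset, F T = ∑ T1 ∈ (A \ B).powerset, ∑ T2 ∈ B.powerset, F (T2 ∪ T1) := by
  rw [← Finset.sum_product']
  refine Finset.sum_bij' (fun T _ => (T \ B, T ∩ B)) (fun p _ => p.2 ∪ p.1) ?_ ?_ ?_ ?_ ?_
  · intro T hT
    rw [Finset.mem_powerset] at hT
    rw [Finset.mem_product, Finset.mem_powerset, Finset.mem_powerset]
    exact ⟨Finset.sdiff_subset_sdiff hT (Finset.Subset.refl _), Finset.inter_subset_right⟩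
  · intro p hp
    rw [Finset.mem_product, Finset.mem_powerset, Finset.mem_powerset] at hp
    rw [Finset.mem_powerset]
    exact Finset.union_subset (hp.2.trans h) (hp.1.trans Finset.sdiff_subset)
  · intro T _
    ext x
    simp only [Finset.mem_union, Finset.mem_inter, Finset.mem_sdiff]
    tauto
  · rintro ⟨p, q⟩ hp
    rw [Finset.mem_product, Finset.mem_powerset, Finset.mem_powerset] at hp
    have h1 : ∀ x, x ∈ p → x ∉ B := fun x hx => (Finset.mem_sdiff.mp (hp.1 hx)).2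
    have h2 : ∀ x, x ∈ q → x ∈ B := fun x hx => hp.2 hx
    simp only [Prod.mk.injEq]
    constructor
    · ext x
      have := h1 x
      have := h2 x
      simp only [Finset.mem_union, Finset.mem_sdiff]
      tauto
    · ext x
      have := h1 x
      have := h2 x
      simp only [Finset.mem_union, Finset.mem_inter]
      tauto
  · intro T _
    congr 1
    ext x
    simp only [Finset.mem_union, Finset.mem_inter, Finset.mem_sdiff]
    tauto

theorem cs_congr {T T' : Finset P2} {t : P2} (h : ∀ v ∈ up t, (v ∈ T ↔ v ∈ T')) :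
    Cs up T t ↔ Cs up T' t := by
  unfold Cs
  constructor
  · rintro (h1 | h1)
    · exact Or.inl fun v hv => (h v hv).1 (h1 v hv)
    · exact Or.inr fun v hv h2 => h1 v hv ((h v hv).2 h2)
  · rintro (h1 | h1)
    · exact Or.inl fun v hv => (h v hv).2 (h1 v hv)
    · exact Or.inr fun v hv h2 => h1 v hv ((h v hv).1 h2)

theorem fw_congr (c : ℝ) {E T T' Z Z' : Finset P2} (hT : ∀ t ∈ E, ∀ v ∈ up t, (v ∈ T ↔ v ∈ T'))
    (hZ : ∀ t ∈ E, (t ∈ Z ↔ t ∈ Z')) : fw up c E T Z = fw up c E T' Z' := by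
  unfold fw
  refine Finset.prod_congr rfl fun t ht => ?_
  have h1 := cs_congr (hT t ht)
  have h2 := hZ t ht
  simp only [h1, h2]

theorem fw_split (c : ℝ) {B G : Finset P2} (hBG : B ⊆ G) {T1 T2 : Finset P2} {Z1 Z2 : Finset P2}
    (hT2 : T2 ⊆ IV B) (hZ2 : Z2 ⊆ B) (hZ1 : Z1 ⊆ G \ B) :
    fw up c G (T2 ∪ T1) (Z2 ∪ Z1) =
      fw up c (G \ B) T1 Z1 * fw up c B (T2 ∪ T1) Z2 := by
  have h0 : fw up c G (T2 ∪ T1) (Z2 ∪ Z1) =
      fw up c (G \ B) (T2 ∪ T1) (Z2 ∪ Z1) * fw up c B (T2 ∪ T1) (Z2 ∪ Z1) := by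
    unfold fw
    exact (Finset.prod_sdiff hBG).symm
  rw [h0]
  congr 1
  · refine fw_congr c (fun t ht v hv => ?_) (fun t ht => ?_)
    · have h1 : v ∉ T2 := fun h => (Finset.mem_sdiff.1 ht).2 (mem_of_corner hv (hT2 h))
      simp only [Finset.mem_union, h1, false_or]
    · have h3 : t ∉ Z2 := fun h => (Finset.mem_sdiff.1 ht).2 (hZ2 h)
      simp only [Finset.mem_union, h3, false_or]
  · refine fw_congr c (fun t ht v hv => Iff.rfl) (fun t ht => ?_)
    have h3 : t ∉ Z1 := fun h => (Finset.mem_sdiff.mp (hZ1 h)).2 ht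
    simp only [Finset.mem_union (s := Z2), h3, or_false]

theorem fw_zero_of_not (c : ℝ) (E : Finset P2) (X : Finset P2) {Z : Finset P2} (hZ : Z ⊆ E)
    (h : ¬ ∀ t ∈ Z, Cs up X t) : fw up c E X Z = 0 := by
  push Not at h
  obtain ⟨t, ht, hne⟩ := h
  unfold fw
  apply Finset.prod_eq_zero (hZ ht)
  rw [if_neg hne, if_pos ht]

/-- environment seen by `B` -/
def eta (T1 : Finset P2) (Z1 : Finset P2) : BC P2 P2 :=
  ⟨T1, Z1.filter fun t => t ∉ T1, Z1.filter fun t => t ∈ T1⟩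

theorem eta_union (T1 : Finset P2) (Z1 : Finset P2) :
    (eta T1 Z1).Dp ∪ (eta T1 Z1).Dm = Z1 := by
  unfold eta
  ext e
  simp only [Finset.mem_union, Finset.mem_filter]
  tauto

theorem eta_ok {B G T1 : Finset P2} {Z1 : Finset P2} (hT1 : T1 ⊆ IV G \ IV B)
    (hZ1 : Z1 ⊆ G \ B) : (eta T1 Z1).Ok (IV B) B := by
  have hd : ∀ W ⊆ Z1, Disjoint W B := by
    intro W hW
    rw [Finset.disjoint_left]
    intro p h1 h2
    exact (Finset.mem_sdiff.mp (hZ1 (hW h1))).2 h2
  refine ⟨?_, hd _ (Finset.filter_subset _ _), hd _ (Finset.filter_subset _ _)⟩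
  rw [Finset.disjoint_left]
  intro v hv
  exact (Finset.mem_sdiff.mp (hT1 hv)).2

theorem base_mem_up (t : P2) : t ∈ up t := mem_up.2 (Or.inl rfl)

theorem cs_plus {X : Finset P2} {t : P2} (h : Cs up X t) (ht : t ∉ X) : ∀ v ∈ up t, v ∉ X := by
  rcases h with h | h
  · exact absurd (h t (base_mem_up t)) ht
  · exact h

theorem cs_minus {X : Finset P2} {t : P2} (h : Cs up X t) (ht : t ∈ X) : ∀ v ∈ up t, v ∈ X := by
  rcases h with h | h
  · exact h
  · exact absurd ht (h t (base_mem_up t))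

theorem eta_sep {VA B G T1 : Finset P2} {Z1 : Finset P2} (hZ1 : Z1 ⊆ G \ B)
    (h : ∀ t ∈ Z1, Cs up T1 t) : Sep up dn VA (IV B) B (eta T1 Z1) := by
  constructor
  · intro e he v hv
    simp only [eta, Finset.mem_filter] at he
    refine ⟨fun hv' => (Finset.mem_sdiff.mp (hZ1 he.1)).2 (mem_of_corner hv hv'), ?_⟩
    exact cs_plus (h e he.1) he.2 v hv
  · intro e he v hv
    simp only [eta, Finset.mem_filter] at he
    exact cs_minus (h e he.1) he.2 v hv
  · intro e _ e' _ i j hij _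
    exact share hij
  · intro e _
    exact ⟨e, base_mem_up e⟩

/-- Unnormalised environment expectation inside `B` (dual signs on `VA`). -/
def EB (c : ℝ) (VA B : Finset P2) (η : BC P2 P2)
    (f : Finset P2 → Finset P2 → Finset P2 → ℝ) : ℝ :=
  En up dn VA (IV B) B c η f

/-- `Z`-form of the environment expectation. -/
theorem EB_eq (c : ℝ) (VA B : Finset P2) {η : BC P2 P2} (hs : Sep up dn VA (IV B) B η)
    (f : Finset P2 → Finset P2 → Finset P2 → ℝ) :
    EB c VA B η f = psi dn VA c ∅ ∅ * ∑ T ∈ (IV B).powerset, ∑ Z ∈ B.powerset,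
      fw up c B (T ∪ η.T0) Z * psi dn VA c (η.Dp ∪ η.Dm ∪ Z) ∅ *
        f T (Z ∩ E2 up B (T ∪ η.T0)) (Z ∩ E1 up B (T ∪ η.T0)) := En_Z c hs f


/-- **Environment decomposition.** -/
theorem decomp (c : ℝ) {B G : Finset P2} (hBG : B ⊆ G) (g1 : Finset P2 → Finset P2 → ℝ)
    (φ : Finset P2 → Finset P2 → Finset P2 → ℝ) :
    psi dn (ID G) c ∅ ∅ * ∑ T ∈ (IV G).powerset, ∑ Z ∈ G.powerset, fw up c G T Z * ncl G Z *
      (g1 (T \ IV B) (Z \ B) * φ (T ∩ IV B) (Z ∩ E2 up B T) (Z ∩ E1 up B T)) =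
    ∑ T1 ∈ (IV G \ IV B).powerset, ∑ Z1 ∈ (G \ B).powerset,
      fw up c (G \ B) T1 Z1 * g1 T1 Z1 * EB c (ID G) B (eta T1 Z1) φ := by
  rw [sum_powerset_split (IV_mono hBG), Finset.mul_sum]
  refine Finset.sum_congr rfl fun T1 hT1 => ?_
  rw [Finset.mem_powerset] at hT1
  have h0 : ∀ T2 ∈ (IV B).powerset,
      ∑ Z ∈ G.powerset, fw up c G (T2 ∪ T1) Z * ncl G Z *
        (g1 ((T2 ∪ T1) \ IV B) (Z \ B) *
          φ ((T2 ∪ T1) ∩ IV B) (Z ∩ E2 up B (T2 ∪ T1)) (Z ∩ E1 up B (T2 ∪ T1))) =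
      ∑ Z1 ∈ (G \ B).powerset, ∑ Z2 ∈ B.powerset,
        fw up c (G \ B) T1 Z1 * fw up c B (T2 ∪ T1) Z2 *
          ncl G (Z2 ∪ Z1) * (g1 T1 Z1 * φ T2 (Z2 ∩ E2 up B (T2 ∪ T1))
            (Z2 ∩ E1 up B (T2 ∪ T1))) := by
    intro T2 hT2
    rw [Finset.mem_powerset] at hT2
    rw [sum_powerset_split hBG]
    refine Finset.sum_congr rfl fun Z1 hZ1 => Finset.sum_congr rfl fun Z2 hZ2 => ?_
    rw [Finset.mem_powerset] at hZ1 hZ2
    rw [fw_split c hBG hT2 hZ2 hZ1]
    have a1 : (T2 ∪ T1) \ IV B = T1 := by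
      ext x
      have := fun h : x ∈ T1 => (Finset.mem_sdiff.mp (hT1 h)).2
      have := fun h : x ∈ T2 => hT2 h
      simp only [Finset.mem_union, Finset.mem_sdiff]
      tauto
    have a2 : (T2 ∪ T1) ∩ IV B = T2 := by
      ext x
      have := fun h : x ∈ T1 => (Finset.mem_sdiff.mp (hT1 h)).2
      have := fun h : x ∈ T2 => hT2 h
      simp only [Finset.mem_union, Finset.mem_inter]
      tauto
    have a3 : (Z2 ∪ Z1) \ B = Z1 := by
      ext x
      have := fun h : x ∈ Z1 => (Finset.mem_sdiff.mp (hZ1 h)).2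
      have := fun h : x ∈ Z2 => hZ2 h
      simp only [Finset.mem_union, Finset.mem_sdiff]
      tauto
    have a4 : ∀ W ⊆ B, (Z2 ∪ Z1) ∩ W = Z2 ∩ W := by
      intro W hW
      ext x
      have := fun h : x ∈ Z1 => (Finset.mem_sdiff.mp (hZ1 h)).2
      have := fun h : x ∈ W => hW h
      simp only [Finset.mem_union, Finset.mem_inter]
      tauto
    rw [a1, a2, a3, a4 _ (E2_sub _ _ _), a4 _ (E1_sub _ _ _)]
  rw [Finset.sum_congr rfl h0, Finset.sum_comm, Finset.mul_sum]
  refine Finset.sum_congr rfl fun Z1 hZ1 => ?_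
  rw [Finset.mem_powerset] at hZ1
  by_cases hs : ∀ t ∈ Z1, Cs up T1 t
  · rw [EB_eq c (ID G) B (eta_sep hZ1 hs) φ, eta_union]
    have hT0 : (eta T1 Z1).T0 = T1 := rfl
    rw [hT0]
    rw [Finset.mul_sum, Finset.mul_sum, Finset.mul_sum]
    refine Finset.sum_congr rfl fun T2 hT2 => ?_
    rw [Finset.mul_sum, Finset.mul_sum, Finset.mul_sum]
    refine Finset.sum_congr rfl fun Z2 hZ2 => ?_
    rw [← psi_ncl c G (Z2 ∪ Z1), Finset.union_comm Z2]
    ring
  · rw [fw_zero_of_not c _ _ hZ1 hs]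
    simp only [zero_mul]
    rw [Finset.sum_eq_zero (fun _ _ => Finset.sum_const_zero), mul_zero]

/-! ### restriction of the domain -/

theorem ch_eq_iff {B : Finset P2} {v w : P2} : ch B v = ch B w ↔ (v ∈ B ↔ w ∈ B) := by
  unfold ch
  by_cases h1 : v ∈ B <;> by_cases h2 : w ∈ B <;> simp [h1, h2]

theorem ncl_restrict {F G : Finset P2} (hF : SC F) (hFG : F ⊆ G) {Z : Finset P2}
    (hZ : G \ F ⊆ Z) : ncl G Z = ncl F (Z ∩ F) := by
  classical
  unfold ncl
  rw [psi_eq, psi_eq]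
  refine Eq.symm ?_
  have hin : ∀ B ⊆ ID F, ∀ t, t ∉ F → M3 (dn t) (ch B) := by
    intro B hB t ht
    have h0 : ∀ i, ch B (dn t i) = 0 := fun i => by
      unfold ch
      rw [if_neg]
      intro h
      exact ht ((mem_ID'.1 (hB h)) t i rfl)
    exact ⟨by rw [h0, h0], by rw [h0, h0]⟩
  calc ∑ B ∈ (ID F).powerset, ∏ t ∈ Z ∩ F, (if M3 (dn t) (ch B) then (1 : ℝ) else 0)
      = ∑ B ∈ (ID F).powerset, ∏ t ∈ Z, (if M3 (dn t) (ch B) then (1 : ℝ) else 0) := by
        refine Finset.sum_congr rfl fun B hB => ?_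
        rw [Finset.mem_powerset] at hB
        refine Finset.prod_subset Finset.inter_subset_left fun t ht ht' => ?_
        rw [if_pos]
        refine hin B hB t fun h => ht' (Finset.mem_inter.2 ⟨ht, h⟩)
    _ = _ := by
        refine Finset.sum_subset (Finset.powerset_mono.mpr (ID_mono hFG)) fun B hB hBF => ?_
        rw [Finset.mem_powerset] at hB
        by_contra hne
        apply hBF
        have hall : ∀ t ∈ Z, M3 (dn t) (ch B) := by
          intro t ht
          by_contra h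
          exact hne (Finset.prod_eq_zero ht (if_neg h))
        have hconst : ∀ t, t ∉ F → ∀ i, (decide (dn t i ∈ B) : Bool) = decide (t ∈ B) := by
          intro t ht i
          apply bool_eq_of_iff
          simp only [decide_eq_true_eq]
          by_cases htG : t ∈ G
          · obtain ⟨h1, h2⟩ := hall t (hZ (Finset.mem_sdiff.mpr ⟨htG, ht⟩))
            rw [ch_eq_iff] at h1 h2
            fin_cases i
            · exact Iff.rfl
            · exact h1.symm
            · exact h2.symm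
          · constructor
            · intro h; exact absurd ((mem_ID'.1 (hB h)) t i rfl) htG
            · intro h; exact absurd ((mem_ID'.1 (hB h)) t 0 rfl) htG
        obtain ⟨v0, hv0⟩ := Infinite.exists_notMem_finset (F ∪ B)
        rw [Finset.mem_union, not_or] at hv0
        rw [Finset.mem_powerset]
        intro v hv
        by_contra hvF
        have h1 := const_dn hF (fun v => (decide (v ∈ B) : Bool)) hconst hvF
          (fun h => hv0.1 (ID_sub F h))
        simp only [decide_eq_decide] at h1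
        exact hv0.2 (h1.1 hv)

theorem fw_restrict (c : ℝ) {F G : Finset P2} (hFG : F ⊆ G) {T : Finset P2} (hT : T ⊆ IV F)
    {Z : Finset P2} (hZ : G \ F ⊆ Z) :
    fw up c G T Z = 4 ^ (G \ F).card * fw up c F T (Z ∩ F) := by
  unfold fw
  rw [← Finset.prod_sdiff hFG]
  congr 1
  · rw [Finset.prod_congr (g := fun _ => (4 : ℝ)) rfl, Finset.prod_const]
    intro t ht
    have htF := (Finset.mem_sdiff.mp ht).2
    have h1 : Cs up T t := Or.inr fun v hv h => htF (mem_of_corner hv (hT h))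
    rw [if_pos h1, if_pos (hZ ht)]
  · refine Finset.prod_congr rfl fun t ht => ?_
    simp only [Finset.mem_inter, ht, and_true]

open Classical in
theorem restrict (c : ℝ) {F G : Finset P2} (hF : SC F) (hFG : F ⊆ G)
    (h : Finset P2 → Finset P2 → ℝ) :
    ∑ T ∈ (IV G).powerset, ∑ Z ∈ G.powerset, fw up c G T Z * ncl G Z *
      (if T ⊆ IV F ∧ G \ F ⊆ Z then h T (Z ∩ F) else 0) =
    4 ^ (G \ F).card * ∑ T ∈ (IV F).powerset, ∑ Z ∈ F.powerset,
      fw up c F T Z * ncl F Z * h T Z := by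
  have h1 : ∑ T ∈ (IV F).powerset, ∑ Z ∈ G.powerset, fw up c G T Z * ncl G Z *
      (if T ⊆ IV F ∧ G \ F ⊆ Z then h T (Z ∩ F) else 0) =
      ∑ T ∈ (IV G).powerset, ∑ Z ∈ G.powerset, fw up c G T Z * ncl G Z *
      (if T ⊆ IV F ∧ G \ F ⊆ Z then h T (Z ∩ F) else 0) := by
    refine Finset.sum_subset (Finset.powerset_mono.mpr (IV_mono hFG)) fun T _ hT => ?_
    refine Finset.sum_eq_zero fun Z _ => ?_
    rw [if_neg, mul_zero]
    exact fun h => hT (Finset.mem_powerset.mpr h.1)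
  rw [← h1, Finset.mul_sum]
  refine Finset.sum_congr rfl fun T hT => ?_
  rw [Finset.mem_powerset] at hT
  rw [Finset.mul_sum, sum_powerset_split hFG]
  -- only `Z1 = G \ F` contributes
  rw [Finset.sum_eq_single (G \ F)]
  · refine Finset.sum_congr rfl fun Z hZ => ?_
    rw [Finset.mem_powerset] at hZ
    have h2 : G \ F ⊆ Z ∪ (G \ F) := Finset.subset_union_right
    have h3 : (Z ∪ (G \ F)) ∩ F = Z := by
      ext e
      have := fun h : e ∈ Z => hZ h
      simp only [Finset.mem_inter, Finset.mem_union, Finset.mem_sdiff]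
      tauto
    rw [if_pos ⟨hT, h2⟩, fw_restrict c hFG hT h2, ncl_restrict hF hFG h2, h3]
    ring
  · intro Z1 hZ1 hne
    rw [Finset.mem_powerset] at hZ1
    refine Finset.sum_eq_zero fun Z2 hZ2 => ?_
    rw [Finset.mem_powerset] at hZ2
    rw [if_neg, mul_zero]
    rintro ⟨_, h2⟩
    apply hne
    apply Finset.Subset.antisymm hZ1
    intro e he
    rcases Finset.mem_union.mp (h2 he) with h3 | h3
    · exact absurd (hZ2 h3) (Finset.mem_sdiff.mp he).2
    · exact h3
  · intro h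
    exact absurd (Finset.mem_powerset.mpr (Finset.Subset.refl _)) h

theorem mkZ_restrict {F G : Finset P2} (hFG : F ⊆ G) (T : Finset P2) {Z : Finset P2}
    (hZ : G \ F ⊆ Z) : mkZ G T Z = mkZ F T (Z ∩ F) := by
  refine Prod.ext rfl ?_
  funext e
  apply bool_eq_of_iff
  rw [mkZ_z, mkZ_z, Finset.mem_inter]
  by_cases he : e ∈ F
  · have := hFG he
    tauto
  · by_cases heG : e ∈ G
    · have := hZ (Finset.mem_sdiff.mpr ⟨heG, he⟩)
      tauto
    · tauto

/-- normalising constant -/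
def Kc (F G : Finset P2) : ℝ := Nm F / 4 ^ (G \ F).card / ncl G ∅

theorem Kc_pos (F G : Finset P2) : 0 < Kc F G := by
  unfold Kc
  have h1 := ncl_pos G ∅
  have h2 := Nm_pos F
  positivity

open Classical in
/-- **Master representation.** -/
theorem master (c : ℝ) {F G B : Finset P2} (hF : SC F) (hFG : F ⊆ G) (hBG : B ⊆ G)
    {h : Cfg → ℝ} (hh : TZ h) (g1 : Finset P2 → Finset P2 → ℝ)
    (φ : Finset P2 → Finset P2 → Finset P2 → ℝ)
    (hc : ∀ T ⊆ IV G, ∀ Z ⊆ G, (∀ t ∈ Z, Cs up T t) →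
      (if T ⊆ IV F ∧ G \ F ⊆ Z then h (mkZ G T Z) else 0) =
        g1 (T \ IV B) (Z \ B) *
          φ (T ∩ IV B) (Z ∩ E2 up B T) (Z ∩ E1 up B T)) :
    S c F h = Kc F G * ∑ T1 ∈ (IV G \ IV B).powerset, ∑ Z1 ∈ (G \ B).powerset,
      fw up c (G \ B) T1 Z1 * g1 T1 Z1 * EB c (ID G) B (eta T1 Z1) φ := by
  rw [S_tz hF c hh, ← decomp c hBG g1 φ]
  have h1 := restrict c hF hFG (fun T Z => h (mkZ F T Z))
  have h2 : ∑ T ∈ (IV G).powerset, ∑ Z ∈ G.powerset, fw up c G T Z * ncl G Z *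
      (if T ⊆ IV F ∧ G \ F ⊆ Z then h (mkZ F T (Z ∩ F)) else 0) =
      ∑ T ∈ (IV G).powerset, ∑ Z ∈ G.powerset, fw up c G T Z * ncl G Z *
      (g1 (T \ IV B) (Z \ B) *
        φ (T ∩ IV B) (Z ∩ E2 up B T) (Z ∩ E1 up B T)) := by
    refine Finset.sum_congr rfl fun T hT => Finset.sum_congr rfl fun Z hZ => ?_
    rw [Finset.mem_powerset] at hT hZ
    by_cases hs : ∀ t ∈ Z, Cs up T t
    · rw [← hc T hT Z hZ hs]
      congr 1
      split_ifs with h3
      · rw [mkZ_restrict hFG T h3.2]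
      · rfl
    · rw [fw_zero_of_not c _ _ hZ hs]
      ring
  rw [← h2, h1, psi_ncl]
  unfold Kc
  have h3 := (ncl_pos G ∅).ne'
  field_simp

/-! ### association and domain monotonicity -/

open Classical in
/-- indicator of the restriction event -/
def Ain (F E0 : Finset P2) (T : Finset P2) (P _M : Finset P2) : ℝ :=
  if T ⊆ IV F ∧ E0 \ F ⊆ P then 1 else 0

theorem Ain_inc (F E0 : Finset P2) : Inc (Ain F E0) := by
  intro T T' P P' M M' hT hP _
  unfold Ain
  by_cases h : T ⊆ IV F ∧ E0 \ F ⊆ P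
  · rw [if_pos h, if_pos ⟨hT.trans h.1, h.2.trans hP⟩]
  · rw [if_neg h]
    split_ifs <;> norm_num

theorem Ain_nonneg (F E0 : Finset P2) (T : Finset P2) (P M : Finset P2) :
    0 ≤ Ain F E0 T P M := by
  unfold Ain
  split_ifs <;> norm_num

/-- on valid pairs the two representatives agree for `(s1, z)` -/
theorem mk_eq_mkZ {G T Z : Finset P2} (hZ : Z ⊆ G) (hs : ∀ t ∈ Z, Cs up T t) {f : Cfg → ℝ} (hf : TZ f) :
    f (mkZ G T Z) = f (mk G T (Z ∩ E2 up G T) (Z ∩ E1 up G T)) := by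
  apply hf
  · intro v
    apply bool_eq_of_iff
    rw [mkZ_s, mk_s]
  · intro e
    apply bool_eq_of_iff
    rw [mkZ_z, mk_z]
    simp only [Finset.mem_inter, E1, E2, Finset.mem_filter]
    constructor
    · rintro (h | h)
      · exact Or.inl h
      · by_cases he : e ∈ T
        · exact Or.inr (Or.inr ⟨⟨h, hZ h, cs_minus (hs e h) he⟩, he⟩)
        · exact Or.inr (Or.inl ⟨⟨h, hZ h, cs_plus (hs e h) he⟩, he⟩)
    · rintro (h | h | h)
      · exact Or.inl h
      · exact Or.inr h.1.1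
      · exact Or.inr h.1.1

/-- Representation of `E_F` inside `G ⊇ F`. -/
theorem rep (c : ℝ) {F G : Finset P2} (hF : SC F) (hFG : F ⊆ G) {f : Cfg → ℝ}
    (hf : TZ f) :
    S c F f = Kc F G * EB c (ID G) G (eta ∅ ∅)
      (fun T P M => Ain F G T P M * f (mk G T P M)) := by
  rw [master c hF hFG (Finset.Subset.refl G) hf (fun _ _ => 1)
    (fun T P M => Ain F G T P M * f (mk G T P M))]
  · simp only [Finset.sdiff_self, Finset.powerset_empty, Finset.sum_singleton]
    unfold fw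
    simp
  · intro T hT Z hZ hs
    have e1 : T ∩ IV G = T := Finset.inter_eq_left.mpr hT
    rw [e1, one_mul]
    unfold Ain
    have hiff : (T ⊆ IV F ∧ G \ F ⊆ Z) ↔
        (T ⊆ IV F ∧ G \ F ⊆ Z ∩ E2 up G T) := by
      refine and_congr_right fun hTF => ?_
      constructor
      · intro h e he
        have heF := (Finset.mem_sdiff.mp he).2
        simp only [Finset.mem_inter, E2, Finset.mem_filter]
        exact ⟨h he, (Finset.mem_sdiff.mp he).1, fun v hv h => heF (mem_of_corner hv (hTF h))⟩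
      · intro h
        exact h.trans Finset.inter_subset_left
    by_cases hA : T ⊆ IV F ∧ G \ F ⊆ Z
    · rw [if_pos hA, if_pos (hiff.1 hA), one_mul]
      exact mk_eq_mkZ hZ hs hf
    · rw [if_neg hA, if_neg (fun h => hA (hiff.2 h)), zero_mul]

theorem mkG_inc (G : Finset P2) {f : Cfg → ℝ} (hf : IncP f) :
    Inc (fun T P M => f (mk G T P M)) := by
  intro T T' P P' M M' hT hP hM
  exact hf _ _ (mk_leP G hT hP hM)

theorem EB_fkg {c : ℝ} (hc : 1 ≤ c) {VA B : Finset P2} {η : BC P2 P2}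
    (hη : η.Ok (IV B) B) {f g : Finset P2 → Finset P2 → Finset P2 → ℝ}
    (hf : Inc f) (hg : Inc g) :
    EB c VA B η f * EB c VA B η g ≤
      EB c VA B η (fun _ _ _ => 1) * EB c VA B η (fun T P M => f T P M * g T P M) :=
  En_fkg (up := up) (dn := dn) (VA := VA) hc hη hf hg

theorem EB_mono {c : ℝ} (hc : 1 ≤ c) {VA B : Finset P2} {η η' : BC P2 P2}
    (hη : η.Ok (IV B) B) (hη' : η'.Ok (IV B) B) (hle : η.Le η')
    {f : Finset P2 → Finset P2 → Finset P2 → ℝ} (hf : Inc f) :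
    EB c VA B η f * EB c VA B η' (fun _ _ _ => 1) ≤
      EB c VA B η (fun _ _ _ => 1) * EB c VA B η' f :=
  En_mono (up := up) (dn := dn) (VA := VA) hc hη hη' hle hf

theorem EB_one_pos {c : ℝ} (hc : 1 ≤ c) {VA B : Finset P2} {η : BC P2 P2}
    (hη : η.Ok (IV B) B) : 0 < EB c VA B η (fun _ _ _ => 1) :=
  En_one_pos (up := up) (dn := dn) (VA := VA) hc hη

theorem eta0_ok (B : Finset P2) : (eta ∅ ∅).Ok (IV B) B := by
  refine ⟨?_, ?_, ?_⟩ <;> simp [eta]

theorem aw_zero {c : ℝ} {VA D E P : Finset P2} (h : ¬ P ⊆ E) : aw dn VA c D E P = 0 := by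
  unfold aw; rw [if_neg h]

theorem EB_congr {c : ℝ} {VA B : Finset P2} {η : BC P2 P2}
    {f g : Finset P2 → Finset P2 → Finset P2 → ℝ}
    (h : ∀ T ⊆ IV B, ∀ P ⊆ E2 up B (T ∪ η.T0), ∀ M ⊆ E1 up B (T ∪ η.T0), f T P M = g T P M) :
    EB c VA B η f = EB c VA B η g := by
  unfold EB En
  refine Finset.sum_congr rfl fun T hT => Finset.sum_congr rfl fun M _ =>
    Finset.sum_congr rfl fun P _ => ?_
  by_cases h1 : M ⊆ E1 up B (T ∪ η.T0)
  · by_cases h2 : P ⊆ E2 up B (T ∪ η.T0)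
    · rw [h T (Finset.mem_powerset.mp hT) P h2 M h1]
    · rw [aw_zero h2]; ring
  · rw [aw_zero h1]; ring

theorem rep_self (c : ℝ) {F : Finset P2} (hF : SC F) {f : Cfg → ℝ} (hf : TZ f) :
    S c F f = Kc F F * EB c (ID F) F (eta ∅ ∅) (fun T P M => f (mk F T P M)) := by
  rw [rep c hF (Finset.Subset.refl F) hf]
  congr 1
  apply EB_congr
  intro T hT P _ M _
  unfold Ain
  rw [if_pos ⟨hT, by rw [Finset.sdiff_self]; exact Finset.empty_subset _⟩, one_mul]

theorem incP_one : IncP (fun _ => 1) := fun _ _ _ => le_rfl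

theorem Z_eq (c : ℝ) {F : Finset P2} (hF : SC F) :
    Z c F = Kc F F * EB c (ID F) F (eta ∅ ∅) (fun _ _ _ => 1) := by
  rw [← S_one]
  exact rep_self c hF incP_one.tz

/-- **(A1) Association.** -/
theorem assoc {c : ℝ} (hc : 1 ≤ c) {F : Finset P2} (hF : SC F) {f g : Cfg → ℝ}
    (hf : IncP f) (hg : IncP g) :
    E c F f * E c F g ≤ E c F (fun ω => f ω * g ω) := by
  have hfg := rep_self c hF (hf.tz.mul hg.tz)
  have h1 := EB_fkg hc (VA := ID F) (eta0_ok F) (mkG_inc F hf) (mkG_inc F hg)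
  have hZ := Z_pos hc F
  rw [E_eq_S, E_eq_S, E_eq_S, div_mul_div_comm, div_le_div_iff₀ (mul_pos hZ hZ) hZ, hfg,
    rep_self c hF hf.tz, rep_self c hF hg.tz]
  have hK := Kc_pos F F
  have hZ' := Z_eq c hF
  set a := EB c (ID F) F (eta ∅ ∅) (fun T P M => f (mk F T P M))
  set b := EB c (ID F) F (eta ∅ ∅) (fun T P M => g (mk F T P M))
  set d := EB c (ID F) F (eta ∅ ∅) (fun T P M => f (mk F T P M) * g (mk F T P M))
  set o := EB c (ID F) F (eta ∅ ∅) (fun _ _ _ => 1)
  have h2 : Kc F F * a * (Kc F F * b) ≤ Z c F * (Kc F F * d) := by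
    rw [hZ']
    have := mul_le_mul_of_nonneg_left h1 (mul_pos hK hK).le
    linarith
  calc Kc F F * a * (Kc F F * b) * Z c F ≤ Z c F * (Kc F F * d) * Z c F :=
        mul_le_mul_of_nonneg_right h2 hZ.le
    _ = Kc F F * d * (Z c F * Z c F) := by ring

/-- **(A2) Domain monotonicity.** -/
theorem dom_mono {c : ℝ} (hc : 1 ≤ c) {F F' : Finset P2} (hF : SC F)
    (hF' : SC F') (hFF : F ⊆ F') {f : Cfg → ℝ} (hf : IncP f) :
    E c F' f ≤ E c F f := by
  have h1 := EB_fkg hc (VA := ID F') (eta0_ok F') (Ain_inc F F') (mkG_inc F' hf)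
  have hZ := Z_pos hc F
  have hZ' := Z_pos hc F'
  have z1 : Z c F = Kc F F' * EB c (ID F') F' (eta ∅ ∅) (Ain F F') := by
    rw [← S_one, rep c hF hFF incP_one.tz]
    simp only [mul_one]
  rw [E_eq_S, E_eq_S, div_le_div_iff₀ hZ' hZ, rep c hF hFF hf.tz, rep_self c hF' hf.tz, z1,
    Z_eq c hF']
  have hK := Kc_pos F F'
  have hK' := Kc_pos F' F'
  have := mul_le_mul_of_nonneg_left h1 (mul_pos hK' hK).le
  nlinarith [this]

end Crest.Agent.R144.Ze349
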