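import Crest.Agent.R144.Bx1_695
import Crest.Agent.R144.Ze_349

/-!
# R144, block B4 of BND (helper695), part 2: spatial Markov property of the F-type law and sandwiches

`c = x⁻²`.  `Off Λ φ` : `φ : Cfg → ℝ` does not depend on the heights in `Λ` and on the closed indicators of
`upT Λ`.

* `E_dlr` : `upT Λ ⊆ F`, `Off Λ φ` ⟹ `E c F (φ ω * f ω.1) = E c F (φ ω * ex x Λ ω.1 f)`;
* `le_E`, `E_le` : if `τ ≤ ω.1` (resp. `≥`) off `Λ` on the support of `φ ≥ 0` and `f` is increasing then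
  `ex x Λ τ f * E c F φ ≤ E c F (φ * f)` (resp. `≥`); `le_E_loc`, `E_le_loc` : the same when the inequality is
  known on the outer boundary of `Λ` only and `f` depends only on the heights in `Λ`.
-/

set_option autoImplicit false
set_option linter.unusedVariables false
set_option linter.unusedSectionVars false

noncomputable section

namespace Crest.Agent.R144.Bx695

open Finset
open Crest.Agent.R144.It844 (P2 ph ph_nonneg Lip Cst tw E3 E3_eq_tw lsm_E3 upT mem_upT ex nbhd)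
open Crest.Agent.R161.Lsm375 (LSM)
open Crest.Agent.R144.Zg349 Crest.Agent.R144.Zk349 Crest.Agent.R144.Zd349
open Crest.Agent.R144.Zm349
open Crest.Agent.R144.Ze349 (sum_powerset_split)
open Crest.ProbabilityR.HexHeights (Adj)

/-- `φ` does not depend on the heights in `Λ` and on the closed indicators of `upT Λ` -/
def Off (Λ : Finset P2) (φ : Cfg → ℝ) : Prop :=
  ∀ ω ω' : Cfg, (∀ v, v ∉ Λ → ω.1 v = ω'.1 v) → (∀ t, t ∉ upT Λ → ω.2 t = ω'.2 t) → φ ω = φ ω'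

theorem Off.mul {Λ : Finset P2} {φ ψ : Cfg → ℝ} (h1 : Off Λ φ) (h2 : Off Λ ψ) :
    Off Λ (fun ω => φ ω * ψ ω) := fun ω ω' a b => by
  show φ ω * ψ ω = φ ω' * ψ ω'
  rw [h1 ω ω' a b, h2 ω ω' a b]

theorem Off.mono {Λ Λ' : Finset P2} (h : Λ' ⊆ Λ) {φ : Cfg → ℝ} (h1 : Off Λ φ) : Off Λ' φ :=
  fun ω ω' a b => h1 ω ω' (fun v hv => a v fun h2 => hv (h h2))
    fun t ht => b t fun h2 => ht (Crest.Agent.R144.It844.upT_mono h h2)

theorem iv_of_upT {Λ F : Finset P2} (h : upT Λ ⊆ F) : Λ ⊆ IV F := by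
  intro v hv
  rw [mem_IV']
  intro t ht
  apply h
  rw [mem_upT]
  rw [Zg349.mem_up] at ht
  rcases ht with rfl | rfl | rfl
  · exact Or.inl hv
  · exact Or.inr (Or.inl hv)
  · exact Or.inr (Or.inr hv)

/-- changing an admissible height inside `Λ` -/
theorem hv_conf {F Λ : Finset P2} (hΛ : upT Λ ⊆ F) {h g : P2 → ℤ} (hh : HV F h)
    (hg : g ∈ It844.conf Λ h) : HV F g := by
  rw [It844.mem_conf] at hg
  refine ⟨fun t _ i j => ?_, fun v hv => ?_, fun v hv => ?_⟩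
  · have hl := hg.1
    rw [It844.lip_iff] at hl
    obtain ⟨h1, h2, h3⟩ := hl t
    fin_cases i <;> fin_cases j <;>
      simp only [Fin.zero_eta, Fin.mk_one, Fin.reduceFinMk, cr0, cr1, cr2, sub_self, abs_zero,
        zero_le_one] <;> first | assumption | (rw [abs_sub_comm]; assumption)
  · rw [hg.2 v fun h' => hv (iv_of_upT hΛ h')]
    exact hh.bd v hv
  · rw [hg.2 v fun h' => hv (IV_sub_VF F (iv_of_upT hΛ h'))]
    exact hh.off v hv

theorem sum_powerset_ew (c : ℝ) {F U : Finset P2} (hU : U ⊆ F) {h : P2 → ℤ} (hh : HV F h) :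
    ∑ Z ∈ U.powerset, ∏ t ∈ U, ew c (h, zb F Z) t = ∏ t ∈ U, cw c h t := by
  have h1 : ∀ t ∈ U, cw c h t = (if C1 h t then (1 : ℝ) else 0) +
      (if C2 h t then (if C1 h t then c - 1 else 1) else 0) := by
    intro t ht
    have k1 := cst_iff (hh.lip t (hU ht))
    have k2 := c1_or_c2 (hh.lip t (hU ht))
    unfold cw
    by_cases a : C1 h t
    · by_cases b : C2 h t
      · rw [if_pos (k1.2 ⟨a, b⟩), if_pos a, if_pos b, if_pos a]; ring
      · rw [if_neg (fun e => b (k1.1 e).2), if_pos a, if_neg b]; ring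
    · have b := k2.resolve_left a
      rw [if_neg (fun e => a (k1.1 e).1), if_neg a, if_pos b, if_neg a]; ring
  rw [Finset.prod_congr rfl h1, Finset.prod_add]
  refine Finset.sum_congr rfl fun Z hZ => ?_
  rw [Finset.mem_powerset] at hZ
  rw [← Finset.prod_inter_mul_prod_sdiff U Z, Finset.inter_eq_right.2 hZ]
  congr 1
  · refine Finset.prod_congr rfl fun t ht => ?_
    have : zb F Z t = true := by unfold zb; rw [decide_eq_true_eq]; exact Or.inr ht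
    unfold ew
    rw [if_pos this]
  · refine Finset.prod_congr rfl fun t ht => ?_
    obtain ⟨h1, h2⟩ := Finset.mem_sdiff.1 ht
    have : ¬ zb F Z t = true := by
      unfold zb; rw [decide_eq_true_eq]; push Not; exact ⟨hU h1, h2⟩
    unfold ew
    rw [if_neg this]

theorem ew_congr {c : ℝ} {ω ω' : Cfg} {t : P2} (hz : ω.2 t = ω'.2 t)
    (hh : ∀ i, ω.1 (cr t i) = ω'.1 (cr t i)) : ew c ω t = ew c ω' t := by
  have h1 : C1 ω.1 t ↔ C1 ω'.1 t := by unfold C1; simp only [hh]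
  have h2 : C2 ω.1 t ↔ C2 ω'.1 t := by unfold C2; simp only [hh]
  unfold ew
  rw [hz]
  simp only [h1, h2]

/-- the part of the weight that does not see `Λ` -/
def outA (c : ℝ) (F U : Finset P2) (φ : Cfg → ℝ) (h : P2 → ℤ) : ℝ :=
  ∑ Z ∈ (F \ U).powerset, (∏ t ∈ F \ U, ew c (h, zb F Z) t) * φ (h, zb F Z)

theorem outA_congr {c : ℝ} {F Λ : Finset P2} {φ : Cfg → ℝ} (hφ : Off Λ φ) {h g : P2 → ℤ}
    (hg : ∀ v, v ∉ Λ → g v = h v) : outA c F (upT Λ) φ g = outA c F (upT Λ) φ h := by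
  unfold outA
  refine Finset.sum_congr rfl fun Z _ => ?_
  congr 1
  · refine Finset.prod_congr rfl fun t ht => ew_congr rfl fun i => hg _ ?_
    have ht' := (Finset.mem_sdiff.1 ht).2
    rw [mem_upT] at ht'
    push Not at ht'
    fin_cases i
    · exact ht'.1
    · exact ht'.2.1
    · exact ht'.2.2
  · exact hφ _ _ (fun v hv => hg v hv) fun t _ => rfl

theorem sum_zs_off (c : ℝ) {F Λ : Finset P2} (hΛ : upT Λ ⊆ F) {φ : Cfg → ℝ} (hφ : Off Λ φ)
    {h : P2 → ℤ} (hh : HV F h) :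
    ∑ z ∈ zs F, wt c F (h, z) * φ (h, z) =
      outA c F (upT Λ) φ h * ∏ t ∈ upT Λ, cw c h t := by
  classical
  rw [sum_zs, sum_powerset_split hΛ (fun Z => wt c F (h, zb F Z) * φ (h, zb F Z))]
  unfold outA
  rw [Finset.sum_mul]
  refine Finset.sum_congr rfl fun Z1 hZ1 => ?_
  rw [Finset.mem_powerset] at hZ1
  rw [← sum_powerset_ew c hΛ hh, Finset.mul_sum]
  refine Finset.sum_congr rfl fun Z2 hZ2 => ?_
  rw [Finset.mem_powerset] at hZ2
  have z1 : ∀ t, t ∉ upT Λ → zb F (Z2 ∪ Z1) t = zb F Z1 t := by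
    intro t ht
    unfold zb
    rw [decide_eq_decide, Finset.mem_union]
    have : t ∉ Z2 := fun h => ht (hZ2 h)
    tauto
  have z2 : ∀ t, t ∈ upT Λ → zb F (Z2 ∪ Z1) t = zb F Z2 t := by
    intro t ht
    unfold zb
    rw [decide_eq_decide, Finset.mem_union]
    have : t ∉ Z1 := fun h => (Finset.mem_sdiff.1 (hZ1 h)).2 ht
    tauto
  have e1 : φ (h, zb F (Z2 ∪ Z1)) = φ (h, zb F Z1) := hφ _ _ (fun _ _ => rfl) z1
  have e2 : wt c F (h, zb F (Z2 ∪ Z1)) =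
      (∏ t ∈ F \ upT Λ, ew c (h, zb F Z1) t) * ∏ t ∈ upT Λ, ew c (h, zb F Z2) t := by
    unfold wt
    rw [← Finset.prod_sdiff hΛ]
    congr 1
    · exact Finset.prod_congr rfl fun t ht => ew_congr (z1 t (Finset.mem_sdiff.1 ht).2) fun _ => rfl
    · exact Finset.prod_congr rfl fun t ht => ew_congr (z2 t ht) fun _ => rfl
  rw [e1, e2]
  ring

theorem prod_cw {x : ℝ} (hx : x ≠ 0) (Λ : Finset P2) (h : P2 → ℤ) :
    ∏ t ∈ upT Λ, cw ((x ^ 2)⁻¹) h t = ((x ^ 2)⁻¹) ^ (upT Λ).card * It844.wt x Λ h := by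
  unfold It844.wt
  rw [← Finset.prod_const, ← Finset.prod_mul_distrib]
  exact Finset.prod_congr rfl fun t _ => (Crest.Agent.R144.Hf702.tw_mul hx h t).symm

theorem S_off {x : ℝ} (hx : x ≠ 0) {F Λ : Finset P2} (hΛ : upT Λ ⊆ F) {φ : Cfg → ℝ} (hφ : Off Λ φ)
    (f : (P2 → ℤ) → ℝ) :
    S ((x ^ 2)⁻¹) F (fun ω => φ ω * f ω.1) = ((x ^ 2)⁻¹) ^ (upT Λ).card *
      ∑ h ∈ hts F, outA ((x ^ 2)⁻¹) F (upT Λ) φ h * It844.wt x Λ h * f h := by
  unfold S conf
  rw [Finset.sum_product, Finset.mul_sum]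
  refine Finset.sum_congr rfl fun h hh => ?_
  have h1 := sum_zs_off ((x ^ 2)⁻¹) hΛ hφ (mem_hts.1 hh)
  rw [prod_cw hx] at h1
  calc ∑ z ∈ zs F, wt ((x ^ 2)⁻¹) F (h, z) * (φ (h, z) * f h)
      = (∑ z ∈ zs F, wt ((x ^ 2)⁻¹) F (h, z) * φ (h, z)) * f h := by
        rw [Finset.sum_mul]
        exact Finset.sum_congr rfl fun z _ => by ring
    _ = _ := by rw [h1]; ring

/-- **Spatial Markov property of the F-type law, heights in `Λ`.** -/
theorem E_dlr {x : ℝ} (hx : 0 < x) {F Λ : Finset P2} (hΛ : upT Λ ⊆ F) {φ : Cfg → ℝ} (hφ : Off Λ φ)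
    (f : (P2 → ℤ) → ℝ) :
    E ((x ^ 2)⁻¹) F (fun ω => φ ω * f ω.1) = E ((x ^ 2)⁻¹) F (fun ω => φ ω * ex x Λ ω.1 f) := by
  classical
  rw [E_eq_S, E_eq_S, S_off hx.ne' hΛ hφ, S_off hx.ne' hΛ hφ (fun h => ex x Λ h f)]
  congr 2
  set A := outA ((x ^ 2)⁻¹) F (upT Λ) φ with hA
  have e1 : ∀ h ∈ hts F, A h * It844.wt x Λ h * ex x Λ h f =
      ∑ g ∈ hts F, if g ∈ It844.conf Λ h then
        A h * It844.wt x Λ h * (It844.Z x Λ h)⁻¹ * (It844.wt x Λ g * f g) else 0 := by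
    intro h hh
    rw [← Finset.sum_filter]
    have e2 : (hts F).filter (fun g => g ∈ It844.conf Λ h) = It844.conf Λ h := by
      ext g
      rw [Finset.mem_filter]
      exact ⟨fun hg => hg.2, fun hg => ⟨mem_hts.2 (hv_conf hΛ (mem_hts.1 hh) hg), hg⟩⟩
    rw [e2]
    unfold ex
    rw [smul_eq_mul, ← mul_assoc, Finset.mul_sum]
    refine Finset.sum_congr rfl fun g _ => ?_
    rw [smul_eq_mul]
  symm
  rw [Finset.sum_congr rfl e1, Finset.sum_comm]
  refine Finset.sum_congr rfl fun g hg => ?_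
  have hgL : Lip g := (mem_hts.1 hg).toLip
  have e3 : ∀ h ∈ hts F, (if g ∈ It844.conf Λ h then
        A h * It844.wt x Λ h * (It844.Z x Λ h)⁻¹ * (It844.wt x Λ g * f g) else 0) =
      if h ∈ It844.conf Λ g then
        It844.wt x Λ h * (A g * (It844.Z x Λ g)⁻¹ * (It844.wt x Λ g * f g)) else 0 := by
    intro h hh
    have hhL : Lip h := (mem_hts.1 hh).toLip
    by_cases h1 : g ∈ It844.conf Λ h
    · have h2 : h ∈ It844.conf Λ g := ((It844.mem_conf_symm hhL).1 h1).2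
      rw [if_pos h1, if_pos h2]
      have hoff : ∀ v, v ∉ Λ → h v = g v := (It844.mem_conf.1 h2).2
      have a1 : A h = A g := outA_congr hφ hoff
      rw [It844.Z_congr x hoff, a1]
      ring
    · have h2 : h ∉ It844.conf Λ g := fun h2 => h1 ((It844.mem_conf_symm hgL).1 h2).2
      rw [if_neg h1, if_neg h2]
  rw [Finset.sum_congr rfl e3, ← Finset.sum_filter]
  have e4 : (hts F).filter (fun h => h ∈ It844.conf Λ g) = It844.conf Λ g := by
    ext h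
    rw [Finset.mem_filter]
    exact ⟨fun hg' => hg'.2, fun hg' => ⟨mem_hts.2 (hv_conf hΛ (mem_hts.1 hg) hg'), hg'⟩⟩
  rw [e4, ← Finset.sum_mul]
  have hZ := It844.Z_pos hx hgL (Λ := Λ)
  show It844.Z x Λ g * (A g * (It844.Z x Λ g)⁻¹ * (It844.wt x Λ g * f g)) = A g * It844.wt x Λ g * f g
  field_simp

/-! ### sandwiches -/

variable {x : ℝ} {F Λ : Finset P2} {φ : Cfg → ℝ} {τ : P2 → ℤ} {f : (P2 → ℤ) → ℝ}

/-- lower comparison -/
theorem le_E (hx0 : 0 < x) (hx1 : x ≤ 1) (hΛ : upT Λ ⊆ F) (hφ0 : ∀ ω, Valid F ω → 0 ≤ φ ω)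
    (hφ : Off Λ φ) (hτ : Lip τ) (hle : ∀ ω, Valid F ω → φ ω ≠ 0 → ∀ v, v ∉ Λ → τ v ≤ ω.1 v)
    (hf : Monotone f) :
    ex x Λ τ f * E ((x ^ 2)⁻¹) F φ ≤ E ((x ^ 2)⁻¹) F (fun ω => φ ω * f ω.1) := by
  have hc : (1 : ℝ) ≤ (x ^ 2)⁻¹ := by
    rw [one_le_inv₀ (by positivity)]
    exact pow_le_one₀ hx0.le hx1
  rw [E_dlr hx0 hΛ hφ, ← E_smul]
  refine E_mono hc fun ω hω => ?_
  by_cases h0 : φ ω = 0
  · rw [h0]; simp
  · rw [mul_comm]
    exact mul_le_mul_of_nonneg_left (It844.ex_mono_bc hx0 hx1 hτ hω.ht.toLip (hle ω hω h0)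
      fun a _ b _ hab => hf hab) (hφ0 ω hω)


/-- comparison of boundary data known on the outer boundary only -/
theorem ex_mono_loc (hx0 : 0 < x) (hx1 : x ≤ 1) {τ τ' : P2 → ℤ} (hτ : Lip τ) (hτ' : Lip τ')
    (hle : ∀ v, v ∉ Λ → v ∈ nbhd Λ → τ v ≤ τ' v) (hf : Monotone f)
    (hloc : ∀ a b : P2 → ℤ, (∀ v ∈ Λ, a v = b v) → f a = f b) : ex x Λ τ f ≤ ex x Λ τ' f := by
  have h1 : ex x Λ τ f = ex x Λ (τ ⊓ τ') f :=
    It844.ex_local x hτ (hτ.inf hτ') (fun v hv hn => by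
      simp only [Pi.inf_apply]
      exact (min_eq_left (hle v hv hn)).symm) f hloc
  rw [h1]
  exact It844.ex_mono_bc hx0 hx1 (hτ.inf hτ') hτ' (fun v _ => by
    simp only [Pi.inf_apply]; exact min_le_right _ _) fun a _ b _ hab => hf hab



end Crest.Agent.R144.Bx695
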