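import Crest.Agent.R144.Ps0_643
import Crest.Agent.R161.RPB_369

/-!
# R144, block GAUSS, leaf GA2 (helper617), part a

Charged local functionals (`Fn S α F`, bounded on Lipschitz heights) of real heights on the triangular
lattice `P2 = ℤ × ℤ` (definitions of Ps0_643), the six directions `Dir6`, the reflections `rfl6 n m`
in the lines `{dot n v = m}`.
-/

set_option autoImplicit false

noncomputable section

namespace Crest.Agent.R144.Ga2617

open MeasureTheory Filter
open scoped ComplexConjugate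
open Crest.ProbabilityR.HexHeights (Adj)
open Crest.Agent.R144.Ps643 (P2 Ht Loc FinLoc Neut Chg act tr Obs PlaneState lin measurable_lin
  lin_loc)
open Crest.Agent.R144.Tp952 (th sw)

/-- translation of the heights -/
def trans (a : P2) (h : Ht) : Ht := fun v => h (v + a)

/-- `1`-Lipschitz heights -/
def Lp (h : Ht) : Prop := ∀ u v : P2, Adj u v → |h u - h v| ≤ 1

/-- admissible functionals: measurable, depending only on the sites `S`, of charge `α`, bounded on
Lipschitz heights -/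
structure Fn (S : Set P2) (α : ℝ) (F : Ht → ℂ) : Prop where
  meas : Measurable F
  loc : Loc S F
  chg : Chg α F
  bdd : ∃ M : ℝ, ∀ h, Lp h → ‖F h‖ ≤ M

/-! ### elementary maps -/

theorem trans_apply (a : P2) (h : Ht) (v : P2) : trans a h v = h (v + a) := rfl


theorem trans_trans (a b : P2) (h : Ht) : trans a (trans b h) = trans (a + b) h := by
  funext v
  simp only [trans_apply, add_assoc]

@[simp] theorem trans_zero (h : Ht) : trans 0 h = h := by
  funext v
  simp [trans_apply]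

theorem trans_iterate (a : P2) (n : ℕ) (h : Ht) : (trans a)^[n] h = trans (n • a) h := by
  induction n generalizing h with
  | zero => simp
  | succ n ih =>
    rw [Function.iterate_succ_apply, ih, trans_trans, succ_nsmul]



theorem measurable_act (g : P2 → P2) : Measurable (act g) :=
  measurable_pi_lambda _ fun v => measurable_pi_apply (g v)

/-- the site map preserves adjacency -/
def AdjMap (g : P2 → P2) : Prop := ∀ u v, Adj u v → Adj (g u) (g v)

theorem AdjMap.comp {g k : P2 → P2} (hg : AdjMap g) (hk : AdjMap k) : AdjMap (g ∘ k) :=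
  fun u v h => hg _ _ (hk _ _ h)

theorem AdjMap.lp {g : P2 → P2} (hg : AdjMap g) {h : Ht} (hh : Lp h) : Lp (act g h) :=
  fun u v huv => hh _ _ (hg _ _ huv)

theorem adjMap_add (a : P2) : AdjMap (· + a) := by
  intro u v h
  simp only [Adj, Prod.fst_add, Prod.snd_add] at *
  omega

theorem Lp.trans {h : Ht} (hh : Lp h) (a : P2) : Lp (trans a h) := (adjMap_add a).lp hh

theorem Lp.add_const {h : Ht} (hh : Lp h) (c : ℝ) : Lp (fun v => h v + c) := by
  intro u v huv
  simpa using hh u v huv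

/-! ### charges -/

theorem exp_charge_add (α β c : ℝ) : Complex.exp (Complex.I * (((α + β) * c : ℝ) : ℂ)) =
    Complex.exp (Complex.I * ((α * c : ℝ) : ℂ)) * Complex.exp (Complex.I * ((β * c : ℝ) : ℂ)) := by
  rw [← Complex.exp_add]
  congr 1
  push_cast
  ring

theorem norm_exp_charge (α c : ℝ) : ‖Complex.exp (Complex.I * ((α * c : ℝ) : ℂ))‖ = 1 := by
  rw [mul_comm]
  exact Complex.norm_exp_ofReal_mul_I _

section
variable {α β : ℝ} {F G : Ht → ℂ}

theorem chg_mul (hF : Chg α F) (hG : Chg β G) : Chg (α + β) (fun h => F h * G h) := by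
  intro h c
  simp only
  rw [hF h c, hG h c, exp_charge_add]
  ring

theorem chg_add (hF : Chg α F) (hG : Chg α G) : Chg α (F + G) := by
  intro h c
  simp only [Pi.add_apply]
  rw [hF h c, hG h c]
  ring

theorem chg_smul (hF : Chg α F) (r : ℂ) : Chg α (r • F) := by
  intro h c
  simp only [Pi.smul_apply, smul_eq_mul]
  rw [hF h c]
  ring

theorem chg_zero (α : ℝ) : Chg α (0 : Ht → ℂ) := by
  intro h c
  simp

theorem chg_const (z : ℂ) : Chg 0 (fun _ => z) := by
  intro h c
  simp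

theorem chg_cj (hF : Chg α F) : Chg (-α) (fun h => conj (F h)) := by
  intro h c
  simp only
  rw [hF h c, map_mul, ← Complex.exp_conj]
  congr 2
  simp [Complex.conj_ofReal]

theorem chg_act (hF : Chg α F) (g : P2 → P2) : Chg α (fun h => F (act g h)) := by
  intro h c
  exact hF (act g h) c



/-- neutral functionals are invariant -/
theorem chg_neut (hF : Chg 0 F) (h : Ht) (c : ℝ) : F (fun v => h v + c) = F h := by
  have := hF h c
  simpa using this

theorem chg_norm_eq (hF : Chg α F) (h : Ht) (c : ℝ) : ‖F (fun v => h v + c)‖ = ‖F h‖ := by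
  rw [hF h c, norm_mul, norm_exp_charge, one_mul]

theorem chg_of_neut (hF : ∀ h c, F (fun v => h v + c) = F h) : Chg 0 F := by
  intro h c
  rw [hF h c]
  simp

end

/-! ### admissible functionals -/

namespace Fn

variable {S T : Set P2} {α β : ℝ} {F G : Ht → ℂ}

theorem mono (hF : Fn S α F) (h : S ⊆ T) : Fn T α F :=
  ⟨hF.meas, fun _ _ hxy => hF.loc _ _ fun i hi => hxy i (h hi), hF.chg, hF.bdd⟩

theorem mul (hF : Fn S α F) (hG : Fn T β G) : Fn (S ∪ T) (α + β) (fun h => F h * G h) := by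
  refine ⟨hF.meas.mul hG.meas, fun x y hxy => ?_, chg_mul hF.chg hG.chg, ?_⟩
  · rw [hF.loc _ _ fun i hi => hxy i (Or.inl hi), hG.loc _ _ fun i hi => hxy i (Or.inr hi)]
  · obtain ⟨M, hM⟩ := hF.bdd
    obtain ⟨N, hN⟩ := hG.bdd
    refine ⟨M * N, fun h hh => ?_⟩
    rw [norm_mul]
    exact mul_le_mul (hM h hh) (hN h hh) (norm_nonneg _) ((norm_nonneg _).trans (hM h hh))

theorem mul' (hF : Fn S α F) (hG : Fn S β G) : Fn S (α + β) (fun h => F h * G h) :=
  (hF.mul hG).mono (by simp)

theorem add (hF : Fn S α F) (hG : Fn T α G) : Fn (S ∪ T) α (F + G) := by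
  refine ⟨hF.meas.add hG.meas, fun x y hxy => ?_, chg_add hF.chg hG.chg, ?_⟩
  · simp only [Pi.add_apply]
    rw [hF.loc _ _ fun i hi => hxy i (Or.inl hi), hG.loc _ _ fun i hi => hxy i (Or.inr hi)]
  · obtain ⟨M, hM⟩ := hF.bdd
    obtain ⟨N, hN⟩ := hG.bdd
    exact ⟨M + N, fun h hh => (norm_add_le _ _).trans (add_le_add (hM h hh) (hN h hh))⟩

theorem smul (hF : Fn S α F) (r : ℂ) : Fn S α (r • F) := by
  refine ⟨hF.meas.const_smul r, fun x y hxy => ?_, chg_smul hF.chg r, ?_⟩
  · simp only [Pi.smul_apply]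
    rw [hF.loc _ _ hxy]
  · obtain ⟨M, hM⟩ := hF.bdd
    refine ⟨‖r‖ * M, fun h hh => ?_⟩
    rw [Pi.smul_apply, norm_smul]
    exact mul_le_mul_of_nonneg_left (hM h hh) (norm_nonneg _)

theorem zero (S : Set P2) (α : ℝ) : Fn S α (0 : Ht → ℂ) :=
  ⟨measurable_const, fun _ _ _ => rfl, chg_zero α, 0, fun _ _ => by simp⟩

theorem const (S : Set P2) (z : ℂ) : Fn S 0 (fun _ => z) :=
  ⟨measurable_const, fun _ _ _ => rfl, chg_const z, ‖z‖, fun _ _ => le_rfl⟩

theorem cj (hF : Fn S α F) : Fn S (-α) (fun h => conj (F h)) := by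
  refine ⟨Complex.continuous_conj.measurable.comp hF.meas, fun x y hxy => ?_, chg_cj hF.chg, ?_⟩
  · rw [hF.loc _ _ hxy]
  · obtain ⟨M, hM⟩ := hF.bdd
    exact ⟨M, fun h hh => by simpa using hM h hh⟩

theorem act (hF : Fn S α F) {g : P2 → P2} (hg : AdjMap g) :
    Fn (g '' S) α (fun h => F (act g h)) := by
  refine ⟨hF.meas.comp (measurable_act g), fun x y hxy => ?_, chg_act hF.chg g, ?_⟩
  · exact hF.loc _ _ fun i hi => hxy _ ⟨i, hi, rfl⟩
  · obtain ⟨M, hM⟩ := hF.bdd
    exact ⟨M, fun h hh => hM _ (hg.lp hh)⟩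

theorem trans (hF : Fn S α F) (a : P2) : Fn ((· + a) '' S) α (fun h => F (trans a h)) :=
  hF.act (adjMap_add a)

/-- norm of a charged functional, as a neutral functional -/
theorem norm_pow (hF : Fn S α F) (k : ℕ) : Fn S 0 (fun h => ((‖F h‖ ^ k : ℝ) : ℂ)) := by
  refine ⟨Complex.measurable_ofReal.comp (hF.meas.norm.pow_const k), fun x y hxy => ?_,
    chg_of_neut fun h c => ?_, ?_⟩
  · rw [hF.loc _ _ hxy]
  · rw [chg_norm_eq hF.chg]
  · obtain ⟨M, hM⟩ := hF.bdd
    refine ⟨M ^ k, fun h hh => ?_⟩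
    rw [Complex.norm_real, _root_.norm_pow, norm_norm]
    exact pow_le_pow_left₀ (norm_nonneg _) (hM h hh) k

theorem prod {ι : Type*} (s : Finset ι) {S : ι → Set P2} {α : ι → ℝ} {F : ι → Ht → ℂ}
    (h : ∀ i ∈ s, Fn (S i) (α i) (F i)) :
    Fn (⋃ i ∈ s, S i) (∑ i ∈ s, α i) (fun ω => ∏ i ∈ s, F i ω) := by
  classical
  induction s using Finset.induction_on with
  | empty => simpa using Fn.const ∅ 1
  | insert i s hi ih =>
    simp only [Finset.sum_insert hi, Finset.prod_insert hi, Finset.set_biUnion_insert]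
    exact (h i (by simp)).mul (ih fun j hj => h j (by simp [hj]))



/-- truncated functional, bounded everywhere -/
theorem exists_trunc (hF : Fn S α F) : ∃ F' : Ht → ℂ, ∃ M : ℝ, Measurable F' ∧ Loc S F' ∧
    Chg α F' ∧ (∀ h, ‖F' h‖ ≤ M) ∧ ∀ h, Lp h → F' h = F h := by
  classical
  obtain ⟨M, hM⟩ := hF.bdd
  refine ⟨fun h => if ‖F h‖ ≤ M then F h else 0, max M 0, ?_, ?_, ?_, ?_, ?_⟩
  · exact Measurable.ite (measurableSet_le hF.meas.norm measurable_const) hF.meas measurable_const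
  · intro x y hxy
    simp only
    rw [hF.loc _ _ hxy]
  · intro h c
    simp only
    rw [chg_norm_eq hF.chg, hF.chg h c]
    split_ifs <;> simp
  · intro h
    simp only
    split_ifs with h1
    · exact h1.trans (le_max_left _ _)
    · simp
  · intro h hh
    simp only
    rw [if_pos (hM h hh)]

end Fn

/-! ### Lipschitz heights: differences -/

theorem Lp.sub_e1 {h : Ht} (hh : Lp h) (x y : ℤ) (n : ℕ) : |h (x + n, y) - h (x, y)| ≤ n := by
  induction n with
  | zero => simp
  | succ n ih =>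
    have h1 : |h (x + ((n + 1 : ℕ) : ℤ), y) - h (x + n, y)| ≤ 1 := by
      refine hh _ _ ?_
      unfold Adj
      simp only
      push_cast
      omega
    calc |h (x + ((n + 1 : ℕ) : ℤ), y) - h (x, y)|
        = |(h (x + ((n + 1 : ℕ) : ℤ), y) - h (x + n, y)) + (h (x + n, y) - h (x, y))| := by
          congr 1; ring
      _ ≤ 1 + n := (abs_add_le _ _).trans (add_le_add h1 ih)
      _ = ((n + 1 : ℕ) : ℝ) := by push_cast; ring

theorem Lp.sub_e2 {h : Ht} (hh : Lp h) (x y : ℤ) (n : ℕ) : |h (x, y + n) - h (x, y)| ≤ n := by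
  induction n with
  | zero => simp
  | succ n ih =>
    have h1 : |h (x, y + ((n + 1 : ℕ) : ℤ)) - h (x, y + n)| ≤ 1 := by
      refine hh _ _ ?_
      unfold Adj
      simp only
      push_cast
      omega
    calc |h (x, y + ((n + 1 : ℕ) : ℤ)) - h (x, y)|
        = |(h (x, y + ((n + 1 : ℕ) : ℤ)) - h (x, y + n)) + (h (x, y + n) - h (x, y))| := by
          congr 1; ring
      _ ≤ 1 + n := (abs_add_le _ _).trans (add_le_add h1 ih)
      _ = ((n + 1 : ℕ) : ℝ) := by push_cast; ring

/-- `|h u - h v| ≤ |u₁ - v₁| + |u₂ - v₂|` -/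
theorem Lp.sub_le {h : Ht} (hh : Lp h) (u v : P2) :
    |h u - h v| ≤ ((u.1 - v.1).natAbs : ℝ) + ((u.2 - v.2).natAbs : ℝ) := by
  have h1 : ∀ x x' y : ℤ, |h (x, y) - h (x', y)| ≤ ((x - x').natAbs : ℝ) := by
    intro x x' y
    rcases le_total x' x with hx | hx
    · have e : x = x' + ((x - x').natAbs : ℤ) := by omega
      have := hh.sub_e1 x' y (x - x').natAbs
      rwa [← e] at this
    · have e : x' = x + ((x - x').natAbs : ℤ) := by omega
      have := hh.sub_e1 x y (x - x').natAbs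
      rw [← e] at this
      rwa [abs_sub_comm]
  have h2 : ∀ x y y' : ℤ, |h (x, y) - h (x, y')| ≤ ((y - y').natAbs : ℝ) := by
    intro x y y'
    rcases le_total y' y with hx | hx
    · have e : y = y' + ((y - y').natAbs : ℤ) := by omega
      have := hh.sub_e2 x y' (y - y').natAbs
      rwa [← e] at this
    · have e : y' = y + ((y - y').natAbs : ℤ) := by omega
      have := hh.sub_e2 x y (y - y').natAbs
      rw [← e] at this
      rwa [abs_sub_comm]
  obtain ⟨x, y⟩ := u
  obtain ⟨x', y'⟩ := v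
  calc |h (x, y) - h (x', y')| = |(h (x, y) - h (x', y)) + (h (x', y) - h (x', y'))| := by
        congr 1; ring
    _ ≤ _ := (abs_add_le _ _).trans (add_le_add (h1 _ _ _) (h2 _ _ _))

/-! ### linear functionals and exponentials -/

theorem lin_add_const (s : Finset P2) (b : P2 → ℝ) (h : Ht) (c : ℝ) :
    lin s b (fun v => h v + c) = lin s b h + (∑ v ∈ s, b v) * c := by
  unfold lin
  rw [Finset.sum_mul, ← Finset.sum_add_distrib]
  exact Finset.sum_congr rfl fun v _ => by ring

/-- mass-zero linear functionals are admissible and neutral -/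
theorem fn_lin (s : Finset P2) (b : P2 → ℝ) (hb : ∑ v ∈ s, b v = 0) :
    Fn (s : Set P2) 0 (fun h => ((lin s b h : ℝ) : ℂ)) := by
  refine ⟨Complex.measurable_ofReal.comp (measurable_lin s b), fun x y hxy => ?_,
    chg_of_neut fun h c => ?_, ?_⟩
  · rw [lin_loc s b _ _ hxy]
  · rw [lin_add_const, hb, zero_mul, add_zero]
  · refine ⟨∑ v ∈ s, |b v| * ((v.1.natAbs : ℝ) + (v.2.natAbs : ℝ)), fun h hh => ?_⟩
    rw [Complex.norm_real, Real.norm_eq_abs]
    have e : lin s b h = ∑ v ∈ s, b v * (h v - h 0) := by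
      unfold lin
      simp only [mul_sub, Finset.sum_sub_distrib, ← Finset.sum_mul, hb, zero_mul, sub_zero]
    rw [e]
    refine (Finset.abs_sum_le_sum_abs _ _).trans (Finset.sum_le_sum fun v _ => ?_)
    rw [abs_mul]
    refine mul_le_mul_of_nonneg_left ?_ (abs_nonneg _)
    have := hh.sub_le v 0
    simpa using this


/-! ### the six directions -/

/-- linear functional -/
def dot (n v : P2) : ℤ := n.1 * v.1 + n.2 * v.2

/-- the six directions -/
def Dir6 : Set P2 := {(0, 1), (1, 0), (1, 1), (0, -1), (-1, 0), (-1, -1)}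

/-- the step of a direction -/
def stp (n : P2) : P2 := (2 * n.1 - n.2, 2 * n.2 - n.1)

/-- reflection in the line `{dot n v = m}` -/
def rfl6 (n : P2) (m : ℤ) (v : P2) : P2 := v + (m - dot n v) • stp n

theorem mem_dir6 {n : P2} : n ∈ Dir6 ↔ n = (0, 1) ∨ n = (1, 0) ∨ n = (1, 1) ∨ n = (0, -1) ∨
    n = (-1, 0) ∨ n = (-1, -1) := by
  simp [Dir6]

theorem dot_add (n u v : P2) : dot n (u + v) = dot n u + dot n v := by
  simp [dot]; ring

theorem dot_smul (n v : P2) (k : ℤ) : dot n (k • v) = k * dot n v := by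
  simp [dot]; ring

theorem dot_stp {n : P2} (hn : n ∈ Dir6) : dot n (stp n) = 2 := by
  rcases mem_dir6.1 hn with rfl | rfl | rfl | rfl | rfl | rfl <;> rfl

theorem dot_rfl6 {n : P2} (hn : n ∈ Dir6) (m : ℤ) (v : P2) :
    dot n (rfl6 n m v) = 2 * m - dot n v := by
  unfold rfl6
  rw [dot_add, dot_smul, dot_stp hn]
  ring

theorem rfl6_rfl6 {n : P2} (hn : n ∈ Dir6) (m : ℤ) (v : P2) : rfl6 n m (rfl6 n m v) = v := by
  have h := dot_rfl6 hn m v
  unfold rfl6 at h ⊢
  rw [h]
  ext
  · simp; ring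
  · simp; ring

theorem rfl6_add_stp {n : P2} (hn : n ∈ Dir6) (m : ℤ) (v : P2) :
    rfl6 n m (v + stp n) + stp n = rfl6 n m v := by
  unfold rfl6
  rw [dot_add, dot_stp hn]
  ext
  · simp; ring
  · simp; ring

theorem rfl6_succ_add_stp {n : P2} (hn : n ∈ Dir6) (m : ℤ) (v : P2) :
    rfl6 n (m + 1) (v + stp n) = rfl6 n m v := by
  unfold rfl6
  rw [dot_add, dot_stp hn]
  ext
  · simp; ring
  · simp; ring


theorem rfl6_adj {n : P2} (hn : n ∈ Dir6) (m : ℤ) : AdjMap (rfl6 n m) := by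
  intro u v h
  obtain ⟨a, b⟩ := u
  obtain ⟨c, d⟩ := v
  have e : ∀ x y : ℤ, rfl6 n m (x, y) = (x + (m - (n.1 * x + n.2 * y)) * (2 * n.1 - n.2),
      y + (m - (n.1 * x + n.2 * y)) * (2 * n.2 - n.1)) := fun x y => rfl
  rw [e, e]
  rcases mem_dir6.1 hn with rfl | rfl | rfl | rfl | rfl | rfl <;>
  · simp only [Adj] at h ⊢
    rcases h with ⟨h1, h2⟩ | ⟨h1, h2⟩ | ⟨h1, h2⟩ | ⟨h1, h2⟩ | ⟨h1, h2⟩ | ⟨h1, h2⟩ <;> omega

/-- translates of a reflection -/
theorem rfl6_add {n : P2} (m : ℤ) (b v : P2) :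
    rfl6 n (m + dot n b) (v + b) = rfl6 n m v + b := by
  unfold rfl6
  rw [dot_add]
  ext
  · simp; ring
  · simp; ring

/-- rotation by `60°` -/
def rot (v : P2) : P2 := (-v.2, v.1 + v.2)

/-- inverse rotation -/
def rotI (v : P2) : P2 := (v.1 + v.2, -v.1)

/-- rotated functional -/
def rotn (n : P2) : P2 := (n.1 - n.2, n.1)

theorem rot_rotI (v : P2) : rot (rotI v) = v := by ext <;> simp [rot, rotI]
theorem rotI_rot (v : P2) : rotI (rot v) = v := by ext <;> simp [rot, rotI]


theorem rotI_adj : AdjMap rotI := by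
  intro u v h
  unfold Adj rotI at *
  simp only
  omega

theorem th_adj : AdjMap th := by
  intro u v h
  unfold Adj th at *
  simp only
  omega

theorem sw_adj : AdjMap sw := by
  intro u v h
  unfold Adj sw at *
  simp only
  omega


theorem dot_rotn (n v : P2) : dot (rotn n) (rot v) = dot n v := by
  simp [dot, rotn, rot]; ring

theorem rfl6_rot (n : P2) (m : ℤ) (v : P2) : rfl6 (rotn n) m (rot v) = rot (rfl6 n m v) := by
  unfold rfl6
  rw [dot_rotn]
  ext
  · simp [rot, rotn, stp]; ring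
  · simp [rot, rotn, stp]; ring

theorem th_eq : th = rfl6 (0, 1) 0 := by
  funext v
  ext
  · simp [th, rfl6, dot, stp]
  · simp [th, rfl6, dot, stp]; ring

theorem rotn_mem {n : P2} (hn : n ∈ Dir6) : rotn n ∈ Dir6 := by
  rcases mem_dir6.1 hn with rfl | rfl | rfl | rfl | rfl | rfl <;> simp [rotn, Dir6]

/-- every direction is a rotated `(0,1)` -/
theorem dir6_induction {p : P2 → Prop} (h0 : p (0, 1)) (h : ∀ n ∈ Dir6, p n → p (rotn n)) {n : P2}
    (hn : n ∈ Dir6) : p n := by
  have m0 : ((0, 1) : P2) ∈ Dir6 := by simp [Dir6]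
  have h1 : p (-1, 0) := by simpa [rotn] using h _ m0 h0
  have m1 : ((-1, 0) : P2) ∈ Dir6 := by simp [Dir6]
  have h2 : p (-1, -1) := by simpa [rotn] using h _ m1 h1
  have m2 : ((-1, -1) : P2) ∈ Dir6 := by simp [Dir6]
  have h3 : p (0, -1) := by simpa [rotn] using h _ m2 h2
  have m3 : ((0, -1) : P2) ∈ Dir6 := by simp [Dir6]
  have h4 : p (1, 0) := by simpa [rotn] using h _ m3 h3
  have m4 : ((1, 0) : P2) ∈ Dir6 := by simp [Dir6]
  have h5 : p (1, 1) := by simpa [rotn] using h _ m4 h4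
  rcases mem_dir6.1 hn with rfl | rfl | rfl | rfl | rfl | rfl
  · exact h0
  · exact h4
  · exact h5
  · exact h3
  · exact h1
  · exact h2

/-- the functional is primitive -/
theorem exists_dot {n : P2} (hn : n ∈ Dir6) (m : ℤ) : ∃ b : P2, dot n b = m := by
  rcases mem_dir6.1 hn with rfl | rfl | rfl | rfl | rfl | rfl
  · exact ⟨(0, m), by simp [dot]⟩
  · exact ⟨(m, 0), by simp [dot]⟩
  · exact ⟨(m, 0), by simp [dot]⟩
  · exact ⟨(0, -m), by simp [dot]⟩
  · exact ⟨(-m, 0), by simp [dot]⟩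
  · exact ⟨(-m, 0), by simp [dot]⟩

end Crest.Agent.R144.Ga2617
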