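import Crest.Agent.R144.Pst1_967
import Crest.Agent.R144.It1b_844

/-!
# R144, plane state of the integer models (helper967), part 2: symmetries of the zero boundary law

* `che h` : ordered edges on which `h` is not constant; `wt_sq` : `wt x Λ h ^ 2 = x ^ (che h).ncard` for
  heights vanishing off `Λ`;
* `Sym σ` : `σ : P2 ≃ P2` is an automorphism of the lattice; `ex_map` :
  `ex x (Λ.map σ) 0 f = ex x Λ 0 (fun h => f (fun v => h (σ.symm v)))`;
* `trE a`, `swE`, `thE` and their `Sym`;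
* `ex_neg0` : invariance under `h ↦ -h`;
* `integral_mu`, `isProb_mu`, `lip_mu` : the law `mu x Λ τ` as a measure;
* `rp_ex` : site reflection positivity across the row `{y = 0}` when `Λ.map thE = Λ`.
-/

set_option autoImplicit false

noncomputable section

namespace Crest.Agent.R144.Pst967

open MeasureTheory Filter Topology
open Crest.ProbabilityR.HexHeights (Adj)
open Crest.Agent.R144.It844

/-! ### changed edges -/

/-- ordered edges on which `h` is not constant -/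
def che (h : Hz) : Set (P2 × P2) := {p | Adj p.1 p.2 ∧ h p.1 ≠ h p.2}

theorem nedges_lt {h : Hz} {U : Finset P2} {p : P2 × P2} (hp : p ∈ nedges h U) :
    p.1.1 < p.2.1 ∨ (p.1.1 = p.2.1 ∧ p.1.2 < p.2.2) := by
  unfold nedges at hp
  simp only [Finset.mem_union, Finset.mem_image, Finset.mem_filter] at hp
  rcases hp with (⟨u, -, rfl⟩ | ⟨u, -, rfl⟩) | ⟨u, -, rfl⟩ <;> simp

theorem mem_image_swap {S : Finset (P2 × P2)} {a b : P2} : (a, b) ∈ S.image Prod.swap ↔ (b, a) ∈ S := by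
  rw [Finset.mem_image]
  constructor
  · rintro ⟨⟨c, d⟩, h1, h2⟩
    simp only [Prod.swap_prod_mk, Prod.mk.injEq] at h2
    rwa [← h2.1, ← h2.2]
  · intro h1
    exact ⟨(b, a), h1, rfl⟩

theorem mem_nedges {h : Hz} {U : Finset P2} {a b : P2} : (a, b) ∈ nedges h U ↔
    (a ∈ U ∧ b = (a.1 + 1, a.2) ∧ h a ≠ h b) ∨ (a ∈ U ∧ b = (a.1, a.2 + 1) ∧ h a ≠ h b) ∨
    ∃ u ∈ U, a = (u.1, u.2 + 1) ∧ b = (u.1 + 1, u.2) ∧ h b ≠ h a := by
  unfold nedges
  simp only [Finset.mem_union, Finset.mem_image, Finset.mem_filter, Prod.mk.injEq]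
  constructor
  · rintro ((⟨u, ⟨h1, h2⟩, h3, h4⟩ | ⟨u, ⟨h1, h2⟩, h3, h4⟩) | ⟨u, ⟨h1, h2⟩, h3, h4⟩)
    · subst h3; subst h4; exact Or.inl ⟨h1, rfl, h2⟩
    · subst h3; subst h4; exact Or.inr (Or.inl ⟨h1, rfl, h2⟩)
    · subst h3; subst h4; exact Or.inr (Or.inr ⟨u, h1, rfl, rfl, h2⟩)
  · rintro (⟨h1, h2, h3⟩ | ⟨h1, h2, h3⟩ | ⟨u, h1, h2, h3, h4⟩)
    · subst h2; exact Or.inl (Or.inl ⟨a, ⟨h1, h3⟩, rfl, rfl⟩)
    · subst h2; exact Or.inl (Or.inr ⟨a, ⟨h1, h3⟩, rfl, rfl⟩)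
    · subst h2; subst h3; exact Or.inr ⟨u, ⟨h1, h4⟩, rfl, rfl⟩

theorem che_eq {Λ : Finset P2} {h : Hz} (h0 : ∀ v, v ∉ Λ → h v = 0) :
    che h = ((nedges h (upT Λ) ∪ (nedges h (upT Λ)).image Prod.swap : Finset (P2 × P2)) : Set (P2 × P2)) := by
  ext ⟨a, b⟩
  rw [Finset.mem_coe, Finset.mem_union, mem_image_swap, mem_nedges, mem_nedges]
  simp only [che, Set.mem_ofPred_eq]
  constructor
  · rintro ⟨hab, hne⟩
    have hin : a ∈ Λ ∨ b ∈ Λ := by
      by_contra hc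
      push Not at hc
      exact hne (by rw [h0 _ hc.1, h0 _ hc.2])
    obtain ⟨w, hw⟩ := adj_up hab
    simp only [mem_upT]
    rcases hw with ⟨rfl, rfl⟩ | ⟨rfl, rfl⟩ | ⟨rfl, rfl⟩ | ⟨rfl, rfl⟩ | ⟨rfl, rfl⟩ | ⟨rfl, rfl⟩
    · exact Or.inl (Or.inl ⟨by tauto, rfl, hne⟩)
    · exact Or.inr (Or.inl ⟨by tauto, rfl, hne.symm⟩)
    · exact Or.inl (Or.inr (Or.inl ⟨by tauto, rfl, hne⟩))
    · exact Or.inr (Or.inr (Or.inl ⟨by tauto, rfl, hne.symm⟩))
    · exact Or.inr (Or.inr (Or.inr ⟨w, by tauto, rfl, rfl, hne⟩))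
    · exact Or.inl (Or.inr (Or.inr ⟨w, by tauto, rfl, rfl, hne.symm⟩))
  · rintro ((⟨-, rfl, hne⟩ | ⟨-, rfl, hne⟩ | ⟨u, -, rfl, rfl, hne⟩) |
      (⟨-, rfl, hne⟩ | ⟨-, rfl, hne⟩ | ⟨u, -, rfl, rfl, hne⟩))
    · exact ⟨adj_e1 a, hne⟩
    · exact ⟨adj_e2 a, hne⟩
    · exact ⟨adj_e3 u, hne.symm⟩
    · exact ⟨adj_symm (adj_e1 b), hne.symm⟩
    · exact ⟨adj_symm (adj_e2 b), hne.symm⟩
    · exact ⟨adj_symm (adj_e3 u), hne⟩


theorem ncard_che {Λ : Finset P2} {h : Hz} (h0 : ∀ v, v ∉ Λ → h v = 0) :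
    (che h).ncard = 2 * (nedges h (upT Λ)).card := by
  classical
  rw [che_eq h0, Set.ncard_coe_finset, Finset.card_union_of_disjoint,
    Finset.card_image_of_injective _ Prod.swap_injective, two_mul]
  rw [Finset.disjoint_left]
  rintro ⟨a, b⟩ h1 h2
  obtain ⟨⟨c, d⟩, h3, h4⟩ := Finset.mem_image.1 h2
  simp only [Prod.swap_prod_mk, Prod.mk.injEq] at h4
  obtain ⟨rfl, rfl⟩ := h4
  have h5 := nedges_lt h1
  have h6 := nedges_lt h3
  simp only at h5 h6
  omega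

theorem wt_sq (x : ℝ) {Λ : Finset P2} {h : Hz} (hl : Lip h) (h0 : ∀ v, v ∉ Λ → h v = 0) :
    wt x Λ h ^ 2 = x ^ (che h).ncard := by
  rw [ncard_che h0, wt, ← pow_card_nedges x hl, ← pow_mul, mul_comm]

/-! ### automorphisms -/

/-- automorphism of the triangular lattice -/
def Sym (σ : P2 ≃ P2) : Prop := ∀ u v, Adj (σ u) (σ v) ↔ Adj u v

theorem Sym.symm {σ : P2 ≃ P2} (hσ : Sym σ) : Sym σ.symm := fun u v => by
  have := hσ (σ.symm u) (σ.symm v)
  rw [σ.apply_symm_apply, σ.apply_symm_apply] at this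
  exact this.symm

/-- heights transported by `σ` -/
def actZ (σ : P2 → P2) (h : Hz) : Hz := fun v => h (σ v)

theorem lip_actZ {σ : P2 ≃ P2} (hσ : Sym σ) {h : Hz} (hl : Lip h) : Lip (actZ σ h) :=
  fun u v huv => hl _ _ ((hσ u v).2 huv)

theorem che_actZ {σ : P2 ≃ P2} (hσ : Sym σ) (h : Hz) :
    che h = (fun p : P2 × P2 => (σ p.1, σ p.2)) '' che (actZ σ h) := by
  ext ⟨a, b⟩
  simp only [che, actZ, Set.mem_ofPred_eq, Set.mem_image]
  constructor
  · rintro ⟨h1, h2⟩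
    refine ⟨(σ.symm a, σ.symm b), ⟨?_, ?_⟩, by simp⟩
    · exact (hσ.symm a b).2 h1
    · simpa using h2
  · rintro ⟨⟨c, d⟩, ⟨h1, h2⟩, h3⟩
    simp only [Prod.mk.injEq] at h3
    obtain ⟨rfl, rfl⟩ := h3
    exact ⟨(hσ c d).2 h1, h2⟩

theorem ncard_che_actZ {σ : P2 ≃ P2} (hσ : Sym σ) (h : Hz) : (che (actZ σ h)).ncard = (che h).ncard := by
  rw [che_actZ hσ h, Set.ncard_image_of_injective]
  rintro ⟨a, b⟩ ⟨c, d⟩ h1
  simp only [Prod.mk.injEq, EmbeddingLike.apply_eq_iff_eq] at h1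
  rw [h1.1, h1.2]

theorem mem_conf_actZ {σ : P2 ≃ P2} (hσ : Sym σ) {Λ : Finset P2} {h : Hz} :
    actZ σ h ∈ conf Λ (fun _ => 0) ↔ h ∈ conf (Λ.map σ.toEmbedding) (fun _ => 0) := by
  simp only [mem_conf]
  constructor
  · rintro ⟨h1, h2⟩
    refine ⟨fun u v huv => ?_, fun v hv => ?_⟩
    · have := h1 (σ.symm u) (σ.symm v) ((hσ.symm u v).2 huv)
      simpa [actZ] using this
    · have : σ.symm v ∉ Λ := fun h3 => hv (Finset.mem_map.2 ⟨_, h3, by simp⟩)
      simpa [actZ] using h2 _ this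
  · rintro ⟨h1, h2⟩
    refine ⟨lip_actZ hσ h1, fun v hv => ?_⟩
    refine h2 _ fun h3 => hv ?_
    obtain ⟨w, hw, hw'⟩ := Finset.mem_map.1 h3
    simp only [Equiv.coe_toEmbedding, EmbeddingLike.apply_eq_iff_eq] at hw'
    rwa [← hw']

theorem wt_actZ (x : ℝ) {σ : P2 ≃ P2} (hσ : Sym σ) {Λ : Finset P2} {h : Hz}
    (hh : h ∈ conf (Λ.map σ.toEmbedding) (fun _ => 0)) :
    wt x Λ (actZ σ h) = wt x (Λ.map σ.toEmbedding) h := by
  have h1 := (mem_conf_actZ hσ).2 hh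
  rw [mem_conf] at h1 hh
  have h2 := wt_sq x h1.1 h1.2
  have h3 := wt_sq x hh.1 hh.2
  rw [ncard_che_actZ hσ, ← h3] at h2
  exact (sq_eq_sq₀ (wt_nonneg _ _ _) (wt_nonneg _ _ _)).1 h2

theorem sum_map {M : Type*} [AddCommMonoid M] {σ : P2 ≃ P2} (hσ : Sym σ) (Λ : Finset P2)
    (g : Hz → M) :
    ∑ h ∈ conf (Λ.map σ.toEmbedding) (fun _ => 0), g (actZ σ h) = ∑ h ∈ conf Λ (fun _ => 0), g h := by
  classical
  refine Finset.sum_bij (fun h _ => actZ σ h) (fun h hh => (mem_conf_actZ hσ).2 hh) ?_ ?_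
    (fun h _ => rfl)
  · intro a _ b _ hab
    funext v
    have := congrFun hab (σ.symm v)
    simpa [actZ] using this
  · intro b hb
    refine ⟨fun v => b (σ.symm v), ?_, ?_⟩
    · refine (mem_conf_actZ hσ).1 ?_
      have : actZ (σ : P2 → P2) (fun v => b (σ.symm v)) = b := by
        funext v; simp [actZ]
      rwa [this]
    · funext v; simp [actZ]

theorem Z_map (x : ℝ) {σ : P2 ≃ P2} (hσ : Sym σ) (Λ : Finset P2) :
    Z x (Λ.map σ.toEmbedding) (fun _ => 0) = Z x Λ (fun _ => 0) := by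
  unfold Z
  rw [← sum_map hσ Λ]
  exact Finset.sum_congr rfl fun h hh => (wt_actZ x hσ hh).symm

/-- transport of the zero boundary law by an automorphism -/
theorem ex_map {V : Type*} [AddCommGroup V] [Module ℝ V] (x : ℝ) {σ : P2 ≃ P2} (hσ : Sym σ)
    (Λ : Finset P2) (f : Hz → V) :
    ex x (Λ.map σ.toEmbedding) (fun _ => 0) (fun h => f (actZ σ h)) = ex x Λ (fun _ => 0) f := by
  unfold ex
  rw [Z_map x hσ, ← sum_map hσ Λ]
  congr 1
  refine Finset.sum_congr rfl fun h hh => ?_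
  rw [wt_actZ x hσ hh]

/-- translation -/
def trE (a : P2) : P2 ≃ P2 := Equiv.addRight a

theorem sym_trE (a : P2) : Sym (trE a) := by
  intro u v
  simp only [trE, Equiv.coe_addRight, Adj, Prod.fst_add, Prod.snd_add]
  constructor <;> intro h <;> omega

/-- the reflection `sw` -/
def swE : P2 ≃ P2 where
  toFun := Tp952.sw
  invFun := Tp952.sw
  left_inv _ := rfl
  right_inv _ := rfl

theorem swE_apply (v : P2) : swE v = (v.2, v.1) := rfl

theorem sym_swE : Sym swE := by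
  intro u v
  rw [swE_apply, swE_apply]
  unfold Adj
  simp only
  constructor <;> intro h <;> omega

/-- the reflection `th` -/
def thE : P2 ≃ P2 where
  toFun := Tp952.th
  invFun := Tp952.th
  left_inv v := by ext <;> simp [Tp952.th]
  right_inv v := by ext <;> simp [Tp952.th]

theorem thE_apply (v : P2) : thE v = (v.1 + v.2, - v.2) := rfl

theorem sym_thE : Sym thE := by
  intro u v
  rw [thE_apply, thE_apply]
  unfold Adj
  simp only
  constructor <;> intro h <;> omega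

/-- invariance of the zero boundary law under `h ↦ -h` -/
theorem ex_neg0 {V : Type*} [AddCommGroup V] [Module ℝ V] (x : ℝ) (Λ : Finset P2) (f : Hz → V) :
    ex x Λ (fun _ => 0) (fun h => f (fun v => - h v)) = ex x Λ (fun _ => 0) f := by
  have h1 := ex_neg x Λ (fun _ => 0) f
  simp only [neg_zero] at h1
  exact h1.symm

/-! ### the law as a measure -/

theorem integrable_mu (x : ℝ) (Λ : Finset P2) (τ : Hz) {E : Type*} [NormedAddCommGroup E]
    (f : Hz → E) : Integrable f (mu x Λ τ) := by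
  unfold mu
  refine (integrable_finsetSum_measure).2 fun h _ => ?_
  exact (integrable_dirac (by simp)).smul_measure ENNReal.ofReal_ne_top

theorem integral_mu {x : ℝ} (hx : 0 < x) {Λ : Finset P2} {τ : Hz} (hτ : Lip τ) {E : Type*}
    [NormedAddCommGroup E] [NormedSpace ℝ E] [CompleteSpace E] (f : Hz → E) :
    ∫ h, f h ∂(mu x Λ τ) = ex x Λ τ f := by
  unfold mu
  rw [integral_finsetSum_measure]
  · unfold ex
    rw [Finset.smul_sum]
    refine Finset.sum_congr rfl fun h _ => ?_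
    rw [integral_smul_measure, integral_dirac, ENNReal.toReal_ofReal
      (div_nonneg (wt_nonneg _ _ _) (Z_pos hx hτ).le), smul_smul, div_eq_inv_mul]
  · intro h _
    exact (integrable_dirac (by simp)).smul_measure ENNReal.ofReal_ne_top

theorem isProb_mu {x : ℝ} (hx : 0 < x) {Λ : Finset P2} {τ : Hz} (hτ : Lip τ) :
    IsProbabilityMeasure (mu x Λ τ) := by
  constructor
  unfold mu
  rw [Measure.finsetSum_apply]
  have h1 : ∀ h ∈ conf Λ τ, (ENNReal.ofReal (wt x Λ h / Z x Λ τ) • Measure.dirac h : Measure Hz) Set.univ =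
      ENNReal.ofReal (wt x Λ h / Z x Λ τ) := by
    intro h _
    simp
  rw [Finset.sum_congr rfl h1, ← ENNReal.ofReal_sum_of_nonneg, ← Finset.sum_div]
  · have := Z_pos hx hτ (Λ := Λ)
    unfold Z at this ⊢
    rw [div_self this.ne', ENNReal.ofReal_one]
  · intro h _
    exact div_nonneg (wt_nonneg _ _ _) (Z_pos hx hτ).le

theorem lip_mu (x : ℝ) (Λ : Finset P2) (τ : Hz) : ∀ᵐ h ∂(mu x Λ τ), Lip h := by
  unfold mu
  rw [ae_finsetSum_measure_iff]
  intro h hh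
  refine Measure.ae_smul_measure ?_ _
  rw [ae_dirac_eq]
  exact (mem_conf.1 hh).1

end Crest.Agent.R144.Pst967
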