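import Crest.Agent.R144.It2_844
import Crest.Agent.R144.Tp1_952
import Crest.Agent.R144.Pst2_967

-- ▼ part R144/Psr1_712
section

/-!
# R144 (helper712): symmetries and site reflection positivity of the zero boundary laws

`ex x Λ 0` is helper844's finite volume law of the integer heights.  Its weight is a product over the edges
touching `Λ` (`wt_eq_WE`), hence

* `ex_act` : covariance under every automorphism of the triangular lattice;
* `rp_ex` : for `th Λ = Λ` (reflection in the row `{y = 0}`) and a functional `F` of the heights on `{0 ≤ y}`: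
  `0 ≤ re E[conj (F (h ∘ th)) * F h]`.
-/

set_option autoImplicit false

noncomputable section

namespace Crest.Agent.R144.Psr712

open Finset
open Crest.ProbabilityR.HexHeights (Adj)
open Crest.Agent.R144.It844
open Crest.Agent.R144.Tp952 (th sw)
open scoped ComplexConjugate

/-! ### edges -/

/-- the six neighbours -/
def nb (u : P2) : Finset P2 :=
  {(u.1 + 1, u.2), (u.1 - 1, u.2), (u.1, u.2 + 1), (u.1, u.2 - 1), (u.1 + 1, u.2 - 1), (u.1 - 1, u.2 + 1)}

@[simp] theorem mem_nb {u v : P2} : v ∈ nb u ↔ Adj u v := by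
  rw [adj_iff]
  simp only [nb, Finset.mem_insert, Finset.mem_singleton]

/-- edges touching `Λ` -/
def EL (Λ : Finset P2) : Finset (Sym2 P2) := Λ.biUnion fun u => (nb u).image fun v => s(u, v)

theorem mem_EL {Λ : Finset P2} {e : Sym2 P2} : e ∈ EL Λ ↔ ∃ u ∈ Λ, ∃ v, Adj u v ∧ e = s(u, v) := by
  simp only [EL, Finset.mem_biUnion, Finset.mem_image, mem_nb]
  constructor
  · rintro ⟨u, hu, v, hv, rfl⟩; exact ⟨u, hu, v, hv, rfl⟩
  · rintro ⟨u, hu, v, hv, rfl⟩; exact ⟨u, hu, v, hv, rfl⟩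

theorem mk_mem_EL {Λ : Finset P2} {a b : P2} : s(a, b) ∈ EL Λ ↔ Adj a b ∧ (a ∈ Λ ∨ b ∈ Λ) := by
  rw [mem_EL]
  constructor
  · rintro ⟨u, hu, v, hv, he⟩
    rcases Sym2.eq_iff.1 he with ⟨rfl, rfl⟩ | ⟨rfl, rfl⟩
    · exact ⟨hv, Or.inl hu⟩
    · exact ⟨adj_symm hv, Or.inr hu⟩
  · rintro ⟨h, h1 | h1⟩
    · exact ⟨a, h1, b, h, rfl⟩
    · exact ⟨b, h1, a, adj_symm h, Sym2.eq_swap⟩

/-- edge weight -/
def phS (x : ℝ) (h : P2 → ℤ) : Sym2 P2 → ℝ :=
  Sym2.lift ⟨fun a b => ph x (h a) (h b), fun a b => ph_comm x (h a) (h b)⟩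

@[simp] theorem phS_mk (x : ℝ) (h : P2 → ℤ) (a b : P2) : phS x h s(a, b) = ph x (h a) (h b) := rfl

theorem phS_nonneg {x : ℝ} (hx : 0 ≤ x) (h : P2 → ℤ) (e : Sym2 P2) : 0 ≤ phS x h e := by
  induction e using Sym2.ind with
  | _ a b => exact ph_nonneg hx _ _


theorem ph_self (x : ℝ) (a : ℤ) : ph x a a = 1 := by simp [ph]

/-- edge form of the weight -/
def WE (x : ℝ) (Λ : Finset P2) (h : P2 → ℤ) : ℝ := ∏ e ∈ EL Λ, phS x h e

/-- the three edges of an up triangle -/
def ed (p : P2 × Fin 3) : Sym2 P2 :=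
  ![s(p.1, (p.1.1 + 1, p.1.2)), s(p.1, (p.1.1, p.1.2 + 1)),
    s((p.1.1 + 1, p.1.2), (p.1.1, p.1.2 + 1))] p.2

theorem ed_injective : Function.Injective ed := by
  rintro ⟨⟨a, b⟩, i⟩ ⟨⟨c, d⟩, j⟩ h
  fin_cases i <;> fin_cases j <;>
    simp only [ed, Fin.zero_eta, Fin.mk_one, Fin.reduceFinMk, Matrix.cons_val_zero, Matrix.cons_val_one,
      Matrix.cons_val, Sym2.eq_iff, Prod.mk.injEq] at h ⊢
  all_goals first
    | (exfalso; omega)
    | (refine ⟨⟨?_, ?_⟩, trivial⟩ <;> omega)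

theorem prod_E3 (x : ℝ) (T : Finset P2) (h : P2 → ℤ) :
    ∏ u ∈ T, E3 x h u = ∏ e ∈ (T ×ˢ (Finset.univ : Finset (Fin 3))).image ed, phS x h e := by
  rw [Finset.prod_image (fun a _ b _ hab => ed_injective hab), Finset.prod_product]
  refine Finset.prod_congr rfl fun u _ => ?_
  rw [Fin.prod_univ_three]
  rfl

theorem wt_eq_WE (x : ℝ) {Λ : Finset P2} {h : P2 → ℤ} (hh : h ∈ conf Λ (0 : P2 → ℤ)) :
    wt x Λ h = WE x Λ h := by
  obtain ⟨hl, h0⟩ := mem_conf.1 hh
  rw [← WL_eq_wt x Λ hl, WL, prod_E3, WE]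
  symm
  apply Finset.prod_subset
  · intro e he
    rw [Finset.mem_image]
    induction e using Sym2.ind with
    | _ a b =>
      obtain ⟨hab, hL⟩ := mk_mem_EL.1 he
      rw [adj_iff] at hab
      simp only [Finset.mem_product, Finset.mem_univ, and_true, mem_upT]
      rcases hab with rfl | rfl | rfl | rfl | rfl | rfl
      · refine ⟨(a, 0), ?_, rfl⟩
        rcases hL with h | h
        · left; exact h
        · right; left; exact h
      · refine ⟨((a.1 - 1, a.2), 0), ?_, ?_⟩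
        · rcases hL with h | h
          · right; left; simpa using h
          · left; exact h
        · simp only [ed, Matrix.cons_val_zero, sub_add_cancel, Prod.mk.eta]; exact Sym2.eq_swap
      · refine ⟨(a, 1), ?_, rfl⟩
        rcases hL with h | h
        · left; exact h
        · right; right; exact h
      · refine ⟨((a.1, a.2 - 1), 1), ?_, ?_⟩
        · rcases hL with h | h
          · right; right; simpa using h
          · left; exact h
        · simp only [ed, Matrix.cons_val_one, Matrix.cons_val_zero, sub_add_cancel, Prod.mk.eta]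
          exact Sym2.eq_swap
      · refine ⟨((a.1, a.2 - 1), 2), ?_, ?_⟩
        · rcases hL with h | h
          · right; right; simpa using h
          · right; left; exact h
        · simp only [ed, Matrix.cons_val, sub_add_cancel, Prod.mk.eta]; exact Sym2.eq_swap
      · refine ⟨((a.1 - 1, a.2), 2), ?_, ?_⟩
        · rcases hL with h | h
          · right; left; simpa using h
          · right; right; exact h
        · simp only [ed, Matrix.cons_val, sub_add_cancel, Prod.mk.eta]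
  · intro e he hne
    rw [Finset.mem_image] at he
    obtain ⟨⟨u, i⟩, -, rfl⟩ := he
    have key : ∀ a b : P2, Adj a b → s(a, b) ∉ EL Λ → phS x h s(a, b) = 1 := by
      intro a b hab hn
      rw [mk_mem_EL] at hn
      have ha : a ∉ Λ := fun h => hn ⟨hab, Or.inl h⟩
      have hb : b ∉ Λ := fun h => hn ⟨hab, Or.inr h⟩
      rw [phS_mk, h0 a ha, h0 b hb]
      exact ph_self x _
    fin_cases i
    · exact key _ _ (adj_e1 u) hne
    · exact key _ _ (adj_e2 u) hne
    · exact key _ _ (adj_symm (adj_e3 u)) hne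

/-! ### lattice automorphisms -/


theorem phS_map (x : ℝ) (h : P2 → ℤ) (σ : P2 → P2) (e : Sym2 P2) :
    phS x h (Sym2.map σ e) = phS x (fun v => h (σ v)) e := by
  induction e using Sym2.ind with
  | _ a b => rfl





section ex
variable {V : Type*} [AddCommGroup V] [Module ℝ V]


end ex

theorem th_th (p : P2) : th (th p) = p := by
  unfold th; ext <;> simp

theorem sw_sw (p : P2) : sw (sw p) = p := rfl

/-- `th` as an equivalence -/
def thE : P2 ≃ P2 := ⟨th, th, th_th, th_th⟩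

/-- `sw` as an equivalence -/
def swE : P2 ≃ P2 := ⟨sw, sw, sw_sw, sw_sw⟩

/-- translation as an equivalence -/
def trE (a : P2) : P2 ≃ P2 := Equiv.addRight a

@[simp] theorem thE_apply (p : P2) : thE p = th p := rfl
@[simp] theorem swE_apply (p : P2) : swE p = sw p := rfl
@[simp] theorem trE_apply (a p : P2) : trE a p = p + a := rfl

theorem adj_th (u v : P2) : Adj (th u) (th v) ↔ Adj u v := by
  unfold Adj th; simp only; omega


theorem adj_tr (a u v : P2) : Adj (u + a) (v + a) ↔ Adj u v := by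
  unfold Adj; simp only [Prod.fst_add, Prod.snd_add]; omega

/-! ### reflection positivity -/

/-- the upper half of `h`, extended symmetrically -/
def up (h : P2 → ℤ) : P2 → ℤ := fun v => if 0 ≤ v.2 then h v else h (th v)

/-- the lower half of `h`, reflected and extended symmetrically -/
def lo (h : P2 → ℤ) : P2 → ℤ := up (fun v => h (th v))

/-- gluing: the upper half of `a`, the lower half of `b` -/
def gl (a b : P2 → ℤ) : P2 → ℤ := fun v => if 0 ≤ v.2 then a v else b v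

/-- restriction to the line `{y = 0}` -/
def key (h : P2 → ℤ) : P2 → ℤ := fun v => if v.2 = 0 then h v else 0

theorem th_eq_self {v : P2} (hv : v.2 = 0) : th v = v := by
  unfold th; ext <;> simp [hv]

theorem th_snd (v : P2) : (th v).2 = - v.2 := rfl

/-- symmetric configurations -/
def Sy (Λ : Finset P2) : Finset (P2 → ℤ) :=
  haveI := Classical.decPred fun h : P2 → ℤ => ∀ v, h (th v) = h v
  (conf Λ (0 : P2 → ℤ)).filter fun h => ∀ v, h (th v) = h v

theorem mem_Sy {Λ : Finset P2} {h : P2 → ℤ} :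
    h ∈ Sy Λ ↔ h ∈ conf Λ (0 : P2 → ℤ) ∧ ∀ v, h (th v) = h v := by
  simp [Sy]

theorem up_th (h : P2 → ℤ) (v : P2) : up h (th v) = up h v := by
  unfold up
  rw [th_snd, th_th]
  rcases lt_trichotomy v.2 0 with hv | hv | hv
  · rw [if_pos (by omega), if_neg (by omega)]
  · rw [if_pos (by omega), if_pos (by omega), th_eq_self hv]
  · rw [if_neg (by omega), if_pos (by omega)]

/-- two neighbours lie in one closed half plane -/
theorem adj_half {u v : P2} (h : Adj u v) : (0 ≤ u.2 ∧ 0 ≤ v.2) ∨ (u.2 ≤ 0 ∧ v.2 ≤ 0) := by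
  unfold Adj at h; omega

theorem up_lip {h : P2 → ℤ} (hh : Lip h) : Lip (up h) := by
  intro u v huv
  rcases adj_half huv with ⟨h1, h2⟩ | ⟨h1, h2⟩
  · unfold up; rw [if_pos h1, if_pos h2]; exact hh u v huv
  · rw [← up_th h u, ← up_th h v]
    unfold up
    rw [if_pos (by rw [th_snd]; omega), if_pos (by rw [th_snd]; omega)]
    exact hh _ _ ((adj_th u v).2 huv)

theorem gl_lip {a b : P2 → ℤ} (ha : Lip a) (hb : Lip b) (hk : ∀ v : P2, v.2 = 0 → a v = b v) :
    Lip (gl a b) := by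
  intro u v huv
  rcases adj_half huv with ⟨h1, h2⟩ | ⟨h1, h2⟩
  · unfold gl; rw [if_pos h1, if_pos h2]; exact ha u v huv
  · have e : ∀ w : P2, w.2 ≤ 0 → gl a b w = b w := by
      intro w hw
      unfold gl
      rcases hw.eq_or_lt with h0 | h0
      · rw [if_pos (by omega), hk w h0]
      · rw [if_neg (by omega)]
    rw [e u h1, e v h2]; exact hb u v huv

section
variable {Λ : Finset P2} (hΛ : ∀ v, th v ∈ Λ ↔ v ∈ Λ)
include hΛ

theorem conf_th {h : P2 → ℤ} (hh : h ∈ conf Λ (0 : P2 → ℤ)) :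
    (fun v => h (th v)) ∈ conf Λ (0 : P2 → ℤ) := by
  obtain ⟨h1, h2⟩ := mem_conf.1 hh
  refine mem_conf.2 ⟨fun u v huv => h1 _ _ ((adj_th u v).2 huv), fun v hv => h2 _ ?_⟩
  rwa [hΛ]

theorem up_mem {h : P2 → ℤ} (hh : h ∈ conf Λ (0 : P2 → ℤ)) : up h ∈ Sy Λ := by
  obtain ⟨h1, h2⟩ := mem_conf.1 hh
  refine mem_Sy.2 ⟨mem_conf.2 ⟨up_lip h1, fun v hv => ?_⟩, up_th h⟩
  unfold up
  split_ifs
  · exact h2 v hv
  · exact h2 _ (by rwa [hΛ])

theorem lo_mem {h : P2 → ℤ} (hh : h ∈ conf Λ (0 : P2 → ℤ)) : lo h ∈ Sy Λ :=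
  up_mem hΛ (conf_th hΛ hh)

omit hΛ in
theorem gl_mem {a b : P2 → ℤ} (ha : a ∈ Sy Λ) (hb : b ∈ Sy Λ) (hk : key a = key b) :
    gl a b ∈ conf Λ (0 : P2 → ℤ) := by
  obtain ⟨ha1, ha2⟩ := mem_conf.1 (mem_Sy.1 ha).1
  obtain ⟨hb1, hb2⟩ := mem_conf.1 (mem_Sy.1 hb).1
  refine mem_conf.2 ⟨gl_lip ha1 hb1 fun v hv => ?_, fun v hv => ?_⟩
  · have := congrFun hk v
    simpa [key, hv] using this
  · unfold gl
    split_ifs
    · exact ha2 v hv
    · exact hb2 v hv

end

theorem gl_up_lo (h : P2 → ℤ) : gl (up h) (lo h) = h := by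
  funext v
  unfold gl
  split_ifs with hv
  · unfold up; rw [if_pos hv]
  · unfold lo; rw [← up_th]
    unfold up
    rw [if_pos (by rw [th_snd]; omega)]
    show h (th (th v)) = h v
    rw [th_th]

theorem key_up_lo (h : P2 → ℤ) : key (up h) = key (lo h) := by
  funext v
  unfold key
  split_ifs with hv
  · unfold lo up
    rw [if_pos (by omega), if_pos (by omega)]
    show h v = h (th v)
    rw [th_eq_self hv]
  · rfl

theorem up_gl {Λ : Finset P2} {a b : P2 → ℤ} (ha : a ∈ Sy Λ) : up (gl a b) = a := by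
  funext v
  rcases le_or_gt 0 v.2 with hv | hv
  · unfold up gl; rw [if_pos hv, if_pos hv]
  · rw [← up_th, ← (mem_Sy.1 ha).2 v]
    have h2 : 0 ≤ (th v).2 := by rw [th_snd]; omega
    unfold up gl; rw [if_pos h2, if_pos h2]

theorem lo_gl {Λ : Finset P2} {a b : P2 → ℤ} (hb : b ∈ Sy Λ)
    (hk : key a = key b) : lo (gl a b) = b := by
  have h0 : ∀ v : P2, v.2 = 0 → a v = b v := fun v hv => by
    have := congrFun hk v
    simpa [key, hv] using this
  have main : ∀ v : P2, 0 ≤ v.2 → lo (gl a b) v = b v := by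
    intro v hv
    unfold lo up
    rw [if_pos hv]
    unfold gl
    show (if 0 ≤ (th v).2 then a (th v) else b (th v)) = b v
    rcases hv.eq_or_lt with h | h
    · have e : th v = v := th_eq_self h.symm
      rw [e, if_pos hv, h0 v h.symm]
    · rw [if_neg (by rw [th_snd]; omega), (mem_Sy.1 hb).2]
  funext v
  rcases le_or_gt 0 v.2 with hv | hv
  · exact main v hv
  · have h1 : lo (gl a b) (th v) = lo (gl a b) v := up_th _ v
    rw [← h1, ← (mem_Sy.1 hb).2 v]
    exact main _ (by rw [th_snd]; omega)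

/-! ### the three parts of the weight -/

/-- edges in the closed upper half plane -/
def EU (Λ : Finset P2) : Finset (Sym2 P2) :=
  haveI := Classical.decPred fun e : Sym2 P2 => ∀ v ∈ e, 0 ≤ v.2
  (EL Λ).filter fun e => ∀ v ∈ e, 0 ≤ v.2

/-- edges of the line -/
def E0 (Λ : Finset P2) : Finset (Sym2 P2) :=
  haveI := Classical.decPred fun e : Sym2 P2 => ∀ v ∈ e, v.2 = 0
  (EL Λ).filter fun e => ∀ v ∈ e, v.2 = 0

theorem mem_EU {Λ : Finset P2} {e : Sym2 P2} : e ∈ EU Λ ↔ e ∈ EL Λ ∧ ∀ v ∈ e, 0 ≤ v.2 := by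
  simp [EU]

theorem mem_E0 {Λ : Finset P2} {e : Sym2 P2} : e ∈ E0 Λ ↔ e ∈ EL Λ ∧ ∀ v ∈ e, v.2 = 0 := by
  simp [E0]

theorem E0_subset (Λ : Finset P2) : E0 Λ ⊆ EU Λ := fun e he => by
  obtain ⟨h1, h2⟩ := mem_E0.1 he
  exact mem_EU.2 ⟨h1, fun v hv => (h2 v hv).ge⟩

theorem sdiff_EU {Λ : Finset P2} (hΛ : ∀ v, th v ∈ Λ ↔ v ∈ Λ) :
    EL Λ \ EU Λ = (EU Λ \ E0 Λ).image (Sym2.map th) := by
  classical
  have hmap : ∀ e, e ∈ EL Λ ↔ Sym2.map th e ∈ EL Λ := by
    intro e
    induction e using Sym2.ind with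
    | _ a b => rw [Sym2.map_mk, mk_mem_EL, mk_mem_EL, adj_th, hΛ, hΛ]
  ext e
  rw [Finset.mem_sdiff, Finset.mem_image]
  constructor
  · rintro ⟨h1, h2⟩
    refine ⟨Sym2.map th e, ?_, ?_⟩
    · rw [Finset.mem_sdiff, mem_EU, mem_E0, ← hmap]
      rw [mem_EU] at h2
      induction e using Sym2.ind with
      | _ a b =>
        obtain ⟨hab, -⟩ := mk_mem_EL.1 h1
        have hh := adj_half hab
        simp only [Sym2.map_mk, Sym2.mem_iff, forall_eq_or_imp, forall_eq, th_snd] at h2 ⊢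
        refine ⟨⟨h1, ?_⟩, ?_⟩
        · have : ¬ (0 ≤ a.2 ∧ 0 ≤ b.2) := fun h => h2 ⟨h1, h⟩
          omega
        · rintro ⟨-, h⟩
          exact h2 ⟨h1, by omega⟩
    · rw [Sym2.map_map]
      have : th ∘ th = id := by funext p; exact th_th p
      rw [this, Sym2.map_id, id]
  · rintro ⟨e', he', rfl⟩
    rw [Finset.mem_sdiff, mem_EU, mem_E0] at he'
    obtain ⟨⟨h1, h2⟩, h3⟩ := he'
    refine ⟨(hmap e').1 h1, ?_⟩
    rw [mem_EU]
    rintro ⟨-, h4⟩
    apply h3
    refine ⟨h1, fun v hv => ?_⟩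
    have h5 := h4 (th v) (Sym2.mem_map.2 ⟨v, hv, rfl⟩)
    have h6 := h2 v hv
    rw [th_snd] at h5
    omega

/-- upper weight without the line -/
def WU (x : ℝ) (Λ : Finset P2) (h : P2 → ℤ) : ℝ := ∏ e ∈ EU Λ \ E0 Λ, phS x h e

/-- weight of the line -/
def W0 (x : ℝ) (Λ : Finset P2) (h : P2 → ℤ) : ℝ := ∏ e ∈ E0 Λ, phS x h e

theorem W0_nonneg {x : ℝ} (hx : 0 ≤ x) (Λ : Finset P2) (h : P2 → ℤ) : 0 ≤ W0 x Λ h :=
  Finset.prod_nonneg fun _ _ => phS_nonneg hx _ _

theorem WE_split (x : ℝ) {Λ : Finset P2} (hΛ : ∀ v, th v ∈ Λ ↔ v ∈ Λ) (h : P2 → ℤ) :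
    WE x Λ h = W0 x Λ h * WU x Λ h * WU x Λ (fun v => h (th v)) := by
  classical
  have h1 : EU Λ ⊆ EL Λ := fun e he => (mem_EU.1 he).1
  have hinj : Function.Injective (Sym2.map th) :=
    Sym2.map.injective (Function.LeftInverse.injective (g := th) th_th)
  unfold WE
  rw [← Finset.prod_sdiff h1, ← Finset.prod_sdiff (E0_subset Λ), sdiff_EU hΛ,
    Finset.prod_image fun a _ b _ hab => hinj hab]
  unfold W0 WU
  rw [Finset.prod_congr rfl fun e _ => phS_map x h th e]
  ring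

theorem phS_congr (x : ℝ) {h g : P2 → ℤ} {e : Sym2 P2} (H : ∀ v ∈ e, h v = g v) :
    phS x h e = phS x g e := by
  induction e using Sym2.ind with
  | _ a b => rw [phS_mk, phS_mk, H a (Sym2.mem_mk_left a b), H b (Sym2.mem_mk_right a b)]

theorem WU_congr (x : ℝ) (Λ : Finset P2) {h g : P2 → ℤ} (H : ∀ v : P2, 0 ≤ v.2 → h v = g v) :
    WU x Λ h = WU x Λ g :=
  Finset.prod_congr rfl fun _ he =>
    phS_congr x fun v hv => H v ((mem_EU.1 (Finset.mem_sdiff.1 he).1).2 v hv)

theorem W0_congr (x : ℝ) (Λ : Finset P2) {h g : P2 → ℤ} (H : ∀ v : P2, v.2 = 0 → h v = g v) :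
    W0 x Λ h = W0 x Λ g :=
  Finset.prod_congr rfl fun _ he => phS_congr x fun v hv => H v ((mem_E0.1 he).2 v hv)

/-- decomposition of sums over configurations -/
theorem sum_conf_split {M : Type*} [AddCommMonoid M] {Λ : Finset P2} (hΛ : ∀ v, th v ∈ Λ ↔ v ∈ Λ)
    (f : (P2 → ℤ) → M) :
    haveI := Classical.decPred fun p : (P2 → ℤ) × (P2 → ℤ) => key p.1 = key p.2
    ∑ h ∈ conf Λ (0 : P2 → ℤ), f h =
      ∑ p ∈ (Sy Λ ×ˢ Sy Λ).filter (fun p => key p.1 = key p.2), f (gl p.1 p.2) := by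
  classical
  refine Finset.sum_bij' (fun h _ => (up h, lo h)) (fun p _ => gl p.1 p.2) ?_ ?_ ?_ ?_ ?_
  · intro h hh
    rw [Finset.mem_filter, Finset.mem_product]
    exact ⟨⟨up_mem hΛ hh, lo_mem hΛ hh⟩, key_up_lo h⟩
  · intro p hp
    rw [Finset.mem_filter, Finset.mem_product] at hp
    exact gl_mem hp.1.1 hp.1.2 hp.2
  · intro h _
    exact gl_up_lo h
  · intro p hp
    rw [Finset.mem_filter, Finset.mem_product] at hp
    exact Prod.ext (up_gl hp.1.1) (lo_gl hp.1.2 hp.2)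
  · intro h _
    rw [gl_up_lo]

/-- **site reflection positivity in finite volume** -/
theorem rp_sum {x : ℝ} (hx : 0 ≤ x) {Λ : Finset P2} (hΛ : ∀ v, th v ∈ Λ ↔ v ∈ Λ)
    (F : (P2 → ℤ) → ℂ) (hF : ∀ h g : P2 → ℤ, (∀ v : P2, 0 ≤ v.2 → h v = g v) → F h = F g) :
    ∃ r : ℝ, 0 ≤ r ∧ ∑ h ∈ conf Λ (0 : P2 → ℤ),
      (wt x Λ h : ℂ) * (conj (F (fun v => h (th v))) * F h) = r := by
  classical
  set A : (P2 → ℤ) → ℂ := fun a => (WU x Λ a : ℂ) * F a with hA
  refine ⟨∑ c ∈ (Sy Λ).image key, ∑ a ∈ (Sy Λ).filter (fun a => key a = c),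
    W0 x Λ c * ‖∑ b ∈ (Sy Λ).filter (fun b => key b = c), A b‖ ^ 2 /
      ((Sy Λ).filter (fun a => key a = c)).card, ?_, ?_⟩
  · refine Finset.sum_nonneg fun c _ => Finset.sum_nonneg fun a _ => ?_
    have := W0_nonneg hx Λ c
    positivity
  · have e1 : ∑ h ∈ conf Λ (0 : P2 → ℤ), (wt x Λ h : ℂ) * (conj (F (fun v => h (th v))) * F h) =
        ∑ h ∈ conf Λ (0 : P2 → ℤ), (WE x Λ h : ℂ) * (conj (F (fun v => h (th v))) * F h) :=
      Finset.sum_congr rfl fun h hh => by rw [wt_eq_WE x hh]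
    rw [e1, sum_conf_split hΛ]
    have e2 : ∀ p ∈ (Sy Λ ×ˢ Sy Λ).filter (fun p : (P2 → ℤ) × (P2 → ℤ) => key p.1 = key p.2),
        (WE x Λ (gl p.1 p.2) : ℂ) * (conj (F (fun v => gl p.1 p.2 (th v))) * F (gl p.1 p.2)) =
          (W0 x Λ (key p.1) : ℂ) * (conj (A p.2) * A p.1) := by
      rintro ⟨a, b⟩ hp
      rw [Finset.mem_filter, Finset.mem_product] at hp
      obtain ⟨⟨ha, hb⟩, hk⟩ := hp
      simp only at ha hb hk ⊢
      have h0 : ∀ v : P2, v.2 = 0 → a v = b v := fun v hv => by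
        have := congrFun hk v
        simpa [key, hv] using this
      have g1 : ∀ v : P2, 0 ≤ v.2 → gl a b v = a v := fun v hv => by
        unfold gl; rw [if_pos hv]
      have g2 : ∀ v : P2, 0 ≤ v.2 → gl a b (th v) = b v := fun v hv => by
        unfold gl
        rcases hv.eq_or_lt with h | h
        · rw [th_eq_self h.symm, if_pos hv, h0 v h.symm]
        · rw [if_neg (by rw [th_snd]; omega), (mem_Sy.1 hb).2]
      rw [WE_split x hΛ, WU_congr x Λ g1, WU_congr x Λ (h := fun v => gl a b (th v)) g2,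
        hF _ _ g1, hF (fun v => gl a b (th v)) b g2,
        W0_congr x Λ (h := gl a b) (g := key a) (fun v hv => by rw [g1 v hv.ge, key, if_pos hv])]
      simp only [hA, map_mul, Complex.conj_ofReal]
      push_cast
      ring
    rw [Finset.sum_congr rfl e2]
    rw [Finset.sum_filter, Finset.sum_product]
    push_cast
    rw [← Finset.sum_fiberwise_of_maps_to (s := Sy Λ) (t := (Sy Λ).image key) (g := key)
      (fun a ha => Finset.mem_image_of_mem _ ha)]
    refine Finset.sum_congr rfl fun c _ => ?_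
    set S := (Sy Λ).filter (fun a => key a = c) with hS
    have e3 : ∀ a ∈ S, ∑ b ∈ Sy Λ, (if key a = key b then (W0 x Λ (key a) : ℂ) *
        (conj (A b) * A a) else 0) = (W0 x Λ c : ℂ) * (A a * conj (∑ b ∈ S, A b)) := by
      intro a ha
      have hac : key a = c := (Finset.mem_filter.1 ha).2
      rw [map_sum, Finset.mul_sum, Finset.mul_sum, hS, Finset.sum_filter]
      refine Finset.sum_congr rfl fun b _ => ?_
      rw [hac]
      by_cases hb : key b = c
      · rw [if_pos hb.symm, if_pos hb]; ring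
      · rw [if_neg (fun h => hb h.symm), if_neg hb]
    rw [Finset.sum_congr rfl e3, ← Finset.mul_sum, ← Finset.sum_mul, Complex.mul_conj,
      Complex.normSq_eq_norm_sq, Finset.sum_const, nsmul_eq_mul]
    rcases S.eq_empty_or_nonempty with h0 | h0
    · simp [h0]
    · have : ((S.card : ℕ) : ℂ) ≠ 0 := by
        exact_mod_cast (Finset.card_pos.2 h0).ne'
      field_simp
      push_cast
      ring

/-- **site reflection positivity of the zero boundary laws** -/
theorem rp_ex {x : ℝ} (hx : 0 ≤ x) {Λ : Finset P2} (hΛ : ∀ v, th v ∈ Λ ↔ v ∈ Λ)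
    (F : (P2 → ℤ) → ℂ) (hF : ∀ h g : P2 → ℤ, (∀ v : P2, 0 ≤ v.2 → h v = g v) → F h = F g) :
    0 ≤ (ex x Λ (0 : P2 → ℤ) (fun h => conj (F (fun v => h (th v))) * F h)).re := by
  obtain ⟨r, hr, he⟩ := rp_sum hx hΛ F hF
  unfold ex
  have e : ∑ h ∈ conf Λ (0 : P2 → ℤ), wt x Λ h • (conj (F (fun v => h (th v))) * F h) = (r : ℂ) := by
    rw [← he]
    exact Finset.sum_congr rfl fun h _ => by rw [Complex.real_smul]
  rw [e, Complex.real_smul, ← Complex.ofReal_mul, Complex.ofReal_re]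
  exact mul_nonneg (inv_nonneg.2 (Finset.sum_nonneg fun _ _ => wt_nonneg _ _ _)) hr

end Crest.Agent.R144.Psr712
end
end

-- ▼ part R144/Pst3_967

/-!
# R144, plane state of the integer models (helper967), part 3: from convergence to `PlaneState`

* `lC 𝓒 = atTop ⊓ 𝓟 𝓒` for a class `𝓒` of finite volumes; `Cls 𝓒` : invariant under the automorphisms
  and with arbitrarily large members symmetric under `th`;
* `GradConv x 𝓒` : the zero boundary expectations of local gradient observables converge along `lC 𝓒`;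
* `planeState_of_gradConv` : then there is `P` on `P2 → ℤ`, pinned at `0`, Lipschitz, which computes
  all these limits, and `PlaneState (P.map toR)`.
-/

set_option autoImplicit false

noncomputable section

namespace Crest.Agent.R144.Pst967

open MeasureTheory Filter Topology
open Crest.ProbabilityR.HexHeights (Adj)
open Crest.Agent.R144.It844
open Crest.Agent.R144.Ps643 hiding P2
open scoped ComplexConjugate

/-- real heights -/
def toR (h : Hz) : Ht := fun v => (h v : ℝ)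

theorem measurable_toR : Measurable toR :=
  measurable_pi_lambda _ fun v => (measurable_of_countable (fun n : ℤ => (n : ℝ))).comp (measurable_pi_apply v)


/-- large volumes of the class `𝓒` -/
def lC (𝓒 : Set (Finset P2)) : Filter (Finset P2) := atTop ⊓ 𝓟 𝓒

/-- admissible classes of volumes -/
structure Cls (𝓒 : Set (Finset P2)) : Prop where
  map : ∀ σ : P2 ≃ P2, Sym σ → ∀ Λ ∈ 𝓒, Λ.map σ.toEmbedding ∈ 𝓒
  refl : ∀ S : Finset P2, ∃ Λ ∈ 𝓒, S ⊆ Λ ∧ ∀ v, Tp952.th v ∈ Λ ↔ v ∈ Λ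

theorem mem_lC {𝓒 : Set (Finset P2)} {p : Set (Finset P2)} :
    p ∈ lC 𝓒 ↔ ∃ S : Finset P2, ∀ Λ ∈ 𝓒, S ⊆ Λ → Λ ∈ p := by
  unfold lC
  rw [mem_inf_principal, mem_atTop_sets]
  constructor
  · rintro ⟨S, hS⟩
    exact ⟨S, fun Λ h1 h2 => hS Λ h2 h1⟩
  · rintro ⟨S, hS⟩
    exact ⟨S, fun Λ h2 h1 => hS Λ h1 h2⟩

variable {𝓒 : Set (Finset P2)}

theorem Cls.neBot (h : Cls 𝓒) : (lC 𝓒).NeBot := by
  rw [neBot_iff]
  intro hbot
  have h1 : (∅ : Set (Finset P2)) ∈ lC 𝓒 := by rw [hbot]; exact mem_bot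
  obtain ⟨S, hS⟩ := mem_lC.1 h1
  obtain ⟨Λ, h2, h3, -⟩ := h.refl S
  exact hS Λ h2 h3

theorem Cls.tendsto_map (h : Cls 𝓒) {σ : P2 ≃ P2} (hσ : Sym σ) :
    Tendsto (fun Λ : Finset P2 => Λ.map σ.toEmbedding) (lC 𝓒) (lC 𝓒) := by
  intro p hp
  obtain ⟨S, hS⟩ := mem_lC.1 hp
  refine mem_lC.2 ⟨S.map σ.symm.toEmbedding, fun Λ h1 h2 => hS _ (h.map σ hσ Λ h1) fun v hv => ?_⟩
  refine Finset.mem_map.2 ⟨σ.symm v, h2 (Finset.mem_map.2 ⟨v, hv, rfl⟩), by simp⟩

theorem Cls.frequently_refl (h : Cls 𝓒) : ∃ᶠ Λ in lC 𝓒, ∀ v, Tp952.th v ∈ Λ ↔ v ∈ Λ := by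
  intro hc
  obtain ⟨S, hS⟩ := mem_lC.1 hc
  obtain ⟨Λ, h2, h3, h4⟩ := h.refl S
  exact hS Λ h2 h3 h4

/-- convergence of the zero boundary laws of the gradient along the class `𝓒` -/
def GradConv (x : ℝ) (𝓒 : Set (Finset P2)) : Prop :=
  ∀ F : Hz → ℝ, GObs F → ∃ a, Tendsto (fun Λ => ex x Λ (fun _ => 0) F) (lC 𝓒) (𝓝 a)

/-- `P` is the limit of the zero boundary laws -/
def ZeroLim (x : ℝ) (𝓒 : Set (Finset P2)) (P : Measure Hz) : Prop :=
  ∀ F : Hz → ℝ, GObs F → Tendsto (fun Λ => ex x Λ (fun _ => 0) F) (lC 𝓒) (𝓝 (∫ h, F h ∂P))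

theorem lip_zero : Lip (fun _ : P2 => (0 : ℤ)) := lip_const 0

/-- **existence of the limit measure** -/
theorem exists_zeroLim {x : ℝ} (hx : 0 < x) (h𝓒 : Cls 𝓒) (h : GradConv x 𝓒) :
    ∃ P : Measure Hz, PinnedZ P ∧ ZeroLim x 𝓒 P := by
  have hne := h𝓒.neBot
  obtain ⟨P, h1, h2⟩ := exists_limit (lC 𝓒) (fun Λ => mu x Λ (fun _ => 0))
    (fun Λ => isProb_mu hx lip_zero) (fun Λ => lip_mu x Λ _) (fun F hF => by
      obtain ⟨a, ha⟩ := h F hF
      exact ⟨a, by simpa only [integral_mu hx lip_zero] using ha⟩)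
  refine ⟨P, h1, fun F hF => ?_⟩
  have := h2 F hF
  simpa only [integral_mu hx lip_zero] using this

/-! ### invariance of the limit -/

theorem GObs.actZ {β : Type*} {F : Hz → β} (hF : GObs F) (σ : P2 ≃ P2) :
    GObs (fun h => F (actZ σ h)) := by
  classical
  obtain ⟨⟨S, hS⟩, hN⟩ := hF
  refine ⟨⟨S.map σ.toEmbedding, fun h g hg => hS _ _ fun v hv => ?_⟩, fun h c => ?_⟩
  · refine hg _ ?_
    rw [Finset.coe_map]
    exact ⟨v, hv, rfl⟩
  · exact hN (Pst967.actZ σ h) c

theorem GObs.neg {β : Type*} {F : Hz → β} (hF : GObs F) : GObs (fun h => F (fun v => - h v)) := by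
  obtain ⟨⟨S, hS⟩, hN⟩ := hF
  refine ⟨⟨S, fun h g hg => hS _ _ fun v hv => ?_⟩, fun h c => ?_⟩
  · rw [hg v hv]
  · have := hN (fun v => - h v) (-c)
    rw [← this]
    congr 1
    funext v
    ring

theorem ZeroLim.map {x : ℝ} (h𝓒 : Cls 𝓒) {P : Measure Hz} (hP : ZeroLim x 𝓒 P) {σ : P2 ≃ P2}
    (hσ : Sym σ) {F : Hz → ℝ} (hF : GObs F) : ∫ h, F (actZ σ h) ∂P = ∫ h, F h ∂P := by
  have hne := h𝓒.neBot
  have h1 := (hP _ (hF.actZ σ)).comp (h𝓒.tendsto_map hσ)
  have h2 := hP F hF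
  refine tendsto_nhds_unique h1 ?_
  refine h2.congr fun Λ => ?_
  exact (ex_map x hσ Λ F).symm

theorem ZeroLim.neg {x : ℝ} (h𝓒 : Cls 𝓒) {P : Measure Hz} (hP : ZeroLim x 𝓒 P)
    {F : Hz → ℝ} (hF : GObs F) : ∫ h, F (fun v => - h v) ∂P = ∫ h, F h ∂P := by
  have hne := h𝓒.neBot
  refine tendsto_nhds_unique (hP _ hF.neg) ?_
  refine (hP F hF).congr fun Λ => ?_
  exact (ex_neg0 x Λ F).symm


theorem gobs_of_obs {F : Ht → ℝ} (hF : Obs F) : GObs (fun h : Hz => F (toR h)) := by
  obtain ⟨S, hS⟩ := hF.loc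
  refine ⟨⟨S, fun h g hg => hS _ _ fun v hv => ?_⟩, fun h c => ?_⟩
  · unfold toR
    rw [hg v hv]
  · have := hF.neut (toR h) (c : ℝ)
    rw [← this]
    congr 1
    funext v
    unfold toR
    push_cast
    ring

theorem re_ex (x : ℝ) (Λ : Finset P2) (τ : Hz) (f : Hz → ℂ) :
    (ex x Λ τ f).re = ex x Λ τ (fun h => (f h).re) := by
  unfold ex
  rw [Complex.real_smul, Complex.re_ofReal_mul, smul_eq_mul, Complex.re_sum]
  congr 1
  refine Finset.sum_congr rfl fun h _ => ?_
  rw [Complex.real_smul, Complex.re_ofReal_mul, smul_eq_mul]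

/-- **the plane state of the integer model** -/
theorem ZeroLim.planeState {x : ℝ} (hx : 0 < x) (h𝓒 : Cls 𝓒) {P : Measure Hz} (hZ : PinnedZ P)
    (hP : ZeroLim x 𝓒 P) : PlaneState (P.map toR) := by
  have hne := h𝓒.neBot
  have hpr := hZ.prob
  have hint : ∀ F : Ht → ℝ, Measurable F → ∫ h, F h ∂(P.map toR) = ∫ h, F (toR h) ∂P := fun F hF =>
    integral_map measurable_toR.aemeasurable hF.aestronglyMeasurable
  have hm : ∀ σ : P2 → P2, Measurable (act σ : Ht → Ht) := fun σ =>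
    measurable_pi_lambda _ fun v => measurable_pi_apply _
  have hobs : ∀ (σ : P2 ≃ P2), Sym σ → ∀ F : Ht → ℝ, Obs F →
      ∫ h, F (act σ h) ∂(P.map toR) = ∫ h, F h ∂(P.map toR) := by
    intro σ hσ F hF
    rw [hint _ hF.meas, hint (fun h => F (act σ h)) (hF.meas.comp (hm σ))]
    exact hP.map h𝓒 hσ (gobs_of_obs hF)
  refine { prob := Measure.isProbabilityMeasure_map measurable_toR.aemeasurable
           zero := ?_, lip := ?_, tr := ?_, swap := ?_, theta := ?_, neg := ?_, rp := ?_ }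
  · have h1 : MeasurableSet {h : Ht | h 0 = 0} := (measurable_pi_apply 0) (measurableSet_singleton 0)
    refine (ae_map_iff measurable_toR.aemeasurable h1).2 ?_
    filter_upwards [hZ.zero] with h hh
    simp only [toR, hh, Int.cast_zero]
  · have h1 : MeasurableSet {h : Ht | ∀ u v, Adj u v → |h u - h v| ≤ 1} := by
      have : {h : Ht | ∀ u v, Adj u v → |h u - h v| ≤ 1} =
          ⋂ u : P2, ⋂ v : P2, {h : Ht | Adj u v → |h u - h v| ≤ 1} := by
        ext h; simp
      rw [this]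
      refine MeasurableSet.iInter fun u => MeasurableSet.iInter fun v => ?_
      by_cases huv : Adj u v
      · have e : {h : Ht | Adj u v → |h u - h v| ≤ 1} = {h : Ht | |h u - h v| ≤ 1} := by
          ext h; simp [huv]
        rw [e]
        exact measurableSet_le (((measurable_pi_apply u).sub (measurable_pi_apply v)).abs) measurable_const
      · have e : {h : Ht | Adj u v → |h u - h v| ≤ 1} = Set.univ := by
          ext h; simp [huv]
        rw [e]
        exact MeasurableSet.univ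
    refine (ae_map_iff measurable_toR.aemeasurable h1).2 ?_
    filter_upwards [hZ.lip] with h hh u v huv
    have := hh u v huv
    have e : |toR h u - toR h v| = ((|h u - h v| : ℤ) : ℝ) := by
      unfold toR; push_cast; rfl
    rw [e]
    exact_mod_cast this
  · intro a F hF
    exact hobs (trE a) (sym_trE a) F hF
  · intro F hF
    exact hobs swE sym_swE F hF
  · intro F hF
    exact hobs thE sym_thE F hF
  · intro F hF
    have h1 : Measurable fun h : Ht => (fun v => - h v : Ht) :=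
      measurable_pi_lambda _ fun v => (measurable_pi_apply v).neg
    rw [hint _ hF.meas, hint (fun h => F (fun v => - h v)) (hF.meas.comp h1)]
    rw [← hP.neg h𝓒 (gobs_of_obs hF)]
    refine integral_congr_ae (Eventually.of_forall fun h => ?_)
    simp only
    congr 1
    funext v
    simp only [toR, Int.cast_neg]
  · intro α F hFm hFb hFc hFl
    obtain ⟨C, hC⟩ := hFb
    obtain ⟨S, hS0, hS⟩ := hFl
    -- the integrand
    set G : Ht → ℂ := fun h => conj (F (act Tp952.th h)) * F h with hG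
    have hGm : Measurable G := by
      refine Measurable.mul ?_ hFm
      exact (Complex.continuous_conj.measurable).comp (hFm.comp (hm _))
    have hGb : ∀ h, ‖G h‖ ≤ C * C := by
      intro h
      rw [hG]
      simp only [norm_mul, RCLike.norm_conj]
      exact mul_le_mul (hC _) (hC _) (norm_nonneg _) ((norm_nonneg _).trans (hC 0))
    have hGn : ∀ (h : Ht) (c : ℝ), G (fun v => h v + c) = G h := by
      intro h c
      have h1 := hFc h c
      have h2 := hFc (act Tp952.th h) c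
      simp only [hG]
      have e : act Tp952.th (fun v => h v + c) = fun v => act Tp952.th h v + c := rfl
      rw [e, h1, h2, map_mul, ← Complex.exp_conj, map_mul, Complex.conj_I, Complex.conj_ofReal]
      have : Complex.exp (-Complex.I * (α * c : ℝ)) * conj (F (act Tp952.th h)) *
          (Complex.exp (Complex.I * (α * c : ℝ)) * F h) =
          (Complex.exp (-Complex.I * (α * c : ℝ)) * Complex.exp (Complex.I * (α * c : ℝ))) *
            (conj (F (act Tp952.th h)) * F h) := by ring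
      rw [this, ← Complex.exp_add]
      have e2 : -Complex.I * ((α * c : ℝ) : ℂ) + Complex.I * ((α * c : ℝ) : ℂ) = 0 := by ring
      rw [e2, Complex.exp_zero, one_mul]
    have hGl : ∃ T : Finset P2, Loc (T : Set P2) G := by
      classical
      refine ⟨S ∪ S.image Tp952.th, fun h g hg => ?_⟩
      have h1 : F h = F g := hS h g fun v hv => hg v (by
        rw [Finset.coe_union]; exact Or.inl hv)
      have h2 : F (act Tp952.th h) = F (act Tp952.th g) := hS _ _ fun v hv => hg _ (by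
        rw [Finset.coe_union, Finset.coe_image]; exact Or.inr ⟨v, hv, rfl⟩)
      simp only [hG, h1, h2]
    have hobsG : Obs (fun h => (G h).re) :=
      { meas := Complex.measurable_re.comp hGm
        bdd := ⟨C * C, fun h => (Complex.abs_re_le_norm _).trans (hGb h)⟩
        loc := by
          obtain ⟨T, hT⟩ := hGl
          exact ⟨T, fun h g hg => by simp only [hT h g hg]⟩
        neut := fun h c => by simp only [hGn h c] }
    have hI : Integrable G (P.map toR) := by
      have : IsProbabilityMeasure (P.map toR) :=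
        Measure.isProbabilityMeasure_map measurable_toR.aemeasurable
      exact Integrable.of_bound hGm.aestronglyMeasurable (C * C) (Eventually.of_forall hGb)
    have hre : (∫ h, G h ∂(P.map toR)).re = ∫ h, (G h).re ∂(P.map toR) := by
      have := integral_re hI (𝕜 := ℂ)
      simpa using this.symm
    rw [hre, hint _ hobsG.meas]
    refine ge_of_tendsto_of_frequently (hP _ (gobs_of_obs hobsG)) ?_
    refine h𝓒.frequently_refl.mono fun Λ hΛ => ?_
    have h3 := Psr712.rp_ex hx.le hΛ (fun h : Hz => F (toR h)) (fun h g hg => hS _ _ fun v hv => by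
      unfold toR
      rw [hg v (hS0 v hv)])
    rw [re_ex] at h3
    exact h3

/-- **main statement of part 3** -/
theorem planeState_of_gradConv {x : ℝ} (hx : 0 < x) (h𝓒 : Cls 𝓒) (h : GradConv x 𝓒) :
    ∃ P : Measure Hz, PinnedZ P ∧ ZeroLim x 𝓒 P ∧ PlaneState (P.map toR) := by
  obtain ⟨P, h1, h2⟩ := exists_zeroLim hx h𝓒 h
  exact ⟨P, h1, h2, h2.planeState hx h𝓒 h1⟩

end Crest.Agent.R144.Pst967
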