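import Mathlib
import Crest.Agent.R144.Pst1_967
import Crest.Agent.R144.Pst3_967
import Crest.Agent.R144.Ga2a_617

-- ▼ part R144/Ccw2_435
section

/-!
# R144, closed-contour Ward identity (doc 1620), step (A2): abstract density lemma, kernel form

* `density` : if `E[X Y] = Σ_a E[q_a X y_a]` with a sub-probability kernel `q_a ≥ 0`, `Σ_a q_a ≤ 1`,
  `p_a = E q_a`, `|y_a| ≤ 1`, and off a set of mass `η` we have `q_a ≤ C p_a`, then `E[X Y]` is small as
  soon as `E[φ X y_a]` is small for the test functions `φ = min(q_a, C p_a)/(C p_a) ∈ [0,1]`.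
* `fourier` : expansion of `1{H = k}` in characters.
* `level` : `|E[X φ ψ 1{|H| ≤ M}]| ≤ (2M+1) ε` if `|E[X φ 1.. ψ_k e^{iαH}]| ≤ ε` for all `α`, `k`.
-/

namespace Crest.Agent.R144.Ccw435

open MeasureTheory Finset
open scoped BigOperators

noncomputable section

section Density

variable {Ω : Type*} [MeasurableSpace Ω] {P : Measure Ω} [IsProbabilityMeasure P] {A : Type*}


end Density

section Characters

/-- discrete Fourier inversion: the indicator of `d = 0` for `|d| < m` -/
theorem char_sum {m : ℕ} {d : ℤ} (hd : |d| < m) :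
    (m : ℂ)⁻¹ * ∑ j ∈ range m, Complex.exp (Complex.I * (((2 * Real.pi * j / m : ℝ) * d : ℝ) : ℂ))
      = if d = 0 then 1 else 0 := by
  have hm : 0 < m := by
    have := abs_nonneg d
    exact_mod_cast this.trans_lt hd
  have hm0 : (m : ℂ) ≠ 0 := by exact_mod_cast hm.ne'
  by_cases h0 : d = 0
  · subst h0
    simp [hm0]
  · rw [if_neg h0]
    set ζ : ℂ := Complex.exp (2 * Real.pi * Complex.I * (d / m)) with hζ
    have e1 : ∀ j ∈ range m, Complex.exp (Complex.I * (((2 * Real.pi * j / m : ℝ) * d : ℝ) : ℂ))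
        = ζ ^ j := by
      intro j _
      rw [hζ, ← Complex.exp_nat_mul]
      congr 1
      push_cast
      field_simp
    have hζm : ζ ^ m = 1 := by
      rw [hζ, ← Complex.exp_nat_mul, Complex.exp_eq_one_iff]
      exact ⟨d, by field_simp⟩
    have hζ1 : ζ ≠ 1 := by
      intro h
      rw [hζ, Complex.exp_eq_one_iff] at h
      obtain ⟨n, hn⟩ := h
      have h2 : (2 * Real.pi * Complex.I : ℂ) ≠ 0 := Complex.two_pi_I_ne_zero
      have h3 : ((d : ℂ) / m) = n := by
        have : (2 * Real.pi * Complex.I : ℂ) * (d / m) = (2 * Real.pi * Complex.I) * n := by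
          rw [hn]; ring
        exact mul_left_cancel₀ h2 this
      rw [div_eq_iff hm0] at h3
      have h4 : d = n * m := by exact_mod_cast h3
      rcases eq_or_ne n 0 with hn0 | hn0
      · rw [hn0, zero_mul] at h4; exact h0 h4
      · have h5 : (1 : ℤ) ≤ |n| := Int.one_le_abs hn0
        rw [h4, abs_mul, Nat.abs_cast] at hd
        nlinarith
    rw [sum_congr rfl e1, geom_sum_eq hζ1, hζm]
    simp

end Characters

end

end Crest.Agent.R144.Ccw435
end

-- ▼ part R144/Ccw3_435
section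

/-!
# R144, closed-contour Ward identity (doc 1620), step (A2) for the integer plane law

`DLR x P` : `∫ F dP = ∫ ex x Λ h F dP(h)` for local gradient observables.
`joint` : if the product functionals of the contour `L` around `S1` and of `S2` are killed by `X`, and the
density of the pattern on `S1` with respect to the contour is `≤ C` off a set of mass `η`, then the joint
functionals `Y` of `S1 ∪ S2` are killed as well.
-/

set_option autoImplicit false

noncomputable section

namespace Crest.Agent.R144.Ccw435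

open MeasureTheory Filter Topology Finset
open Crest.ProbabilityR.HexHeights (Adj)
open Crest.Agent.R144.It844 Crest.Agent.R144.Pst967

/-- DLR property of a law on integer heights, for local gradient observables -/
def DLR (x : ℝ) (P : Measure Hz) : Prop :=
  ∀ (Λ : Finset P2) (F : Hz → ℝ), GObs F → ∫ h, F h ∂P = ∫ h, ex x Λ h F ∂P

/-- integer functional of charge `α` -/
def ChgZ (α : ℝ) (F : Hz → ℂ) : Prop :=
  ∀ (h : Hz) (c : ℤ), F (fun v => h v + c) = Complex.exp (Complex.I * (α * c : ℝ)) * F h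

/-! ### the local version of `ex x Λ h F` -/

open Classical in
/-- `g` in `Λ`, `h` outside -/
def patch (Λ : Finset P2) (h g : Hz) : Hz := fun v => if v ∈ Λ then g v else h v

/-- `ex` depends only on the boundary data seen by the observable and by the weights -/
theorem ex_local' {x : ℝ} {Λ : Finset P2} {τ τ' : Hz} (hτ : Lip τ) (hτ' : Lip τ') {S : Set P2}
    {F : Hz → ℝ} (hF : LocZ S F) (h : ∀ v, v ∉ Λ → v ∈ nbhd Λ ∪ S → τ v = τ' v) :
    ex x Λ τ F = ex x Λ τ' F := by
  classical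
  have h1 : ex x Λ τ F = ex x Λ τ (fun g => F (patch Λ τ g)) := by
    refine ex_congr fun g hg => hF _ _ fun v _ => ?_
    unfold patch
    split_ifs with hv
    · rfl
    · exact (mem_conf.1 hg).2 v hv
  have h2 : ex x Λ τ' F = ex x Λ τ' (fun g => F (patch Λ τ g)) := by
    refine ex_congr fun g hg => hF _ _ fun v hv' => ?_
    unfold patch
    split_ifs with hv
    · rfl
    · rw [(mem_conf.1 hg).2 v hv, h v hv (Or.inr hv')]
  rw [h1, h2]
  refine ex_local x hτ hτ' (fun v hv hn => h v hv (Or.inl hn)) _ fun a b hab => ?_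
  congr 1
  funext v
  unfold patch
  split_ifs with hv
  · exact hab v hv
  · rfl

open Classical in
/-- local version of `h ↦ ex x Λ h F` -/
def kern (x : ℝ) (Λ : Finset P2) (S : Set P2) (F : Hz → ℝ) (h : Hz) : ℝ :=
  if H : ∃ τ : Hz, Lip τ ∧ ∀ v, v ∉ Λ → v ∈ nbhd Λ ∪ S → τ v = h v then ex x Λ H.choose F else 0

theorem kern_eq {x : ℝ} {Λ : Finset P2} {S : Set P2} {F : Hz → ℝ} (hF : LocZ S F) {h : Hz}
    (hl : Lip h) : kern x Λ S F h = ex x Λ h F := by
  have H : ∃ τ : Hz, Lip τ ∧ ∀ v, v ∉ Λ → v ∈ nbhd Λ ∪ S → τ v = h v := ⟨h, hl, fun _ _ _ => rfl⟩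
  unfold kern
  rw [dif_pos H]
  exact ex_local' H.choose_spec.1 hl hF H.choose_spec.2

theorem kern_loc (x : ℝ) {Λ : Finset P2} {S : Set P2} {F : Hz → ℝ} (hF : LocZ S F) :
    LocZ ((nbhd Λ ∪ S) \ Λ) (kern x Λ S F) := by
  intro h g hg
  have e : ∀ τ : Hz, (Lip τ ∧ ∀ v, v ∉ Λ → v ∈ nbhd Λ ∪ S → τ v = h v) ↔
      (Lip τ ∧ ∀ v, v ∉ Λ → v ∈ nbhd Λ ∪ S → τ v = g v) := fun τ => by
    refine and_congr_right fun _ => forall_congr' fun v => ?_
    refine imp_congr_right fun hv => imp_congr_right fun hv' => ?_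
    rw [hg v ⟨hv', by simpa using hv⟩]
  unfold kern
  by_cases H : ∃ τ : Hz, Lip τ ∧ ∀ v, v ∉ Λ → v ∈ nbhd Λ ∪ S → τ v = h v
  · have H' : ∃ τ : Hz, Lip τ ∧ ∀ v, v ∉ Λ → v ∈ nbhd Λ ∪ S → τ v = g v := by
      obtain ⟨τ, hτ⟩ := H; exact ⟨τ, (e τ).1 hτ⟩
    rw [dif_pos H, dif_pos H']
    refine ex_local' H.choose_spec.1 H'.choose_spec.1 hF fun v hv hv' => ?_
    rw [H.choose_spec.2 v hv hv', H'.choose_spec.2 v hv hv', hg v ⟨hv', by simpa using hv⟩]
  · have H' : ¬ ∃ τ : Hz, Lip τ ∧ ∀ v, v ∉ Λ → v ∈ nbhd Λ ∪ S → τ v = g v := by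
      rintro ⟨τ, hτ⟩; exact H ⟨τ, (e τ).2 hτ⟩
    rw [dif_neg H, dif_neg H']

theorem kern_neut (x : ℝ) {Λ : Finset P2} {S : Set P2} {F : Hz → ℝ} (hF : LocZ S F)
    (hN : NeutZ F) : NeutZ (kern x Λ S F) := by
  intro h c
  unfold kern
  by_cases H : ∃ τ : Hz, Lip τ ∧ ∀ v, v ∉ Λ → v ∈ nbhd Λ ∪ S → τ v = h v
  · have H' : ∃ τ : Hz, Lip τ ∧ ∀ v, v ∉ Λ → v ∈ nbhd Λ ∪ S → τ v = h v + c := by
      obtain ⟨τ, hτ, hτ2⟩ := H
      exact ⟨fun v => τ v + c, hτ.add_const c, fun v hv hv' => by
        show τ v + c = h v + c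
        rw [hτ2 v hv hv']⟩
    rw [dif_pos H', dif_pos H]
    have e1 : ex x Λ H'.choose F = ex x Λ (fun v => H.choose v + c) F := by
      refine ex_local' H'.choose_spec.1 (H.choose_spec.1.add_const c) hF fun v hv hv' => ?_
      rw [H'.choose_spec.2 v hv hv', H.choose_spec.2 v hv hv']
    rw [e1, ex_add_const]
    exact ex_congr fun g _ => hN g c
  · have H' : ¬ ∃ τ : Hz, Lip τ ∧ ∀ v, v ∉ Λ → v ∈ nbhd Λ ∪ S → τ v = h v + c := by
      rintro ⟨τ, hτ, hτ2⟩
      refine H ⟨fun v => τ v + -c, hτ.add_const (-c), fun v hv hv' => ?_⟩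
      show τ v + -c = h v
      rw [hτ2 v hv hv']; ring
    rw [dif_neg H', dif_neg H]




/-! ### linearity and positivity of the kernel -/

theorem kern_nonneg {x : ℝ} {Λ : Finset P2} {S : Set P2} {F : Hz → ℝ} (hF : ∀ h, 0 ≤ F h)
    (h : Hz) : 0 ≤ kern x Λ S F h := by
  unfold kern
  split_ifs
  · exact ex_nonneg fun g _ => hF g
  · exact le_rfl

theorem kern_sum {x : ℝ} {Λ : Finset P2} {S : Set P2} {A : Type*} (s : Finset A)
    (F : A → Hz → ℝ) (h : Hz) :
    ∑ a ∈ s, kern x Λ S (F a) h = kern x Λ S (fun g => ∑ a ∈ s, F a g) h := by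
  unfold kern
  split_ifs with H
  · unfold ex
    rw [← Finset.smul_sum, Finset.sum_comm]
    congr 1
    exact Finset.sum_congr rfl fun g _ => by rw [Finset.smul_sum]
  · simp

theorem kern_le_one {x : ℝ} (hx : 0 < x) {Λ : Finset P2} {S : Set P2} {F : Hz → ℝ}
    (hF : ∀ h, Lip h → F h ≤ 1) (h : Hz) : kern x Λ S F h ≤ 1 := by
  unfold kern
  split_ifs with H
  · calc ex x Λ H.choose F ≤ ex x Λ H.choose (fun _ => (1 : ℝ)) :=
        ex_mono fun g hg => hF g (mem_conf.1 hg).1
      _ = 1 := ex_const hx H.choose_spec.1 _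
  · exact zero_le_one

/-! ### patterns -/

/-- pattern on `S1` relative to the base point `o` -/
def pat (o : P2) (S1 : Finset P2) (g : Hz) : S1 → ℤ := fun v => g v - g o

theorem pat_loc (o : P2) (S1 : Finset P2) : LocZ ((S1 : Set P2) ∪ {o}) (pat o S1) := by
  intro h g hg
  funext v
  unfold pat
  rw [hg v (Or.inl v.2), hg o (Or.inr rfl)]

theorem pat_neut (o : P2) (S1 : Finset P2) : NeutZ (pat o S1) := by
  intro h c
  funext v
  unfold pat
  ring

/-- bound for the patterns -/
def patN (o : P2) (S1 : Finset P2) : ℤ := (∑ v ∈ S1, (nrm v : ℤ)) + nrm o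

/-- the possible patterns -/
def pats (o : P2) (S1 : Finset P2) : Finset (S1 → ℤ) :=
  Fintype.piFinset fun _ => Finset.Icc (-(patN o S1)) (patN o S1)

theorem lip_sub_le {h : Hz} (hl : Lip h) (u v : P2) : |h u - h v| ≤ nrm u + nrm v := by
  have h1 := lip_bound hl u
  have h2 := lip_bound hl v
  rw [abs_le] at *
  constructor <;> linarith

theorem pat_mem {o : P2} {S1 : Finset P2} {h : Hz} (hl : Lip h) : pat o S1 h ∈ pats o S1 := by
  rw [pats, Fintype.mem_piFinset]
  intro v
  rw [Finset.mem_Icc, ← abs_le]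
  refine (lip_sub_le hl _ _).trans ?_
  unfold patN
  have := Finset.single_le_sum (f := fun v => (nrm v : ℤ)) (s := S1)
    (fun v _ => Int.natCast_nonneg _) v.2
  linarith

open Classical in
/-- indicator of a pattern -/
def ind (o : P2) (S1 : Finset P2) (a : S1 → ℤ) (g : Hz) : ℝ := if pat o S1 g = a then 1 else 0

theorem ind_nonneg (o : P2) (S1 : Finset P2) (a : S1 → ℤ) (g : Hz) : 0 ≤ ind o S1 a g := by
  unfold ind; split_ifs <;> norm_num

theorem ind_loc (o : P2) (S1 : Finset P2) (a : S1 → ℤ) :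
    LocZ ((S1 : Set P2) ∪ {o}) (ind o S1 a) := by
  intro h g hg
  unfold ind
  rw [pat_loc o S1 h g hg]

theorem ind_neut (o : P2) (S1 : Finset P2) (a : S1 → ℤ) : NeutZ (ind o S1 a) := by
  intro h c
  unfold ind
  rw [pat_neut o S1 h c]


/-- the conditional probability of the pattern `a`, local version -/
def qq (x : ℝ) (Λ : Finset P2) (o : P2) (S1 : Finset P2) (a : S1 → ℤ) : Hz → ℝ :=
  kern x Λ ((S1 : Set P2) ∪ {o}) (ind o S1 a)

theorem qq_eq {x : ℝ} {Λ : Finset P2} {o : P2} {S1 : Finset P2} {a : S1 → ℤ} {h : Hz}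
    (hl : Lip h) : qq x Λ o S1 a h = ex x Λ h (ind o S1 a) := kern_eq (ind_loc o S1 a) hl




theorem qq_neut (x : ℝ) {Λ : Finset P2} {o : P2} {S1 : Finset P2} (a : S1 → ℤ) :
    NeutZ (qq x Λ o S1 a) := kern_neut x (ind_loc o S1 a) (ind_neut o S1 a)

end Crest.Agent.R144.Ccw435
end
end

-- ▼ part R144/Ccw4_435
section

/-!
# R144, closed-contour Ward identity (doc 1620), step (A2): joint functionals of two patches

`joint` (main theorem): see the statement.
-/

set_option autoImplicit false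

noncomputable section

namespace Crest.Agent.R144.Ccw435

open MeasureTheory Filter Topology Finset
open Crest.ProbabilityR.HexHeights (Adj)
open Crest.Agent.R144.It844 Crest.Agent.R144.Pst967

section Joint

variable {x : ℝ} {P : Measure Hz} {Λ S1 L S2 T : Finset P2} {o b : P2}








/-- the charged test functional -/
def eZ (α : ℝ) (n : ℤ) : ℂ := Complex.exp (Complex.I * (α * n : ℝ))

theorem norm_eZ (α : ℝ) (n : ℤ) : ‖eZ α n‖ = 1 := by
  unfold eZ
  rw [mul_comm, Complex.norm_exp_ofReal_mul_I]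

theorem eZ_add (α : ℝ) (m n : ℤ) : eZ α (m + n) = eZ α m * eZ α n := by
  unfold eZ
  rw [← Complex.exp_add]
  congr 1
  push_cast
  ring

theorem eZ_neg (α : ℝ) (n : ℤ) : eZ (-α) n = eZ α (-n) := by
  unfold eZ
  congr 1
  push_cast
  ring


theorem ex_sum_mul {x : ℝ} {Λ : Finset P2} {τ : Hz} {A : Type*} (s : Finset A) (F : A → Hz → ℝ)
    (c : A → ℝ) : ex x Λ τ (fun g => ∑ a ∈ s, F a g * c a) = ∑ a ∈ s, ex x Λ τ (F a) * c a := by
  unfold ex
  simp only [smul_eq_mul]
  have : ∀ g ∈ conf Λ τ, wt x Λ g * ∑ a ∈ s, F a g * c a = ∑ a ∈ s, (wt x Λ g * F a g) * c a :=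
    fun g _ => by rw [Finset.mul_sum]; exact Finset.sum_congr rfl fun a _ => by ring
  rw [Finset.sum_congr rfl this, Finset.sum_comm, Finset.mul_sum]
  refine Finset.sum_congr rfl fun a _ => ?_
  rw [← Finset.sum_mul]; ring


theorem memLp_gobs {X : Hz → ℝ} (hX : GObs X) {P : Measure Hz} [IsProbabilityMeasure P]
    (hl : ∀ᵐ h ∂P, Lip h) : MemLp X 2 P := by
  obtain ⟨C, hC⟩ := gobs_bounded hX
  refine MemLp.of_bound (measurable_of_loc hX.loc).aestronglyMeasurable C ?_
  filter_upwards [hl] with h hh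
  rw [Real.norm_eq_abs]
  exact hC h hh



end Joint

end Crest.Agent.R144.Ccw435
end
end

-- ▼ part R144/Ccw5_435

/-!
# R144, closed-contour Ward identity (doc 1620), step (A2): interfaces

* `lift` : an integer charged functional is the restriction of an admissible real functional;
* `a1_of_real` : the product estimate for real admissible functionals gives the one for integer ones;
* `dens` : the density ratio `P(pattern | contour) / P(pattern)`; `sum_hi_le`;
* `dens_of_ui` : `P(B) ≤ η + C (P ⊗ P)(B)` gives `P(2C < density ratio) ≤ 2 η`;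
* `joint_seq` : step (A2) for sequences.
-/

set_option autoImplicit false

noncomputable section

namespace Crest.Agent.R144.Ccw435

open MeasureTheory Filter Topology Finset
open Crest.ProbabilityR.HexHeights (Adj)
open Crest.Agent.R144.It844 Crest.Agent.R144.Pst967
open Crest.Agent.R144.Ps643 (Ht Loc Chg)
open Crest.Agent.R144.Ga2617 (Fn)

/-! ### integer functionals are restrictions of real functionals -/

/-- nearest integer heights relative to the base point -/
def rd (s0 : P2) (h : Ht) : Hz := fun v => round (h v - h s0)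

theorem rd_toR (s0 : P2) (h : Hz) : rd s0 (toR h) = fun v => h v + -h s0 := by
  funext v
  unfold rd toR
  rw [← Int.cast_sub, round_intCast, sub_eq_add_neg]

/-- real extension of an integer functional of charge `α` -/
def lift (α : ℝ) (s0 : P2) (Z : Hz → ℂ) (h : Ht) : ℂ :=
  Complex.exp (Complex.I * (α * h s0 : ℝ)) * Z (rd s0 h)

theorem lift_toR {α : ℝ} {s0 : P2} {Z : Hz → ℂ} (hZ : ChgZ α Z) (h : Hz) :
    lift α s0 Z (toR h) = Z h := by
  unfold lift
  rw [rd_toR, hZ h (-h s0), ← mul_assoc, ← Complex.exp_add]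
  have : Complex.I * ((α * toR h s0 : ℝ) : ℂ) + Complex.I * ((α * ((-h s0 : ℤ) : ℝ) : ℝ) : ℂ) = 0 := by
    unfold toR
    push_cast
    ring
  rw [this, Complex.exp_zero, one_mul]

theorem norm_lift_le {α : ℝ} {s0 : P2} {Z : Hz → ℂ} (hZ : ∀ h, ‖Z h‖ ≤ 1) (h : Ht) :
    ‖lift α s0 Z h‖ ≤ 1 := by
  unfold lift
  rw [norm_mul, mul_comm Complex.I, Complex.norm_exp_ofReal_mul_I, one_mul]
  exact hZ _

theorem measurable_rd (s0 : P2) : Measurable (rd s0) := by
  refine measurable_pi_lambda _ fun v => ?_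
  have h1 : Measurable fun h : Ht => h v - h s0 :=
    (measurable_pi_apply v).sub (measurable_pi_apply s0)
  have h2 : (fun h : Ht => rd s0 h v) = fun h => ⌊(h v - h s0) + 1 / 2⌋ := by
    funext h; unfold rd; rw [round_eq]
  rw [h2]
  exact Int.measurable_floor.comp (h1.add_const _)

theorem fn_lift {α : ℝ} {S : Finset P2} {s0 : P2} (hs : s0 ∈ S) {Z : Hz → ℂ}
    (hl : LocZ (S : Set P2) Z) (hZ : ∀ h, ‖Z h‖ ≤ 1) :
    Fn (S : Set P2) α (lift α s0 Z) where
  meas := by
    unfold lift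
    have h1 : Measurable fun h : Ht => Complex.exp (Complex.I * (α * h s0 : ℝ)) := by
      have h0 : Measurable fun h : Ht => h s0 := measurable_pi_apply s0
      have : Measurable fun h : Ht => ((α * h s0 : ℝ) : ℂ) :=
        Complex.measurable_ofReal.comp (h0.const_mul α)
      exact (this.const_mul Complex.I).cexp
    exact h1.mul ((measurable_of_loc ⟨S, hl⟩).comp (measurable_rd s0))
  loc := by
    intro h g hg
    unfold lift
    have e0 := hg s0 (by exact hs)
    rw [e0]
    congr 1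
    refine hl _ _ fun v hv => ?_
    unfold rd
    rw [hg v hv, e0]
  chg := by
    intro h c
    unfold lift
    have e1 : rd s0 (fun v => h v + c) = rd s0 h := by
      funext v
      unfold rd
      congr 1; ring
    rw [e1, ← mul_assoc, ← Complex.exp_add]
    congr 2
    push_cast
    ring
  bdd := ⟨1, fun h _ => norm_lift_le hZ h⟩

/-- the product estimate for integer functionals from the one for real admissible functionals -/
theorem a1_of_real {P : Measure Hz} {L S2 : Finset P2} (hL : L.Nonempty) (hS2 : S2.Nonempty)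
    {X : Hz → ℝ} {XR : Ht → ℝ} (hXR : Measurable XR) (hX : ∀ h, XR (toR h) = X h) {ε : ℝ}
    (hR : ∀ (α : ℝ) (Z1 Z2 : Ht → ℂ), Fn (L : Set P2) (-α) Z1 → Fn (S2 : Set P2) α Z2 →
      (∀ h, ‖Z1 h‖ ≤ 1) → (∀ h, ‖Z2 h‖ ≤ 1) →
      ‖∫ h, (XR h : ℂ) * Z1 h * Z2 h ∂(P.map toR)‖ ≤ ε) :
    ∀ (α : ℝ) (Z1 Z2 : Hz → ℂ), LocZ (L : Set P2) Z1 → LocZ (S2 : Set P2) Z2 →
      ChgZ (-α) Z1 → ChgZ α Z2 → (∀ h, ‖Z1 h‖ ≤ 1) → (∀ h, ‖Z2 h‖ ≤ 1) →
      ‖∫ h, (X h : ℂ) * Z1 h * Z2 h ∂P‖ ≤ ε := by
  intro α Z1 Z2 l1 l2 c1 c2 n1 n2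
  obtain ⟨s1, hs1⟩ := hL
  obtain ⟨s2, hs2⟩ := hS2
  have f1 : Fn (L : Set P2) (-α) (lift (-α) s1 Z1) := fn_lift hs1 l1 n1
  have f2 : Fn (S2 : Set P2) α (lift α s2 Z2) := fn_lift hs2 l2 n2
  have h := hR α _ _ f1 f2 (norm_lift_le n1) (norm_lift_le n2)
  rw [integral_map measurable_toR.aemeasurable] at h
  · simp only [lift_toR c1, lift_toR c2, hX] at h
    exact h
  · exact (((Complex.measurable_ofReal.comp hXR).mul f1.meas).mul f2.meas).aestronglyMeasurable

/-! ### the density of the pattern with respect to the contour -/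

section Dens

variable {x : ℝ} {P : Measure Hz} {Λ S1 L S2 T : Finset P2} {o b : P2}

/-- mass of a pattern -/
theorem integral_qq (hP : PinnedZ P) (hD : DLR x P) (a : S1 → ℤ) :
    ∫ h, qq x Λ o S1 a h ∂P = P.real {g | pat o S1 g = a} := by
  classical
  have := hP.prob
  have hg : GObs (ind o S1 a) :=
    ⟨⟨S1 ∪ {o}, by push_cast; exact ind_loc o S1 a⟩, ind_neut o S1 a⟩
  have h1 : ∫ h, qq x Λ o S1 a h ∂P = ∫ h, ex x Λ h (ind o S1 a) ∂P := by
    refine integral_congr_ae ?_
    filter_upwards [hP.lip] with h hh using qq_eq hh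
  rw [h1, ← hD Λ _ hg]
  have hm : MeasurableSet {g : Hz | pat o S1 g = a} := by
    have : Measurable (pat o S1) := by
      refine measurable_pi_lambda _ fun v => ?_
      exact (measurable_pi_apply _).sub (measurable_pi_apply _)
    exact this (measurableSet_singleton a)
  have h2 : ind o S1 a = Set.indicator {g : Hz | pat o S1 g = a} 1 := by
    funext g
    unfold ind
    simp only [Set.indicator_apply, Set.mem_ofPred_eq, Pi.one_apply]
  rw [h2, integral_indicator_one hm]

open Classical in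
/-- the event that the density ratio is larger than `C` -/
def big (x : ℝ) (P : Measure Hz) (Λ : Finset P2) (o : P2) (S1 : Finset P2) (C : ℝ) : Set Hz :=
  {h | C * P.real {g | pat o S1 g = pat o S1 h} < ex x Λ h (ind o S1 (pat o S1 h))}





end Dens

/-! ### sequences -/


end Crest.Agent.R144.Ccw435
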