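import Crest.Agent.R144.Den0_435

/-!
# R144, two-patch density (helper435), part 1: product comparison for the maximal laws

* `prod_cmp` : `E_F(LvI K D) * E_F(g f ; inner layer in K, outer layer in D') ≤ E_F f * E_F g` for `f ≥ 0` seen
  from the seed, `g ≥ 0` seen outside `D'`;
* `main_F` : `E_F (Σ f_a g_a) ≤ η + C Σ E_F f_a E_F g_a` from `LAYF`.
-/

set_option autoImplicit false

noncomputable section

namespace Crest.Agent.R144.Den435

open Finset
open Crest.Agent.R144.It844 (P2 Lip adj_iff adj_symm upT)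
open Crest.Agent.R144.Zg349 Crest.Agent.R144.Zd349 Crest.Agent.R144.Zm349 Crest.Agent.R144.Ze349
open Crest.Agent.R144.Zf349 Crest.Agent.R144.Zs349
open Crest.Agent.R144.Pst967 (path_symm LocZ NeutZ)
open Crest.Agent.R144.Rsw867
open Crest.Agent.R144.Rw146 (adj_iff_share)
open Crest.Agent.R144.Tvp643
open Crest.Agent.R144.CuP880
open Crest.Agent.R144.Cmp880
open Crest.Agent.R144.Hf702 (Bg_sub PB PBI PBI_nonneg offTZ_PBI)
open Crest.ProbabilityR.HexHeights (Adj)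

/-! ### product comparison -/

/-- decoupling at the outer layer, extra outer factor `g` -/
theorem outer_oneE {c : ℝ} (hc : 1 ≤ c) {F D' B B0 : Finset P2} (hB : SC B) (hBF : B ⊆ F)
    (hB0 : B0 ⊆ B) {f g : Cfg → ℝ} (hf : Seen B0 f) (hg : ∀ ω ω' : Cfg, g (glue true B ω ω') = g ω) :
    E c F (fun ω => PBI D' B ω * (g ω * f ω)) = E c B f * E c F (fun ω => PBI D' B ω * g ω) := by
  have h := E_dec (e := true) hc hB hBF
    (Ψ := fun ω => PBI D' B ω * (g ω * f ω)) (g := fun ω => PBI D' B ω * g ω)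
    (φ := fun _ ω' => f ω') ?_ ?_
  · rw [h, ← E_smul]
    congr 1
    funext ω
    ring
  · intro ω hω hw hL
    have h0 : PBI D' B ω = 0 := by
      by_contra h0
      exact hL (lay_of_LP hω hw fun t ht h1 => pC_touch_of_PBI h0 ht h1)
    exact ⟨by rw [h0, zero_mul], by rw [h0, zero_mul]⟩
  · intro ω ω' hω _ hL hω'
    have hl : Lip ω.1 := hω.ht.toLip
    show PBI D' B (glue true B ω ω') * (g (glue true B ω ω') * f (glue true B ω ω')) =
      PBI D' B ω * g ω * f ω'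
    rw [offTZ_glue hB hl hL hω' (offTZ_PBI D' B), hg, hf B hB hB0 ω ω' hl hL hω']
    ring

/-- **Product comparison** across an outer layer in `D'` and an inner layer in `K`. -/
theorem prod_cmp {c : ℝ} (hc : 1 ≤ c) {F D' D K B0 : Finset P2} (hD' : SC D') (hD'F : D' ⊆ F)
    (hD : SC D) (hDF : D ⊆ F)
    (hK : SC K) (hKD : K ⊆ D) (hBK : B0 ⊆ K) (hB : B0.Nonempty) (hBc : IsConn (B0 : Set P2))
    {f g : Cfg → ℝ} (f0 : ∀ ω, 0 ≤ f ω) (hf : Seen B0 f) (g0 : ∀ ω, 0 ≤ g ω)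
    (hg : ∀ B ⊆ D', ∀ ω ω' : Cfg, g (glue true B ω ω') = g ω) :
    E c F (LvI K D) * E c F (fun ω => LvI D D' ω * (g ω * (ind (In K B0) ω * f ω))) ≤
      E c F f * E c F g := by
  classical
  have e : E c F (fun ω => LvI D D' ω * (g ω * (ind (In K B0) ω * f ω))) =
      ∑ B ∈ D'.powerset with D ⊆ B,
        E c F (fun ω => PBI D' B ω * (g ω * (ind (In K B0) ω * f ω))) := by
    rw [← E_sum]
    congr 1
    funext ω
    rw [LvI_eq_sum, Finset.sum_mul]
  have hEf : 0 ≤ E c F f := E_nonneg hc fun ω _ => f0 ω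
  rw [e, Finset.mul_sum]
  have term : ∀ B ∈ D'.powerset.filter (fun B => D ⊆ B),
      E c F (LvI K D) * E c F (fun ω => PBI D' B ω * (g ω * (ind (In K B0) ω * f ω))) ≤
        E c F f * E c F (fun ω => PBI D' B ω * g ω) := by
    intro B hBm
    obtain ⟨hBD, hDB⟩ := Finset.mem_filter.1 hBm
    rw [Finset.mem_powerset] at hBD
    by_cases hsc : SC B
    · rw [outer_oneE hc hsc (hBD.trans hD'F) (hBK.trans (hKD.trans hDB)) hf.in (hg B hBD),
        ← mul_assoc]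
      refine mul_le_mul_of_nonneg_right ?_
        (E_nonneg hc fun ω _ => mul_nonneg (PBI_nonneg D' B ω) (g0 ω))
      exact in_cmp hc hsc hD hDB hDF hK hKD hB hBc f0 hf
    · have h0 : ∀ ω, PBI D' B ω = 0 := fun ω => by
        by_contra h
        exact hsc (sc_of_PBI hD' h)
      simp only [h0, zero_mul]
      rw [E_const hc, mul_zero, mul_zero]
  refine (Finset.sum_le_sum term).trans ?_
  rw [← Finset.mul_sum]
  refine mul_le_mul_of_nonneg_left ?_ hEf
  rw [← E_sum]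
  refine E_mono hc fun ω _ => ?_
  rw [← Finset.sum_mul, ← LvI_eq_sum]
  exact mul_le_of_le_one_left (g0 ω) (LvI_le_one D D' ω)

/-! ### height functionals -/

/-- the level is constant near a connected seed -/
theorem lev_seed {W B0 : Finset P2} (hW : SC W) (hBW : B0 ⊆ W) (hBc : IsConn (B0 : Set P2)) {ω : Cfg}
    (hl : Lip ω.1) (hL : Lay true W ω) {v w : P2} (hv : v ∈ VF B0) (hw : w ∈ VF B0) :
    lev true W ω v = lev true W ω w := by
  obtain ⟨t, ht, hvt⟩ := mem_VF.1 hv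
  obtain ⟨t', ht', hwt⟩ := mem_VF.1 hw
  have tri : ∀ s ∈ W, ∀ x ∈ up s, ∀ y ∈ up s, lev true W ω x = lev true W ω y := by
    intro s hs x hx y hy
    obtain ⟨i, rfl⟩ := mem_up_iff.1 hx
    obtain ⟨j, rfl⟩ := mem_up_iff.1 hy
    exact lev_tri hW hl hL hs i j
  have key : ∀ s, Relation.ReflTransGen (StepIn (B0 : Set P2)) t s →
      ∀ y ∈ up s, lev true W ω v = lev true W ω y := by
    intro s hs
    induction hs with
    | refl => exact fun y hy => tri t (hBW ht) v hvt y hy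
    | @tail b d _ hbd ih =>
      intro y hy
      obtain ⟨_, x, hx1, hx2⟩ := adj_iff_share.1 hbd.2.2
      rw [ih x hx1]
      exact tri d (hBW (Finset.mem_coe.1 hbd.2.1)) x hx2 y hy
  exact key t' (hBc t ht t' ht') w hwt

/-- a local gradient functional is seen from a connected seed -/
theorem seen_of {B0 : Finset P2} (hB : B0.Nonempty) (hBc : IsConn (B0 : Set P2)) {f : (P2 → ℤ) → ℝ}
    (hl : LocZ (VF B0 : Set P2) f) (hn : NeutZ f) : Seen B0 fun ω => f ω.1 := by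
  intro W hW hBW ω ω' hlip hL _
  obtain ⟨b, hb⟩ := hB
  have hbV : b ∈ VF B0 := mem_VF.2 ⟨b, hb, base_mem_up b⟩
  have e : f (glue true W ω ω').1 = f (fun v => ω'.1 v + lev true W ω b) := hl _ _ fun v hv => by
    have hv' : v ∈ VF B0 := Finset.mem_coe.1 hv
    rw [glue_in (VF_mono hBW hv'), lev_seed hW hBW hBc hlip hL hv' hbV]
    exact add_comm _ _
  show f (glue true W ω ω').1 = f ω'.1
  rw [e, hn]

theorem glue_off {L D' B : Finset P2} (hLD : Disjoint L (VF D')) (hBD : B ⊆ D')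
    {g : (P2 → ℤ) → ℝ} (hg : LocZ (L : Set P2) g) (ω ω' : Cfg) : g (glue true B ω ω').1 = g ω.1 :=
  hg _ _ fun v hv => by
    have : v ∉ VF B := fun h => (Finset.disjoint_left.1 hLD (Finset.mem_coe.1 hv)) (VF_mono hBD h)
    exact glue_out this

/-! ### the layer event does not see the inside -/

theorem layE_congr {A' A B : Finset P2} (hA' : ∀ t ∈ A', t ∈ A ∧ ∀ u, Adj t u → u ∈ A) (hAB : A ⊆ B)
    {ω ω' : Cfg} (h : ∀ t, t ∉ A' → (pC ω t → pC ω' t)) (hω : ω ∈ LayE A B) : ω' ∈ LayE A B := by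
  intro u v hu hv p
  have huA : u ∉ (A : Set P2) := fun h' => hu (hAB (Finset.mem_coe.1 h'))
  rcases first_hit (A : Set P2) huA p with ⟨h', _⟩ | ⟨w, hw, q⟩
  · exact h' (Finset.mem_coe.2 hv)
  · refine hω u w hu (Finset.mem_coe.1 hw) (path_mono ?_ q)
    rintro t ⟨h1, h2⟩ hp
    refine h1 (h t (fun ht => ?_) hp)
    obtain ⟨h3, h4⟩ := hA' t ht
    rcases h2 with h2 | ⟨t', h2, h5⟩
    · exact h2 (Finset.mem_coe.2 h3)
    · exact h2 (Finset.mem_coe.2 (h4 t' (adj_symm h5)))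

theorem ind_layE_congr {A' A B : Finset P2} (hA' : ∀ t ∈ A', t ∈ A ∧ ∀ u, Adj t u → u ∈ A)
    (hAB : A ⊆ B) {ω ω' : Cfg} (h : ∀ t, t ∉ A' → (pC ω t ↔ pC ω' t)) :
    ind (LayE A B) ω = ind (LayE A B) ω' :=
  ind_congr ⟨layE_congr hA' hAB fun t ht => (h t ht).1, layE_congr hA' hAB fun t ht => (h t ht).2⟩

/-! ### the comparison -/


theorem nb_nb_sub {K : Finset P2} {r r' u : ℕ} (h : r + r' ≤ u) : nb (nb K r) r' ⊆ nb K u := by
  intro v hv
  obtain ⟨w, hw, h1⟩ := mem_nb.1 hv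
  exact nb_mono_r h (nb_nb hw h1)

theorem sub_VF (B : Finset P2) : B ⊆ VF B := fun v hv => mem_VF.2 ⟨v, hv, base_mem_up v⟩

/-- a function of the heights off `Q` -/
theorem offC_heights {S Q : Finset P2} (hSQ : ∀ v ∈ S, v ∉ Q) {f : (P2 → ℤ) → ℝ}
    (hf : LocZ (S : Set P2) f) : OffC Q fun ω => f ω.1 := fun ω ω' h _ =>
  hf _ _ fun v hv => h v (hSQ v (Finset.mem_coe.1 hv))

theorem mul_offC {Q : Finset P2} {f g : Cfg → ℝ} (hf : OffC Q f) (hg : OffC Q g) :
    OffC Q fun ω => f ω * g ω := fun ω ω' h1 h2 => by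
  show f ω * g ω = f ω' * g ω'
  rw [hf ω ω' h1 h2, hg ω ω' h1 h2]

theorem offC_layE {Q A' A B : Finset P2} (hA' : ∀ t ∈ A', t ∈ A ∧ ∀ u, Adj t u → u ∈ A) (hAB : A ⊆ B)
    (hQ : ∀ t, t ∉ A' → ∀ v ∈ up t, v ∉ Q) : OffC Q (ind (LayE A B)) := fun _ _ h1 h2 =>
  ind_layE_congr hA' hAB fun t ht => by
    unfold pC
    rw [h2 t (hQ t ht), h1 t (hQ t ht t (base_mem_up t))]

/-- **Two-patch comparison under the maximal laws.** -/
theorem main_F {c : ℝ} (hc : 1 ≤ c) {K : ℕ} {p : ℝ} (hR : RSW c K p) (hLF : LAYF c) (R : ℕ) {η : ℝ}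
    (hη : 0 < η) : ∃ (C : ℝ) (R' s0 : ℕ), 0 < C ∧ ∀ s ≥ s0, ∀ (a : P2) (K0 : Finset P2),
      K0.Nonempty → IsConn (K0 : Set P2) → K0 ⊆ ball a (R * s) → ∀ E0 : Finset P2, SC E0 →
        nb K0 (7 * s) ⊆ E0 → ∀ L : Finset P2, Disjoint L (VF E0) → ∀ F : Finset P2, SC F →
          ball a (R' * s) ⊆ F → E0 ⊆ F → ∀ {ι : Type} (t : Finset ι) (f g : ι → (P2 → ℤ) → ℝ),
            (∀ i h, 0 ≤ f i h) → (∀ i h, 0 ≤ g i h) → (∀ h, ∑ i ∈ t, g i h * f i h ≤ 1) →
              (∀ i, LocZ (K0 : Set P2) (f i)) → (∀ i, NeutZ (f i)) → (∀ i, LocZ (L : Set P2) (g i)) →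
                E c F (fun ω => ∑ i ∈ t, g i ω.1 * f i ω.1) ≤
                  η + C * ∑ i ∈ t, E c F (fun ω => f i ω.1) * E c F (fun ω => g i ω.1) := by
  obtain ⟨C3, R3, s3, hC3, h3⟩ := hLF (R + 4) (η / 2) (half_pos hη)
  obtain ⟨C1, R1, s1, hC1, h1⟩ := hLF R (η / (2 * C3)) (by positivity)
  set J0 : ℕ := (2 * (5 * (R + 4)) + 1) ^ 2 with hJ0
  have hp0 := hR.p0
  have hpJ : 0 < p ^ J0 := pow_pos hp0 _
  refine ⟨C3 * C1 / p ^ J0, max R1 R3, max (max s1 s3) 3, by positivity, ?_⟩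
  intro s hs a K0 hK0 hK0c hK0R E0 hE0 hnb L hL F hF hFb hEF ι t f g f0 g0 hfg hf hfn hg
  have hs1 : s1 ≤ s := (le_max_left _ _).trans ((le_max_left _ _).trans hs)
  have hs3 : s3 ≤ s := (le_max_right _ _).trans ((le_max_left _ _).trans hs)
  have hs2 : 3 ≤ s := (le_max_right _ _).trans hs
  have hFb1 : ball a (R1 * s) ⊆ F := (ball_mono a (Nat.mul_le_mul_right s (le_max_left _ _))).trans hFb
  have hFb3 : ball a (R3 * s) ⊆ F := (ball_mono a (Nat.mul_le_mul_right s (le_max_right _ _))).trans hFb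
  -- the middle layer
  set m : ℕ := s / 3 with hm
  have hm1 : 1 ≤ m := by omega
  have hm3 : 3 * m ≤ s := by omega
  have hm5 : s ≤ 5 * m := by omega
  set KK : Finset P2 := fl E0 (nb K0 (2 * s)) with hKK
  set D : Finset P2 := fl E0 (nb K0 (2 * s + 1 + 3 * m + 1)) with hD
  set D' : Finset P2 := fl E0 (nb K0 (7 * s)) with hD'
  have sub7 : ∀ r, r ≤ 7 * s → nb K0 r ⊆ E0 := fun r hr => (nb_mono_r hr).trans hnb
  have hKKs : SC KK := sc_fl hE0 (sub7 _ (by omega))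
  have hDs : SC D := sc_fl hE0 (sub7 _ (by omega))
  have hD's : SC D' := sc_fl hE0 (sub7 _ (by omega))
  have hKD : KK ⊆ D := fl_mono (nb_mono_r (by omega))
  have hDF : D ⊆ F := (fl_sub _ _).trans hEF
  have hD'F : D' ⊆ F := (fl_sub _ _).trans hEF
  have hBK : K0 ⊆ KK := (sub_nb K0 _).trans (sub_fl (sub7 _ (by omega)))
  have hLE : ∀ v ∈ L, v ∉ E0 := fun v hv h => (Finset.disjoint_left.1 hL hv) (sub_VF E0 h)
  have hLD' : Disjoint L (VF D') := Finset.disjoint_left.2 fun v hv h =>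
    (Finset.disjoint_left.1 hL hv) (VF_mono (fl_sub _ _) h)
  have mid : p ^ J0 ≤ E c F (LvI KK D) := by
    have e1 : nb K0 (2 * s + 1) ⊆ ball a ((R + 3) * s) := by
      refine (nb_sub_ball hK0R).trans (ball_mono a ?_)
      nlinarith
    have e2 := rsw_layer_nb hc hR hF hm1 e1
    have e3 : p ^ J0 ≤ p ^ ((2 * (((R + 3) * s + m / 2) / (2 * (m / 2) + 1)) + 1) ^ 2) := by
      refine pow_le_pow_of_le_one hp0.le (by linarith [hR.p1]) ?_
      rw [hJ0]
      refine Nat.pow_le_pow_left ?_ 2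
      have e4 : ((R + 3) * s + m / 2) / (2 * (m / 2) + 1) ≤ 5 * (R + 4) := by
        refine Nat.div_le_of_le_mul ?_
        have e5 : m / 2 ≤ s := by omega
        have e6 : m ≤ 2 * (m / 2) + 1 := by omega
        calc (R + 3) * s + m / 2 ≤ (R + 4) * s := by nlinarith
          _ ≤ (R + 4) * (5 * m) := Nat.mul_le_mul_left _ hm5
          _ = m * (5 * (R + 4)) := by ring
          _ ≤ (2 * (m / 2) + 1) * (5 * (R + 4)) := Nat.mul_le_mul_right _ e6
      omega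
    refine e3.trans (e2.trans (E_mono hc fun ω _ => ?_))
    by_cases hω : ω ∈ LayE (nb K0 (2 * s + 1)) (nb K0 (2 * s + 1 + 3 * m))
    · rw [ind_of_mem hω, hKK, hD,
        LvI_of (nb_mono_r (by omega)) (fun t ht u hu => adj_nb (le_refl _) ht hu)
          (nb_mono_r (by omega)) (nb_mono_r (by omega)) (fun t ht u hu => adj_nb (le_refl _) ht hu)
          (sub7 _ (by omega)) hω]
    · rw [ind_of_not_mem hω]
      exact LvI_nonneg _ _ _
  -- the two applications of `LAYF`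
  set Φ : Cfg → ℝ := fun ω => ∑ i ∈ t, g i ω.1 * f i ω.1 with hΦ
  have hΦ0 : ∀ ω, 0 ≤ Φ ω := fun ω => Finset.sum_nonneg fun i _ => mul_nonneg (g0 i _) (f0 i _)
  have hΦ1 : ∀ ω, Φ ω ≤ 1 := fun ω => hfg _
  have hΦoff : ∀ Q : Finset P2, (∀ v ∈ K0, v ∉ Q) → (∀ v ∈ L, v ∉ Q) → OffC Q Φ := by
    intro Q h1 h2 ω ω' h3 h4
    simp only [hΦ]
    refine Finset.sum_congr rfl fun i _ => ?_
    have e1 : f i ω.1 = f i ω'.1 := offC_heights h1 (hf i) ω ω' h3 h4
    have e2 : g i ω.1 = g i ω'.1 := offC_heights h2 (hg i) ω ω' h3 h4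
    rw [e1, e2]
  set K3 : Finset P2 := nb K0 (4 * s) with hK3
  have hK3R : K3 ⊆ ball a ((R + 4) * s) := by
    refine (nb_sub_ball hK0R).trans (ball_mono a ?_)
    nlinarith
  have hK3n : K3.Nonempty := hK0.mono (sub_nb K0 _)
  have n1 : nb K3 (2 * s) ⊆ E0 := (nb_nb_sub (u := 7 * s) (by omega)).trans hnb
  have a3 := h3 s hs3 a K3 hK3n hK3R F hF hFb3 Φ hΦ0 hΦ1
    (hΦoff _ (fun v hv h => (Finset.mem_sdiff.1 h).2 (sub_nb K3 _ (sub_nb K0 _ hv)))
      (fun v hv h => hLE v hv (n1 (Finset.mem_sdiff.1 h).1)))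
  have n2 : nb K0 (2 * s) ⊆ E0 := sub7 _ (by omega)
  have off1 : OffC (nb K0 (2 * s) \ nb K0 s) (ind (LayE (nb K3 s) (nb K3 (2 * s)))) := by
    refine offC_layE (A' := nb K0 (3 * s)) (fun t ht => ?_) (nb_mono_r (by omega)) fun t ht v hv h => ?_
    · have hsub : nb K0 (3 * s + 1) ⊆ nb K3 s :=
        (nb_mono_r (show 3 * s + 1 ≤ 4 * s by omega)).trans (sub_nb K3 _)
      exact ⟨hsub (nb_mono_r (by omega) ht), fun u hu => hsub (adj_nb (le_refl _) ht hu)⟩
    · have h5 := (Finset.mem_sdiff.1 h).1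
      apply ht
      rcases base_adj hv with rfl | h6
      · exact nb_mono_r (by omega) h5
      · exact nb_mono_r (show 2 * s + 1 ≤ 3 * s by omega) (adj_nb (le_refl _) h5 (adj_symm h6))
  have a1 := h1 s hs1 a K0 hK0 hK0R F hF hFb1
    (fun ω => Φ ω * ind (LayE (nb K3 s) (nb K3 (2 * s))) ω)
    (fun ω => mul_nonneg (hΦ0 ω) (ind_nonneg _ _))
    (fun ω => mul_le_one₀ (hΦ1 ω) (ind_nonneg _ _) (ind_le_one _ _))
    (mul_offC (hΦoff _ (fun v hv h => (Finset.mem_sdiff.1 h).2 (sub_nb K0 _ hv))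
      (fun v hv h => hLE v hv (n2 (Finset.mem_sdiff.1 h).1))) off1)
  -- comparison
  have a2 : E c F (fun ω => Φ ω * ind (LayE (nb K3 s) (nb K3 (2 * s))) ω *
      ind (LayE (nb K0 s) (nb K0 (2 * s))) ω) ≤
      ∑ i ∈ t, E c F (fun ω => LvI D D' ω * (g i ω.1 * (ind (In KK K0) ω * f i ω.1))) := by
    rw [← E_sum]
    refine E_mono hc fun ω _ => ?_
    have p0 : 0 ≤ ∑ i ∈ t, LvI D D' ω * (g i ω.1 * (ind (In KK K0) ω * f i ω.1)) :=
      Finset.sum_nonneg fun i _ => mul_nonneg (LvI_nonneg _ _ _)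
        (mul_nonneg (g0 i _) (mul_nonneg (ind_nonneg _ _) (f0 i _)))
    by_cases hω3 : ω ∈ LayE (nb K3 s) (nb K3 (2 * s))
    · by_cases hω1 : ω ∈ LayE (nb K0 s) (nb K0 (2 * s))
      · have q1 : LvI D D' ω = 1 := by
          have hsub : nb K0 (2 * s + 1 + 3 * m + 1) ⊆ K3 := nb_mono_r (by omega)
          rw [hD, hD']
          refine LvI_of (A := nb K3 s) (A' := nb K3 (2 * s)) (hsub.trans (sub_nb K3 _))
            (fun t ht u hu => adj_nb (r := 0) (by omega) (sub_nb K3 0 (hsub ht)) hu)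
            (nb_mono_r (by omega)) (nb_nb_sub (by omega)) (fun t ht u hu => ?_) (sub7 _ le_rfl) hω3
          have : t ∈ nb K0 (6 * s) := nb_nb_sub (by omega) ht
          exact adj_nb (by omega) this hu
        have q2 : ind (In KK K0) ω = 1 := by
          refine ind_of_mem ?_
          rw [hKK]
          exact In_of (A := nb K0 s) ((sub_nb K0 _)) (fun t ht u hu => adj_nb (r := 0) (by omega)
            (sub_nb K0 0 ht) hu) (sub7 _ (by omega)) hω1
        rw [ind_of_mem hω3, ind_of_mem hω1, q1, q2, mul_one, mul_one, hΦ]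
        refine le_of_eq (Finset.sum_congr rfl fun i _ => ?_)
        ring
      · rw [ind_of_not_mem hω1, mul_zero]; exact p0
    · rw [ind_of_not_mem hω3, mul_zero, zero_mul]; exact p0
  have a4 : p ^ J0 * ∑ i ∈ t, E c F (fun ω => LvI D D' ω * (g i ω.1 * (ind (In KK K0) ω * f i ω.1))) ≤
      ∑ i ∈ t, E c F (fun ω => f i ω.1) * E c F (fun ω => g i ω.1) := by
    rw [Finset.mul_sum]
    refine Finset.sum_le_sum fun i _ => ?_
    have hseen : Seen K0 fun ω => f i ω.1 := seen_of hK0 hK0c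
      ((hf i).mono (Finset.coe_subset.2 (sub_VF K0))) (hfn i)
    have b := prod_cmp hc hD's hD'F hDs hDF hKKs hKD hBK hK0 hK0c (f := fun ω => f i ω.1)
      (g := fun ω => g i ω.1) (fun ω => f0 i _) hseen (fun ω => g0 i _)
      (fun B hB ω ω' => glue_off hLD' hB (hg i) ω ω')
    refine le_trans (mul_le_mul_of_nonneg_right mid ?_) b
    exact E_nonneg hc fun ω _ => mul_nonneg (LvI_nonneg _ _ _)
      (mul_nonneg (g0 i _) (mul_nonneg (ind_nonneg _ _) (f0 i _)))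
  set S := ∑ i ∈ t, E c F (fun ω => f i ω.1) * E c F (fun ω => g i ω.1) with hS
  have a5 : ∑ i ∈ t, E c F (fun ω => LvI D D' ω * (g i ω.1 * (ind (In KK K0) ω * f i ω.1))) ≤
      S / p ^ J0 := by
    rw [le_div_iff₀ hpJ, mul_comm]; exact a4
  have a6 := a1.trans (add_le_add le_rfl (mul_le_mul_of_nonneg_left (a2.trans a5) hC1.le))
  have a7 := a3.trans (add_le_add le_rfl (mul_le_mul_of_nonneg_left a6 hC3.le))
  refine a7.trans (le_of_eq ?_)
  field_simp
  ring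

end Crest.Agent.R144.Den435
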