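import Mathlib

-- ▼ part R144/Ga5a_885
section

/-!
# R144, leaf GA5 of doc 1596 (helper885), part a: cells

Continuum side of the Stein decomposition: for a test function `φ` on the plane and `0 < η ≤ 1` a finite
family of cells `c` with centres `ctr η c`, pieces `f c` (`∑ f c = φ`) and local remainders `g c`
(`φ - g c` is affine on a neighbourhood of the support of `f c`), with sharp bounds.
-/

set_option autoImplicit false

open MeasureTheory Metric Set Filter Topology Laplacian InnerProductSpace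
open scoped ContDiff

noncomputable section

namespace Crest.Agent.R144.Ga5885

/-- test function on the plane -/
def Tst (φ : ℂ → ℝ) : Prop := ContDiff ℝ ∞ φ ∧ HasCompactSupport φ

/-! ### Laplacian in two directions -/

theorem lap_dir {F : ℂ → ℝ} {z : ℂ} (hF : ContDiffAt ℝ 2 F z) :
    (Δ F) z = fderiv ℝ (fun w => fderiv ℝ F w 1) z 1 +
      fderiv ℝ (fun w => fderiv ℝ F w Complex.I) z Complex.I := by
  have h1 : DifferentiableAt ℝ (fderiv ℝ F) z :=
    (hF.fderiv_right (m := 1) (by norm_num)).differentiableAt (by norm_num)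
  have h2 : ∀ e : ℂ, fderiv ℝ (fun w => fderiv ℝ F w e) z = (fderiv ℝ (fderiv ℝ F) z).flip e := by
    intro e
    ext v
    have := (h1.hasFDerivAt.clm_apply (hasFDerivAt_const e z)).fderiv
    rw [this]
    simp
  rw [laplacian_eq_iteratedFDeriv_complexPlane]
  simp only [iteratedFDeriv_two_apply, h2]
  simp

/-- bounds of a function and of its first and second directional derivatives -/
def Bd (F : ℂ → ℝ) (S : Set ℂ) (A0 A1 A2 : ℝ) : Prop :=
  ∀ z ∈ S, |F z| ≤ A0 ∧ (∀ e : ℂ, ‖e‖ ≤ 1 → |fderiv ℝ F z e| ≤ A1) ∧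
    ∀ e : ℂ, ‖e‖ ≤ 1 → |fderiv ℝ (fun w => fderiv ℝ F w e) z e| ≤ A2

theorem Bd.lap_le {F : ℂ → ℝ} {S : Set ℂ} {A0 A1 A2 : ℝ} (h : Bd F S A0 A1 A2)
    (hF : ContDiff ℝ ∞ F) {z : ℂ} (hz : z ∈ S) : |(Δ F) z| ≤ 2 * A2 := by
  rw [lap_dir (hF.of_le (by norm_cast)).contDiffAt]
  obtain ⟨-, -, h2⟩ := h z hz
  have a := h2 1 (by simp)
  have b := h2 Complex.I (by simp)
  exact (abs_add_le _ _).trans (by linarith)

theorem contDiff_dir {F : ℂ → ℝ} (hF : ContDiff ℝ ∞ F) (e : ℂ) :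
    ContDiff ℝ ∞ (fun w => fderiv ℝ F w e) :=
  (hF.fderiv_right (m := ∞) (by simp)).clm_apply contDiff_const

theorem Bd.mul {u v : ℂ → ℝ} {S : Set ℂ} {a0 a1 a2 b0 b1 b2 : ℝ} (hu : ContDiff ℝ ∞ u)
    (hv : ContDiff ℝ ∞ v) (ha : Bd u S a0 a1 a2) (hb : Bd v S b0 b1 b2) :
    Bd (fun z => u z * v z) S (a0 * b0) (a0 * b1 + a1 * b0) (a0 * b2 + 2 * (a1 * b1) + a2 * b0) := by
  have hud : Differentiable ℝ u := hu.differentiable (by simp)
  have hvd : Differentiable ℝ v := hv.differentiable (by simp)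
  have key : ∀ (e w : ℂ), fderiv ℝ (fun z => u z * v z) w e =
      u w * fderiv ℝ v w e + v w * fderiv ℝ u w e := by
    intro e w
    rw [fderiv_fun_mul (hud w) (hvd w)]
    simp
  intro z hz
  obtain ⟨a, a', a''⟩ := ha z hz
  obtain ⟨b, b', b''⟩ := hb z hz
  have ha0 : 0 ≤ a0 := (abs_nonneg _).trans a
  have hb0 : 0 ≤ b0 := (abs_nonneg _).trans b
  refine ⟨?_, fun e he => ?_, fun e he => ?_⟩
  · rw [abs_mul]
    exact mul_le_mul a b (abs_nonneg _) ha0
  · rw [key]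
    refine (abs_add_le _ _).trans (add_le_add ?_ ?_)
    · rw [abs_mul]
      exact mul_le_mul a (b' e he) (abs_nonneg _) ha0
    · rw [abs_mul, mul_comm]
      exact mul_le_mul (a' e he) b (abs_nonneg _) ((abs_nonneg _).trans (a' e he))
  · have hue := (contDiff_dir hu e).differentiable (by simp)
    have hve := (contDiff_dir hv e).differentiable (by simp)
    have h2 : fderiv ℝ (fun w => fderiv ℝ (fun z => u z * v z) w e) z e =
        u z * fderiv ℝ (fun w => fderiv ℝ v w e) z e + 2 * (fderiv ℝ u z e * fderiv ℝ v z e) +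
          v z * fderiv ℝ (fun w => fderiv ℝ u w e) z e := by
      have e1 : (fun w => fderiv ℝ (fun z => u z * v z) w e) =
          fun w => u w * fderiv ℝ v w e + v w * fderiv ℝ u w e := funext fun w => key e w
      have e2 := (((hud z).hasFDerivAt.mul (hve z).hasFDerivAt).add
        ((hvd z).hasFDerivAt.mul (hue z).hasFDerivAt)).fderiv
      have e3 : fderiv ℝ (fun w => u w * fderiv ℝ v w e + v w * fderiv ℝ u w e) z = _ := e2
      rw [e1, e3]
      simp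
      ring
    rw [h2]
    refine (abs_add_le _ _).trans (add_le_add ((abs_add_le _ _).trans (add_le_add ?_ ?_)) ?_)
    · rw [abs_mul]
      exact mul_le_mul a (b'' e he) (abs_nonneg _) ha0
    · rw [abs_mul, abs_mul, abs_of_pos (by norm_num : (0 : ℝ) < 2)]
      exact mul_le_mul_of_nonneg_left (mul_le_mul (a' e he) (b' e he) (abs_nonneg _)
        ((abs_nonneg _).trans (a' e he))) (by norm_num)
    · rw [abs_mul, mul_comm]
      exact mul_le_mul (a'' e he) b (abs_nonneg _) ((abs_nonneg _).trans (a'' e he))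

/-- rescaled function -/
def scl (B : ℂ → ℝ) (η : ℝ) (c : ℂ) (z : ℂ) : ℝ := B ((η⁻¹ : ℝ) • (z - c))

theorem contDiff_scl {B : ℂ → ℝ} (hB : ContDiff ℝ ∞ B) (η : ℝ) (c : ℂ) :
    ContDiff ℝ ∞ (scl B η c) :=
  hB.comp ((contDiff_id.sub contDiff_const).const_smul _)

theorem fderiv_scl {B : ℂ → ℝ} (hB : Differentiable ℝ B) (η : ℝ) (c z e : ℂ) :
    fderiv ℝ (scl B η c) z e = η⁻¹ * fderiv ℝ B ((η⁻¹ : ℝ) • (z - c)) e := by
  have h0 := ((hasFDerivAt_id (𝕜 := ℝ) z).sub_const c).const_smul (η⁻¹ : ℝ)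
  have h1 : HasFDerivAt (fun z : ℂ => (η⁻¹ : ℝ) • (z - c)) ((η⁻¹ : ℝ) • ContinuousLinearMap.id ℝ ℂ) z :=
    h0
  have h2 : HasFDerivAt (scl B η c) _ z := (hB _).hasFDerivAt.comp z h1
  rw [h2.fderiv]
  simp

theorem Bd.scale {B : ℂ → ℝ} (hB : ContDiff ℝ ∞ B) {b0 b1 b2 : ℝ} (h : Bd B univ b0 b1 b2)
    {η : ℝ} (hη : 0 < η) (c : ℂ) : Bd (scl B η c) univ b0 (b1 / η) (b2 / η ^ 2) := by
  have hd : Differentiable ℝ B := hB.differentiable (by simp)
  intro z _
  obtain ⟨h0, h1, h2⟩ := h ((η⁻¹ : ℝ) • (z - c)) (mem_univ _)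
  refine ⟨h0, fun e he => ?_, fun e he => ?_⟩
  · rw [fderiv_scl hd, abs_mul, abs_of_pos (inv_pos.2 hη), div_eq_inv_mul]
    exact mul_le_mul_of_nonneg_left (h1 e he) (inv_pos.2 hη).le
  · have e1 : (fun w => fderiv ℝ (scl B η c) w e) =
        fun w => η⁻¹ * scl (fun w => fderiv ℝ B w e) η c w := by
      funext w
      rw [fderiv_scl hd]
      rfl
    have hde : Differentiable ℝ (fun w => fderiv ℝ B w e) :=
      (contDiff_dir hB e).differentiable (by simp)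
    have hs : DifferentiableAt ℝ (scl (fun w => fderiv ℝ B w e) η c) z :=
      ((contDiff_scl (contDiff_dir hB e) η c).differentiable (by simp)) z
    rw [e1, fderiv_const_mul hs]
    have e2 : (η⁻¹ • fderiv ℝ (scl (fun w => fderiv ℝ B w e) η c) z) e =
        η⁻¹ * (η⁻¹ * fderiv ℝ (fun w => fderiv ℝ B w e) ((η⁻¹ : ℝ) • (z - c)) e) := by
      rw [_root_.smul_apply, fderiv_scl hde, smul_eq_mul]
    rw [e2, ← mul_assoc, abs_mul, abs_of_pos (mul_pos (inv_pos.2 hη) (inv_pos.2 hη))]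
    have e3 : b2 / η ^ 2 = η⁻¹ * η⁻¹ * b2 := by
      field_simp
    rw [e3]
    exact mul_le_mul_of_nonneg_left (h2 e he) (mul_pos (inv_pos.2 hη) (inv_pos.2 hη)).le

theorem bound_cs {f : ℂ → ℝ} (h1 : Continuous f)
    (h2 : HasCompactSupport f) : ∃ A : ℝ, 0 ≤ A ∧ ∀ z, |f z| ≤ A := by
  obtain ⟨A, hA⟩ := h1.bounded_above_of_compact_support h2
  exact ⟨A, (norm_nonneg _).trans (hA 0), hA⟩

theorem bound_fd {f : ℂ → ℝ} (h1 : ContDiff ℝ ∞ f)
    (h2 : HasCompactSupport f) : ∃ A : ℝ, 0 ≤ A ∧ ∀ z, ‖fderiv ℝ f z‖ ≤ A := by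
  obtain ⟨A, hA⟩ := (h1.continuous_fderiv (by simp)).bounded_above_of_compact_support
    (h2.fderiv (𝕜 := ℝ))
  exact ⟨A, (norm_nonneg _).trans (hA 0), hA⟩

theorem dir_split {φ : ℂ → ℝ} (w e : ℂ) :
    fderiv ℝ φ w e = e.re * fderiv ℝ φ w 1 + e.im * fderiv ℝ φ w Complex.I := by
  have h : e = (e.re : ℝ) • (1 : ℂ) + (e.im : ℝ) • Complex.I := by
    apply Complex.ext <;> simp
  conv_lhs => rw [h]
  rw [map_add, map_smul, map_smul, smul_eq_mul, smul_eq_mul]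

theorem exists_bd {φ : ℂ → ℝ} (hφ : Tst φ) : ∃ C : ℝ, 0 ≤ C ∧ Bd φ univ C C C ∧
    ∀ e : ℂ, ‖e‖ ≤ 1 → ∀ z, ‖fderiv ℝ (fun w => fderiv ℝ φ w e) z‖ ≤ C := by
  obtain ⟨h1, h2⟩ := hφ
  obtain ⟨A, hA0, hA⟩ := bound_cs h1.continuous h2
  obtain ⟨B, hB0, hB⟩ := bound_fd h1 h2
  obtain ⟨C1, hC10, hC1⟩ := bound_fd (contDiff_dir h1 1) (h2.fderiv_apply (𝕜 := ℝ) 1)
  obtain ⟨C2, hC20, hC2⟩ := bound_fd (contDiff_dir h1 Complex.I) (h2.fderiv_apply (𝕜 := ℝ) Complex.I)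
  have key : ∀ e : ℂ, ‖e‖ ≤ 1 → ∀ z, ‖fderiv ℝ (fun w => fderiv ℝ φ w e) z‖ ≤ C1 + C2 := by
    intro e he z
    have d1 : DifferentiableAt ℝ (fun w => fderiv ℝ φ w 1) z :=
      ((contDiff_dir h1 1).differentiable (by simp)) z
    have d2 : DifferentiableAt ℝ (fun w => fderiv ℝ φ w Complex.I) z :=
      ((contDiff_dir h1 Complex.I).differentiable (by simp)) z
    have e1 : (fun w => fderiv ℝ φ w e) =
        fun w => e.re * fderiv ℝ φ w 1 + e.im * fderiv ℝ φ w Complex.I :=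
      funext fun w => dir_split w e
    have e2 : fderiv ℝ (fun w => e.re * fderiv ℝ φ w 1 + e.im * fderiv ℝ φ w Complex.I) z =
        e.re • fderiv ℝ (fun w => fderiv ℝ φ w 1) z +
          e.im • fderiv ℝ (fun w => fderiv ℝ φ w Complex.I) z :=
      ((d1.hasFDerivAt.const_mul e.re).add (d2.hasFDerivAt.const_mul e.im)).fderiv
    rw [e1, e2]
    refine (norm_add_le _ _).trans (add_le_add ?_ ?_)
    · rw [norm_smul, Real.norm_eq_abs]
      calc |e.re| * _ ≤ 1 * C1 := mul_le_mul ((Complex.abs_re_le_norm e).trans he) (hC1 z)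
            (norm_nonneg _) (by norm_num)
        _ = C1 := one_mul _
    · rw [norm_smul, Real.norm_eq_abs]
      calc |e.im| * _ ≤ 1 * C2 := mul_le_mul ((Complex.abs_im_le_norm e).trans he) (hC2 z)
            (norm_nonneg _) (by norm_num)
        _ = C2 := one_mul _
  refine ⟨A + B + (C1 + C2), by positivity, fun z _ => ⟨?_, fun e he => ?_, fun e he => ?_⟩,
    fun e he z => ?_⟩
  · have := hA z
    linarith
  · have h3 := (fderiv ℝ φ z).le_opNorm e
    rw [Real.norm_eq_abs] at h3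
    have h4 := hB z
    have : ‖fderiv ℝ φ z‖ * ‖e‖ ≤ B * 1 := mul_le_mul h4 he (norm_nonneg _) hB0
    linarith
  · have h3 := (fderiv ℝ (fun w => fderiv ℝ φ w e) z).le_opNorm e
    rw [Real.norm_eq_abs] at h3
    have h4 := key e he z
    have : ‖fderiv ℝ (fun w => fderiv ℝ φ w e) z‖ * ‖e‖ ≤ (C1 + C2) * 1 :=
      mul_le_mul h4 he (norm_nonneg _) (by positivity)
    linarith
  · have := key e he z
    linarith

/-- Taylor remainder of order one at `c` -/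
def rem (φ : ℂ → ℝ) (c : ℂ) (z : ℂ) : ℝ := φ z - (φ c + fderiv ℝ φ c (z - c))

theorem contDiff_rem {φ : ℂ → ℝ} (hφ : ContDiff ℝ ∞ φ) (c : ℂ) : ContDiff ℝ ∞ (rem φ c) := by
  unfold rem
  exact hφ.sub (contDiff_const.add ((fderiv ℝ φ c).contDiff.comp (contDiff_id.sub contDiff_const)))

theorem fderiv_rem {φ : ℂ → ℝ} (hφ : ContDiff ℝ ∞ φ) (c z : ℂ) :
    fderiv ℝ (rem φ c) z = fderiv ℝ φ z - fderiv ℝ φ c := by
  have h1 : HasFDerivAt φ (fderiv ℝ φ z) z := ((hφ.differentiable (by simp)) z).hasFDerivAt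
  have h2 : HasFDerivAt (fun z : ℂ => φ c + fderiv ℝ φ c (z - c)) (fderiv ℝ φ c) z := by
    have := ((fderiv ℝ φ c).hasFDerivAt (x := z - c)).comp z ((hasFDerivAt_id z).sub_const c)
    exact this.const_add _
  exact (h1.sub h2).fderiv

theorem Bd.rem {φ : ℂ → ℝ} (hφ : ContDiff ℝ ∞ φ) {C : ℝ} (hC : 0 ≤ C) (hb : Bd φ univ C C C)
    (h2 : ∀ e : ℂ, ‖e‖ ≤ 1 → ∀ z, ‖fderiv ℝ (fun w => fderiv ℝ φ w e) z‖ ≤ C) (c : ℂ) {r : ℝ}
    (hr : 0 ≤ r) : Bd (rem φ c) (closedBall c r) (C * r ^ 2) (C * r) C := by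
  have lip : ∀ e : ℂ, ‖e‖ ≤ 1 → ∀ z, |fderiv ℝ φ z e - fderiv ℝ φ c e| ≤ C * ‖z - c‖ := by
    intro e he z
    have := Convex.norm_image_sub_le_of_norm_fderiv_le (𝕜 := ℝ) (s := univ)
      (f := fun w => fderiv ℝ φ w e)
      (fun w _ => ((contDiff_dir hφ e).differentiable (by simp)) w) (fun w _ => h2 e he w) convex_univ
      (mem_univ c) (mem_univ z)
    rwa [Real.norm_eq_abs] at this
  have lip2 : ∀ z, ‖fderiv ℝ φ z - fderiv ℝ φ c‖ ≤ C * ‖z - c‖ := by
    intro z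
    refine ContinuousLinearMap.opNorm_le_bound _ (by positivity) fun e => ?_
    rcases eq_or_ne e 0 with rfl | he
    · simp
    have hn : 0 < ‖e‖ := norm_pos_iff.2 he
    have h3 := lip ((‖e‖⁻¹ : ℝ) • e) (by rw [norm_smul, norm_inv, norm_norm, inv_mul_cancel₀ hn.ne'])
      z
    rw [map_smul, map_smul, ← smul_sub, smul_eq_mul, abs_mul, abs_inv, abs_norm,
      inv_mul_le_iff₀ hn] at h3
    rw [_root_.sub_apply, Real.norm_eq_abs]
    linarith
  intro z hz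
  have hzr : ‖z - c‖ ≤ r := by
    have := mem_closedBall.1 hz
    rwa [dist_eq_norm] at this
  refine ⟨?_, fun e he => ?_, fun e he => ?_⟩
  · have h3 : ‖Ga5885.rem φ c z - Ga5885.rem φ c c‖ ≤ (C * r) * ‖z - c‖ := by
      refine Convex.norm_image_sub_le_of_norm_fderiv_le (𝕜 := ℝ) (s := closedBall c r)
        (fun w _ => ((contDiff_rem hφ c).differentiable (by simp)) w) (fun w hw => ?_)
        (convex_closedBall c r) (mem_closedBall_self hr) hz
      rw [fderiv_rem hφ]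
      have hw' : ‖w - c‖ ≤ r := by
        have := mem_closedBall.1 hw
        rwa [dist_eq_norm] at this
      exact (lip2 w).trans (mul_le_mul_of_nonneg_left hw' hC)
    have h4 : Ga5885.rem φ c c = 0 := by simp [Ga5885.rem]
    rw [h4, sub_zero, Real.norm_eq_abs] at h3
    refine h3.trans ?_
    have : C * r * ‖z - c‖ ≤ C * r * r := mul_le_mul_of_nonneg_left hzr (by positivity)
    linarith [this, (by ring : C * r * r = C * r ^ 2)]
  · rw [fderiv_rem hφ, _root_.sub_apply]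
    exact (lip e he z).trans (mul_le_mul_of_nonneg_left hzr hC)
  · have e1 : (fun w => fderiv ℝ (Ga5885.rem φ c) w e) = fun w => fderiv ℝ φ w e - fderiv ℝ φ c e := by
      funext w
      rw [fderiv_rem hφ]
      rfl
    rw [e1, fderiv_sub_const]
    exact ((hb z (mem_univ _)).2.2) e he

/-! ### one-dimensional cut-offs -/

/-- unit of the partition of unity on the line -/
def b1 (x : ℝ) : ℝ := Real.smoothTransition (x + 1) - Real.smoothTransition x

/-- cut-off equal to one on `[-3, 3]`, zero off `[-4, 4]` -/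
def w1 (x : ℝ) : ℝ := Real.smoothTransition (x + 4) * Real.smoothTransition (4 - x)

theorem b1_eq_zero {x : ℝ} (hx : 1 ≤ |x|) : b1 x = 0 := by
  unfold b1
  rcases le_abs.1 hx with h | h
  · rw [Real.smoothTransition.one_of_one_le h, Real.smoothTransition.one_of_one_le (by linarith),
      sub_self]
  · rw [Real.smoothTransition.zero_of_nonpos (by linarith),
      Real.smoothTransition.zero_of_nonpos (by linarith), sub_self]

theorem w1_eq_zero {x : ℝ} (hx : 4 ≤ |x|) : w1 x = 0 := by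
  unfold w1
  rcases le_abs.1 hx with h | h
  · rw [Real.smoothTransition.zero_of_nonpos (x := 4 - x) (by linarith), mul_zero]
  · rw [Real.smoothTransition.zero_of_nonpos (x := x + 4) (by linarith), zero_mul]

theorem w1_eq_one {x : ℝ} (hx : |x| ≤ 3) : w1 x = 1 := by
  unfold w1
  obtain ⟨h1, h2⟩ := abs_le.1 hx
  rw [Real.smoothTransition.one_of_one_le (x := x + 4) (by linarith),
    Real.smoothTransition.one_of_one_le (x := 4 - x) (by linarith), mul_one]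

theorem contDiff_b1 : ContDiff ℝ ∞ b1 := by
  unfold b1
  exact (Real.smoothTransition.contDiff.comp (contDiff_id.add contDiff_const)).sub
    Real.smoothTransition.contDiff

theorem contDiff_w1 : ContDiff ℝ ∞ w1 := by
  unfold w1
  exact (Real.smoothTransition.contDiff.comp (contDiff_id.add contDiff_const)).mul
    (Real.smoothTransition.contDiff.comp (contDiff_const.sub contDiff_id))

theorem sum_b1 (N : ℕ) (x : ℝ) : ∑ k ∈ Finset.Icc (-(N : ℤ)) N, b1 (x - k) =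
    Real.smoothTransition (x + N + 1) - Real.smoothTransition (x - N) := by
  induction N with
  | zero => simp [b1]
  | succ N ih =>
    have h : Finset.Icc (-((N + 1 : ℕ) : ℤ)) ((N + 1 : ℕ) : ℤ) =
        insert (-((N + 1 : ℕ) : ℤ)) (insert ((N + 1 : ℕ) : ℤ) (Finset.Icc (-(N : ℤ)) N)) := by
      ext k
      simp only [Finset.mem_Icc, Finset.mem_insert]
      push_cast
      omega
    rw [h, Finset.sum_insert (by simp; omega), Finset.sum_insert (by simp), ih]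
    unfold b1
    push_cast
    rw [show x - -((N : ℝ) + 1) + 1 = x + (N + 1) + 1 by ring,
      show x - -((N : ℝ) + 1) = x + N + 1 by ring, show x - ((N : ℝ) + 1) + 1 = x - N by ring]
    ring

/-- the plane unit -/
def BB (z : ℂ) : ℝ := b1 z.re * b1 z.im

/-- the plane cut-off -/
def WW (z : ℂ) : ℝ := w1 z.re * w1 z.im

theorem contDiff_BB : ContDiff ℝ ∞ BB :=
  (contDiff_b1.comp Complex.reCLM.contDiff).mul (contDiff_b1.comp Complex.imCLM.contDiff)

theorem contDiff_WW : ContDiff ℝ ∞ WW :=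
  (contDiff_w1.comp Complex.reCLM.contDiff).mul (contDiff_w1.comp Complex.imCLM.contDiff)

theorem norm_le_of {z : ℂ} {a : ℝ} (h1 : |z.re| ≤ a) (h2 : |z.im| ≤ a) : ‖z‖ ≤ 3 / 2 * a := by
  have ha : 0 ≤ a := (abs_nonneg _).trans h1
  rw [← abs_of_nonneg (by positivity : (0 : ℝ) ≤ 3 / 2 * a), ← abs_norm]
  apply sq_le_sq.1
  rw [← Complex.normSq_eq_norm_sq, Complex.normSq_apply]
  have e1 : z.re * z.re ≤ a * a := by
    have := mul_le_mul h1 h1 (abs_nonneg _) ha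
    rwa [abs_mul_abs_self] at this
  have e2 : z.im * z.im ≤ a * a := by
    have := mul_le_mul h2 h2 (abs_nonneg _) ha
    rwa [abs_mul_abs_self] at this
  nlinarith [mul_nonneg ha ha]

theorem BB_eq_zero {z : ℂ} (hz : 3 / 2 < ‖z‖) : BB z = 0 := by
  unfold BB
  by_contra hne
  obtain ⟨h1, h2⟩ := mul_ne_zero_iff.1 hne
  have a1 : |z.re| ≤ 1 := by
    by_contra h
    exact h1 (b1_eq_zero (not_le.1 h).le)
  have a2 : |z.im| ≤ 1 := by
    by_contra h
    exact h2 (b1_eq_zero (not_le.1 h).le)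
  have := norm_le_of a1 a2
  linarith

theorem WW_eq_zero {z : ℂ} (hz : 6 < ‖z‖) : WW z = 0 := by
  unfold WW
  by_contra hne
  obtain ⟨h1, h2⟩ := mul_ne_zero_iff.1 hne
  have a1 : |z.re| ≤ 4 := by
    by_contra h
    exact h1 (w1_eq_zero (not_le.1 h).le)
  have a2 : |z.im| ≤ 4 := by
    by_contra h
    exact h2 (w1_eq_zero (not_le.1 h).le)
  have := norm_le_of a1 a2
  linarith

theorem WW_eq_one {z : ℂ} (hz : ‖z‖ ≤ 3) : WW z = 1 := by
  unfold WW
  rw [w1_eq_one ((Complex.abs_re_le_norm z).trans hz),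
    w1_eq_one ((Complex.abs_im_le_norm z).trans hz), mul_one]

theorem tst_of_ball {F : ℂ → ℝ} (hF : ContDiff ℝ ∞ F) {c : ℂ} {r : ℝ}
    (h : ∀ z, r < ‖z - c‖ → F z = 0) : Tst F ∧ tsupport F ⊆ closedBall c r := by
  have hs : tsupport F ⊆ closedBall c r := by
    refine closure_minimal (fun z hz => ?_) isClosed_closedBall
    rw [Function.mem_support] at hz
    rw [mem_closedBall, dist_eq_norm]
    by_contra hlt
    exact hz (h z (not_le.1 hlt))
  exact ⟨⟨hF, HasCompactSupport.of_support_subset_isCompact (isCompact_closedBall c r)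
    ((subset_tsupport _).trans hs)⟩, hs⟩

theorem tst_BB : Tst BB := (tst_of_ball contDiff_BB (c := 0) (r := 3 / 2)
  fun z hz => BB_eq_zero (by rwa [sub_zero] at hz)).1

theorem tst_WW : Tst WW := (tst_of_ball contDiff_WW (c := 0) (r := 6)
  fun z hz => WW_eq_zero (by rwa [sub_zero] at hz)).1

/-! ### cells -/

/-- centre of the cell `k` -/
def ctr (η : ℝ) (k : ℤ × ℤ) : ℂ := ⟨η * k.1, η * k.2⟩

theorem scl_re {η : ℝ} (hη : 0 < η) (k : ℤ × ℤ) (z : ℂ) :
    ((η⁻¹ : ℝ) • (z - ctr η k)).re = z.re / η - k.1 := by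
  simp [ctr]
  field_simp

theorem scl_im {η : ℝ} (hη : 0 < η) (k : ℤ × ℤ) (z : ℂ) :
    ((η⁻¹ : ℝ) • (z - ctr η k)).im = z.im / η - k.2 := by
  simp [ctr]
  field_simp

theorem norm_scl {η : ℝ} (hη : 0 < η) (c z : ℂ) : ‖(η⁻¹ : ℝ) • (z - c)‖ = ‖z - c‖ / η := by
  rw [norm_smul, Real.norm_eq_abs, abs_of_pos (inv_pos.2 hη), div_eq_inv_mul]

theorem sum_scl {η : ℝ} (hη : 0 < η) {N : ℕ} {z : ℂ} (h1 : |z.re| ≤ N * η) (h2 : |z.im| ≤ N * η) :
    ∑ k ∈ Finset.Icc (-(N : ℤ)) N ×ˢ Finset.Icc (-(N : ℤ)) N, scl BB η (ctr η k) z = 1 := by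
  have key : ∀ x : ℝ, |x| ≤ N * η → ∑ k ∈ Finset.Icc (-(N : ℤ)) N, b1 (x / η - k) = 1 := by
    intro x hx
    rw [sum_b1]
    have h3 : |x / η| ≤ N := by
      rw [abs_div, abs_of_pos hη, div_le_iff₀ hη]
      exact hx
    obtain ⟨h4, h5⟩ := abs_le.1 h3
    rw [Real.smoothTransition.one_of_one_le (by linarith),
      Real.smoothTransition.zero_of_nonpos (by linarith), sub_zero]
  rw [Finset.sum_product]
  have e : ∀ a b : ℤ, scl BB η (ctr η (a, b)) z = b1 (z.re / η - a) * b1 (z.im / η - b) := by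
    intro a b
    unfold scl BB
    rw [scl_re hη, scl_im hη]
  simp only [e, ← Finset.mul_sum]
  rw [key _ h2]
  simp only [mul_one]
  exact key _ h1

/-- a family of cells for `φ` at scale `η` -/
structure IsCells (φ : ℂ → ℝ) (η C : ℝ) (s : Finset (ℤ × ℤ)) (f g : ℤ × ℤ → ℂ → ℝ) : Prop where
  tf : ∀ k, Tst (f k)
  tg : ∀ k, Tst (g k)
  sf : ∀ k, tsupport (f k) ⊆ closedBall (ctr η k) (2 * η)
  sg : ∀ k, tsupport (g k) ⊆ closedBall (ctr η k) (6 * η)
  sum : ∀ z, ∑ k ∈ s, f k z = φ z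
  aff : ∀ k, ∃ (a : ℝ) (L : ℂ →L[ℝ] ℝ), ∀ z ∈ ball (ctr η k) (3 * η), φ z - g k z = a + L z
  f0 : ∀ k z, |f k z| ≤ C
  f2 : ∀ k z, |(Δ (f k)) z| ≤ C / η ^ 2
  g0 : ∀ k z, |g k z| ≤ C * η ^ 2
  g2 : ∀ k z, |(Δ (g k)) z| ≤ C
  near : ∀ k ∈ s, ∃ z ∈ tsupport φ, dist z (ctr η k) ≤ 2 * η
  card : (s.card : ℝ) ≤ C / η ^ 2

theorem lap_eq_zero_of {F : ℂ → ℝ} {z : ℂ} (hz : z ∉ tsupport F) : (Δ F) z = 0 := by
  have h : F =ᶠ[𝓝 z] fun _ => (0 : ℝ) := by
    filter_upwards [(isClosed_tsupport F).isOpen_compl.mem_nhds hz] with w hw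
    exact image_eq_zero_of_notMem_tsupport hw
  rw [laplacian_congr_nhds h |>.self_of_nhds]
  simp [laplacian_const]

theorem exists_cells {φ : ℂ → ℝ} (hφ : Tst φ) : ∃ C : ℝ, 0 < C ∧ ∀ η : ℝ, 0 < η → η ≤ 1 →
    ∃ (s : Finset (ℤ × ℤ)) (f g : ℤ × ℤ → ℂ → ℝ), IsCells φ η C s f g := by
  obtain ⟨A, hA0, hA, hA2⟩ := exists_bd hφ
  obtain ⟨B, hB0, hB, -⟩ := exists_bd tst_BB
  obtain ⟨W, hW0, hW, -⟩ := exists_bd tst_WW
  obtain ⟨R, hR⟩ := (hφ.2.isCompact.isBounded).subset_closedBall 0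
  set R' := max R 0 with hR'
  have hRR : ∀ z ∈ tsupport φ, ‖z‖ ≤ R' := fun z hz => by
    have := mem_closedBall.1 (hR hz)
    rw [dist_zero_right] at this
    exact this.trans (le_max_left _ _)
  have hR0 : 0 ≤ R' := le_max_right _ _
  refine ⟨1 + 8 * (A * B) + 98 * (A * W) + (2 * R' + 3) ^ 2, by positivity, fun η hη hη1 => ?_⟩
  set C := 1 + 8 * (A * B) + 98 * (A * W) + (2 * R' + 3) ^ 2 with hC
  have hAB : 0 ≤ A * B := mul_nonneg hA0 hB0
  have hAW : 0 ≤ A * W := mul_nonneg hA0 hW0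
  set N : ℕ := ⌈R' / η⌉₊ with hN
  have hN1 : R' ≤ N * η := by
    have := Nat.le_ceil (R' / η)
    rwa [div_le_iff₀ hη] at this
  have hN2 : (N : ℝ) ≤ R' / η + 1 := (Nat.ceil_lt_add_one (by positivity)).le
  classical
  set S0 : Finset (ℤ × ℤ) := Finset.Icc (-(N : ℤ)) N ×ˢ Finset.Icc (-(N : ℤ)) N with hS0
  set S : Finset (ℤ × ℤ) := S0.filter fun k => ∃ z ∈ tsupport φ, dist z (ctr η k) ≤ 2 * η with hS
  set f : ℤ × ℤ → ℂ → ℝ := fun k z => φ z * scl BB η (ctr η k) z with hf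
  set g : ℤ × ℤ → ℂ → ℝ := fun k z => rem φ (ctr η k) z * scl WW η (ctr η k) z with hg
  have hη2 : 0 < η ^ 2 := by positivity
  have cf : ∀ k, ContDiff ℝ ∞ (f k) := fun k => hφ.1.mul (contDiff_scl contDiff_BB η _)
  have cg : ∀ k, ContDiff ℝ ∞ (g k) := fun k =>
    (contDiff_rem hφ.1 _).mul (contDiff_scl contDiff_WW η _)
  have zf : ∀ k z, 2 * η < ‖z - ctr η k‖ → f k z = 0 := fun k z hz => by
    have : scl BB η (ctr η k) z = 0 := BB_eq_zero (by
      rw [norm_scl hη, lt_div_iff₀ hη]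
      linarith)
    simp only [hf, this, mul_zero]
  have zg : ∀ k z, 6 * η < ‖z - ctr η k‖ → g k z = 0 := fun k z hz => by
    have : scl WW η (ctr η k) z = 0 := WW_eq_zero (by
      rw [norm_scl hη, lt_div_iff₀ hη]
      linarith)
    simp only [hg, this, mul_zero]
  have bf : ∀ k, Bd (f k) univ (A * B) (A * (B / η) + A * B)
      (A * (B / η ^ 2) + 2 * (A * (B / η)) + A * B) := fun k =>
    Bd.mul hφ.1 (contDiff_scl contDiff_BB η _) hA (hB.scale contDiff_BB hη _)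
  have bg : ∀ k, Bd (g k) (closedBall (ctr η k) (6 * η)) (A * (6 * η) ^ 2 * W)
      (A * (6 * η) ^ 2 * (W / η) + A * (6 * η) * W)
      (A * (6 * η) ^ 2 * (W / η ^ 2) + 2 * (A * (6 * η) * (W / η)) + A * W) := fun k =>
    Bd.mul (contDiff_rem hφ.1 _) (contDiff_scl contDiff_WW η _)
      (Bd.rem hφ.1 hA0 hA hA2 _ (by positivity))
      (fun z _ => (hW.scale contDiff_WW hη (ctr η k)) z (mem_univ z))
  refine ⟨S, f, g, fun k => (tst_of_ball (cf k) (zf k)).1, fun k => (tst_of_ball (cg k) (zg k)).1,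
    fun k => (tst_of_ball (cf k) (zf k)).2, fun k => (tst_of_ball (cg k) (zg k)).2,
    fun z => ?_, fun k => ?_, fun k z => ?_, fun k z => ?_, fun k z => ?_, fun k z => ?_,
    fun k hk => (Finset.mem_filter.1 hk).2, ?_⟩
  · -- partition
    have e1 : ∑ k ∈ S, f k z = ∑ k ∈ S0, f k z := by
      refine Finset.sum_subset (Finset.filter_subset _ _) fun k hk hk' => ?_
      by_contra hne
      apply hk'
      rw [Finset.mem_filter]
      refine ⟨hk, z, ?_, ?_⟩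
      · apply subset_tsupport
        rw [Function.mem_support]
        intro h0
        exact hne (by simp only [hf, h0, zero_mul])
      · by_contra hlt
        rw [dist_eq_norm] at hlt
        exact hne (zf k z (not_le.1 hlt))
    rw [e1]
    simp only [hf, ← Finset.mul_sum]
    by_cases hz : z ∈ tsupport φ
    · have h1 := hRR z hz
      rw [sum_scl hη ((Complex.abs_re_le_norm z).trans (h1.trans hN1))
        ((Complex.abs_im_le_norm z).trans (h1.trans hN1)), mul_one]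
    · rw [image_eq_zero_of_notMem_tsupport hz, zero_mul]
  · -- affine
    refine ⟨φ (ctr η k) - fderiv ℝ φ (ctr η k) (ctr η k), fderiv ℝ φ (ctr η k), fun z hz => ?_⟩
    have h1 : scl WW η (ctr η k) z = 1 := WW_eq_one (by
      rw [norm_scl hη, div_le_iff₀ hη]
      have := mem_ball.1 hz
      rw [dist_eq_norm] at this
      exact this.le)
    simp only [hg, h1, mul_one, rem, map_sub]
    ring
  · exact ((bf k z (mem_univ z)).1).trans (by rw [hC]; nlinarith [sq_nonneg (2 * R' + 3)])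
  · refine ((bf k).lap_le (cf k) (mem_univ z)).trans ?_
    rw [le_div_iff₀ hη2]
    have e1 : 2 * (A * (B / η ^ 2) + 2 * (A * (B / η)) + A * B) * η ^ 2 =
        2 * (A * B) + 4 * (A * B) * η + 2 * (A * B) * η ^ 2 := by
      field_simp
      ring
    rw [e1, hC]
    have h3 : (A * B) * η ≤ A * B := mul_le_of_le_one_right hAB hη1
    have h4 : (A * B) * η ^ 2 ≤ A * B := mul_le_of_le_one_right hAB (pow_le_one₀ hη.le hη1)
    nlinarith [sq_nonneg (2 * R' + 3)]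
  · by_cases hz : z ∈ closedBall (ctr η k) (6 * η)
    · refine ((bg k z hz).1).trans ?_
      have h5 : A * (6 * η) ^ 2 * W = 36 * (A * W) * η ^ 2 := by ring
      rw [h5]
      refine mul_le_mul_of_nonneg_right ?_ hη2.le
      rw [hC]
      nlinarith [sq_nonneg (2 * R' + 3)]
    · have h6 : g k z = 0 := zg k z (by
        rw [mem_closedBall, dist_eq_norm] at hz
        exact not_le.1 hz)
      rw [h6, abs_zero]
      positivity
  · by_cases hz : z ∈ closedBall (ctr η k) (6 * η)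
    · refine ((bg k).lap_le (cg k) hz).trans ?_
      have e1 : 2 * (A * (6 * η) ^ 2 * (W / η ^ 2) + 2 * (A * (6 * η) * (W / η)) + A * W) =
          98 * (A * W) := by
        field_simp
        ring
      rw [e1, hC]
      nlinarith [sq_nonneg (2 * R' + 3)]
    · rw [lap_eq_zero_of fun h => hz ((tst_of_ball (cg k) (zg k)).2 h), abs_zero]
      positivity
  · have h1 : S.card ≤ S0.card := Finset.card_le_card (Finset.filter_subset _ _)
    have h2 : (S0.card : ℝ) = (2 * N + 1) ^ 2 := by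
      rw [hS0, Finset.card_product, Int.card_Icc]
      have : ((N : ℤ) + 1 - -(N : ℤ)).toNat = 2 * N + 1 := by omega
      rw [this]
      push_cast
      ring
    have h3 : (S.card : ℝ) ≤ (2 * N + 1) ^ 2 := by
      rw [← h2]
      exact_mod_cast h1
    refine h3.trans ?_
    rw [le_div_iff₀ hη2]
    have h4 : (2 * (N : ℝ) + 1) * η ≤ 2 * R' + 3 := by
      have : (N : ℝ) * η ≤ R' + η := by
        have := mul_le_mul_of_nonneg_right hN2 hη.le
        rwa [add_mul, div_mul_cancel₀ _ hη.ne', one_mul] at this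
      nlinarith
    have h5 : (2 * (N : ℝ) + 1) ^ 2 * η ^ 2 = ((2 * (N : ℝ) + 1) * η) ^ 2 := by ring
    rw [h5]
    have h6 : ((2 * (N : ℝ) + 1) * η) ^ 2 ≤ (2 * R' + 3) ^ 2 :=
      pow_le_pow_left₀ (by positivity) h4 2
    rw [hC]
    nlinarith

/-! ### integrals over cells -/

theorem contDiff_lap {u : ℂ → ℝ} (hu : ContDiff ℝ ∞ u) : ContDiff ℝ ∞ (Δ u) := by
  have h : (Δ u) = fun z => fderiv ℝ (fun w => fderiv ℝ u w 1) z 1 +
      fderiv ℝ (fun w => fderiv ℝ u w Complex.I) z Complex.I :=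
    funext fun z => lap_dir (hu.of_le (by norm_cast)).contDiffAt
  rw [h]
  exact (contDiff_dir (contDiff_dir hu 1) 1).add (contDiff_dir (contDiff_dir hu Complex.I) Complex.I)

theorem abs_integral_le {h : ℂ → ℝ} {c : ℂ} {r M : ℝ} (hr : 0 ≤ r) (hM : 0 ≤ M)
    (h0 : ∀ z, z ∉ closedBall c r → h z = 0) (hb : ∀ z, |h z| ≤ M) :
    |∫ z, h z| ≤ M * (4 * r ^ 2) := by
  have e1 : ∫ z, h z = ∫ z in closedBall c r, h z := by
    rw [setIntegral_eq_integral_of_forall_compl_eq_zero h0]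
  rw [e1, ← Real.norm_eq_abs]
  have hv : (volume : Measure ℂ).real (closedBall c r) = r ^ 2 * Real.pi := by
    rw [Measure.real, Complex.volume_closedBall]
    rw [ENNReal.toReal_mul, ENNReal.toReal_pow, ENNReal.toReal_ofReal hr]
    rfl
  have hfin : volume (closedBall c r) < ⊤ := measure_closedBall_lt_top
  refine (norm_setIntegral_le_of_norm_le_const hfin fun z _ => by
    rw [Real.norm_eq_abs]; exact hb z).trans ?_
  rw [hv]
  refine mul_le_mul_of_nonneg_left ?_ hM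
  have := Real.pi_le_four
  nlinarith [sq_nonneg r]

namespace IsCells

variable {φ : ℂ → ℝ} {η C : ℝ} {s : Finset (ℤ × ℤ)} {f g : ℤ × ℤ → ℂ → ℝ}

theorem C_nonneg (h : IsCells φ η C s f g) : 0 ≤ C := (abs_nonneg _).trans (h.f0 0 0)

theorem int_lap_f (h : IsCells φ η C s f g) (hη : 0 < η) (k : ℤ × ℤ) :
    ∫ z, |(Δ (f k)) z| ≤ 16 * C := by
  have hC := h.C_nonneg
  have h1 := abs_integral_le (h := fun z => |(Δ (f k)) z|) (c := ctr η k) (r := 2 * η)
    (M := C / η ^ 2) (by positivity) (by positivity)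
    (fun z hz => by rw [lap_eq_zero_of fun h' => hz (h.sf k h'), abs_zero])
    (fun z => by rw [abs_abs]; exact h.f2 k z)
  refine (le_abs_self _).trans (h1.trans (le_of_eq ?_))
  field_simp
  ring

theorem int_lap_g (h : IsCells φ η C s f g) (hη : 0 < η) (k : ℤ × ℤ) :
    ∫ z, |(Δ (g k)) z| ≤ 144 * C * η ^ 2 := by
  have hC := h.C_nonneg
  have h1 := abs_integral_le (h := fun z => |(Δ (g k)) z|) (c := ctr η k) (r := 6 * η)
    (M := C) (by positivity) hC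
    (fun z hz => by rw [lap_eq_zero_of fun h' => hz (h.sg k h'), abs_zero])
    (fun z => by rw [abs_abs]; exact h.g2 k z)
  refine (le_abs_self _).trans (h1.trans (le_of_eq ?_))
  ring

theorem en_f (h : IsCells φ η C s f g) (hη : 0 < η) (k : ℤ × ℤ) :
    ∫ z, f k z * (-(Δ (f k)) z) ≤ 16 * C ^ 2 := by
  have hC := h.C_nonneg
  have h1 := abs_integral_le (h := fun z => f k z * (-(Δ (f k)) z)) (c := ctr η k) (r := 2 * η)
    (M := C * (C / η ^ 2)) (by positivity) (by positivity)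
    (fun z hz => by rw [lap_eq_zero_of fun h' => hz (h.sf k h')]; simp)
    (fun z => by
      rw [abs_mul, abs_neg]
      exact mul_le_mul (h.f0 k z) (h.f2 k z) (abs_nonneg _) hC)
  refine (le_abs_self _).trans (h1.trans (le_of_eq ?_))
  field_simp
  ring

theorem en_g (h : IsCells φ η C s f g) (hη : 0 < η) (k : ℤ × ℤ) :
    ∫ z, g k z * (-(Δ (g k)) z) ≤ 144 * C ^ 2 * η ^ 4 := by
  have hC := h.C_nonneg
  have h1 := abs_integral_le (h := fun z => g k z * (-(Δ (g k)) z)) (c := ctr η k) (r := 6 * η)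
    (M := C * η ^ 2 * C) (by positivity) (by positivity)
    (fun z hz => by rw [lap_eq_zero_of fun h' => hz (h.sg k h')]; simp)
    (fun z => by
      rw [abs_mul, abs_neg]
      exact mul_le_mul (h.g0 k z) (h.g2 k z) (abs_nonneg _) (by positivity))
  refine (le_abs_self _).trans (h1.trans (le_of_eq ?_))
  ring

theorem lap_g_eq (h : IsCells φ η C s f g) (hφ : Tst φ) {k : ℤ × ℤ} {z : ℂ}
    (hz : z ∈ ball (ctr η k) (3 * η)) : (Δ (g k)) z = (Δ φ) z := by
  obtain ⟨a, L, hL⟩ := h.aff k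
  have hd : (Δ (fun w => φ w - g k w)) z = 0 := by
    have h1 : (fun w => φ w - g k w) =ᶠ[𝓝 z] fun w => a + L w := by
      filter_upwards [isOpen_ball.mem_nhds hz] with w hw
      exact hL w hw
    rw [laplacian_congr_nhds h1 |>.self_of_nhds]
    have hc : ContDiffAt ℝ 2 (fun w : ℂ => a + L w) z := (contDiff_const.add L.contDiff).contDiffAt
    rw [lap_dir hc]
    have e : ∀ w e : ℂ, fderiv ℝ (fun w : ℂ => a + L w) w e = L e := fun w e => by
      rw [(L.hasFDerivAt.const_add a).fderiv]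
    simp only [e]
    simp
  have c1 : ContDiff ℝ 2 φ := hφ.1.of_le (by norm_cast)
  have c2 : ContDiff ℝ 2 (g k) := (h.tg k).1.of_le (by norm_cast)
  rw [lap_dir (c1.sub c2).contDiffAt] at hd
  rw [lap_dir c1.contDiffAt, lap_dir c2.contDiffAt]
  have e0 : ∀ w e : ℂ, fderiv ℝ (fun w => φ w - g k w) w e = fderiv ℝ φ w e - fderiv ℝ (g k) w e := by
    intro w e
    have := (((hφ.1.differentiable (by simp)) w).hasFDerivAt.sub
      ((((h.tg k).1.differentiable (by simp)) w).hasFDerivAt)).fderiv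
    have h2 : fderiv ℝ (fun w => φ w - g k w) w = _ := this
    rw [h2]
    rfl
  have e2 : ∀ e : ℂ, fderiv ℝ (fun w => fderiv ℝ (fun w => φ w - g k w) w e) z e =
      fderiv ℝ (fun w => fderiv ℝ φ w e) z e - fderiv ℝ (fun w => fderiv ℝ (g k) w e) z e := by
    intro e
    have h1 : (fun w => fderiv ℝ (fun w => φ w - g k w) w e) =
        fun w => fderiv ℝ φ w e - fderiv ℝ (g k) w e := funext fun w => e0 w e
    have := (((((contDiff_dir hφ.1 e).differentiable (by simp)) z)).hasFDerivAt.sub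
      (((contDiff_dir (h.tg k).1 e).differentiable (by simp)) z).hasFDerivAt).fderiv
    have h2 : fderiv ℝ (fun w => fderiv ℝ φ w e - fderiv ℝ (g k) w e) z = _ := this
    rw [h1, h2]
    rfl
  have h1 : fderiv ℝ (fun w => fderiv ℝ (fun w => φ w - g k w) w 1) z 1 +
      fderiv ℝ (fun w => fderiv ℝ (fun w => φ w - g k w) w Complex.I) z Complex.I = 0 := hd
  rw [e2, e2] at h1
  linarith

theorem sum_en (h : IsCells φ η C s f g) (hη : 0 < η) (hφ : Tst φ) :
    ∑ k ∈ s, ∫ z, f k z * (-(Δ (g k)) z) = ∫ z, φ z * (-(Δ φ) z) := by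
  have e1 : ∀ k, ∀ z, f k z * (-(Δ (g k)) z) = f k z * (-(Δ φ) z) := by
    intro k z
    by_cases hz : z ∈ ball (ctr η k) (3 * η)
    · rw [h.lap_g_eq hφ hz]
    · have : f k z = 0 := image_eq_zero_of_notMem_tsupport fun h' => hz (by
        have := mem_closedBall.1 (h.sf k h')
        rw [mem_ball]
        linarith)
      rw [this, zero_mul, zero_mul]
  have hi : ∀ k ∈ s, Integrable (fun z => f k z * (-(Δ φ) z)) := fun k _ =>
    (((h.tf k).1.continuous).mul ((contDiff_lap hφ.1).continuous.neg)).integrable_of_hasCompactSupport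
      ((h.tf k).2.mul_right)
  simp only [e1]
  rw [← integral_finsetSum _ hi]
  refine integral_congr_ae (Eventually.of_forall fun z => ?_)
  simp only
  rw [← Finset.sum_mul, h.sum]

end IsCells

end Crest.Agent.R144.Ga5885
end
end

-- ▼ part R144/Ga5b_885
section

/-!
# R144, leaf GA5 of doc 1596 (helper885), part b: covariances

Truncated covariance bound from mixing of bounded functionals, and the variance of a sum over cells.
-/

set_option autoImplicit false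

open MeasureTheory Metric Set Filter Topology

noncomputable section

namespace Crest.Agent.R144.Ga5885

/-- clamp -/
def clp (L x : ℝ) : ℝ := max (-L) (min L x)

theorem abs_clp_le {L : ℝ} (hL : 0 ≤ L) (x : ℝ) : |clp L x| ≤ L := by
  unfold clp
  rw [abs_le]
  exact ⟨le_max_left _ _, max_le (by linarith) (min_le_left _ _)⟩

theorem clp_eq {L x : ℝ} (h : |x| ≤ L) : clp L x = x := by
  unfold clp
  rw [min_eq_right (abs_le.1 h).2, max_eq_right (abs_le.1 h).1]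

theorem abs_clp_le_abs {L : ℝ} (hL : 0 ≤ L) (x : ℝ) : |clp L x| ≤ |x| := by
  rcases le_total |x| L with h | h
  · rw [clp_eq h]
  · exact (abs_clp_le hL x).trans h

theorem abs_sub_clp_le {L : ℝ} (hL : 0 < L) (x : ℝ) : |x - clp L x| ≤ x ^ 2 / L := by
  rw [le_div_iff₀ hL]
  rcases le_total |x| L with h | h
  · rw [clp_eq h, sub_self, abs_zero, zero_mul]
    exact sq_nonneg x
  · have h1 : |x - clp L x| ≤ |x| := by
      unfold clp
      rcases le_abs.1 h with hx | hx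
      · rw [min_eq_left hx, max_eq_right (by linarith), abs_of_nonneg (by linarith),
          abs_of_nonneg (by linarith)]
        linarith
      · rw [min_eq_right (by linarith), max_eq_left (by linarith), abs_of_nonpos (by linarith),
          abs_of_nonpos (by linarith)]
        linarith
    calc |x - clp L x| * L ≤ |x| * |x| := mul_le_mul h1 h hL.le (abs_nonneg _)
      _ = x ^ 2 := by rw [abs_mul_abs_self]; ring

theorem measurable_clp (L : ℝ) : Measurable (clp L) := by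
  unfold clp
  exact measurable_const.max (measurable_const.min measurable_id)

section cov

variable {Ω : Type*} {m0 : MeasurableSpace Ω} {P : Measure Ω} [IsProbabilityMeasure P]

/-- bounded a.e. and measurable -/
def BM (P : Measure Ω) (W : Ω → ℝ) : Prop := AEStronglyMeasurable W P ∧ ∃ B, ∀ᵐ ω ∂P, |W ω| ≤ B

theorem BM.int {W : Ω → ℝ} (h : BM P W) : Integrable W P := by
  obtain ⟨h1, B, hB⟩ := h
  exact Integrable.of_bound h1 B (hB.mono fun ω h => by rwa [Real.norm_eq_abs])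

omit [IsProbabilityMeasure P] in
theorem BM.mul {W V : Ω → ℝ} (h : BM P W) (h' : BM P V) : BM P (fun ω => W ω * V ω) := by
  obtain ⟨h1, B, hB⟩ := h
  obtain ⟨h2, B', hB'⟩ := h'
  refine ⟨h1.mul h2, |B| * |B'|, ?_⟩
  filter_upwards [hB, hB'] with ω a b
  rw [abs_mul]
  exact mul_le_mul (a.trans (le_abs_self _)) (b.trans (le_abs_self _)) (abs_nonneg _) (abs_nonneg _)

omit [IsProbabilityMeasure P] in
theorem BM.pow {W : Ω → ℝ} (h : BM P W) (k : ℕ) : BM P (fun ω => W ω ^ k) := by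
  obtain ⟨h1, B, hB⟩ := h
  refine ⟨h1.pow k, |B| ^ k, ?_⟩
  filter_upwards [hB] with ω a
  rw [abs_pow]
  exact pow_le_pow_left₀ (abs_nonneg _) (a.trans (le_abs_self _)) k

omit [IsProbabilityMeasure P] in
theorem BM.abs {W : Ω → ℝ} (h : BM P W) : BM P (fun ω => |W ω|) := by
  obtain ⟨h1, B, hB⟩ := h
  refine ⟨by simpa only [Real.norm_eq_abs] using h1.norm, B, ?_⟩
  filter_upwards [hB] with ω a
  rwa [abs_abs]

omit [IsProbabilityMeasure P] in
theorem BM.const_mul {W : Ω → ℝ} (h : BM P W) (c : ℝ) : BM P (fun ω => c * W ω) := by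
  obtain ⟨h1, B, hB⟩ := h
  refine ⟨h1.const_mul c, |c| * B, ?_⟩
  filter_upwards [hB] with ω a
  rw [abs_mul]
  exact mul_le_mul_of_nonneg_left a (abs_nonneg _)

omit [IsProbabilityMeasure P] in
theorem BM.clp {W : Ω → ℝ} (h : BM P W) (L : ℝ) : BM P (fun ω => clp L (W ω)) := by
  obtain ⟨h1, B, hB⟩ := h
  refine ⟨((measurable_clp L).comp_aemeasurable h1.aemeasurable).aestronglyMeasurable, |L|, ?_⟩
  refine Eventually.of_forall fun ω => ?_
  rcases le_total 0 L with hL | hL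
  · exact (abs_clp_le hL _).trans (le_abs_self _)
  · unfold Ga5885.clp
    rw [abs_of_nonpos hL, abs_le]
    constructor
    · have : -L ≤ max (-L) (min L (W ω)) := le_max_left _ _
      linarith
    · exact max_le le_rfl ((min_le_left _ _).trans (by linarith))

theorem sq_le_one_add (x : ℝ) : x ^ 2 ≤ 1 + x ^ 4 := by nlinarith [sq_nonneg (x ^ 2 - 1), sq_nonneg x]

theorem abs_le_one_add (x : ℝ) : |x| ≤ 1 + x ^ 4 := by
  have h1 : |x| ≤ 1 + x ^ 2 := by nlinarith [sq_nonneg (|x| - 1), abs_nonneg x, sq_abs x]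
  rcases le_total |x| 1 with h | h
  · have : 0 ≤ x ^ 4 := by positivity
    linarith
  · have h2 : |x| ^ 1 ≤ |x| ^ 4 := pow_le_pow_right₀ h (by norm_num)
    have h3 : |x| ^ 4 = x ^ 4 := by rw [← abs_pow, abs_of_nonneg (by positivity)]
    rw [pow_one, h3] at h2
    linarith

theorem mul_sq_le (x y : ℝ) : |x| * y ^ 2 ≤ 1 + x ^ 4 + y ^ 4 := by
  have h1 := sq_le_one_add x
  have h2 : |x| * y ^ 2 ≤ (x ^ 2 + y ^ 4) / 2 := by
    nlinarith [sq_nonneg (|x| - y ^ 2), sq_abs x]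
  have h3 : 0 ≤ x ^ 4 := by positivity
  have h4 : 0 ≤ y ^ 4 := by positivity
  linarith

theorem int_lin3 {F G : Ω → ℝ} (hF : Integrable F P) (hG : Integrable G P) (c p q : ℝ) :
    ∫ ω, (c + (p * F ω + q * G ω)) ∂P = c + (p * ∫ ω, F ω ∂P + q * ∫ ω, G ω ∂P) := by
  have i1 : Integrable (fun ω => p * F ω) P := hF.const_mul p
  have i2 : Integrable (fun ω => q * G ω) P := hG.const_mul q
  have i3 : Integrable (fun ω => p * F ω + q * G ω) P := i1.add i2
  have i4 : Integrable (fun _ : Ω => c) P := integrable_const _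
  rw [integral_add i4 i3, integral_add i1 i2, integral_const_mul, integral_const_mul]
  simp

theorem int_lin4 {A B C : Ω → ℝ} (hA : Integrable A P) (hB : Integrable B P) (hC : Integrable C P)
    (a b c : ℝ) : ∫ ω, (A ω - a * B ω - b * C ω + c) ∂P =
      ∫ ω, A ω ∂P - a * ∫ ω, B ω ∂P - b * ∫ ω, C ω ∂P + c := by
  have i1 : Integrable (fun ω => a * B ω) P := hB.const_mul a
  have i2 : Integrable (fun ω => b * C ω) P := hC.const_mul b
  have i3 : Integrable (fun ω => A ω - a * B ω) P := hA.sub i1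
  have i5 : Integrable (fun ω => A ω - a * B ω - b * C ω) P := i3.sub i2
  have i4 : Integrable (fun _ : Ω => c) P := integrable_const _
  rw [integral_add i5 i4, integral_sub i3 i2, integral_sub hA i1, integral_const_mul,
    integral_const_mul]
  simp

theorem abs_int_le {W : Ω → ℝ} (h : BM P W) {b : ℝ} (hb : ∫ ω, W ω ^ 4 ∂P ≤ b) :
    |∫ ω, W ω ∂P| ≤ 1 + b := by
  calc |∫ ω, W ω ∂P| ≤ ∫ ω, |W ω| ∂P := abs_integral_le_integral_abs
    _ ≤ ∫ ω, (1 + W ω ^ 4) ∂P := integral_mono h.abs.int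
        ((integrable_const _).add (h.pow 4).int) fun ω => abs_le_one_add _
    _ = 1 + ∫ ω, W ω ^ 4 ∂P := by
        rw [integral_add (integrable_const _) (h.pow 4).int]
        simp
    _ ≤ 1 + b := by linarith

/-- covariance -/
def cov (P : Measure Ω) (F G : Ω → ℝ) : ℝ :=
  ∫ ω, F ω * G ω ∂P - (∫ ω, F ω ∂P) * ∫ ω, G ω ∂P

theorem abs_cov_le_near {W V : Ω → ℝ} (hW : BM P W) (hV : BM P V) {b : ℝ}
    (hb : ∫ ω, W ω ^ 4 ∂P ≤ b) (hb' : ∫ ω, V ω ^ 4 ∂P ≤ b) : |cov P W V| ≤ 2 * (1 + b) ^ 2 := by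
  have hb0 : 0 ≤ b := (integral_nonneg fun ω => by positivity).trans hb
  have h1 := abs_int_le hW hb
  have h2 := abs_int_le hV hb'
  have h3 : |∫ ω, W ω * V ω ∂P| ≤ 1 + b := by
    calc |∫ ω, W ω * V ω ∂P| ≤ ∫ ω, |W ω * V ω| ∂P := abs_integral_le_integral_abs
      _ ≤ ∫ ω, (1 + ((1 / 2) * W ω ^ 4 + (1 / 2) * V ω ^ 4)) ∂P := by
          refine integral_mono (hW.mul hV).abs.int ((integrable_const _).add
            (((hW.pow 4).const_mul _).int.add ((hV.pow 4).const_mul _).int)) fun ω => ?_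
          have e1 := sq_le_one_add (W ω)
          have e2 := sq_le_one_add (V ω)
          simp only
          rw [abs_mul]
          nlinarith [sq_nonneg (|W ω| - |V ω|), sq_abs (W ω), sq_abs (V ω)]
      _ = 1 + ((1 / 2) * ∫ ω, W ω ^ 4 ∂P + (1 / 2) * ∫ ω, V ω ^ 4 ∂P) := by
          exact int_lin3 (hW.pow 4).int (hV.pow 4).int _ _ _
      _ ≤ 1 + b := by linarith
  unfold cov
  have h4 : |(∫ ω, W ω ∂P) * ∫ ω, V ω ∂P| ≤ (1 + b) * (1 + b) := by
    rw [abs_mul]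
    exact mul_le_mul h1 h2 (abs_nonneg _) (by linarith)
  refine (abs_sub _ _).trans ?_
  nlinarith

/-- **truncated covariance bound** -/
theorem abs_cov_le_far {W V : Ω → ℝ} (hW : BM P W) (hV : BM P V) {b L ε : ℝ} (hL : 0 < L)
    (hb : ∫ ω, W ω ^ 4 ∂P ≤ b) (hb' : ∫ ω, V ω ^ 4 ∂P ≤ b)
    (hmix : |cov P (fun ω => L⁻¹ * clp L (W ω)) (fun ω => L⁻¹ * clp L (V ω))| ≤ ε) :
    |cov P W V| ≤ L ^ 2 * ε + 6 * (1 + b) ^ 2 / L := by
  have hb0 : 0 ≤ b := (integral_nonneg fun ω => by positivity).trans hb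
  set W1 : Ω → ℝ := fun ω => clp L (W ω) with hW1
  set V1 : Ω → ℝ := fun ω => clp L (V ω) with hV1
  have bW1 : BM P W1 := hW.clp L
  have bV1 : BM P V1 := hV.clp L
  have key1 : ∀ x y : ℝ, |x * y - clp L x * clp L y| ≤ (2 + 2 * (x ^ 4 + y ^ 4)) / L := by
    intro x y
    have e : x * y - clp L x * clp L y = x * (y - clp L y) + (x - clp L x) * clp L y := by ring
    rw [e]
    have h1 := abs_sub_clp_le hL x
    have h2 := abs_sub_clp_le hL y
    have h3 := abs_clp_le_abs hL.le y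
    have a1 : |x * (y - clp L y)| ≤ |x| * (y ^ 2 / L) := by
      rw [abs_mul]
      exact mul_le_mul_of_nonneg_left h2 (abs_nonneg _)
    have a2 : |(x - clp L x) * clp L y| ≤ (x ^ 2 / L) * |y| := by
      rw [abs_mul]
      exact mul_le_mul h1 h3 (abs_nonneg _) (by positivity)
    refine (abs_add_le _ _).trans ((add_le_add a1 a2).trans ?_)
    have m1 := mul_sq_le x y
    have m2 := mul_sq_le y x
    have e2 : |x| * (y ^ 2 / L) + x ^ 2 / L * |y| = (|x| * y ^ 2 + |y| * x ^ 2) / L := by ring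
    rw [e2]
    exact div_le_div_of_nonneg_right (by linarith) hL.le
  have d1 : |∫ ω, W ω * V ω ∂P - ∫ ω, W1 ω * V1 ω ∂P| ≤ (2 + 4 * b) / L := by
    rw [← integral_sub (hW.mul hV).int (bW1.mul bV1).int]
    have hi : Integrable (fun ω => L⁻¹ * (2 + (2 * W ω ^ 4 + 2 * V ω ^ 4))) P :=
      ((integrable_const _).add (((hW.pow 4).const_mul _).int.add
        ((hV.pow 4).const_mul _).int)).const_mul _
    calc |∫ ω, (W ω * V ω - W1 ω * V1 ω) ∂P| ≤ ∫ ω, |W ω * V ω - W1 ω * V1 ω| ∂P :=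
          abs_integral_le_integral_abs
      _ ≤ ∫ ω, L⁻¹ * (2 + (2 * W ω ^ 4 + 2 * V ω ^ 4)) ∂P := by
          refine integral_mono ((hW.mul hV).int.sub (bW1.mul bV1).int).abs hi fun ω => ?_
          refine (key1 (W ω) (V ω)).trans (le_of_eq ?_)
          rw [div_eq_inv_mul]
          ring
      _ = L⁻¹ * (2 + (2 * ∫ ω, W ω ^ 4 ∂P + 2 * ∫ ω, V ω ^ 4 ∂P)) := by
          rw [integral_const_mul, int_lin3 (hW.pow 4).int (hV.pow 4).int]
      _ ≤ (2 + 4 * b) / L := by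
          rw [div_eq_inv_mul]
          exact mul_le_mul_of_nonneg_left (by linarith) (inv_pos.2 hL).le
  have key2 : ∀ F : Ω → ℝ, BM P F → ∫ ω, F ω ^ 4 ∂P ≤ b →
      |∫ ω, F ω ∂P - ∫ ω, clp L (F ω) ∂P| ≤ (1 + b) / L ∧ |∫ ω, clp L (F ω) ∂P| ≤ 1 + b := by
    intro F hF hFb
    have bF1 : BM P (fun ω => clp L (F ω)) := hF.clp L
    constructor
    · rw [← integral_sub hF.int bF1.int]
      calc |∫ ω, (F ω - clp L (F ω)) ∂P| ≤ ∫ ω, |F ω - clp L (F ω)| ∂P :=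
            abs_integral_le_integral_abs
        _ ≤ ∫ ω, L⁻¹ * (1 + F ω ^ 4) ∂P := by
            refine integral_mono (hF.int.sub bF1.int).abs
              (((integrable_const _).add (hF.pow 4).int).const_mul _) fun ω => ?_
            refine (abs_sub_clp_le hL (F ω)).trans ?_
            rw [div_eq_inv_mul]
            exact mul_le_mul_of_nonneg_left (sq_le_one_add _) (inv_pos.2 hL).le
        _ = L⁻¹ * (1 + ∫ ω, F ω ^ 4 ∂P) := by
            rw [integral_const_mul, integral_add (integrable_const _) (hF.pow 4).int]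
            simp
        _ ≤ (1 + b) / L := by
            rw [div_eq_inv_mul]
            exact mul_le_mul_of_nonneg_left (by linarith) (inv_pos.2 hL).le
    · calc |∫ ω, clp L (F ω) ∂P| ≤ ∫ ω, |clp L (F ω)| ∂P := abs_integral_le_integral_abs
        _ ≤ ∫ ω, (1 + F ω ^ 4) ∂P := integral_mono bF1.abs.int
            ((integrable_const _).add (hF.pow 4).int) fun ω =>
              (abs_clp_le_abs hL.le _).trans (abs_le_one_add _)
        _ = 1 + ∫ ω, F ω ^ 4 ∂P := by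
            rw [integral_add (integrable_const _) (hF.pow 4).int]
            simp
        _ ≤ 1 + b := by linarith
  obtain ⟨kW, kW1⟩ := key2 W hW hb
  obtain ⟨kV, kV1⟩ := key2 V hV hb'
  have iW := abs_int_le hW hb
  have d2 : |(∫ ω, W ω ∂P) * (∫ ω, V ω ∂P) - (∫ ω, W1 ω ∂P) * ∫ ω, V1 ω ∂P| ≤
      2 * (1 + b) ^ 2 / L := by
    have e : (∫ ω, W ω ∂P) * (∫ ω, V ω ∂P) - (∫ ω, W1 ω ∂P) * ∫ ω, V1 ω ∂P =
        (∫ ω, W ω ∂P) * (∫ ω, V ω ∂P - ∫ ω, V1 ω ∂P) +
          (∫ ω, W ω ∂P - ∫ ω, W1 ω ∂P) * ∫ ω, V1 ω ∂P := by ring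
    rw [e]
    refine (abs_add_le _ _).trans ?_
    rw [abs_mul, abs_mul]
    have a1 : |∫ ω, W ω ∂P| * |∫ ω, V ω ∂P - ∫ ω, V1 ω ∂P| ≤ (1 + b) * ((1 + b) / L) :=
      mul_le_mul iW kV (abs_nonneg _) (by linarith)
    have a2 : |∫ ω, W ω ∂P - ∫ ω, W1 ω ∂P| * |∫ ω, V1 ω ∂P| ≤ ((1 + b) / L) * (1 + b) :=
      mul_le_mul kW kV1 (abs_nonneg _) (by positivity)
    refine (add_le_add a1 a2).trans (le_of_eq ?_)
    ring
  have d3 : |cov P W1 V1| ≤ L ^ 2 * ε := by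
    have e : cov P (fun ω => L⁻¹ * clp L (W ω)) (fun ω => L⁻¹ * clp L (V ω)) =
        (L⁻¹) ^ 2 * cov P W1 V1 := by
      unfold cov
      have e1 : ∀ ω, L⁻¹ * clp L (W ω) * (L⁻¹ * clp L (V ω)) = (L⁻¹) ^ 2 * (W1 ω * V1 ω) :=
        fun ω => by simp only [hW1, hV1]; ring
      simp only [e1]
      rw [integral_const_mul, integral_const_mul, integral_const_mul]
      ring
    rw [e, abs_mul, abs_of_nonneg (by positivity : 0 ≤ (L⁻¹) ^ 2)] at hmix
    have h5 : |cov P W1 V1| = L ^ 2 * ((L⁻¹) ^ 2 * |cov P W1 V1|) := by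
      field_simp
    rw [h5]
    exact mul_le_mul_of_nonneg_left hmix (by positivity)
  have e : cov P W V = (∫ ω, W ω * V ω ∂P - ∫ ω, W1 ω * V1 ω ∂P) -
      ((∫ ω, W ω ∂P) * (∫ ω, V ω ∂P) - (∫ ω, W1 ω ∂P) * ∫ ω, V1 ω ∂P) + cov P W1 V1 := by
    unfold cov
    ring
  rw [e]
  refine (abs_add_le _ _).trans ?_
  have h6 := abs_sub (∫ ω, W ω * V ω ∂P - ∫ ω, W1 ω * V1 ω ∂P)
      ((∫ ω, W ω ∂P) * (∫ ω, V ω ∂P) - (∫ ω, W1 ω ∂P) * ∫ ω, V1 ω ∂P)
  have h7 : (2 + 4 * b) / L + 2 * (1 + b) ^ 2 / L ≤ 6 * (1 + b) ^ 2 / L := by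
    rw [← add_div]
    refine div_le_div_of_nonneg_right ?_ hL.le
    nlinarith
  linarith

/-- variance of a sum -/
theorem var_sum {κ : Type*} (s : Finset κ) (W : κ → Ω → ℝ) (hW : ∀ k ∈ s, BM P (W k)) :
    ∫ ω, (∑ k ∈ s, W k ω - ∫ ω', ∑ k ∈ s, W k ω' ∂P) ^ 2 ∂P =
      ∑ k ∈ s, ∑ j ∈ s, cov P (W k) (W j) := by
  have h1 : ∫ ω', ∑ k ∈ s, W k ω' ∂P = ∑ k ∈ s, ∫ ω, W k ω ∂P :=
    integral_finsetSum _ fun k hk => (hW k hk).int
  set a : κ → ℝ := fun k => ∫ ω, W k ω ∂P with ha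
  rw [h1]
  have h2 : ∀ ω, (∑ k ∈ s, W k ω - ∑ k ∈ s, a k) ^ 2 =
      ∑ k ∈ s, ∑ j ∈ s, (W k ω * W j ω - a k * W j ω - a j * W k ω + a k * a j) := by
    intro ω
    rw [← Finset.sum_sub_distrib, sq, Finset.sum_mul_sum]
    refine Finset.sum_congr rfl fun k _ => Finset.sum_congr rfl fun j _ => ?_
    ring
  simp only [h2]
  have hint : ∀ k ∈ s, ∀ j ∈ s,
      Integrable (fun ω => W k ω * W j ω - a k * W j ω - a j * W k ω + a k * a j) P :=
    fun k hk j hj => ((((hW k hk).mul (hW j hj)).int.sub ((hW j hj).const_mul _).int).sub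
      ((hW k hk).const_mul _).int).add (integrable_const _)
  rw [integral_finsetSum _ fun k hk => integrable_finsetSum _ fun j hj => hint k hk j hj]
  refine Finset.sum_congr rfl fun k hk => ?_
  rw [integral_finsetSum _ fun j hj => hint k hk j hj]
  refine Finset.sum_congr rfl fun j hj => ?_
  rw [int_lin4 ((hW k hk).mul (hW j hj)).int (hW j hj).int (hW k hk).int]
  unfold cov
  simp only [ha]
  ring

end cov

end Crest.Agent.R144.Ga5885
end
end

-- ▼ part R144/Ga4_126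
section

/-!
# GA4 : the abstract Stein lemma with an ODE (doc 1596)

`stein`: if `S = ∑ c, X c`, `‖Z‖ ≤ 1` and
(i)  `‖E[Z X_c e^{i r (S - Y_c)}]‖ ≤ e1 c` for `|r| ≤ |t|`,
(ii) `E |X_c| Y_c² ≤ e2 c`,
(iii) `E |∑ X_c Y_c - v| ≤ e3`,
then `‖E[Z e^{itS}] - e^{-t²v/2} E Z‖ ≤ |t| ∑ e1 + |t|³/2 ∑ e2 + t²/2 e3`.
-/

set_option maxHeartbeats 400000

namespace Crest.Agent.R144.Ga4126

open MeasureTheory Set

noncomputable section

/-! ## elementary bounds for `e^{ix}` -/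

/-- `e^{ix}` as a shorthand. -/
def ei (x : ℝ) : ℂ := Complex.exp (Complex.I * (x : ℂ))

theorem ei_zero : ei 0 = 1 := by simp [ei]

theorem norm_ei (x : ℝ) : ‖ei x‖ = 1 := by
  rw [ei, mul_comm]; exact Complex.norm_exp_ofReal_mul_I x

theorem ei_add (x y : ℝ) : ei (x + y) = ei x * ei y := by
  simp only [ei]; rw [← Complex.exp_add]; congr 1; push_cast; ring

theorem ei_continuous : Continuous ei := by
  unfold ei; fun_prop

theorem norm_ei_sub_one_le (x : ℝ) : ‖ei x - 1‖ ≤ |x| := by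
  simpa [ei, Real.norm_eq_abs] using Real.norm_exp_I_mul_ofReal_sub_one_le (x := x)

theorem hasDerivAt_ei (a x : ℝ) :
    HasDerivAt (fun r : ℝ => ei (r * a)) (Complex.I * (a : ℂ) * ei (x * a)) x := by
  unfold ei
  have h1 : HasDerivAt (fun r : ℝ => ((r * a : ℝ) : ℂ)) (a : ℂ) x := by
    have := ((hasDerivAt_id x).mul_const a).ofReal_comp
    simpa using this
  have h2 := (h1.const_mul Complex.I).cexp
  convert h2 using 1
  ring

theorem hp2 (r : ℝ) : HasDerivAt (fun r : ℝ => r ^ 2) (2 * r) r := by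
  simpa using hasDerivAt_pow 2 r

theorem hp3 (r : ℝ) : HasDerivAt (fun r : ℝ => r ^ 3) (3 * r ^ 2) r := by
  simpa using hasDerivAt_pow 3 r

/-- right fencing on `[0, t]` -/
theorem norm_le_of_deriv {f f' : ℝ → ℂ} {B B' : ℝ → ℝ} {t : ℝ} (ht : 0 ≤ t)
    (hf : ∀ r, HasDerivAt f (f' r) r) (hB : ∀ r, HasDerivAt B (B' r) r)
    (h0 : ‖f 0‖ ≤ B 0) (hb : ∀ r, 0 ≤ r → r ≤ t → ‖f' r‖ ≤ B' r) : ‖f t‖ ≤ B t :=
  image_norm_le_of_norm_deriv_right_le_deriv_boundary (a := 0) (b := t)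
    (fun x _ => (hf x).continuousAt.continuousWithinAt)
    (fun x _ => (hf x).hasDerivWithinAt) h0 hB (fun x hx => hb x hx.1 hx.2.le) ⟨ht, le_rfl⟩

theorem norm_ei_sub_one_sub_le (x : ℝ) : ‖ei x - 1 - Complex.I * x‖ ≤ x ^ 2 / 2 := by
  have key : ‖ei ((1 : ℝ) * x) - 1 - ((1 : ℝ) : ℂ) * (Complex.I * x)‖ ≤ (1 : ℝ) ^ 2 * x ^ 2 / 2 := by
    refine norm_le_of_deriv (f := fun r : ℝ => ei (r * x) - 1 - (r : ℂ) * (Complex.I * x))
      (f' := fun r : ℝ => Complex.I * (x : ℂ) * ei (r * x) - Complex.I * x)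
      (B := fun r => r ^ 2 * x ^ 2 / 2) (B' := fun r => r * x ^ 2) zero_le_one
      (fun r => ?_) (fun r => ?_) ?_ (fun r hr _ => ?_)
    · have h1 := (hasDerivAt_ei x r).sub_const 1
      have h2 : HasDerivAt (fun r : ℝ => (r : ℂ) * (Complex.I * x)) (Complex.I * x) r := by
        have := ((hasDerivAt_id r).ofReal_comp).mul_const (Complex.I * (x : ℂ))
        simpa using this
      exact h1.sub h2
    · exact (((hp2 r).mul_const (x ^ 2)).div_const 2).congr_deriv (by ring)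
    · simp [ei_zero]
    · have h1 : Complex.I * (x : ℂ) * ei (r * x) - Complex.I * x
          = Complex.I * (x : ℂ) * (ei (r * x) - 1) := by ring
      rw [h1, norm_mul, norm_mul, Complex.norm_I, one_mul, Complex.norm_real, Real.norm_eq_abs]
      calc |x| * ‖ei (r * x) - 1‖ ≤ |x| * |r * x| :=
            mul_le_mul_of_nonneg_left (norm_ei_sub_one_le _) (abs_nonneg _)
        _ = r * x ^ 2 := by
            rw [abs_mul, abs_of_nonneg hr, ← sq_abs x]; ring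
  simpa using key

/-! ## the ODE lemma -/

theorem ode_nonneg {φ φ' : ℝ → ℂ} {v a b c t : ℝ} (hv : 0 ≤ v) (ht : 0 ≤ t)
    (hd : ∀ r, HasDerivAt φ (φ' r) r)
    (h : ∀ r, 0 ≤ r → r ≤ t → ‖φ' r + ((r * v : ℝ) : ℂ) * φ r‖ ≤ a + b * r ^ 2 + c * r) :
    ‖φ t - (Real.exp (-(t ^ 2 * v / 2)) : ℂ) * φ 0‖ ≤ t * a + t ^ 3 / 3 * b + t ^ 2 / 2 * c := by
  set K : ℝ := Real.exp (t ^ 2 * v / 2) with hK
  have hKpos : 0 < K := Real.exp_pos _
  have key : ‖(Real.exp (t ^ 2 * v / 2) : ℂ) * φ t - φ 0‖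
      ≤ K * (a * t + b * (t ^ 3 / 3) + c * (t ^ 2 / 2)) := by
    refine norm_le_of_deriv
      (f := fun r : ℝ => ((Real.exp (r ^ 2 * v / 2) : ℝ) : ℂ) * φ r - φ 0)
      (f' := fun r : ℝ => ((Real.exp (r ^ 2 * v / 2) * (r * v) : ℝ) : ℂ) * φ r
        + ((Real.exp (r ^ 2 * v / 2) : ℝ) : ℂ) * φ' r)
      (B := fun r => K * (a * r + b * (r ^ 3 / 3) + c * (r ^ 2 / 2)))
      (B' := fun r => K * (a + b * r ^ 2 + c * r)) ht
      (fun r => ?_) (fun r => ?_) ?_ (fun r hr hrt => ?_)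
    · have h1 : HasDerivAt (fun r : ℝ => Real.exp (r ^ 2 * v / 2))
          (Real.exp (r ^ 2 * v / 2) * (r * v)) r := by
        exact ((((hp2 r).mul_const v).div_const 2)).exp.congr_deriv (by ring)
      exact (h1.ofReal_comp.mul (hd r)).sub_const _
    · have h1 := (hasDerivAt_id' r).const_mul a
      have h2 := ((hp3 r).div_const 3).const_mul b
      have h3 := ((hp2 r).div_const 2).const_mul c
      exact (((h1.add h2).add h3).const_mul K).congr_deriv (by ring)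
    · simp
    · have h1 : ((Real.exp (r ^ 2 * v / 2) * (r * v) : ℝ) : ℂ) * φ r
          + ((Real.exp (r ^ 2 * v / 2) : ℝ) : ℂ) * φ' r
          = ((Real.exp (r ^ 2 * v / 2) : ℝ) : ℂ) * (φ' r + ((r * v : ℝ) : ℂ) * φ r) := by
        push_cast; ring
      rw [h1, norm_mul, Complex.norm_real, Real.norm_eq_abs, abs_of_pos (Real.exp_pos _)]
      have h2 : Real.exp (r ^ 2 * v / 2) ≤ K := by
        rw [hK]; apply Real.exp_le_exp.2
        have : r ^ 2 ≤ t ^ 2 := pow_le_pow_left₀ hr hrt 2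
        nlinarith
      exact mul_le_mul h2 (h r hr hrt) (norm_nonneg _) hKpos.le
  have hinv : (Real.exp (-(t ^ 2 * v / 2)) : ℝ) * K = 1 := by
    rw [hK, ← Real.exp_add]; simp
  have e1 : φ t - ((Real.exp (-(t ^ 2 * v / 2)) : ℝ) : ℂ) * φ 0
      = ((Real.exp (-(t ^ 2 * v / 2)) : ℝ) : ℂ)
        * (((Real.exp (t ^ 2 * v / 2) : ℝ) : ℂ) * φ t - φ 0) := by
    rw [mul_sub, ← mul_assoc, ← Complex.ofReal_mul, ← hK, hinv]; simp
  rw [e1, norm_mul, Complex.norm_real, Real.norm_eq_abs, abs_of_pos (Real.exp_pos _)]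
  calc Real.exp (-(t ^ 2 * v / 2)) * ‖((Real.exp (t ^ 2 * v / 2) : ℝ) : ℂ) * φ t - φ 0‖
      ≤ Real.exp (-(t ^ 2 * v / 2)) * (K * (a * t + b * (t ^ 3 / 3) + c * (t ^ 2 / 2))) :=
        mul_le_mul_of_nonneg_left key (Real.exp_pos _).le
    _ = (Real.exp (-(t ^ 2 * v / 2)) * K) * (a * t + b * (t ^ 3 / 3) + c * (t ^ 2 / 2)) := by ring
    _ = t * a + t ^ 3 / 3 * b + t ^ 2 / 2 * c := by rw [hinv]; ring

/-- **ODE lemma**: `φ' = -r v φ + err`. -/
theorem ode {φ φ' : ℝ → ℂ} {v a b c t : ℝ} (hv : 0 ≤ v)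
    (hd : ∀ r, HasDerivAt φ (φ' r) r)
    (h : ∀ r, |r| ≤ |t| → ‖φ' r + ((r * v : ℝ) : ℂ) * φ r‖ ≤ a + b * r ^ 2 + c * |r|) :
    ‖φ t - (Real.exp (-(t ^ 2 * v / 2)) : ℂ) * φ 0‖
      ≤ |t| * a + |t| ^ 3 / 3 * b + t ^ 2 / 2 * c := by
  rcases le_total 0 t with ht | ht
  · rw [abs_of_nonneg ht] at h ⊢
    exact ode_nonneg hv ht hd (fun r hr hrt => by
      have := h r (by rwa [abs_of_nonneg hr]); rwa [abs_of_nonneg hr] at this)
  · have hd' : ∀ r, HasDerivAt (fun r => φ (-r)) (-φ' (-r)) r := fun r => by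
      have := (hd (-r)).scomp r (hasDerivAt_neg r)
      simpa [Function.comp_def] using this
    have := ode_nonneg (φ := fun r => φ (-r)) (φ' := fun r => -φ' (-r)) (v := v) (a := a) (b := b)
      (c := c) (t := -t) hv (by linarith) hd' (fun r hr hrt => by
        have h1 := h (-r) (by rw [abs_neg, abs_of_nonneg hr, abs_of_nonpos ht]; exact hrt)
        rw [abs_neg, abs_of_nonneg hr] at h1
        have h2 : -φ' (-r) + ((r * v : ℝ) : ℂ) * φ (-r)
            = -(φ' (-r) + (((-r) * v : ℝ) : ℂ) * φ (-r)) := by push_cast; ring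
        rw [h2, norm_neg]
        simpa using h1)
    rw [abs_of_nonpos ht]
    simpa using this

/-! ## the Stein lemma -/

variable {Ω ι : Type*} [MeasurableSpace Ω] {P : Measure Ω} [IsProbabilityMeasure P]

omit [IsProbabilityMeasure P] in
theorem aesm_ei {f : Ω → ℝ} (hf : AEStronglyMeasurable f P) :
    AEStronglyMeasurable (fun ω => ei (f ω)) P :=
  ei_continuous.comp_aestronglyMeasurable hf

/-- derivative of the (twisted) characteristic function -/
theorem hasDerivAt_char {Z : Ω → ℂ} {S : Ω → ℝ} (hZm : AEStronglyMeasurable Z P)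
    (hZ : ∀ᵐ ω ∂P, ‖Z ω‖ ≤ 1) (hS : Integrable S P) (r : ℝ) :
    HasDerivAt (fun r : ℝ => ∫ ω, Z ω * ei (r * S ω) ∂P)
      (∫ ω, Complex.I * (Z ω * (S ω : ℂ) * ei (r * S ω)) ∂P) r := by
  have hSm := hS.aestronglyMeasurable
  have hZi : Integrable Z P := Integrable.of_bound hZm 1 hZ
  refine (hasDerivAt_integral_of_dominated_loc_of_deriv_le (μ := P) (s := univ)
    (F := fun (r : ℝ) ω => Z ω * ei (r * S ω))
    (F' := fun (r : ℝ) ω => Complex.I * (Z ω * (S ω : ℂ) * ei (r * S ω)))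
    (bound := fun ω => |S ω|) Filter.univ_mem ?_ ?_ ?_ ?_ hS.abs ?_).2
  · exact Filter.Eventually.of_forall fun r => hZm.mul (aesm_ei (hSm.const_mul r))
  · refine Integrable.of_bound (hZm.mul (aesm_ei (hSm.const_mul r))) 1 ?_
    filter_upwards [hZ] with ω h
    rw [norm_mul, norm_ei, mul_one]; exact h
  · exact ((hZm.mul (Complex.continuous_ofReal.comp_aestronglyMeasurable hSm)).mul
      (aesm_ei (hSm.const_mul r))).const_mul _
  · filter_upwards [hZ] with ω h r _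
    rw [norm_mul, norm_mul, norm_mul, norm_ei, Complex.norm_I, Complex.norm_real,
      Real.norm_eq_abs, one_mul, mul_one]
    calc ‖Z ω‖ * |S ω| ≤ 1 * |S ω| := mul_le_mul_of_nonneg_right h (abs_nonneg _)
      _ = |S ω| := one_mul _
  · refine Filter.Eventually.of_forall fun ω r _ => ?_
    exact ((hasDerivAt_ei (S ω) r).const_mul (Z ω)).congr_deriv (by ring)

/-- pointwise second order expansion of one cell -/
theorem cell_pointwise (Z : ℂ) (hZ : ‖Z‖ ≤ 1) (x y s r : ℝ) :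
    ‖Z * (x : ℂ) * ei (r * s) - Z * (x : ℂ) * ei (r * (s - y))
      - Complex.I * (r : ℂ) * (Z * ((x * y : ℝ) : ℂ) * ei (r * s))‖
      ≤ 3 / 2 * r ^ 2 * (|x| * y ^ 2) := by
  have e0 : ei (r * s) = ei (r * (s - y)) * ei (r * y) := by
    rw [← ei_add]; congr 1; ring
  have e1 : Z * (x : ℂ) * ei (r * s) - Z * (x : ℂ) * ei (r * (s - y))
      - Complex.I * (r : ℂ) * (Z * ((x * y : ℝ) : ℂ) * ei (r * s))
      = Z * (x : ℂ) * ei (r * (s - y)) * (ei (r * y) - 1 - Complex.I * ((r * y : ℝ) : ℂ))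
        - Z * (x : ℂ) * ei (r * (s - y)) * (Complex.I * ((r * y : ℝ) : ℂ)) * (ei (r * y) - 1) := by
    rw [e0]; push_cast; ring
  have n0 : ‖Z * (x : ℂ) * ei (r * (s - y))‖ ≤ |x| := by
    rw [norm_mul, norm_mul, norm_ei, mul_one, Complex.norm_real, Real.norm_eq_abs]
    calc ‖Z‖ * |x| ≤ 1 * |x| := mul_le_mul_of_nonneg_right hZ (abs_nonneg _)
      _ = |x| := one_mul _
  rw [e1]
  refine (norm_sub_le _ _).trans ?_
  have a1 : ‖Z * (x : ℂ) * ei (r * (s - y)) * (ei (r * y) - 1 - Complex.I * ((r * y : ℝ) : ℂ))‖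
      ≤ |x| * ((r * y) ^ 2 / 2) := by
    rw [norm_mul]
    exact mul_le_mul n0 (norm_ei_sub_one_sub_le _) (norm_nonneg _) (abs_nonneg _)
  have a2 : ‖Z * (x : ℂ) * ei (r * (s - y)) * (Complex.I * ((r * y : ℝ) : ℂ)) * (ei (r * y) - 1)‖
      ≤ |x| * |r * y| * |r * y| := by
    rw [norm_mul, norm_mul, norm_mul Complex.I, Complex.norm_I, one_mul, Complex.norm_real,
      Real.norm_eq_abs]
    exact mul_le_mul (mul_le_mul_of_nonneg_right n0 (abs_nonneg _)) (norm_ei_sub_one_le _)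
      (norm_nonneg _) (by positivity)
  have a3 : |x| * |r * y| * |r * y| = |x| * (r * y) ^ 2 := by
    rw [mul_assoc, abs_mul_abs_self]; ring
  rw [a3] at a2
  calc _ ≤ |x| * ((r * y) ^ 2 / 2) + |x| * (r * y) ^ 2 := add_le_add a1 a2
    _ = 3 / 2 * r ^ 2 * (|x| * y ^ 2) := by ring

omit [IsProbabilityMeasure P] in
theorem integrable_mul_of {X Y : Ω → ℝ} (hX : Integrable X P) (hY : AEStronglyMeasurable Y P)
    (h2 : Integrable (fun ω => |X ω| * Y ω ^ 2) P) : Integrable (fun ω => X ω * Y ω) P := by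
  refine Integrable.mono' (hX.abs.add h2) (hX.aestronglyMeasurable.mul hY)
    (Filter.Eventually.of_forall fun ω => ?_)
  rw [Real.norm_eq_abs, abs_mul]
  simp only [Pi.add_apply]
  have h : |Y ω| ≤ 1 + Y ω ^ 2 := by
    rw [← sq_abs]; nlinarith [sq_nonneg (|Y ω| - 1), abs_nonneg (Y ω)]
  calc |X ω| * |Y ω| ≤ |X ω| * (1 + Y ω ^ 2) := mul_le_mul_of_nonneg_left h (abs_nonneg _)
    _ = |X ω| + |X ω| * Y ω ^ 2 := by ring

omit [IsProbabilityMeasure P] in
theorem integrable_twist {Z : Ω → ℂ} {X S : Ω → ℝ} (hZm : AEStronglyMeasurable Z P)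
    (hZ : ∀ᵐ ω ∂P, ‖Z ω‖ ≤ 1) (hX : Integrable X P) (hS : AEStronglyMeasurable S P) :
    Integrable (fun ω => Z ω * (X ω : ℂ) * ei (S ω)) P := by
  refine Integrable.mono' hX.abs
    ((hZm.mul (Complex.continuous_ofReal.comp_aestronglyMeasurable hX.aestronglyMeasurable)).mul
      (aesm_ei hS)) ?_
  filter_upwards [hZ] with ω h
  rw [norm_mul, norm_mul, norm_ei, mul_one, Complex.norm_real, Real.norm_eq_abs]
  calc ‖Z ω‖ * |X ω| ≤ 1 * |X ω| := mul_le_mul_of_nonneg_right h (abs_nonneg _)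
    _ = |X ω| := one_mul _

/-- **GA4, the Stein lemma.** -/
theorem stein {s : Finset ι} {X Y : ι → Ω → ℝ} {Z : Ω → ℂ} {v t : ℝ} {e1 e2 : ι → ℝ} {e3 : ℝ}
    (hZm : AEStronglyMeasurable Z P) (hZ : ∀ᵐ ω ∂P, ‖Z ω‖ ≤ 1)
    (hX : ∀ c ∈ s, Integrable (X c) P) (hY : ∀ c ∈ s, AEStronglyMeasurable (Y c) P)
    (hXY : ∀ c ∈ s, Integrable (fun ω => |X c ω| * Y c ω ^ 2) P) (hv : 0 ≤ v)
    (h1 : ∀ c ∈ s, ∀ r : ℝ, |r| ≤ |t| →
      ‖∫ ω, Z ω * (X c ω : ℂ) * ei (r * (∑ c' ∈ s, X c' ω - Y c ω)) ∂P‖ ≤ e1 c)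
    (h2 : ∀ c ∈ s, ∫ ω, |X c ω| * Y c ω ^ 2 ∂P ≤ e2 c)
    (h3 : ∫ ω, |∑ c ∈ s, X c ω * Y c ω - v| ∂P ≤ e3) :
    ‖(∫ ω, Z ω * ei (t * ∑ c ∈ s, X c ω) ∂P) - (Real.exp (-(t ^ 2 * v / 2)) : ℂ) * ∫ ω, Z ω ∂P‖
      ≤ |t| * ∑ c ∈ s, e1 c + |t| ^ 3 / 2 * ∑ c ∈ s, e2 c + t ^ 2 / 2 * e3 := by
  set S : Ω → ℝ := fun ω => ∑ c ∈ s, X c ω with hSdef
  have hS : Integrable S P := integrable_finsetSum _ hX
  have hSm := hS.aestronglyMeasurable
  have hXYi : ∀ c ∈ s, Integrable (fun ω => X c ω * Y c ω) P := fun c hc =>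
    integrable_mul_of (hX c hc) (hY c hc) (hXY c hc)
  have hQi : Integrable (fun ω => ∑ c ∈ s, X c ω * Y c ω) P := integrable_finsetSum _ hXYi
  have hd := fun r => hasDerivAt_char hZm hZ hS r
  have main := ode (φ := fun r : ℝ => ∫ ω, Z ω * ei (r * S ω) ∂P)
    (φ' := fun r : ℝ => ∫ ω, Complex.I * (Z ω * (S ω : ℂ) * ei (r * S ω)) ∂P)
    (v := v) (a := ∑ c ∈ s, e1 c) (b := 3 / 2 * ∑ c ∈ s, e2 c) (c := e3) (t := t) hv hd ?_
  · have e0 : (fun ω => Z ω * ei (0 * S ω)) = Z := by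
      funext ω; rw [zero_mul, ei_zero, mul_one]
    simp only [e0] at main
    refine main.trans (le_of_eq ?_)
    ring
  · intro r hr
    -- the cells
    have cell : ∀ c ∈ s, ‖(∫ ω, Z ω * (X c ω : ℂ) * ei (r * S ω) ∂P)
        - Complex.I * (r : ℂ) * ∫ ω, Z ω * ((X c ω * Y c ω : ℝ) : ℂ) * ei (r * S ω) ∂P‖
        ≤ e1 c + 3 / 2 * r ^ 2 * e2 c := by
      intro c hc
      have i1 : Integrable (fun ω => Z ω * (X c ω : ℂ) * ei (r * S ω)) P :=
        integrable_twist hZm hZ (hX c hc) (hSm.const_mul r)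
      have i2 : Integrable (fun ω => Z ω * (X c ω : ℂ) * ei (r * (S ω - Y c ω))) P :=
        integrable_twist hZm hZ (hX c hc) ((hSm.sub (hY c hc)).const_mul r)
      have i3 : Integrable (fun ω => Z ω * ((X c ω * Y c ω : ℝ) : ℂ) * ei (r * S ω)) P :=
        integrable_twist (X := fun ω => X c ω * Y c ω) hZm hZ (hXYi c hc) (hSm.const_mul r)
      have e : (∫ ω, Z ω * (X c ω : ℂ) * ei (r * S ω) ∂P)
          - Complex.I * (r : ℂ) * ∫ ω, Z ω * ((X c ω * Y c ω : ℝ) : ℂ) * ei (r * S ω) ∂P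
          = (∫ ω, Z ω * (X c ω : ℂ) * ei (r * (S ω - Y c ω)) ∂P)
            + ∫ ω, (Z ω * (X c ω : ℂ) * ei (r * S ω) - Z ω * (X c ω : ℂ) * ei (r * (S ω - Y c ω))
              - Complex.I * (r : ℂ) * (Z ω * ((X c ω * Y c ω : ℝ) : ℂ) * ei (r * S ω))) ∂P := by
        have j1 := integral_sub (i1.sub i2) (i3.const_mul (Complex.I * (r : ℂ)))
        have j2 := integral_sub i1 i2
        have j3 := integral_const_mul (μ := P) (Complex.I * (r : ℂ))
          (fun ω => Z ω * ((X c ω * Y c ω : ℝ) : ℂ) * ei (r * S ω))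
        simp only [Pi.sub_apply] at j1
        rw [j1, j2, j3]
        ring
      rw [e]
      refine (norm_add_le _ _).trans (add_le_add (h1 c hc r hr) ?_)
      calc _ ≤ ∫ ω, 3 / 2 * r ^ 2 * (|X c ω| * Y c ω ^ 2) ∂P := by
            refine norm_integral_le_of_norm_le ((hXY c hc).const_mul _) ?_
            filter_upwards [hZ] with ω h
            exact cell_pointwise (Z ω) h (X c ω) (Y c ω) (S ω) r
        _ = 3 / 2 * r ^ 2 * ∫ ω, |X c ω| * Y c ω ^ 2 ∂P := integral_const_mul _ _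
        _ ≤ 3 / 2 * r ^ 2 * e2 c := mul_le_mul_of_nonneg_left (h2 c hc) (by positivity)
    -- sum over the cells
    have hZS : Integrable (fun ω => Z ω * ei (r * S ω)) P := by
      refine Integrable.of_bound (hZm.mul (aesm_ei (hSm.const_mul r))) 1 ?_
      filter_upwards [hZ] with ω h
      rw [norm_mul, norm_ei, mul_one]; exact h
    have sum1 : (∫ ω, Complex.I * (Z ω * (S ω : ℂ) * ei (r * S ω)) ∂P)
        = Complex.I * ∑ c ∈ s, ∫ ω, Z ω * (X c ω : ℂ) * ei (r * S ω) ∂P := by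
      rw [integral_const_mul, ← integral_finsetSum _ (fun c hc =>
        integrable_twist hZm hZ (hX c hc) (hSm.const_mul r))]
      congr 1
      refine integral_congr_ae (Filter.Eventually.of_forall fun ω => ?_)
      simp only [hSdef]
      push_cast
      rw [Finset.mul_sum, Finset.sum_mul]
    have sum2 : ∑ c ∈ s, ∫ ω, Z ω * ((X c ω * Y c ω : ℝ) : ℂ) * ei (r * S ω) ∂P
        = (v : ℂ) * (∫ ω, Z ω * ei (r * S ω) ∂P)
          + ∫ ω, Z ω * ((∑ c ∈ s, X c ω * Y c ω - v : ℝ) : ℂ) * ei (r * S ω) ∂P := by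
      rw [← integral_finsetSum _ (fun c hc =>
        integrable_twist (X := fun ω => X c ω * Y c ω) hZm hZ (hXYi c hc) (hSm.const_mul r)),
        ← integral_const_mul, ← integral_add (hZS.const_mul _)
          (integrable_twist (X := fun ω => ∑ c ∈ s, X c ω * Y c ω - v) hZm hZ
            (hQi.sub (integrable_const v)) (hSm.const_mul r))]
      refine integral_congr_ae (Filter.Eventually.of_forall fun ω => ?_)
      simp only
      push_cast
      rw [← Finset.sum_mul, ← Finset.mul_sum]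
      ring
    have hR : ‖∫ ω, Z ω * ((∑ c ∈ s, X c ω * Y c ω - v : ℝ) : ℂ) * ei (r * S ω) ∂P‖ ≤ e3 := by
      refine le_trans ?_ h3
      refine norm_integral_le_of_norm_le (hQi.sub (integrable_const v)).abs ?_
      filter_upwards [hZ] with ω h
      rw [norm_mul, norm_mul, norm_ei, mul_one, Complex.norm_real, Real.norm_eq_abs]
      calc ‖Z ω‖ * |∑ c ∈ s, X c ω * Y c ω - v| ≤ 1 * |∑ c ∈ s, X c ω * Y c ω - v| :=
            mul_le_mul_of_nonneg_right h (abs_nonneg _)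
        _ = _ := one_mul _
    have final : (∫ ω, Complex.I * (Z ω * (S ω : ℂ) * ei (r * S ω)) ∂P)
        + ((r * v : ℝ) : ℂ) * ∫ ω, Z ω * ei (r * S ω) ∂P
        = Complex.I * ∑ c ∈ s, ((∫ ω, Z ω * (X c ω : ℂ) * ei (r * S ω) ∂P)
          - Complex.I * (r : ℂ) * ∫ ω, Z ω * ((X c ω * Y c ω : ℝ) : ℂ) * ei (r * S ω) ∂P)
          - (r : ℂ) * ∫ ω, Z ω * ((∑ c ∈ s, X c ω * Y c ω - v : ℝ) : ℂ) * ei (r * S ω) ∂P := by
      rw [sum1, Finset.sum_sub_distrib, ← Finset.mul_sum, sum2]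
      push_cast
      linear_combination (r : ℂ) * (v * (∫ ω, Z ω * ei (r * S ω) ∂P)
        + ∫ ω, Z ω * ((∑ c ∈ s, (X c ω : ℂ) * Y c ω - v)) * ei (r * S ω) ∂P) * Complex.I_sq
    simp only [final]
    refine (norm_sub_le _ _).trans ?_
    have b1 : ‖Complex.I * ∑ c ∈ s, ((∫ ω, Z ω * (X c ω : ℂ) * ei (r * S ω) ∂P)
          - Complex.I * (r : ℂ) * ∫ ω, Z ω * ((X c ω * Y c ω : ℝ) : ℂ) * ei (r * S ω) ∂P)‖
        ≤ ∑ c ∈ s, e1 c + 3 / 2 * (∑ c ∈ s, e2 c) * r ^ 2 := by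
      rw [norm_mul, Complex.norm_I, one_mul]
      refine (norm_sum_le _ _).trans ((Finset.sum_le_sum cell).trans (le_of_eq ?_))
      rw [Finset.sum_add_distrib, ← Finset.mul_sum]; ring
    have b2 : ‖(r : ℂ) * ∫ ω, Z ω * ((∑ c ∈ s, X c ω * Y c ω - v : ℝ) : ℂ) * ei (r * S ω) ∂P‖
        ≤ e3 * |r| := by
      rw [norm_mul, Complex.norm_real, Real.norm_eq_abs, mul_comm]
      exact mul_le_mul_of_nonneg_right hR (abs_nonneg _)
    exact add_le_add b1 b2


end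

end Crest.Agent.R144.Ga4126
end

-- ▼ part R144/Ga5c_885

/-!
# R144, leaf GA5 of doc 1596 (helper885), part c: conditional Gaussianity from the closed contour Ward identity

Abstract form. `P n` = laws, `X n φ` = the lattice functional `h (-Δ_lattice φ)` at scale `n`,
`𝓕 n U` = σ-algebra of the gradients over `U`. Hypotheses `Mdl` (linearity, locality, second moments,
8th moments, mixing) and `CCW` (closed contour Ward identity). Conclusion `gauss`: for `tsupport φ ⊆ U`, `U` open,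
`sup_Z |E[Z e^{itX}] - e^{-t²v/2} E Z| → 0` over `Z` measurable for `𝓕 n Uᶜ`, `|Z| ≤ 1`.
-/

set_option autoImplicit false

open MeasureTheory Metric Set Filter Topology Laplacian

noncomputable section

namespace Crest.Agent.R144.Ga5885

open Crest.Agent.R144.Ga4126 (ei)

/-- Dirichlet energy in Laplacian form -/
def en (u : ℂ → ℝ) : ℝ := ∫ z, u z * (-(Δ u) z)

/-- scale-indexed family of laws with linear functionals of the field (see the module docstring) -/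
structure Mdl {Ω ι : Type*} [m0 : MeasurableSpace Ω] (l : Filter ι) (P : ι → Measure Ω)
    (X : ι → (ℂ → ℝ) → Ω → ℝ) (𝓕 : ι → Set ℂ → MeasurableSpace Ω) (κ : ℝ) : Prop where
  kpos : 0 ≤ κ
  prob : ∀ n, IsProbabilityMeasure (P n)
  le : ∀ n U, 𝓕 n U ≤ m0
  mono : ∀ n U V, U ⊆ V → 𝓕 n U ≤ 𝓕 n V
  add : ∀ n u v, Tst u → Tst v → ∀ ω, X n (fun z => u z + v z) ω = X n u ω + X n v ω
  meas : ∀ n u, Tst u → Measurable (X n u)
  bdd : ∀ n u, Tst u → ∃ B : ℝ, ∀ᵐ ω ∂P n, |X n u ω| ≤ B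
  loc : ∀ u c r r', Tst u → r < r' → tsupport u ⊆ closedBall c r →
    ∀ᶠ n in l, Measurable[𝓕 n (ball c r')] (X n u)
  coloc : ∀ u c r r', Tst u → r < r' →
    (∃ (a : ℝ) (L : ℂ →L[ℝ] ℝ), ∀ z ∈ ball c r', u z = a + L z) →
    ∀ᶠ n in l, Measurable[𝓕 n (ball c r)ᶜ] (X n u)
  var : ∀ u v, Tst u → Tst v →
    Tendsto (fun n => ∫ ω, X n u ω * X n v ω ∂P n) l (𝓝 (κ * ∫ z, u z * (-(Δ v) z)))
  mom : ∃ M : ℝ, 0 ≤ M ∧ ∀ u, Tst u → ∀ m : ℝ, 0 < m → κ * en u < m ^ 2 → ∫ z, |(Δ u) z| < m →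
    ∀ᶠ n in l, ∫ ω, (X n u ω) ^ 8 ∂P n ≤ M * m ^ 8
  mix : ∀ ε : ℝ, 0 < ε → ∃ R : ℝ, 1 ≤ R ∧ ∀ (c : ℂ) (r : ℝ), 0 < r → ∀ᶠ n in l,
    ∀ F G : Ω → ℝ, Measurable[𝓕 n (ball c r)] F → Measurable[𝓕 n (ball c (R * r))ᶜ] G →
      (∀ ω, |F ω| ≤ 1) → (∀ ω, |G ω| ≤ 1) → |cov (P n) F G| ≤ ε

/-- closed contour Ward identity -/
def CCW {Ω ι : Type*} [MeasurableSpace Ω] (l : Filter ι) (P : ι → Measure Ω)
    (X : ι → (ℂ → ℝ) → Ω → ℝ) (𝓕 : ι → Set ℂ → MeasurableSpace Ω) : Prop :=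
  ∀ u c r r', Tst u → 0 < r → r < r' → tsupport u ⊆ closedBall c r → ∀ ε : ℝ, 0 < ε →
    ∀ᶠ n in l, ∀ Z : Ω → ℂ, Measurable[𝓕 n (ball c r')ᶜ] Z → (∀ ω, ‖Z ω‖ ≤ 1) →
      ‖∫ ω, Z ω * (X n u ω : ℂ) ∂P n‖ ≤ ε

/-- number of near cells -/
theorem card_near (s : Finset (ℤ × ℤ)) (k : ℤ × ℤ) (N : ℕ) :
    ((s.filter fun j => |k.1 - j.1| ≤ (N : ℤ) ∧ |k.2 - j.2| ≤ (N : ℤ)).card : ℝ) ≤
      (2 * N + 1) ^ 2 := by
  classical
  have h1 : (s.filter fun j => |k.1 - j.1| ≤ (N : ℤ) ∧ |k.2 - j.2| ≤ (N : ℤ)) ⊆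
      Finset.Icc (k.1 - N) (k.1 + N) ×ˢ Finset.Icc (k.2 - N) (k.2 + N) := by
    intro j hj
    obtain ⟨-, a, b⟩ := Finset.mem_filter.1 hj
    rw [abs_le] at a b
    rw [Finset.mem_product, Finset.mem_Icc, Finset.mem_Icc]
    omega
  have h2 := Finset.card_le_card h1
  rw [Finset.card_product, Int.card_Icc, Int.card_Icc] at h2
  have e1 : (k.1 + N + 1 - (k.1 - N)).toNat = 2 * N + 1 := by omega
  have e2 : (k.2 + N + 1 - (k.2 - N)).toNat = 2 * N + 1 := by omega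
  rw [e1, e2] at h2
  have h3 : ((s.filter fun j => |k.1 - j.1| ≤ (N : ℤ) ∧ |k.2 - j.2| ≤ (N : ℤ)).card : ℝ) ≤
      (((2 * N + 1) * (2 * N + 1) : ℕ) : ℝ) := by exact_mod_cast h2
  refine h3.trans (le_of_eq ?_)
  push_cast
  ring

theorem dist_ctr_ge {η : ℝ} (hη : 0 < η) {k j : ℤ × ℤ} {N : ℕ}
    (h : ¬ (|k.1 - j.1| ≤ (N : ℤ) ∧ |k.2 - j.2| ≤ (N : ℤ))) : (N : ℝ) * η ≤ dist (ctr η k) (ctr η j) := by
  rw [dist_eq_norm]
  have hr : (ctr η k - ctr η j).re = η * ((k.1 - j.1 : ℤ) : ℝ) := by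
    simp [ctr]
    ring
  have hi : (ctr η k - ctr η j).im = η * ((k.2 - j.2 : ℤ) : ℝ) := by
    simp [ctr]
    ring
  have key : ∀ a : ℤ, (N : ℤ) < |a| → (N : ℝ) * η ≤ |η * (a : ℝ)| := by
    intro a ha
    rw [abs_mul, abs_of_pos hη, mul_comm]
    refine mul_le_mul_of_nonneg_left ?_ hη.le
    have : ((N : ℤ) : ℝ) ≤ ((|a| : ℤ) : ℝ) := by exact_mod_cast ha.le
    rw [Int.cast_abs] at this
    simpa using this
  by_cases h1 : |k.1 - j.1| ≤ (N : ℤ)
  · have h2 : (N : ℤ) < |k.2 - j.2| := by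
      by_contra hc
      exact h ⟨h1, not_lt.1 hc⟩
    have := Complex.abs_im_le_norm (ctr η k - ctr η j)
    rw [hi] at this
    exact (key _ h2).trans this
  · have := Complex.abs_re_le_norm (ctr η k - ctr η j)
    rw [hr] at this
    exact (key _ (not_le.1 h1)).trans this

/-- counting bound of a double sum over near and far pairs -/
theorem sum_pairs (s : Finset (ℤ × ℤ)) (N : ℕ) (F : ℤ × ℤ → ℤ × ℤ → ℝ) {A B : ℝ} (hA : 0 ≤ A)
    (hB : 0 ≤ B) (h1 : ∀ k ∈ s, ∀ j ∈ s, F k j ≤ A)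
    (h2 : ∀ k ∈ s, ∀ j ∈ s, ¬ (|k.1 - j.1| ≤ (N : ℤ) ∧ |k.2 - j.2| ≤ (N : ℤ)) → F k j ≤ B) :
    ∑ k ∈ s, ∑ j ∈ s, F k j ≤ s.card * ((2 * N + 1) ^ 2 * A) + (s.card : ℝ) ^ 2 * B := by
  classical
  have key : ∀ k ∈ s, ∑ j ∈ s, F k j ≤ (2 * N + 1) ^ 2 * A + s.card * B := by
    intro k hk
    rw [← Finset.sum_filter_add_sum_filter_not s
      (fun j => |k.1 - j.1| ≤ (N : ℤ) ∧ |k.2 - j.2| ≤ (N : ℤ))]
    refine add_le_add ?_ ?_
    · refine (Finset.sum_le_card_nsmul _ _ A fun j hj => h1 k hk j (Finset.mem_filter.1 hj).1).trans ?_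
      rw [nsmul_eq_mul]
      exact mul_le_mul_of_nonneg_right (card_near s k N) hA
    · refine (Finset.sum_le_card_nsmul _ _ B fun j hj =>
        h2 k hk j (Finset.mem_filter.1 hj).1 (Finset.mem_filter.1 hj).2).trans ?_
      rw [nsmul_eq_mul]
      refine mul_le_mul_of_nonneg_right ?_ hB
      exact_mod_cast Finset.card_le_card (Finset.filter_subset _ _)
  refine (Finset.sum_le_card_nsmul _ _ _ key).trans (le_of_eq ?_)
  rw [nsmul_eq_mul]
  ring

section main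

variable {Ω ι : Type*} [m0 : MeasurableSpace Ω] {l : Filter ι} {P : ι → Measure Ω}
  {X : ι → (ℂ → ℝ) → Ω → ℝ} {𝓕 : ι → Set ℂ → MeasurableSpace Ω} {κ : ℝ}

theorem Tst.add {u v : ℂ → ℝ} (hu : Tst u) (hv : Tst v) : Tst (fun z => u z + v z) :=
  ⟨hu.1.add hv.1, hu.2.add hv.2⟩

theorem Tst.zero : Tst (fun _ => (0 : ℝ)) := ⟨contDiff_const, HasCompactSupport.zero⟩

theorem Tst.sub {u v : ℂ → ℝ} (hu : Tst u) (hv : Tst v) : Tst (fun z => u z - v z) := by
  refine ⟨hu.1.sub hv.1, ?_⟩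
  have h : HasCompactSupport (fun z => u z + (-1) * v z) := hu.2.add (hv.2.mul_left)
  have e : (fun z => u z - v z) = fun z => u z + (-1) * v z := by
    funext z
    ring
  rw [e]
  exact h

theorem Tst.sum {s : Finset (ℤ × ℤ)} {f : ℤ × ℤ → ℂ → ℝ} (hf : ∀ k, Tst (f k)) :
    Tst (fun z => ∑ k ∈ s, f k z) := by
  classical
  induction s using Finset.induction_on with
  | empty => simpa using Tst.zero
  | insert a s ha ih =>
    simp only [Finset.sum_insert ha]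
    exact (hf a).add ih

namespace Mdl

theorem X_zero (hM : Mdl l P X 𝓕 κ) (n : ι) (ω : Ω) : X n (fun _ => 0) ω = 0 := by
  have := hM.add n _ _ Tst.zero Tst.zero ω
  simp only [add_zero] at this
  linarith

theorem X_sum (hM : Mdl l P X 𝓕 κ) (n : ι) (s : Finset (ℤ × ℤ)) {f : ℤ × ℤ → ℂ → ℝ}
    (hf : ∀ k, Tst (f k)) (ω : Ω) : X n (fun z => ∑ k ∈ s, f k z) ω = ∑ k ∈ s, X n (f k) ω := by
  classical
  induction s using Finset.induction_on with
  | empty => simpa using hM.X_zero n ω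
  | insert a s ha ih =>
    simp only [Finset.sum_insert ha]
    rw [hM.add n _ _ (hf a) (Tst.sum hf), ih]

theorem X_sub (hM : Mdl l P X 𝓕 κ) (n : ι) {u v : ℂ → ℝ} (hu : Tst u) (hv : Tst v) (ω : Ω) :
    X n (fun z => u z - v z) ω = X n u ω - X n v ω := by
  have := hM.add n _ _ (hu.sub hv) hv ω
  simp only [sub_add_cancel] at this
  linarith

theorem bm (hM : Mdl l P X 𝓕 κ) (n : ι) {u : ℂ → ℝ} (hu : Tst u) : BM (P n) (X n u) :=
  ⟨(hM.meas n u hu).aestronglyMeasurable, hM.bdd n u hu⟩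

end Mdl

/-- fourth moment of a normalised product -/
theorem fourth {Q : Measure Ω} [IsProbabilityMeasure Q] {F G : Ω → ℝ} (hF : BM Q F) (hG : BM Q G)
    {a b : ℝ} (ha : 0 < a) (h1 : ∫ ω, F ω ^ 8 ∂Q ≤ b) (h2 : ∫ ω, G ω ^ 8 ∂Q ≤ b * a ^ 8) :
    ∫ ω, (a⁻¹ * (F ω * G ω)) ^ 4 ∂Q ≤ b := by
  have h3 : ∫ ω, (a⁻¹ * (F ω * G ω)) ^ 4 ∂Q ≤
      ∫ ω, (0 + ((1 / 2) * F ω ^ 8 + (1 / 2 * (a⁻¹) ^ 8) * G ω ^ 8)) ∂Q := by
    refine integral_mono (((hF.mul hG).const_mul _).pow 4).int ((integrable_const _).add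
      (((hF.pow 8).const_mul _).int.add ((hG.pow 8).const_mul _).int)) fun ω => ?_
    simp only
    have e1 : (a⁻¹ * (F ω * G ω)) ^ 4 = F ω ^ 4 * ((a⁻¹) ^ 4 * G ω ^ 4) := by ring
    have e2 : (1 / 2 * (a⁻¹) ^ 8) * G ω ^ 8 = 1 / 2 * ((a⁻¹) ^ 4 * G ω ^ 4) ^ 2 := by ring
    have e3 : F ω ^ 8 = (F ω ^ 4) ^ 2 := by ring
    rw [e1, e2, e3]
    nlinarith [sq_nonneg (F ω ^ 4 - (a⁻¹) ^ 4 * G ω ^ 4)]
  refine h3.trans ?_
  rw [int_lin3 (hF.pow 8).int (hG.pow 8).int]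
  have h4 : 1 / 2 * (a⁻¹) ^ 8 * ∫ ω, G ω ^ 8 ∂Q ≤ 1 / 2 * (a⁻¹) ^ 8 * (b * a ^ 8) :=
    mul_le_mul_of_nonneg_left h2 (by positivity)
  have h5 : 1 / 2 * (a⁻¹) ^ 8 * (b * a ^ 8) = 1 / 2 * b := by
    field_simp
  linarith

theorem third {Q : Measure Ω} [IsProbabilityMeasure Q] {F G : Ω → ℝ} (hF : BM Q F) (hG : BM Q G)
    {a b : ℝ} (ha : 0 < a) (h1 : ∫ ω, F ω ^ 8 ∂Q ≤ b) (h2 : ∫ ω, G ω ^ 8 ∂Q ≤ b * a ^ 8) :
    ∫ ω, |F ω| * G ω ^ 2 ∂Q ≤ a ^ 2 * (3 + 2 * b) := by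
  have h3 : ∫ ω, |F ω| * G ω ^ 2 ∂Q ≤
      ∫ ω, (3 * a ^ 2 + (a ^ 2 * F ω ^ 8 + (a ^ 2 * (a⁻¹) ^ 8) * G ω ^ 8)) ∂Q := by
    refine integral_mono (hF.abs.mul (hG.pow 2)).int ((integrable_const _).add
      (((hF.pow 8).const_mul _).int.add ((hG.pow 8).const_mul _).int)) fun ω => ?_
    simp only
    have e1 : |F ω| * G ω ^ 2 = a ^ 2 * (|F ω| * (a⁻¹ * G ω) ^ 2) := by
      field_simp
    have e2 : 3 * a ^ 2 + (a ^ 2 * F ω ^ 8 + (a ^ 2 * (a⁻¹) ^ 8) * G ω ^ 8) =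
        a ^ 2 * (3 + F ω ^ 8 + (a⁻¹ * G ω) ^ 8) := by ring
    rw [e1, e2]
    refine mul_le_mul_of_nonneg_left ?_ (by positivity)
    have m := mul_sq_le (F ω) (a⁻¹ * G ω)
    have q1 : ∀ x : ℝ, x ^ 4 ≤ 1 + x ^ 8 := fun x => by
      nlinarith [sq_nonneg (x ^ 4 - 1), (by positivity : (0 : ℝ) ≤ x ^ 4)]
    linarith [q1 (F ω), q1 (a⁻¹ * G ω)]
  refine h3.trans ?_
  rw [int_lin3 (hF.pow 8).int (hG.pow 8).int]
  have h4 : a ^ 2 * (a⁻¹) ^ 8 * ∫ ω, G ω ^ 8 ∂Q ≤ a ^ 2 * (a⁻¹) ^ 8 * (b * a ^ 8) :=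
    mul_le_mul_of_nonneg_left h2 (by positivity)
  have h5 : a ^ 2 * (a⁻¹) ^ 8 * (b * a ^ 8) = a ^ 2 * b := by
    field_simp
  have h6 : a ^ 2 * ∫ ω, F ω ^ 8 ∂Q ≤ a ^ 2 * b := mul_le_mul_of_nonneg_left h1 (by positivity)
  linarith

/-- `L¹` from variance -/
theorem abs_dev {Q : Measure Ω} [IsProbabilityMeasure Q] {F : Ω → ℝ} (hF : BM Q F) {v d : ℝ}
    (hd : 0 ≤ d) (h1 : ∫ ω, (F ω - ∫ ω', F ω' ∂Q) ^ 2 ∂Q ≤ d ^ 2) (h2 : |∫ ω, F ω ∂Q - v| ≤ d) :
    ∫ ω, |F ω - v| ∂Q ≤ 2 * d := by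
  rcases hd.eq_or_lt with rfl | hd'
  · set m := ∫ ω', F ω' ∂Q with hm
    have hi : Integrable (fun ω => (F ω - m) ^ 2) Q := by
      have e : (fun ω => (F ω - m) ^ 2) = fun ω => F ω ^ 2 - 2 * m * F ω - 0 * F ω + m ^ 2 := by
        funext ω; ring
      rw [e]
      exact (((hF.pow 2).int.sub (hF.const_mul _).int).sub (hF.const_mul _).int).add
        (integrable_const _)
    have h3 : ∫ ω, (F ω - m) ^ 2 ∂Q = 0 :=
      le_antisymm (by simpa using h1) (integral_nonneg fun ω => sq_nonneg _)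
    have h4 := (integral_eq_zero_iff_of_nonneg (fun ω => sq_nonneg _) hi).1 h3
    have h5 : m = v := by
      have := abs_nonpos_iff.1 h2
      linarith
    have h6 : ∫ ω, |F ω - v| ∂Q = 0 := by
      rw [← h5]
      refine integral_eq_zero_of_ae ?_
      filter_upwards [h4] with ω hω
      have : F ω - m = 0 := by
        have h7 : (F ω - m) ^ 2 = 0 := hω
        exact pow_eq_zero_iff (by norm_num) |>.1 h7
      simp [this]
    rw [h6]
    norm_num
  · set m := ∫ ω', F ω' ∂Q with hm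
    have hi : Integrable (fun ω => (F ω - m) ^ 2) Q := by
      have e : (fun ω => (F ω - m) ^ 2) = fun ω => F ω ^ 2 - 2 * m * F ω - 0 * F ω + m ^ 2 := by
        funext ω; ring
      rw [e]
      exact (((hF.pow 2).int.sub (hF.const_mul _).int).sub (hF.const_mul _).int).add
        (integrable_const _)
    have h3 : ∀ ω, |F ω - v| ≤ (2 * d)⁻¹ * (F ω - m) ^ 2 + (d / 2 + d) := by
      intro ω
      have h4 : |F ω - v| ≤ |F ω - m| + |m - v| := by
        have := abs_add_le (F ω - m) (m - v)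
        rwa [sub_add_sub_cancel] at this
      have h5 : |F ω - m| ≤ (2 * d)⁻¹ * (F ω - m) ^ 2 + d / 2 := by
        rw [← sq_abs (F ω - m)]
        have h6 : 0 ≤ (2 * d)⁻¹ * (|F ω - m| - d) ^ 2 := by positivity
        have h7 : (2 * d)⁻¹ * (|F ω - m| - d) ^ 2 =
            (2 * d)⁻¹ * |F ω - m| ^ 2 - |F ω - m| + d / 2 := by
          field_simp
          ring
        linarith
      linarith
    calc ∫ ω, |F ω - v| ∂Q ≤ ∫ ω, ((2 * d)⁻¹ * (F ω - m) ^ 2 + (d / 2 + d)) ∂Q := by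
          refine integral_mono (hF.int.sub (integrable_const _)).abs
            ((hi.const_mul _).add (integrable_const _)) h3
      _ = (2 * d)⁻¹ * ∫ ω, (F ω - m) ^ 2 ∂Q + (d / 2 + d) := by
          rw [integral_add (hi.const_mul _) (integrable_const _), integral_const_mul]
          simp
      _ ≤ (2 * d)⁻¹ * d ^ 2 + (d / 2 + d) := by
          have := mul_le_mul_of_nonneg_left h1 (by positivity : (0 : ℝ) ≤ (2 * d)⁻¹)
          linarith
      _ = 2 * d := by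
          field_simp
          ring

end main

end Crest.Agent.R144.Ga5885
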