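import Crest.Agent.R144.Zo5_349
import Crest.Agent.R144.Pst11_967
import Crest.Agent.R144.Pos2_561
import Crest.Agent.R144.Tp6_952

-- ▼ part R144/Zo6_349
section

/-!
# R144: the zero boundary law satisfies helper967's interface `ZL` (helper349)
-/

set_option autoImplicit false

noncomputable section

namespace Crest.Agent.R144.Zo349

open Finset
open Crest.Agent.R144.It844 (P2 Lip Cst adj_iff adj_symm lip_iff upT mem_upT lip_const)
open Crest.Agent.R144.Zg349 Crest.Agent.R144.Zk349 Crest.Agent.R144.Zd349 Crest.Agent.R144.Zm349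
open Crest.Agent.R144.Ze349 Crest.Agent.R144.Zs349 Crest.Agent.R144.Zf349
open Crest.Agent.R144.Pst967 (ZL scs mem_scs MLay c1 c2 DepW)
open Crest.ProbabilityR.HexHeights (Adj)

/-- if all neighbours of the triangles of `B` are in `Λ`, all sites of `B` are in `Λ` -/
theorem vf_sub_of_adj {Λ B : Finset P2} (hΛ : Λ ∈ scs) (h : ∀ t ∈ B, ∀ t', Adj t t' → t' ∈ Λ) :
    VF B ⊆ Λ := by
  intro v hv
  obtain ⟨t, ht, hvt⟩ := mem_VF.1 hv
  have hb : t ∈ Λ := by
    by_contra hb
    obtain ⟨w, hw⟩ := Infinite.exists_notMem_finset (insert t Λ)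
    rw [Finset.mem_insert, not_or] at hw
    have hp := (mem_scs.1 hΛ) t (by simpa using hb) w (by simpa using hw.2)
    rcases Relation.ReflTransGen.cases_head hp with h1 | ⟨c, h1, _⟩
    · exact hw.1 h1.symm
    · have h2 : c ∉ Λ := by simpa using h1.2.1
      exact h2 (h t ht c h1.2.2)
  by_cases hvt' : v = t
  · rw [hvt']; exact hb
  · exact h t ht v (by
      obtain ⟨a, b⟩ := t
      rcases mem_up.1 hvt with rfl | rfl | rfl
      · exact absurd rfl hvt'
      · exact It844.adj_e1 _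
      · exact It844.adj_e2 _)

/-- **The zero boundary law satisfies `ZL`.** -/
theorem zl {c x : ℝ} (hc : 1 ≤ c) (hcx : c * x ^ 2 = 1) {Λ : Finset P2} (hΛ : Λ ∈ scs) :
    ZL c x Λ (E0 c Λ fun _ => 0) := by
  have hl : Lip (fun _ : P2 => (0 : ℤ)) := lip_const 0
  have hΛ' : IsConn ((Λ : Set P2)ᶜ) := mem_scs.1 hΛ
  refine ⟨fun f g => E0_add f g, fun a f => E0_smul a f, fun f hf => ?_, E0_const hc hl 1,
    fun f => E0_height hcx Λ _ f, ?_, ?_⟩
  · exact E0_nonneg hc fun ω hω => hf ω (mem_cf.1 hω).1.1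
  · intro B hB hBΛ f hf hin
    have h := upper0 hc (ξ := fun _ => 0) hΛ' (fun _ _ => rfl) (mem_scs.1 hB)
      (fun t ht => mem_upT.2 (Or.inl (hBΛ ht))) ((IV_sub B).trans hBΛ) hl hf hin
      (g := fun _ => 1) (fun _ => zero_le_one) (fun _ _ _ _ => rfl)
    rw [E0_const hc hl, one_mul] at h
    simpa only [one_mul] using h
  · intro B hB hBΛ g hg hg0 hg1 W hW φ hφ
    refine E0_dec_col (e := false) hc (mem_scs.1 hB) (vf_sub_of_adj hΛ hBΛ)
      (f := fun ω => φ (c1 ω) (c2 ω) ω.2) hg ?_ ?_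
    · intro ω h t' ht' h1
      obtain ⟨v, hv, hv'⟩ := h1
      obtain ⟨t, ht, h2⟩ := mem_VF.1 hv
      exact hg1 ω h t ht t' ht' (adj_of_site (fun h3 => ht' (h3 ▸ ht)) h2 hv')
    · intro ω ω' h1 h2
      have hWV : ∀ v ∈ W, v ∈ VF B := fun v hv => IV_sub_VF B (hW hv)
      refine hφ.dep _ _ _ _ _ _ ?_ ?_ ?_
      · intro v hv
        have h3 : (ω.1 v - ω'.1 v) % 4 = 2 := h1 v (hWV v hv)
        simp only [c1, addH]
        unfold s1
        rw [decide_eq_decide]
        omega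
      · intro v hv
        have h3 : (ω.1 v - ω'.1 v) % 4 = 2 := h1 v (hWV v hv)
        simp only [c2, addH]
        unfold s2
        rw [decide_eq_decide]
        omega
      · intro t ht
        exact h2 t (IV_sub B (hW ht))

end Crest.Agent.R144.Zo349
end
end

-- ▼ part R144/Pos3_561
section

/-!
# R144, block POS (helper561), part 3: logarithmic lower bound of the variogram of the plane state

* `plane_lower` : `4 p m - 4 ≤ V x` for `x` not a site of `hexB (rad K m)`, where `V = vg (P.map toR)` and `P`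
  is a pinned law which computes the limits of the F-type laws (`FLim`, from 967's `exists_plane`);
* `log_lower` : `c' log (1 + l1 x ^ 2) ≤ V x` for all large `x`;
* `stiffness_pos` : every `Spec V u L C` has `0 < L` (952's `Spec.le_L_of_log`);
* `block_of_rswz` : the RSW interface implies 967's `BLOCK`.
-/

set_option autoImplicit false

noncomputable section

namespace Crest.Agent.R144.Pos561

open Finset Filter Topology MeasureTheory
open Crest.Agent.R144.It844 (P2 Lip adj_iff)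
open Crest.Agent.R144.Zg349 Crest.Agent.R144.Zk349 Crest.Agent.R144.Zd349 Crest.Agent.R144.Zm349
open Crest.Agent.R144.Ze349
open Crest.Agent.R144.Pst967 (Hz LocZ NeutZ GObs PinnedZ FLim BLOCK scs cls_scs mem_scs lC mem_lC mem_lC_of_subset
  toR measurable_toR hexB mem_hexB hexB_mono Xs XStep nBlk BLOCK gobs_bounded)
open Crest.Agent.R144.Rsw867 (ball ball_zero_eq ball_mono adj_ball RSW RSWZ offTZ_one ind)
open Crest.Agent.R144.Ps643.PlaneState (vg)
open Crest.Agent.R144.Tp952 (l1 Two Spec)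
open Crest.Agent.R144.Tp952.Spec (tendsto_l1)
open Crest.ProbabilityR.HexHeights (Adj)

/-! ### 867's blocking and 967's blocking -/

/-- blocking in the sense of 867 gives blocking in the sense of 967 -/
theorem blk967_of {M N : ℕ} (hMN : M ≤ N) {ω : Cfg} (h : ω ∈ Rsw867.Blk 0 M N) :
    Pst967.Blk M (N + 1) ω := by
  intro t ht hX
  obtain ⟨t0, h0, h1⟩ := hX
  rw [← ball_zero_eq] at h0 ht
  have key : ∀ t, Relation.ReflTransGen (XStep ω) t0 t → t = t0 ∨ ∃ u, u ∉ ball 0 N ∧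
      Relation.ReflTransGen (StepIn {t | mC ω t}ᶜ) u t ∧ ¬ mC ω t := by
    intro t h
    induction h with
    | refl => exact Or.inl rfl
    | @tail b d _ h2 ih =>
      right
      rcases ih with rfl | ⟨u, hu, hp, hb⟩
      · exact ⟨d, fun hd => h0 (adj_ball hd (Crest.Agent.R144.It844.adj_symm h2.1)),
          Relation.ReflTransGen.refl, h2.2⟩
      · exact ⟨u, hu, hp.tail ⟨hb, h2.2, h2.1⟩, h2.2⟩
  rcases key t h1 with rfl | ⟨u, hu, hp, _⟩
  · exact h0 (ball_mono 0 (by omega) ht)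
  · exact h u t hu ht hp

/-- **the RSW interface implies 967's blocking** -/
theorem block_of_rswz {c : ℝ} (hc : 1 ≤ c) (h : RSWZ c) : BLOCK c := by
  obtain ⟨K, p, hR⟩ := h.rsw hc
  refine Pst967.block_of hc fun M ε hε => ?_
  obtain ⟨N, hN⟩ := hR.block hc M hε
  refine ⟨max M N + 1, by omega, hexB (max M N), Pst967.hexB_mem_scs _, ?_⟩
  have h1 := hN 0 (hexB (max M N)) (Pst967.hexB_mem_scs _)
    (by rw [ball_zero_eq]; exact hexB_mono (le_max_right _ _))
  have h2 : E c (hexB (max M N)) (nBlk M (max M N + 1)) ≤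
      E c (hexB (max M N)) (fun ω => 1 - ind (Rsw867.Blk 0 M N) ω) := by
    refine E_mono hc fun ω _ => ?_
    by_cases hω : ω ∈ Rsw867.Blk 0 M N
    · have h3 : Pst967.Blk M (max M N + 1) ω :=
        blk967_of (le_max_left _ _) (Rsw867.blk_anti le_rfl (le_max_right _ _) hω)
      unfold nBlk
      rw [if_pos h3, Rsw867.ind_of_mem hω]
      norm_num
    · rw [Rsw867.ind_of_not_mem hω, sub_zero]
      exact Pst967.nBlk_le _ _ _
  rw [E_sub, E_const hc] at h2
  rw [Rsw867.Pr_eq] at h1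
  linarith

/-! ### the plane -/

/-- squared height difference as a local gradient observable -/
theorem gobs_sq (x : P2) : GObs (fun h : Hz => ((h 0 : ℝ) - h x) ^ 2) where
  loc := by
    classical
    refine ⟨{0, x}, fun h g hhg => ?_⟩
    have h0 := hhg 0 (by simp)
    have h1 := hhg x (by simp)
    show ((h 0 : ℝ) - h x) ^ 2 = ((g 0 : ℝ) - g x) ^ 2
    rw [h0, h1]
  neut := fun h c => by
    show (((h 0 + c : ℤ) : ℝ) - ((h x + c : ℤ) : ℝ)) ^ 2 = ((h 0 : ℝ) - h x) ^ 2
    push_cast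
    ring

variable {c : ℝ} {K : ℕ} {p : ℝ} {P : Measure Hz}

theorem vg_eq (hP : PinnedZ P) (x : P2) : vg (P.map toR) x = ∫ h, ((h 0 : ℝ) - h x) ^ 2 ∂P := by
  unfold vg
  rw [integral_map measurable_toR.aemeasurable
    ((measurable_pi_apply x).pow_const 2).aestronglyMeasurable]
  refine integral_congr_ae ?_
  filter_upwards [hP.zero] with h hh
  show ((h x : ℤ) : ℝ) ^ 2 = _
  rw [hh]
  push_cast
  ring

/-- **lower bound of the variogram** -/
theorem plane_lower (hc : 1 ≤ c) (h : RSW c K p) (hP : PinnedZ P)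
    (hL : ∀ f : Hz → ℝ, GObs f → FLim c f (∫ h, f h ∂P)) (m : ℕ) {x : P2}
    (hx : x ∉ VF (hexB (rad K m))) : 4 * p * m - 4 ≤ vg (P.map toR) x := by
  rw [vg_eq hP]
  have h1 := hL _ (gobs_sq x)
  have hne := cls_scs.neBot
  refine ge_of_tendsto h1 ?_
  filter_upwards [mem_lC_of_subset (hexB (rad K m)), mem_inf_of_right (mem_principal_self scs)]
    with F h2 h3
  have h4 := two_lower hc h m F h3 h2 x hx (fun _ => 1) (fun _ => zero_le_one) (offTZ_one _)
  rw [E_const hc, mul_one] at h4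
  simpa using h4

theorem notMem_VF_of_l1 {n : ℕ} {x : P2} (h : (2 * n + 2 : ℝ) < l1 x) : x ∉ VF (hexB n) := by
  intro hx
  rw [mem_VF'] at hx
  simp only [mem_hexB, abs_le] at hx
  have h1 : |x.1| + |x.2| ≤ 2 * n + 2 := by
    rcases abs_cases x.1 with h1 | h1 <;> rcases abs_cases x.2 with h2 | h2 <;> omega
  have h2 : l1 x = ((|x.1| + |x.2| : ℤ) : ℝ) := by
    unfold l1
    push_cast
    rfl
  rw [h2] at h
  have h3 : ((|x.1| + |x.2| : ℤ) : ℝ) ≤ 2 * n + 2 := by exact_mod_cast h1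
  linarith

/-- **logarithmic lower bound of the variogram** -/
theorem log_lower (hc : 1 ≤ c) (h : RSW c K p) (hP : PinnedZ P)
    (hL : ∀ f : Hz → ℝ, GObs f → FLim c f (∫ h, f h ∂P)) :
    ∃ c' : ℝ, 0 < c' ∧ ∃ r0 : ℝ, ∀ x : P2, r0 ≤ l1 x →
      c' * Real.log (1 + l1 x ^ 2) ≤ vg (P.map toR) x := by
  have hp := h.p0
  have hK := h.K4
  set b : ℕ := 3 * K with hb
  have hb1 : 1 < b := by omega
  have hb0 : (1 : ℝ) < b := by exact_mod_cast hb1
  have hl : 0 < Real.log b := Real.log_pos hb0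
  obtain ⟨m0, hm0⟩ := exists_nat_ge ((4 + p / Real.log b * (Real.log 17 + 2 * Real.log b)) / (2 * p))
  refine ⟨p / Real.log b, div_pos hp hl, 4 * (b : ℝ) ^ m0, fun x hx => ?_⟩
  have hbm : ∀ m : ℕ, (1 : ℝ) ≤ (b : ℝ) ^ m := fun m => one_le_pow₀ hb0.le
  -- the scale
  obtain ⟨m, hm1, hm2⟩ : ∃ m : ℕ, 4 * (b : ℝ) ^ m ≤ l1 x ∧ l1 x < 4 * (b : ℝ) ^ (m + 1) := by
    have h1 : 1 ≤ l1 x / 4 := by
      rw [le_div_iff₀ (by norm_num)]
      have := hbm m0
      linarith
    obtain ⟨m, hm⟩ := exists_nat_pow_near h1 hb0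
    refine ⟨m, ?_, ?_⟩
    · have := hm.1
      rw [le_div_iff₀ (by norm_num)] at this
      linarith
    · have := hm.2
      rw [div_lt_iff₀ (by norm_num)] at this
      linarith
  have hmm : m0 ≤ m := by
    by_contra hcon
    push Not at hcon
    have h1 : (b : ℝ) ^ (m + 1) ≤ (b : ℝ) ^ m0 := pow_le_pow_right₀ hb0.le hcon
    linarith
  -- lower bound
  have hx' : x ∉ VF (hexB (rad K m)) := by
    refine notMem_VF_of_l1 ?_
    have h1 : ((rad K m : ℕ) : ℝ) ≤ (b : ℝ) ^ m := by exact_mod_cast rad_le hK m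
    have h2 := hbm m
    rcases Nat.eq_zero_or_pos m with h3 | h3
    · subst h3
      rw [pow_zero] at *
      rw [rad_zero] at h1 ⊢
      -- the scale `0` : `l1 x ≥ 4 b ^ m0`
      have h4 : m0 = 0 := by omega
      subst h4
      have h5 : (4 + p / Real.log b * (Real.log 17 + 2 * Real.log b)) / (2 * p) ≤ 0 := by
        simpa using hm0
      exfalso
      have h6 : 0 < (4 + p / Real.log b * (Real.log 17 + 2 * Real.log b)) / (2 * p) := by
        have : 0 < Real.log 17 := Real.log_pos (by norm_num)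
        positivity
      linarith
    · have h4 : (b : ℝ) ^ 1 ≤ (b : ℝ) ^ m := pow_le_pow_right₀ hb0.le h3
      rw [pow_one] at h4
      have h5 : (2 : ℝ) ≤ b := by exact_mod_cast hb1
      linarith
  have h1 := plane_lower hc h hP hL m hx'
  refine le_trans ?_ h1
  -- upper bound of the logarithm
  have h2 : 1 + l1 x ^ 2 ≤ 17 * ((b : ℝ) ^ (m + 1)) ^ 2 := by
    have h3 : 0 ≤ l1 x := by
      have := hbm m
      linarith
    have h4 := hbm (m + 1)
    nlinarith
  have h3 : Real.log (1 + l1 x ^ 2) ≤ Real.log 17 + 2 * ((m + 1) * Real.log b) := by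
    refine (Real.log_le_log (by positivity) h2).trans (le_of_eq ?_)
    have h4 := hbm (m + 1)
    rw [Real.log_mul (by norm_num) (by positivity), Real.log_pow, Real.log_pow]
    push_cast
    ring
  have h4 : p / Real.log b * Real.log (1 + l1 x ^ 2) ≤
      p / Real.log b * (Real.log 17 + 2 * ((m + 1) * Real.log b)) :=
    mul_le_mul_of_nonneg_left h3 (by positivity)
  refine h4.trans ?_
  have h5 : p / Real.log b * (Real.log 17 + 2 * ((m + 1) * Real.log b)) =
      p / Real.log b * (Real.log 17 + 2 * Real.log b) + 2 * p * m := by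
    field_simp
    ring
  rw [h5]
  rw [div_le_iff₀ (by positivity)] at hm0
  have h6 : (m0 : ℝ) ≤ m := by exact_mod_cast hmm
  nlinarith

/-- cofinite form -/
theorem eventually_log_lower (hc : 1 ≤ c) (h : RSWZ c) (hP : PinnedZ P)
    (hL : ∀ f : Hz → ℝ, GObs f → FLim c f (∫ h, f h ∂P)) :
    ∃ c' : ℝ, 0 < c' ∧ ∀ᶠ x : P2 in cofinite, c' * Real.log (1 + l1 x ^ 2) ≤ vg (P.map toR) x := by
  obtain ⟨K, p, hR⟩ := h.rsw hc
  obtain ⟨c', h1, r0, h2⟩ := log_lower hc hR hP hL
  exact ⟨c', h1, (tendsto_l1.eventually_ge_atTop r0).mono fun x hx => h2 x hx⟩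


end Crest.Agent.R144.Pos561
end
end

-- ▼ part R144/Pst12_967

/-!
# R144, plane state (helper967), part 12: the plane state of the weights `0 < x ≤ 1` from `RSWZ`

`plane_of_block`, `plane_of_rswz`: with `c = x⁻²`, the input `BLOCK c` (resp. `RSWZ c`) gives the plane state `P`:
the limit of the zero boundary laws along simply connected volumes, a `PlaneState` after the cast to the reals, and
the limit of the F-type laws (`FLim`).  The interface `ZL` is helper349's `zl`, `BLOCK` is helper561's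
`block_of_rswz`.
-/

set_option autoImplicit false

noncomputable section

namespace Crest.Agent.R144.Pst967

open Finset Filter MeasureTheory Topology
open Crest.Agent.R144.It844 (P2)
open Crest.Agent.R144.Zg349 Crest.Agent.R144.Zd349
open Crest.Agent.R144.Ze349
open Crest.Agent.R144.Rsw867 (RSWZ)

/-- all simply connected volumes satisfy the interface `ZL` -/
theorem eventually_zl {c x : ℝ} (hc : 1 ≤ c) (hcx : c * x ^ 2 = 1) :
    ∀ᶠ Λ in lC scs, ∃ E0 : (Cfg → ℝ) → ℝ, ZL c x Λ E0 :=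
  mem_lC.2 ⟨∅, fun _ hΛ _ => ⟨_, Zo349.zl hc hcx hΛ⟩⟩

/-- `c = x⁻²` for `0 < x ≤ 1` -/
theorem one_le_c {x : ℝ} (hx : 0 < x) (hx1 : x ≤ 1) : 1 ≤ (x ^ 2)⁻¹ := by
  rw [one_le_inv₀ (by positivity)]
  nlinarith

theorem c_mul {x : ℝ} (hx : 0 < x) : (x ^ 2)⁻¹ * x ^ 2 = 1 := inv_mul_cancel₀ (by positivity)

/-- **the plane state from `BLOCK c`** -/
theorem plane_of_block {c x : ℝ} (hx : 0 < x) (hc : 1 ≤ c) (hcx : c * x ^ 2 = 1) (hB : BLOCK c) :
    ∃ P : Measure Hz, PinnedZ P ∧ ZeroLim x scs P ∧ Ps643.PlaneState (P.map toR) ∧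
      ∀ f : Hz → ℝ, GObs f → FLim c f (∫ h, f h ∂P) :=
  exists_plane hx hc hB (eventually_zl hc hcx)

/-- **the plane state from `RSWZ c`** -/
theorem plane_of_rswz {c x : ℝ} (hx : 0 < x) (hc : 1 ≤ c) (hcx : c * x ^ 2 = 1) (hR : RSWZ c) :
    ∃ P : Measure Hz, PinnedZ P ∧ ZeroLim x scs P ∧ Ps643.PlaneState (P.map toR) ∧
      ∀ f : Hz → ℝ, GObs f → FLim c f (∫ h, f h ∂P) :=
  plane_of_block hx hc hcx (Pos561.block_of_rswz hc hR)

/-- the same for `0 < x ≤ 1` and `c = x⁻²` -/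
theorem plane_of_rswz' {x : ℝ} (hx : 0 < x) (hx1 : x ≤ 1) (hR : RSWZ (x ^ 2)⁻¹) :
    ∃ P : Measure Hz, PinnedZ P ∧ ZeroLim x scs P ∧ Ps643.PlaneState (P.map toR) ∧
      ∀ f : Hz → ℝ, GObs f → FLim (x ^ 2)⁻¹ f (∫ h, f h ∂P) :=
  plane_of_rswz hx (one_le_c hx hx1) (c_mul hx) hR

end Crest.Agent.R144.Pst967
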