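import Crest.Agent.R144.Pst6_967

-- ▼ part R144/Pst7_967
section

/-!
# R144, plane state (helper967), part 7: convergence of the F-type laws of `(s1, z)`

* `q ω t : Fin 4` : state of the site / up triangle `t`: minus closed, minus open, plus open, plus closed;
  `leP_iff : LeP ω ω' ↔ ∀ t, q ω t ≤ q ω' t`;
* `conv_incP` : expectations of bounded increasing observables converge along `lC scs`;
* `LTZ W g` : `g` is a function of `(s1, z)` on the finite set `W`; `conv_ltz` : convergence for these.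
-/

set_option autoImplicit false

noncomputable section

namespace Crest.Agent.R144.Pst967

open Finset Filter Topology
open Crest.Agent.R144.It844 (P2)
open Crest.Agent.R144.Zg349 Crest.Agent.R144.Zk349 Crest.Agent.R144.Zd349 Crest.Agent.R144.Zm349
open Crest.Agent.R144.Ze349

/-- state of a site / up triangle from the first colour and the closed status -/
def qs (s z : Bool) : Fin 4 := if s then (if z then 3 else 2) else (if z then 0 else 1)

/-- state of the site / up triangle `t` -/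
def q (ω : Cfg) (t : P2) : Fin 4 := qs (s1 (ω.1 t)) (ω.2 t)


theorem qs_le : ∀ {s z s' z' : Bool}, qs s z ≤ qs s' z' ↔
    ((s = true → s' = true) ∧ (z = true ∧ s = true → z' = true ∧ s' = true) ∧
      (z' = true ∧ s' = false → z = true ∧ s = false)) := by decide

theorem leP_iff {ω ω' : Cfg} : LeP ω ω' ↔ ∀ t, q ω t ≤ q ω' t := by
  constructor
  · intro h t
    exact qs_le.2 ⟨h.v t, h.p t, h.m t⟩
  · intro h
    exact ⟨fun t => (qs_le.1 (h t)).1, fun t => (qs_le.1 (h t)).2.1, fun t => (qs_le.1 (h t)).2.2⟩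

/-- restriction of the state to `W` -/
def qW (W : Finset P2) (ω : Cfg) : W → Fin 4 := fun t => q ω t

open Classical in
/-- indicator of `y ≤ state` -/
def geI (W : Finset P2) (y : W → Fin 4) (ω : Cfg) : ℝ := if y ≤ qW W ω then 1 else 0

open Classical in
/-- indicator of `y < state` -/
def gtI (W : Finset P2) (y : W → Fin 4) (ω : Cfg) : ℝ := if y < qW W ω then 1 else 0

theorem incP_ge (W : Finset P2) (y : W → Fin 4) : IncP (geI W y) := by
  intro ω ω' h
  rw [leP_iff] at h
  unfold geI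
  by_cases h1 : y ≤ qW W ω
  · have h2 : y ≤ qW W ω' := fun t => (h1 t).trans (h t)
    simp only [if_pos h1, if_pos h2, le_refl]
  · simp only [if_neg h1]
    split_ifs <;> norm_num

theorem incP_gt (W : Finset P2) (y : W → Fin 4) : IncP (gtI W y) := by
  intro ω ω' h
  rw [leP_iff] at h
  unfold gtI
  by_cases h1 : y < qW W ω
  · have h2 : y < qW W ω' := lt_of_lt_of_le h1 fun t => h t
    simp only [if_pos h1, if_pos h2, le_refl]
  · simp only [if_neg h1]
    split_ifs <;> norm_num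

theorem geI_nonneg (W : Finset P2) (y : W → Fin 4) (ω : Cfg) : 0 ≤ geI W y ω := by
  unfold geI; split_ifs <;> norm_num

theorem gtI_nonneg (W : Finset P2) (y : W → Fin 4) (ω : Cfg) : 0 ≤ gtI W y ω := by
  unfold gtI; split_ifs <;> norm_num

/-- observables of `(s1, z)` on `W` -/
def LTZ {β : Type*} (W : Finset P2) (g : Cfg → β) : Prop :=
  ∀ ω ω' : Cfg, (∀ v ∈ W, s1 (ω.1 v) = s1 (ω'.1 v)) → (∀ t ∈ W, ω.2 t = ω'.2 t) → g ω = g ω'

theorem LTZ.mono {β : Type*} {W W' : Finset P2} (h : W ⊆ W') {g : Cfg → β} (hg : LTZ W g) : LTZ W' g :=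
  fun ω ω' h1 h2 => hg ω ω' (fun v hv => h1 v (h hv)) (fun v hv => h2 v (h hv))

/-- a configuration with given states -/
def cfgOf (W : Finset P2) (y : W → Fin 4) : Cfg :=
  (fun v => if hv : v ∈ W then (if 2 ≤ y ⟨v, hv⟩ then 0 else 2) else 0,
    fun v => if hv : v ∈ W then (decide (y ⟨v, hv⟩ = 0 ∨ y ⟨v, hv⟩ = 3)) else true)

theorem q_cfgOf {W : Finset P2} {y : W → Fin 4} {v : P2} (hv : v ∈ W) :
    s1 ((cfgOf W y).1 v) = decide (2 ≤ y ⟨v, hv⟩) ∧
      (cfgOf W y).2 v = decide (y ⟨v, hv⟩ = 0 ∨ y ⟨v, hv⟩ = 3) := by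
  unfold cfgOf
  simp only [dif_pos hv, and_true]
  split_ifs with h
  · rw [decide_eq_true h]; decide
  · rw [decide_eq_false h]; decide

theorem qs_cases : ∀ s z : Bool, s = decide (2 ≤ qs s z) ∧ z = decide (qs s z = 0 ∨ qs s z = 3) := by
  decide

theorem ltz_eq {W : Finset P2} {β : Type*} {g : Cfg → β} (hg : LTZ W g) (ω : Cfg) :
    g ω = g (cfgOf W (qW W ω)) := by
  refine hg _ _ (fun v hv => ?_) (fun v hv => ?_)
  · rw [(q_cfgOf hv).1]
    exact (qs_cases _ _).1
  · rw [(q_cfgOf hv).2]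
    exact (qs_cases _ _).2

theorem ltz_sum {W : Finset P2} {g : Cfg → ℝ} (hg : LTZ W g) (ω : Cfg) :
    g ω = ∑ y : W → Fin 4, g (cfgOf W y) * (geI W y ω - gtI W y ω) := by
  classical
  have h1 : ∀ y : W → Fin 4, (geI W y ω - gtI W y ω) = if qW W ω = y then 1 else 0 := by
    intro y
    unfold geI gtI
    by_cases h : qW W ω = y
    · rw [if_pos h, if_pos (by rw [h]), if_neg (by rw [h]; exact lt_irrefl _)]
      norm_num
    · rw [if_neg h]
      by_cases h2 : y ≤ qW W ω
      · rw [if_pos h2, if_pos (lt_of_le_of_ne h2 (Ne.symm h)), sub_self]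
      · rw [if_neg h2, if_neg fun h3 => h2 h3.le, sub_self]
  simp only [h1, mul_ite, mul_one, mul_zero, Finset.sum_ite_eq, Finset.mem_univ, if_true]
  exact ltz_eq hg ω

/-- **monotone convergence** -/
theorem conv_incP {c : ℝ} (hc : 1 ≤ c) {f : Cfg → ℝ} (hf : IncP f) (hb : ∃ m, ∀ ω, m ≤ f ω) :
    ∃ a, Tendsto (fun F : Finset P2 => E c F f) (lC scs) (𝓝 a) := by
  obtain ⟨m, hm⟩ := hb
  set A : Set ℝ := {r | ∃ F ∈ scs, r = E c F f} with hA
  have hne : A.Nonempty := ⟨_, hexB 0, hexB_mem_scs 0, rfl⟩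
  have hbd : BddBelow A := by
    refine ⟨m, ?_⟩
    rintro _ ⟨F, _, rfl⟩
    rw [← E_const hc F m]
    exact E_mono hc fun ω _ => hm ω
  refine ⟨sInf A, ?_⟩
  rw [Metric.tendsto_nhds]
  intro ε hε
  obtain ⟨_, ⟨F0, hF0, rfl⟩, h1⟩ := exists_lt_of_csInf_lt hne (lt_add_of_pos_right (sInf A) hε)
  refine mem_lC.2 ⟨F0, fun F hF hFF => ?_⟩
  have h2 : E c F f ≤ E c F0 f := dom_mono hc hF0 hF hFF hf
  have h3 : sInf A ≤ E c F f := csInf_le hbd ⟨F, hF, rfl⟩
  show dist (E c F f) (sInf A) < ε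
  rw [Real.dist_eq, abs_lt]
  constructor <;> linarith

/-- **convergence of the local laws of `(s1, z)`** -/
theorem conv_ltz {c : ℝ} (hc : 1 ≤ c) {W : Finset P2} {g : Cfg → ℝ} (hg : LTZ W g) :
    ∃ a, Tendsto (fun F : Finset P2 => E c F g) (lC scs) (𝓝 a) := by
  classical
  have h1 : ∀ y : W → Fin 4, ∃ a, Tendsto (fun F : Finset P2 => E c F (geI W y)) (lC scs) (𝓝 a) :=
    fun y => conv_incP hc (incP_ge W y) ⟨0, geI_nonneg W y⟩
  have h2 : ∀ y : W → Fin 4, ∃ a, Tendsto (fun F : Finset P2 => E c F (gtI W y)) (lC scs) (𝓝 a) :=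
    fun y => conv_incP hc (incP_gt W y) ⟨0, gtI_nonneg W y⟩
  choose a ha using h1
  choose b hb using h2
  refine ⟨∑ y : W → Fin 4, g (cfgOf W y) * (a y - b y), ?_⟩
  have h3 : (fun F : Finset P2 => E c F g) = fun F => ∑ y : W → Fin 4, g (cfgOf W y) *
      (E c F (geI W y) - E c F (gtI W y)) := by
    funext F
    have h4 : E c F g = E c F (fun ω => ∑ y : W → Fin 4, g (cfgOf W y) *
      (geI W y ω - gtI W y ω)) := by
      congr 1
      funext ω
      exact ltz_sum hg ω
    rw [h4, E_sum]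
    refine Finset.sum_congr rfl fun y _ => ?_
    rw [E_smul, E_sub]
  rw [h3]
  exact tendsto_finsetSum _ fun y _ => ((ha y).sub (hb y)).const_mul _

end Crest.Agent.R144.Pst967
end
end

-- ▼ part R144/Pst8_967
section

/-!
# R144, plane state (helper967), part 8: the second colour given `(s1, z)`

* `OConn z v w` : the sites `v, w` are joined by open up triangles (`z t = false`);
* `avg W f s z` : average of `f s a z` over the second colours `a` on `W` which are constant on open clusters;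
* `E_avg` : `E c F f(c1, c2, z) = E c F (avg W f c1 z)` for the F-type laws and `W ⊆ VF F`;
* `loc R z` (closed off `R`), `avg_loc` : localisation when open paths from `W` do not leave `R`.
-/

set_option autoImplicit false

noncomputable section

namespace Crest.Agent.R144.Pst967

open Finset Filter Topology
open Crest.Agent.R144.It844 (P2)
open Crest.Agent.R144.Zg349 Crest.Agent.R144.Zk349 Crest.Agent.R144.Zd349 Crest.Agent.R144.Zm349
open Crest.Agent.R144.Ze349

/-- `v, w` are corners of a common open up triangle -/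
def OStep (z : P2 → Bool) (v w : P2) : Prop := ∃ t, z t = false ∧ v ∈ up t ∧ w ∈ up t

/-- open connection of sites -/
def OConn (z : P2 → Bool) (v w : P2) : Prop := Relation.ReflTransGen (OStep z) v w

theorem oStep_symm {z : P2 → Bool} {v w : P2} (h : OStep z v w) : OStep z w v := by
  obtain ⟨t, h1, h2, h3⟩ := h
  exact ⟨t, h1, h3, h2⟩

theorem OConn.symm {z : P2 → Bool} {v w : P2} (h : OConn z v w) : OConn z w v := by
  unfold OConn at *
  induction h with
  | refl => exact Relation.ReflTransGen.refl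
  | tail _ h2 ih => exact Relation.ReflTransGen.head (oStep_symm h2) ih

theorem OConn.trans {z : P2 → Bool} {u v w : P2} (h : OConn z u v) (h' : OConn z v w) : OConn z u w :=
  Relation.ReflTransGen.trans h h'

theorem oConn_refl (z : P2 → Bool) (v : P2) : OConn z v v := Relation.ReflTransGen.refl

theorem oConn_of_open {z : P2 → Bool} {t : P2} (h : z t = false) {v w : P2} (hv : v ∈ up t)
    (hw : w ∈ up t) : OConn z v w := Relation.ReflTransGen.single ⟨t, h, hv, hw⟩

/-- the elements of `W` joined to `v` -/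
def hit (W : Finset P2) (z : P2 → Bool) (v : P2) : P2 → Prop := fun w => w ∈ W ∧ OConn z v w

theorem hit_eq {W : Finset P2} {z : P2 → Bool} {v v' : P2} (h : OConn z v v') : hit W z v = hit W z v' := by
  funext w
  unfold hit
  apply propext
  exact and_congr_right fun _ => ⟨fun h1 => h.symm.trans h1, fun h1 => h.trans h1⟩

/-- canonical element of `W` in the open cluster of `v` -/
def rep (W : Finset P2) (z : P2 → Bool) (v : P2) : P2 := Classical.epsilon (hit W z v)

theorem rep_spec {W : Finset P2} {z : P2 → Bool} {v : P2} (h : ∃ w, hit W z v w) :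
    rep W z v ∈ W ∧ OConn z v (rep W z v) := Classical.epsilon_spec h

theorem rep_eq {W : Finset P2} {z : P2 → Bool} {v v' : P2} (h : OConn z v v') : rep W z v = rep W z v' := by
  unfold rep
  rw [hit_eq h]

theorem hit_self {W : Finset P2} {z : P2 → Bool} {v : P2} (h : v ∈ W) : ∃ w, hit W z v w :=
  ⟨v, h, oConn_refl z v⟩

open Classical in
/-- extension of a Boolean function on `W` -/
def exB (W : Finset P2) (ε : W → Bool) (v : P2) : Bool := if h : v ∈ W then ε ⟨v, h⟩ else false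

open Classical in
/-- the colour of the cluster of `v` -/
def col (W : Finset P2) (z : P2 → Bool) (ε : W → Bool) (v : P2) : Bool :=
  if ∃ w, hit W z v w then exB W ε (rep W z v) else false

theorem col_of_mem {W : Finset P2} {z : P2 → Bool} {ε : W → Bool} {v : P2} (h : v ∈ W) :
    col W z ε v = exB W ε (rep W z v) := if_pos (hit_self h)

theorem col_eq {W : Finset P2} {z : P2 → Bool} {ε : W → Bool} {v v' : P2} (h : OConn z v v') :
    col W z ε v = col W z ε v' := by
  unfold col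
  rw [hit_eq h, rep_eq h]

theorem col_mem {F W : Finset P2} (hW : W ⊆ VF F) {z : P2 → Bool} (hz : ∀ t, t ∉ F → z t = true)
    {ε : W → Bool} {v : P2} (h : col W z ε v = true) : v ∈ VF F := by
  unfold col at h
  split_ifs at h with h1
  obtain ⟨w, hw, hc⟩ := h1
  rcases Relation.ReflTransGen.cases_head hc with h2 | ⟨u, ⟨t, h3, h4, _⟩, _⟩
  · rw [h2]; exact hW hw
  · rw [mem_VF]
    refine ⟨t, ?_, h4⟩
    by_contra h5
    rw [hz t h5] at h3
    exact absurd h3 (by decide)

/-- average over the second colours on `W` constant on open clusters -/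
def avg (W : Finset P2) (f : (P2 → Bool) → (P2 → Bool) → (P2 → Bool) → ℝ) (s z z' : P2 → Bool) : ℝ :=
  (2 ^ W.card)⁻¹ * ∑ ε : W → Bool, f s (col W z' ε) z

/-- `f s a z` depends on `a` only on `W` -/
def DepA (W : Finset P2) (f : (P2 → Bool) → (P2 → Bool) → (P2 → Bool) → ℝ) : Prop :=
  ∀ s a a' z, (∀ v ∈ W, a v = a' v) → f s a z = f s a' z

/-- the second colour is constant along open connections for configurations of positive weight -/
theorem c2_of_oConn {F : Finset P2} {ω : Cfg} (hv : Valid F ω)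
    (hw : ∀ t ∈ F, (ω.2 t = true → C1 ω.1 t) ∧ (ω.2 t = false → C2 ω.1 t)) {v w : P2}
    (h : OConn ω.2 v w) : c2 ω v = c2 ω w := by
  unfold OConn at h
  induction h with
  | refl => rfl
  | @tail b d _ h2 ih =>
    rw [ih]
    obtain ⟨t, h3, h4, h5⟩ := h2
    have htF : t ∈ F := by
      by_contra h6
      rw [hv.cl t h6] at h3
      exact absurd h3 (by decide)
    obtain ⟨e1, e2⟩ := (hw t htF).2 h3
    obtain ⟨i, rfl⟩ := mem_up_iff.1 h4
    obtain ⟨j, rfl⟩ := mem_up_iff.1 h5
    unfold c2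
    have key : ∀ k : Fin 3, s2 (ω.1 (cr t k)) = s2 (ω.1 (cr t 0)) := by
      intro k
      fin_cases k
      · rfl
      · exact e1.symm
      · exact e2.symm
    rw [key i, key j]

/-- **conditional law of the second colour** -/
theorem E_avg {F W : Finset P2} (hF : SC F) (hW : W ⊆ VF F) (c : ℝ)
    {f : (P2 → Bool) → (P2 → Bool) → (P2 → Bool) → ℝ} (hf : DepA W f) :
    E c F (fun ω => f (c1 ω) (c2 ω) ω.2) = E c F (fun ω => avg W f (c1 ω) ω.2 ω.2) := by
  classical
  -- each flip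
  have h1 : ∀ ε : W → Bool, E c F (fun ω => f (c1 ω) (fun v => xor (c2 ω v) (col W ω.2 ε v)) ω.2) =
      E c F (fun ω => f (c1 ω) (c2 ω) ω.2) := by
    intro ε
    refine flip hF c (fun _ z => col W z ε) (fun s z v hz h => col_mem hW hz h)
      (fun s z t _ ht i j => col_eq (oConn_of_open ht (cr_mem_up t i) (cr_mem_up t j))) f
  have h2 : E c F (fun ω => (2 ^ W.card)⁻¹ *
      ∑ ε : W → Bool, f (c1 ω) (fun v => xor (c2 ω v) (col W ω.2 ε v)) ω.2) =
      E c F (fun ω => f (c1 ω) (c2 ω) ω.2) := by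
    rw [E_smul, E_sum, Finset.sum_congr rfl fun ε _ => h1 ε, Finset.sum_const, Finset.card_univ]
    have e : Fintype.card (W → Bool) = 2 ^ W.card := by
      rw [Fintype.card_fun, Fintype.card_bool, Fintype.card_coe]
    rw [e, nsmul_eq_mul]
    push_cast
    rw [← mul_assoc, inv_mul_cancel₀ (by positivity), one_mul]
  rw [← h2]
  refine E_pos_congr fun ω hv hw => ?_
  unfold avg
  congr 1
  -- substitution
  let b : W → Bool := fun v => c2 ω v
  let σ : (W → Bool) ≃ (W → Bool) :=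
    { toFun := fun ε v => xor (b v) (ε v)
      invFun := fun ε v => xor (b v) (ε v)
      left_inv := fun ε => by funext v; simp
      right_inv := fun ε => by funext v; simp }
  rw [← Equiv.sum_comp σ (fun ε => f (c1 ω) (col W ω.2 ε) ω.2)]
  refine Finset.sum_congr rfl fun ε _ => hf _ _ _ _ fun v hvW => ?_
  rw [col_of_mem hvW, col_of_mem hvW]
  obtain ⟨h3, h4⟩ := rep_spec (hit_self (z := ω.2) hvW)
  unfold exB
  rw [dif_pos h3, dif_pos h3]
  have h5 := c2_of_oConn hv hw h4
  simp only [σ, b, Equiv.coe_fn_mk]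
  rw [h5]

/-! ### localisation -/

open Classical in
/-- close everything off `R` -/
def loc (R : Finset P2) (z : P2 → Bool) : P2 → Bool := fun t => if t ∈ R then z t else true

/-- open paths from `W` stay in `R` -/
def Stay (W R : Finset P2) (z : P2 → Bool) : Prop := ∀ v ∈ W, ∀ w, OConn z v w → OConn (loc R z) v w

theorem oConn_of_loc {R : Finset P2} {z : P2 → Bool} {v w : P2} (h : OConn (loc R z) v w) :
    OConn z v w := by
  refine Relation.ReflTransGen.mono (fun a b hab => ?_) _ _ h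
  obtain ⟨t, h1, h2, h3⟩ := hab
  refine ⟨t, ?_, h2, h3⟩
  unfold loc at h1
  split_ifs at h1 with h4
  exact h1

theorem hit_loc {W R : Finset P2} {z : P2 → Bool} (h : Stay W R z) {v : P2} (hv : v ∈ W) :
    hit W z v = hit W (loc R z) v := by
  funext w
  unfold hit
  apply propext
  exact and_congr_right fun _ => ⟨fun h1 => h v hv w h1, fun h1 => oConn_of_loc h1⟩

theorem col_loc {W R : Finset P2} {z : P2 → Bool} (h : Stay W R z) {ε : W → Bool} {v : P2} (hv : v ∈ W) :
    col W z ε v = col W (loc R z) ε v := by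
  rw [col_of_mem hv, col_of_mem hv]
  unfold rep
  rw [hit_loc h hv]

theorem avg_loc {W R : Finset P2} {f : (P2 → Bool) → (P2 → Bool) → (P2 → Bool) → ℝ} (hf : DepA W f)
    {s z : P2 → Bool} (h : Stay W R z) : avg W f s z z = avg W f s z (loc R z) := by
  unfold avg
  congr 1
  exact Finset.sum_congr rfl fun ε _ => hf _ _ _ _ fun v hv => col_loc h hv

/-- `f s a z` depends on everything only on `W` -/
structure DepW (W : Finset P2) (f : (P2 → Bool) → (P2 → Bool) → (P2 → Bool) → ℝ) : Prop where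
  dep : ∀ s s' a a' z z', (∀ v ∈ W, s v = s' v) → (∀ v ∈ W, a v = a' v) → (∀ v ∈ W, z v = z' v) →
    f s a z = f s' a' z'

theorem DepW.depA {W : Finset P2} {f : (P2 → Bool) → (P2 → Bool) → (P2 → Bool) → ℝ} (hf : DepW W f) :
    DepA W f := fun _ _ _ _ h => hf.dep _ _ _ _ _ _ (fun _ _ => rfl) h (fun _ _ => rfl)

/-- the localised average is a local observable of `(s1, z)` -/
theorem ltz_avg {W R : Finset P2} {f : (P2 → Bool) → (P2 → Bool) → (P2 → Bool) → ℝ} (hf : DepW W f) :
    LTZ (W ∪ R) (fun ω => avg W f (c1 ω) ω.2 (loc R ω.2)) := by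
  intro ω ω' h1 h2
  have e : loc R ω.2 = loc R ω'.2 := by
    funext t
    unfold loc
    by_cases ht : t ∈ R
    · rw [if_pos ht, if_pos ht, h2 t (Finset.mem_union_right _ ht)]
    · rw [if_neg ht, if_neg ht]
  unfold avg
  beta_reduce
  rw [e]
  congr 1
  refine Finset.sum_congr rfl fun ε _ => hf.dep _ _ _ _ _ _ (fun v hv => ?_) (fun _ _ => rfl)
    (fun v hv => h2 v (Finset.mem_union_left _ hv))
  exact h1 v (Finset.mem_union_left _ hv)

theorem abs_avg_le {W : Finset P2} {f : (P2 → Bool) → (P2 → Bool) → (P2 → Bool) → ℝ} {C : ℝ}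
    (hC : ∀ s a z, |f s a z| ≤ C) (s z z' : P2 → Bool) : |avg W f s z z'| ≤ C := by
  unfold avg
  rw [abs_mul, abs_of_nonneg (by positivity : (0 : ℝ) ≤ (2 ^ W.card)⁻¹)]
  have e : Fintype.card (W → Bool) = 2 ^ W.card := by
    rw [Fintype.card_fun, Fintype.card_bool, Fintype.card_coe]
  have h1 : |∑ ε : W → Bool, f s (col W z' ε) z| ≤ 2 ^ W.card * C := by
    refine (Finset.abs_sum_le_sum_abs _ _).trans ?_
    refine (Finset.sum_le_sum fun ε _ => hC s (col W z' ε) z).trans ?_
    rw [Finset.sum_const, Finset.card_univ, e, nsmul_eq_mul]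
    push_cast
    exact le_rfl
  calc (2 ^ W.card)⁻¹ * |∑ ε : W → Bool, f s (col W z' ε) z|
      ≤ (2 ^ W.card)⁻¹ * (2 ^ W.card * C) := mul_le_mul_of_nonneg_left h1 (by positivity)
    _ = C := by rw [← mul_assoc, inv_mul_cancel₀ (by positivity), one_mul]

end Crest.Agent.R144.Pst967
end
end

-- ▼ part R144/Pst9_967

/-!
# R144, plane state (helper967), part 9: exploration from outside, convergence modulo 4

* `Xs N ω` : triangles joined to the outside of `hexB N` by triangles which are not minus closed (`¬ mC`);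
* `Bs N ω` : triangles of `hexB N` not in `Xs` and without neighbour in `Xs`; `sc_Bs`, `layer_Bs`,
  `offTZ_Bs` (the event `Bs N ω = B` depends only on `(s1, z)` off `B`);
* `Blk M N ω` : `Xs N ω` does not meet `hexB M`; `stay_of_blk` : then open paths from inside stay in `hexB N`;
* `BLOCK c` : the input; `conv_mod4` : under `BLOCK c` the expectations of local observables of the heights
  modulo 4 converge along `lC scs` for the F-type laws.
-/

set_option autoImplicit false

noncomputable section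

namespace Crest.Agent.R144.Pst967

open Finset Filter Topology
open Crest.Agent.R144.It844 (P2 adj_symm adj_iff adj_comm)
open Crest.ProbabilityR.HexHeights (Adj)
open Crest.Agent.R144.Zg349 Crest.Agent.R144.Zk349 Crest.Agent.R144.Zd349 Crest.Agent.R144.Zm349
open Crest.Agent.R144.Ze349

/-- step into a triangle which is not minus closed -/
def XStep (ω : Cfg) (a b : P2) : Prop := Adj a b ∧ ¬ mC ω b

/-- explored set -/
def Xs (N : ℕ) (ω : Cfg) : Set P2 := {t | ∃ t0, t0 ∉ hexB N ∧ Relation.ReflTransGen (XStep ω) t0 t}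

theorem xs_of_notMem {N : ℕ} (ω : Cfg) {t : P2} (h : t ∉ hexB N) : t ∈ Xs N ω :=
  ⟨t, h, Relation.ReflTransGen.refl⟩

theorem xs_step {N : ℕ} {ω : Cfg} {t t' : P2} (h : t ∈ Xs N ω) (h1 : Adj t t') (h2 : ¬ mC ω t') :
    t' ∈ Xs N ω := by
  obtain ⟨t0, h3, h4⟩ := h
  exact ⟨t0, h3, h4.tail ⟨h1, h2⟩⟩

open Classical in
/-- the unexplored domain -/
def Bs (N : ℕ) (ω : Cfg) : Finset P2 :=
  (hexB N).filter fun t => t ∉ Xs N ω ∧ ∀ t', Adj t t' → t' ∉ Xs N ω

open Classical in
theorem mem_Bs {N : ℕ} {ω : Cfg} {t : P2} :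
    t ∈ Bs N ω ↔ t ∉ Xs N ω ∧ ∀ t', Adj t t' → t' ∉ Xs N ω := by
  unfold Bs
  rw [Finset.mem_filter]
  refine ⟨fun h => h.2, fun h => ⟨?_, h⟩⟩
  by_contra h1
  exact h.1 (xs_of_notMem ω h1)

theorem notMem_Bs {N : ℕ} {ω : Cfg} {t : P2} :
    t ∉ Bs N ω ↔ t ∈ Xs N ω ∨ ∃ t', Adj t t' ∧ t' ∈ Xs N ω := by
  rw [mem_Bs]
  push Not
  constructor
  · intro h
    by_cases h1 : t ∈ Xs N ω
    · exact Or.inl h1
    · exact Or.inr (h h1)
  · rintro (h | h) h1
    · exact absurd h h1
    · exact h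

/-- the triangles next to the unexplored domain are minus closed -/
theorem layer_Bs {N : ℕ} {ω : Cfg} {t t' : P2} (h : t ∈ Bs N ω) (ht' : t' ∉ Bs N ω) (ha : Adj t t') :
    mC ω t' := by
  rw [mem_Bs] at h
  rw [notMem_Bs] at ht'
  have h1 : t' ∉ Xs N ω := h.2 t' ha
  rcases ht' with h2 | ⟨u, hu, hux⟩
  · exact absurd h2 h1
  · by_contra h3
    exact h1 (xs_step hux (adj_symm hu) h3)

theorem Bs_sub {N : ℕ} (ω : Cfg) : Bs N ω ⊆ hexB N := by
  classical
  exact Finset.filter_subset _ _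

/-- the complement of the unexplored domain is connected -/
theorem sc_Bs (N : ℕ) (ω : Cfg) : SC (Bs N ω) := by
  set S : Set P2 := ((Bs N ω : Finset P2) : Set P2)ᶜ with hS
  have hmem : ∀ t, t ∈ S ↔ t ∉ Bs N ω := fun t => by
    rw [hS, Set.mem_compl_iff, Finset.mem_coe]
  have hX : ∀ t, t ∈ Xs N ω → t ∈ S := fun t ht => by
    rw [hmem, notMem_Bs]; exact Or.inl ht
  -- paths of explored triangles
  have h1 : ∀ t0 t, t0 ∉ hexB N → Relation.ReflTransGen (XStep ω) t0 t →
      Relation.ReflTransGen (StepIn S) t0 t := by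
    intro t0 t h0 h
    induction h with
    | refl => exact Relation.ReflTransGen.refl
    | @tail b d h2 h3 ih =>
      exact ih.tail ⟨hX _ ⟨t0, h0, h2⟩, hX _ ⟨t0, h0, h2.tail h3⟩, h3.1⟩
  -- everything is joined to the outside
  have h2 : ∀ t ∈ S, ∃ t0, t0 ∉ hexB N ∧ Relation.ReflTransGen (StepIn S) t0 t := by
    intro t ht
    have ht' := ht
    rw [hmem, notMem_Bs] at ht
    rcases ht with ⟨t0, h3, h4⟩ | ⟨u, hu, t0, h3, h4⟩
    · exact ⟨t0, h3, h1 t0 t h3 h4⟩
    · exact ⟨t0, h3, (h1 t0 u h3 h4).tail ⟨hX u ⟨t0, h3, h4⟩, ht', adj_symm hu⟩⟩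
  have h3 : ∀ t0 t1, t0 ∉ hexB N → t1 ∉ hexB N → Relation.ReflTransGen (StepIn S) t0 t1 := by
    intro t0 t1 ht0 ht1
    have := conn_hexB N t0 (by simpa using ht0) t1 (by simpa using ht1)
    refine Relation.ReflTransGen.mono (fun a b hab => ?_) _ _ this
    exact ⟨hX a (xs_of_notMem ω (by simpa using hab.1)), hX b (xs_of_notMem ω (by simpa using hab.2.1)),
      hab.2.2⟩
  intro u hu v hv
  obtain ⟨t0, h4, h5⟩ := h2 u hu
  obtain ⟨t1, h6, h7⟩ := h2 v hv
  exact ((path_symm h5).trans (h3 t0 t1 h4 h6)).trans h7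

/-- the minus closed status of a triangle off `B` is seen from outside `B` -/
theorem mC_congr {B : Finset P2} {ω ω' : Cfg} (h1 : ∀ v, v ∉ IV B → s1 (ω.1 v) = s1 (ω'.1 v))
    (h2 : ∀ t, t ∉ B → ω.2 t = ω'.2 t) {t : P2} (ht : t ∉ B) : mC ω t ↔ mC ω' t := by
  unfold mC
  rw [h1 t (fun h => ht (IV_sub B h)), h2 t ht]

/-- the event `Bs N ω = B` depends only on `(s1, z)` off `B` -/
theorem Bs_congr {N : ℕ} {B : Finset P2} {ω ω' : Cfg} (h1 : ∀ v, v ∉ IV B → s1 (ω.1 v) = s1 (ω'.1 v))
    (h2 : ∀ t, t ∉ B → ω.2 t = ω'.2 t) (hB : Bs N ω = B) : Bs N ω' = B := by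
  have hst : ∀ t, t ∉ B → (mC ω t ↔ mC ω' t) := fun t ht => mC_congr h1 h2 ht
  have hX : Xs N ω' = Xs N ω := by
    ext t
    constructor
    · rintro ⟨t0, h3, h4⟩
      induction h4 with
      | refl => exact xs_of_notMem ω h3
      | @tail b d _ h5 ih =>
        by_contra h6
        have h7 : d ∉ B := by
          rw [← hB, notMem_Bs]
          exact Or.inr ⟨b, adj_symm h5.1, ih⟩
        exact h6 (xs_step ih h5.1 fun h8 => h5.2 ((hst d h7).1 h8))
    · rintro ⟨t0, h3, h4⟩
      induction h4 with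
      | refl => exact xs_of_notMem ω' h3
      | @tail b d h4 h5 ih =>
        refine xs_step ih h5.1 fun h6 => ?_
        have h7 : d ∉ B := by
          rw [← hB, notMem_Bs]
          exact Or.inl ⟨t0, h3, h4.tail h5⟩
        exact h5.2 ((hst d h7).2 h6)
  rw [← hB]
  ext t
  rw [mem_Bs, mem_Bs, hX]

open Classical in
/-- indicator of `Bs N ω = B` -/
def BsI (N : ℕ) (B : Finset P2) (ω : Cfg) : ℝ := if Bs N ω = B then 1 else 0

theorem offTZ_BsI (N : ℕ) (B : Finset P2) : OffTZ B (BsI N B) := by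
  intro ω ω' h1 h2
  unfold BsI
  by_cases h : Bs N ω = B
  · rw [if_pos h, if_pos (Bs_congr h1 h2 h)]
  · rw [if_neg h, if_neg fun h' => h (Bs_congr (fun v hv => (h1 v hv).symm)
      (fun t ht => (h2 t ht).symm) h')]

theorem BsI_nonneg (N : ℕ) (B : Finset P2) (ω : Cfg) : 0 ≤ BsI N B ω := by
  unfold BsI; split_ifs <;> norm_num

/-- decomposition according to the unexplored domain -/
theorem sum_BsI (N : ℕ) (ω : Cfg) : ∑ B ∈ (hexB N).powerset, BsI N B ω = 1 := by
  classical
  unfold BsI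
  rw [Finset.sum_ite_eq, if_pos]
  exact Finset.mem_powerset.2 (Bs_sub ω)

/-! ### blocking -/

/-- no exploration reaches `hexB M` -/
def Blk (M N : ℕ) (ω : Cfg) : Prop := ∀ t ∈ hexB M, t ∉ Xs N ω

open Classical in
/-- indicator of the failure of blocking -/
def nBlk (M N : ℕ) (ω : Cfg) : ℝ := if Blk M N ω then 0 else 1

theorem nBlk_nonneg (M N : ℕ) (ω : Cfg) : 0 ≤ nBlk M N ω := by
  unfold nBlk; split_ifs <;> norm_num

theorem nBlk_le (M N : ℕ) (ω : Cfg) : nBlk M N ω ≤ 1 := by
  unfold nBlk; split_ifs <;> norm_num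

/-- failure of blocking is an increasing event -/
theorem incP_nBlk (M N : ℕ) : IncP (nBlk M N) := by
  intro ω ω' h
  unfold nBlk
  by_cases h1 : Blk M N ω'
  · have h2 : Blk M N ω := by
      intro t ht hX
      refine h1 t ht ?_
      obtain ⟨t0, h3, h4⟩ := hX
      refine ⟨t0, h3, Relation.ReflTransGen.mono (fun a b hab => ⟨hab.1, fun h5 => hab.2 ?_⟩) _ _ h4⟩
      exact h.m b h5
    rw [if_pos h1, if_pos h2]
  · rw [if_neg h1]
    split_ifs <;> norm_num

/-- **the RSW input** : under the maximal (F-type) laws a minus closed layer separates `hexB M` from the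
complement of `hexB N` with probability close to one -/
def BLOCK (c : ℝ) : Prop := ∀ (M : ℕ) (ε : ℝ), 0 < ε → ∃ N : ℕ, M ≤ N ∧
  ∀ᶠ F in lC scs, E c F (nBlk M N) ≤ ε

/-- it is enough to have one domain for each `M, ε` -/
theorem block_of {c : ℝ} (hc : 1 ≤ c) (h : ∀ (M : ℕ) (ε : ℝ), 0 < ε → ∃ N : ℕ, M ≤ N ∧
    ∃ F ∈ scs, E c F (nBlk M N) ≤ ε) : BLOCK c := by
  intro M ε hε
  obtain ⟨N, h1, F, hF, h2⟩ := h M ε hε
  refine ⟨N, h1, mem_lC.2 ⟨F, fun F' hF' hs => ?_⟩⟩
  exact (dom_mono hc hF hF' hs (incP_nBlk M N)).trans h2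

/-- two up triangles with a common corner are equal or adjacent -/
theorem adj_of_share {t t' v : P2} (h : v ∈ up t) (h' : v ∈ up t') : t = t' ∨ Adj t t' := by
  rw [mem_up'] at h h'
  unfold Adj
  rcases h with rfl | rfl | rfl <;> rcases h' with rfl | rfl | rfl <;> simp

/-- **open paths stay inside** -/
theorem stay_of_blk {M N : ℕ} {ω : Cfg} (h : Blk M N ω) {W : Finset P2}
    (hW : ∀ v ∈ W, ∀ t, v ∈ up t → t ∈ hexB M) : Stay W (hexB N) ω.2 := by
  intro v hv w hc
  -- stronger induction: every open triangle at the current end is not explored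
  have key : ∀ w, Relation.ReflTransGen (OStep ω.2) v w → OConn (loc (hexB N) ω.2) v w ∧
      ∀ t, ω.2 t = false → w ∈ up t → t ∉ Xs N ω := by
    intro w hw
    induction hw with
    | refl => exact ⟨oConn_refl _ _, fun t _ ht => h t (hW v hv t ht)⟩
    | @tail b d _ h2 ih =>
      obtain ⟨t, h3, h4, h5⟩ := h2
      have h6 : t ∉ Xs N ω := ih.2 t h3 h4
      have h7 : t ∈ hexB N := by
        by_contra h8
        exact h6 (xs_of_notMem ω h8)
      refine ⟨ih.1.tail ⟨t, ?_, h4, h5⟩, fun t' h8 h9 hX => ?_⟩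
      · unfold loc
        rw [if_pos h7, h3]
      · rcases adj_of_share h9 h5 with rfl | h10
        · exact h6 hX
        · exact h6 (xs_step hX h10 fun h11 => by
            have := h11.1
            rw [h3] at this
            exact absurd this (by decide))
  exact (key w hc).1

theorem subset_VF {F W : Finset P2} (h : W ⊆ F) : W ⊆ VF F := fun v hv => mem_VF'.2 (Or.inl (h hv))

/-- **Convergence modulo 4** of the F-type laws. -/
theorem conv_mod4 {c : ℝ} (hc : 1 ≤ c) (hB : BLOCK c) {W : Finset P2}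
    {f : (P2 → Bool) → (P2 → Bool) → (P2 → Bool) → ℝ} (hf : DepW W f) {C : ℝ}
    (hC : ∀ s a z, |f s a z| ≤ C) :
    ∃ a, Tendsto (fun F : Finset P2 => E c F (fun ω => f (c1 ω) (c2 ω) ω.2)) (lC scs) (𝓝 a) := by
  classical
  have hC0 : 0 ≤ C := (abs_nonneg _).trans (hC (fun _ => true) (fun _ => true) (fun _ => true))
  have hne := cls_scs.neBot
  -- window
  obtain ⟨M, hM⟩ := subset_hexB (W ∪ W.biUnion fun v => {v, (v.1 - 1, v.2), (v.1, v.2 - 1)})
  have hWM : ∀ v ∈ W, ∀ t, v ∈ up t → t ∈ hexB M := by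
    intro v hv t ht
    refine hM (Finset.mem_union_right _ (Finset.mem_biUnion.2 ⟨v, hv, ?_⟩))
    rw [mem_up'] at ht
    simp only [Finset.mem_insert, Finset.mem_singleton]
    exact ht
  have key : ∀ ε : ℝ, 0 < ε → ∃ g : Cfg → ℝ, (∃ W', LTZ W' g) ∧ ∀ᶠ F in lC scs,
      |E c F (fun ω => f (c1 ω) (c2 ω) ω.2) - E c F g| ≤ ε := by
    intro ε hε
    obtain ⟨N, _, hN⟩ := hB M (ε / (2 * C + 1)) (by positivity)
    refine ⟨fun ω => avg W f (c1 ω) ω.2 (loc (hexB N) ω.2), ⟨_, ltz_avg hf⟩, ?_⟩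
    filter_upwards [hN, mem_lC_of_subset W, mem_inf_of_right (mem_principal_self scs)] with F h1 h2 h3
    rw [E_avg h3 (subset_VF h2) c hf.depA, ← E_sub]
    have h4 : ∀ ω : Cfg, |avg W f (c1 ω) ω.2 ω.2 - avg W f (c1 ω) ω.2 (loc (hexB N) ω.2)| ≤
        2 * C * nBlk M N ω := by
      intro ω
      unfold nBlk
      split_ifs with hb
      · rw [avg_loc hf.depA (stay_of_blk hb hWM), sub_self, abs_zero, mul_zero]
      · rw [mul_one]
        have h5 := abs_avg_le hC (W := W) (c1 ω) ω.2 ω.2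
        have h6 := abs_avg_le hC (W := W) (c1 ω) ω.2 (loc (hexB N) ω.2)
        refine (abs_sub _ _).trans ?_
        linarith
    have h5 : E c F (fun ω => avg W f (c1 ω) ω.2 ω.2 - avg W f (c1 ω) ω.2 (loc (hexB N) ω.2)) ≤
        2 * C * E c F (nBlk M N) := by
      rw [← E_smul]
      exact E_mono hc fun ω _ => (le_abs_self _).trans (h4 ω)
    have h6 : -(2 * C * E c F (nBlk M N)) ≤
        E c F (fun ω => avg W f (c1 ω) ω.2 ω.2 - avg W f (c1 ω) ω.2 (loc (hexB N) ω.2)) := by
      have h7 : -(2 * C * E c F (nBlk M N)) = E c F (fun ω => (-(2 * C)) * nBlk M N ω) := by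
        rw [E_smul]; ring
      rw [h7]
      refine E_mono hc fun ω _ => ?_
      have := (abs_le.1 (h4 ω)).1
      linarith
    have h8 : 2 * C * E c F (nBlk M N) ≤ ε := by
      have h9 : 0 ≤ E c F (nBlk M N) := E_nonneg hc fun ω _ => nBlk_nonneg M N ω
      calc 2 * C * E c F (nBlk M N) ≤ (2 * C + 1) * E c F (nBlk M N) := by nlinarith
        _ ≤ (2 * C + 1) * (ε / (2 * C + 1)) := mul_le_mul_of_nonneg_left h1 (by positivity)
        _ = ε := by field_simp
    rw [abs_le]
    constructor <;> linarith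
  -- Cauchy
  have hcau : Cauchy (map (fun F : Finset P2 => E c F (fun ω => f (c1 ω) (c2 ω) ω.2)) (lC scs)) := by
    rw [Metric.cauchy_iff]
    refine ⟨hne.map _, fun ε hε => ?_⟩
    obtain ⟨g, ⟨W', hg⟩, h1⟩ := key (ε / 8) (by positivity)
    obtain ⟨a, ha⟩ := conv_ltz hc hg
    rw [Metric.tendsto_nhds] at ha
    have h2 := ha (ε / 8) (by positivity)
    refine ⟨(fun F : Finset P2 => E c F (fun ω => f (c1 ω) (c2 ω) ω.2)) ''
      {F | |E c F (fun ω => f (c1 ω) (c2 ω) ω.2) - E c F g| ≤ ε / 8 ∧ dist (E c F g) a < ε / 8},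
      image_mem_map (by filter_upwards [h1, h2] with F h3 h4 using ⟨h3, h4⟩), ?_⟩
    rintro _ ⟨F, ⟨h3, h4⟩, rfl⟩ _ ⟨F', ⟨h5, h6⟩, rfl⟩
    beta_reduce
    rw [Real.dist_eq, abs_lt] at *
    rw [abs_le] at h3 h5
    constructor <;> linarith
  obtain ⟨a, ha⟩ := cauchy_map_iff_exists_tendsto.1 hcau
  exact ⟨a, ha⟩

end Crest.Agent.R144.Pst967
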