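import Crest.Agent.R144.Rw1_146

/-!
# R144, integer models: the weakest form of the RSW statement (helper146)

* `DecS A` : decreasing events; `fkg_dec`, `fkg_inter` : `∏ Pr c F (A i) ≥ p ^ #s` for intersections;
* `Pr_mono_dom` : decreasing events are more likely in larger volumes;
* `small_pos` : `0 < Pr c (hexB N) (Blk 0 n M)` for `n + 3 ≤ N`, `n ≤ M`;
* `cover` : covering `ball a n` by balls of radius `m`, `(R + 1) m ≤ n`;
* **`rswz_of_weak`** : `WeakRSW c → RSWZ c`, where `WeakRSW c` asks only for ONE lower bound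
  `p ≤ Pr c (hexB (K n')) (Blk 0 n' (R n'))` for some `n' ∈ [n, L n]`, for every `n ≥ n₀`, any `K, R, L`.
-/

set_option autoImplicit false

noncomputable section

namespace Crest.Agent.R144.Rw146

open Finset
open Crest.Agent.R144.It844 (P2 adj_iff)
open Crest.Agent.R144.Zg349 Crest.Agent.R144.Zd349 Crest.Agent.R144.Zm349 Crest.Agent.R144.Ze349
open Crest.Agent.R144.Zf349
open Crest.Agent.R144.Pst967 (hexB mem_hexB hexB_mono conn_hexB stepIn_symm path_symm)
open Crest.Agent.R144.Rsw867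
open Crest.ProbabilityR.HexHeights (Adj)

/-! ### decreasing events -/

/-- decreasing events -/
def DecS (A : Set Cfg) : Prop := ∀ ω ω', LeP ω ω' → ω' ∈ A → ω ∈ A

theorem DecS.incP {A : Set Cfg} (h : DecS A) : IncP (ind Aᶜ) := fun ω ω' hl =>
  ind_le_ind fun h1 h2 => h1 (h ω ω' hl h2)


theorem decS_univ : DecS Set.univ := fun _ _ _ _ => trivial

theorem decS_blk (a : P2) (m N : ℕ) : DecS (Blk a m N) := fun _ _ h hω =>
  Sepr.mono (fun t ht => h.m t ht) hω

theorem Pr_compl {c : ℝ} (hc : 1 ≤ c) (F : Finset P2) (A : Set Cfg) :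
    Pr c F Aᶜ = 1 - Pr c F A := by
  rw [Pr_eq, Pr_eq, ← E_const hc F 1, ← E_sub]
  exact E_congr fun ω _ => ind_compl _ _

theorem Pr_nonneg {c : ℝ} (hc : 1 ≤ c) (F : Finset P2) (A : Set Cfg) : 0 ≤ Pr c F A :=
  E_nonneg hc fun ω _ => ind_nonneg A ω

theorem Pr_mono {c : ℝ} (hc : 1 ≤ c) {F : Finset P2} {A B : Set Cfg} (h : A ⊆ B) :
    Pr c F A ≤ Pr c F B :=
  E_mono hc fun _ _ => ind_le_ind fun hA => h hA

theorem Pr_univ {c : ℝ} (hc : 1 ≤ c) (F : Finset P2) : Pr c F Set.univ = 1 := by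
  rw [Pr_eq, ← E_const hc F 1]
  exact E_congr fun ω _ => ind_of_mem trivial

/-- FKG for two decreasing events -/
theorem fkg_dec {c : ℝ} (hc : 1 ≤ c) {F : Finset P2} (hF : SC F) {A B : Set Cfg} (hA : DecS A)
    (hB : DecS B) : Pr c F A * Pr c F B ≤ Pr c F (A ∩ B) := by
  have h1 := assoc hc hF hA.incP hB.incP
  have e : E c F (fun ω => ind Aᶜ ω * ind Bᶜ ω) = 1 - Pr c F A - Pr c F B + Pr c F (A ∩ B) := by
    rw [← E_const hc F 1, Pr_eq, Pr_eq, Pr_eq, ← E_sub, ← E_sub, ← E_add]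
    refine E_congr fun ω _ => ?_
    by_cases h1 : ω ∈ A <;> by_cases h2 : ω ∈ B
    · rw [ind_of_not_mem (A := Aᶜ) (fun h => h h1), ind_of_mem h1, ind_of_mem h2,
        ind_of_mem (A := A ∩ B) ⟨h1, h2⟩]; ring
    · rw [ind_of_not_mem (A := Aᶜ) (fun h => h h1), ind_of_mem h1, ind_of_not_mem h2,
        ind_of_not_mem (A := A ∩ B) (fun h => h2 h.2)]; ring
    · rw [ind_of_not_mem (A := Bᶜ) (fun h => h h2), ind_of_not_mem h1, ind_of_mem h2,
        ind_of_not_mem (A := A ∩ B) (fun h => h1 h.1)]; ring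
    · rw [ind_of_mem (A := Aᶜ) h1, ind_of_mem (A := Bᶜ) h2, ind_of_not_mem h1, ind_of_not_mem h2,
        ind_of_not_mem (A := A ∩ B) (fun h => h1 h.1)]; ring
  rw [e, ← Pr_eq, ← Pr_eq, Pr_compl hc, Pr_compl hc] at h1
  nlinarith

theorem decS_iInter {ι : Type*} (s : Finset ι) {A : ι → Set Cfg} (hA : ∀ i ∈ s, DecS (A i)) :
    DecS (⋂ i ∈ s, A i) := fun ω ω' hl h => by
  simp only [Set.mem_iInter] at h ⊢
  exact fun i hi => hA i hi ω ω' hl (h i hi)

/-- FKG for finite intersections of decreasing events -/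
theorem fkg_inter {c : ℝ} (hc : 1 ≤ c) {F : Finset P2} (hF : SC F) {ι : Type*} (s : Finset ι)
    {A : ι → Set Cfg} (hA : ∀ i ∈ s, DecS (A i)) {p : ℝ} (hp : 0 ≤ p)
    (h : ∀ i ∈ s, p ≤ Pr c F (A i)) : p ^ s.card ≤ Pr c F (⋂ i ∈ s, A i) := by
  classical
  induction s using Finset.induction_on with
  | empty => simp [Pr_univ hc F]
  | insert i s hi ih =>
    rw [Finset.card_insert_of_notMem hi, pow_succ, Finset.set_biInter_insert, mul_comm]
    have h1 := fkg_dec hc hF (hA i (Finset.mem_insert_self i s))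
      (decS_iInter s fun j hj => hA j (Finset.mem_insert_of_mem hj))
    have h2 := ih (fun j hj => hA j (Finset.mem_insert_of_mem hj))
      (fun j hj => h j (Finset.mem_insert_of_mem hj))
    exact (mul_le_mul (h i (Finset.mem_insert_self i s)) h2 (pow_nonneg hp _)
      (Pr_nonneg hc F _)).trans h1

/-- decreasing events are more likely in larger volumes -/
theorem Pr_mono_dom {c : ℝ} (hc : 1 ≤ c) {F F' : Finset P2} (hF : SC F) (hF' : SC F') (h : F ⊆ F')
    {A : Set Cfg} (hA : DecS A) : Pr c F A ≤ Pr c F' A := by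
  have h1 := dom_mono hc hF hF' h hA.incP
  rw [← Pr_eq, ← Pr_eq, Pr_compl hc, Pr_compl hc] at h1
  linarith

/-! ### small scales -/

/-- hexagonal norm -/
def nn (v : P2) : ℤ := max (max (max v.1 (-v.1)) (max v.2 (-v.2))) (max (v.1 + v.2) (-(v.1 + v.2)))

theorem mem_hexB_iff {n : ℕ} {v : P2} : v ∈ hexB n ↔ nn v ≤ n := by
  rw [mem_hexB, nn, abs_le, abs_le, abs_le]
  omega

/-- a plateau of height 2 -/
def plat (N : ℕ) (v : P2) : ℤ := max 0 (min 2 ((N : ℤ) - nn v))

theorem plat_two {N : ℕ} {v : P2} (h : nn v + 2 ≤ N) : plat N v = 2 := by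
  unfold plat; omega

theorem plat_zero {N : ℕ} {v : P2} (h : (N : ℤ) ≤ nn v) : plat N v = 0 := by
  unfold plat; omega

theorem nn_up {t v : P2} (h : v ∈ up t) : |nn v - nn t| ≤ 1 := by
  obtain ⟨t1, t2⟩ := t
  obtain ⟨v1, v2⟩ := v
  rw [mem_up] at h
  simp only [Prod.mk.injEq] at h
  simp only [nn, abs_le]
  omega

theorem nn_up_up {t u v : P2} (hu : u ∈ up t) (hv : v ∈ up t) : |nn u - nn v| ≤ 1 := by
  obtain ⟨t1, t2⟩ := t
  obtain ⟨v1, v2⟩ := v
  obtain ⟨u1, u2⟩ := u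
  rw [mem_up] at hu hv
  simp only [Prod.mk.injEq] at hu hv
  simp only [nn, abs_le]
  omega

theorem plat_lip {N : ℕ} {t : P2} : ∀ i j, |plat N (cr t i) - plat N (cr t j)| ≤ 1 := by
  rw [lip_iff_up]
  intro u hu v hv
  have h := nn_up_up hu hv
  rw [abs_le] at h ⊢
  unfold plat
  omega

theorem hv_plat (N : ℕ) : HV (hexB N) (plat N) where
  lip := fun _ _ => plat_lip
  bd := fun v hv => by
    left
    apply plat_zero
    rw [mem_IV, mem_hexB_iff, mem_hexB_iff, mem_hexB_iff] at hv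
    simp only [nn] at hv ⊢
    omega
  off := fun v hv => by
    apply plat_zero
    have : v ∉ hexB N := fun h => hv (Zg349.mem_VF.2 ⟨v, h, mem_up.2 (Or.inl rfl)⟩)
    rw [mem_hexB_iff] at this
    omega

open Classical in
/-- the plateau configuration -/
def platC (N : ℕ) : Cfg := (plat N, fun t => decide (t ∉ hexB N ∨ C1 (plat N) t))

theorem valid_platC (N : ℕ) : Valid (hexB N) (platC N) where
  ht := hv_plat N
  cl := fun t ht => by unfold platC; simp [ht]

theorem wt_platC (c : ℝ) (N : ℕ) : wt c (hexB N) (platC N) = 1 := by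
  unfold wt
  refine Finset.prod_eq_one fun t ht => ?_
  unfold ew platC
  by_cases h : C1 (plat N) t
  · simp [h]
  · have h2 := (c1_or_c2 (h := plat N) (t := t) plat_lip).resolve_left h
    simp [h, h2, ht]

theorem mC_platC {n N : ℕ} (h : n + 3 ≤ N) {t : P2} (ht : t ∈ hexB n) : mC (platC N) t := by
  have h1 : ∀ v ∈ up t, plat N v = 2 := fun v hv => by
    apply plat_two
    have h2 := nn_up hv
    rw [abs_le] at h2
    rw [mem_hexB_iff] at ht
    omega
  refine ⟨?_, ?_⟩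
  · unfold platC
    simp only [decide_eq_true_eq]
    right
    rw [c1_iff_up]
    intro u hu v hv
    rw [h1 u hu, h1 v hv]
  · show s1 (plat N t) = false
    rw [h1 t (mem_up.2 (Or.inl rfl))]
    decide

theorem sepr_of_ball {S : Set P2} {a : P2} {m N : ℕ} (hmN : m ≤ N) (h : ∀ t ∈ ball a m, t ∈ S) :
    Sepr S a m N := by
  intro u v hu hv p
  rcases Relation.ReflTransGen.cases_tail p with e | ⟨w, _, hw⟩
  · exact hu (e ▸ ball_mono a hmN hv)
  · exact hw.2.1 (h v hv)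

/-- every fixed scale has positive probability -/
theorem small_pos {c : ℝ} (hc : 1 ≤ c) {n N M : ℕ} (hN : n + 3 ≤ N) (hM : n ≤ M) :
    0 < Pr c (hexB N) (Blk 0 n M) := by
  have hmem : platC N ∈ Blk 0 n M := by
    refine sepr_of_ball hM fun t ht => ?_
    rw [ball_zero_eq] at ht
    exact mC_platC hN ht
  have h1 : pr c (hexB N) (platC N) * ind (Blk 0 n M) (platC N) ≤ Pr c (hexB N) (Blk 0 n M) := by
    rw [Pr_eq]
    unfold E
    exact Finset.single_le_sum (f := fun ω => pr c (hexB N) ω * ind (Blk 0 n M) ω)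
      (fun ω _ => mul_nonneg (pr_nonneg hc _ ω) (ind_nonneg _ ω)) (mem_conf.2 (valid_platC N))
  rw [ind_of_mem hmem, mul_one, pr_of_valid c (valid_platC N), wt_platC] at h1
  exact lt_of_lt_of_le (div_pos one_pos (Z_pos hc _)) h1

/-! ### the covering -/

theorem ball_sub_ball {a x : P2} {m n k : ℕ} (hx : x ∈ ball a n) (h : n + m ≤ k) :
    ball x m ⊆ ball a k := by
  intro v hv
  rw [mem_ball] at *
  simp only [abs_le] at *
  omega

/-- spacing-`s` grid around `a` -/
def gp (a : P2) (s : ℕ) (k : P2) : P2 := (a.1 + s * k.1, a.2 + s * k.2)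

theorem exists_gp {a v : P2} {s n : ℕ} (hs : 1 ≤ s) (hv : v ∈ ball a n) :
    ∃ k : P2, v ∈ ball (gp a s k) (2 * s) ∧ gp a s k ∈ ball a (n + 2 * s) ∧
      (s : ℤ) * |k.1| ≤ n + s ∧ (s : ℤ) * |k.2| ≤ n + s := by
  have hs' : (0 : ℤ) < s := by exact_mod_cast hs
  refine ⟨((v.1 - a.1) / s, (v.2 - a.2) / s), ?_, ?_, ?_, ?_⟩
  all_goals
    have e1 := Int.mul_ediv_add_emod (v.1 - a.1) s
    have e2 := Int.mul_ediv_add_emod (v.2 - a.2) s
    have r1 := Int.emod_nonneg (v.1 - a.1) hs'.ne'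
    have r2 := Int.emod_nonneg (v.2 - a.2) hs'.ne'
    have r3 := Int.emod_lt_of_pos (v.1 - a.1) hs'
    have r4 := Int.emod_lt_of_pos (v.2 - a.2) hs'
    rw [mem_ball] at hv
    simp only [abs_le] at hv
    set q1 := (v.1 - a.1) / (s : ℤ)
    set q2 := (v.2 - a.2) / (s : ℤ)
    set r := (v.1 - a.1) % (s : ℤ)
    set r' := (v.2 - a.2) % (s : ℤ)
  · rw [mem_ball]
    simp only [gp, abs_le]
    push_cast
    generalize (s : ℤ) * q1 = A at *
    generalize (s : ℤ) * q2 = B at *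
    omega
  · rw [mem_ball]
    simp only [gp, abs_le]
    push_cast
    generalize (s : ℤ) * q1 = A at *
    generalize (s : ℤ) * q2 = B at *
    omega
  · have e3 : (s : ℤ) * |q1| = |(s : ℤ) * q1| := by rw [abs_mul, abs_of_pos hs']
    show (s : ℤ) * |q1| ≤ _
    rw [e3, abs_le]
    generalize (s : ℤ) * q1 = A at *
    omega
  · have e3 : (s : ℤ) * |q2| = |(s : ℤ) * q2| := by rw [abs_mul, abs_of_pos hs']
    show (s : ℤ) * |q2| ≤ _
    rw [e3, abs_le]
    generalize (s : ℤ) * q2 = B at *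
    omega

/-- the index set of the covering -/
def ix (L : ℕ) : Finset P2 := Finset.Icc (-(L : ℤ)) L ×ˢ Finset.Icc (-(L : ℤ)) L

theorem mem_ix {L : ℕ} {k : P2} : k ∈ ix L ↔ |k.1| ≤ L ∧ |k.2| ≤ L := by
  unfold ix
  rw [Finset.mem_product, Finset.mem_Icc, Finset.mem_Icc, abs_le, abs_le]

open Classical in
/-- the events of the covering -/
def cev (a : P2) (n s R : ℕ) (k : P2) : Set Cfg :=
  if gp a s k ∈ ball a (n + 2 * s) then Blk (gp a s k) (2 * s) (R * (2 * s)) else Set.univ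

theorem decS_cev (a : P2) (n s R : ℕ) (k : P2) : DecS (cev a n s R k) := by
  unfold cev
  split_ifs
  · exact decS_blk _ _ _
  · exact decS_univ

theorem cover {a : P2} {n s R L : ℕ} (hs : 1 ≤ s) (h1 : 2 * s + R * (2 * s) ≤ n) (hL : n + s ≤ s * L) :
    (⋂ k ∈ ix L, cev a n s R k) ⊆ Blk a n (2 * n) := by
  intro ω hω u v hu hv p
  obtain ⟨k, hk1, hk2, hk3, hk4⟩ := exists_gp hs hv
  have hs' : (0 : ℤ) < s := by exact_mod_cast hs
  have hL' : (n : ℤ) + s ≤ s * L := by exact_mod_cast hL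
  have hk : k ∈ ix L := mem_ix.2 ⟨le_of_mul_le_mul_left (hk3.trans hL') hs',
    le_of_mul_le_mul_left (hk4.trans hL') hs'⟩
  have h2 := Set.mem_iInter₂.1 hω k hk
  unfold cev at h2
  rw [if_pos hk2] at h2
  refine h2 u v (fun h3 => hu ?_) hk1 p
  exact ball_sub_ball hk2 (by omega) h3

/-! ### the weak form -/

/-- **the weakest RSW statement** -/
def WeakRSW (c : ℝ) : Prop := ∃ (K R L n0 : ℕ) (p : ℝ), 0 < p ∧ ∀ n : ℕ, n0 ≤ n →
  ∃ n' : ℕ, n ≤ n' ∧ n' ≤ L * n ∧ p ≤ Pr c (hexB (K * n')) (Blk 0 n' (R * n'))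

/-- a bound in one hexagon gives the bound in all simply connected volumes -/
theorem Pr_blk_of_hexB {c : ℝ} (hc : 1 ≤ c) {N m M : ℕ} {p : ℝ}
    (h : p ≤ Pr c (hexB N) (Blk 0 m M)) {a : P2} {F : Finset P2} (hF : SC F) (hB : ball a N ⊆ F) :
    p ≤ Pr c F (Blk a m M) := by
  rw [← Pr_blk_ball c a N m M] at h
  exact h.trans (Pr_mono_dom hc (sc_ball a N) hF hB (decS_blk a m M))

theorem blk_mono {a : P2} {m m' N N' : ℕ} (hm : m' ≤ m) (hN : N ≤ N') : Blk a m N ⊆ Blk a m' N' :=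
  fun _ h => Sepr.mono_ball h hm hN

/-- **RSW from its weakest form** -/
theorem rswz_of_weak {c : ℝ} (hc : 1 ≤ c) (h : WeakRSW c) : RSWZ c := by
  obtain ⟨K0, R0, L0, n0, p0, hp0, h⟩ := h
  -- one ratio, all large scales
  set R : ℕ := R0 * L0 + 1 with hR
  set K : ℕ := K0 * L0 with hK
  have hw : ∀ n, n0 ≤ n → ∀ (a : P2) (F : Finset P2), SC F → ball a (K * n) ⊆ F →
      p0 ≤ Pr c F (Blk a n (R * n)) := by
    intro n hn a F hF hB
    obtain ⟨n', h1, h2, h3⟩ := h n hn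
    have hle : K0 * n' ≤ K * n := by
      calc K0 * n' ≤ K0 * (L0 * n) := Nat.mul_le_mul_left _ h2
        _ = K * n := by rw [hK, mul_assoc]
    have h4 := Pr_blk_of_hexB hc h3 hF ((ball_mono a hle).trans hB)
    refine h4.trans (Pr_mono hc (blk_mono h1 ?_))
    calc R0 * n' ≤ R0 * (L0 * n) := Nat.mul_le_mul_left _ h2
      _ = R0 * L0 * n := by rw [mul_assoc]
      _ ≤ R * n := Nat.mul_le_mul_right _ (by omega)
  -- the scales covered by the covering argument
  set n1 : ℕ := 2 * (R + 1) * (n0 + 1) with hn1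
  set L : ℕ := 4 * (R + 1) + 1 with hL
  set K' : ℕ := K + 5 with hK'
  -- small scales
  have hsm : ∃ p1 : ℝ, 0 < p1 ∧ ∀ n, 1 ≤ n → n < n1 → p1 ≤ Pr c (hexB (K' * n)) (Blk 0 n (2 * n)) := by
    have hpos : ∀ n, 1 ≤ n → 0 < Pr c (hexB (K' * n)) (Blk 0 n (2 * n)) := fun n hn =>
      small_pos hc (by nlinarith) (by omega)
    clear_value n1
    clear hn1
    induction n1 with
    | zero => exact ⟨1, one_pos, fun n _ h => absurd h (Nat.not_lt_zero n)⟩
    | succ k ih =>
      obtain ⟨p1, hp1, hh⟩ := ih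
      rcases Nat.eq_zero_or_pos k with hk | hk
      · exact ⟨1, one_pos, fun n h1 h2 => by omega⟩
      · refine ⟨min p1 (Pr c (hexB (K' * k)) (Blk 0 k (2 * k))), lt_min hp1 (hpos k hk), ?_⟩
        intro n h1 h2
        rcases Nat.lt_succ_iff_lt_or_eq.1 h2 with h3 | h3
        · exact (min_le_left _ _).trans (hh n h1 h3)
        · rw [h3]; exact min_le_right _ _
  obtain ⟨p1, hp1, hsm⟩ := hsm
  set q : ℝ := min p0 1 with hq
  have hq0 : 0 < q := lt_min hp0 one_pos
  refine ⟨K', min p1 (q ^ (ix L).card), by omega, lt_min hp1 (pow_pos hq0 _), ?_⟩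
  intro n hn a F hF hB
  rcases lt_or_ge n n1 with hlt | hge
  · exact (min_le_left _ _).trans (Pr_blk_of_hexB hc (hsm n hn hlt) hF hB)
  · refine (min_le_right _ _).trans ?_
    -- spacing
    set s : ℕ := n / (2 * (R + 1)) with hs
    have hR0 : 0 < 2 * (R + 1) := by omega
    have hs1 : n0 + 1 ≤ s := by
      rw [hs, Nat.le_div_iff_mul_le hR0]
      calc (n0 + 1) * (2 * (R + 1)) = n1 := by rw [hn1]; ring
        _ ≤ n := hge
    have hs2 : 2 * (R + 1) * s ≤ n := Nat.mul_div_le n _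
    have hs3 : n < 2 * (R + 1) * (s + 1) := by
      have := Nat.lt_mul_div_succ n hR0
      simpa using this
    have hc1 : 2 * s + R * (2 * s) ≤ n := by nlinarith
    have hc2 : n + s ≤ s * L := by
      rw [hL]
      nlinarith
    refine le_trans ?_ (Pr_mono hc (cover (a := a) (R := R) (L := L) (by omega) hc1 hc2))
    refine fkg_inter hc hF (ix L) (fun k _ => decS_cev a n s R k) hq0.le fun k _ => ?_
    unfold cev
    split_ifs with hk
    · refine (min_le_left _ _).trans (hw (2 * s) (by omega) _ F hF ?_)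
      refine Finset.Subset.trans (ball_sub_ball hk (k := K' * n) ?_) hB
      rw [hK']
      have h5 : K * (2 * s) ≤ K * n := Nat.mul_le_mul_left _ (by nlinarith)
      have h6 : 2 * s ≤ n := by nlinarith
      have h7 : (K + 5) * n = K * n + 5 * n := by ring
      omega
    · rw [Pr_univ hc]
      exact min_le_right _ _

end Crest.Agent.R144.Rw146
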