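import Crest.Agent.R144.Rw1_146
import Crest.Agent.R144.Zs2_349

-- ▼ part R144/Tvp1_643
section

/-!
# R144, integer models: innermost plus-closed layer (helper643), geometry

* `Xi B ω` : the cluster of not-plus-closed triangles of the seed `B`;
* `Wf F₁ B ω` : the filled cluster (triangles of `F₁` which cannot leave `F₁` without meeting `Xi`);
* `sc_Wf`, `conn_Wf`, `layer_Wf` : it is simply connected, connected to `B`, all its outer neighbours
  are plus-closed;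
* `Wf_congr` : it is a function of the plus-closed triangles inside.
-/

set_option autoImplicit false

noncomputable section

namespace Crest.Agent.R144.Tvp643

open Finset
open Crest.Agent.R144.It844 (P2 adj_iff adj_symm)
open Crest.Agent.R144.Zg349 Crest.Agent.R144.Zd349 Crest.Agent.R144.Zm349 Crest.Agent.R144.Ze349
open Crest.Agent.R144.Zf349
open Crest.Agent.R144.Pst967 (hexB mem_hexB hexB_mono conn_hexB stepIn_symm path_symm)
open Crest.Agent.R144.Rsw867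
open Crest.Agent.R144.Rw146 (adj_iff_share)
open Crest.ProbabilityR.HexHeights (Adj)

/-! ### the whole lattice is connected -/

theorem path_right (a : P2) (n : ℕ) :
    Relation.ReflTransGen (StepIn Set.univ) a (a.1 + n, a.2) := by
  induction n with
  | zero => simpa using (Relation.ReflTransGen.refl : Relation.ReflTransGen (StepIn Set.univ) a a)
  | succ n ih =>
    refine ih.tail ⟨Set.mem_univ _, Set.mem_univ _, adj_iff.2 (Or.inl ?_)⟩
    refine Prod.ext ?_ rfl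
    push_cast
    ring

theorem path_up (a : P2) (n : ℕ) :
    Relation.ReflTransGen (StepIn Set.univ) a (a.1, a.2 + n) := by
  induction n with
  | zero => simpa using (Relation.ReflTransGen.refl : Relation.ReflTransGen (StepIn Set.univ) a a)
  | succ n ih =>
    refine ih.tail ⟨Set.mem_univ _, Set.mem_univ _, adj_iff.2 (Or.inr (Or.inr (Or.inl ?_)))⟩
    refine Prod.ext rfl ?_
    push_cast
    ring

theorem conn_univ (a b : P2) : Relation.ReflTransGen (StepIn Set.univ) a b := by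
  have h1 : ∀ (x : P2) (k : ℤ), Relation.ReflTransGen (StepIn Set.univ) x (x.1 + k, x.2) := by
    intro x k
    rcases le_total 0 k with hk | hk
    · obtain ⟨n, rfl⟩ := Int.eq_ofNat_of_zero_le hk
      exact path_right x n
    · obtain ⟨n, hn⟩ := Int.eq_ofNat_of_zero_le (neg_nonneg.2 hk)
      have := path_symm (path_right (x.1 + k, x.2) n)
      simp only at this
      rw [show x.1 + k + (n : ℤ) = x.1 by rw [← hn]; ring] at this
      exact this
  have h2 : ∀ (x : P2) (k : ℤ), Relation.ReflTransGen (StepIn Set.univ) x (x.1, x.2 + k) := by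
    intro x k
    rcases le_total 0 k with hk | hk
    · obtain ⟨n, rfl⟩ := Int.eq_ofNat_of_zero_le hk
      exact path_up x n
    · obtain ⟨n, hn⟩ := Int.eq_ofNat_of_zero_le (neg_nonneg.2 hk)
      have := path_symm (path_up (x.1, x.2 + k) n)
      simp only at this
      rw [show x.2 + k + (n : ℤ) = x.2 by rw [← hn]; ring] at this
      exact this
  have h3 := h1 a (b.1 - a.1)
  have h4 := h2 (a.1 + (b.1 - a.1), a.2) (b.2 - a.2)
  have h5 : ((a.1 + (b.1 - a.1), a.2 + (b.2 - a.2)) : P2) = b := by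
    ext <;> simp
  simp only at h4
  rw [h5] at h4
  exact h3.trans h4

/-! ### filled clusters -/

/-- filling of `X` inside `F₁` -/
def fil (F₁ : Finset P2) (X : Set P2) : Set P2 :=
  {t | t ∈ F₁ ∧ ¬ ∃ u, u ∉ F₁ ∧ Relation.ReflTransGen (StepIn Xᶜ) t u}

theorem sub_fil {F₁ : Finset P2} {X : Set P2} (hX : X ⊆ F₁) : X ⊆ fil F₁ X := by
  intro t ht
  refine ⟨hX ht, ?_⟩
  rintro ⟨u, hu, h⟩
  rcases Relation.ReflTransGen.cases_head h with h | ⟨w, h, _⟩
  · exact hu (h ▸ hX ht)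
  · exact h.1 ht

theorem not_fil_iff {F₁ : Finset P2} {X : Set P2} {t : P2} :
    t ∉ fil F₁ X ↔ ∃ u, u ∉ F₁ ∧ Relation.ReflTransGen (StepIn Xᶜ) t u := by
  constructor
  · intro h
    by_cases ht : t ∈ F₁
    · by_contra h2
      exact h ⟨ht, h2⟩
    · exact ⟨t, ht, Relation.ReflTransGen.refl⟩
  · rintro h ⟨_, h2⟩
    exact h2 h

/-- the outer neighbours of the filling are neighbours of `X` -/
theorem fil_bd {F₁ : Finset P2} {X : Set P2} (hX : X ⊆ F₁) {t t' : P2} (ht : t ∉ fil F₁ X)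
    (ht' : t' ∈ fil F₁ X) (h : Adj t' t) : t' ∈ X := by
  by_contra h1
  obtain ⟨u, hu, hp⟩ := not_fil_iff.1 ht
  exact ht'.2 ⟨u, hu, (Relation.ReflTransGen.single ⟨h1, fun h2 => ht (sub_fil hX h2), h⟩).trans hp⟩

/-- points off the filling are connected to the outside of `F₁` off the filling -/
theorem path_fil {F₁ : Finset P2} {X : Set P2} (hX : X ⊆ F₁) {t : P2} (ht : t ∉ fil F₁ X) :
    ∃ u, u ∉ F₁ ∧ Relation.ReflTransGen (StepIn (fil F₁ X)ᶜ) t u := by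
  obtain ⟨u, hu, hp⟩ := not_fil_iff.1 ht
  refine ⟨u, hu, ?_⟩
  clear ht
  induction hp using Relation.ReflTransGen.head_induction_on with
  | refl => exact Relation.ReflTransGen.refl
  | @head a b hab hbu ih =>
    refine Relation.ReflTransGen.head ⟨?_, ?_, hab.2.2⟩ ih
    · exact not_fil_iff.2 ⟨u, hu, Relation.ReflTransGen.head hab hbu⟩
    · exact not_fil_iff.2 ⟨u, hu, hbu⟩

theorem conn_fil_compl {F₁ : Finset P2} (hF : SC F₁) {X : Set P2} (hX : X ⊆ F₁) :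
    IsConn (fil F₁ X)ᶜ := by
  intro a ha b hb
  obtain ⟨u, hu, h1⟩ := path_fil hX ha
  obtain ⟨v, hv, h2⟩ := path_fil hX hb
  have h3 : Relation.ReflTransGen (StepIn (fil F₁ X)ᶜ) u v :=
    path_mono (S := ((F₁ : Finset P2) : Set P2)ᶜ) (T := (fil F₁ X)ᶜ)
      (fun x hx h => hx (Finset.mem_coe.2 h.1)) (hF u hu v hv)
  exact (h1.trans h3).trans (path_symm h2)

/-- a point of the filling is connected to `X` inside the filling -/
theorem fil_to {F₁ : Finset P2} {X : Set P2} (hX : X ⊆ F₁) {t x : P2} (hx : x ∈ X)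
    (ht : t ∈ fil F₁ X) : ∃ y ∈ X, Relation.ReflTransGen (StepIn (fil F₁ X)) t y := by
  have key : ∀ a b : P2, Relation.ReflTransGen (StepIn Set.univ) a b → a ∈ fil F₁ X →
      (∃ y ∈ X, Relation.ReflTransGen (StepIn (fil F₁ X)) a y) ∨
        (b ∈ fil F₁ X ∧ Relation.ReflTransGen (StepIn (fil F₁ X)) a b) := by
    intro a b hab ha
    induction hab with
    | refl => exact Or.inr ⟨ha, Relation.ReflTransGen.refl⟩
    | @tail b d _ hbd ih =>
      rcases ih with h1 | ⟨hb, h1⟩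
      · exact Or.inl h1
      · by_cases hbX : b ∈ X
        · exact Or.inl ⟨b, hbX, h1⟩
        · have hd : d ∈ fil F₁ X := by
            by_contra hd
            exact hbX (fil_bd hX hd hb hbd.2.2)
          exact Or.inr ⟨hd, h1.tail ⟨hb, hd, hbd.2.2⟩⟩
  rcases key t x (conn_univ t x) ht with h | ⟨_, h⟩
  · exact h
  · exact ⟨x, hx, h⟩

/-! ### the innermost layer -/

/-- the cluster of not-plus-closed triangles of the seed `B` -/
def Xi (B : Finset P2) (ω : Cfg) : Set P2 :=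
  {t | ∃ v ∈ B, Relation.ReflTransGen (StepIn ({t | ¬ pC ω t} ∪ (B : Set P2))) v t}

theorem seed_sub_Xi (B : Finset P2) (ω : Cfg) : (B : Set P2) ⊆ Xi B ω := fun v hv =>
  ⟨v, hv, Relation.ReflTransGen.refl⟩

theorem Xi_sub (B : Finset P2) (ω : Cfg) : Xi B ω ⊆ {t | ¬ pC ω t} ∪ (B : Set P2) := by
  rintro t ⟨v, hv, h⟩
  rcases Relation.ReflTransGen.cases_tail h with h | ⟨w, _, h⟩
  · exact Or.inr (h ▸ hv)
  · exact h.2.1

theorem Xi_step {B : Finset P2} {ω : Cfg} {t t' : P2} (ht : t ∈ Xi B ω) (h : Adj t t')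
    (hp : ¬ pC ω t') : t' ∈ Xi B ω := by
  obtain ⟨v, hv, hp'⟩ := ht
  exact ⟨v, hv, hp'.tail ⟨Xi_sub B ω ⟨v, hv, hp'⟩, Or.inl hp, h⟩⟩

/-- every point of `Xi` is connected to the seed inside `Xi` -/
theorem Xi_conn {B : Finset P2} {ω : Cfg} {t : P2} (ht : t ∈ Xi B ω) :
    ∃ v ∈ B, Relation.ReflTransGen (StepIn (Xi B ω)) v t := by
  obtain ⟨v, hv, h⟩ := ht
  refine ⟨v, hv, ?_⟩
  induction h with
  | refl => exact Relation.ReflTransGen.refl
  | @tail b d hvb hbd ih =>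
    exact ih.tail ⟨⟨v, hv, hvb⟩, ⟨v, hv, hvb.tail hbd⟩, hbd.2.2⟩

open Classical in
/-- the filled cluster -/
def Wf (F₁ B : Finset P2) (ω : Cfg) : Finset P2 := F₁.filter fun t => t ∈ fil F₁ (Xi B ω)

theorem coe_Wf {F₁ B : Finset P2} {ω : Cfg} : ((Wf F₁ B ω : Finset P2) : Set P2) = fil F₁ (Xi B ω) := by
  classical
  ext t
  rw [Wf, Finset.mem_coe, Finset.mem_filter, and_iff_right_iff_imp]
  exact fun h => h.1

theorem mem_Wf {F₁ B : Finset P2} {ω : Cfg} {t : P2} : t ∈ Wf F₁ B ω ↔ t ∈ fil F₁ (Xi B ω) := by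
  rw [← coe_Wf, Finset.mem_coe]

theorem Wf_sub (F₁ B : Finset P2) (ω : Cfg) : Wf F₁ B ω ⊆ F₁ := fun _ ht => (mem_Wf.1 ht).1

section
variable {F₁ B : Finset P2} {ω : Cfg} (hX : Xi B ω ⊆ (F₁ : Set P2))
include hX

theorem sc_Wf (hF : SC F₁) : SC (Wf F₁ B ω) := by
  unfold SC
  rw [coe_Wf]
  exact conn_fil_compl hF hX

theorem Xi_sub_Wf {t : P2} (ht : t ∈ Xi B ω) : t ∈ Wf F₁ B ω := mem_Wf.2 (sub_fil hX ht)

theorem seed_sub_Wf : B ⊆ Wf F₁ B ω := fun _ ht => Xi_sub_Wf hX (seed_sub_Xi B ω ht)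

/-- outer neighbours of the filled cluster are plus closed -/
theorem layer_Wf {t t' : P2} (ht : t ∉ Wf F₁ B ω) (ht' : t' ∈ Wf F₁ B ω) (h : Adj t' t) : pC ω t := by
  by_contra hp
  have h1 : t' ∈ Xi B ω := fil_bd hX (fun h => ht (mem_Wf.2 h)) (mem_Wf.1 ht') h
  exact ht (Xi_sub_Wf hX (Xi_step h1 h hp))

/-- the filled cluster is connected to the seed -/
theorem conn_Wf (hB : B.Nonempty) {t : P2} (ht : t ∈ Wf F₁ B ω) :
    ∃ v ∈ B, Relation.ReflTransGen (StepIn (Wf F₁ B ω : Set P2)) v t := by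
  obtain ⟨b, hb⟩ := hB
  obtain ⟨y, hy, h1⟩ := fil_to hX (seed_sub_Xi B ω hb) (mem_Wf.1 ht)
  obtain ⟨v, hv, h2⟩ := Xi_conn hy
  refine ⟨v, hv, (path_mono (fun x hx => ?_) h2).trans (path_symm (path_mono (fun x hx => ?_) h1))⟩
  · exact Finset.mem_coe.2 (Xi_sub_Wf hX hx)
  · rw [coe_Wf]; exact hx

end

/-- the cluster does not leave a set with plus closed outer neighbours -/
theorem Xi_sub_of {B W : Finset P2} {ω : Cfg} (hBW : B ⊆ W)
    (hL : ∀ t, t ∉ W → ∀ t' ∈ W, Adj t' t → pC ω t) : Xi B ω ⊆ (W : Set P2) := by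
  rintro t ⟨v, hv, h⟩
  induction h with
  | refl => exact hBW hv
  | @tail b d _ hbd ih =>
    by_contra hd
    rcases hbd.2.1 with h | h
    · exact h (hL d hd b ih hbd.2.2)
    · exact hd (hBW h)

/-- `Xi` only depends on the plus closed triangles inside -/
theorem Xi_congr {B W : Finset P2} {ω ω' : Cfg} (hBW : B ⊆ W)
    (hL : ∀ t, t ∉ W → ∀ t' ∈ W, Adj t' t → pC ω t) (h : ∀ t ∈ W, (pC ω t ↔ pC ω' t)) :
    Xi B ω ⊆ Xi B ω' := by
  rintro t ⟨v, hv, hp⟩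
  have key : ∀ b, Relation.ReflTransGen (StepIn ({t | ¬ pC ω t} ∪ (B : Set P2))) v b →
      b ∈ W ∧ Relation.ReflTransGen (StepIn ({t | ¬ pC ω' t} ∪ (B : Set P2))) v b := by
    intro b hb
    have hbW : b ∈ W := Xi_sub_of hBW hL ⟨v, hv, hb⟩
    refine ⟨hbW, ?_⟩
    clear hbW
    induction hb with
    | refl => exact Relation.ReflTransGen.refl
    | @tail b d hvb hbd ih =>
      have hb : b ∈ W := Xi_sub_of hBW hL ⟨v, hv, hvb⟩
      have hd : d ∈ W := Xi_sub_of hBW hL ⟨v, hv, hvb.tail hbd⟩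
      refine ih.tail ⟨?_, ?_, hbd.2.2⟩
      · rcases hbd.1 with h1 | h1
        · exact Or.inl fun h2 => h1 ((h b hb).2 h2)
        · exact Or.inr h1
      · rcases hbd.2.1 with h1 | h1
        · exact Or.inl fun h2 => h1 ((h d hd).2 h2)
        · exact Or.inr h1
  exact ⟨v, hv, (key t hp).2⟩

theorem Xi_eq {B W : Finset P2} {ω ω' : Cfg} (hBW : B ⊆ W)
    (hL : ∀ t, t ∉ W → ∀ t' ∈ W, Adj t' t → pC ω t)
    (hL' : ∀ t, t ∉ W → ∀ t' ∈ W, Adj t' t → pC ω' t)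
    (h : ∀ t ∈ W, (pC ω t ↔ pC ω' t)) : Xi B ω = Xi B ω' :=
  Set.Subset.antisymm (Xi_congr hBW hL h) (Xi_congr hBW hL' fun t ht => (h t ht).symm)

/-- a blocking layer of 867 -/
theorem Xi_sub_ball {a : P2} {m N : ℕ} (hmN : m + 1 ≤ N) {ω : Cfg} (h : ω ∈ BlkP a (m + 1) N) :
    Xi (ball a m) ω ⊆ (ball a N : Set P2) := by
  rintro t ⟨v, hv, hp⟩
  by_contra ht
  have key : ∀ b, Relation.ReflTransGen (StepIn ({t | ¬ pC ω t} ∪ (ball a m : Set P2))) v b →
      b ∈ ball a m ∨ ∃ w ∈ ball a (m + 1), Relation.ReflTransGen (StepIn {t | pC ω t}ᶜ) w b := by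
    intro b hb
    induction hb with
    | refl => exact Or.inl hv
    | @tail b d _ hbd ih =>
      by_cases hd : d ∈ ball a m
      · exact Or.inl hd
      · have hd' : ¬ pC ω d := by
          rcases hbd.2.1 with h1 | h1
          · exact h1
          · exact absurd h1 hd
        rcases ih with h1 | ⟨w, hw, h1⟩
        · exact Or.inr ⟨d, adj_ball h1 hbd.2.2, Relation.ReflTransGen.refl⟩
        · rcases hbd.1 with h2 | h2
          · exact Or.inr ⟨w, hw, h1.tail ⟨h2, hd', hbd.2.2⟩⟩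
          · exact Or.inr ⟨d, adj_ball h2 hbd.2.2, Relation.ReflTransGen.refl⟩
  rcases key t hp with h1 | ⟨w, hw, h1⟩
  · exact ht (ball_mono a (by omega) h1)
  · exact h t w ht hw (path_symm h1)

end Crest.Agent.R144.Tvp643
end
end

-- ▼ part R144/Tvp2_643
section

/-!
# R144, integer models: total variation closeness of maximal laws (helper643)

Innermost plus-closed layer around a seed `B`: `E_F[f ; W] = P_F(layer of W) * E_W[f ; W]`, and
`P_F(layer of W)` is decreasing in `F`. Hence for `F₁ ⊆ F₂` and every `0 ≤ f ≤ 1` seen from `B`: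
`|E c F₁ f - E c F₂ f| ≤ E c F₂ (no layer)`.
-/

set_option autoImplicit false

noncomputable section

namespace Crest.Agent.R144.Tvp643

open Finset
open Crest.Agent.R144.It844 (P2 adj_iff adj_symm)
open Crest.Agent.R144.Zg349 Crest.Agent.R144.Zk349 Crest.Agent.R144.Zd349 Crest.Agent.R144.Zm349
open Crest.Agent.R144.Ze349
open Crest.Agent.R144.Zf349 Crest.Agent.R144.Zs349
open Crest.Agent.R144.Pst967 (hexB mem_hexB hexB_mono conn_hexB stepIn_symm path_symm)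
open Crest.Agent.R144.Rsw867
open Crest.Agent.R144.Rw146 (adj_iff_share)
open Crest.ProbabilityR.HexHeights (Adj)

/-! ### layer event -/

/-- all triangles off `W` touching `W` are plus closed -/
def LP (W : Finset P2) : Set Cfg := {ω | ∀ t, t ∉ W → (∃ v ∈ VF W, v ∈ up t) → pC ω t}

theorem touch_of_adj {W : Finset P2} {t t' : P2} (ht' : t' ∈ W) (h : Adj t' t) :
    ∃ v ∈ VF W, v ∈ up t := by
  obtain ⟨_, v, h1, h2⟩ := adj_iff_share.1 h
  exact ⟨v, mem_VF.2 ⟨t', ht', h1⟩, h2⟩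

theorem adj_of_touch {W : Finset P2} {t : P2} (ht : t ∉ W) (h : ∃ v ∈ VF W, v ∈ up t) :
    ∃ t' ∈ W, Adj t' t := by
  obtain ⟨v, hv, hvt⟩ := h
  obtain ⟨t', ht', hv'⟩ := mem_VF.1 hv
  exact ⟨t', ht', adj_iff_share.2 ⟨fun e => ht (e ▸ ht'), v, hv', hvt⟩⟩

theorem LP.mono {W : Finset P2} {ω ω' : Cfg} (h : LeP ω ω') (hω : ω ∈ LP W) : ω' ∈ LP W :=
  fun t ht h1 => h.p t (hω t ht h1)


theorem lay_of_LP {c : ℝ} {F W : Finset P2} {ω : Cfg} (hω : Valid F ω) (hw : wt c F ω ≠ 0)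
    (h : ω ∈ LP W) : Lay true W ω := lay_of hω hw h

theorem LP_of_lay {W : Finset P2} {ω : Cfg} (h : Lay true W ω) : ω ∈ LP W := fun t ht h1 =>
  ⟨(h t ht h1).1, (h t ht h1).2 t (base_mem_up t)⟩

theorem pC_of_valid {W : Finset P2} {ω : Cfg} (h : Valid W ω) {t : P2} (ht : t ∉ W) : pC ω t :=
  ⟨h.cl t ht, h.ht.s1_bd fun h' => ht (IV_sub W h')⟩

/-! ### cluster events -/

/-- the filled cluster of `B` is `W` -/
def DW (F₁ B W : Finset P2) : Set Cfg := {ω | Xi B ω ⊆ (F₁ : Set P2) ∧ Wf F₁ B ω = W}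

/-- possible filled clusters -/
structure Nice (F₁ B W : Finset P2) : Prop where
  sc : SC W
  seed : B ⊆ W
  sub : W ⊆ F₁
  conn : IsConn (W : Set P2)

theorem nice_of_DW {F₁ B W : Finset P2} (hF : SC F₁) (hB : B.Nonempty) (hBc : IsConn (B : Set P2))
    {ω : Cfg} (h : ω ∈ DW F₁ B W) : Nice F₁ B W := by
  obtain ⟨h1, rfl⟩ := h
  refine ⟨sc_Wf h1 hF, seed_sub_Wf h1, Wf_sub _ _ _, fun a ha b hb => ?_⟩
  obtain ⟨v, hv, hp⟩ := conn_Wf h1 hB (Finset.mem_coe.1 ha)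
  obtain ⟨w, hw, hq⟩ := conn_Wf h1 hB (Finset.mem_coe.1 hb)
  have h2 := path_mono (Finset.coe_subset.2 (seed_sub_Wf h1)) (hBc v hv w hw)
  exact ((path_symm hp).trans h2).trans hq

theorem LP_of_DW {F₁ B W : Finset P2} {ω : Cfg} (h : ω ∈ DW F₁ B W) : ω ∈ LP W := by
  obtain ⟨h1, rfl⟩ := h
  intro t ht h2
  obtain ⟨t', ht', h3⟩ := adj_of_touch ht h2
  exact layer_Wf h1 ht ht' h3

theorem pC_glue {W : Finset P2} {ω ω' : Cfg} (hW : SC W) (hl : It844.Lip ω.1) (hL : Lay true W ω)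
    {t : P2} (ht : t ∈ W) : pC (glue true W ω ω') t ↔ pC ω' t := by
  have hv : t ∈ VF W := mem_VF.2 ⟨t, ht, base_mem_up t⟩
  unfold pC
  rw [glue_z ht, glue_in hv, s1_lev (lev_mod hW hl hL hv)]

theorem Xi_glue {F₁ B W : Finset P2} {ω ω' : Cfg} (hN : Nice F₁ B W) (hl : It844.Lip ω.1)
    (hL : Lay true W ω) (hω' : Valid W ω') : Xi B (glue true W ω ω') = Xi B ω' := by
  refine Xi_eq hN.seed (fun t ht t' ht' h => ?_) (fun t ht _ _ _ => pC_of_valid hω' ht)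
    fun t ht => pC_glue hN.sc hl hL ht
  exact LP_of_lay (glue_lay hN.sc hl hL hω') t ht (touch_of_adj ht' h)

theorem DW_glue {F₁ B W : Finset P2} {ω ω' : Cfg} (hN : Nice F₁ B W) (hl : It844.Lip ω.1)
    (hL : Lay true W ω) (hω' : Valid W ω') :
    glue true W ω ω' ∈ DW F₁ B W ↔ ω' ∈ DW F₁ B W := by
  have e := Xi_glue hN hl hL hω'
  have e2 : Wf F₁ B (glue true W ω ω') = Wf F₁ B ω' := by
    ext t
    rw [mem_Wf, mem_Wf, e]
  constructor
  · rintro ⟨h1, h2⟩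
    exact ⟨e ▸ h1, e2 ▸ h2⟩
  · rintro ⟨h1, h2⟩
    exact ⟨by rw [e]; exact h1, by rw [e2]; exact h2⟩

/-! ### one term -/

theorem step {c : ℝ} (hc : 1 ≤ c) {F F₁ B W : Finset P2} (hN : Nice F₁ B W) (hWF : W ⊆ F)
    {Q : Set Cfg} (ho : OffTZ W (ind Q)) {f : Cfg → ℝ}
    (hf : ∀ ω ω', Valid F ω → Lay true W ω → Valid W ω' → ω ∈ Q → f (glue true W ω ω') = f ω') :
    E c F (fun ω => ind (DW F₁ B W) ω * ind Q ω * f ω) =
      E c W (fun ω' => ind (DW F₁ B W) ω' * f ω') * E c F (fun ω => ind (LP W) ω * ind Q ω) := by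
  have h1 := E_dec (e := true) hc hN.sc hWF
    (Ψ := fun ω => ind (DW F₁ B W) ω * ind Q ω * f ω)
    (g := fun ω => ind (LP W) ω * ind Q ω)
    (φ := fun _ ω' => ind (DW F₁ B W) ω' * f ω') ?_ ?_
  · rw [h1, ← E_smul]
    congr 1
    funext ω
    ring
  · intro ω hω hw hL
    have a : ω ∉ LP W := fun h => hL (lay_of_LP hω hw h)
    have b : ω ∉ DW F₁ B W := fun h => a (LP_of_DW h)
    exact ⟨by rw [ind_of_not_mem b, zero_mul, zero_mul], by rw [ind_of_not_mem a, zero_mul]⟩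
  · intro ω ω' hω hw hL hω'
    have hl := hω.ht.toLip
    have a : ind Q (glue true W ω ω') = ind Q ω := offTZ_glue hN.sc hl hL hω' ho
    have b : ind (DW F₁ B W) (glue true W ω ω') = ind (DW F₁ B W) ω' :=
      ind_congr (DW_glue hN hl hL hω')
    show ind (DW F₁ B W) (glue true W ω ω') * ind Q (glue true W ω ω') * f (glue true W ω ω') =
      ind (LP W) ω * ind Q ω * (ind (DW F₁ B W) ω' * f ω')
    rw [a, b, ind_of_mem (LP_of_lay hL)]
    by_cases hq : ω ∈ Q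
    · rw [hf ω ω' hω hL hω' hq]
      ring
    · rw [ind_of_not_mem hq]
      ring

/-! ### the sum over the possible clusters -/

/-- good event: the cluster stays in `F₁` and `Q` holds for its filling -/
def Gd (F₁ B : Finset P2) (Q : Finset P2 → Set Cfg) : Set Cfg :=
  {ω | Xi B ω ⊆ (F₁ : Set P2) ∧ ω ∈ Q (Wf F₁ B ω)}

theorem sum_DW {F₁ B : Finset P2} (Q : Finset P2 → Set Cfg) (f : Cfg → ℝ) (ω : Cfg) :
    ind (Gd F₁ B Q) ω * f ω =
      ∑ W ∈ F₁.powerset, ind (DW F₁ B W) ω * ind (Q W) ω * f ω := by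
  by_cases h : Xi B ω ⊆ (F₁ : Set P2)
  · rw [Finset.sum_eq_single (Wf F₁ B ω)]
    · rw [ind_of_mem (show ω ∈ DW F₁ B (Wf F₁ B ω) from ⟨h, rfl⟩), one_mul]
      congr 1
      exact ind_congr ⟨fun h => h.2, fun h' => ⟨h, h'⟩⟩
    · intro W _ hW
      rw [ind_of_not_mem (fun h' => hW h'.2.symm), zero_mul, zero_mul]
    · intro h'
      exact absurd (Finset.mem_powerset.2 (Wf_sub F₁ B ω)) h'
  · rw [ind_of_not_mem (fun h' => h h'.1), zero_mul]
    symm
    apply Finset.sum_eq_zero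
    intro W _
    rw [ind_of_not_mem (fun h' => h h'.1), zero_mul, zero_mul]

theorem tv_gen {c : ℝ} (hc : 1 ≤ c) {F₁ F₂ B : Finset P2} (h1 : SC F₁) (h2 : SC F₂) (h12 : F₁ ⊆ F₂)
    (hB : B.Nonempty) (hBc : IsConn (B : Set P2)) {Q₁ Q₂ : Finset P2 → Set Cfg}
    (hQ : ∀ W, W ⊆ F₁ → Q₂ W ⊆ Q₁ W)
    (hi : ∀ W ω ω', LeP ω ω' → ω ∈ Q₁ W → ω' ∈ Q₁ W)
    (ho1 : ∀ W, OffTZ W (ind (Q₁ W))) (ho2 : ∀ W, OffTZ W (ind (Q₂ W)))
    {f : Cfg → ℝ} (f0 : ∀ ω, 0 ≤ f ω)
    (hf1 : ∀ W, Nice F₁ B W → ∀ ω ω', Valid F₁ ω → Lay true W ω → Valid W ω' → ω ∈ Q₁ W →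
      f (glue true W ω ω') = f ω')
    (hf2 : ∀ W, Nice F₁ B W → ∀ ω ω', Valid F₂ ω → Lay true W ω → Valid W ω' → ω ∈ Q₂ W →
      f (glue true W ω ω') = f ω') :
    E c F₂ (fun ω => ind (Gd F₁ B Q₂) ω * f ω) ≤ E c F₁ (fun ω => ind (Gd F₁ B Q₁) ω * f ω) := by
  have e2 : (fun ω => ind (Gd F₁ B Q₂) ω * f ω) =
      fun ω => ∑ W ∈ F₁.powerset, ind (DW F₁ B W) ω * ind (Q₂ W) ω * f ω := by
    funext ω; exact sum_DW Q₂ f ω
  have e1 : (fun ω => ind (Gd F₁ B Q₁) ω * f ω) =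
      fun ω => ∑ W ∈ F₁.powerset, ind (DW F₁ B W) ω * ind (Q₁ W) ω * f ω := by
    funext ω; exact sum_DW Q₁ f ω
  rw [e1, e2, E_sum, E_sum]
  refine Finset.sum_le_sum fun W hW => ?_
  by_cases hN : Nice F₁ B W
  · rw [step hc hN (hN.sub.trans h12) (ho2 W) (hf2 W hN), step hc hN hN.sub (ho1 W) (hf1 W hN)]
    refine mul_le_mul_of_nonneg_left ?_ (E_nonneg hc fun ω _ => mul_nonneg (ind_nonneg _ _) (f0 ω))
    refine (E_mono hc fun ω _ => ?_).trans (dom_mono hc h1 h2 h12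
      (f := fun ω => ind (LP W) ω * ind (Q₁ W) ω) fun ω ω' h => ?_)
    · exact mul_le_mul_of_nonneg_left (ind_le_ind fun h => hQ W hN.sub h) (ind_nonneg _ _)
    · exact mul_le_mul (ind_le_ind fun h' => LP.mono h h') (ind_le_ind fun h' => hi W ω ω' h h')
        (ind_nonneg _ _) (ind_nonneg _ _)
  · have key : ∀ ω, ind (DW F₁ B W) ω = 0 := fun ω =>
      ind_of_not_mem fun h => hN (nice_of_DW h1 hB hBc h)
    simp only [key, zero_mul]
    exact le_of_eq (by rw [E_const hc, E_const hc])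

/-- total variation bound, abstract form -/
theorem tv_abs {c : ℝ} (hc : 1 ≤ c) {F₁ F₂ B : Finset P2} (h1 : SC F₁) (h2 : SC F₂) (h12 : F₁ ⊆ F₂)
    (hB : B.Nonempty) (hBc : IsConn (B : Set P2)) {Q₁ Q₂ : Finset P2 → Set Cfg}
    (hQ : ∀ W, W ⊆ F₁ → Q₂ W ⊆ Q₁ W)
    (hi : ∀ W ω ω', LeP ω ω' → ω ∈ Q₁ W → ω' ∈ Q₁ W)
    (ho1 : ∀ W, OffTZ W (ind (Q₁ W))) (ho2 : ∀ W, OffTZ W (ind (Q₂ W)))
    {f : Cfg → ℝ} (f0 : ∀ ω, 0 ≤ f ω) (f1 : ∀ ω, f ω ≤ 1)
    (hf1 : ∀ W, Nice F₁ B W → ∀ ω ω', Valid F₁ ω → Lay true W ω → Valid W ω' → ω ∈ Q₁ W →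
      f (glue true W ω ω') = f ω')
    (hf2 : ∀ W, Nice F₁ B W → ∀ ω ω', Valid F₂ ω → Lay true W ω → Valid W ω' → ω ∈ Q₂ W →
      f (glue true W ω ω') = f ω') :
    |E c F₁ f - E c F₂ f| ≤ E c F₂ (ind (Gd F₁ B Q₂)ᶜ) := by
  have main : ∀ g : Cfg → ℝ, (∀ ω, 0 ≤ g ω) → (∀ ω, g ω ≤ 1) →
      (∀ W, Nice F₁ B W → ∀ ω ω', Valid F₁ ω → Lay true W ω → Valid W ω' → ω ∈ Q₁ W →
        g (glue true W ω ω') = g ω') →
      (∀ W, Nice F₁ B W → ∀ ω ω', Valid F₂ ω → Lay true W ω → Valid W ω' → ω ∈ Q₂ W →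
        g (glue true W ω ω') = g ω') →
      E c F₂ g ≤ E c F₁ g + E c F₂ (ind (Gd F₁ B Q₂)ᶜ) := by
    intro g g0 g1 hg1 hg2
    have a := tv_gen hc h1 h2 h12 hB hBc hQ hi ho1 ho2 g0 hg1 hg2
    have b : E c F₁ (fun ω => ind (Gd F₁ B Q₁) ω * g ω) ≤ E c F₁ g :=
      E_mono hc fun ω _ => mul_le_of_le_one_left (g0 ω) (ind_le_one _ _)
    have d : E c F₂ g ≤ E c F₂ (fun ω => ind (Gd F₁ B Q₂) ω * g ω + ind (Gd F₁ B Q₂)ᶜ ω) := by
      refine E_mono hc fun ω _ => ?_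
      rw [ind_compl]
      have p1 := ind_nonneg (Gd F₁ B Q₂) ω
      have p2 := ind_le_one (Gd F₁ B Q₂) ω
      nlinarith [g0 ω, g1 ω]
    rw [E_add] at d
    linarith
  have p := main f f0 f1 hf1 hf2
  have q := main (fun ω => 1 - f ω) (fun ω => sub_nonneg.2 (f1 ω)) (fun ω => by linarith [f0 ω])
    (fun W hN ω ω' a b d e => by rw [hf1 W hN ω ω' a b d e])
    (fun W hN ω ω' a b d e => by rw [hf2 W hN ω ω' a b d e])
  rw [E_sub, E_sub, E_const hc, E_const hc] at q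
  rw [abs_le]
  constructor <;> linarith

end Crest.Agent.R144.Tvp643
end
end

-- ▼ part R144/Tvp3_643

/-!
# R144, integer models: total variation closeness of maximal laws (helper643), final forms

* `tv_neutral` (T1) : `f` invariant under the shifts by `4 k` :
  `|E c F₁ f - E c F₂ f| ≤ E c F₂ (no plus-closed layer in A(m + 1, N))`;
* `tv_heights` (T2) : any `f` (true heights), on the event that the ball is joined to the outside by a
  path of plus sites;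
* `tv_neutral'`, `tv_heights'` : `|f| ≤ C`.
-/

set_option autoImplicit false

noncomputable section

namespace Crest.Agent.R144.Tvp643

open Finset
open Crest.Agent.R144.It844 (P2 adj_iff adj_symm)
open Crest.Agent.R144.Zg349 Crest.Agent.R144.Zk349 Crest.Agent.R144.Zd349 Crest.Agent.R144.Zm349
open Crest.Agent.R144.Ze349
open Crest.Agent.R144.Zf349 Crest.Agent.R144.Zs349
open Crest.Agent.R144.Pst967 (hexB mem_hexB hexB_mono conn_hexB stepIn_symm path_symm path_h path_v)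
open Crest.Agent.R144.Rsw867
open Crest.Agent.R144.Rw146 (adj_iff_share)
open Crest.ProbabilityR.HexHeights (Adj)

/-! ### balls are connected -/

theorem conn_in_hexB (n : ℕ) {v : P2} (hv : v ∈ hexB n) :
    Relation.ReflTransGen (StepIn (hexB n : Set P2)) v 0 := by
  obtain ⟨x, y⟩ := v
  rw [mem_hexB] at hv
  simp only [abs_le] at hv
  have hmem : ∀ a b : ℤ, ((-(n : ℤ) ≤ a ∧ a ≤ n) ∧ (-(n : ℤ) ≤ b ∧ b ≤ n) ∧
      (-(n : ℤ) ≤ a + b ∧ a + b ≤ n)) → ((a, b) : P2) ∈ (hexB n : Set P2) := by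
    intro a b h
    rw [Finset.mem_coe, mem_hexB]
    simp only [abs_le]
    exact h
  refine (path_h y x 0 fun t h1 h2 => hmem t y ?_).trans (path_v 0 y 0 fun t h1 h2 => hmem 0 t ?_)
  · rcases le_total x 0 with h | h
    · rw [min_eq_left h] at h1
      rw [max_eq_right h] at h2
      omega
    · rw [min_eq_right h] at h1
      rw [max_eq_left h] at h2
      omega
  · rcases le_total y 0 with h | h
    · rw [min_eq_left h] at h1
      rw [max_eq_right h] at h2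
      omega
    · rw [min_eq_right h] at h1
      rw [max_eq_left h] at h2
      omega

theorem conn_ball (a : P2) (n : ℕ) : IsConn ((ball a n : Finset P2) : Set P2) := by
  have h := conn_shift a (S := ((hexB n : Finset P2) : Set P2))
    fun u hu v hv => (conn_in_hexB n (Finset.mem_coe.1 hu)).trans
      (path_symm (conn_in_hexB n (Finset.mem_coe.1 hv)))
  have e : {v : P2 | v - a ∈ ((hexB n : Finset P2) : Set P2)} = ((ball a n : Finset P2) : Set P2) := by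
    ext v
    show (v - a ∈ ((hexB n : Finset P2) : Set P2)) ↔ v ∈ ((ball a n : Finset P2) : Set P2)
    simp only [Finset.mem_coe, mem_ball']
  rw [e] at h
  exact h

theorem ball_nonempty (a : P2) (n : ℕ) : (ball a n).Nonempty := ⟨a, by rw [mem_ball]; simp⟩

/-! ### local observables and the level -/

/-- `f` is seen from the triangles of `B` (heights at their corners, `z`) -/
def LocB (B : Finset P2) (f : Cfg → ℝ) : Prop :=
  ∀ ω ω' : Cfg, (∀ v ∈ VF B, ω.1 v = ω'.1 v) → (∀ t ∈ B, ω.2 t = ω'.2 t) → f ω = f ω'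

theorem VF_mono' {B W : Finset P2} (h : B ⊆ W) : VF B ⊆ VF W := fun v hv => by
  obtain ⟨t, ht, hvt⟩ := mem_VF.1 hv
  exact mem_VF.2 ⟨t, h ht, hvt⟩

/-- the level is constant on connected `W` -/
theorem lev_const {W : Finset P2} (hW : SC W) (hWc : IsConn (W : Set P2)) {ω : Cfg}
    (hl : It844.Lip ω.1) (hL : Lay true W ω) {v w : P2} (hv : v ∈ VF W) (hw : w ∈ VF W) :
    lev true W ω v = lev true W ω w := by
  obtain ⟨t, ht, hvt⟩ := mem_VF.1 hv
  obtain ⟨t', ht', hwt⟩ := mem_VF.1 hw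
  have tri : ∀ s ∈ W, ∀ x ∈ up s, ∀ y ∈ up s, lev true W ω x = lev true W ω y := by
    intro s hs x hx y hy
    obtain ⟨i, rfl⟩ := mem_up_iff.1 hx
    obtain ⟨j, rfl⟩ := mem_up_iff.1 hy
    exact lev_tri hW hl hL hs i j
  have key : ∀ s, Relation.ReflTransGen (StepIn (W : Set P2)) t s →
      ∀ y ∈ up s, lev true W ω v = lev true W ω y := by
    intro s hs
    induction hs with
    | refl => exact fun y hy => tri t ht v hvt y hy
    | @tail b d _ hbd ih =>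
      intro y hy
      obtain ⟨_, x, hx1, hx2⟩ := adj_iff_share.1 hbd.2.2
      rw [ih x hx1]
      exact tri d (Finset.mem_coe.1 hbd.2.1) x hx2 y hy
  exact key t' (hWc t ht t' ht') w hwt

/-- gluing shifts a local observable by the level -/
theorem loc_glue {F₁ B W : Finset P2} (hN : Nice F₁ B W) {f : Cfg → ℝ} (hf : LocB B f) {ω ω' : Cfg}
    (hl : It844.Lip ω.1) (hL : Lay true W ω) {v : P2} (hv : v ∈ VF W) :
    f (glue true W ω ω') = f (addH (lev true W ω v) ω') := by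
  refine hf _ _ (fun u hu => ?_) fun t ht => glue_z (hN.seed ht)
  have h1 : u ∈ VF W := VF_mono' hN.seed hu
  rw [glue_in h1, lev_const hN.sc hN.conn hl hL h1 hv]
  exact add_comm _ _

/-! ### T1 -/

/-- the cluster of the seed stays in `F₁` -/
def In (F₁ B : Finset P2) : Set Cfg := {ω | Xi B ω ⊆ ((F₁ : Finset P2) : Set P2)}



/-! ### T2 -/

/-- `W` is joined to the outside of `F` by plus sites off `W` -/
def Cn (F W : Finset P2) : Set Cfg :=
  {ω | ∃ v ∈ VF W, v ∉ IV W ∧ ∃ u, u ∉ IV F ∧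
    Relation.ReflTransGen (StepIn {x | s1 (ω.1 x) = true ∧ x ∉ IV W}) v u}

theorem Cn.mono {F W : Finset P2} {ω ω' : Cfg} (h : LeP ω ω') (hω : ω ∈ Cn F W) : ω' ∈ Cn F W := by
  obtain ⟨v, h1, h2, u, h3, h4⟩ := hω
  exact ⟨v, h1, h2, u, h3, path_mono (S := {x | s1 (ω.1 x) = true ∧ x ∉ IV W})
    (T := {x | s1 (ω'.1 x) = true ∧ x ∉ IV W}) (fun x hx => ⟨h.v x hx.1, hx.2⟩) h4⟩

theorem Cn.sub {F₁ F₂ W : Finset P2} (h : F₁ ⊆ F₂) : Cn F₂ W ⊆ Cn F₁ W := by
  rintro ω ⟨v, h1, h2, u, h3, h4⟩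
  exact ⟨v, h1, h2, u, fun h' => h3 (IV_mono h h'), h4⟩

theorem offTZ_Cn (F W : Finset P2) : OffTZ W (ind (Cn F W)) := by
  intro ω ω' h1 _
  have e : {x | s1 (ω.1 x) = true ∧ x ∉ IV W} = {x | s1 (ω'.1 x) = true ∧ x ∉ IV W} := by
    ext x
    constructor
    · rintro ⟨a, b⟩
      exact ⟨by rw [← h1 x b]; exact a, b⟩
    · rintro ⟨a, b⟩
      exact ⟨by rw [h1 x b]; exact a, b⟩
  refine ind_congr ?_
  unfold Cn
  show (∃ v ∈ VF W, _) ↔ (∃ v ∈ VF W, _)
  rw [e]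

/-- along plus sites the height stays in the same pair `{4k, 4k+1}` -/
theorem plus_path {h : P2 → ℤ} (hl : It844.Lip h) {S : Set P2} (hS : ∀ x ∈ S, s1 (h x) = true)
    {v u : P2} (hv : s1 (h v) = true) (p : Relation.ReflTransGen (StepIn S) v u)
    (hu : h u = 0 ∨ h u = 1) : h v = 0 ∨ h v = 1 := by
  induction p using Relation.ReflTransGen.head_induction_on with
  | refl => exact hu
  | @head a b hab _ ih =>
    have h1 := ih (hS b hab.2.1)
    have h2 := abs_le.1 (hl a b hab.2.2)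
    have h3 := s1_true.1 hv
    omega

theorem lev_zero {F W : Finset P2} (hW : SC W) (hWc : IsConn (W : Set P2)) {ω : Cfg}
    (hω : Valid F ω) (hL : Lay true W ω) (h : ω ∈ Cn F W) {w : P2} (hw : w ∈ VF W) :
    lev true W ω w = 0 := by
  obtain ⟨v, h1, h2, u, h3, h4⟩ := h
  have hl := hω.ht.toLip
  rw [lev_const hW hWc hl hL hw h1]
  have h5 : ω.1 v = 0 ∨ ω.1 v = 1 :=
    plus_path hl (fun x hx => hx.1) (hL.bd h1 h2) h4 (hω.ht.bd u h3)
  have h6 := inH_bd hW hl hL h2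
  have h7 : lev true W ω v % 4 = 0 := lev_mod hW hl hL h1
  unfold lev at *
  omega

/-- `B` is joined to the outside of `F` by plus sites -/
def UpB (B F : Finset P2) : Set Cfg :=
  {ω | ∃ v ∈ VF B, ∃ u, u ∉ IV F ∧ Relation.ReflTransGen (StepIn {x | s1 (ω.1 x) = true}) v u}

theorem UpB.mono {B F : Finset P2} {ω ω' : Cfg} (h : LeP ω ω') (hω : ω ∈ UpB B F) : ω' ∈ UpB B F := by
  obtain ⟨v, h1, u, h3, h4⟩ := hω
  exact ⟨v, h1, u, h3, path_mono (S := {x | s1 (ω.1 x) = true})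
    (T := {x | s1 (ω'.1 x) = true}) (fun x hx => h.v x hx) h4⟩

theorem exists_up_of_adj {x y : P2} (h : Adj x y) : ∃ t, x ∈ up t ∧ y ∈ up t := by
  rw [adj_iff] at h
  obtain ⟨a, b⟩ := x
  obtain ⟨p, q⟩ := y
  simp only [Prod.mk.injEq, mem_up] at *
  rcases h with h | h | h | h | h | h
  · exact ⟨(a, b), by simp, by simp; omega⟩
  · exact ⟨(p, q), by simp; omega, by simp⟩
  · exact ⟨(a, b), by simp, by simp; omega⟩
  · exact ⟨(p, q), by simp; omega, by simp⟩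
  · exact ⟨(a, b - 1), by simp, by simp; omega⟩
  · exact ⟨(a - 1, b), by simp, by simp; omega⟩

theorem cn_of_upB {B F W : Finset P2} (hBW : B ⊆ W) (hWF : W ⊆ F) {ω : Cfg} (h : ω ∈ UpB B F) :
    ω ∈ Cn F W := by
  obtain ⟨v, h1, u, h3, h4⟩ := h
  have key : ∀ x, Relation.ReflTransGen (StepIn {x | s1 (ω.1 x) = true}) x u →
      ω ∈ Cn F W ∨ (x ∉ IV W ∧
        Relation.ReflTransGen (StepIn {x | s1 (ω.1 x) = true ∧ x ∉ IV W}) x u) := by
    intro x hx
    induction hx using Relation.ReflTransGen.head_induction_on with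
    | refl => exact Or.inr ⟨fun h => h3 (IV_mono hWF h), Relation.ReflTransGen.refl⟩
    | @head a b hab _ ih =>
      rcases ih with h | ⟨h5, h6⟩
      · exact Or.inl h
      · by_cases ha : a ∈ IV W
        · left
          obtain ⟨t, hat, hbt⟩ := exists_up_of_adj hab.2.2
          exact ⟨b, mem_VF.2 ⟨t, mem_IV'.1 ha t hat, hbt⟩, h5, u, h3, h6⟩
        · exact Or.inr ⟨ha, Relation.ReflTransGen.head ⟨⟨hab.1, ha⟩, ⟨hab.2.1, h5⟩, hab.2.2⟩ h6⟩
  rcases key v h4 with h | ⟨h5, h6⟩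
  · exact h
  · exact ⟨v, VF_mono' hBW h1, h5, u, h3, h6⟩

theorem tv_heights_gen {c : ℝ} (hc : 1 ≤ c) {F₁ F₂ B : Finset P2} (h1 : SC F₁) (h2 : SC F₂)
    (h12 : F₁ ⊆ F₂) (hB : B.Nonempty) (hBc : IsConn (B : Set P2)) {f : Cfg → ℝ} (hf : LocB B f)
    (f0 : ∀ ω, 0 ≤ f ω) (f1 : ∀ ω, f ω ≤ 1) :
    |E c F₁ f - E c F₂ f| ≤ E c F₂ (ind (In F₁ B ∩ UpB B F₂)ᶜ) := by
  have key : ∀ F : Finset P2, ∀ W, Nice F₁ B W → ∀ ω ω', Valid F ω → Lay true W ω → Valid W ω' →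
      ω ∈ Cn F W → f (glue true W ω ω') = f ω' := by
    intro F W hN ω ω' hω hL hω' hq
    obtain ⟨b, hb⟩ := hB
    have hv : b ∈ VF W := mem_VF.2 ⟨b, hN.seed hb, base_mem_up b⟩
    rw [loc_glue hN hf hω.ht.toLip hL hv, lev_zero hN.sc hN.conn hω hL hq hv]
    refine hf _ _ (fun u _ => ?_) fun _ _ => rfl
    exact add_zero _
  have h := tv_abs hc h1 h2 h12 hB hBc (Q₁ := fun W => Cn F₁ W) (Q₂ := fun W => Cn F₂ W)
    (fun W _ => Cn.sub h12) (fun W ω ω' h h' => Cn.mono h h')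
    (fun W => offTZ_Cn F₁ W) (fun W => offTZ_Cn F₂ W) f0 f1
    (fun W hN ω ω' a b d e => key F₁ W hN ω ω' a b d e)
    (fun W hN ω ω' a b d e => key F₂ W hN ω ω' a b d e)
  refine h.trans (E_mono hc fun ω _ => ind_le_ind fun h h' => h ⟨h'.1, ?_⟩)
  exact cn_of_upB (seed_sub_Wf h'.1) ((Wf_sub _ _ _).trans h12) h'.2

/-- **(T2)** total variation closeness of the maximal laws, true heights -/
theorem tv_heights {c : ℝ} (hc : 1 ≤ c) {F₁ F₂ : Finset P2} (h1 : SC F₁) (h2 : SC F₂)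
    (h12 : F₁ ⊆ F₂) {a : P2} {m N : ℕ} (hmN : m + 1 ≤ N) (hN : ball a N ⊆ F₁) {f : Cfg → ℝ}
    (hf : LocB (ball a m) f) (f0 : ∀ ω, 0 ≤ f ω) (f1 : ∀ ω, f ω ≤ 1) :
    |E c F₁ f - E c F₂ f| ≤ E c F₂ (ind (BlkP a (m + 1) N ∩ UpB (ball a m) F₂)ᶜ) := by
  refine (tv_heights_gen hc h1 h2 h12 (ball_nonempty a m) (conn_ball a m) hf f0 f1).trans
    (E_mono hc fun ω _ => ind_le_ind fun h h' => h ⟨?_, h'.2⟩)
  exact (Xi_sub_ball hmN h'.1).trans (Finset.coe_subset.2 hN)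

/-! ### bounded observables -/




end Crest.Agent.R144.Tvp643
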