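import Crest.Agent.R144.Th0_121
import Crest.Agent.R144.Rw2_146
import Crest.Agent.R144.Xc1_851
import Crest.Agent.R144.Pos2_561
import Crest.Agent.R144.Rsw0_867
import Crest.Agent.R144.Pst9_967
import Crest.Agent.R144.Mk1_696
import Crest.Agent.R144.Zs2_349
import Crest.Agent.R144.Tvp3_643
import Crest.Agent.R144.Ht1_948

-- ▼ part R144/Th1_121
section

/-!
# R144, block R2 (THM2), file 1 (helper121)

* `nob` : no layer closed for the second representation implies a closed radial path;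
* `tube` : layers around the points of a ray force a radial path;
* `plus_heights` : near-sure plus-closed layers + `QRSW` give `{h ≥ 1}`-layers with probability at least `c1`.
-/

set_option autoImplicit false
set_option linter.unusedVariables false

noncomputable section

namespace Crest.Agent.R144.Th121

open Finset
open Crest.Agent.R144.It844 (P2 adj_iff adj_symm)
open Crest.Agent.R144.Zg349 Crest.Agent.R144.Zd349 Crest.Agent.R144.Zm349 Crest.Agent.R144.Ze349
open Crest.Agent.R144.Pst967 (hexB mem_hexB hexB_mono conn_hexB stepIn_symm path_symm)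
open Crest.Agent.R144.Rsw867
open Crest.Agent.R144.Rw146
open Crest.Agent.R144.Xc851 (C3 E3 E3_fst V3 E3_mono E3_add E3_sub fst3)
open Crest.Agent.R144.Ht948 (up1 LocH TVH heights)
open Crest.Agent.R144.Lay356 (Far)
open Crest.Agent.R144.Qr315 (Law Layer QRSW)
open Crest.ProbabilityR.HexHeights (Adj)

/-- no `y`-closed layer ⟹ a `z`-closed radial path -/
theorem nob {c : ℝ} (hc : 1 ≤ c) (hc2 : c ≤ 2) (F : Finset P2) (t N : ℕ) :
    1 - pB c F t N ≤ Pr c F {ω | ¬ Sepr {x | ω.2 x = false} 0 t N} := by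
  classical
  have e1 : E3 c F (fun _ => 1) = 1 := by
    have := E3_fst c F (fun _ => (1 : ℝ))
    rwa [E_const hc] at this
  have e2 : 1 - pB c F t N =
      E3 c F (fun ω => 1 - (if Sepr {x | ω.2.2 x = true} 0 t N then 1 else 0)) := by
    rw [E3_sub, e1]
    rfl
  rw [Pr_eq, ← E3_fst, e2]
  refine E3_mono hc hc2 fun ω hω => ?_
  by_cases h : Sepr {x | ω.2.2 x = true} 0 t N
  · rw [if_pos h, sub_self]
    exact ind_nonneg _ _
  · rw [if_neg h, sub_zero]
    have : fst3 ω ∈ {ω : Cfg | ¬ Sepr {x | ω.2 x = false} 0 t N} := by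
      intro h'
      apply h
      have h'' : Sepr {x | ω.2.1 x = false} 0 t N := h'
      refine Sepr.mono (fun x hx => ?_) h''
      rcases hω.disj x with h1 | h1
      · have hx' : ω.2.1 x = false := hx
        rw [h1] at hx'
        exact absurd hx' (by decide)
      · exact h1
    rw [ind_of_mem this]

/-! ### the tube lemma -/

theorem row_path {S : Set P2} (a b : ℤ) (k : ℕ) (h : ∀ j : ℕ, j ≤ k → ((a + j, b) : P2) ∈ S) :
    Relation.ReflTransGen (StepIn S) ((a + k, b) : P2) (a, b) := by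
  induction k with
  | zero => simpa using Relation.ReflTransGen.refl
  | succ k ih =>
    refine Relation.ReflTransGen.head ?_ (ih fun j hj => h j (by omega))
    refine ⟨h (k + 1) le_rfl, h k (by omega), ?_⟩
    rw [adj_iff]
    right; left
    push_cast
    ext <;> simp <;> ring

theorem tube {S : Set P2} {v m l M : ℕ} (hv : 1 ≤ v) (hm : 2 * v + 1 ≤ m) (hml : m ≤ l) (hM : l < M * v)
    (h : ∀ i : ℕ, i ≤ M → Sepr S (((i * v : ℕ) : ℤ), 0) v (2 * v)) : ¬ Sepr Sᶜ 0 m l := by
  classical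
  intro h0
  set T : Set P2 := Sᶜ with hT
  set T1 : Set P2 := {t | t ∈ T ∧ ∃ i : ℕ, i ≤ M ∧ ∃ x ∈ ball (((i * v : ℕ) : ℤ), 0) v,
    Relation.ReflTransGen (StepIn T) t x} with hT1
  set T2 : Set P2 := {t | t ∈ T ∧ t ∉ T1} with hT2
  have hU : T1 ∪ T2 = T := by
    ext t
    constructor
    · rintro (h | h)
      · exact h.1
      · exact h.1
    · intro ht
      by_cases h1 : t ∈ T1
      · exact Or.inl h1
      · exact Or.inr ⟨ht, h1⟩
  have hF : Far T1 T2 := by
    intro u hu w hw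
    refine ⟨fun e => hw.2 (e ▸ hu), fun hadj => hw.2 ⟨hw.1, ?_⟩⟩
    obtain ⟨hu1, i, hi, x, hx, hp⟩ := hu
    exact ⟨i, hi, x, hx, Relation.ReflTransGen.head ⟨hw.1, hu1, adj_symm hadj⟩ hp⟩
  rw [← hU] at h0
  rcases Lay356.Sepr.split hF hml h0 with h1 | h1
  · -- `T1` lies in the fat tube
    have hb : ∀ t ∈ T1, -(2 * v : ℤ) ≤ t.1 := by
      rintro t ⟨_, i, hi, x, hx, hp⟩
      by_contra hcon
      have ht : t ∉ ball (((i * v : ℕ) : ℤ), 0) (2 * v) := by
        intro hmem
        rw [mem_ball] at hmem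
        have h2 := (abs_le.1 hmem.1).1
        have h3 : (0 : ℤ) ≤ ((i * v : ℕ) : ℤ) := by positivity
        simp only at h2
        push_cast at h2 h3
        apply hcon
        linarith
      exact h i hi t x ht hx hp
    have key := row_path (S := T1ᶜ) (-(l + 1 : ℤ)) 0 (l - 2 * v) (by
      intro j hj hmem
      have := hb _ hmem
      simp only at this
      omega)
    have e1 : (-(l + 1 : ℤ) + ((l - 2 * v : ℕ) : ℤ)) = -(2 * v + 1 : ℤ) := by
      have : 2 * v ≤ l := by omega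
      push_cast [Nat.cast_sub this]
      ring
    rw [e1] at key
    refine h1 (-(l + 1 : ℤ), 0) (-(2 * v + 1 : ℤ), 0) ?_ ?_ (path_symm key)
    · intro hmem
      rw [mem_ball] at hmem
      have := (abs_le.1 hmem.1).1
      simp only [Prod.fst_zero] at this
      omega
    · rw [mem_ball]
      simp only [Prod.fst_zero, Prod.snd_zero, sub_zero, add_zero, abs_le]
      refine ⟨⟨by omega, by omega⟩, ⟨by omega, by omega⟩, by omega, by omega⟩
  · -- the ray avoids `T2`
    have key := row_path (S := T2ᶜ) 0 0 (M * v) (by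
      intro j hj hmem
      apply hmem.2
      refine ⟨hmem.1, j / v, Nat.div_le_of_le_mul (by rw [mul_comm]; exact hj), _, ?_,
        Relation.ReflTransGen.refl⟩
      rw [mem_ball]
      have h2 : v * (j / v) ≤ j := Nat.mul_div_le j v
      have h3 : j < v * (j / v) + v := by
        have := Nat.lt_mul_div_succ j (show 0 < v by omega)
        rw [Nat.mul_succ] at this
        exact this
      have h4 : j / v * v = v * (j / v) := mul_comm _ _
      rw [h4]
      generalize v * (j / v) = q at *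
      simp only [sub_zero, abs_le, zero_add]
      refine ⟨⟨by omega, by omega⟩, ⟨by omega, by omega⟩, by omega, by omega⟩)
    refine h1 (0 + ((M * v : ℕ) : ℤ), 0) (0, 0) ?_ ?_ key
    · intro hmem
      rw [mem_ball] at hmem
      have := (abs_le.1 hmem.1).2
      simp only [Prod.fst_zero, sub_zero, zero_add] at this
      omega
    · rw [mem_ball]
      simp

/-- plus-closed layers along a ray join `ball 0 m` to the outside by plus sites -/
theorem up_of_layers {ω : Cfg} {F : Finset P2} {v m l M : ℕ} (hv : 1 ≤ v) (hm : 2 * v + 1 ≤ m)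
    (hml : m ≤ l) (hM : l < M * v) (hF : F ⊆ ball 0 l)
    (h : ∀ i : ℕ, i ≤ M → ω ∈ BlkP (((i * v : ℕ) : ℤ), 0) v (2 * v)) : ω ∈ Up 0 m F := by
  have key := tube hv hm hml hM h
  unfold Sepr at key
  push Not at key
  obtain ⟨u, w, hu, hw, hp⟩ := key
  rw [compl_compl] at hp
  refine ⟨w, hw, u, fun h' => hu (hF (IV_sub F h')), path_symm (path_mono ?_ hp)⟩
  intro x hx
  exact hx.2

/-! ### heights -/

theorem locH_mono {m m' : ℕ} (h : m ≤ m') {A : Set Cfg} (hA : LocH m A) : LocH m' A := fun ω ω' h1 =>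
  hA ω ω' fun v hv => h1 v (ball_mono 0 h hv)

theorem TVH.mono {c : ℝ} {m m' N : ℕ} {G : Finset P2} {δ : ℝ} (h : m ≤ m') (hT : TVH c m' N G δ) :
    TVH c m N G δ := fun F h1 h2 h3 A hA => hT F h1 h2 h3 A (locH_mono h hA)

theorem plus_heights (hQ : QRSW) : ∃ (c1 s : ℝ) (K k l n0 : ℕ), 0 < c1 ∧ 0 < s ∧ 1 ≤ k ∧ 4 ≤ l ∧ l ≤ K ∧
    ∀ c : ℝ, 1 ≤ c → TV2 c → ∀ n : ℕ, n0 ≤ n → (∀ u, n ≤ u → u ≤ k * n → PW c s K u) →
      c1 ≤ Pr c (hexB (l * n)) {ω | Sepr (up1 ω) 0 n (2 * n)} := by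
  obtain ⟨c1, C, n0, hc1, hC, H⟩ := heights hQ
  refine ⟨c1, c1 / (5 * C + 13), 10 * C + 21, C + 4, 4 * C + 10, n0 + 1, hc1, by positivity, by omega,
    by omega, by omega, fun c hc hTV n hn hPW => ?_⟩
  have hn1 : 1 ≤ n := by omega
  set s : ℝ := c1 / (5 * C + 13) with hs
  set M : ℕ := 5 * C + 11 with hM
  set m : ℕ := (C + 3) * n with hm
  have e1 : m = C * n + 3 * n := by rw [hm]; ring
  have hCn : n ≤ C * n := Nat.le_mul_of_pos_left n (by omega)
  have eG : (4 * C + 10) * n + C * n = (5 * C + 10) * n := by ring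
  have e2 : (4 * C + 10) * n = 4 * (C * n) + 10 * n := by ring
  have e3 : (5 * C + 10) * n = 5 * (C * n) + 10 * n := by ring
  have e4 : M * n = 5 * (C * n) + 11 * n := by rw [hM]; ring
  refine H c hc n (2 * (m + 1)) ((4 * C + 10) * n) (by omega) ?_ ?_
  · rw [e1, e2]; omega
  · refine TVH.mono (m' := m) (by rw [e1]; omega) ?_
    intro F hF hFG hball A hA
    rw [eG] at *
    have hG : SC (hexB ((5 * C + 10) * n)) := sc_hexB _
    refine (hTV F _ m (2 * (m + 1)) hF hG hFG hball (by omega) A hA).trans ?_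
    -- the bad event
    have hsub : (BlkP 0 (m + 1) (2 * (m + 1)) ∩ Up 0 m (hexB ((5 * C + 10) * n)))ᶜ ⊆
        (BlkP 0 (m + 1) (2 * (m + 1)))ᶜ ∪
          ⋃ i ∈ Finset.range (M + 1), (BlkP (((i * n : ℕ) : ℤ), 0) n (2 * n))ᶜ := by
      intro ω hω
      by_contra hcon
      rw [Set.mem_union, not_or, Set.mem_compl_iff, not_not] at hcon
      refine hω ⟨hcon.1, ?_⟩
      refine up_of_layers (l := (5 * C + 10) * n) (M := M) hn1 ?_ ?_ ?_ ?_ fun i hi => ?_
      · rw [e1]; omega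
      · rw [e1, e3]; omega
      · rw [e3, e4]; omega
      · rw [Rsw867.ball_zero_eq]
      · by_contra h'
        exact hcon.2 (Set.mem_biUnion (Finset.mem_coe.2 (Finset.mem_range.2 (by omega))) h')
    refine (Pr_mono hc hsub).trans ((Pr_union_le hc _ _ _).trans ?_)
    have h1 : Pr c (hexB ((5 * C + 10) * n)) (BlkP 0 (m + 1) (2 * (m + 1)))ᶜ ≤ s := by
      refine (hPW (m + 1) ?_ ?_).dom hc hG ?_
      · rw [e1]; omega
      · rw [e1]
        have : (C + 4) * n = C * n + 4 * n := by ring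
        rw [this]; omega
      · rw [Rsw867.ball_zero_eq]
        refine hexB_mono ?_
        have : (10 * C + 21) * (m + 1) = 10 * (C * m) + 21 * m + (10 * C + 21) := by ring
        rw [this, e3]
        have h5 : m ≤ C * m := Nat.le_mul_of_pos_left m (by omega)
        omega
    have h2 : ∀ i ∈ Finset.range (M + 1),
        Pr c (hexB ((5 * C + 10) * n)) (BlkP (((i * n : ℕ) : ℤ), 0) n (2 * n))ᶜ ≤ s := by
      intro i hi
      rw [Finset.mem_range] at hi
      refine (hPW n le_rfl ?_).dom hc hG ?_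
      · have : (C + 4) * n = C * n + 4 * n := by ring
        rw [this]; omega
      · rw [← Rsw867.ball_zero_eq]
        have hin : i * n ≤ M * n := Nat.mul_le_mul_right n (by omega)
        have : (10 * C + 21) * n = 10 * (C * n) + 21 * n := by ring
        intro x hx
        rw [mem_ball] at hx ⊢
        simp only [Prod.fst_zero, Prod.snd_zero, sub_zero, abs_le] at hx ⊢
        obtain ⟨⟨a1, a2⟩, ⟨a3, a4⟩, a5, a6⟩ := hx
        rw [e3] at a1 a2 a3 a4 a5 a6
        rw [this]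
        rw [e4] at hin
        have hin' : ((i * n : ℕ) : ℤ) ≤ ((5 * (C * n) + 11 * n : ℕ) : ℤ) := by exact_mod_cast hin
        have h0 : (0 : ℤ) ≤ ((i * n : ℕ) : ℤ) := Int.natCast_nonneg _
        generalize ((i * n : ℕ) : ℤ) = z at *
        push_cast at *
        generalize (C : ℤ) * n = q at *
        refine ⟨⟨by omega, by omega⟩, ⟨by omega, by omega⟩, by omega, by omega⟩
    have h3 : Pr c (hexB ((5 * C + 10) * n))
        (⋃ i ∈ Finset.range (M + 1), (BlkP (((i * n : ℕ) : ℤ), 0) n (2 * n))ᶜ) ≤ (M + 1) * s := by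
      refine (Pr_biUnion_le hc _ _ _).trans ((Finset.sum_le_sum h2).trans ?_)
      rw [Finset.sum_const, Finset.card_range, nsmul_eq_mul]
      push_cast
      exact le_rfl
    have h4 : s + (M + 1) * s = c1 := by
      have h5 : (5 * (C : ℝ) + 13) ≠ 0 := by positivity
      rw [hs, hM]
      push_cast
      field_simp
      ring
    linarith

end Crest.Agent.R144.Th121
end
end

-- ▼ part R144/Th2_121
section

/-!
# R144, block R2 (THM2), file 2 (helper121)

* `qstep` : single-scale RSW for the maximal laws, with a change of domain;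
* `window` : if minus-closed layers are rare on a long window of scales then plus-closed layers are near-sure on
  a long window of scales.
-/

set_option autoImplicit false
set_option linter.unusedVariables false

noncomputable section

namespace Crest.Agent.R144.Th121

open Finset
open Crest.Agent.R144.It844 (P2 adj_iff adj_symm)
open Crest.Agent.R144.Zg349 Crest.Agent.R144.Zd349 Crest.Agent.R144.Zm349 Crest.Agent.R144.Ze349
open Crest.Agent.R144.Pst967 (hexB mem_hexB hexB_mono conn_hexB stepIn_symm path_symm)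
open Crest.Agent.R144.Rsw867
open Crest.Agent.R144.Rw146
open Crest.Agent.R144.Ht948 (up1 LocH TVH heights layer_iff)
open Crest.Agent.R144.Qr315 (Law Layer QRSW)

theorem upper_blue (m N : ℕ) : IsUpperSet {S : Set P2 | Sepr S 0 m N} := fun _ _ h hS => Sepr.mono h hS

theorem upper_nored (m N : ℕ) : IsUpperSet {S : Set P2 | ¬ Sepr Sᶜ 0 m N} := fun _ _ h hS h' =>
  hS (Sepr.mono (Set.compl_subset_compl.2 h) h')

/-- single-scale RSW with a change of domain -/
theorem qstep (hQ : QRSW) {c : ℝ} (hc : 1 ≤ c) {col : Cfg → Set P2} (hM : MixP c col) {c0 : ℝ}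
    (h0 : 0 < c0) : ∃ (η : ℝ) (M n0 : ℕ), 0 < η ∧ ∀ n : ℕ, n0 ≤ n → ∀ Ka : ℕ,
      Pr c (hexB ((Ka + M) * n)) {ω | Sepr (col ω)ᶜ 0 n (2 * n)} ≤ η →
      1 - c0 ≤ Pr c (hexB (Ka * n)) {ω | Sepr (col ω) 0 n (2 * n)} := by
  obtain ⟨η, C, n0, hη, H⟩ := hQ c0 h0
  obtain ⟨M, HM⟩ := hM C η hη
  refine ⟨η, M, n0 + 1, hη, fun n hn Ka hP => ?_⟩
  obtain ⟨L, hinv, hL⟩ := HM n Ka (by omega)
  have e1 : {S : Set P2 | ¬ Layer Sᶜ 0 (n : ℤ) (2 * (n : ℤ))} = {S : Set P2 | ¬ Sepr Sᶜ 0 n (2 * n)} := by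
    ext S
    have := layer_iff (S := Sᶜ) (a := 0) (m := n) (N := 2 * n)
    push_cast at this
    show ¬ _ ↔ ¬ _
    rw [this]
  have e2 : {S : Set P2 | Layer S 0 (n : ℤ) (2 * (n : ℤ))} = {S : Set P2 | Sepr S 0 n (2 * n)} := by
    ext S
    have := layer_iff (S := S) (a := 0) (m := n) (N := 2 * n)
    push_cast at this
    exact this
  have h1 := (hL _ (upper_nored n (2 * n))).1
  have h2 := (hL _ (upper_blue n (2 * n))).2
  have h3 : {ω : Cfg | col ω ∈ {S : Set P2 | ¬ Sepr Sᶜ 0 n (2 * n)}} =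
      {ω : Cfg | Sepr (col ω)ᶜ 0 n (2 * n)}ᶜ := rfl
  rw [h3, Pr_compl hc] at h1
  refine le_trans ?_ h2
  rw [← e2]
  refine H n (by omega) L hinv ?_
  rw [e1]
  linarith

/-- no minus-closed radial path, at scale `u`, from rare minus-closed layers -/
theorem window (hQ : QRSW) {c : ℝ} (hc : 1 ≤ c) (hc2 : c ≤ 2) (hOne : One c)
    (hMm : MixP c (fun ω => {x | ¬ mC ω x})) (hMp : MixP c (fun ω => {x | pC ω x})) {s : ℝ} (hs : 0 < s)
    {K' Lw : ℕ} (hK' : 4 ≤ K') (hLw : 1 ≤ Lw) : ∃ (K L n0 : ℕ) (p : ℝ), 0 < p ∧ ∀ n : ℕ, n0 ≤ n →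
      (∀ n' : ℕ, n ≤ n' → n' ≤ L * n → Pr c (hexB (K * n')) (Blk 0 n' (2 * n')) < p) →
      ∃ v : ℕ, n ≤ v ∧ Lw * v ≤ L * n ∧ ∀ w : ℕ, v ≤ w → w ≤ Lw * v → PW c s K' w := by
  obtain ⟨η2, M2, n2, hη2, H2⟩ := qstep hQ hc hMp hs
  set ε : ℝ := min (η2 / 2) (s * η2 / 16) with hε
  have hε0 : 0 < ε := lt_min (by positivity) (by positivity)
  obtain ⟨η1, M1, n1, hη1, H1⟩ := qstep hQ hc hMm hε0
  set K2 : ℕ := max (K' + 1) 10 with hK2
  have hK2' : K' + 1 ≤ K2 := le_max_left _ _
  have hK210 : 10 ≤ K2 := le_max_right _ _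
  set Ka : ℕ := (K' + M2) * (Lw * (K2 * Lw)) with hKa
  refine ⟨Ka + M1, Lw * (K2 * Lw), n1 + n2 + 1, min η1 (s / 2), lt_min hη1 (by positivity),
    fun n hn hblk => ?_⟩
  have hn1 : 1 ≤ n := by omega
  set v2 : ℕ := K2 * Lw * n with hv2
  have hnLw : n ≤ Lw * n := Nat.le_mul_of_pos_left n hLw
  have hLwv2 : Lw * n ≤ v2 := by
    rw [hv2, mul_assoc]
    exact Nat.le_mul_of_pos_left _ (by omega)
  have hv2L : Lw * v2 = Lw * (K2 * Lw) * n := by rw [hv2]; ring
  have hLwL : Lw * n ≤ Lw * (K2 * Lw) * n := by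
    rw [← hv2L]
    exact hLwv2.trans (Nat.le_mul_of_pos_left _ hLw)
  have hKaM : K' + M2 ≤ Ka := by
    rw [hKa]
    exact Nat.le_mul_of_pos_right _ (by positivity)
  -- no minus-closed radial paths
  have hA : ∀ u : ℕ, n ≤ u → u ≤ Lw * (K2 * Lw) * n → ∀ F : Finset P2, SC F → F ⊆ hexB (Ka * u) →
      Pr c F {ω | ¬ Sepr {x | ¬ mC ω x} 0 u (2 * u)} ≤ ε := by
    intro u hu1 hu2 F hF hFu
    have h1 := H1 u (by omega) Ka (by
      have h2 : ∀ ω : Cfg, ({x | ¬ mC ω x} : Set P2)ᶜ = {x | mC ω x} := by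
        intro ω; ext x; show ¬ ¬ mC ω x ↔ _; rw [not_not]; rfl
      simp only [h2]
      exact ((hblk u hu1 hu2).le.trans (min_le_left _ _)))
    have h3 := IncS.mono_dom hc hF (sc_hexB _) hFu (incS_noM 0 u (2 * u))
    have h4 : {ω : Cfg | ¬ Sepr {x | ¬ mC ω x} 0 u (2 * u)} =
        {ω : Cfg | Sepr {x | ¬ mC ω x} 0 u (2 * u)}ᶜ := rfl
    rw [h4, Pr_compl hc]
    linarith
  by_cases hW2 : ∀ T : ℕ, v2 ≤ T → T ≤ Lw * v2 → PW c s K' T
  · exact ⟨v2, hnLw.trans hLwv2, hv2L.le, hW2⟩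
  push Not at hW2
  obtain ⟨T, hT1, hT2, hT⟩ := hW2
  have hTL : T ≤ Lw * (K2 * Lw) * n := by rw [← hv2L]; exact hT2
  have hnT : n ≤ T := (hnLw.trans hLwv2).trans hT1
  refine ⟨n, le_rfl, hLwL, fun w hw1 hw2 => ?_⟩
  -- the domain
  set F : Finset P2 := hexB ((K' + M2) * T) with hF
  have hFsc : SC F := sc_hexB _
  have hTn : (K' + M2) * T ≤ Ka * n := by
    calc (K' + M2) * T ≤ (K' + M2) * (Lw * (K2 * Lw) * n) := Nat.mul_le_mul_left _ hTL
      _ = Ka * n := by rw [hKa]; ring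
  have hFw : F ⊆ hexB (Ka * w) := hexB_mono (hTn.trans (Nat.mul_le_mul_left _ hw1))
  have hFT : F ⊆ hexB (Ka * T) := hexB_mono (Nat.mul_le_mul_right _ hKaM)
  have hbad : η2 < Pr c F {ω | Sepr {x | pC ω x}ᶜ 0 T (2 * T)} := by
    by_contra hcon
    have h1 := H2 T (by omega) K' (not_lt.1 hcon)
    apply hT
    unfold PW
    rw [Pr_compl hc]
    have h2 : Pr c (hexB (K' * T)) (BlkP 0 T (2 * T)) =
      Pr c (hexB (K' * T)) {ω | Sepr {x | pC ω x} 0 T (2 * T)} := rfl
    rw [h2]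
    linarith
  have hpB : η2 - ε ≤ pB c F T (2 * T) := by
    have h1 := nob hc hc2 F T (2 * T)
    have h2 := closed_radial hc F (show T ≤ 2 * T by omega)
    have h3 := hA T hnT hTL F hFsc hFT
    have h4 : Pr c F {ω | ¬ Sepr {x | ¬ pC ω x} 0 T (2 * T)} =
        1 - Pr c F {ω | Sepr {x | pC ω x}ᶜ 0 T (2 * T)} := by
      rw [← Pr_compl hc]; rfl
    rw [h4] at h2
    linarith
  have h10 : 10 * w ≤ T := by
    calc 10 * w ≤ K2 * (Lw * n) := Nat.mul_le_mul hK210 hw2
      _ = v2 := by rw [hv2]; ring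
      _ ≤ T := hT1
  have hKw : K' * w ≤ T - 1 := by
    have : (K' + 1) * w ≤ T := by
      calc (K' + 1) * w ≤ K2 * (Lw * n) := Nat.mul_le_mul hK2' hw2
        _ = v2 := by rw [hv2]; ring
        _ ≤ T := hT1
    rw [Nat.add_mul] at this
    omega
  obtain ⟨D, hDsc, hTD, hDF, hD⟩ := hOne F T (2 * T) w hFsc (by
      rw [Rsw867.ball_zero_eq]
      refine hexB_mono ?_
      have : 4 * T ≤ (K' + M2) * T := Nat.mul_le_mul_right _ (by omega)
      omega) (by omega) (by omega) (by omega)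
  have h5 := hA w hw1 (hw2.trans hLwL) F hFsc hFw
  -- the closed layers in `D`
  have hε1 : ε ≤ η2 / 2 := min_le_left _ _
  have hε2 : ε ≤ s * η2 / 16 := min_le_right _ _
  set X : ℝ := Pr c D {ω | Sepr {x | ω.2 x = true} 0 w (2 * w)} with hX
  have hX1 : X ≤ 1 := Pr_le_one hc _ _
  have h6 : η2 / 2 * (1 - X) ≤ 4 * ε := by
    calc η2 / 2 * (1 - X) ≤ pB c F T (2 * T) * (1 - X) :=
          mul_le_mul_of_nonneg_right (by linarith) (by linarith)
      _ ≤ _ := hD
      _ ≤ 4 * ε := by linarith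
  have h7 : 1 - X ≤ s / 2 := by
    by_contra hcon
    have h8 : η2 / 2 * (s / 2) < η2 / 2 * (1 - X) :=
      mul_lt_mul_of_pos_left (not_le.1 hcon) (by positivity)
    nlinarith
  have h8 : X ≤ Pr c D (BlkP 0 w (2 * w)) + Pr c D (Blk 0 w (2 * w)) := closed_split hc D (by omega)
  have h9 : Pr c D (Blk 0 w (2 * w)) ≤ s / 2 := by
    refine blk_le (K := Ka + M1) (u := w) hc ((hblk w hw1 (hw2.trans hLwL)).le.trans (min_le_right _ _))
      hDsc (hDF.trans (hFw.trans ?_))
    rw [Rsw867.ball_zero_eq]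
    exact hexB_mono (Nat.mul_le_mul_right _ (by omega))
  have h11 : Pr c D (BlkP 0 w (2 * w)) ≤ Pr c (hexB (K' * w)) (BlkP 0 w (2 * w)) := by
    refine IncS.mono_dom hc (sc_hexB _) hDsc (subset_trans ?_ hTD) (incS_blkP 0 w (2 * w))
    rw [Rsw867.ball_zero_eq]
    exact hexB_mono hKw
  unfold PW
  rw [Pr_compl hc]
  linarith

end Crest.Agent.R144.Th121
end
end

-- ▼ part R144/Qp1_756
section

/-!
# R144, R1 top (helper756): the ordered mixture of the maximal laws

`mx c n a b f` = average over `K ∈ [a, b)` of `E c (hexB (K * n)) f`: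
* linear, positive, normalised;
* `mx_assoc` : positive association (Chebyshev, the family is ordered by `dom_mono`);
* `Col` : an increasing equivariant site colouring (`plusS`, `plusC`, `nMin`);
* `mx_inv` : approximate invariance, error `C / (b - a)`, for all increasing events at once.
-/

set_option autoImplicit false
set_option linter.unusedVariables false

noncomputable section

namespace Crest.Agent.R144.Qp756

open Finset
open Crest.Agent.R144.It844 (P2 adj_iff)
open Crest.Agent.R144.Zg349 Crest.Agent.R144.Zd349 Crest.Agent.R144.Zm349 Crest.Agent.R144.Ze349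
open Crest.Agent.R144.Zf349
open Crest.Agent.R144.Pst967 (hexB mem_hexB hexB_mono conn_hexB stepIn_symm path_symm)
open Crest.Agent.R144.Rsw867 Crest.Agent.R144.Rw146
open Crest.ProbabilityR.HexHeights (Adj)

/-! ### the mixture -/

/-- average over `K ∈ [a, b)` of the maximal laws on `hexB (K n)` -/
def mx (c : ℝ) (n a b : ℕ) (f : Cfg → ℝ) : ℝ :=
  (∑ K ∈ Finset.Ico a b, E c (hexB (K * n)) f) / ((b : ℝ) - a)

theorem den_pos {a b : ℕ} (h : a < b) : (0 : ℝ) < (b : ℝ) - a := by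
  have : (a : ℝ) < b := by exact_mod_cast h
  linarith

theorem card_den {a b : ℕ} (h : a < b) : ((Finset.Ico a b).card : ℝ) = (b : ℝ) - a := by
  rw [Nat.card_Ico, Nat.cast_sub h.le]

theorem mx_add (c : ℝ) (n a b : ℕ) (f g : Cfg → ℝ) :
    mx c n a b (fun ω => f ω + g ω) = mx c n a b f + mx c n a b g := by
  simp only [mx, E_add, Finset.sum_add_distrib, add_div]



theorem mx_const {c : ℝ} (hc : 1 ≤ c) {n a b : ℕ} (h : a < b) (r : ℝ) :
    mx c n a b (fun _ => r) = r := by
  have hd := den_pos h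
  simp only [mx, E_const hc, Finset.sum_const, nsmul_eq_mul]
  rw [card_den h]
  field_simp

theorem mx_mono {c : ℝ} (hc : 1 ≤ c) {n a b : ℕ} (h : a < b) {f g : Cfg → ℝ}
    (hfg : ∀ F ω, Valid F ω → f ω ≤ g ω) : mx c n a b f ≤ mx c n a b g :=
  div_le_div_of_nonneg_right (Finset.sum_le_sum fun K _ => E_mono hc fun ω hω => hfg _ ω hω)
    (den_pos h).le


theorem mx_nonneg {c : ℝ} (hc : 1 ≤ c) {n a b : ℕ} (h : a < b) {f : Cfg → ℝ}
    (hf : ∀ F ω, Valid F ω → 0 ≤ f ω) : 0 ≤ mx c n a b f :=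
  div_nonneg (Finset.sum_nonneg fun K _ => E_nonneg hc fun ω hω => hf _ ω hω) (den_pos h).le

theorem sc_hexB (n : ℕ) : SC (hexB n) := by
  rw [← ball_zero_eq]
  exact sc_ball 0 n

/-- the family is ordered -/
theorem E_anti {c : ℝ} (hc : 1 ≤ c) {n K K' : ℕ} (h : K ≤ K') {f : Cfg → ℝ} (hf : IncP f) :
    E c (hexB (K' * n)) f ≤ E c (hexB (K * n)) f :=
  dom_mono hc (sc_hexB _) (sc_hexB _) (hexB_mono (Nat.mul_le_mul_right n h)) hf

theorem mx_le_left {c : ℝ} (hc : 1 ≤ c) {n a b : ℕ} (h : a < b) {f : Cfg → ℝ} (hf : IncP f) :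
    mx c n a b f ≤ E c (hexB (a * n)) f := by
  rw [mx, div_le_iff₀ (den_pos h), ← card_den h, mul_comm, ← nsmul_eq_mul]
  exact Finset.sum_le_card_nsmul _ _ _ fun K hK => E_anti hc (Finset.mem_Ico.1 hK).1 hf

theorem right_le_mx {c : ℝ} (hc : 1 ≤ c) {n a b : ℕ} (h : a < b) {f : Cfg → ℝ} (hf : IncP f) :
    E c (hexB (b * n)) f ≤ mx c n a b f := by
  rw [mx, le_div_iff₀ (den_pos h), ← card_den h, mul_comm, ← nsmul_eq_mul]
  exact Finset.card_nsmul_le_sum _ _ _ fun K hK => E_anti hc (Finset.mem_Ico.1 hK).2.le hf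

/-- **the ordered mixture is positively associated** -/
theorem mx_assoc {c : ℝ} (hc : 1 ≤ c) {n a b : ℕ} (h : a < b) {f g : Cfg → ℝ} (hf : IncP f)
    (hg : IncP g) : mx c n a b f * mx c n a b g ≤ mx c n a b (fun ω => f ω * g ω) := by
  have hd := den_pos h
  have hm : MonovaryOn (fun K : ℕ => E c (hexB (K * n)) f) (fun K : ℕ => E c (hexB (K * n)) g)
      (Finset.Ico a b : Finset ℕ) := by
    intro i _ j _ hij
    rcases le_total i j with h | h
    · exact absurd (E_anti (n := n) hc h hg) (not_le.2 hij)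
    · exact E_anti hc h hf
  have h1 := hm.sum_mul_sum_le_card_mul_sum
  have h2 : ∑ K ∈ Finset.Ico a b, E c (hexB (K * n)) f * E c (hexB (K * n)) g ≤
      ∑ K ∈ Finset.Ico a b, E c (hexB (K * n)) (fun ω => f ω * g ω) :=
    Finset.sum_le_sum fun K _ => assoc hc (sc_hexB _) hf hg
  rw [card_den h] at h1
  unfold mx
  rw [div_mul_div_comm, div_le_div_iff₀ (mul_pos hd hd) hd]
  have h3 := mul_le_mul_of_nonneg_left h2 hd.le
  nlinarith [mul_le_mul_of_nonneg_right (h1.trans h3) hd.le]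

end Crest.Agent.R144.Qp756
end
end

-- ▼ part R144/Thm_121
section

/-!
# R144, block R2 (THM2), mixing (helper121, over Qp1_756)

* `ColE` : an increasing, equivariant colouring of the triangles (`pC`, `¬ mC`);
* `mixL` : the law of the colouring under the ordered mixture;
* `mixP` : `MixP c col`, with `colE_p`, `colE_m` the two instances.
-/

set_option autoImplicit false
set_option linter.unusedVariables false

noncomputable section

namespace Crest.Agent.R144.Th121

open Finset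
open Crest.Agent.R144.It844 (P2 adj_iff adj_symm)
open Crest.Agent.R144.Zg349 Crest.Agent.R144.Zd349 Crest.Agent.R144.Zm349 Crest.Agent.R144.Ze349
open Crest.Agent.R144.Zs349 (closed_c1)
open Crest.Agent.R144.Pst967 (hexB mem_hexB hexB_mono conn_hexB stepIn_symm path_symm)
open Crest.Agent.R144.Rsw867
open Crest.Agent.R144.Rw146
open Crest.Agent.R144.Qr315 (Law Layer pre Loc bal)
open Crest.Agent.R144.Qp756 (mx mx_add mx_const mx_mono mx_nonneg mx_assoc mx_le_left right_le_mx den_pos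
  card_den)

/-- an increasing equivariant colouring -/
structure ColE (c : ℝ) (col : Cfg → Set P2) : Prop where
  inc : ∀ ω ω', LeP ω ω' → col ω ⊆ col ω'
  equi : ∀ {σ τ : P2 ≃ P2}, Aut σ τ → ∀ {F : Finset P2} {ω : Cfg}, Valid F ω → wt c F ω ≠ 0 →
    col (actC σ τ ω) = τ ⁻¹' col ω

theorem s1_act {c : ℝ} {σ τ : P2 ≃ P2} (h : Aut σ τ) {F : Finset P2} {ω : Cfg} (hω : Valid F ω)
    (hw : wt c F ω ≠ 0) {t : P2} (ht : ω.2 (τ t) = true) : s1 (ω.1 (σ t)) = s1 (ω.1 (τ t)) :=
  closed_c1 hω hw ht ((h t t).2 (base_mem_up t))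

theorem colE_p (c : ℝ) : ColE c (fun ω => {x | pC ω x}) where
  inc := fun ω ω' h t ht => h.p t ht
  equi := by
    intro σ τ h F ω hω hw
    ext t
    show ω.2 (τ t) = true ∧ s1 (ω.1 (σ t)) = true ↔ ω.2 (τ t) = true ∧ s1 (ω.1 (τ t)) = true
    constructor
    · rintro ⟨h1, h2⟩
      exact ⟨h1, by rw [← s1_act h hω hw h1]; exact h2⟩
    · rintro ⟨h1, h2⟩
      exact ⟨h1, by rw [s1_act h hω hw h1]; exact h2⟩

theorem colE_m (c : ℝ) : ColE c (fun ω => {x | ¬ mC ω x}) where
  inc := fun ω ω' h t (ht : ¬ mC ω t) (h' : mC ω' t) => ht (h.m t h')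
  equi := by
    intro σ τ h F ω hω hw
    ext t
    show ¬ (ω.2 (τ t) = true ∧ s1 (ω.1 (σ t)) = false) ↔ ¬ (ω.2 (τ t) = true ∧ s1 (ω.1 (τ t)) = false)
    refine not_congr ?_
    constructor
    · rintro ⟨h1, h2⟩
      exact ⟨h1, by rw [← s1_act h hω hw h1]; exact h2⟩
    · rintro ⟨h1, h2⟩
      exact ⟨h1, by rw [s1_act h hω hw h1]; exact h2⟩

theorem ColE.incP {c : ℝ} {col : Cfg → Set P2} (h : ColE c col) {A : Set (Set P2)} (hA : IsUpperSet A) :
    IncP (ind {ω | col ω ∈ A}) := fun ω ω' hl => ind_le_ind fun hω => hA (h.inc ω ω' hl) hω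

theorem ColE.incS {c : ℝ} {col : Cfg → Set P2} (h : ColE c col) {A : Set (Set P2)} (hA : IsUpperSet A) :
    IncS {ω | col ω ∈ A} := fun ω ω' hl hω => hA (h.inc ω ω' hl) hω

/-- transport -/
theorem ColE.act {c : ℝ} (hc : 1 ≤ c) {col : Cfg → Set P2} (h : ColE c col) {σ τ : P2 ≃ P2}
    (ha : Aut σ τ) {F F0 : Finset P2} (hF : F0.map τ.toEmbedding = F) (A : Set (Set P2)) :
    Pr c F {ω | col ω ∈ pre τ A} = Pr c F0 {ω | col ω ∈ A} := by
  have h1 := Pr_map ha c F0 {ω | col ω ∈ A}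
  rw [hF] at h1
  rw [← h1]
  refine le_antisymm (Pr_le_supp hc fun ω hω hw h2 => ?_) (Pr_le_supp hc fun ω hω hw h2 => ?_)
  · show col (actC σ τ ω) ∈ A
    rw [h.equi ha hω hw]
    exact h2
  · have h3 : col (actC σ τ ω) ∈ A := h2
    rw [h.equi ha hω hw] at h3
    exact h3

/-- the law of the colouring under the ordered mixture -/
def mixL {c : ℝ} (hc : 1 ≤ c) {col : Cfg → Set P2} (h : ColE c col) (n : ℕ) {a b : ℕ} (hab : a < b) :
    Law where
  P A := mx c n a b (ind {ω | col ω ∈ A})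
  nonneg A := mx_nonneg hc hab fun _ ω _ => ind_nonneg _ ω
  univ := by
    have e : ind {ω : Cfg | col ω ∈ (Set.univ : Set (Set P2))} = fun _ => (1 : ℝ) := by
      funext ω
      exact ind_of_mem (Set.mem_univ (col ω))
    rw [e, mx_const hc hab]
  mono A B hAB := mx_mono hc hab fun _ ω _ => ind_le_ind fun hω => hAB hω
  modular A B := by
    rw [← mx_add, ← mx_add]
    congr 1
    funext ω
    by_cases hA : col ω ∈ A <;> by_cases hB : col ω ∈ B <;>
      simp [ind, hA, hB]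
  fkg A B hA hB := by
    refine (mx_assoc hc hab (h.incP hA) (h.incP hB)).trans (le_of_eq ?_)
    congr 1
    funext ω
    by_cases hA' : col ω ∈ A <;> by_cases hB' : col ω ∈ B <;>
      simp [ind, hA', hB']
  empty := by
    have e : ind {ω : Cfg | col ω ∈ (∅ : Set (Set P2))} = fun _ => (0 : ℝ) := by
      funext ω
      exact ind_of_not_mem (Set.notMem_empty (col ω))
    rw [e, mx_const hc hab]

/-- sums over a shifted interval -/
theorem sum_shift (g : ℕ → ℝ) (h0 : ∀ k, 0 ≤ g k) (h1 : ∀ k, g k ≤ 1) (C a m : ℕ) :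
    ∑ k ∈ Finset.Ico a (a + m), g k ≤ ∑ k ∈ Finset.Ico a (a + m), g (k + C) + C := by
  have e1 : ∑ k ∈ Finset.Ico a (a + m), g (k + C) = ∑ k ∈ Finset.Ico (a + C) (a + m + C), g k := by
    rw [Finset.sum_Ico_add' g a (a + m) C]
  have e2 : ∑ k ∈ Finset.Ico a (a + m + C), g k =
      ∑ k ∈ Finset.Ico a (a + C), g k + ∑ k ∈ Finset.Ico (a + C) (a + m + C), g k := by
    rw [Finset.sum_Ico_consecutive g (by omega) (by omega)]
  have e3 : ∑ k ∈ Finset.Ico a (a + m), g k ≤ ∑ k ∈ Finset.Ico a (a + m + C), g k :=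
    Finset.sum_le_sum_of_subset_of_nonneg (Finset.Ico_subset_Ico_right (by omega)) fun k _ _ => h0 k
  have e4 : ∑ k ∈ Finset.Ico a (a + C), g k ≤ C := by
    refine (Finset.sum_le_card_nsmul _ _ 1 fun k _ => h1 k).trans ?_
    rw [Nat.card_Ico]
    simp
  rw [e1]
  linarith

theorem mx_Pr (c : ℝ) (n a b : ℕ) (A : Set Cfg) :
    mx c n a b (ind A) = (∑ K ∈ Finset.Ico a b, Pr c (hexB (K * n)) A) / ((b : ℝ) - a) := rfl

/-- `mixL` is approximately invariant -/
theorem mixL_inv {c : ℝ} (hc : 1 ≤ c) {col : Cfg → Set P2} (h : ColE c col) {n a M C : ℕ} (hM : 1 ≤ M)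
    {ρ : ℝ} (hρ : (C : ℝ) / M ≤ ρ) (hab : a < a + M) : (mixL hc h n hab).Inv (C * n) ρ where
  tr E hE _ v hv := by
    show mx c n a (a + M) (ind {ω | col ω ∈ E}) ≤
      mx c n a (a + M) (ind {ω | col ω ∈ pre (Qr315.tr v) E}) + ρ
    rw [mx_Pr, mx_Pr]
    have hM0 : (0 : ℝ) < M := by exact_mod_cast hM
    have e : ((a + M : ℕ) : ℝ) - a = M := by push_cast; ring
    rw [e]
    have h1 := sum_shift (fun k => Pr c (hexB (k * n)) {ω | col ω ∈ E}) (fun k => Pr_nonneg hc _ _)
      (fun k => Pr_le_one hc _ _) C a M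
    have h2 : ∑ k ∈ Finset.Ico a (a + M), Pr c (hexB ((k + C) * n)) {ω | col ω ∈ E} ≤
        ∑ k ∈ Finset.Ico a (a + M), Pr c (hexB (k * n)) {ω | col ω ∈ pre (Qr315.tr v) E} := by
      refine Finset.sum_le_sum fun k _ => ?_
      have h3 := h.act hc (aut_tr v) (F := hexB (k * n)) (F0 := ball (-v) (k * n)) ?_ E
      · have h4 : {ω : Cfg | col ω ∈ pre (Qr315.tr v) E} = {ω | col ω ∈ pre (Equiv.addRight v) E} := rfl
        rw [h4, h3]
        refine IncS.mono_dom hc (sc_ball _ _) (sc_hexB _) ?_ (h.incS hE)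
        intro x hx
        rw [mem_ball] at hx
        rw [mem_hexB]
        have hv' : |v.1 - 0| ≤ ((C * n : ℕ) : ℤ) ∧ |v.2 - 0| ≤ ((C * n : ℕ) : ℤ) ∧
          |v.1 - 0 + (v.2 - 0)| ≤ ((C * n : ℕ) : ℤ) := hv
        have e5 : (((k + C) * n : ℕ) : ℤ) = ((k * n : ℕ) : ℤ) + ((C * n : ℕ) : ℤ) := by push_cast; ring
        rw [e5]
        simp only [Prod.fst_neg, Prod.snd_neg, sub_neg_eq_add, sub_zero, abs_le] at hx hv' ⊢
        omega
      · ext w
        rw [Finset.mem_map]
        constructor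
        · rintro ⟨u, hu, rfl⟩
          rw [mem_ball'] at hu
          simpa using hu
        · intro hw
          refine ⟨w - v, ?_, by simp⟩
          rw [mem_ball']
          simpa using hw
    have h3 : (∑ k ∈ Finset.Ico a (a + M), Pr c (hexB (k * n)) {ω | col ω ∈ E}) / M ≤
        (∑ k ∈ Finset.Ico a (a + M), Pr c (hexB (k * n)) {ω | col ω ∈ pre (Qr315.tr v) E} + C) / M :=
      div_le_div_of_nonneg_right (by linarith) hM0.le
    rw [add_div] at h3
    linarith
  rot E hE _ := by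
    have hρ0 : 0 ≤ ρ := le_trans (by positivity) hρ
    show mx c n a (a + M) (ind {ω | col ω ∈ E}) ≤
      mx c n a (a + M) (ind {ω | col ω ∈ pre Qr315.rot E}) + ρ
    rw [mx_Pr, mx_Pr]
    have h2 : ∀ k, Pr c (hexB (k * n)) {ω | col ω ∈ pre Qr315.rot E} =
        Pr c (hexB (k * n)) {ω | col ω ∈ E} := by
      intro k
      have h3 := h.act hc (aut_ro.trans (aut_tr (1, 0))) (F := hexB (k * n)) (F0 := hexB (k * n)) ?_ E
      · have h4 : {ω : Cfg | col ω ∈ pre Qr315.rot E} =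
            {ω | col ω ∈ pre (roT.trans (Equiv.addRight (1, 0))) E} := by
          have : Qr315.rot = ⇑(roT.trans (Equiv.addRight (1, 0))) := by
            funext v
            simp only [Equiv.trans_apply, roT_apply, Equiv.coe_addRight, Qr315.rot]
            ext
            · simp
            · simp
          rw [this]
        rw [h4]
        exact h3
      · ext w
        rw [Finset.mem_map]
        constructor
        · rintro ⟨u, hu, rfl⟩
          simp only [Equiv.coe_toEmbedding, Equiv.trans_apply, roT_apply, Equiv.coe_addRight,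
            Prod.mk_add_mk, mem_hexB, abs_le] at *
          omega
        · intro hw
          refine ⟨(w.2, -w.1 - w.2), ?_, ?_⟩
          · simp only [mem_hexB, abs_le] at *
            omega
          · simp only [Equiv.coe_toEmbedding, Equiv.trans_apply, roT_apply, Equiv.coe_addRight,
              Prod.mk_add_mk]
            ext
            · show -w.2 - (-w.1 - w.2) - 1 + 1 = w.1
              ring
            · show w.2 + 0 = w.2
              ring
    rw [Finset.sum_congr rfl fun k _ => h2 k]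
    linarith
  rfx E hE _ := by
    have hρ0 : 0 ≤ ρ := le_trans (by positivity) hρ
    show mx c n a (a + M) (ind {ω | col ω ∈ E}) ≤
      mx c n a (a + M) (ind {ω | col ω ∈ pre Qr315.rfx E}) + ρ
    rw [mx_Pr, mx_Pr]
    have h2 : ∀ k, Pr c (hexB (k * n)) {ω | col ω ∈ pre Qr315.rfx E} =
        Pr c (hexB (k * n)) {ω | col ω ∈ E} := by
      intro k
      have h3 := h.act hc ((aut_sw.trans aut_ro).trans (aut_tr (1, 0))) (F := hexB (k * n))
        (F0 := hexB (k * n)) ?_ E
      · have h4 : {ω : Cfg | col ω ∈ pre Qr315.rfx E} =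
            {ω | col ω ∈ pre ((swE.trans roT).trans (Equiv.addRight (1, 0))) E} := by
          have : Qr315.rfx = ⇑((swE.trans roT).trans (Equiv.addRight (1, 0))) := by
            funext v
            simp only [Equiv.trans_apply, roT_apply, swE_apply, Equiv.coe_addRight, Qr315.rfx]
            ext
            · show -v.1 - v.2 = -v.2 - v.1 - 1 + 1
              ring
            · show v.2 = v.2 + 0
              ring
          rw [this]
        rw [h4]
        exact h3
      · ext w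
        rw [Finset.mem_map]
        constructor
        · rintro ⟨u, hu, rfl⟩
          simp only [Equiv.coe_toEmbedding, Equiv.trans_apply, roT_apply, swE_apply, Equiv.coe_addRight,
            Prod.mk_add_mk, mem_hexB, abs_le] at *
          omega
        · intro hw
          refine ⟨(-w.1 - w.2, w.2), ?_, ?_⟩
          · simp only [mem_hexB, abs_le] at *
            omega
          · simp only [Equiv.coe_toEmbedding, Equiv.trans_apply, roT_apply, swE_apply,
              Equiv.coe_addRight, Prod.mk_add_mk]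
            ext
            · show -w.2 - (-w.1 - w.2) - 1 + 1 = w.1
              ring
            · show w.2 + 0 = w.2
              ring
    rw [Finset.sum_congr rfl fun k _ => h2 k]
    linarith

/-- **MIX** -/
theorem mixP {c : ℝ} (hc : 1 ≤ c) {col : Cfg → Set P2} (h : ColE c col) : MixP c col := by
  intro C ρ hρ
  obtain ⟨M, hM⟩ := exists_nat_gt ((C : ℝ) / ρ)
  refine ⟨M + 1, fun n Ka hn => ⟨mixL hc h n (show Ka < Ka + (M + 1) by omega), ?_, fun A hA => ?_⟩⟩
  · refine mixL_inv hc h (by omega) ?_ _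
    rw [div_lt_iff₀ hρ] at hM
    rw [div_le_iff₀ (by positivity)]
    push_cast
    nlinarith
  · exact ⟨right_le_mx hc (by omega) (h.incP hA), mx_le_left hc (by omega) (h.incP hA)⟩

end Crest.Agent.R144.Th121
end
end

-- ▼ part R144/Xc2_851
section

/-!
# R144: the joint law of both FK representations (helper851), part 2: symmetries

* `E3_rf` : invariance under `h ↦ 1 - h`, both closed statuses unchanged (`s2` is flipped, `s1` is not);
* `exch k V ω` : heights reflected about `k` on `V` and the two closed statuses exchanged on the triangles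
  touching `V`; **`E3_exch`** : on the event "height exactly `k` on the neighbours of `V`", `V ⊆ IV F`, the joint
  law is invariant under `exch k V`;
* `kz`, `E3_cond` : given `(h, y)` the statuses `z` are independent with kernel `kz`; `E3_cond'` the other way;
* `flipX` : flips of the colour `s1` in the law of `(h, y)` (sets of interior sites which no `y`-open triangle
  splits).
-/

set_option autoImplicit false
set_option linter.unusedSectionVars false

noncomputable section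

namespace Crest.Agent.R144.Xc851

open Finset
open Crest.Agent.R144.It844 (P2 Lip adj_iff adj_symm lip_iff)
open Crest.Agent.R144.Zg349 Crest.Agent.R144.Zk349 Crest.Agent.R144.Zd349 Crest.Agent.R144.Zm349
open Crest.Agent.R144.Ze349
open Crest.Agent.R144.Pos561 (rf rf_of_mem rf_of_notMem rf_rf rf_valid)
open Crest.ProbabilityR.HexHeights (Adj)

/-- flattened index set of the joint law -/
def conf3 (F : Finset P2) : Finset C3 := hts F ×ˢ (zs F ×ˢ zs F)

theorem mem_conf3 {F : Finset P2} {ω : C3} :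
    ω ∈ conf3 F ↔ HV F ω.1 ∧ (∀ t, t ∉ F → ω.2.1 t = true) ∧ ∀ t, t ∉ F → ω.2.2 t = true := by
  unfold conf3
  rw [Finset.mem_product, Finset.mem_product, mem_hts, mem_zs, mem_zs]

theorem E3_eq (c : ℝ) (F : Finset P2) (f : C3 → ℝ) :
    E3 c F f = (∑ ω ∈ conf3 F, wt3 c F ω * f ω) / Z c F := by
  unfold E3 S3 conf3
  rw [Finset.sum_product]
  congr 1
  refine Finset.sum_congr rfl fun h _ => ?_
  rw [Finset.sum_product]

/-- invariance principle: an involution of the support preserving the weights -/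
theorem E3_inv {c : ℝ} {F : Finset P2} {φ : C3 → C3} {P : C3 → Prop} [DecidablePred P]
    (h1 : ∀ ω ∈ conf3 F, P ω → φ ω ∈ conf3 F) (h2 : ∀ ω ∈ conf3 F, P ω → P (φ ω))
    (h3 : ∀ ω ∈ conf3 F, P ω → φ (φ ω) = ω) (h4 : ∀ ω ∈ conf3 F, P ω → wt3 c F (φ ω) = wt3 c F ω)
    (f : C3 → ℝ) :
    E3 c F (fun ω => if P ω then f (φ ω) else 0) = E3 c F (fun ω => if P ω then f ω else 0) := by
  rw [E3_eq, E3_eq]
  congr 1
  have key : ∀ g : C3 → ℝ, ∑ ω ∈ conf3 F, wt3 c F ω * (if P ω then g ω else 0) =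
      ∑ ω ∈ (conf3 F).filter P, wt3 c F ω * g ω := by
    intro g
    rw [Finset.sum_filter]
    refine Finset.sum_congr rfl fun ω _ => ?_
    split_ifs
    · rfl
    · exact mul_zero _
  rw [key fun ω => f (φ ω), key f]
  have hm : ∀ ω ∈ (conf3 F).filter P, φ ω ∈ (conf3 F).filter P := by
    intro ω hω
    rw [Finset.mem_filter] at hω ⊢
    exact ⟨h1 ω hω.1 hω.2, h2 ω hω.1 hω.2⟩
  refine Finset.sum_nbij' φ φ hm hm ?_ ?_ ?_
  · intro ω hω
    rw [Finset.mem_filter] at hω
    exact h3 ω hω.1 hω.2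
  · intro ω hω
    rw [Finset.mem_filter] at hω
    exact h3 ω hω.1 hω.2
  · intro ω hω
    rw [Finset.mem_filter] at hω
    rw [h4 ω hω.1 hω.2]

/-! ### the flip `h ↦ 1 - h` -/

/-- reflected configuration -/
def rf3 (F : Finset P2) (ω : C3) : C3 := ((rf F (fst3 ω)).1, ω.2)

theorem rf3_height {F : Finset P2} {ω : C3} {v : P2} (hv : v ∈ VF F) : (rf3 F ω).1 v = 1 - ω.1 v :=
  rf_of_mem hv

theorem rf3_s1 {F : Finset P2} {ω : C3} (h : HV F ω.1) (v : P2) :
    s1 ((rf3 F ω).1 v) = s1 (ω.1 v) := by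
  by_cases hv : v ∈ VF F
  · rw [rf3_height hv, s1_refl]
  · have e : (rf3 F ω).1 v = 0 := rf_of_notMem hv
    rw [e, h.off v hv]

theorem rf3_s2 {F : Finset P2} {ω : C3} {v : P2} (hv : v ∈ VF F) :
    s2 ((rf3 F ω).1 v) = !s2 (ω.1 v) := by
  rw [rf3_height hv, s2_refl]

theorem ew3_congr {c : ℝ} {h g : P2 → ℤ} {t : P2} (e1 : C1 h t ↔ C1 g t) (e2 : C2 h t ↔ C2 g t)
    (z y : Bool) : ew3 c h t z y = ew3 c g t z y := by
  unfold ew3
  simp only [e1, e2]

theorem ew3_exch {c : ℝ} {h g : P2 → ℤ} {t : P2} (e1 : C1 h t ↔ C2 g t) (e2 : C2 h t ↔ C1 g t)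
    (z y : Bool) : ew3 c h t z y = ew3 c g t y z := by
  unfold ew3
  simp only [e1, e2]
  by_cases h1 : C1 g t <;> by_cases h2 : C2 g t <;> cases z <;> cases y <;> simp [h1, h2]

/-- **Flip** of the second colour. -/
theorem E3_rf (c : ℝ) (F : Finset P2) (f : C3 → ℝ) : E3 c F (fun ω => f (rf3 F ω)) = E3 c F f := by
  classical
  have h := E3_inv (c := c) (F := F) (φ := rf3 F) (P := fun _ => True) ?_ (fun _ _ _ => trivial) ?_ ?_ f
  · simpa only [if_true] using h
  · intro ω hω _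
    rw [mem_conf3] at *
    exact ⟨(rf_valid (B := F) (ω := (ω.1, fun _ => true)) ⟨hω.1, fun _ _ => rfl⟩).ht, hω.2⟩
  · intro ω hω _
    rw [mem_conf3] at hω
    have := rf_rf (B := F) (ω := (ω.1, fun _ => true)) ⟨hω.1, fun _ _ => rfl⟩
    refine Prod.ext ?_ rfl
    exact (Prod.ext_iff.1 this).1
  · intro ω hω _
    rw [mem_conf3] at hω
    unfold wt3
    refine Finset.prod_congr rfl fun t ht => ?_
    have hv : ∀ i, cr t i ∈ VF F := fun i => mem_VF.2 ⟨t, ht, cr_mem_up t i⟩
    have e : ∀ i, (rf3 F ω).1 (cr t i) = 1 - ω.1 (cr t i) := fun i => rf3_height (hv i)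
    refine ew3_congr ?_ ?_ _ _
    · unfold C1
      rw [e, e, e, s1_refl, s1_refl, s1_refl]
    · unfold C2
      rw [e, e, e, s2_refl, s2_refl, s2_refl]
      cases s2 (ω.1 (cr t 0)) <;> cases s2 (ω.1 (cr t 1)) <;> cases s2 (ω.1 (cr t 2)) <;> simp

/-! ### exchange of the colours inside a region with exact height `k` on its boundary -/

theorem s1_two_sub (k a : ℤ) (b : ℤ) : s1 (2 * k - a) = s1 (2 * k - b) ↔ s2 a = s2 b := by
  unfold s1 s2
  rw [decide_eq_decide, decide_eq_decide]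
  omega

theorem s2_two_sub (k a : ℤ) (b : ℤ) : s2 (2 * k - a) = s2 (2 * k - b) ↔ s1 a = s1 b := by
  unfold s1 s2
  rw [decide_eq_decide, decide_eq_decide]
  omega

open Classical in
/-- reflection about `k` in `V` and exchange of the statuses of the triangles touching `V` -/
def exch (k : ℤ) (V : Finset P2) (ω : C3) : C3 :=
  (fun v => if v ∈ V then 2 * k - ω.1 v else ω.1 v,
    fun t => if ∃ v ∈ V, v ∈ up t then ω.2.2 t else ω.2.1 t,
    fun t => if ∃ v ∈ V, v ∈ up t then ω.2.1 t else ω.2.2 t)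

/-- the height is exactly `k` on the neighbours of `V` -/
def Bd (k : ℤ) (V : Finset P2) (h : P2 → ℤ) : Prop := ∀ v ∈ V, ∀ w, w ∉ V → Adj v w → h w = k

theorem exch_in {k : ℤ} {V : Finset P2} {ω : C3} {v : P2} (hv : v ∈ V) :
    (exch k V ω).1 v = 2 * k - ω.1 v := if_pos hv
theorem exch_out {k : ℤ} {V : Finset P2} {ω : C3} {v : P2} (hv : v ∉ V) :
    (exch k V ω).1 v = ω.1 v := if_neg hv
theorem exch_z {k : ℤ} {V : Finset P2} {ω : C3} {t : P2} (ht : ∃ v ∈ V, v ∈ up t) :
    (exch k V ω).2.1 t = ω.2.2 t := if_pos ht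
theorem exch_y {k : ℤ} {V : Finset P2} {ω : C3} {t : P2} (ht : ∃ v ∈ V, v ∈ up t) :
    (exch k V ω).2.2 t = ω.2.1 t := if_pos ht
theorem exch_z' {k : ℤ} {V : Finset P2} {ω : C3} {t : P2} (ht : ¬ ∃ v ∈ V, v ∈ up t) :
    (exch k V ω).2.1 t = ω.2.1 t := if_neg ht
theorem exch_y' {k : ℤ} {V : Finset P2} {ω : C3} {t : P2} (ht : ¬ ∃ v ∈ V, v ∈ up t) :
    (exch k V ω).2.2 t = ω.2.2 t := if_neg ht

theorem adj_of_up {t u v : P2} (hu : u ∈ up t) (hv : v ∈ up t) (hne : u ≠ v) : Adj u v := by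
  rw [mem_up] at hu hv
  rw [adj_iff]
  obtain ⟨a, b⟩ := t
  obtain ⟨x, y⟩ := u
  obtain ⟨x', y'⟩ := v
  simp only [Prod.mk.injEq, ne_eq] at *
  omega

/-- on a triangle touching `V` all heights are reflected -/
theorem exch_up {k : ℤ} {V : Finset P2} {ω : C3} (hb : Bd k V ω.1) {t : P2} (ht : ∃ v ∈ V, v ∈ up t)
    {u : P2} (hu : u ∈ up t) : (exch k V ω).1 u = 2 * k - ω.1 u := by
  by_cases huV : u ∈ V
  · exact exch_in huV
  · obtain ⟨v, hv, hvt⟩ := ht
    have h1 := hb v hv u huV (adj_of_up hvt hu fun h => huV (h ▸ hv))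
    rw [exch_out huV, h1]
    ring


theorem exch_exch (k : ℤ) (V : Finset P2) (ω : C3) : exch k V (exch k V ω) = ω := by
  refine Prod.ext ?_ (Prod.ext ?_ ?_)
  · funext v
    by_cases hv : v ∈ V
    · rw [exch_in hv, exch_in hv]; ring
    · rw [exch_out hv, exch_out hv]
  · funext t
    by_cases ht : ∃ v ∈ V, v ∈ up t
    · rw [exch_z ht, exch_y ht]
    · rw [exch_z' ht, exch_z' ht]
  · funext t
    by_cases ht : ∃ v ∈ V, v ∈ up t
    · rw [exch_y ht, exch_z ht]
    · rw [exch_y' ht, exch_y' ht]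

theorem exch_hv {k : ℤ} {F V : Finset P2} (hV : V ⊆ IV F) {ω : C3} (hω : HV F ω.1)
    (hb : Bd k V ω.1) : HV F (exch k V ω).1 := by
  refine ⟨fun t ht i j => ?_, fun v hv => ?_, fun v hv => ?_⟩
  · by_cases h : ∃ v ∈ V, v ∈ up t
    · rw [exch_up hb h (cr_mem_up t i), exch_up hb h (cr_mem_up t j)]
      have := hω.lip t ht i j
      rw [abs_le] at *
      omega
    · push Not at h
      rw [exch_out fun hv => h _ hv (cr_mem_up t i), exch_out fun hv => h _ hv (cr_mem_up t j)]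
      exact hω.lip t ht i j
  · rw [exch_out fun h => hv (hV h)]
    exact hω.bd v hv
  · rw [exch_out fun h => hv (IV_sub_VF F (hV h))]
    exact hω.off v hv

theorem exch_wt {c : ℝ} {k : ℤ} {F V : Finset P2} {ω : C3} (hb : Bd k V ω.1) :
    wt3 c F (exch k V ω) = wt3 c F ω := by
  unfold wt3
  refine Finset.prod_congr rfl fun t _ => ?_
  by_cases h : ∃ v ∈ V, v ∈ up t
  · rw [exch_z h, exch_y h]
    have e : ∀ i, (exch k V ω).1 (cr t i) = 2 * k - ω.1 (cr t i) := fun i =>
      exch_up hb h (cr_mem_up t i)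
    refine ew3_exch ?_ ?_ _ _
    · unfold C1 C2
      rw [e, e, e, s1_two_sub, s1_two_sub]
    · unfold C1 C2
      rw [e, e, e, s2_two_sub, s2_two_sub]
  · rw [exch_z' h, exch_y' h]
    push Not at h
    have e : ∀ i, (exch k V ω).1 (cr t i) = ω.1 (cr t i) := fun i =>
      exch_out fun hv => h _ hv (cr_mem_up t i)
    refine ew3_congr ?_ ?_ _ _
    · unfold C1
      rw [e, e, e]
    · unfold C2
      rw [e, e, e]

theorem exch_conf {k : ℤ} {F V : Finset P2} (hV : V ⊆ IV F) {ω : C3} (hω : ω ∈ conf3 F)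
    (hb : Bd k V ω.1) : exch k V ω ∈ conf3 F := by
  rw [mem_conf3] at *
  have key : ∀ t, t ∉ F → ¬ ∃ v ∈ V, v ∈ up t := fun t ht ⟨v, hv, hvt⟩ =>
    ht ((mem_IV'.1 (hV hv)) t hvt)
  refine ⟨exch_hv hV hω.1 hb, fun t ht => ?_, fun t ht => ?_⟩
  · rw [exch_z' (key t ht)]; exact hω.2.1 t ht
  · rw [exch_y' (key t ht)]; exact hω.2.2 t ht

open Classical in
/-- **Exchange of the colours inside a region with exact boundary height.** `P` is any event unaffected by the
exchange and contained in "height `k` around `V`". -/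
theorem E3_exch (c : ℝ) {k : ℤ} {F V : Finset P2} (hV : V ⊆ IV F) {P : C3 → Prop}
    (hP : ∀ ω, P ω → Bd k V ω.1) (hP' : ∀ ω, P ω → P (exch k V ω)) (f : C3 → ℝ) :
    E3 c F (fun ω => if P ω then f (exch k V ω) else 0) = E3 c F (fun ω => if P ω then f ω else 0) :=
  E3_inv (fun _ hω h => exch_conf hV hω (hP _ h)) (fun _ _ h => hP' _ h) (fun ω _ _ => exch_exch k V ω)
    (fun _ _ h => exch_wt (hP _ h)) f

/-! ### kernels -/

/-- conditional probability of the status `z` given the heights and the status `y` -/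
def kz (c : ℝ) (h : P2 → ℤ) (t : P2) (y z : Bool) : ℝ :=
  if y then (if C1 h t then (if z then 2 - c else c - 1) else (if z then 0 else 1))
  else (if z then 1 else 0)

theorem kz_nonneg {c : ℝ} (hc : 1 ≤ c) (hc2 : c ≤ 2) (h : P2 → ℤ) (t : P2) (y z : Bool) :
    0 ≤ kz c h t y z := by
  unfold kz
  split_ifs <;> first | exact zero_le_one | exact le_rfl | linarith

theorem kz_sum (c : ℝ) (h : P2 → ℤ) (t : P2) (y : Bool) : kz c h t y true + kz c h t y false = 1 := by
  unfold kz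
  by_cases h1 : C1 h t <;> cases y <;> simp [h1]
  norm_num

theorem ew3_kz (c : ℝ) (h : P2 → ℤ) (t : P2) (z : Bool) (y : P2 → Bool) :
    ew3 c h t z (y t) = ew c (ng h, y) t * kz c h t (y t) z := by
  unfold ew3 ew kz
  simp only [c1_ng, c2_ng]
  by_cases h1 : C1 h t <;> by_cases h2 : C2 h t <;> cases z <;> rcases hb : y t with _ | _ <;>
    simp [h1, h2]

/-- average over the statuses `z` given `(h, y)` -/
def avz (c : ℝ) (F : Finset P2) (f : C3 → ℝ) (h : P2 → ℤ) (y : P2 → Bool) : ℝ :=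
  ∑ z ∈ zs F, (∏ t ∈ F, kz c h t (y t) (z t)) * f (h, z, y)


/-- **Conditional independence** of the statuses of the first representation given `(h, y)`. -/
theorem E3_cond (c : ℝ) (F : Finset P2) (f : C3 → ℝ) :
    E3 c F f = EX c F (fun ω => avz c F f (ng ω.1) ω.2) := by
  classical
  rw [EX_eq]
  unfold E3 S3 S2
  congr 1
  rw [Finset.sum_image fun a _ b _ e => ng_inj e]
  refine Finset.sum_congr rfl fun h _ => ?_
  rw [Finset.sum_comm]
  refine Finset.sum_congr rfl fun y _ => ?_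
  simp only [ng_ng]
  unfold avz
  rw [Finset.mul_sum]
  refine Finset.sum_congr rfl fun z _ => ?_
  have e : wt3 c F (h, z, y) = wt c F (ng h, y) * ∏ t ∈ F, kz c h t (y t) (z t) := by
    unfold wt3 wt
    rw [← Finset.prod_mul_distrib]
    exact Finset.prod_congr rfl fun t _ => ew3_kz c h t (z t) y
  rw [e]
  ring

/-- conditional probability of the status `y` given the heights and the status `z` -/
def ky (c : ℝ) (h : P2 → ℤ) (t : P2) (z y : Bool) : ℝ := kz c (ng h) t z y


theorem ky_sum (c : ℝ) (h : P2 → ℤ) (t : P2) (z : Bool) : ky c h t z true + ky c h t z false = 1 :=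
  kz_sum c _ t z

theorem ew3_ky (c : ℝ) (h : P2 → ℤ) (t : P2) (z : P2 → Bool) (y : Bool) :
    ew3 c h t (z t) y = ew c (h, z) t * ky c h t (z t) y := by
  unfold ew3 ew ky kz
  simp only [c1_ng]
  by_cases h1 : C1 h t <;> by_cases h2 : C2 h t <;> cases y <;> rcases hb : z t with _ | _ <;>
    simp [h1, h2]

/-- average over the statuses `y` given `(h, z)` -/
def avy (c : ℝ) (F : Finset P2) (f : C3 → ℝ) (ω : Cfg) : ℝ :=
  ∑ y ∈ zs F, (∏ t ∈ F, ky c ω.1 t (ω.2 t) (y t)) * f (ω.1, ω.2, y)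


/-- **Conditional independence** of the statuses of the second representation given `(h, z)`. -/
theorem E3_cond' (c : ℝ) (F : Finset P2) (f : C3 → ℝ) : E3 c F f = E c F (avy c F f) := by
  have h1 : E c F (avy c F f) = S2 c F (hts F) (avy c F f) / Z c F := by
    rw [S2_hts, E_eq_S]
  rw [h1]
  unfold E3 S3 S2
  congr 1
  refine Finset.sum_congr rfl fun h _ => Finset.sum_congr rfl fun z _ => ?_
  unfold avy
  rw [Finset.mul_sum]
  refine Finset.sum_congr rfl fun y _ => ?_
  have e : wt3 c F (h, z, y) = wt c F (h, z) * ∏ t ∈ F, ky c h t (z t) (y t) := by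
    unfold wt3 wt
    rw [← Finset.prod_mul_distrib]
    exact Finset.prod_congr rfl fun t _ => ew3_ky c h t z (y t)
  rw [e]
  ring

/-! ### flips of the first colour in the second representation -/

/-- the exchanged law in terms of the colour sets -/
theorem SX_tri {F : Finset P2} (hF : SC F) (c : ℝ)
    (f : (P2 → Bool) → (P2 → Bool) → (P2 → Bool) → ℝ) :
    EX c F (fun ω => f (fun v => s1 (ω.1 v)) (fun v => s2 (ω.1 v)) ω.2) =
      (∑ T ∈ (IV F).powerset, ∑ A ∈ (VF F).powerset, ∑ Z ∈ F.powerset,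
        (∏ t ∈ F, ewS c A T Z t) *
          f (fun v => decide (v ∉ A)) (fun v => decide (v ∉ T)) (zb F Z)) / Z c F := by
  classical
  rw [EX_eq]
  congr 1
  unfold S2
  rw [Finset.sum_image fun a _ b _ e => ng_inj e]
  have h1 : ∀ h ∈ hts F, ∑ z ∈ zs F, wt c F (ng h, z) *
      f (fun v => s1 (ng h v)) (fun v => s2 (ng h v)) z =
      (fun T A => ∑ Z ∈ F.powerset, (∏ t ∈ F, ewS c A T Z t) *
          f (fun v => decide (v ∉ A)) (fun v => decide (v ∉ T)) (zb F Z)) (tm F h) (am F h) := by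
    intro h hh
    rw [mem_hts] at hh
    rw [sum_zs F fun z => wt c F (ng h, z) * f (fun v => s1 (ng h v)) (fun v => s2 (ng h v)) z]
    refine Finset.sum_congr rfl fun Z hZ => ?_
    have e1 : (fun v => s1 (ng h v)) = fun v => decide (v ∉ am F h) := by
      funext v
      rw [s1_ng]
      have := mem_am hh (v := v)
      cases hs : s2 (h v) <;> simp [this, hs]
    have e2 : (fun v => s2 (ng h v)) = fun v => decide (v ∉ tm F h) := by
      funext v
      rw [s2_ng]
      have := mem_tm hh (v := v)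
      cases hs : s1 (h v) <;> simp [this, hs]
    rw [e1, e2]
    congr 1
    unfold wt
    refine Finset.prod_congr rfl fun t ht => ?_
    unfold ew ewS
    have e : (zb F Z t = true) ↔ t ∈ Z := by
      unfold zb
      rw [decide_eq_true_eq]
      constructor
      · rintro (h | h)
        · exact absurd ht h
        · exact h
      · exact Or.inr
    simp only [c1_ng, c2_ng, c1_iff hh, c2_iff hh, e]
  refine (Finset.sum_congr rfl h1).trans ((sum_hts hF fun T A => ∑ Z ∈ F.powerset,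
    (∏ t ∈ F, ewS c A T Z t) * f (fun v => decide (v ∉ A)) (fun v => decide (v ∉ T)) (zb F Z)).trans ?_)
  refine Finset.sum_congr rfl fun T _ => Finset.sum_congr rfl fun A _ => ?_
  split_ifs with h
  · rfl
  · push Not at h
    obtain ⟨t, ht, h1, h2⟩ := h
    symm
    refine Finset.sum_eq_zero fun Z _ => ?_
    rw [Finset.prod_eq_zero ht, zero_mul]
    unfold ewS
    rw [if_neg h1, if_neg h2]
    split_ifs <;> rfl

/-- **Flips in the exchanged law**: `U` a function of `(c1, z)` with values sets of interior sites, no open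
triangle of `F` being split. (In terms of `E3`: `c1 = s2`, `c2 = s1`, `z = y`.) -/
theorem flipX {F : Finset P2} (hF : SC F) (c : ℝ) (U : (P2 → Bool) → (P2 → Bool) → P2 → Bool)
    (hU1 : ∀ s z v, (∀ t, t ∉ F → z t = true) → U s z v = true → v ∈ IV F)
    (hU2 : ∀ s z t, (∀ t, t ∉ F → z t = true) → z t = false → ∀ i j, U s z (cr t i) = U s z (cr t j))
    (f : (P2 → Bool) → (P2 → Bool) → (P2 → Bool) → ℝ) :
    EX c F (fun ω => f (fun v => s1 (ω.1 v))
        (fun v => xor (s2 (ω.1 v)) (U (fun v => s1 (ω.1 v)) ω.2 v)) ω.2) =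
      EX c F (fun ω => f (fun v => s1 (ω.1 v)) (fun v => s2 (ω.1 v)) ω.2) := by
  classical
  rw [SX_tri hF c (fun s a z => f s (fun v => xor (a v) (U s z v)) z), SX_tri hF c f]
  congr 1
  let V : Finset P2 → Finset P2 → Finset P2 := fun A Z =>
    (IV F).filter fun v => U (fun v => decide (v ∉ A)) (zb F Z) v = true
  have hz : ∀ Z : Finset P2, ∀ t, t ∉ F → zb F Z t = true := by
    intro Z t ht
    unfold zb
    rw [decide_eq_true_eq]
    exact Or.inl ht
  have hV : ∀ A Z v, v ∈ V A Z ↔ U (fun v => decide (v ∉ A)) (zb F Z) v = true := by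
    intro A Z v
    simp only [V, Finset.mem_filter]
    exact ⟨fun h => h.2, fun h => ⟨hU1 _ _ _ (hz Z) h, h⟩⟩
  rw [Finset.sum_comm, Finset.sum_comm (s := (IV F).powerset)]
  refine Finset.sum_congr rfl fun A _ => ?_
  rw [Finset.sum_comm, Finset.sum_comm (s := (IV F).powerset)]
  refine Finset.sum_congr rfl fun Z hZ => ?_
  rw [Finset.mem_powerset] at hZ
  have hmem : ∀ T ∈ (IV F).powerset, symmDiff T (V A Z) ∈ (IV F).powerset := by
    intro T hT
    rw [Finset.mem_powerset] at hT ⊢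
    intro v hv
    rw [Finset.mem_symmDiff] at hv
    rcases hv with h | h
    · exact hT h.1
    · exact Finset.filter_subset _ _ h.1
  refine Finset.sum_nbij' (fun T => symmDiff T (V A Z)) (fun T => symmDiff T (V A Z)) hmem hmem
    (fun T _ => symmDiff_symmDiff_cancel_right _ _) (fun T _ => symmDiff_symmDiff_cancel_right _ _)
    fun T hT => ?_
  have e1 : ∏ t ∈ F, ewS c A (symmDiff T (V A Z)) Z t = ∏ t ∈ F, ewS c A T Z t := by
    refine Finset.prod_congr rfl fun t ht => ?_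
    unfold ewS
    by_cases htZ : t ∈ Z
    · rw [if_pos htZ, if_pos htZ]
    · rw [if_neg htZ, if_neg htZ]
      have := Crest.Agent.R144.Pst967.m3_symmDiff (t := t) (A := T) (U := V A Z) fun i j => by
        rw [hV, hV, hU2 _ _ t (hz Z) (by
          unfold zb
          rw [decide_eq_false_iff_not]
          tauto) i j]
      simp only [this]
  have e2 : (fun v => decide (v ∉ symmDiff T (V A Z))) =
      fun v => xor (decide (v ∉ T)) (U (fun v => decide (v ∉ A)) (zb F Z) v) := by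
    funext v
    have h1 := hV A Z v
    apply bool_eq_of_iff
    rw [decide_eq_true_eq, Finset.mem_symmDiff, h1]
    by_cases hT : v ∈ T <;> cases hb : U (fun v => decide (v ∉ A)) (zb F Z) v <;> simp [hT]
  rw [e1, e2]

end Crest.Agent.R144.Xc851
end
end

-- ▼ part R144/Xc3_851
section

/-!
# R144: the joint law of both FK representations (helper851), part 3: FLIP

* `zf`, `E3_coin` : the joint law is the law of `(h, y)` with independent coins `κ` on the triangles, the status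
  `z` being a function of `(h, y, κ)` (closed if `y` is open; open if `s1` is not constant; the coin otherwise);
* `mem_IV_of_sepr` : if `y`-closed triangles separate `ball a t` from outside `ball a N`, the `y`-open clusters of
  the sites well inside `ball a t` consist of interior sites;
* **`flip_layer`** : on that event the first colour may be flipped inside;
* **`flip_B`** : `P(y-closed triangles separate) ≤ P(no plus closed layer) + P(minus closed layer)`.
-/

set_option autoImplicit false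
set_option linter.unusedSectionVars false

noncomputable section

namespace Crest.Agent.R144.Xc851

open Finset
open Crest.Agent.R144.It844 (P2 Lip adj_iff adj_symm lip_iff)
open Crest.Agent.R144.Zg349 Crest.Agent.R144.Zk349 Crest.Agent.R144.Zd349 Crest.Agent.R144.Zm349
open Crest.Agent.R144.Ze349
open Crest.Agent.R144.Pst967 (OConn OStep oConn_of_open oConn_refl path_symm)
open Crest.Agent.R144.Rsw867
open Crest.ProbabilityR.HexHeights (Adj)

/-! ### coins -/

/-- weight of a coin -/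
def vc (c : ℝ) (b : Bool) : ℝ := if b then 2 - c else c - 1



/-- the status `z` as a function of the heights, of `y` and of the coins -/
def zf (h : P2 → ℤ) (y κ : P2 → Bool) (t : P2) : Bool := if y t then (decide (C1 h t) && κ t) else true

theorem kz_eq (c : ℝ) (h : P2 → ℤ) (t : P2) (y : P2 → Bool) (b : Bool) :
    kz c h t (y t) b = (if b = (if y t then (decide (C1 h t) && true) else true) then vc c true else 0) +
      (if b = (if y t then (decide (C1 h t) && false) else true) then vc c false else 0) := by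
  unfold kz vc
  by_cases h1 : C1 h t <;> cases b <;> rcases hb : y t with _ | _ <;> simp [h1] <;> norm_num

/-- push forward of the coins -/
theorem sum_coin (c : ℝ) {F : Finset P2} {h : P2 → ℤ} {y : P2 → Bool}
    (hy : ∀ t, t ∉ F → y t = true) (hC : ∀ t, t ∉ F → C1 h t) (g : (P2 → Bool) → ℝ) :
    ∑ κ ∈ zs F, (∏ t ∈ F, vc c (κ t)) * g (zf h y κ) =
      ∑ z ∈ zs F, (∏ t ∈ F, kz c h t (y t) (z t)) * g z := by
  classical
  have hz : ∀ κ ∈ zs F, zf h y κ ∈ zs F := by
    intro κ hκ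
    rw [mem_zs] at *
    intro t ht
    unfold zf
    rw [hy t ht, hκ t ht]
    simp [hC t ht]
  have e1 : ∀ κ ∈ zs F, (∏ t ∈ F, vc c (κ t)) * g (zf h y κ) =
      ∑ z ∈ zs F, (if z = zf h y κ then (∏ t ∈ F, vc c (κ t)) * g z else 0) := by
    intro κ hκ
    rw [Finset.sum_ite_eq' (zs F) (zf h y κ) fun z => (∏ t ∈ F, vc c (κ t)) * g z, if_pos (hz κ hκ)]
  rw [Finset.sum_congr rfl e1, Finset.sum_comm]
  refine Finset.sum_congr rfl fun z hzz => ?_
  have e2 : ∀ κ ∈ zs F, (if z = zf h y κ then (∏ t ∈ F, vc c (κ t)) * g z else 0) =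
      (∏ t ∈ F, (if z t = (if y t then (decide (C1 h t) && κ t) else true) then vc c (κ t) else 0)) *
        g z := by
    intro κ hκ
    by_cases he : z = zf h y κ
    · rw [if_pos he]
      congr 1
      refine Finset.prod_congr rfl fun t _ => ?_
      have e3 : z t = zf h y κ t := congrFun he t
      unfold zf at e3
      rw [if_pos e3]
    · rw [if_neg he]
      have : ∃ t ∈ F, z t ≠ zf h y κ t := by
        by_contra hcon
        push Not at hcon
        apply he
        funext t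
        by_cases ht : t ∈ F
        · exact hcon t ht
        · rw [mem_zs.1 hzz t ht, mem_zs.1 (hz κ hκ) t ht]
      obtain ⟨t, ht, hne⟩ := this
      unfold zf at hne
      rw [Finset.prod_eq_zero ht (if_neg hne), zero_mul]
  rw [Finset.sum_congr rfl e2, ← Finset.sum_mul]
  congr 1
  rw [sum_zs_prod F fun t b => if z t = (if y t then (decide (C1 h t) && b) else true) then vc c b else 0]
  refine Finset.prod_congr rfl fun t _ => ?_
  exact (kz_eq c h t y (z t)).symm

theorem c1_off {F : Finset P2} {h : P2 → ℤ} (hh : HV F h) {t : P2} (ht : t ∉ F) : C1 h t := by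
  have key : ∀ k, s1 (h (cr t k)) = true := fun k =>
    hh.s1_bd fun hk => ht ((mem_IV'.1 hk) t (cr_mem_up t k))
  exact ⟨by rw [key, key], by rw [key, key]⟩

theorem EX_sum {ι : Type*} (c : ℝ) (F : Finset P2) (s : Finset ι) (f : ι → Cfg → ℝ) :
    EX c F (fun ω => ∑ i ∈ s, f i ω) = ∑ i ∈ s, EX c F (f i) := by
  classical
  induction s using Finset.induction_on with
  | empty =>
    simp only [Finset.sum_empty]
    have := EX_smul c F 0 fun _ => 1
    simpa using this
  | insert a s ha ih =>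
    rw [Finset.sum_insert ha, ← ih, ← EX_add]
    simp only [Finset.sum_insert ha]

/-- **Coin representation** of the joint law. -/
theorem E3_coin (c : ℝ) {F : Finset P2} (f : C3 → ℝ) :
    E3 c F f = ∑ κ ∈ zs F, (∏ t ∈ F, vc c (κ t)) *
      EX c F (fun ω => f (ng ω.1, zf (ng ω.1) ω.2 κ, ω.2)) := by
  rw [E3_cond]
  have e1 : EX c F (fun ω => avz c F f (ng ω.1) ω.2) = EX c F (fun ω => ∑ κ ∈ zs F,
      (∏ t ∈ F, vc c (κ t)) * f (ng ω.1, zf (ng ω.1) ω.2 κ, ω.2)) := by
    refine EX_congr fun ω hω _ => ?_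
    unfold avz
    exact (sum_coin c hω.cl (fun t ht => c1_off hω.ht ht) fun z => f (ng ω.1, z, ω.2)).symm
  rw [e1, EX_sum]
  exact Finset.sum_congr rfl fun κ _ => EX_smul c F _ _

/-! ### clusters inside a closed layer -/

theorem up_ball {a : P2} {n : ℕ} {s s' w : P2} (hs : s ∈ ball a n) (h : w ∈ up s) (h' : w ∈ up s') :
    s' ∈ ball a (n + 1) := by
  rcases Crest.Agent.R144.Pst967.adj_of_share h h' with rfl | ha
  · exact ball_mono a (Nat.le_succ n) hs
  · exact adj_ball hs ha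

/-- clusters of inner sites do not reach the boundary -/
theorem mem_IV_of_sepr {F : Finset P2} {a : P2} {t N : ℕ} (hB : ball a (N + 2) ⊆ F) (htN : t ≤ N)
    {y : P2 → Bool} (hL : Sepr {x | y x = true} a t N) {v : P2} (hv : ∀ s, v ∈ up s → s ∈ ball a t)
    {w : P2} (hw : OConn y v w) : w ∈ IV F := by
  have key : (∀ s, y s = false → w ∈ up s → ∃ u ∈ ball a t,
      Relation.ReflTransGen (StepIn {x | y x = true}ᶜ) s u) ∧ w ∈ IV F := by
    unfold OConn at hw
    induction hw with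
    | refl =>
      refine ⟨fun s _ hs => ⟨s, hv s hs, Relation.ReflTransGen.refl⟩, ?_⟩
      rw [mem_IV']
      exact fun s hs => hB (ball_mono a (by omega) (hv s hs))
    | @tail b d _ h2 ih =>
      obtain ⟨t', h3, h4, h5⟩ := h2
      obtain ⟨u, hu, hp⟩ := ih.1 t' h3 h4
      have h6 : t' ∈ ball a N := by
        by_contra h7
        exact hL t' u h7 hu hp
      refine ⟨fun s hs hds => ?_, ?_⟩
      · rcases Crest.Agent.R144.Pst967.adj_of_share hds h5 with rfl | ha
        · exact ⟨u, hu, hp⟩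
        · refine ⟨u, hu, Relation.ReflTransGen.head ⟨?_, ?_, ha⟩ hp⟩
          · show ¬ y s = true
            rw [hs]; decide
          · show ¬ y t' = true
            rw [h3]; decide
      · rw [mem_IV']
        exact fun s hs => hB (ball_mono a (by omega) (up_ball h6 h5 hs))
  exact key.2

/-! ### the flip -/

open Classical in
/-- sites whose `y`-open cluster stays in the interior -/
def UU (F : Finset P2) (y : P2 → Bool) (v : P2) : Bool := decide (∀ w, OConn y v w → w ∈ IV F)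

open Classical in
theorem UU_iff {F : Finset P2} {y : P2 → Bool} {v : P2} :
    UU F y v = true ↔ ∀ w, OConn y v w → w ∈ IV F := by
  unfold UU
  rw [decide_eq_true_eq]

theorem UU_congr {F : Finset P2} {y : P2 → Bool} {v w : P2} (h : OConn y v w) : UU F y v = UU F y w := by
  apply bool_eq_of_iff
  rw [UU_iff, UU_iff]
  exact ⟨fun h1 x hx => h1 x (h.trans hx), fun h1 x hx => h1 x (h.symm.trans hx)⟩

/-- the status `z` in terms of the first colour -/
def zc (a : P2 → Bool) (y κ : P2 → Bool) (t : P2) : Bool :=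
  if y t then (decide (a (cr t 0) = a (cr t 1) ∧ a (cr t 0) = a (cr t 2)) && κ t) else true

theorem zf_eq (h : P2 → ℤ) (y κ : P2 → Bool) (t : P2) : zf h y κ t = zc (fun v => s1 (h v)) y κ t := by
  unfold zf zc C1
  rfl

/-- triangles of sign `e`, closed -/
def PB (e : Bool) (a y κ : P2 → Bool) : Set P2 := {t | zc a y κ t = true ∧ a t = e}

theorem base_up (t : P2) : t ∈ up t := mem_up.2 (Or.inl rfl)

open Classical in
/-- **Flip inside a `y`-closed layer**, one coin configuration. -/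
theorem flip_EX {c : ℝ} {F : Finset P2} (hF : SC F) {a : P2} {t N v : ℕ}
    (hB : ball a (N + 2) ⊆ F) (htN : t ≤ N) (hvt : 2 * v + 4 ≤ t) (κ : P2 → Bool) (e : Bool) :
    EX c F (fun ω => if Sepr {x | ω.2 x = true} a t N ∧
        Sepr (PB e (fun u => s2 (ω.1 u)) ω.2 κ) a v (2 * v) then 1 else 0) =
      EX c F (fun ω => if Sepr {x | ω.2 x = true} a t N ∧
        Sepr (PB (!e) (fun u => s2 (ω.1 u)) ω.2 κ) a v (2 * v) then 1 else 0) := by
  have h := flipX hF c (fun _ y => UU F y) (fun _ y w _ hw => UU_iff.1 hw w (oConn_refl _ _))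
    (fun _ y s _ hs i j => UU_congr (oConn_of_open hs (cr_mem_up s i) (cr_mem_up s j)))
    (fun _ b y => if Sepr {x | y x = true} a t N ∧ Sepr (PB (!e) b y κ) a v (2 * v) then (1 : ℝ) else 0)
  beta_reduce at h
  rw [← h]
  refine congrArg (EX c F) ?_
  funext ω
  by_cases hL : Sepr {x | ω.2 x = true} a t N
  · have hU : ∀ s ∈ ball a (2 * v + 1), ∀ w ∈ up s, UU F ω.2 w = true := by
      intro s hs w hw
      rw [UU_iff]
      intro x hx
      refine mem_IV_of_sepr hB htN hL (fun s' hs' => ?_) hx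
      exact ball_mono a (by omega) (up_ball hs hw hs')
    have hz : ∀ s ∈ ball a (2 * v + 1),
        zc (fun u => xor (s2 (ω.1 u)) (UU F ω.2 u)) ω.2 κ s = zc (fun u => s2 (ω.1 u)) ω.2 κ s := by
      intro s hs
      unfold zc
      have e0 := hU s hs _ (cr_mem_up s 0)
      have e1 := hU s hs _ (cr_mem_up s 1)
      have e2 := hU s hs _ (cr_mem_up s 2)
      simp only [e0, e1, e2, Bool.xor_true, Bool.not_inj_iff]
    have hm : ∀ s ∈ ball a (2 * v + 1), (s ∈ PB e (fun u => s2 (ω.1 u)) ω.2 κ ↔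
        s ∈ PB (!e) (fun u => xor (s2 (ω.1 u)) (UU F ω.2 u)) ω.2 κ) := by
      intro s hs
      have e0 := hU s hs s (base_up s)
      show (_ ∧ _) ↔ (_ ∧ _)
      rw [hz s hs]
      simp only [e0, Bool.xor_true, Bool.not_inj_iff]
    have key : Sepr (PB e (fun u => s2 (ω.1 u)) ω.2 κ) a v (2 * v) ↔
        Sepr (PB (!e) (fun u => xor (s2 (ω.1 u)) (UU F ω.2 u)) ω.2 κ) a v (2 * v) := by
      constructor
      · exact Sepr.congr (by omega) fun s hs _ => (hm s hs).1
      · exact Sepr.congr (by omega) fun s hs _ => (hm s hs).2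
    simp only [key]
  · simp only [hL, false_and, if_false]

open Classical in
/-- **Flip inside a `y`-closed layer.** -/
theorem flip_layer {c : ℝ} {F : Finset P2} (hF : SC F) {a : P2} {t N v : ℕ}
    (hB : ball a (N + 2) ⊆ F) (htN : t ≤ N) (hvt : 2 * v + 4 ≤ t) :
    E3 c F (fun ω => if Sepr {x | ω.2.2 x = true} a t N ∧ fst3 ω ∈ BlkP a v (2 * v) then 1 else 0) =
      E3 c F (fun ω => if Sepr {x | ω.2.2 x = true} a t N ∧ fst3 ω ∈ Blk a v (2 * v) then 1 else 0) := by
  rw [E3_coin, E3_coin]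
  refine Finset.sum_congr rfl fun κ _ => ?_
  congr 1
  have h := flip_EX (c := c) hF (a := a) hB htN hvt κ true
  have e1 : ∀ (e : Bool) (ω : Cfg), {s | zf (ng ω.1) ω.2 κ s = true ∧ s1 (ng ω.1 s) = e} =
      PB e (fun u => s2 (ω.1 u)) ω.2 κ := by
    intro e ω
    ext s
    show (_ ∧ _) ↔ (_ ∧ _)
    rw [zf_eq]
    simp only [s1_ng]
  have e2 : ∀ ω : Cfg, (fst3 (ng ω.1, zf (ng ω.1) ω.2 κ, ω.2) ∈ BlkP a v (2 * v)) ↔
      Sepr (PB true (fun u => s2 (ω.1 u)) ω.2 κ) a v (2 * v) := by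
    intro ω
    rw [← e1]
    rfl
  have e3 : ∀ ω : Cfg, (fst3 (ng ω.1, zf (ng ω.1) ω.2 κ, ω.2) ∈ Blk a v (2 * v)) ↔
      Sepr (PB false (fun u => s2 (ω.1 u)) ω.2 κ) a v (2 * v) := by
    intro ω
    rw [← e1]
    rfl
  simp only [e2, e3]
  exact h

open Classical in
/-- probability that `y`-closed triangles separate `ball a t` from outside `ball a N` -/
def pBa (c : ℝ) (F : Finset P2) (a : P2) (t N : ℕ) : ℝ :=
  E3 c F (fun ω => if Sepr {x | ω.2.2 x = true} a t N then 1 else 0)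

open Classical in
/-- the same, centre `0` -/
def pB (c : ℝ) (F : Finset P2) (t N : ℕ) : ℝ :=
  E3 c F (fun ω => if Sepr {x | ω.2.2 x = true} 0 t N then 1 else 0)

theorem pB_eq (c : ℝ) (F : Finset P2) (t N : ℕ) : pB c F t N = pBa c F 0 t N := rfl

open Classical in
/-- **FLIP** -/
theorem flip_Ba {c : ℝ} (hc : 1 ≤ c) (hc2 : c ≤ 2) {F : Finset P2} (hF : SC F) {a : P2} {t N v : ℕ}
    (hB : ball a (N + 2) ⊆ F) (htN : t ≤ N) (hvt : 2 * v + 4 ≤ t) :
    pBa c F a t N ≤ Pr c F (BlkP a v (2 * v))ᶜ + Pr c F (Blk a v (2 * v)) := by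
  have e1 : Pr c F (BlkP a v (2 * v))ᶜ = E3 c F (fun ω => ind (BlkP a v (2 * v))ᶜ (fst3 ω)) := by
    rw [Pr_eq, ← E3_fst]
  have e2 : Pr c F (Blk a v (2 * v)) = E3 c F (fun ω => ind (Blk a v (2 * v)) (fst3 ω)) := by
    rw [Pr_eq, ← E3_fst]
  have h1 : pBa c F a t N ≤ E3 c F (fun ω => ind (BlkP a v (2 * v))ᶜ (fst3 ω)) +
      E3 c F (fun ω => if Sepr {x | ω.2.2 x = true} a t N ∧ fst3 ω ∈ BlkP a v (2 * v) then 1 else 0) := by
    rw [← E3_add]
    refine E3_mono hc hc2 fun ω _ => ?_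
    by_cases hP : fst3 ω ∈ BlkP a v (2 * v)
    · have h0 := ind_nonneg (BlkP a v (2 * v))ᶜ (fst3 ω)
      by_cases hL : Sepr {x | ω.2.2 x = true} a t N
      · simp only [hL, hP, true_and, if_true]; linarith
      · simp only [hL, false_and, if_false]; linarith
    · rw [ind_of_mem (show fst3 ω ∈ (BlkP a v (2 * v))ᶜ from hP)]
      simp only [hP, and_false, if_false]
      split_ifs <;> norm_num
  rw [flip_layer hF hB htN hvt] at h1
  have h2 : E3 c F (fun ω => if Sepr {x | ω.2.2 x = true} a t N ∧ fst3 ω ∈ Blk a v (2 * v) then 1 else 0)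
      ≤ E3 c F (fun ω => ind (Blk a v (2 * v)) (fst3 ω)) := by
    refine E3_mono hc hc2 fun ω _ => ?_
    by_cases hP : fst3 ω ∈ Blk a v (2 * v)
    · rw [ind_of_mem hP]
      split_ifs <;> norm_num
    · simp only [hP, and_false, if_false]
      exact ind_nonneg _ _
  rw [e1, e2]
  linarith

/-- **FLIP**, the form of the R2 table -/
theorem flip_B {c : ℝ} (hc : 1 ≤ c) (hc2 : c ≤ 2) {F : Finset P2} (hF : SC F) {t N v : ℕ}
    (hB : ball 0 (N + 2) ⊆ F) (htN : t ≤ N) (hvt : 2 * v + 8 ≤ t) :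
    pB c F t N ≤ Pr c F (BlkP 0 v (2 * v))ᶜ + Pr c F (Blk 0 v (2 * v)) := by
  rw [pB_eq]
  exact flip_Ba hc hc2 hF hB htN (by omega)

end Crest.Agent.R144.Xc851
end
end

-- ▼ part R144/Xc4_851
section

/-!
# R144: the joint law of both FK representations (helper851), part 4: LEV

* `Xh F h` : sites joined by `{h ≤ 0}` to non-interior sites of height `≤ 0`; `Vh F h` : interior sites neither in
  nor next to `Xh F h`; on the neighbours of `Vh F h` the height is exactly `1` (`bd_Vh`), the region is unchanged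
  by `exch 1 (Vh F h)` (`Vh_exch`);
* **`lev_Ba`, `lev_B`** : `P({h ≥ 1} separates ∩ plus closed layer inside) ≤ P(y-closed layer)`.
-/

set_option autoImplicit false
set_option linter.unusedSectionVars false

noncomputable section

namespace Crest.Agent.R144.Xc851

open Finset
open Crest.Agent.R144.It844 (P2 Lip adj_iff adj_symm lip_iff)
open Crest.Agent.R144.Zg349 Crest.Agent.R144.Zk349 Crest.Agent.R144.Zd349 Crest.Agent.R144.Zm349
open Crest.Agent.R144.Ze349
open Crest.Agent.R144.Rsw867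
open Crest.ProbabilityR.HexHeights (Adj)

/-- sites joined by `{h ≤ 0}` to a non-interior site of height `≤ 0` -/
def Xh (F : Finset P2) (h : P2 → ℤ) : Set P2 :=
  {v | ∃ u, u ∉ IV F ∧ h u ≤ 0 ∧ Relation.ReflTransGen (StepIn {w | h w ≤ 0}) u v}

theorem Xh_le {F : Finset P2} {h : P2 → ℤ} {v : P2} (hv : v ∈ Xh F h) : h v ≤ 0 := by
  obtain ⟨u, _, hu, hp⟩ := hv
  rcases Relation.ReflTransGen.cases_tail hp with h1 | ⟨w, _, h1⟩
  · rw [h1]; exact hu
  · exact h1.2.1

theorem Xh_step {F : Finset P2} {h : P2 → ℤ} {v w : P2} (hv : v ∈ Xh F h) (ha : Adj v w)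
    (hw : h w ≤ 0) : w ∈ Xh F h := by
  have h0 := Xh_le hv
  obtain ⟨u, h1, h2, hp⟩ := hv
  exact ⟨u, h1, h2, hp.tail ⟨h0, hw, ha⟩⟩

open Classical in
/-- the region inside -/
def Vh (F : Finset P2) (h : P2 → ℤ) : Finset P2 :=
  (IV F).filter fun v => v ∉ Xh F h ∧ ∀ w, Adj v w → w ∉ Xh F h

open Classical in
theorem mem_Vh {F : Finset P2} {h : P2 → ℤ} {v : P2} :
    v ∈ Vh F h ↔ v ∈ IV F ∧ v ∉ Xh F h ∧ ∀ w, Adj v w → w ∉ Xh F h := by
  unfold Vh
  rw [Finset.mem_filter]

theorem Vh_sub (F : Finset P2) (h : P2 → ℤ) : Vh F h ⊆ IV F := fun _ hv => (mem_Vh.1 hv).1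

/-- the height is exactly `1` around the region -/
theorem bd_Vh {F : Finset P2} {h : P2 → ℤ} (hh : HV F h) : Bd 1 (Vh F h) h := by
  intro v hv w hw ha
  rw [mem_Vh] at hv
  have h1 : w ∉ Xh F h := hv.2.2 w ha
  by_cases hI : w ∈ IV F
  · have h2 : ∃ x, Adj w x ∧ x ∈ Xh F h := by
      by_contra hcon
      push Not at hcon
      exact hw (mem_Vh.2 ⟨hI, h1, hcon⟩)
    obtain ⟨x, hx, hxX⟩ := h2
    have h3 := Xh_le hxX
    have h4 : 0 < h w := by
      by_contra h5
      exact h1 (Xh_step hxX (adj_symm hx) (by omega))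
    have h5 := abs_le.1 (hh.toLip w x hx)
    omega
  · rcases hh.bd w hI with h2 | h2
    · exact absurd ⟨w, hI, h2.le, Relation.ReflTransGen.refl⟩ h1
    · exact h2

/-- the explored set is unchanged by the exchange -/
theorem Xh_exch {F : Finset P2} (ω : C3) : Xh F (exch 1 (Vh F ω.1) ω).1 = Xh F ω.1 := by
  have h0 : ∀ v, v ∉ Vh F ω.1 → (exch 1 (Vh F ω.1) ω).1 v = ω.1 v := fun v hv => exch_out hv
  have hX : ∀ v ∈ Xh F ω.1, v ∉ Vh F ω.1 := fun v hv h => (mem_Vh.1 h).2.1 hv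
  have hN : ∀ v ∈ Xh F ω.1, ∀ w, Adj v w → w ∉ Vh F ω.1 := fun v hv w ha h =>
    (mem_Vh.1 h).2.2 v (adj_symm ha) hv
  ext v
  constructor
  · rintro ⟨u, h1, h2, hp⟩
    have hu : u ∉ Vh F ω.1 := fun h => h1 (Vh_sub F ω.1 h)
    have hu' : u ∈ Xh F ω.1 := ⟨u, h1, by rw [← h0 u hu]; exact h2, Relation.ReflTransGen.refl⟩
    induction hp with
    | refl => exact hu'
    | @tail b d _ h3 ih =>
      refine Xh_step ih h3.2.2 ?_
      rw [← h0 d (hN b ih d h3.2.2)]
      exact h3.2.1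
  · rintro ⟨u, h1, h2, hp⟩
    have hu : u ∉ Vh F ω.1 := fun h => h1 (Vh_sub F ω.1 h)
    have key : v ∈ Xh F ω.1 ∧ v ∈ Xh F (exch 1 (Vh F ω.1) ω).1 := by
      induction hp with
      | refl => exact ⟨⟨u, h1, h2, Relation.ReflTransGen.refl⟩,
          ⟨u, h1, by rw [h0 u hu]; exact h2, Relation.ReflTransGen.refl⟩⟩
      | @tail b d _ h3 ih =>
        have h4 : d ∈ Xh F ω.1 := Xh_step ih.1 h3.2.2 h3.2.1
        refine ⟨h4, Xh_step ih.2 h3.2.2 ?_⟩
        rw [h0 d (hX d h4)]
        exact h3.2.1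
    exact key.2

theorem Vh_exch {F : Finset P2} (ω : C3) : Vh F (exch 1 (Vh F ω.1) ω).1 = Vh F ω.1 := by
  ext v
  rw [mem_Vh, mem_Vh, Xh_exch]

/-- the region contains the inner ball if `{h ≥ 1}` separates -/
theorem ball_sub_Vh {F : Finset P2} {a : P2} {t N : ℕ} (hB : ball a (N + 2) ⊆ F) (htN : t ≤ N)
    {h : P2 → ℤ} (hL : Sepr {v | 1 ≤ h v} a t N) {k : ℕ} (hk : k + 1 ≤ t) : ball a k ⊆ Vh F h := by
  have hX : ∀ v ∈ ball a t, v ∉ Xh F h := by
    rintro v hv ⟨u, h1, _, hp⟩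
    have hu : u ∉ ball a N := fun h2 =>
      h1 (mem_IV_ball (fun x hx => hB (ball_mono a (by omega) hx)) h2)
    refine hL u v hu hv (path_mono ?_ hp)
    intro w hw
    show ¬ (1 ≤ h w)
    have : h w ≤ 0 := hw
    omega
  intro v hv
  rw [mem_Vh]
  refine ⟨mem_IV_ball (fun x hx => hB (ball_mono a (by omega) hx)) hv,
    hX v (ball_mono a (by omega) hv), fun w ha => hX w (ball_mono a hk (adj_ball hv ha))⟩

open Classical in
/-- **LEV**, any centre. -/
theorem lev_Ba {c : ℝ} (hc : 1 ≤ c) (hc2 : c ≤ 2) {F : Finset P2} {a : P2} {t N u : ℕ}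
    (hB : ball a (N + 2) ⊆ F) (htN : t ≤ N) (hut : 2 * u + 2 ≤ t) :
    Pr c F ({ω | Sepr {v | 1 ≤ ω.1 v} a t N} ∩ BlkP a u (2 * u)) ≤ pBa c F a u (2 * u) := by
  -- the events
  set f : C3 → ℝ := fun ω => ind (BlkP a u (2 * u)) (fst3 ω) with hf
  set g : C3 → ℝ := fun ω => if Sepr {x | ω.2.2 x = true} a u (2 * u) then 1 else 0 with hg
  set 𝒱 : Finset (Finset P2) := (IV F).powerset.filter fun V => ball a (2 * u + 1) ⊆ V with h𝒱
  have hf0 : ∀ ω, 0 ≤ f ω := fun ω => ind_nonneg _ _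
  have hg0 : ∀ ω, 0 ≤ g ω := fun ω => by rw [hg]; dsimp only; split_ifs <;> norm_num
  -- step 1
  have e0 : Pr c F ({ω | Sepr {v | 1 ≤ ω.1 v} a t N} ∩ BlkP a u (2 * u)) =
      E3 c F (fun ω => ind ({ω : Cfg | Sepr {v | 1 ≤ ω.1 v} a t N} ∩ BlkP a u (2 * u)) (fst3 ω)) := by
    rw [Pr_eq, ← E3_fst]
  have h1 : E3 c F (fun ω => ind ({ω : Cfg | Sepr {v | 1 ≤ ω.1 v} a t N} ∩ BlkP a u (2 * u)) (fst3 ω)) ≤
      E3 c F (fun ω => ∑ V ∈ 𝒱, if Vh F ω.1 = V then f ω else 0) := by
    refine E3_mono hc hc2 fun ω hω => ?_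
    have hs0 : 0 ≤ ∑ V ∈ 𝒱, if Vh F ω.1 = V then f ω else 0 :=
      Finset.sum_nonneg fun V _ => by split_ifs <;> first | exact hf0 ω | exact le_rfl
    by_cases hm : fst3 ω ∈ {ω : Cfg | Sepr {v | 1 ≤ ω.1 v} a t N} ∩ BlkP a u (2 * u)
    · have hV : Vh F ω.1 ∈ 𝒱 := by
        rw [h𝒱, Finset.mem_filter, Finset.mem_powerset]
        exact ⟨Vh_sub F ω.1, ball_sub_Vh hB htN hm.1 (by omega)⟩
      rw [Finset.sum_ite_eq 𝒱 (Vh F ω.1) fun _ => f ω, if_pos hV, ind_of_mem hm, hf]
      dsimp only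
      rw [ind_of_mem hm.2]
    · rw [ind_of_not_mem hm]
      exact hs0
  -- sums and expectations
  have hsum : ∀ q : Finset P2 → C3 → ℝ, E3 c F (fun ω => ∑ V ∈ 𝒱, q V ω) = ∑ V ∈ 𝒱, E3 c F (q V) := by
    intro q
    generalize 𝒱 = S
    induction S using Finset.induction_on with
    | empty =>
      simp only [Finset.sum_empty]
      exact E3_const hc F 0
    | insert x s hx ih =>
      rw [Finset.sum_insert hx, ← ih, ← E3_add]
      simp only [Finset.sum_insert hx]
  -- step 2 : exchange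
  have h2 : ∀ V ∈ 𝒱, E3 c F (fun ω => if Vh F ω.1 = V then f ω else 0) ≤
      E3 c F (fun ω => if Vh F ω.1 = V then g ω else 0) := by
    intro V hV
    rw [h𝒱, Finset.mem_filter, Finset.mem_powerset] at hV
    have hinv := E3_exch c (k := 1) (F := F) (V := V) hV.1
      (P := fun ω => HV F ω.1 ∧ Vh F ω.1 = V) (fun ω h => by
        have := bd_Vh h.1
        rwa [h.2] at this) (fun ω h => by
        have hb : Bd 1 V ω.1 := by
          have := bd_Vh h.1
          rwa [h.2] at this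
        refine ⟨exch_hv hV.1 h.1 hb, ?_⟩
        have := Vh_exch (F := F) ω
        rw [h.2] at this
        exact this) f
    have e1 : E3 c F (fun ω => if Vh F ω.1 = V then f ω else 0) =
        E3 c F (fun ω => if HV F ω.1 ∧ Vh F ω.1 = V then f ω else 0) :=
      E3_congr fun ω hω => by simp only [hω.ht, true_and]
    have e2 : E3 c F (fun ω => if HV F ω.1 ∧ Vh F ω.1 = V then f ω else 0) =
        E3 c F (fun ω => if HV F ω.1 ∧ Vh F ω.1 = V then f (exch 1 V ω) else 0) := by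
      convert hinv.symm
    rw [e1, e2]
    refine E3_mono hc hc2 fun ω hω => ?_
    by_cases hVω : Vh F ω.1 = V
    · rw [if_pos ⟨hω.ht, hVω⟩, if_pos hVω]
      have key : fst3 (exch 1 V ω) ∈ BlkP a u (2 * u) → Sepr {x | ω.2.2 x = true} a u (2 * u) := by
        intro hP
        refine Sepr.congr (by omega) (fun s hs _ hp => ?_) hP
        have hsV : ∃ w ∈ V, w ∈ up s := ⟨s, hV.2 hs, base_up s⟩
        have h3 : (exch 1 V ω).2.1 s = true := hp.1
        rw [exch_z hsV] at h3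
        exact h3
      rw [hf, hg]
      dsimp only
      by_cases hP : fst3 (exch 1 V ω) ∈ BlkP a u (2 * u)
      · rw [ind_of_mem hP, if_pos (key hP)]
      · rw [ind_of_not_mem hP]
        exact hg0 ω
    · rw [if_neg fun h => hVω h.2, if_neg hVω]
  -- conclusion
  rw [e0]
  refine h1.trans ?_
  rw [hsum fun V ω => if Vh F ω.1 = V then f ω else 0]
  refine (Finset.sum_le_sum h2).trans ?_
  rw [← hsum fun V ω => if Vh F ω.1 = V then g ω else 0]
  refine E3_mono hc hc2 fun ω _ => ?_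
  rw [Finset.sum_ite_eq 𝒱 (Vh F ω.1) fun _ => g ω]
  by_cases hV : Vh F ω.1 ∈ 𝒱
  · rw [if_pos hV]
  · rw [if_neg hV]
    exact hg0 ω

/-- **LEV**, the form of the R2 table. -/
theorem lev_B {c : ℝ} (hc : 1 ≤ c) (hc2 : c ≤ 2) {F : Finset P2} {t N u : ℕ}
    (hB : ball 0 (N + 2) ⊆ F) (htN : t ≤ N) (hut : 2 * u + 8 ≤ t) :
    Pr c F ({ω | Sepr {v | 1 ≤ ω.1 v} 0 t N} ∩ BlkP 0 u (2 * u)) ≤ pB c F u (2 * u) := by
  rw [pB_eq]
  exact lev_Ba hc hc2 hB htN (by omega)

end Crest.Agent.R144.Xc851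
end
end

-- ▼ part R144/Mk2_696
section

/-!
# R144, marked model, part 2: decoupling inside the unexplored domain for any glue-stable family (helper696)

* `eC e ω t` : the up triangle `t` is closed with sign `e` (`pC` for `true`, `mC` for `false`);
* `Fam F K C` : `C` is a finite family of Lipschitz configurations stable under gluing inside `K ⊆ F`;
* `dec_Un` : exact decoupling on `Un {eC e} K = B` (weights `wt c F` on `C`);
* `one_dom` : for `f ≥ 0` living in `A`, the mass of "the exploration does not reach `A`" times the `E c B`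
  expectation of `f` (shifted by `off e`) for ONE simply connected `B`, `A ⊆ B ⊆ K`, is at most the sum of `f`;
* `ng`, `cfX F` : the exchanged family `(-h, z)`; `EX c F` its law; `one_domX`, `one_domX'`.
-/

set_option autoImplicit false
set_option linter.unusedSectionVars false

noncomputable section

namespace Crest.Agent.R144.Mk696

open Finset
open Crest.Agent.R144.It844 (P2 Lip adj_symm adj_iff adj_comm lip_iff)
open Crest.ProbabilityR.HexHeights (Adj)
open Crest.Agent.R144.Zg349 Crest.Agent.R144.Zd349 Crest.Agent.R144.Zm349 Crest.Agent.R144.Ze349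
open Crest.Agent.R144.Zs349
open Crest.Agent.R144.Rsw867

/-- closed of sign `e` -/
def eC (e : Bool) (ω : Cfg) : Set P2 := {t | ω.2 t = true ∧ s1 (ω.1 t) = e}

theorem mem_eC {e : Bool} {ω : Cfg} {t : P2} : t ∈ eC e ω ↔ ω.2 t = true ∧ s1 (ω.1 t) = e := Iff.rfl


/-- closed -/
def cl (ω : Cfg) : Set P2 := {t | ω.2 t = true}

theorem cl_eq (ω : Cfg) : cl ω = eC true ω ∪ eC false ω := by
  ext t
  simp only [cl, eC, Set.mem_ofPred_eq, Set.mem_union]
  rcases s1 (ω.1 t) with _ | _ <;> simp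

/-- finite families of configurations stable under gluing inside `K` -/
structure Fam (F K : Finset P2) (C : Finset Cfg) : Prop where
  lip : ∀ ω ∈ C, Lip ω.1
  st : ∀ (e : Bool) (W : Finset P2) (ω ω' : Cfg), SC W → W ⊆ K → ω ∈ C → Lay e W ω → Valid W ω' →
    glue e W ω ω' ∈ C
  sub : K ⊆ F

theorem closed_c1' {c : ℝ} {F : Finset P2} {ω : Cfg} (hw : wt c F ω ≠ 0) {t : P2} (htF : t ∈ F)
    (ht : ω.2 t = true) {v : P2} (hv : v ∈ up t) : s1 (ω.1 v) = s1 (ω.1 t) := by
  have h1 : ew c ω t ≠ 0 := fun h => hw (Finset.prod_eq_zero htF h)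
  have h2 : C1 ω.1 t := by
    by_contra h
    apply h1
    unfold ew
    rw [if_pos ht, if_neg h]
  obtain ⟨a, b⟩ := h2
  obtain ⟨i, rfl⟩ := mem_up_iff.1 hv
  fin_cases i
  · rfl
  · exact a.symm
  · exact b.symm

/-- closed triangles of different signs are not adjacent -/
theorem not_adj {c : ℝ} {F : Finset P2} {ω : Cfg} (hw : wt c F ω ≠ 0) {t t' : P2} (ht : t ∈ F) (ht' : t' ∈ F)
    (h : t ∈ eC true ω) (h' : t' ∈ eC false ω) : ¬ Adj t t' := by
  intro ha
  obtain ⟨v, h1, h2⟩ := adj_site ha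
  have e1 := closed_c1' hw ht h.1 h1
  have e2 := closed_c1' hw ht' h'.1 h2
  rw [e1, h.2, h'.2] at e2
  exact absurd e2 (by decide)

/-- the layer event holds for the unexplored domain -/
theorem lay_Un {c : ℝ} {F K : Finset P2} {C : Finset Cfg} (hC : Fam F K C) {e : Bool} {ω : Cfg}
    (hw : wt c F ω ≠ 0) {B : Finset P2} (hB : Un (eC e ω) K = B) : Lay e B ω := by
  intro t ht h
  obtain ⟨v, hv, hvt⟩ := h
  obtain ⟨t0, ht0, hv0⟩ := mem_VF.1 hv
  have ha : Adj t0 t := adj_of_site (fun h3 => ht (h3 ▸ ht0)) hv0 hvt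
  have h1 := layer_Un (S := eC e ω) (K := K) (t := t0) (t' := t) (by rw [hB]; exact ht0)
    (by rw [hB]; exact ht) ha
  exact ⟨h1.1.1, fun u hu => by rw [closed_c1' hw (hC.sub h1.2) h1.1.1 hu, h1.1.2]⟩

open Classical in
/-- indicator of `Un (eC e ω) K = B` -/
def unI (e : Bool) (K B : Finset P2) (ω : Cfg) : ℝ := if Un (eC e ω) K = B then 1 else 0

theorem unI_nonneg (e : Bool) (K B : Finset P2) (ω : Cfg) : 0 ≤ unI e K B ω := by
  unfold unI; split_ifs <;> norm_num

theorem eC_glue {e : Bool} {W : Finset P2} {ω ω' : Cfg} (hW : SC W) (hl : Lip ω.1) (hL : Lay e W ω)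
    (hω' : Valid W ω') {t : P2} (ht : t ∉ W) : t ∈ eC e (glue e W ω ω') ↔ t ∈ eC e ω := by
  rw [mem_eC, mem_eC, glue_z' ht, glue_s1_off hW hl hL hω' (fun h => ht (IV_sub W h))]

theorem unI_glue {e : Bool} {W K : Finset P2} {ω ω' : Cfg} (hW : SC W) (hl : Lip ω.1) (hL : Lay e W ω)
    (hω' : Valid W ω') : unI e K W (glue e W ω ω') = unI e K W ω := by
  unfold unI
  by_cases h : Un (eC e ω) K = W
  · rw [if_pos h, if_pos (Un_congr (fun t ht => (eC_glue hW hl hL hω' ht).symm) h)]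
  · rw [if_neg h, if_neg fun h' => h (Un_congr (fun t ht => eC_glue hW hl hL hω' ht) h')]

/-- colour observables after gluing -/
theorem inC_glue {e : Bool} {W : Finset P2} {ω ω' : Cfg} (hW : SC W) (hl : Lip ω.1) (hL : Lay e W ω)
    {f : Cfg → ℝ} (hf : InC W f) : f (glue e W ω ω') = f (addH (off e) ω') := by
  refine hf _ _ (fun v hv => ?_) fun t ht => glue_z ht
  have h2 := lev_mod hW hl hL hv
  rw [glue_in hv]
  simp only [addH]
  generalize lev e W ω v = k at *
  have ho := off_cases e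
  unfold s1 s2
  rw [decide_eq_decide, decide_eq_decide]
  omega

theorem inC_mono {W W' : Finset P2} (h : W ⊆ W') {f : Cfg → ℝ} (hf : InC W f) : InC W' f :=
  fun ω ω' h1 h2 => hf ω ω' (fun v hv => h1 v (VF_mono h hv)) fun t ht => h2 t (h ht)

/-- **Exact decoupling inside the unexplored domain.** -/
theorem dec_Un {c : ℝ} (hc : 1 ≤ c) {F K : Finset P2} {C : Finset Cfg} (hC : Fam F K C) (e : Bool)
    {B : Finset P2} (hB : SC B) (hBK : B ⊆ K) {f : Cfg → ℝ} (hf : InC B f) :
    ∑ ω ∈ C, wt c F ω * (unI e K B ω * f ω) =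
      (∑ ω ∈ C, wt c F ω * unI e K B ω) * E c B (fun ω => f (addH (off e) ω)) := by
  classical
  have red : ∀ g : Cfg → ℝ, ∑ ω ∈ C, wt c F ω * (unI e K B ω * g ω) =
      ∑ ω ∈ C.filter (Lay e B), wt c F ω * (unI e K B ω * g ω) := by
    intro g
    rw [Finset.sum_filter]
    refine Finset.sum_congr rfl fun ω hω => ?_
    split_ifs with hL
    · rfl
    · by_cases hw : wt c F ω = 0
      · rw [hw, zero_mul]
      · have : unI e K B ω = 0 := if_neg fun h => hL (lay_Un hC hw h)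
        rw [this, zero_mul, mul_zero]
  have hsw := swap (e := e) hB c (hBK.trans hC.sub) C hC.lip
    (fun ω hω hL ω' hω' => hC.st e B ω ω' hB hBK hω hL (mem_conf.1 hω'))
    (fun ω => unI e K B ω * f ω)
  have hZ := Z_pos hc B
  have h2 : ∀ ω ∈ C.filter (Lay e B), wt c F ω * ∑ ω' ∈ conf B, wt c B ω' *
      (unI e K B (glue e B ω ω') * f (glue e B ω ω')) =
      (wt c F ω * (unI e K B ω * 1)) * (E c B (fun ω => f (addH (off e) ω)) * Z c B) := by
    intro ω hω
    rw [Finset.mem_filter] at hω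
    have hl := hC.lip ω hω.1
    rw [E_eq_div, div_mul_cancel₀ _ hZ.ne', mul_one, mul_assoc]
    congr 1
    rw [Finset.mul_sum]
    refine Finset.sum_congr rfl fun ω' hω' => ?_
    rw [unI_glue hB hl hω.2 (mem_conf.1 hω'), inC_glue hB hl hω.2 hf]
    ring
  have h3 : (∑ ω ∈ C, wt c F ω * (unI e K B ω * f ω)) * Z c B =
      ((∑ ω ∈ C, wt c F ω * unI e K B ω) * E c B (fun ω => f (addH (off e) ω))) * Z c B := by
    have h4 : ∑ ω ∈ C, wt c F ω * unI e K B ω = ∑ ω ∈ C.filter (Lay e B), wt c F ω * (unI e K B ω * 1) := by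
      rw [← red (fun _ => (1 : ℝ))]
      exact Finset.sum_congr rfl fun ω _ => by simp only [mul_one]
    rw [red f, hsw, Finset.sum_congr rfl h2, ← Finset.sum_mul, h4]
    ring
  exact mul_right_cancel₀ hZ.ne' h3

/-- decomposition according to the unexplored domain -/
theorem sum_unI (e : Bool) {K A : Finset P2} (ω : Cfg) (hA : A ⊆ Un (eC e ω) K) :
    ∑ B ∈ K.powerset.filter (fun B => A ⊆ B), unI e K B ω = 1 := by
  classical
  unfold unI
  rw [Finset.sum_ite_eq, if_pos]
  exact Finset.mem_filter.2 ⟨Finset.mem_powerset.2 (Un_sub _ _), hA⟩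

theorem sum_unI_le (e : Bool) (K A : Finset P2) (ω : Cfg) :
    ∑ B ∈ K.powerset.filter (fun B => A ⊆ B), unI e K B ω ≤ 1 := by
  classical
  unfold unI
  rw [Finset.sum_ite_eq]
  split_ifs <;> norm_num

theorem sum_unI_not (e : Bool) {K A : Finset P2} (ω : Cfg) (hA : ¬ A ⊆ Un (eC e ω) K) :
    ∑ B ∈ K.powerset.filter (fun B => A ⊆ B), unI e K B ω = 0 := by
  classical
  refine Finset.sum_eq_zero fun B hB => ?_
  unfold unI
  rw [if_neg]
  rintro rfl
  exact hA (Finset.mem_filter.1 hB).2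

open Classical in
/-- **One domain.** -/
theorem one_dom {c : ℝ} (hc : 1 ≤ c) {F K : Finset P2} (hK : SC K) {C : Finset Cfg} (hC : Fam F K C)
    (e : Bool) {A : Finset P2} {f : Cfg → ℝ} (hf : InC A f) (hf0 : ∀ ω ∈ C, 0 ≤ f ω) {q : ℝ} (hq : 0 < q)
    (h : q ≤ ∑ ω ∈ C, wt c F ω * (if A ⊆ Un (eC e ω) K then 1 else 0)) :
    ∃ B : Finset P2, SC B ∧ A ⊆ B ∧ B ⊆ K ∧
      q * E c B (fun ω => f (addH (off e) ω)) ≤ ∑ ω ∈ C, wt c F ω * f ω := by
  set P : Finset (Finset P2) := K.powerset.filter (fun B => A ⊆ B) with hP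
  set w : Finset P2 → ℝ := fun B => ∑ ω ∈ C, wt c F ω * unI e K B ω with hwdef
  set x : Finset P2 → ℝ := fun B => E c B (fun ω => f (addH (off e) ω)) with hx
  have hw0 : ∀ B, 0 ≤ w B := fun B => Finset.sum_nonneg fun ω _ =>
    mul_nonneg (wt_nonneg hc F ω) (unI_nonneg e K B ω)
  have hscB : ∀ B, w B ≠ 0 → SC B := by
    intro B hB
    obtain ⟨ω, _, h1⟩ := Finset.exists_ne_zero_of_sum_ne_zero hB
    have h2 : unI e K B ω ≠ 0 := fun h3 => h1 (by rw [h3, mul_zero])
    have h3 : Un (eC e ω) K = B := by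
      by_contra h4
      exact h2 (if_neg h4)
    rw [← h3]
    exact sc_Un _ hK
  have mP : ∀ B ∈ P, A ⊆ B ∧ B ⊆ K := fun B hB => by
    rw [hP, Finset.mem_filter, Finset.mem_powerset] at hB
    exact ⟨hB.2, hB.1⟩
  -- total mass
  have hsum : ∑ B ∈ P, w B = ∑ ω ∈ C, wt c F ω * (if A ⊆ Un (eC e ω) K then 1 else 0) := by
    rw [hwdef, Finset.sum_comm]
    refine Finset.sum_congr rfl fun ω _ => ?_
    rw [← Finset.mul_sum]
    congr 1
    split_ifs with h1
    · exact sum_unI e ω h1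
    · exact sum_unI_not e ω h1
  -- main inequality
  have hmain : ∑ B ∈ P, w B * x B ≤ ∑ ω ∈ C, wt c F ω * f ω := by
    have h1 : ∀ B ∈ P, w B * x B = ∑ ω ∈ C, wt c F ω * (unI e K B ω * f ω) := by
      intro B hB
      by_cases hB0 : w B = 0
      · have h2 : ∀ ω ∈ C, wt c F ω * unI e K B ω = 0 := by
          have := (Finset.sum_eq_zero_iff_of_nonneg (fun ω _ =>
            mul_nonneg (wt_nonneg hc F ω) (unI_nonneg e K B ω))).1 hB0
          exact this
        rw [hB0, zero_mul]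
        refine (Finset.sum_eq_zero fun ω hω => ?_).symm
        rw [← mul_assoc, h2 ω hω, zero_mul]
      · rw [dec_Un hc hC e (hscB B hB0) (mP B hB).2 (inC_mono (mP B hB).1 hf)]
    rw [Finset.sum_congr rfl h1, Finset.sum_comm]
    refine Finset.sum_le_sum fun ω hω => ?_
    rw [← Finset.mul_sum, ← Finset.sum_mul]
    refine mul_le_mul_of_nonneg_left ?_ (wt_nonneg hc F ω)
    calc (∑ B ∈ P, unI e K B ω) * f ω ≤ 1 * f ω :=
          mul_le_mul_of_nonneg_right (sum_unI_le e K A ω) (hf0 ω hω)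
      _ = f ω := one_mul _
  by_contra hcon
  push Not at hcon
  have hlt : ∀ B ∈ P, w B * (∑ ω ∈ C, wt c F ω * f ω) ≤ w B * (q * x B) := by
    intro B hB
    by_cases hB0 : w B = 0
    · rw [hB0, zero_mul, zero_mul]
    · exact mul_le_mul_of_nonneg_left (hcon B (hscB B hB0) (mP B hB).1 (mP B hB).2).le (hw0 B)
  rw [← hsum] at h
  have hy0 : 0 ≤ ∑ ω ∈ C, wt c F ω * f ω := Finset.sum_nonneg fun ω hω =>
    mul_nonneg (wt_nonneg hc F ω) (hf0 ω hω)
  -- strict inequality for one B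
  obtain ⟨B0, hB0, hB0w⟩ : ∃ B ∈ P, 0 < w B := by
    by_contra h1
    push Not at h1
    have : ∑ B ∈ P, w B ≤ 0 := Finset.sum_nonpos h1
    linarith
  have hlt2 : ∑ B ∈ P, w B * (∑ ω ∈ C, wt c F ω * f ω) < ∑ B ∈ P, w B * (q * x B) :=
    Finset.sum_lt_sum hlt ⟨B0, hB0, mul_lt_mul_of_pos_left
      (hcon B0 (hscB B0 hB0w.ne') (mP B0 hB0).1 (mP B0 hB0).2) hB0w⟩
  rw [← Finset.sum_mul] at hlt2
  have h5 : ∑ B ∈ P, w B * (q * x B) = q * ∑ B ∈ P, w B * x B := by
    rw [Finset.mul_sum]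
    exact Finset.sum_congr rfl fun B _ => by ring
  rw [h5] at hlt2
  have h6 : q * ∑ B ∈ P, w B * x B ≤ q * ∑ ω ∈ C, wt c F ω * f ω :=
    mul_le_mul_of_nonneg_left hmain hq.le
  have h7 : q * ∑ ω ∈ C, wt c F ω * f ω ≤ (∑ B ∈ P, w B) * ∑ ω ∈ C, wt c F ω * f ω :=
    mul_le_mul_of_nonneg_right h hy0
  linarith

/-! ### the exchanged family -/

/-- exchange the two colours: `h ↦ -h` -/
def ng (ω : Cfg) : Cfg := (fun v => -ω.1 v, ω.2)

theorem ng_ng (ω : Cfg) : ng (ng ω) = ω := by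
  unfold ng
  refine Prod.ext (funext fun v => ?_) rfl
  simp

theorem ng_inj : Function.Injective ng := fun a b h => by
  rw [← ng_ng a, h, ng_ng]

open Classical in
/-- the exchanged family: `s2 = +` off the interior sites -/
def cfX (F : Finset P2) : Finset Cfg := (conf F).image ng

theorem mem_cfX {F : Finset P2} {ω : Cfg} : ω ∈ cfX F ↔ Valid F (ng ω) := by
  classical
  unfold cfX
  rw [Finset.mem_image]
  constructor
  · rintro ⟨a, ha, rfl⟩
    rw [ng_ng]
    exact mem_conf.1 ha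
  · intro h
    exact ⟨ng ω, mem_conf.2 h, ng_ng ω⟩

theorem sum_cfX (F : Finset P2) (g : Cfg → ℝ) : ∑ ω ∈ cfX F, g ω = ∑ ω ∈ conf F, g (ng ω) := by
  classical
  unfold cfX
  rw [Finset.sum_image fun a _ b _ h => ng_inj h]

theorem lip_ng {ω : Cfg} (h : Lip (ng ω).1) : Lip ω.1 := by
  apply lip_of_cr
  intro t i j
  have h1 := lip_cr h t i j
  simp only [ng] at h1
  rw [abs_le] at *
  omega

theorem lip_ng' {ω : Cfg} (h : Lip ω.1) : Lip (ng ω).1 := by
  apply lip_of_cr
  intro t i j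
  have h1 := lip_cr h t i j
  simp only [ng]
  rw [abs_le] at *
  omega

/-- the exchanged family is stable under gluing deep inside `F` -/
theorem fam_cfX {F K : Finset P2} (hK : K ⊆ F) (hKF : VF K ⊆ IV F) : Fam F K (cfX F) where
  lip ω hω := lip_ng (mem_cfX.1 hω).ht.toLip
  sub := hK
  st e W ω ω' hW hWK hω hL hω' := by
    have hv := mem_cfX.1 hω
    have hl : Lip ω.1 := lip_ng hv.ht.toLip
    have hg := glue_lip hW hl hL hω'
    rw [mem_cfX]
    refine ⟨⟨fun t _ i j => lip_cr (lip_ng' hg) t i j, fun v hv' => ?_, fun v hv' => ?_⟩, fun t ht => ?_⟩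
    · have h : v ∉ VF W := fun h' => hv' (hKF (VF_mono hWK h'))
      have h1 := hv.ht.bd v hv'
      simp only [ng] at *
      rw [glue_out h]
      exact h1
    · have h : v ∉ VF W := fun h' => hv' (IV_sub_VF F (hKF (VF_mono hWK h')))
      have h1 := hv.ht.off v hv'
      simp only [ng] at *
      rw [glue_out h]
      exact h1
    · have h1 := hv.cl t ht
      simp only [ng] at *
      rw [glue_z' (fun h => ht (hK (hWK h)))]
      exact h1


end Crest.Agent.R144.Mk696
end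
end

-- ▼ part R144/Mk3_696
section

/-!
# R144, marked model, part 3: ONE domain for the second representation (helper696)

For helper851's joint law `E3 c F` of `(h, z, y)` (`z` closed for the first representation, `y` for the second).
* `avg_local` : product kernels see only the window of the observable;
* `one_dom3` : `f ≥ 0` a function of `(s1, z)` in `ball a m`: some `D` simply connected, `ball a m ⊆ D ⊆ F`,
  `(P(layer of {y}) / 2) * E3 c D (f with the two representations exchanged) ≤ E c F f`;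
* `one` : helper121's ONE.
-/

set_option autoImplicit false
set_option linter.unusedSectionVars false

noncomputable section

namespace Crest.Agent.R144.Mk696

open Finset
open Crest.Agent.R144.It844 (P2 Lip adj_symm adj_iff adj_comm lip_iff)
open Crest.ProbabilityR.HexHeights (Adj)
open Crest.Agent.R144.Zg349 Crest.Agent.R144.Zd349 Crest.Agent.R144.Zm349 Crest.Agent.R144.Ze349
open Crest.Agent.R144.Zs349
open Crest.Agent.R144.Rsw867
open Crest.Agent.R144.Xc851 (C3 fst3 snd3 ew3 wt3 E3 EX V3 E3_fst EX_eq S2 avz avy kz ky E3_cond E3_cond'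
  E3_rf rf3 rf3_s2 rf3_s1 E3_mono E3_congr E3_add E3_smul E3_nonneg E3_const sum_zs_prod kz_sum ky_sum
  EX_mono EX_congr EX_nonneg VX EX_add EX_smul)

/-! ### product kernels -/

open Classical in
theorem avg_local {A F : Finset P2} (hAF : A ⊆ F) (w : P2 → Bool → ℝ)
    (hw : ∀ t, w t true + w t false = 1) (φ : (P2 → Bool) → ℝ)
    (hφ : ∀ z z', (∀ t ∈ A, z t = z' t) → φ z = φ z') :
    ∑ z ∈ zs F, (∏ t ∈ F, w t (z t)) * φ z = ∑ z ∈ zs A, (∏ t ∈ A, w t (z t)) * φ z := by
  have h1 : ∑ z ∈ zs (F \ A), ∏ t ∈ F \ A, w t (z t) = 1 := by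
    rw [sum_zs_prod]
    exact Finset.prod_eq_one fun t _ => hw t
  have h2 : ∑ z ∈ zs A, (∏ t ∈ A, w t (z t)) * φ z =
      ∑ p ∈ zs A ×ˢ zs (F \ A), ((∏ t ∈ A, w t (p.1 t)) * φ p.1) * ∏ t ∈ F \ A, w t (p.2 t) := by
    rw [Finset.sum_product]
    refine Finset.sum_congr rfl fun z _ => ?_
    simp only
    rw [← Finset.mul_sum, h1, mul_one]
  rw [h2]
  refine Finset.sum_bij' (fun z _ => (fun t => if t ∈ A then z t else true, fun t => if t ∈ A then true else z t))
    (fun p _ => fun t => if t ∈ A then p.1 t else p.2 t) ?_ ?_ ?_ ?_ ?_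
  · intro z hz
    rw [mem_zs] at hz
    rw [Finset.mem_product, mem_zs, mem_zs]
    refine ⟨fun t ht => if_neg ht, fun t ht => ?_⟩
    simp only
    split_ifs with h
    · rfl
    · exact hz t fun h' => ht (Finset.mem_sdiff.2 ⟨h', h⟩)
  · intro p hp
    rw [Finset.mem_product, mem_zs, mem_zs] at hp
    rw [mem_zs]
    intro t ht
    rw [if_neg fun h => ht (hAF h)]
    exact hp.2 t fun h => ht (Finset.mem_sdiff.1 h).1
  · intro z _
    funext t
    simp only
    split_ifs <;> rfl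
  · intro p hp
    rw [Finset.mem_product, mem_zs, mem_zs] at hp
    refine Prod.ext (funext fun t => ?_) (funext fun t => ?_)
    · simp only
      split_ifs with h
      · rfl
      · exact (hp.1 t h).symm
    · simp only
      split_ifs with h
      · exact (hp.2 t fun h' => (Finset.mem_sdiff.1 h').2 h).symm
      · rfl
  · intro z _
    simp only
    have e1 : ∏ t ∈ F, w t (z t) = (∏ t ∈ F \ A, w t (z t)) * ∏ t ∈ A, w t (z t) :=
      (Finset.prod_sdiff hAF).symm
    have e2 : ∏ t ∈ F \ A, w t (if t ∈ A then true else z t) = ∏ t ∈ F \ A, w t (z t) :=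
      Finset.prod_congr rfl fun t ht => by rw [if_neg (Finset.mem_sdiff.1 ht).2]
    have e3 : ∏ t ∈ A, w t (if t ∈ A then z t else true) = ∏ t ∈ A, w t (z t) :=
      Finset.prod_congr rfl fun t ht => by rw [if_pos ht]
    have e4 : φ (fun t => if t ∈ A then z t else true) = φ z :=
      hφ _ _ fun t ht => if_pos ht
    rw [e1, e2, e3, e4]
    ring

/-! ### the exchanged law as a sum over `cfX` -/

theorem EX_sum (c : ℝ) (F : Finset P2) (f : Cfg → ℝ) :
    EX c F f = (∑ ω ∈ cfX F, wt c F ω * f ω) / Z c F := by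
  classical
  rw [EX_eq, sum_cfX]
  congr 1
  unfold S2 conf
  rw [Finset.sum_product, Finset.sum_image fun a _ b _ h => Crest.Agent.R144.Xc851.ng_inj h]
  rfl

theorem vf_ball {a : P2} {N : ℕ} {F : Finset P2} (h : ball a (N + 1) ⊆ F) : VF (ball a N) ⊆ IV F := by
  intro v hv
  obtain ⟨t, ht, hvt⟩ := mem_VF.1 hv
  rw [mem_IV']
  intro t' ht'
  by_cases e : t = t'
  · rw [← e]
    exact h (ball_mono a (by omega) ht)
  · exact h (adj_ball ht (adj_of_site e hvt ht'))

open Classical in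
/-- one domain, one sign -/
theorem one_domX {c : ℝ} (hc : 1 ≤ c) {F : Finset P2} {a : P2} {N : ℕ} (hF : ball a (N + 1) ⊆ F)
    (e : Bool) {A : Finset P2} {f : Cfg → ℝ} (hf : InC A f) (hf0 : ∀ ω, 0 ≤ f ω) {q : ℝ} (hq : 0 < q)
    (h : q ≤ EX c F (fun ω => if A ⊆ Un (eC e ω) (ball a N) then 1 else 0)) :
    ∃ B : Finset P2, SC B ∧ A ⊆ B ∧ B ⊆ ball a N ∧
      q * E c B (fun ω => f (addH (off e) ω)) ≤ EX c F f := by
  have hZ := Z_pos hc F
  rw [EX_sum, le_div_iff₀ hZ] at h
  obtain ⟨B, h1, h2, h3, h4⟩ := one_dom hc (sc_ball a N)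
    (fam_cfX (F := F) (K := ball a N) ((ball_mono a (by omega)).trans hF) (vf_ball hF)) e hf
    (fun ω _ => hf0 ω) (mul_pos hq hZ) h
  refine ⟨B, h1, h2, h3, ?_⟩
  rw [EX_sum, le_div_iff₀ hZ]
  linarith

open Classical in
/-- one domain, layer of closed triangles of any sign -/
theorem one_domX' {c : ℝ} (hc : 1 ≤ c) {F : Finset P2} {a : P2} {m N : ℕ} (hmN : m + 1 ≤ N)
    (hF : ball a (N + 2) ⊆ F) {f : Cfg → ℝ} (hf : InC (ball a m) f) (hf0 : ∀ ω, 0 ≤ f ω) :
    ∃ (e : Bool) (B : Finset P2), SC B ∧ ball a m ⊆ B ∧ B ⊆ ball a (N + 1) ∧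
      EX c F (fun ω => if Sepr (cl ω) a (m + 1) N then 1 else 0) *
        E c B (fun ω => f (addH (off e) ω)) ≤ 2 * EX c F f := by
  set q := EX c F (fun ω => if Sepr (cl ω) a (m + 1) N then 1 else 0) with hq
  have hf1 : 0 ≤ EX c F f := EX_nonneg hc fun ω _ _ => hf0 ω
  have hsplit : q ≤ EX c F (fun ω => if ball a m ⊆ Un (eC true ω) (ball a (N + 1)) then 1 else 0) +
      EX c F (fun ω => if ball a m ⊆ Un (eC false ω) (ball a (N + 1)) then 1 else 0) := by
    rw [hq, ← EX_add]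
    refine EX_mono hc fun ω _ hw => ?_
    by_cases h : Sepr (cl ω) a (m + 1) N
    · rw [if_pos h]
      rw [cl_eq] at h
      have h1 := sepr_split hmN (fun u hu v hv hP hQ => not_adj hw
        (hF (ball_mono a (by omega) hu)) (hF (ball_mono a (by omega) hv)) hP hQ) h
      rcases h1 with h1 | h1
      · rw [if_pos (sepr_un hmN h1)]
        split_ifs <;> norm_num
      · rw [if_pos (sepr_un hmN h1)]
        split_ifs <;> norm_num
    · rw [if_neg h]
      split_ifs <;> norm_num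
  rcases le_or_gt q 0 with hq0 | hq0
  · refine ⟨true, ball a m, sc_ball a m, subset_rfl, ball_mono a (by omega), ?_⟩
    have h1 : 0 ≤ E c (ball a m) (fun ω => f (addH (off true) ω)) := E_nonneg hc fun ω _ => hf0 _
    nlinarith
  · obtain ⟨e, he⟩ : ∃ e : Bool, q / 2 ≤
        EX c F (fun ω => if ball a m ⊆ Un (eC e ω) (ball a (N + 1)) then 1 else 0) := by
      by_contra h
      push Not at h
      have h1 := h true
      have h2 := h false
      linarith
    obtain ⟨B, h1, h2, h3, h4⟩ := one_domX hc hF e hf hf0 (half_pos hq0) he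
    exact ⟨e, B, h1, h2, h3, by linarith⟩

/-! ### joint law -/

/-- `f` sees `(s1, z)` in `A` -/
def In1 (A : Finset P2) (f : Cfg → ℝ) : Prop :=
  ∀ ω ω' : Cfg, (∀ t ∈ A, s1 (ω.1 t) = s1 (ω'.1 t)) → (∀ t ∈ A, ω.2 t = ω'.2 t) → f ω = f ω'

/-- average of `f (h, z)` given `(g, y) = (-h, y)` on the window `A` -/
def Av (c : ℝ) (A : Finset P2) (f : Cfg → ℝ) (ω : Cfg) : ℝ :=
  ∑ z ∈ zs A, (∏ t ∈ A, kz c (Xc851.ng ω.1) t (ω.2 t) (z t)) * f (Xc851.ng ω.1, z)

theorem Av_nonneg {c : ℝ} (hc : 1 ≤ c) (hc2 : c ≤ 2) (A : Finset P2) {f : Cfg → ℝ} (hf : ∀ ω, 0 ≤ f ω)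
    (ω : Cfg) : 0 ≤ Av c A f ω :=
  Finset.sum_nonneg fun _ _ => mul_nonneg
    (Finset.prod_nonneg fun _ _ => Xc851.kz_nonneg hc hc2 _ _ _ _) (hf _)

/-- marginal of `(h, z)` through the second representation -/
theorem E_eq_Av (c : ℝ) {A F : Finset P2} (hAF : A ⊆ F) {f : Cfg → ℝ} (hf : In1 A f) :
    E c F f = EX c F (Av c A f) := by
  rw [← E3_fst, E3_cond]
  congr 1
  funext ω
  unfold avz Av fst3
  exact avg_local hAF (fun t b => kz c (Xc851.ng ω.1) t (ω.2 t) b) (fun t => kz_sum c _ t _)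
    (fun z => f (Xc851.ng ω.1, z)) fun z z' h => hf _ _ (fun t _ => rfl) h

theorem s2_off (e : Bool) (b : ℤ) : s2 (b + off e) = (s2 b == e) := by
  cases e
  · unfold off
    simp only [Bool.false_eq_true, if_false]
    rw [s2_add_two]
    cases s2 b <;> rfl
  · unfold off
    simp only [if_true, add_zero]
    cases s2 b <;> rfl

theorem Av_inC {c : ℝ} {A : Finset P2} {f : Cfg → ℝ} (hf : In1 A f) : InC A (Av c A f) := by
  intro ω ω' h1 h2
  unfold Av
  refine Finset.sum_congr rfl fun z _ => ?_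
  have e1 : f (Xc851.ng ω.1, z) = f (Xc851.ng ω'.1, z) := by
    refine hf _ _ (fun t ht => ?_) fun t _ => rfl
    simp only [Xc851.s1_ng]
    exact (h1 t (mem_VF.2 ⟨t, ht, base_mem_up t⟩)).2
  rw [e1]
  congr 1
  refine Finset.prod_congr rfl fun t ht => ?_
  have e2 : C1 (Xc851.ng ω.1) t ↔ C1 (Xc851.ng ω'.1) t := by
    rw [Xc851.c1_ng, Xc851.c1_ng]
    unfold C2
    rw [(h1 _ (cr_mem_VF ht 0)).2, (h1 _ (cr_mem_VF ht 1)).2, (h1 _ (cr_mem_VF ht 2)).2]
  unfold kz
  simp only [e2, h2 t ht]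

/-- inside a domain the average is the marginal of the joint law, representations exchanged -/
theorem E_Av (c : ℝ) {A B : Finset P2} (hAB : A ⊆ B) {f : Cfg → ℝ} (hf : In1 A f) (e : Bool) :
    E c B (fun ω => Av c A f (addH (off e) ω)) =
      E3 c B (fun ω => f (Xc851.ng (addH (off e) (fst3 ω)).1, ω.2.2)) := by
  rw [E3_cond']
  congr 1
  funext ω
  unfold avy Av
  have hk : ∀ t b, kz c (Xc851.ng (addH (off e) ω).1) t ((addH (off e) ω).2 t) b = ky c ω.1 t (ω.2 t) b := by
    intro t b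
    have e2 : C1 (Xc851.ng (addH (off e) ω).1) t ↔ C1 (Xc851.ng ω.1) t := by
      rw [Xc851.c1_ng, Xc851.c1_ng]
      unfold C2 addH
      simp only [s2_off]
      generalize s2 (ω.1 (cr t 0)) = x0
      generalize s2 (ω.1 (cr t 1)) = x1
      generalize s2 (ω.1 (cr t 2)) = x2
      revert x0 x1 x2 e
      decide
    unfold ky kz
    simp only [e2]
    rfl
  simp only [hk]
  exact (avg_local hAB (fun t b => ky c ω.1 t (ω.2 t) b) (fun t => ky_sum c _ t _)
    (fun z => f (Xc851.ng (addH (off e) ω).1, z)) fun z z' h => hf _ _ (fun t _ => rfl) h).symm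

open Classical in
/-- **One domain, joint law.** -/
theorem one_dom3 {c : ℝ} (hc : 1 ≤ c) (hc2 : c ≤ 2) {F : Finset P2} {a : P2} {m N : ℕ} (hmN : m + 1 ≤ N)
    (hF : ball a (N + 2) ⊆ F) {f : Cfg → ℝ} (hf : In1 (ball a m) f) (hf0 : ∀ ω, 0 ≤ f ω) :
    ∃ (e : Bool) (B : Finset P2), SC B ∧ ball a m ⊆ B ∧ B ⊆ ball a (N + 1) ∧
      E3 c F (fun ω => if Sepr {t | ω.2.2 t = true} a (m + 1) N then 1 else 0) *
        E3 c B (fun ω => f (Xc851.ng (addH (off e) (fst3 ω)).1, ω.2.2)) ≤ 2 * E c F f := by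
  obtain ⟨e, B, h1, h2, h3, h4⟩ := one_domX' hc hmN hF (Av_inC (c := c) hf) (Av_nonneg hc hc2 _ hf0)
  refine ⟨e, B, h1, h2, h3, ?_⟩
  rw [E_Av c h2 hf e, ← E_eq_Av c ((ball_mono a (by omega)).trans hF) hf] at h4
  exact h4

end Crest.Agent.R144.Mk696
end
end

-- ▼ part R144/Mk4_696
section

/-!
# R144, marked model, part 4: helper121's ONE (helper696)

`one` : if a layer of `{y}` (closed for the second representation) separates `ball a (m+1)` from the outside of
`ball a N` with probability `q` under `E3 c F`, then there is a simply connected `D`, `ball a m ⊆ D ⊆ ball a (N+1)`,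
such that `q * P_D (no closed layer in A(u, 2u)) ≤ 4 * P_F (a minus closed path crosses A(u, 2u))`.
-/

set_option autoImplicit false
set_option linter.unusedSectionVars false

noncomputable section

namespace Crest.Agent.R144.Mk696

open Finset
open Crest.Agent.R144.It844 (P2 Lip adj_symm adj_iff adj_comm lip_iff)
open Crest.ProbabilityR.HexHeights (Adj)
open Crest.Agent.R144.Zg349 Crest.Agent.R144.Zd349 Crest.Agent.R144.Zm349 Crest.Agent.R144.Ze349
open Crest.Agent.R144.Zs349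
open Crest.Agent.R144.Rsw867
open Crest.Agent.R144.Xc851 (C3 fst3 snd3 ew3 wt3 E3 EX V3 E3_fst EX_eq S2 avz avy kz ky E3_cond E3_cond'
  E3_rf rf3 rf3_s2 rf3_s1 E3_mono E3_congr E3_add E3_smul E3_sub E3_nonneg E3_const sum_zs_prod kz_sum ky_sum
  EX_mono EX_congr EX_nonneg VX EX_add EX_smul)

theorem mono_path {S1 S2 : Set P2} (h : ∀ x ∈ S1, ∀ y ∈ S2, ¬ Adj x y) {u v : P2} (hu : u ∈ S1)
    (p : Relation.ReflTransGen (StepIn (S1 ∪ S2)) u v) : v ∈ S1 ∧ Relation.ReflTransGen (StepIn S1) u v := by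
  induction p with
  | refl => exact ⟨hu, Relation.ReflTransGen.refl⟩
  | @tail b d _ h2 ih =>
    have hd : d ∈ S1 := by
      rcases h2.2.1 with h3 | h3
      · exact h3
      · exact absurd h2.2.2 (h b ih.1 d h3)
    exact ⟨hd, ih.2.tail ⟨ih.1, hd, h2.2.2⟩⟩

/-- no crossing by `S1` and none by `S2`, non-adjacent: no crossing by `S1 ∪ S2` -/
theorem sepr_compl_union {S1 S2 : Set P2} (h : ∀ x ∈ S1, ∀ y ∈ S2, ¬ Adj x y) {a : P2} {m N : ℕ}
    (h1 : Sepr S1ᶜ a m N) (h2 : Sepr S2ᶜ a m N) : Sepr (S1 ∪ S2)ᶜ a m N := by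
  intro u v hu hv p
  rw [compl_compl] at p
  rcases Relation.ReflTransGen.cases_head p with h3 | ⟨w, h3, _⟩
  · subst h3
    exact h1 u u hu hv Relation.ReflTransGen.refl
  · rcases h3.1 with h4 | h4
    · exact h1 u v hu hv (by rw [compl_compl]; exact (mono_path h h4 p).2)
    · rw [Set.union_comm] at p
      exact h2 u v hu hv (by
        rw [compl_compl]
        exact (mono_path (fun x hx y hy ha => h y hy x hx (adj_symm ha)) h4 p).2)

/-- triangles closed for the second representation with second colour `b` -/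
def yT (b : Bool) (ω : C3) : Set P2 := {x | ω.2.2 x = true ∧ s2 (ω.1 x) = b}

open Classical in
/-- some `yT b` path crosses the annulus -/
def yG (b : Bool) (a : P2) (m N : ℕ) (ω : C3) : ℝ := if Sepr (yT b ω)ᶜ a m N then 0 else 1

theorem yG_nonneg (b : Bool) (a : P2) (m N : ℕ) (ω : C3) : 0 ≤ yG b a m N ω := by
  unfold yG; split_ifs <;> norm_num

/-- both signs have the same probability -/
theorem E3_yG (c : ℝ) {D : Finset P2} {a : P2} {m N : ℕ} (hmN : m ≤ N) (hD : ball a (N + 1) ⊆ D) (b : Bool) :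
    E3 c D (yG b a m N) = E3 c D (yG (!b) a m N) := by
  rw [← E3_rf c D (yG b a m N)]
  refine E3_congr fun ω _ => ?_
  unfold yG
  have key : Sepr (yT b (rf3 D ω))ᶜ a m N ↔ Sepr (yT (!b) ω)ᶜ a m N := by
    have h1 : ∀ t ∈ ball a (N + 1), (t ∈ (yT b (rf3 D ω))ᶜ ↔ t ∈ (yT (!b) ω)ᶜ) := by
      intro t ht
      rw [Set.mem_compl_iff, Set.mem_compl_iff, not_iff_not]
      unfold yT
      simp only [Set.mem_ofPred_eq]
      rw [rf3_s2 (mem_VF.2 ⟨t, hD ht, base_mem_up t⟩)]
      have e : (rf3 D ω).2.2 t = ω.2.2 t := rfl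
      rw [e]
      generalize s2 (ω.1 t) = x
      generalize ω.2.2 t = y
      revert x y b
      decide
    exact ⟨Sepr.congr hmN fun t ht _ h => (h1 t ht).1 h, Sepr.congr hmN fun t ht _ h => (h1 t ht).2 h⟩
  by_cases h : Sepr (yT (!b) ω)ᶜ a m N
  · rw [if_pos h, if_pos (key.2 h)]
  · rw [if_neg h, if_neg fun h' => h (key.1 h')]

/-- no crossing by `y`-closed triangles of either sign: a layer of triangles closed for the first representation -/
theorem layer_of {c : ℝ} {D : Finset P2} {a : P2} {m N : ℕ} (hmN : m ≤ N) (hD : ball a (N + 1) ⊆ D) {ω : C3}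
    (hω : V3 c D ω) (h1 : Sepr (yT true ω)ᶜ a m N) (h2 : Sepr (yT false ω)ᶜ a m N) :
    Sepr {t | ω.2.1 t = true} a m N := by
  set W : Set P2 := (ball a (N + 1) : Set P2) with hW
  have far : ∀ x ∈ yT true ω ∩ W, ∀ y ∈ yT false ω ∩ W, ¬ Adj x y := by
    rintro x ⟨⟨hx1, hx2⟩, hxW⟩ y ⟨⟨hy1, hy2⟩, hyW⟩ ha
    obtain ⟨v, h3, h4⟩ := adj_site ha
    have key : ∀ t, t ∈ ball a (N + 1) → ω.2.2 t = true → ∀ v ∈ up t, s2 (ω.1 v) = s2 (ω.1 t) := by
      intro t ht hy v hv
      obtain ⟨e1, e2⟩ := hω.c2_y (hD ht) hy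
      obtain ⟨i, rfl⟩ := mem_up_iff.1 hv
      fin_cases i
      · rfl
      · exact e1.symm
      · exact e2.symm
    have e1 := key x hxW hx1 v h3
    have e2 := key y hyW hy1 v h4
    rw [e1, hx2, hy2] at e2
    exact absurd e2 (by decide)
  have h3 := sepr_compl_union far
    (h1.mono (Set.compl_subset_compl.2 Set.inter_subset_left))
    (h2.mono (Set.compl_subset_compl.2 Set.inter_subset_left))
  refine h3.congr hmN fun t ht _ h4 => ?_
  show ω.2.1 t = true
  rcases hω.disj t with h5 | h5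
  · exact h5
  · exfalso
    apply h4
    rcases hb : s2 (ω.1 t) with _ | _
    · exact Or.inr ⟨⟨h5, hb⟩, ht⟩
    · exact Or.inl ⟨⟨h5, hb⟩, ht⟩

open Classical in
/-- minus closed crossing -/
def mG (a : P2) (m N : ℕ) (ω : Cfg) : ℝ := if Sepr {x | mC ω x}ᶜ a m N then 0 else 1

theorem mG_in1 {A : Finset P2} {a : P2} {m N : ℕ} (hmN : m ≤ N) (hA : ball a (N + 1) ⊆ A) :
    In1 A (mG a m N) := by
  intro ω ω' h1 h2
  have key : ∀ t ∈ ball a (N + 1), (mC ω t ↔ mC ω' t) := fun t ht => by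
    unfold mC
    rw [h1 t (hA ht), h2 t (hA ht)]
  have h3 : Sepr {x | mC ω x}ᶜ a m N ↔ Sepr {x | mC ω' x}ᶜ a m N :=
    ⟨Sepr.congr hmN fun t ht _ h h' => h ((key t ht).2 h'),
      Sepr.congr hmN fun t ht _ h h' => h ((key t ht).1 h')⟩
  unfold mG
  by_cases h : Sepr {x | mC ω x}ᶜ a m N
  · rw [if_pos h, if_pos (h3.1 h)]
  · rw [if_neg h, if_neg fun h' => h (h3.2 h')]

theorem mG_ind (a : P2) (m N : ℕ) : mG a m N = ind {ω | ¬ Sepr {x | ¬ mC ω x} a m N} := by
  funext ω
  by_cases h : Sepr {x | ¬ mC ω x} a m N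
  · rw [ind_of_not_mem (A := {ω | ¬ Sepr {x | ¬ mC ω x} a m N}) (fun h' => h' h)]
    exact if_pos h
  · rw [ind_of_mem (A := {ω | ¬ Sepr {x | ¬ mC ω x} a m N}) h]
    exact if_neg h

open Classical in
/-- **ONE.** -/
theorem one {c : ℝ} (hc : 1 ≤ c) (hc2 : c ≤ 2) {F : Finset P2} {a : P2} {m N u u' : ℕ} (hmN : m + 1 ≤ N)
    (hF : ball a (N + 2) ⊆ F) (huu : u ≤ u') (hu : u' + 1 ≤ m) :
    ∃ D : Finset P2, SC D ∧ ball a m ⊆ D ∧ D ⊆ ball a (N + 1) ∧
      E3 c F (fun ω => if Sepr {t | ω.2.2 t = true} a (m + 1) N then 1 else 0) *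
        (1 - Pr c D {w | Sepr {x | w.2 x = true} a u u'}) ≤
          4 * Pr c F {w | ¬ Sepr {x | ¬ mC w x} a u u'} := by
  obtain ⟨e, D, h1, h2, h3, h4⟩ := one_dom3 hc hc2 hmN hF
    (mG_in1 (a := a) (m := u) (N := u') huu (ball_mono a hu))
    (fun ω => by unfold mG; split_ifs <;> norm_num)
  refine ⟨D, h1, h2, h3, ?_⟩
  have hD : ball a (u' + 1) ⊆ D := (ball_mono a hu).trans h2
  set q := E3 c F (fun ω => if Sepr {t | ω.2.2 t = true} a (m + 1) N then 1 else 0) with hq
  have hq0 : 0 ≤ q := E3_nonneg hc hc2 fun ω _ => by split_ifs <;> norm_num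
  have e1 : E3 c D (fun ω => mG a u u' (Xc851.ng (addH (off e) (fst3 ω)).1, ω.2.2)) =
      E3 c D (yG (!e) a u u') := by
    refine E3_congr fun ω _ => ?_
    unfold mG yG
    have : {x | mC (Xc851.ng (addH (off e) (fst3 ω)).1, ω.2.2) x} = yT (!e) ω := by
      ext x
      unfold mC yT
      simp only [Set.mem_ofPred_eq, Xc851.s1_ng, addH, fst3, s2_off]
      generalize s2 (ω.1 x) = p
      generalize ω.2.2 x = r
      clear h4
      revert p r
      cases e <;> decide
    rw [this]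
  have e2 : E3 c D (yG e a u u') = E3 c D (yG (!e) a u u') := E3_yG c huu hD e
  have e3 : 1 - Pr c D {w | Sepr {x | w.2 x = true} a u u'} ≤ 2 * E3 c D (yG (!e) a u u') := by
    have h5 : Pr c D {w | Sepr {x | w.2 x = true} a u u'} =
        E3 c D (fun ω => if Sepr {x | ω.2.1 x = true} a u u' then 1 else 0) := by
      rw [Pr_eq, ← E3_fst]
      refine E3_congr fun ω _ => ?_
      rfl
    have h7 : 2 * E3 c D (yG (!e) a u u') = E3 c D (yG e a u u') + E3 c D (yG (!e) a u u') := by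
      rw [e2]; ring
    rw [h5, h7, ← E3_add]
    nth_rewrite 1 [← E3_const hc D 1]
    rw [← E3_sub]
    refine E3_mono hc hc2 fun ω hω => ?_
    by_cases h8 : Sepr {x | ω.2.1 x = true} a u u'
    · rw [if_pos h8, sub_self]
      exact add_nonneg (yG_nonneg _ _ _ _ _) (yG_nonneg _ _ _ _ _)
    · rw [if_neg h8, sub_zero]
      by_contra h9
      push Not at h9
      have g1 : Sepr (yT e ω)ᶜ a u u' := by
        by_contra h10
        have : yG e a u u' ω = 1 := if_neg h10
        have := yG_nonneg (!e) a u u' ω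
        linarith
      have g2 : Sepr (yT (!e) ω)ᶜ a u u' := by
        by_contra h10
        have : yG (!e) a u u' ω = 1 := if_neg h10
        have := yG_nonneg e a u u' ω
        linarith
      refine h8 ?_
      rcases e with _ | _
      · exact layer_of huu hD hω g2 g1
      · exact layer_of huu hD hω g1 g2
  rw [e1] at h4
  rw [Pr_eq c F, ← mG_ind]
  calc q * (1 - Pr c D {w | Sepr {x | w.2 x = true} a u u'}) ≤ q * (2 * E3 c D (yG (!e) a u u')) :=
        mul_le_mul_of_nonneg_left e3 hq0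
    _ = 2 * (q * E3 c D (yG (!e) a u u')) := by ring
    _ ≤ 2 * (2 * E c F (mG a u u')) := by linarith
    _ = 4 * E c F (mG a u u') := by ring

end Crest.Agent.R144.Mk696
end
end

-- ▼ part R144/TvG_948
section

/-!
# R144, integer models: (T2) in the form `TVH` (helper948)

* `tv2` : `|Pr c F₁ A - Pr c F₂ A| ≤ Pr c F₂ (BlkP 0 (m + 1) N ∩ UpB (ball 0 m) F₂)ᶜ` for `LocH m A`;
* `tvh_of` : the hypothesis of `Ht948.heights` from the same event in the big domain.
-/

set_option autoImplicit false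

noncomputable section

namespace Crest.Agent.R144.TvG948

open Finset
open Crest.Agent.R144.It844 (P2)
open Crest.Agent.R144.Zg349 Crest.Agent.R144.Zk349 Crest.Agent.R144.Zd349 Crest.Agent.R144.Zm349
open Crest.Agent.R144.Ze349 Crest.Agent.R144.Zf349 Crest.Agent.R144.Zs349
open Crest.Agent.R144.Rsw867
open Crest.Agent.R144.Tvp643
open Crest.Agent.R144.Ht948

theorem locB_ind {m : ℕ} {A : Set Cfg} (hA : LocH m A) : LocB (ball 0 m) (ind A) := by
  intro ω ω' hv _
  have h : ω ∈ A ↔ ω' ∈ A := hA ω ω' fun v hv' => hv v (mem_VF.2 ⟨v, hv', base_mem_up v⟩)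
  unfold ind
  by_cases h1 : ω ∈ A
  · rw [if_pos h1, if_pos (h.1 h1)]
  · rw [if_neg h1, if_neg fun h2 => h1 (h.2 h2)]


theorem tv2 {c : ℝ} (hc : 1 ≤ c) {F₁ F₂ : Finset P2} (h1 : SC F₁) (h2 : SC F₂) (h12 : F₁ ⊆ F₂)
    {m N : ℕ} (hmN : m + 1 ≤ N) (hN : ball 0 N ⊆ F₁) {A : Set Cfg} (hA : LocH m A) :
    |Pr c F₁ A - Pr c F₂ A| ≤ Pr c F₂ (BlkP 0 (m + 1) N ∩ UpB (ball 0 m) F₂)ᶜ :=
  tv_heights hc h1 h2 h12 hmN hN (locB_ind hA)
    (ind_nonneg A) (ind_le_one A)


end Crest.Agent.R144.TvG948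
end
end

-- ▼ part R144/Th3_121

/-!
# R144, block R2 (THM2), file 3 (helper121)

* `weak` : `WeakRSW c` from single-scale RSW and the leaves;
* `flip`, `lev`, `tv2`, `one` : the leaves.
-/

set_option autoImplicit false
set_option linter.unusedVariables false

noncomputable section

namespace Crest.Agent.R144.Th121

open Finset
open Crest.Agent.R144.It844 (P2 adj_iff adj_symm)
open Crest.Agent.R144.Zg349 Crest.Agent.R144.Zd349 Crest.Agent.R144.Zm349 Crest.Agent.R144.Ze349
open Crest.Agent.R144.Pst967 (hexB mem_hexB hexB_mono conn_hexB stepIn_symm path_symm)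
open Crest.Agent.R144.Rsw867
open Crest.Agent.R144.Rw146
open Crest.Agent.R144.Ht948 (up1 LocH TVH heights layer_iff)
open Crest.Agent.R144.Qr315 (Law Layer QRSW)

/-- FLIP holds (helper851) -/
theorem flip {c : ℝ} (hc : 1 ≤ c) (hc2 : c ≤ 2) : Flip c := fun F t N v hF hB htN hv hvt =>
  Xc851.flip_B hc hc2 hF hB htN hvt

/-- LEV holds (helper851) -/
theorem lev {c : ℝ} (hc : 1 ≤ c) (hc2 : c ≤ 2) : Lev c := fun F t N u _ hB htN _ hut =>
  Xc851.lev_B hc hc2 hB htN hut

/-- ONE holds (helper696) -/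
theorem one {c : ℝ} (hc : 1 ≤ c) (hc2 : c ≤ 2) : One c := by
  intro F t N u _ hB htN hu hut
  obtain ⟨m, rfl⟩ : ∃ m, t = m + 1 := ⟨t - 1, by omega⟩
  obtain ⟨D, h1, h2, h3, h4⟩ := Mk696.one hc hc2 (a := 0) (m := m) (N := N) (u := u) (u' := 2 * u) htN hB
    (by omega) (by omega)
  exact ⟨D, h1, h2, h3.trans ((ball_mono 0 (by omega)).trans hB), h4⟩

/-- TV2 holds (helper643, helper948) -/
theorem tv2 {c : ℝ} (hc : 1 ≤ c) : TV2 c := by
  intro F1 F2 m N h1 h2 h12 hB hmN A hA
  refine (TvG948.tv2 hc h1 h2 h12 hmN hB hA).trans (Pr_mono hc ?_)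
  refine Set.compl_subset_compl.2 (Set.inter_subset_inter_right _ ?_)
  rintro ω ⟨u, hu, v, hv, hp⟩
  exact ⟨u, mem_VF.2 ⟨u, hu, base_mem_up u⟩, v, hv, hp⟩

/-- **THM2**: the weakest RSW statement from single-scale RSW -/
theorem weak (hQ : QRSW) {c : ℝ} (hc : 1 ≤ c) (hc2 : c ≤ 2) : WeakRSW c := by
  have hMm := mixP hc (colE_m c)
  have hMp := mixP hc (colE_p c)
  obtain ⟨c1, s1, K1, k1, l1, n1, hc1, hs1, hk1, hl4, hlK, H1⟩ := plus_heights hQ
  set s : ℝ := min s1 (c1 / 8) with hs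
  have hs0 : 0 < s := lt_min hs1 (by positivity)
  obtain ⟨K, L, n2, p, hp, HW⟩ := window hQ hc hc2 (one hc hc2) hMm hMp hs0 (K' := 100 * K1) (Lw := 100 * k1)
    (by omega) (by omega)
  by_contra hcon
  unfold WeakRSW at hcon
  push Not at hcon
  obtain ⟨n, hn, hbl⟩ := hcon (K + 100 * K1) 2 L (n1 + n2 + 1) (min p (c1 / 8)) (lt_min hp (by positivity))
  obtain ⟨v, hv1, hv2, hv⟩ := HW n (by omega) fun n' h1 h2 => by
    refine lt_of_le_of_lt ?_ ((hbl n' h1 h2).trans_le (min_le_left _ _))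
    exact Pr_mono_dom hc (sc_hexB _) (sc_hexB _) (hexB_mono (Nat.mul_le_mul_right _ (by omega)))
      (decS_blk 0 n' (2 * n'))
  have hvL : v ≤ L * n := le_trans (Nat.le_mul_of_pos_left v (by omega)) hv2
  have hk : 100 * v ≤ 100 * k1 * v := by
    have : 100 * k1 * v = k1 * (100 * v) := by ring
    rw [this]
    exact Nat.le_mul_of_pos_left _ hk1
  -- heights
  have h1 := H1 c hc (tv2 hc) (100 * v) (by omega) fun u hu1 hu2 =>
    (hv u (by omega) (by
      have : 100 * k1 * v = k1 * (100 * v) := by ring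
      rw [this]; exact hu2)).mono hc (min_le_left _ _) (by omega)
  set F : Finset P2 := hexB (l1 * (100 * v)) with hF
  have hFsc : SC F := sc_hexB _
  have h4 : 4 * (100 * v) ≤ l1 * (100 * v) := Nat.mul_le_mul_right _ hl4
  have h2 := lev hc hc2 F (100 * v) (2 * (100 * v)) (10 * v) hFsc (by
    rw [Rsw867.ball_zero_eq]; exact hexB_mono (by omega)) (by omega) (by omega) (by omega)
  have h3 := flip hc hc2 F (10 * v) (2 * (10 * v)) v hFsc (by
    rw [Rsw867.ball_zero_eq]; exact hexB_mono (by omega)) (by omega) (by omega) (by omega)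
  have hFv : F ⊆ hexB (100 * K1 * v) := by
    refine hexB_mono ?_
    calc l1 * (100 * v) ≤ K1 * (100 * v) := Nat.mul_le_mul_right _ hlK
      _ = 100 * K1 * v := by ring
  have h5 : Pr c F (BlkP 0 v (2 * v))ᶜ ≤ s := by
    refine (hv v le_rfl (by omega)).dom hc hFsc ?_
    rw [Rsw867.ball_zero_eq]
    exact hFv
  have h6 : Pr c F (BlkP 0 (10 * v) (2 * (10 * v)))ᶜ ≤ s := by
    refine (hv (10 * v) (by omega) (by omega)).dom hc hFsc ?_
    rw [Rsw867.ball_zero_eq]
    exact hFv.trans (hexB_mono (Nat.mul_le_mul_left _ (by omega)))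
  have h7 : Pr c F (Blk 0 v (2 * v)) ≤ c1 / 8 := by
    refine blk_le (K := K + 100 * K1) (u := v) hc ((hbl v hv1 hvL).le.trans (min_le_right _ _)) hFsc ?_
    rw [Rsw867.ball_zero_eq]
    exact hFv.trans (hexB_mono (Nat.mul_le_mul_right _ (by omega)))
  have h8 : Pr c F {ω | Sepr (up1 ω) 0 (100 * v) (2 * (100 * v))} ≤
      Pr c F ({ω | Sepr (up1 ω) 0 (100 * v) (2 * (100 * v))} ∩ BlkP 0 (10 * v) (2 * (10 * v))) +
        Pr c F (BlkP 0 (10 * v) (2 * (10 * v)))ᶜ := by
    refine (Pr_mono hc ?_).trans (Pr_union_le hc F _ _)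
    intro ω hω
    by_cases h : ω ∈ BlkP 0 (10 * v) (2 * (10 * v))
    · exact Or.inl ⟨hω, h⟩
    · exact Or.inr h
  have h9 : s ≤ c1 / 8 := min_le_right _ _
  have h10 : pB c F (10 * v) (2 * (10 * v)) ≤ s + c1 / 8 := by linarith
  linarith

/-- RSW for the integer models -/
theorem rswz (hQ : QRSW) {c : ℝ} (hc : 1 ≤ c) (hc2 : c ≤ 2) : RSWZ c :=
  rswz_of_weak hc (weak hQ hc hc2)

end Crest.Agent.R144.Th121
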