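import Crest.Agent.R144.Qbr_356_Mg
import Crest.Agent.R144.Th3_121
import Crest.Agent.R144.Den1_435
import Crest.Agent.R144.Pst12_967
import Crest.Agent.R144.Ccw7_435
import Crest.Agent.R144.Cw11_643
import Crest.Agent.R144.Pst3_967
import Crest.Agent.R144.Rsw0_867
import Crest.Agent.R144.Ga2a_617
import Crest.Agent.R144.Ga1_867
import Crest.Agent.R144.Ccw5_435
import Crest.Agent.R144.Gi1_643

-- ▼ part R144/Rfin_216
section

/-!
# R144: QRSW and RSWZ (helper216; 1941 = helper315; R2 = helper121)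
-/

set_option autoImplicit false

namespace Crest.Agent.R144.Rfin216

/-- the single-scale RSW theorem -/
theorem qrsw : Crest.Agent.R144.Qr315.QRSW :=
  Crest.Agent.R144.Qbr356.qrsw_of Crest.Agent.R144.Qcc216.qf

/-- the uniform RSW statement for all `1 ≤ c ≤ 2` -/
theorem rswz (c : ℝ) (hc : 1 ≤ c) (hc2 : c ≤ 2) : Crest.Agent.R144.Rsw867.RSWZ c :=
  Crest.Agent.R144.Th121.rswz qrsw hc hc2

end Crest.Agent.R144.Rfin216
end

-- ▼ part R144/Den2_435
section

/-!
# R144, two-patch density (helper435), part 2: the plane law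

`ui_plane` : the neutral hypothesis `hUI` of `joint_seq3` from `LAYF c`.
-/

set_option autoImplicit false

noncomputable section

namespace Crest.Agent.R144.Den435

open Finset MeasureTheory Filter Topology
open Crest.Agent.R144.It844 (P2 Lip)
open Crest.Agent.R144.Zg349 Crest.Agent.R144.Zd349 Crest.Agent.R144.Zm349 Crest.Agent.R144.Ze349
open Crest.Agent.R144.Rsw867 (RSW ball RSWZ)
open Crest.Agent.R144.Pst967
open Crest.Agent.R144.CuP880 (nb)
open Crest.Agent.R144.Cmp880 (mem_nb)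
open Crest.Agent.R144.Ccw435 (pat pats pat_mem pat_loc pat_neut ind_nonneg ind_loc ind_neut
  measurable_pat)

/-- two-patch comparison for the plane law, functional form -/
theorem main_P {c : ℝ} (hc : 1 ≤ c) {K : ℕ} {p : ℝ} (hR : RSW c K p) (hLF : LAYF c)
    {P : Measure Hz} (hFL : ∀ f : Hz → ℝ, GObs f → FLim c f (∫ h, f h ∂P)) (R : ℕ)
    {η : ℝ} (hη : 0 < η) : ∃ (C : ℝ) (s0 : ℕ), 0 < C ∧ ∀ s ≥ s0, ∀ (a : P2) (K0 : Finset P2),
      K0.Nonempty → IsConn (K0 : Set P2) → K0 ⊆ ball a (R * s) → ∀ E0 : Finset P2, SC E0 →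
        nb K0 (7 * s) ⊆ E0 → ∀ L : Finset P2, Disjoint L (VF E0) →
          ∀ {ι : Type} (t : Finset ι) (f g : ι → Hz → ℝ), (∀ i h, 0 ≤ f i h) → (∀ i h, 0 ≤ g i h) →
            (∀ h, ∑ i ∈ t, g i h * f i h ≤ 1) → (∀ i, LocZ (K0 : Set P2) (f i)) →
              (∀ i, NeutZ (f i)) → (∀ i, LocZ (L : Set P2) (g i)) → (∀ i, NeutZ (g i)) →
                ∫ h, ∑ i ∈ t, g i h * f i h ∂P ≤
                  η + C * ∑ i ∈ t, (∫ h, f i h ∂P) * ∫ h, g i h ∂P := by
  obtain ⟨C, R', s0, hC, H⟩ := main_F hc hR hLF R hη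
  refine ⟨C, s0, hC, fun s hs a K0 hK0 hK0c hK0R E0 hE0 hnb L hL ι t f g f0 g0 hfg hfl hfn hgl hgn => ?_⟩
  have of : ∀ i, GObs (f i) := fun i => ⟨⟨K0, hfl i⟩, hfn i⟩
  have og : ∀ i, GObs (g i) := fun i => ⟨⟨L, hgl i⟩, hgn i⟩
  have oΦ : GObs fun h => ∑ i ∈ t, g i h * f i h := by
    refine ⟨⟨K0 ∪ L, ?_⟩, ?_⟩
    · intro h h' hh
      refine Finset.sum_congr rfl fun a _ => ?_
      rw [hfl a h h' fun v hv => hh v (by push_cast; exact Or.inl hv),
        hgl a h h' fun v hv => hh v (by push_cast; exact Or.inr hv)]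
    · intro h k
      refine Finset.sum_congr rfl fun a _ => ?_
      rw [hfn a h k, hgn a h k]
  have : (lC scs).NeBot := cls_scs.neBot
  have t1 : Tendsto (fun F : Finset P2 => E c F (fun ω => ∑ i ∈ t, g i ω.1 * f i ω.1))
      (lC scs) (𝓝 (∫ h, ∑ i ∈ t, g i h * f i h ∂P)) := hFL _ oΦ
  have t2 : Tendsto (fun F : Finset P2 => η + C * ∑ i ∈ t,
      E c F (fun ω => f i ω.1) * E c F (fun ω => g i ω.1)) (lC scs)
      (𝓝 (η + C * ∑ i ∈ t, (∫ h, f i h ∂P) * ∫ h, g i h ∂P)) :=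
    tendsto_const_nhds.add (tendsto_const_nhds.mul (tendsto_finsetSum _ fun a _ =>
      (hFL _ (of a)).mul (hFL _ (og a))))
  refine le_of_tendsto_of_tendsto t1 t2 (mem_lC.2 ⟨ball a (R' * s) ∪ E0, fun F hF hsub => ?_⟩)
  exact H s hs a K0 hK0 hK0c hK0R E0 hE0 hnb L hL F hF ((subset_union_left).trans hsub)
    ((subset_union_right).trans hsub) t f g f0 g0 hfg hfl hfn hgl

open Classical in
/-- indicator of a set of heights -/
def chi (A : Set Hz) (h : Hz) : ℝ := if h ∈ A then 1 else 0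

theorem chi_nonneg (A : Set Hz) (h : Hz) : 0 ≤ chi A h := by unfold chi; split_ifs <;> norm_num
theorem chi_le_one (A : Set Hz) (h : Hz) : chi A h ≤ 1 := by unfold chi; split_ifs <;> norm_num

theorem chi_congr {A : Set Hz} {h h' : Hz} (H : h ∈ A ↔ h' ∈ A) : chi A h = chi A h' := by
  unfold chi
  by_cases h1 : h ∈ A
  · rw [if_pos h1, if_pos (H.1 h1)]
  · rw [if_neg h1, if_neg fun h2 => h1 (H.2 h2)]

theorem integral_chi {P : Measure Hz} {A : Set Hz} {S : Finset P2} (hA : LocZ (S : Set P2) (chi A)) :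
    ∫ h, chi A h ∂P = P.real A := by
  have hm : MeasurableSet A := by
    have e : A = chi A ⁻¹' {1} := by
      ext h
      simp only [Set.mem_preimage, Set.mem_singleton_iff, chi]
      split_ifs with h1
      · simp [h1]
      · simp [h1]
    rw [e]; exact (measurable_of_loc ⟨S, hA⟩) (measurableSet_singleton 1)
  have h2 : chi A = Set.indicator A 1 := by
    funext h
    by_cases h1 : h ∈ A
    · rw [Set.indicator_of_mem h1, chi, if_pos h1, Pi.one_apply]
    · rw [Set.indicator_of_notMem h1, chi, if_neg h1]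
  rw [h2, integral_indicator_one hm]

/-- **Neutral two-patch density bound for the plane law.** -/
theorem ui_plane {c : ℝ} (hc : 1 ≤ c) {K : ℕ} {p : ℝ} (hR : RSW c K p) (hLF : LAYF c)
    {P : Measure Hz} (hP : PinnedZ P) (hFL : ∀ f : Hz → ℝ, GObs f → FLim c f (∫ h, f h ∂P)) (R : ℕ)
    {η : ℝ} (hη : 0 < η) : ∃ (C : ℝ) (s0 : ℕ), 0 < C ∧ ∀ s ≥ s0, ∀ (a : P2) (K0 : Finset P2),
      K0.Nonempty → IsConn (K0 : Set P2) → K0 ⊆ ball a (R * s) → ∀ E0 : Finset P2, SC E0 →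
        nb K0 (7 * s) ⊆ E0 → ∀ L : Finset P2, Disjoint L (VF E0) → ∀ S1 : Finset P2, S1 ⊆ K0 →
          ∀ o1 ∈ S1, ∀ B : (S1 → ℤ) → Hz → Prop, (∀ a, LocZ (L : Set P2) (B a)) →
            (∀ a, NeutZ (B a)) → P.real {h | B (pat o1 S1 h) h} ≤ η + C * ∑ a ∈ pats o1 S1,
              P.real {g | pat o1 S1 g = a} * P.real {h | B a h} := by
  obtain ⟨C, s0, hC, H⟩ := main_P hc hR hLF hFL R hη
  refine ⟨C, s0, hC, fun s hs a K0 hK0 hK0c hK0R E0 hE0 hnb L hL S1 hS1 o1 ho1 B hBl hBn => ?_⟩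
  have hs1 : ((S1 : Set P2) ∪ {o1}) ⊆ (K0 : Set P2) := by
    rintro v (hv | hv)
    · exact Finset.mem_coe.2 (hS1 (Finset.mem_coe.1 hv))
    · rw [Set.mem_singleton_iff.1 hv]; exact Finset.mem_coe.2 (hS1 ho1)
  have hfl : ∀ a, LocZ (K0 : Set P2) (chi {g | pat o1 S1 g = a}) := fun a h h' hh =>
    chi_congr (by
      rw [Set.mem_ofPred_eq, Set.mem_ofPred_eq, pat_loc o1 S1 h h' fun v hv => hh v (hs1 hv)])
  have hfn : ∀ a, NeutZ (chi {g | pat o1 S1 g = a}) := fun a h k =>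
    chi_congr (by rw [Set.mem_ofPred_eq, Set.mem_ofPred_eq, pat_neut o1 S1 h k])
  have hgl : ∀ a, LocZ (L : Set P2) (chi {h | B a h}) := fun a h h' hh =>
    chi_congr (by rw [Set.mem_ofPred_eq, Set.mem_ofPred_eq, hBl a h h' hh])
  have hgn : ∀ a, NeutZ (chi {h | B a h}) := fun a h k =>
    chi_congr (by rw [Set.mem_ofPred_eq, Set.mem_ofPred_eq, hBn a h k])
  -- the sum over the patterns
  have hsum : ∀ h : Hz, ∑ a ∈ pats o1 S1, chi {h | B a h} h * chi {g | pat o1 S1 g = a} h =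
      if pat o1 S1 h ∈ pats o1 S1 then chi {h | B (pat o1 S1 h) h} h else 0 := fun h => by
    classical
    have e : ∀ a ∈ pats o1 S1, chi {h | B a h} h * chi {g | pat o1 S1 g = a} h =
        if pat o1 S1 h = a then chi {h | B (pat o1 S1 h) h} h else 0 := by
      intro a _
      by_cases h1 : pat o1 S1 h = a
      · rw [if_pos h1]
        have h2 : chi {g | pat o1 S1 g = a} h = 1 := if_pos h1
        rw [h2, mul_one]
        unfold chi
        simp only [Set.mem_ofPred_eq, h1]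
      · rw [if_neg h1]
        have h2 : chi {g | pat o1 S1 g = a} h = 0 := if_neg h1
        rw [h2, mul_zero]
    rw [Finset.sum_congr rfl e, Finset.sum_ite_eq]
  have hfg : ∀ h : Hz, ∑ a ∈ pats o1 S1, chi {h | B a h} h * chi {g | pat o1 S1 g = a} h ≤ 1 :=
    fun h => by
      rw [hsum]
      split_ifs
      · exact chi_le_one _ _
      · exact zero_le_one
  have main := H s hs a K0 hK0 hK0c hK0R E0 hE0 hnb L hL (pats o1 S1)
    (fun a => chi {g | pat o1 S1 g = a}) (fun a => chi {h | B a h}) (fun a h => chi_nonneg _ h)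
    (fun a h => chi_nonneg _ h) hfg hfl hfn hgl hgn
  have e3 : ∫ h, ∑ a ∈ pats o1 S1, chi {h | B a h} h * chi {g | pat o1 S1 g = a} h ∂P =
      P.real {h | B (pat o1 S1 h) h} := by
    rw [← integral_chi (S := K0 ∪ L) (A := {h | B (pat o1 S1 h) h})]
    · refine integral_congr_ae ?_
      filter_upwards [hP.lip] with h hh
      rw [hsum, if_pos (pat_mem hh)]
    · intro h h' hh
      refine chi_congr ?_
      have e1 : pat o1 S1 h = pat o1 S1 h' := pat_loc o1 S1 h h' fun v hv =>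
        hh v (by push_cast; exact Or.inl (hs1 hv))
      rw [Set.mem_ofPred_eq, Set.mem_ofPred_eq, e1]
      rw [hBl _ h h' fun v hv => hh v (by push_cast; exact Or.inr hv)]
  rw [e3] at main
  refine main.trans (le_of_eq ?_)
  congr 2
  refine Finset.sum_congr rfl fun a _ => ?_
  rw [integral_chi (hfl a), integral_chi (hgl a)]

/-! ### index rectangles -/

/-- index rectangle -/
def rct (x1 x2 y1 y2 : ℤ) : Finset P2 := Finset.Icc x1 x2 ×ˢ Finset.Icc y1 y2

theorem mem_rct {x1 x2 y1 y2 : ℤ} {v : P2} :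
    v ∈ rct x1 x2 y1 y2 ↔ x1 ≤ v.1 ∧ v.1 ≤ x2 ∧ y1 ≤ v.2 ∧ v.2 ≤ y2 := by
  unfold rct
  rw [Finset.mem_product, Finset.mem_Icc, Finset.mem_Icc]
  tauto

theorem conn_rct (x1 x2 y1 y2 : ℤ) : IsConn ((rct x1 x2 y1 y2 : Finset P2) : Set P2) := by
  intro u hu v hv
  rw [Finset.mem_coe, mem_rct] at hu hv
  have h1 : Relation.ReflTransGen (StepIn ((rct x1 x2 y1 y2 : Finset P2) : Set P2)) (u.1, u.2) (v.1, u.2) :=
    path_h u.2 u.1 v.1 fun t h1 h2 => by
      rw [Finset.mem_coe, mem_rct]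
      simp only
      rcases min_choice u.1 v.1 with e | e <;> rcases max_choice u.1 v.1 with e' | e' <;>
        rw [e] at h1 <;> rw [e'] at h2 <;> refine ⟨?_, ?_, ?_, ?_⟩ <;> omega
  have h2 : Relation.ReflTransGen (StepIn ((rct x1 x2 y1 y2 : Finset P2) : Set P2)) (v.1, u.2) (v.1, v.2) :=
    path_v v.1 u.2 v.2 fun t h1 h2 => by
      rw [Finset.mem_coe, mem_rct]
      simp only
      rcases min_choice u.2 v.2 with e | e <;> rcases max_choice u.2 v.2 with e' | e' <;>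
        rw [e] at h1 <;> rw [e'] at h2 <;> refine ⟨?_, ?_, ?_, ?_⟩ <;> omega
  exact h1.trans h2

theorem sc_rct (x1 x2 y1 y2 : ℤ) : SC (rct x1 x2 y1 y2) := by
  -- every point is joined to the far upper right corner
  have hm : ∀ v : P2, v ∈ ((rct x1 x2 y1 y2 : Finset P2) : Set P2)ᶜ ↔
      ¬ (x1 ≤ v.1 ∧ v.1 ≤ x2 ∧ y1 ≤ v.2 ∧ v.2 ≤ y2) := fun v => by
    rw [Set.mem_compl_iff, Finset.mem_coe, mem_rct]
  have key : ∀ (X Y : ℤ), x2 < X → y2 < Y → ∀ u : P2, u ∈ ((rct x1 x2 y1 y2 : Finset P2) : Set P2)ᶜ →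
      u.1 ≤ X → u.2 ≤ Y →
      Relation.ReflTransGen (StepIn ((rct x1 x2 y1 y2 : Finset P2) : Set P2)ᶜ) u (X, Y) := by
    intro X Y hX hY u hu hu1 hu2
    rw [hm] at hu
    by_cases h : x1 ≤ u.1 ∧ u.1 ≤ x2
    · -- outside in the second coordinate
      by_cases h' : y2 < u.2
      · -- up, then right
        have p1 : Relation.ReflTransGen (StepIn ((rct x1 x2 y1 y2 : Finset P2) : Set P2)ᶜ)
            (u.1, u.2) (u.1, Y) := path_v u.1 u.2 Y fun t h1 _ => by
          rw [hm]; simp only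
          rw [min_eq_left hu2] at h1
          omega
        have p2 : Relation.ReflTransGen (StepIn ((rct x1 x2 y1 y2 : Finset P2) : Set P2)ᶜ)
            (u.1, Y) (X, Y) := path_h Y u.1 X fun t _ _ => by
          rw [hm]; simp only; omega
        exact p1.trans p2
      · -- below: right, then up
        have h'' : u.2 < y1 := by
          by_contra h3
          exact hu ⟨h.1, h.2, not_lt.1 h3, not_lt.1 h'⟩
        have p1 : Relation.ReflTransGen (StepIn ((rct x1 x2 y1 y2 : Finset P2) : Set P2)ᶜ)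
            (u.1, u.2) (X, u.2) := path_h u.2 u.1 X fun t _ _ => by
          rw [hm]; simp only; omega
        have p2 : Relation.ReflTransGen (StepIn ((rct x1 x2 y1 y2 : Finset P2) : Set P2)ᶜ)
            (X, u.2) (X, Y) := path_v X u.2 Y fun t _ _ => by
          rw [hm]; simp only; omega
        exact p1.trans p2
    · by_cases h' : x2 < u.1
      · -- right of the rectangle: up or down in the column, then
        have p0 : Relation.ReflTransGen (StepIn ((rct x1 x2 y1 y2 : Finset P2) : Set P2)ᶜ)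
            (u.1, u.2) (u.1, Y) := path_v u.1 u.2 Y fun t _ _ => by
          rw [hm]; simp only; omega
        have p1 : Relation.ReflTransGen (StepIn ((rct x1 x2 y1 y2 : Finset P2) : Set P2)ᶜ)
            (u.1, Y) (X, Y) := path_h Y u.1 X fun t _ _ => by
          rw [hm]; simp only; omega
        exact p0.trans p1
      · have h'' : u.1 < x1 := by
          by_contra h3
          exact h ⟨not_lt.1 h3, not_lt.1 h'⟩
        have p0 : Relation.ReflTransGen (StepIn ((rct x1 x2 y1 y2 : Finset P2) : Set P2)ᶜ)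
            (u.1, u.2) (u.1, Y) := path_v u.1 u.2 Y fun t _ _ => by
          rw [hm]; simp only; omega
        have p1 : Relation.ReflTransGen (StepIn ((rct x1 x2 y1 y2 : Finset P2) : Set P2)ᶜ)
            (u.1, Y) (X, Y) := path_h Y u.1 X fun t _ _ => by
          rw [hm]; simp only; omega
        exact p0.trans p1
  intro u hu v hv
  have k1 := key (max (x2 + 1) (max u.1 v.1)) (max (y2 + 1) (max u.2 v.2))
    (lt_of_lt_of_le (by omega) (le_max_left _ _)) (lt_of_lt_of_le (by omega) (le_max_left _ _))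
  exact (k1 u hu ((le_max_left _ _).trans (le_max_right _ _))
    ((le_max_left _ _).trans (le_max_right _ _))).trans
    (path_symm (k1 v hv ((le_max_right _ _).trans (le_max_right _ _))
      ((le_max_right _ _).trans (le_max_right _ _))))

theorem nb_rct {x1 x2 y1 y2 : ℤ} {r : ℕ} :
    nb (rct x1 x2 y1 y2) r ⊆ rct (x1 - r) (x2 + r) (y1 - r) (y2 + r) := by
  intro v hv
  obtain ⟨w, hw, h⟩ := mem_nb.1 hv
  rw [mem_rct] at *
  rw [Rsw867.mem_ball] at h
  obtain ⟨h1, h2, -⟩ := h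
  rw [abs_le] at h1 h2
  refine ⟨?_, ?_, ?_, ?_⟩ <;> omega

/-- **`hUI` for a rectangle and a contour at distance `8 s`.** -/
theorem ui_rct {c : ℝ} (hc : 1 ≤ c) {K : ℕ} {p : ℝ} (hR : RSW c K p) (hLF : LAYF c)
    {P : Measure Hz} (hP : PinnedZ P) (hFL : ∀ f : Hz → ℝ, GObs f → FLim c f (∫ h, f h ∂P)) (R : ℕ)
    {η : ℝ} (hη : 0 < η) : ∃ (C : ℝ) (s0 : ℕ), 0 < C ∧ ∀ s ≥ s0, ∀ (a : P2) (x1 x2 y1 y2 : ℤ),
      x1 ≤ x2 → y1 ≤ y2 → rct x1 x2 y1 y2 ⊆ ball a (R * s) →
        ∀ L : Finset P2, (∀ v ∈ L, v ∉ rct (x1 - (8 * s : ℕ)) (x2 + (8 * s : ℕ)) (y1 - (8 * s : ℕ))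
          (y2 + (8 * s : ℕ))) → ∀ S1 : Finset P2, S1 ⊆ rct x1 x2 y1 y2 →
          ∀ o1 ∈ S1, ∀ B : (S1 → ℤ) → Hz → Prop, (∀ a, LocZ (L : Set P2) (B a)) →
            (∀ a, NeutZ (B a)) → P.real {h | B (pat o1 S1 h) h} ≤ η + C * ∑ a ∈ pats o1 S1,
              P.real {g | pat o1 S1 g = a} * P.real {h | B a h} := by
  obtain ⟨C, s0, hC, H⟩ := ui_plane hc hR hLF hP hFL R hη
  refine ⟨C, max s0 1, hC, fun s hs a x1 x2 y1 y2 hx hy hsub L hL S1 hS1 o1 ho1 B hBl hBn => ?_⟩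
  have hs1 : 1 ≤ s := (le_max_right _ _).trans hs
  refine H s ((le_max_left _ _).trans hs) a (rct x1 x2 y1 y2)
    ⟨(x1, y1), by rw [mem_rct]; simp only; omega⟩ (conn_rct _ _ _ _) hsub
    (rct (x1 - (7 * s : ℕ)) (x2 + (7 * s : ℕ)) (y1 - (7 * s : ℕ)) (y2 + (7 * s : ℕ)))
    (sc_rct _ _ _ _) nb_rct L ?_ S1 hS1 o1 ho1 B hBl hBn
  rw [Finset.disjoint_left]
  intro v hv hvV
  apply hL v hv
  obtain ⟨t, ht, hvt⟩ := mem_VF.1 hvV
  rw [mem_rct] at ht ⊢
  rcases Cmp880.base_adj hvt with rfl | h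
  · push_cast at *
    refine ⟨?_, ?_, ?_, ?_⟩ <;> omega
  · rw [It844.adj_iff] at h
    push_cast at *
    rcases h with h | h | h | h | h | h <;> subst h <;> simp only <;>
      refine ⟨?_, ?_, ?_, ?_⟩ <;> omega

end Crest.Agent.R144.Den435
end
end

-- ▼ part R144/Lev_830
section

/-!
# R144 (helper830), CCW: the level of a set of sites (TIGHT)

* `lev W h` : integer part of the average of the heights on `W`;
* `lev_loc`, `lev_add`, `lev_lip`;
* `lev_tight` : tightness of `lev (ball a1 r) - lev (ball a2 r)` for `a2 ∈ ball a1 (A * r)`, uniformly in `r`.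
-/

set_option autoImplicit false

noncomputable section

namespace Crest.Agent.R144.Lev830

open Finset Filter Topology MeasureTheory
open Crest.Agent.R144.It844 (Lip)
open Crest.Agent.R144.Ps643 Crest.Agent.R144.Ps643.PlaneState
open Crest.Agent.R144.Pst967 (Hz LocZ PinnedZ toR measurable_toR lip_bound hexB mem_hexB)
open Crest.Agent.R144.Cw643 (Lim2 plane_sq)
open Crest.Agent.R144.Rsw867 (ball mem_ball mem_ball' ball_zero_eq)
open Crest.ProbabilityR.HexHeights (Adj)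

/-- average of the heights on `W` -/
def avg (W : Finset P2) (h : Ht) : ℝ := (∑ v ∈ W, h v) / W.card

/-- integer part of the average of the heights on `W` -/
def lev (W : Finset P2) (h : Hz) : ℤ := ⌊(∑ v ∈ W, (h v : ℝ)) / W.card⌋

theorem lev_eq (W : Finset P2) (h : Hz) : lev W h = ⌊avg W (toR h)⌋ := rfl

theorem lev_loc (W : Finset P2) : LocZ (W : Set P2) (lev W) := by
  intro h g hg
  unfold lev
  have e : ∑ v ∈ W, (h v : ℝ) = ∑ v ∈ W, (g v : ℝ) :=
    Finset.sum_congr rfl fun v hv => by rw [hg v hv]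
  rw [e]

theorem lev_add {W : Finset P2} (hW : W.Nonempty) (h : Hz) (c : ℤ) :
    lev W (fun v => h v + c) = lev W h + c := by
  unfold lev
  have hc : (W.card : ℝ) ≠ 0 := by
    have := Finset.card_pos.2 hW
    positivity
  have e : (∑ v ∈ W, ((h v + c : ℤ) : ℝ)) / W.card = (∑ v ∈ W, (h v : ℝ)) / W.card + c := by
    have e1 : (∑ v ∈ W, ((h v + c : ℤ) : ℝ)) = ∑ v ∈ W, (h v : ℝ) + W.card * c := by
      rw [show (W.card : ℝ) * c = ∑ _v ∈ W, (c : ℝ) by rw [Finset.sum_const, nsmul_eq_mul],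
        ← Finset.sum_add_distrib]
      exact Finset.sum_congr rfl fun v _ => by push_cast; ring
    rw [e1, add_div, mul_div_cancel_left₀ _ hc]
  rw [e, Int.floor_add_intCast]

theorem lip_diff {h : Hz} (hl : Lip h) {a u v : P2} {r : ℕ} (hu : u ∈ ball a r) (hv : v ∈ ball a r) :
    |h u - h v| ≤ 4 * r := by
  have hl' : Lip (fun w => h (w + v)) := fun x y hxy =>
    hl _ _ ((Crest.Agent.R144.Psr712.adj_tr v x y).2 hxy)
  have h1 := lip_bound hl' (u - v)
  simp only [sub_add_cancel, zero_add] at h1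
  refine h1.trans ?_
  rw [mem_ball] at hu hv
  have h2 : ((Pst967.nrm (u - v) : ℕ) : ℤ) = |u.1 - v.1| + |u.2 - v.2| := by
    unfold Pst967.nrm
    push_cast
    rfl
  rw [h2]
  have h3 : |u.1 - v.1| ≤ 2 * r := by
    obtain ⟨h4, -, -⟩ := hu
    obtain ⟨h5, -, -⟩ := hv
    rw [abs_le] at *
    omega
  have h6 : |u.2 - v.2| ≤ 2 * r := by
    obtain ⟨-, h4, -⟩ := hu
    obtain ⟨-, h5, -⟩ := hv
    rw [abs_le] at *
    omega
  omega

/-- the level is close to the heights (`v` anywhere in the ball) -/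
theorem lev_lip' {W : Finset P2} (hW : W.Nonempty) {a : P2} {r : ℕ} (hWa : W ⊆ ball a r) {h : Hz}
    (hl : Lip h) {v : P2} (hv : v ∈ ball a r) : |lev W h - h v| ≤ 4 * r := by
  have hc : (0 : ℝ) < W.card := by
    have := Finset.card_pos.2 hW
    positivity
  have h1 : ∀ w ∈ W, ((h v : ℝ) - 4 * r ≤ h w) ∧ ((h w : ℝ) ≤ h v + 4 * r) := by
    intro w hw
    have h2 := lip_diff hl (hWa hw) hv
    rw [abs_le] at h2
    constructor
    · have : h v - 4 * r ≤ h w := by omega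
      exact_mod_cast this
    · have : h w ≤ h v + 4 * r := by omega
      exact_mod_cast this
  have h3 : (h v : ℝ) - 4 * r ≤ (∑ w ∈ W, (h w : ℝ)) / W.card := by
    rw [le_div_iff₀ hc]
    calc ((h v : ℝ) - 4 * r) * W.card = ∑ _w ∈ W, ((h v : ℝ) - 4 * r) := by
          rw [Finset.sum_const, nsmul_eq_mul]; ring
      _ ≤ _ := Finset.sum_le_sum fun w hw => (h1 w hw).1
  have h4 : (∑ w ∈ W, (h w : ℝ)) / W.card ≤ (h v : ℝ) + 4 * r := by
    rw [div_le_iff₀ hc]
    calc ∑ w ∈ W, (h w : ℝ) ≤ ∑ _w ∈ W, ((h v : ℝ) + 4 * r) :=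
          Finset.sum_le_sum fun w hw => (h1 w hw).2
      _ = _ := by rw [Finset.sum_const, nsmul_eq_mul]; ring
  have h5 : h v - 4 * r ≤ lev W h := by
    refine Int.le_floor.2 ?_
    push_cast
    exact h3
  have h6 : lev W h ≤ h v + 4 * r := by
    have h7 : lev W h ≤ ⌊((h v + 4 * r : ℤ) : ℝ)⌋ := by
      refine Int.floor_le_floor ?_
      push_cast
      exact h4
    rwa [Int.floor_intCast] at h7
  rw [abs_le]
  omega


/-! ### tightness -/

theorem self_mem_ball (a : P2) (r : ℕ) : a ∈ ball a r := by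
  rw [mem_ball]
  simp

theorem le_card_ball (a : P2) (r : ℕ) : r ^ 2 ≤ (ball a r).card := by
  have h1 : (Finset.Icc (0 : ℤ) r ×ˢ Finset.Icc (-(r : ℤ)) 0).image (fun v => v + a) ⊆ ball a r := by
    intro v hv
    rw [Finset.mem_image] at hv
    obtain ⟨w, hw, rfl⟩ := hv
    rw [Finset.mem_product, Finset.mem_Icc, Finset.mem_Icc] at hw
    rw [mem_ball]
    simp only [Prod.fst_add, Prod.snd_add, add_sub_cancel_right, abs_le]
    omega
  have h2 := Finset.card_le_card h1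
  rw [Finset.card_image_of_injective _ (add_left_injective a), Finset.card_product, Int.card_Icc,
    Int.card_Icc] at h2
  refine le_trans ?_ h2
  have e1 : ((r : ℤ) + 1 - 0).toNat = r + 1 := by omega
  have e2 : ((0 : ℤ) + 1 - -(r : ℤ)).toNat = r + 1 := by omega
  rw [e1, e2]
  nlinarith

theorem card_ball_eq (a b : P2) (r : ℕ) : (ball a r).card = (ball b r).card := by
  unfold ball
  rw [Finset.card_image_of_injective _ (add_left_injective a),
    Finset.card_image_of_injective _ (add_left_injective b)]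

/-- weights of the difference of the two averages, centred at the first ball -/
def gw (b : P2) (r : ℕ) (p : P2) : ℝ :=
  ((if p ∈ ball 0 r then 1 else 0) - (if p ∈ ball b r then 1 else 0)) / (ball 0 r).card

theorem abs_gw_le (b : P2) {r : ℕ} (hr : 1 ≤ r) (p : P2) : |gw b r p| ≤ 1 / (r : ℝ) ^ 2 := by
  unfold gw
  have h1 : (0 : ℝ) < (r : ℝ) ^ 2 := by positivity
  have h2 : (r : ℝ) ^ 2 ≤ ((ball 0 r).card : ℝ) := by exact_mod_cast le_card_ball 0 r
  rw [abs_div, abs_of_pos (h1.trans_le h2)]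
  refine div_le_div₀ zero_le_one ?_ h1 h2
  split_ifs <;> norm_num

theorem ball_sub_BX {b : P2} {A r : ℕ} (hb : b ∈ ball 0 (A * r)) : ball b r ⊆ Cw643.BX ((A + 1) * r) := by
  intro v hv
  rw [mem_ball] at hb hv
  rw [Cw643.mem_BX]
  simp only [Prod.fst_zero, Prod.snd_zero, sub_zero] at hb
  obtain ⟨h1, h2, -⟩ := hb
  obtain ⟨h3, h4, -⟩ := hv
  push_cast at *
  have e : ((A : ℤ) + 1) * r = A * r + r := by ring
  rw [e]
  generalize (A : ℤ) * r = Z at *
  rw [abs_le] at *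
  rw [abs_le] at *
  omega

theorem zero_mem_ball (n : ℕ) : (0 : P2) ∈ ball 0 n := self_mem_ball 0 n

theorem sum_gw {b : P2} {A r : ℕ} (hb : b ∈ ball 0 (A * r)) (F : P2 → ℝ) :
    ∑ p ∈ Cw643.BX ((A + 1) * r), gw b r p * F p =
      (∑ p ∈ ball 0 r, F p) / (ball 0 r).card - (∑ p ∈ ball b r, F p) / (ball b r).card := by
  rw [card_ball_eq b 0 r, ← sub_div]
  have h1 : ∀ c : P2, ball c r ⊆ Cw643.BX ((A + 1) * r) →
      ∑ p ∈ Cw643.BX ((A + 1) * r), (if p ∈ ball c r then (1 : ℝ) else 0) * F p = ∑ p ∈ ball c r, F p := by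
    intro c hc
    simp only [ite_mul, one_mul, zero_mul]
    rw [Finset.sum_ite_mem, Finset.inter_eq_right.2 hc]
  rw [← h1 0 (ball_sub_BX (zero_mem_ball _)), ← h1 b (ball_sub_BX hb), ← Finset.sum_sub_distrib,
    Finset.sum_div]
  refine Finset.sum_congr rfl fun p _ => ?_
  unfold gw
  ring

theorem avg_diff {a1 a2 : P2} {A r : ℕ} (h2 : a2 ∈ ball a1 (A * r)) (h : Ht) :
    lin (Cw643.BX ((A + 1) * r)) (gw (a2 - a1) r) (act (tr a1) h) =
      avg (ball a1 r) h - avg (ball a2 r) h := by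
  have hb : a2 - a1 ∈ ball 0 (A * r) := by
    rw [mem_ball'] at *
    simpa using h2
  unfold lin
  rw [sum_gw hb]
  unfold avg act Ps643.tr
  have e : ∀ c d : P2, c = d - a1 → (∑ p ∈ ball c r, h (p + a1)) / (ball c r).card =
      (∑ v ∈ ball d r, h v) / (ball d r).card := by
    intro c d hcd
    rw [card_ball_eq c d r]
    congr 1
    unfold ball
    rw [Finset.sum_image (fun x _ y _ hxy => add_right_cancel hxy),
      Finset.sum_image (fun x _ y _ hxy => add_right_cancel hxy)]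
    refine Finset.sum_congr rfl fun v _ => ?_
    rw [hcd]
    congr 1
    abel
  rw [e 0 a1 (by simp), e (a2 - a1) a2 rfl]

/-- second moment of the difference of two averages -/
theorem avg_sq {P : Measure Ht} (hS : PlaneState P) {κ : ℝ} (hκ : Lim2 (vg P) κ) (A : ℕ) :
    ∃ K : ℝ, 0 < K ∧ ∀ r : ℕ, 1 ≤ r → ∀ a1 a2 : P2, a2 ∈ ball a1 (A * r) →
      ∫ h, (avg (ball a1 r) h - avg (ball a2 r) h) ^ 2 ∂P ≤ K := by
  obtain ⟨K, hK, hp⟩ := plane_sq hS hκ
  refine ⟨K * ((A : ℝ) + 1) ^ 8, by positivity, fun r hr a1 a2 h2 => ?_⟩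
  have hb : a2 - a1 ∈ ball 0 (A * r) := by
    rw [mem_ball'] at *
    simpa using h2
  have hr' : (1 : ℝ) ≤ r := by exact_mod_cast hr
  have h0 : ∑ p ∈ Cw643.BX ((A + 1) * r), gw (a2 - a1) r p = 0 := by
    have := sum_gw hb (fun _ => 1)
    simp only [mul_one, Finset.sum_const, nsmul_eq_mul] at this
    rw [this]
    have hc : ∀ c : P2, ((ball c r).card : ℝ) ≠ 0 := fun c => by
      have := Finset.card_pos.2 ⟨c, self_mem_ball c r⟩
      positivity
    rw [div_self (hc 0), div_self (hc _), sub_self]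
  have h3 := hp ((A + 1) * r) r ((A : ℝ) + 1) (gw (a2 - a1) r) hr' (by
    have : (0 : ℝ) ≤ A := by positivity
    linarith) (by push_cast; exact le_refl _) (fun p _ => (abs_gw_le _ hr p).trans (by
      refine div_le_div_of_nonneg_right ?_ (by positivity)
      have : (0 : ℝ) ≤ A := by positivity
      linarith)) h0
  have h4 : ∫ h, lin (Cw643.BX ((A + 1) * r)) (gw (a2 - a1) r) h ^ 2 ∂P =
      ∫ h, (avg (ball a1 r) h - avg (ball a2 r) h) ^ 2 ∂P := by
    have h5 := hS.sq_inv (T := act (tr a1)) (fun F hF => hS.tr a1 F hF)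
      (s := Cw643.BX ((A + 1) * r)) (f := gw (a2 - a1) r)
      (s' := (Cw643.BX ((A + 1) * r)).image fun v => v + a1) (f' := fun v => gw (a2 - a1) r (v - a1)) h0
      (fun h => by
        unfold lin act Ps643.tr
        rw [Finset.sum_image (fun x _ y _ hxy => add_right_cancel hxy)]
        refine Finset.sum_congr rfl fun v _ => ?_
        simp only [add_sub_cancel_right])
    rw [h5]
    refine integral_congr_ae (Filter.Eventually.of_forall fun h => ?_)
    simp only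
    congr 1
    rw [← avg_diff h2 h]
    unfold lin act Ps643.tr
    rw [Finset.sum_image (fun x _ y _ hxy => add_right_cancel hxy)]
    refine Finset.sum_congr rfl fun v _ => ?_
    simp only [add_sub_cancel_right]
  rw [← h4]
  exact h3

theorem measurable_avg (W : Finset P2) : Measurable (avg W) := by
  unfold avg
  exact (Finset.measurable_sum _ fun v _ => measurable_pi_apply v).div_const _

/-- **tightness of the difference of the levels of two balls** -/
theorem lev_tight {P : Measure Hz} (hP : PinnedZ P) (hS : PlaneState (P.map toR)) {κ : ℝ}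
    (hκ : Lim2 (vg (P.map toR)) κ) (A : ℕ) : ∀ η : ℝ, 0 < η → ∃ M : ℕ, ∀ r : ℕ, 1 ≤ r →
      ∀ a1 a2 : P2, a2 ∈ ball a1 (A * r) →
        P.real {h | (M : ℤ) < |lev (ball a1 r) h - lev (ball a2 r) h|} ≤ η := by
  intro η hη
  obtain ⟨K, hK, hK2⟩ := avg_sq hS hκ A
  have hpr := hP.prob
  have hprm := hS.prob
  obtain ⟨M, hM⟩ := exists_nat_ge (K / η + 1)
  refine ⟨M, fun r hr a1 a2 h2 => ?_⟩
  have hM1 : (1 : ℝ) ≤ M := by
    have : 0 < K / η := by positivity
    linarith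
  have hMK : K ≤ η * (M : ℝ) ^ 2 := by
    have h3 : K / η ≤ M := by linarith
    rw [div_le_iff₀ hη] at h3
    have h4 : (M : ℝ) ≤ (M : ℝ) ^ 2 := by nlinarith
    nlinarith
  set D : Ht → ℝ := fun h => (avg (ball a1 r) h - avg (ball a2 r) h) ^ 2 with hD
  have hDm : Measurable D := ((measurable_avg _).sub (measurable_avg _)).pow_const 2
  have h3 : ∫ h, D (toR h) ∂P ≤ K := by
    have := hK2 r hr a1 a2 h2
    rwa [show (∫ h, (avg (ball a1 r) h - avg (ball a2 r) h) ^ 2 ∂(P.map toR)) = ∫ h, D h ∂(P.map toR)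
      from rfl, integral_map measurable_toR.aemeasurable hDm.aestronglyMeasurable] at this
  have hbd : ∀ᵐ h ∂P, |D (toR h)| ≤ (∑ v ∈ ball a1 r, (nrm v : ℝ) + ∑ v ∈ ball a2 r, (nrm v : ℝ)) ^ 2 := by
    filter_upwards [hP.zero, hP.lip] with h h0 hl
    have h5 : ∀ v, |(toR h) v| ≤ (nrm v : ℝ) := by
      intro v
      refine abs_le_nrm (by simp [toR, h0]) (fun u w huw => ?_) v
      have := hl u w huw
      have e : |toR h u - toR h w| = ((|h u - h w| : ℤ) : ℝ) := by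
        unfold toR; push_cast; rfl
      rw [e]
      exact_mod_cast this
    have h6 : ∀ c : P2, |avg (ball c r) (toR h)| ≤ ∑ v ∈ ball c r, (nrm v : ℝ) := by
      intro c
      unfold avg
      rw [abs_div]
      have h7 : |∑ v ∈ ball c r, toR h v| ≤ ∑ v ∈ ball c r, (nrm v : ℝ) :=
        (Finset.abs_sum_le_sum_abs _ _).trans (Finset.sum_le_sum fun v _ => h5 v)
      have h8 : (1 : ℝ) ≤ |((ball c r).card : ℝ)| := by
        have := Finset.card_pos.2 ⟨c, self_mem_ball c r⟩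
        rw [abs_of_nonneg (by positivity)]
        exact_mod_cast this
      exact (div_le_self (abs_nonneg _) h8).trans h7
    rw [hD]
    simp only
    rw [abs_of_nonneg (sq_nonneg _), ← sq_abs]
    refine pow_le_pow_left₀ (abs_nonneg _) ?_ 2
    exact (abs_sub _ _).trans (add_le_add (h6 a1) (h6 a2))
  have hint : Integrable (fun h => D (toR h)) P :=
    Integrable.of_bound (hDm.comp measurable_toR).aestronglyMeasurable _ (by
      filter_upwards [hbd] with h hh
      rw [Real.norm_eq_abs]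
      exact hh)
  have h4 := mul_meas_ge_le_integral_of_nonneg (μ := P) (f := fun h => D (toR h))
    (Filter.Eventually.of_forall fun h => sq_nonneg _) hint ((M : ℝ) ^ 2)
  have h5 : {h : Hz | (M : ℤ) < |lev (ball a1 r) h - lev (ball a2 r) h|} ⊆
      {h | (M : ℝ) ^ 2 ≤ D (toR h)} := by
    intro h hh
    have hh' : (M : ℤ) < |lev (ball a1 r) h - lev (ball a2 r) h| := hh
    show (M : ℝ) ^ 2 ≤ (avg (ball a1 r) (toR h) - avg (ball a2 r) (toR h)) ^ 2
    rw [lev_eq, lev_eq] at hh'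
    have f1 := Int.floor_le (avg (ball a1 r) (toR h))
    have f2 := Int.lt_floor_add_one (avg (ball a1 r) (toR h))
    have f3 := Int.floor_le (avg (ball a2 r) (toR h))
    have f4 := Int.lt_floor_add_one (avg (ball a2 r) (toR h))
    generalize avg (ball a1 r) (toR h) = x at *
    generalize avg (ball a2 r) (toR h) = y at *
    generalize ⌊x⌋ = i at *
    generalize ⌊y⌋ = j at *
    have h7 : (M : ℝ) ≤ |x - y| := by
      rw [lt_abs] at hh'
      rw [le_abs]
      rcases hh' with h8 | h8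
      · left
        have h9 : (M : ℤ) + 1 ≤ i - j := h8
        have h10 : (M : ℝ) + 1 ≤ i - j := by exact_mod_cast h9
        linarith
      · right
        have h9 : (M : ℤ) + 1 ≤ -(i - j) := h8
        have h10 : (M : ℝ) + 1 ≤ -((i : ℝ) - j) := by exact_mod_cast h9
        linarith
    rw [← sq_abs (x - y)]
    exact pow_le_pow_left₀ (by positivity) h7 2
  have h6 := measureReal_mono (μ := P) h5
  have hM2 : (0 : ℝ) < (M : ℝ) ^ 2 := by positivity
  have h7 : (M : ℝ) ^ 2 * P.real {h | (M : ℝ) ^ 2 ≤ D (toR h)} ≤ (M : ℝ) ^ 2 * η := by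
    refine h4.trans (h3.trans (hMK.trans (le_of_eq (mul_comm _ _))))
  exact h6.trans (le_of_mul_le_mul_left h7 hM2)

end Crest.Agent.R144.Lev830
end
end

-- ▼ part R144/Lev2_830
section

/-!
# R144 (helper830), CCW: `lev` is a level functional in the sense of helper435
-/

set_option autoImplicit false

noncomputable section

namespace Crest.Agent.R144.Lev830

open Crest.Agent.R144.Ps643
open Crest.Agent.R144.Pst967 (subset_hexB)
open Crest.Agent.R144.Rsw867 (ball ball_zero_eq)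

theorem lev_Lev {W : Finset P2} (hW : W.Nonempty) : Ccw435.Lev W (lev W) where
  loc := lev_loc W
  shift := lev_add hW
  bdd := by
    classical
    obtain ⟨n, hn⟩ := subset_hexB (insert 0 W)
    rw [← ball_zero_eq] at hn
    refine ⟨4 * n, fun h hl => ?_⟩
    have := lev_lip' hW (fun v hv => hn (Finset.mem_insert_of_mem hv)) hl
      (hn (Finset.mem_insert_self 0 W))
    push_cast
    exact this

end Crest.Agent.R144.Lev830
end
end

-- ▼ part R144/Ga2b_617
section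

/-!
# R144, block GAUSS, leaf GA2 (helper617), part b

* `Inv P g` : the neutral functionals have the same integral after transport by `g`; translations,
  `sw`, `th`, `rot`, all `rfl6 n m`;
* `rp6` : reflection positivity of the plane state across all the lines `{dot n v = m}`, `n ∈ Dir6`,
  for the (possibly unbounded) functionals `Fn S α F`;
* `sys6` : the reflection positive system (`RPSys`, helper695);
* `RPHyp6 P`, `rpHyp6 : PlaneState P → RPHyp6 P` : polynomial bound and Cauchy–Schwarz in the six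
  directions.
-/

set_option autoImplicit false

noncomputable section

namespace Crest.Agent.R144.Ga2617

open MeasureTheory Filter
open scoped ComplexConjugate
open Crest.ProbabilityR.HexHeights (Adj)
open Crest.Agent.R144.Ps643 (P2 Ht Loc FinLoc Neut Chg act tr Obs PlaneState)
open Crest.Agent.R144.Tp952 (th sw)
open Crest.Agent.R161.RPsys695 Crest.Agent.R161.Ray369

variable {P : Measure Ht}

theorem Fn.ae_bdd (hP : PlaneState P) {S : Set P2} {α : ℝ} {F : Ht → ℂ} (hF : Fn S α F) :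
    ∃ M : ℝ, ∀ᵐ h ∂P, ‖F h‖ ≤ M := by
  obtain ⟨M, hM⟩ := hF.bdd
  exact ⟨M, hP.lip.mono fun h hh => hM h hh⟩

theorem Fn.integrable (hP : PlaneState P) {S : Set P2} {α : ℝ} {F : Ht → ℂ} (hF : Fn S α F) :
    Integrable F P := by
  have := hP.prob
  obtain ⟨M, hM⟩ := hF.ae_bdd hP
  exact Integrable.of_bound hF.meas.aestronglyMeasurable M hM

theorem Fn.integrable_sq (hP : PlaneState P) {S : Set P2} {α : ℝ} {F : Ht → ℂ} (hF : Fn S α F) :
    Integrable (fun h => ‖F h‖ ^ 2) P := by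
  have := hP.prob
  obtain ⟨M, hM⟩ := hF.ae_bdd hP
  refine Integrable.of_bound (hF.meas.norm.pow_const 2).aestronglyMeasurable (M ^ 2) ?_
  filter_upwards [hM] with h hh
  rw [Real.norm_eq_abs, abs_of_nonneg (by positivity)]
  exact pow_le_pow_left₀ (norm_nonneg _) hh 2

/-- integrals of complex neutral functionals are preserved by `T` as soon as those of the bounded
real ones are -/
theorem integral_inv (hP : PlaneState P) {T : Ht → Ht}
    (hT : ∀ F : Ht → ℝ, Obs F → ∫ h, F (T h) ∂P = ∫ h, F h ∂P) (hTm : Measurable T)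
    (hL : ∀ h, Lp h → Lp (T h))
    {S : Finset P2} {F : Ht → ℂ} (hF : Fn (S : Set P2) 0 F) :
    ∫ h, F (T h) ∂P = ∫ h, F h ∂P := by
  have := hP.prob
  obtain ⟨F', M, hm, hl, hc, hb, he⟩ := hF.exists_trunc
  have hneut : ∀ h c, F' (fun v => h v + c) = F' h := fun h c => chg_neut hc h c
  have e1 : ∫ h, F (T h) ∂P = ∫ h, F' (T h) ∂P := by
    refine integral_congr_ae ?_
    filter_upwards [hP.lip] with h hh
    exact (he _ (hL h hh)).symm
  have e2 : ∫ h, F h ∂P = ∫ h, F' h ∂P := by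
    refine integral_congr_ae ?_
    filter_upwards [hP.lip] with h hh
    exact (he _ hh).symm
  rw [e1, e2]
  have i1 : Integrable (fun h => F' (T h)) P :=
    Integrable.of_bound (hm.comp hTm).aestronglyMeasurable M (Eventually.of_forall fun h => hb _)
  have i2 : Integrable F' P :=
    Integrable.of_bound hm.aestronglyMeasurable M (Eventually.of_forall fun h => hb _)
  have o1 : Obs (fun h => (F' h).re) :=
    { meas := Complex.measurable_re.comp hm
      bdd := ⟨M, fun h => (Complex.abs_re_le_norm _).trans (hb h)⟩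
      loc := ⟨S, fun h g hg => congrArg Complex.re (hl h g hg)⟩
      neut := fun h c => congrArg Complex.re (hneut h c) }
  have o2 : Obs (fun h => (F' h).im) :=
    { meas := Complex.measurable_im.comp hm
      bdd := ⟨M, fun h => (Complex.abs_im_le_norm _).trans (hb h)⟩
      loc := ⟨S, fun h g hg => congrArg Complex.im (hl h g hg)⟩
      neut := fun h c => congrArg Complex.im (hneut h c) }
  have r1 := hT _ o1
  have r2 := hT _ o2
  refine Complex.ext ?_ ?_
  · have a1 := Complex.reCLM.integral_comp_comm i1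
    have a2 := Complex.reCLM.integral_comp_comm i2
    simp only [Complex.reCLM_apply] at a1 a2
    rw [← a1, ← a2]
    exact r1
  · have a1 := Complex.imCLM.integral_comp_comm i1
    have a2 := Complex.imCLM.integral_comp_comm i2
    simp only [Complex.imCLM_apply] at a1 a2
    rw [← a1, ← a2]
    exact r2

/-- the site map `g` preserves adjacency and the integrals of the neutral functionals -/
structure Inv (P : Measure Ht) (g : P2 → P2) : Prop where
  adj : AdjMap g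
  inv : ∀ (S : Finset P2) (F : Ht → ℂ), Fn (S : Set P2) 0 F → ∫ h, F (act g h) ∂P = ∫ h, F h ∂P

theorem Fn.act_fin {S : Finset P2} {α : ℝ} {F : Ht → ℂ} (hF : Fn (S : Set P2) α F)
    {g : P2 → P2} (hg : AdjMap g) : Fn ((S.image g : Finset P2) : Set P2) α
      (fun h => F (Ps643.act g h)) := by
  rw [Finset.coe_image]
  exact hF.act hg

theorem Inv.comp {g k : P2 → P2} (hg : Inv P g) (hk : Inv P k) : Inv P (k ∘ g) := by
  refine ⟨hk.adj.comp hg.adj, fun S F hF => ?_⟩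
  have h1 := hk.inv _ _ (hF.act_fin hg.adj)
  rw [← hg.inv S F hF, ← h1]
  rfl

theorem Inv.symm {g k : P2 → P2} (hg : Inv P g) (hk : AdjMap k) (h : ∀ v, g (k v) = v) :
    Inv P k := by
  refine ⟨hk, fun S F hF => ?_⟩
  have h1 := hg.inv _ _ (hF.act_fin hk)
  rw [← h1]
  refine integral_congr_ae (Eventually.of_forall fun ω => ?_)
  have e : act k (act g ω) = ω := by
    funext v
    exact congrArg ω (h v)
  simp only [e]

theorem Inv.congr {g k : P2 → P2} (hg : Inv P g) (h : ∀ v, g v = k v) : Inv P k := by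
  have : g = k := funext h
  rwa [← this]

theorem inv_tr (hP : PlaneState P) (a : P2) : Inv P (· + a) :=
  ⟨adjMap_add a, fun _ _ hF => integral_inv hP (T := act (tr a)) (hP.tr a) (measurable_act _)
    (fun _ hh => (adjMap_add a).lp hh) hF⟩

theorem inv_sw (hP : PlaneState P) : Inv P sw :=
  ⟨sw_adj, fun _ _ hF => integral_inv hP hP.swap (measurable_act _) (fun _ hh => sw_adj.lp hh) hF⟩

theorem inv_th (hP : PlaneState P) : Inv P th :=
  ⟨th_adj, fun _ _ hF => integral_inv hP hP.theta (measurable_act _) (fun _ hh => th_adj.lp hh) hF⟩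

theorem inv_rot (hP : PlaneState P) : Inv P rot := (inv_th hP).comp (inv_sw hP)

theorem inv_rotI (hP : PlaneState P) : Inv P rotI := (inv_rot hP).symm rotI_adj rot_rotI

theorem rfl6_rot' (n : P2) (m : ℤ) (v : P2) :
    rfl6 (rotn n) m v = rot (rfl6 n m (rotI v)) := by
  rw [← rfl6_rot, rot_rotI]

theorem rfl6_add' (n : P2) (m : ℤ) (b v : P2) :
    rfl6 n (m + dot n b) v = rfl6 n m (v + -b) + b := by
  rw [← rfl6_add]
  simp

theorem inv_rfl6 (hP : PlaneState P) {n : P2} (hn : n ∈ Dir6) (m : ℤ) : Inv P (rfl6 n m) := by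
  have key : Inv P (rfl6 n 0) := by
    refine dir6_induction (p := fun n => Inv P (rfl6 n 0)) ?_ ?_ hn
    · have := inv_th hP
      rwa [th_eq] at this
    · intro n hn h
      exact (((inv_rotI hP).comp h).comp (inv_rot hP)).congr fun v => (rfl6_rot' n 0 v).symm
  obtain ⟨b, hb⟩ := exists_dot hn m
  refine (((inv_tr hP (-b)).comp key).comp (inv_tr hP b)).congr fun v => ?_
  have := rfl6_add' n 0 b v
  rw [hb, zero_add] at this
  exact this.symm

/-! ### reflection positivity in the six directions -/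

/-- reflection positivity across the line `{dot n v = m}` -/
def RPd (P : Measure Ht) (n : P2) (m : ℤ) : Prop :=
  ∀ (S : Finset P2) (α : ℝ) (F : Ht → ℂ), (∀ v ∈ S, m ≤ dot n v) → Fn (S : Set P2) α F →
    0 ≤ (∫ h, conj (F (act (rfl6 n m) h)) * F h ∂P).re

theorem pair_fn {S T : Finset P2} {α : ℝ} {F G : Ht → ℂ} (hF : Fn (S : Set P2) α F)
    (hG : Fn (T : Set P2) α G) : Fn ((S ∪ T : Finset P2) : Set P2) 0
      (fun h => conj (F h) * G h) := by
  have := hF.cj.mul hG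
  rw [neg_add_cancel] at this
  rw [Finset.coe_union]
  exact this

theorem rpd_base (hP : PlaneState P) : RPd P (0, 1) 0 := by
  intro S α F hS hF
  obtain ⟨F', M, hm, hl, hc, hb, he⟩ := hF.exists_trunc
  have h1 := hP.rp α F' hm ⟨M, hb⟩ hc ⟨S, fun v hv => by
    have := hS v hv
    simpa [dot] using this, hl⟩
  have e : ∫ h, conj (F (act (rfl6 (0, 1) 0) h)) * F h ∂P =
      ∫ h, conj (F' (act th h)) * F' h ∂P := by
    refine integral_congr_ae ?_
    filter_upwards [hP.lip] with h hh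
    rw [he _ hh, he _ (th_adj.lp hh), th_eq]
  rw [e]
  exact h1

theorem rpd_shift (hP : PlaneState P) {n : P2} (hn : n ∈ Dir6) {m : ℤ} (h0 : RPd P n m) (b : P2) :
    RPd P n (m + dot n b) := by
  intro S α F hS hF
  have hF1 := hF.act_fin (adjMap_add (-b))
  have h1 := h0 _ α _ (fun v hv => by
    rw [Finset.mem_image] at hv
    obtain ⟨w, hw, rfl⟩ := hv
    have := hS w hw
    have e : dot n (w + -b) = dot n w - dot n b := by simp [dot]; ring
    rw [e]
    linarith) hF1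
  have hG := pair_fn (hF.act_fin (rfl6_adj hn (m + dot n b))) hF
  have h2 := (inv_tr hP (-b)).inv _ _ hG
  rw [← h2]
  refine h1.trans (le_of_eq ?_)
  congr 1
  refine integral_congr_ae (Eventually.of_forall fun ω => ?_)
  simp only
  have e : act (rfl6 n (m + dot n b)) (act (· + -b) ω) = act (· + -b) (act (rfl6 n m) ω) := by
    funext v
    refine congrArg ω ?_
    rw [rfl6_add']
    simp
  rw [e]

theorem rpd_rot (hP : PlaneState P) {n : P2} (hn : n ∈ Dir6) {m : ℤ} (h0 : RPd P n m) :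
    RPd P (rotn n) m := by
  intro S α F hS hF
  have hF1 := hF.act_fin rotI_adj
  have h1 := h0 _ α _ (fun v hv => by
    rw [Finset.mem_image] at hv
    obtain ⟨w, hw, rfl⟩ := hv
    have := hS w hw
    rw [← dot_rotn, rot_rotI]
    exact this) hF1
  have hG := pair_fn (hF.act_fin (rfl6_adj (rotn_mem hn) m)) hF
  have h2 := (inv_rotI hP).inv _ _ hG
  rw [← h2]
  refine h1.trans (le_of_eq ?_)
  congr 1
  refine integral_congr_ae (Eventually.of_forall fun ω => ?_)
  simp only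
  have e : act (rfl6 (rotn n) m) (act rotI ω) = act rotI (act (rfl6 n m) ω) := by
    funext v
    refine congrArg ω ?_
    rw [rfl6_rot', rotI_rot]
  rw [e]

/-- **Reflection positivity across all lines.** -/
theorem rp6 (hP : PlaneState P) {n : P2} (hn : n ∈ Dir6) (m : ℤ) : RPd P n m := by
  have key : RPd P n 0 := by
    have : n ∈ Dir6 ∧ RPd P n 0 := by
      refine dir6_induction (p := fun n => n ∈ Dir6 ∧ RPd P n 0) ⟨by simp [Dir6], rpd_base hP⟩ ?_ hn
      intro n hn h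
      exact ⟨rotn_mem hn, rpd_rot hP hn h.2⟩
    exact this.2
  obtain ⟨b, hb⟩ := exists_dot hn m
  have := rpd_shift hP hn key b
  rwa [hb, zero_add] at this

/-! ### the reflection positive system -/

/-- neutral local functionals -/
def NN : Submodule ℂ (Ht → ℂ) where
  carrier := {F | ∃ S : Finset P2, Fn (S : Set P2) 0 F}
  add_mem' := by
    rintro F G ⟨S, hS⟩ ⟨T, hT⟩
    exact ⟨S ∪ T, by rw [Finset.coe_union]; exact hS.add hT⟩
  zero_mem' := ⟨∅, Fn.zero _ _⟩
  smul_mem' := by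
    rintro r F ⟨S, hS⟩
    exact ⟨S, hS.smul r⟩

/-- local functionals of charge `α` of the closed half plane `{m ≤ dot n v}` -/
def VV (n : P2) (m : ℤ) (α : ℝ) : Submodule ℂ (Ht → ℂ) where
  carrier := {F | ∃ S : Finset P2, (∀ v ∈ S, m ≤ dot n v) ∧ Fn (S : Set P2) α F}
  add_mem' := by
    rintro F G ⟨S, hS, hF⟩ ⟨T, hT, hG⟩
    refine ⟨S ∪ T, fun v hv => ?_, by rw [Finset.coe_union]; exact hF.add hG⟩
    rcases Finset.mem_union.1 hv with h | h
    · exact hS v h
    · exact hT v h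
  zero_mem' := ⟨∅, by simp, Fn.zero _ _⟩
  smul_mem' := by
    rintro r F ⟨S, hS, hF⟩
    exact ⟨S, hS, hF.smul r⟩

theorem integral_inv_real {g : P2 → P2} (hg : Inv P g) {S : Finset P2} {α : ℝ} {F : Ht → ℂ}
    (hF : Fn (S : Set P2) α F) : ∫ h, ‖F (act g h)‖ ^ 2 ∂P = ∫ h, ‖F h‖ ^ 2 ∂P := by
  have h1 := hg.inv _ _ (hF.norm_pow 2)
  have e1 : ∫ h, ((‖F (act g h)‖ ^ 2 : ℝ) : ℂ) ∂P = ((∫ h, ‖F (act g h)‖ ^ 2 ∂P : ℝ) : ℂ) :=
    integral_ofReal
  have e2 : ∫ h, ((‖F h‖ ^ 2 : ℝ) : ℂ) ∂P = ((∫ h, ‖F h‖ ^ 2 ∂P : ℝ) : ℂ) := integral_ofReal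
  rw [e1, e2] at h1
  exact Complex.ofReal_injective h1

theorem norm_integral_le (hP : PlaneState P) {S T : Set P2} {α β : ℝ} {A B : Ht → ℂ}
    (hA : Fn S α A) (hB : Fn T β B) :
    ‖∫ ω, conj (A ω) * B ω ∂P‖ ≤ ((∫ ω, ‖A ω‖ ^ 2 ∂P) + ∫ ω, ‖B ω‖ ^ 2 ∂P) / 2 := by
  have hA2 := hA.integrable_sq hP
  have hB2 := hB.integrable_sq hP
  have hAB : Integrable (fun ω => conj (A ω) * B ω) P := (hA.cj.mul hB).integrable hP
  calc ‖∫ ω, conj (A ω) * B ω ∂P‖ ≤ ∫ ω, ‖conj (A ω) * B ω‖ ∂P := norm_integral_le_integral_norm _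
    _ ≤ ∫ ω, (‖A ω‖ ^ 2 + ‖B ω‖ ^ 2) / 2 ∂P := by
        refine integral_mono hAB.norm ((hA2.add hB2).div_const 2) fun ω => ?_
        simp only [norm_mul, RCLike.norm_conj]
        nlinarith [sq_nonneg (‖A ω‖ - ‖B ω‖)]
    _ = ((∫ ω, ‖A ω‖ ^ 2 ∂P) + ∫ ω, ‖B ω‖ ^ 2 ∂P) / 2 := by
        rw [integral_div, integral_add hA2 hB2]

theorem sys_mem_V {n : P2} (hn : n ∈ Dir6) {m : ℤ} {α : ℝ} {F : Ht → ℂ} (hF : F ∈ VV n m α)
    {k : ℤ} (hk : 0 ≤ k) : (fun ω => F (trans (k • stp n) ω)) ∈ VV n (m + 2 * k) α := by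
  obtain ⟨S, hS, hF⟩ := hF
  refine ⟨S.image (· + k • stp n), fun v hv => ?_, hF.act_fin (adjMap_add _)⟩
  rw [Finset.mem_image] at hv
  obtain ⟨w, hw, rfl⟩ := hv
  have := hS w hw
  rw [dot_add, dot_smul, dot_stp hn]
  linarith

theorem VV_mono {n : P2} {m m' : ℤ} (h : m' ≤ m) {α : ℝ} {F : Ht → ℂ} (hF : F ∈ VV n m α) :
    F ∈ VV n m' α := by
  obtain ⟨S, hS, hF⟩ := hF
  exact ⟨S, fun v hv => h.trans (hS v hv), hF⟩

theorem act_rfl6_rfl6 {n : P2} (hn : n ∈ Dir6) (m : ℤ) (ω : Ht) :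
    act (rfl6 n m) (act (rfl6 n m) ω) = ω := by
  funext v
  exact congrArg ω (rfl6_rfl6 hn m v)

/-- **The reflection positive system of the plane state** (direction `n`, line `{dot n v = m}`,
charge `α`). -/
def sys6 (hP : PlaneState P) {n : P2} (hn : n ∈ Dir6) (m : ℤ) (α : ℝ) : RPSys Ht where
  E F := ∫ ω, F ω ∂P
  N := NN
  V := VV n m α
  θ := act (rfl6 n m)
  τ := trans (stp n)
  θθ := act_rfl6_rfl6 hn m
  τθτ ω := by
    funext v
    exact congrArg ω (rfl6_add_stp hn m v)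
  mem_N := by
    rintro F ⟨S, _, hF⟩ G ⟨T, _, hG⟩
    exact ⟨_, pair_fn (hF.act_fin (rfl6_adj hn m)) hG⟩
  mem_V F hF := by
    have := sys_mem_V hn hF (k := 1) (by norm_num)
    rw [one_smul] at this
    exact VV_mono (by linarith) this
  E_add := by
    rintro F ⟨S, hF⟩ G ⟨T, hG⟩
    exact integral_add (hF.integrable hP) (hG.integrable hP)
  E_smul r F _ := by
    simp only [Pi.smul_apply, smul_eq_mul]
    exact integral_const_mul r F
  E_conj F _ G _ := integral_conj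
  E_θ := by
    rintro F ⟨S, _, hF⟩ G ⟨T, _, hG⟩
    have h1 := (inv_rfl6 hP hn m).inv _ _ (pair_fn hF (hG.act_fin (rfl6_adj hn m)))
    rw [← h1]
    refine integral_congr_ae (Eventually.of_forall fun ω => ?_)
    simp only [act_rfl6_rfl6 hn]
  E_τ := by
    rintro F ⟨S, hF⟩
    exact (inv_tr hP (stp n)).inv _ _ hF
  rp0 := by
    rintro F ⟨S, hS, hF⟩
    exact rp6 hP hn m S α F hS hF
  rp1 F hF := by
    have h0 := sys_mem_V hn hF (k := 1) (by norm_num)
    rw [one_smul] at h0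
    obtain ⟨S, hS, hF1⟩ := h0
    have h1 := rp6 hP hn (m + 1) S α _ (fun v hv => by have := hS v hv; linarith) hF1
    refine h1.trans (le_of_eq ?_)
    congr 1
    refine integral_congr_ae (Eventually.of_forall fun ω => ?_)
    simp only
    have e : trans (stp n) (act (rfl6 n (m + 1)) ω) = act (rfl6 n m) ω := by
      funext v
      exact congrArg ω (rfl6_succ_add_stp hn m v)
    rw [e]
  bdd := by
    rintro F ⟨S, _, hF⟩
    refine ⟨∫ ω, ‖F ω‖ ^ 2 ∂P, fun k => ?_⟩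
    simp only [trans_iterate]
    have hB := hF.act_fin (adjMap_add (k • stp n))
    have hA := hB.act_fin (rfl6_adj hn m)
    have h1 := norm_integral_le hP hA hB
    have h2 : ∫ ω, ‖F (act (· + k • stp n) ω)‖ ^ 2 ∂P = ∫ ω, ‖F ω‖ ^ 2 ∂P :=
      integral_inv_real (inv_tr hP (k • stp n)) hF
    have h3 : ∫ ω, ‖F (act (· + k • stp n) (act (rfl6 n m) ω))‖ ^ 2 ∂P = ∫ ω, ‖F ω‖ ^ 2 ∂P :=
      (integral_inv_real (inv_rfl6 hP hn m) hB).trans h2
    rw [h2, h3] at h1
    exact (Complex.re_le_norm _).trans (h1.trans (le_of_eq (by ring)))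

theorem B_le (hP : PlaneState P) {g : P2 → P2} (hg : Inv P g) {S : Finset P2} {α : ℝ} {F : Ht → ℂ}
    (hF : Fn (S : Set P2) α F) :
    (∫ ω, conj (F (act g ω)) * F ω ∂P).re ≤ ∫ ω, ‖F ω‖ ^ 2 ∂P := by
  have h1 := norm_integral_le hP (hF.act_fin hg.adj) hF
  rw [integral_inv_real hg hF] at h1
  exact (Complex.re_le_norm _).trans (h1.trans (le_of_eq (by ring)))

/-- a functional of the left half plane, reflected -/
theorem left_mem {n : P2} (hn : n ∈ Dir6) {m : ℤ} {S : Finset P2} {A : Ht → ℂ} {α : ℝ}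
    (hA : Fn (S : Set P2) (-α) A) (hS : ∀ v ∈ S, dot n v ≤ m) :
    (fun ω => conj (A (act (rfl6 n m) ω))) ∈ VV n m α := by
  refine ⟨S.image (rfl6 n m), fun v hv => ?_, ?_⟩
  · rw [Finset.mem_image] at hv
    obtain ⟨w, hw, rfl⟩ := hv
    have := hS w hw
    rw [dot_rfl6 hn]
    linarith
  · have := (hA.act_fin (rfl6_adj hn m)).cj
    rwa [neg_neg] at this

theorem B_left_le (hP : PlaneState P) {n : P2} (hn : n ∈ Dir6) (m : ℤ) {S : Finset P2}
    {A : Ht → ℂ} {α : ℝ} (hA : Fn (S : Set P2) (-α) A) :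
    (∫ ω, conj ((fun ω => conj (A (act (rfl6 n m) ω))) (act (rfl6 n m) ω)) *
      (fun ω => conj (A (act (rfl6 n m) ω))) ω ∂P).re ≤ ∫ ω, ‖A ω‖ ^ 2 ∂P := by
  have h1 := B_le hP (inv_rfl6 hP hn m) (hA.act_fin (rfl6_adj hn m)).cj
  refine h1.trans (le_of_eq ?_)
  simp only [RCLike.norm_conj]
  exact integral_inv_real (inv_rfl6 hP hn m) hA

/-- Output of the plane state used in the peeling. -/
structure RPHyp6 (P : Measure Ht) : Prop where
  /-- polynomial bound in the six directions -/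
  pb : ∀ n ∈ Dir6, ∀ (m : ℤ) (S T : Finset P2) (A B : Ht → ℂ) (α : ℝ),
    Fn (S : Set P2) (-α) A → Fn (T : Set P2) α B → (∀ v ∈ S, dot n v ≤ m) →
    (∀ v ∈ T, m ≤ dot n v) →
    PolyBound (fun k : ℕ => ∫ h, A h * B (trans ((k : ℤ) • stp n) h) ∂P)
      (√(∫ h, ‖A h‖ ^ 2 ∂P) * √(∫ h, ‖B h‖ ^ 2 ∂P))
  /-- Cauchy–Schwarz inequality across the line `{dot n v = m}` -/
  cs : ∀ n ∈ Dir6, ∀ (m : ℤ) (S T : Finset P2) (A B : Ht → ℂ) (α : ℝ),
    Fn (S : Set P2) (-α) A → Fn (T : Set P2) α B → (∀ v ∈ S, dot n v ≤ m) →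
    (∀ v ∈ T, m ≤ dot n v) →
    ‖∫ h, A h * B h ∂P‖ ≤
      √(∫ h, ‖A h‖ ^ 2 ∂P) * √(∫ h, conj (B (act (rfl6 n m) h)) * B h ∂P).re

/-- **`RPHyp6` for the plane state.** -/
theorem rpHyp6 (hP : PlaneState P) : RPHyp6 P where
  pb := by
    intro n hn m S T A B α hA hB hS hT
    have hAm := left_mem hn hA hS
    have hBm : B ∈ VV n m α := ⟨T, hT, hB⟩
    have key := (sys6 hP hn m α).polyBound hAm hBm
    have e1 : (fun k : ℕ => (sys6 hP hn m α).E (fun ω =>
        conj ((fun ω => conj (A (act (rfl6 n m) ω))) ((sys6 hP hn m α).θ ω)) *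
          B ((sys6 hP hn m α).τ^[k] ω))) =
        fun k : ℕ => ∫ ω, A ω * B (trans ((k : ℤ) • stp n) ω) ∂P := by
      funext k
      change ∫ ω, conj (conj (A (act (rfl6 n m) (act (rfl6 n m) ω)))) *
        B ((trans (stp n))^[k] ω) ∂P = _
      refine integral_congr_ae (Eventually.of_forall fun ω => ?_)
      simp only [act_rfl6_rfl6 hn, Complex.conj_conj, trans_iterate, natCast_zsmul]
    rw [e1] at key
    refine key.mono ?_
    exact mul_le_mul (Real.sqrt_le_sqrt (B_left_le hP hn m hA))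
      (Real.sqrt_le_sqrt (B_le hP (inv_rfl6 hP hn m) hB)) (Real.sqrt_nonneg _) (Real.sqrt_nonneg _)
  cs := by
    intro n hn m S T A B α hA hB hS hT
    have hAm := left_mem hn hA hS
    have hBm : B ∈ VV n m α := ⟨T, hT, hB⟩
    have key := (sys6 hP hn m α).cauchy_schwarz hAm hBm
    change ‖∫ ω, conj ((fun ω => conj (A (act (rfl6 n m) ω))) (act (rfl6 n m) ω)) * B ω ∂P‖ ≤
      √(∫ ω, conj ((fun ω => conj (A (act (rfl6 n m) ω))) (act (rfl6 n m) ω)) *
        (fun ω => conj (A (act (rfl6 n m) ω))) ω ∂P).re *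
      √(∫ ω, conj (B (act (rfl6 n m) ω)) * B ω ∂P).re at key
    have e1 : ∫ ω, conj ((fun ω => conj (A (act (rfl6 n m) ω))) (act (rfl6 n m) ω)) * B ω ∂P =
        ∫ ω, A ω * B ω ∂P := by
      refine integral_congr_ae (Eventually.of_forall fun ω => ?_)
      simp only [act_rfl6_rfl6 hn, Complex.conj_conj]
    rw [e1] at key
    refine key.trans ?_
    exact mul_le_mul_of_nonneg_right (Real.sqrt_le_sqrt (B_left_le hP hn m hA))
      (Real.sqrt_nonneg _)

end Crest.Agent.R144.Ga2617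
end
end

-- ▼ part R144/Ga3_572
section

/-!
# R144, GA3 (helper572): peeling for a plane state on the triangular lattice

`PProb6 P` : four groups of charged functionals (bounded by `1` on Lipschitz heights) around an
observable `O n` (bounded in `L²(P)`) which is asymptotically small in the half plane sense (reflection
in the line `x = ℓ n`).  `PProb6.tendsto`: the correlation of the product with `O n` tends to `0`.
`PIn.uniform`: the same uniformly over all admissible groups.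
-/

set_option autoImplicit false

noncomputable section

open Filter Topology MeasureTheory
open scoped ComplexConjugate

namespace Crest.Agent.R144.Ga3572

open Crest.ProbabilityR.HexHeights (Adj)
open Crest.Agent.R161.Ray369
open Crest.Agent.R144.Ps643 (P2 Ht Loc FinLoc Neut Chg act tr Obs PlaneState lin)
open Crest.Agent.R144.Ga2617 (trans Lp Fn rfl6 RPHyp6 rpHyp6 stp trans_trans)
open Crest.Agent.R144.Ga1867 (Fun6 pos4 PeelData6)

/-! ### functionals -/

theorem fn_prod {ι : Type*} (s : Finset ι) {S : Set P2} {α : ι → ℝ} {F : ι → Ht → ℂ}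
    (h : ∀ i ∈ s, Fn S (α i) (F i)) : Fn S (∑ i ∈ s, α i) (fun ω => ∏ i ∈ s, F i ω) :=
  (Fn.prod (S := fun _ => S) s h).mono (by
    intro v hv
    simp only [Set.mem_iUnion] at hv
    obtain ⟨_, _, h⟩ := hv
    exact h)

theorem fn_trans {S : Finset P2} {α : ℝ} {F : Ht → ℂ} (hF : Fn (S : Set P2) α F) (a : P2) :
    Fn ((S.image (· + a) : Finset P2) : Set P2) α (fun h => F (trans a h)) :=
  (hF.trans a).mono (by rw [Finset.coe_image])

/-! ### geometry -/

/-- support function of the box `[p₁,p₂] × [q₁,q₂]` -/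
def boxH (p₁ p₂ q₁ q₂ : ℝ) (e : ℤ × ℤ) : ℝ :=
  max ((e.1 : ℝ) * p₁) (e.1 * p₂) + max ((e.2 : ℝ) * q₁) (e.2 * q₂)

theorem le_boxH {p₁ p₂ q₁ q₂ x y : ℝ} (e : ℤ × ℤ) (h1 : p₁ ≤ x) (h2 : x ≤ p₂) (h3 : q₁ ≤ y)
    (h4 : y ≤ q₂) : (e.1 : ℝ) * x + e.2 * y ≤ boxH p₁ p₂ q₁ q₂ e := by
  have aux : ∀ (c a b t : ℝ), a ≤ t → t ≤ b → c * t ≤ max (c * a) (c * b) := by
    intro c a b t h1 h2
    rcases le_total 0 c with hc | hc
    · exact (mul_le_mul_of_nonneg_left h2 hc).trans (le_max_right _ _)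
    · exact (mul_le_mul_of_nonpos_left h1 hc).trans (le_max_left _ _)
  exact add_le_add (aux _ _ _ _ h1 h2) (aux _ _ _ _ h3 h4)

theorem boxH_le {p₁ p₂ q₁ q₂ L : ℝ} (e : ℤ × ℤ) (h1 : |p₁| ≤ L) (h2 : |p₂| ≤ L) (h3 : |q₁| ≤ L)
    (h4 : |q₂| ≤ L) : boxH p₁ p₂ q₁ q₂ e ≤ L * (|(e.1 : ℝ)| + |(e.2 : ℝ)|) := by
  have aux : ∀ (c t : ℝ), |t| ≤ L → c * t ≤ L * |c| := by
    intro c t h
    calc c * t ≤ |c * t| := le_abs_self _
      _ = |c| * |t| := abs_mul _ _
      _ ≤ |c| * L := by gcongr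
      _ = L * |c| := mul_comm _ _
  unfold boxH
  rw [mul_add]
  exact add_le_add (max_le (aux _ _ h1) (aux _ _ h2)) (max_le (aux _ _ h3) (aux _ _ h4))

/-- Geometry of a peeling problem: the column `x ≤ x₁`, the rows `y₀ ≤ y ≤ y₁`, margin `γ`, all
contained in `[-L, L]²` (index coordinates); `x₀` is the left side of the block containing the
observable. -/
structure PGeo where
  x₀ : ℝ
  x₁ : ℝ
  y₀ : ℝ
  y₁ : ℝ
  γ : ℝ
  L : ℝ
  γpos : 0 < γ
  hx : x₀ + γ ≤ x₁ - γ
  hy : y₀ + γ ≤ y₁ - γ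
  hx₀ : -L ≤ x₀ - γ
  hx₁ : x₁ + γ ≤ L
  hy₀ : -L ≤ y₀ - γ
  hy₁ : y₁ + γ ≤ L

namespace PGeo

variable (G : PGeo)

/-- regions of the groups: `0` right, `1` up, `2` down, `3` left; -/
def reg (i : Fin 4) (x y : ℝ) : Prop :=
  match i with
  | 0 => G.x₁ + G.γ ≤ x ∧ x ≤ G.L ∧ -G.L ≤ y ∧ y ≤ G.L
  | 1 => -G.L ≤ x ∧ x ≤ G.x₁ - G.γ ∧ G.y₁ + G.γ ≤ y ∧ y ≤ G.L
  | 2 => -G.L ≤ x ∧ x ≤ G.x₁ - G.γ ∧ -G.L ≤ y ∧ y ≤ G.y₀ - G.γ
  | 3 => -G.L ≤ x ∧ x ≤ G.x₀ - G.γ ∧ G.y₀ + G.γ ≤ y ∧ y ≤ G.y₁ - G.γ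

/-- region of the observable -/
def regO (x y : ℝ) : Prop :=
  G.x₀ + G.γ ≤ x ∧ x ≤ G.x₁ - G.γ ∧ G.y₀ + G.γ ≤ y ∧ y ≤ G.y₁ - G.γ

/-- support functions of the groups (`3`: static group and observable) -/
def hiR (i : Fin 4) (e : ℤ × ℤ) : ℝ :=
  match i with
  | 0 => boxH (G.x₁ + G.γ) G.L (-G.L) G.L e
  | 1 => boxH (-G.L) (G.x₁ - G.γ) (G.y₁ + G.γ) G.L e
  | 2 => boxH (-G.L) (G.x₁ - G.γ) (-G.L) (G.y₀ - G.γ) e
  | 3 => boxH (-G.L) (G.x₁ - G.γ) (G.y₀ + G.γ) (G.y₁ - G.γ) e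

theorem Lpos : 0 < G.L := by
  have := G.γpos; have := G.hx; have := G.hx₀; have := G.hx₁
  linarith

theorem le_hiR (i : Fin 4) (e : ℤ × ℤ) {x y : ℝ} (h : G.reg i x y) :
    (e.1 : ℝ) * x + e.2 * y ≤ G.hiR i e := by
  have := G.γpos; have := G.hx; have := G.hx₀; have := G.hx₁
  fin_cases i
  · obtain ⟨h1, h2, h3, h4⟩ := h
    exact le_boxH e h1 h2 h3 h4
  · obtain ⟨h1, h2, h3, h4⟩ := h
    exact le_boxH e h1 h2 h3 h4
  · obtain ⟨h1, h2, h3, h4⟩ := h
    exact le_boxH e h1 h2 h3 h4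
  · obtain ⟨h1, h2, h3, h4⟩ := h
    exact le_boxH e h1 (by linarith) h3 h4

theorem le_hiO (e : ℤ × ℤ) {x y : ℝ} (h : G.regO x y) :
    (e.1 : ℝ) * x + e.2 * y ≤ G.hiR 3 e := by
  have := G.γpos; have := G.hx; have := G.hx₀; have := G.hx₁
  obtain ⟨h1, h2, h3, h4⟩ := h
  exact le_boxH e (by linarith) h2 h3 h4

theorem hiR_le (i : Fin 4) (e : ℤ × ℤ) : G.hiR i e ≤ G.L * (|(e.1 : ℝ)| + |(e.2 : ℝ)|) := by
  have := G.γpos; have := G.hx; have := G.hx₀; have := G.hx₁
  have := G.hy; have := G.hy₀; have := G.hy₁; have := G.Lpos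
  fin_cases i
  · exact boxH_le e (abs_le.2 ⟨by linarith, by linarith⟩) (abs_le.2 ⟨by linarith, by linarith⟩)
      (abs_le.2 ⟨by linarith, by linarith⟩) (abs_le.2 ⟨by linarith, by linarith⟩)
  · exact boxH_le e (abs_le.2 ⟨by linarith, by linarith⟩) (abs_le.2 ⟨by linarith, by linarith⟩)
      (abs_le.2 ⟨by linarith, by linarith⟩) (abs_le.2 ⟨by linarith, by linarith⟩)
  · exact boxH_le e (abs_le.2 ⟨by linarith, by linarith⟩) (abs_le.2 ⟨by linarith, by linarith⟩)
      (abs_le.2 ⟨by linarith, by linarith⟩) (abs_le.2 ⟨by linarith, by linarith⟩)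
  · exact boxH_le e (abs_le.2 ⟨by linarith, by linarith⟩) (abs_le.2 ⟨by linarith, by linarith⟩)
      (abs_le.2 ⟨by linarith, by linarith⟩) (abs_le.2 ⟨by linarith, by linarith⟩)

end PGeo

/-- state, mesh, observable: everything except the groups -/
structure PIn (P : Measure Ht) where
  G : PGeo
  prob : IsProbabilityMeasure P
  lip : ∀ᵐ h ∂P, Lp h
  rp : RPHyp6 P
  δ : ℕ → ℝ
  δpos : ∀ n, 0 < δ n
  δlim : Tendsto δ atTop (𝓝 0)
  /-- the observable -/
  O : ℕ → Ht → ℂ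
  M : ℝ
  M0 : 0 ≤ M
  hO : ∀ n, ∫ h, ‖O n h‖ ^ 2 ∂P ≤ M ^ 2
  T : ℕ → Finset P2
  β : ℕ → ℝ
  fnO : ∀ n, Fn (T n : Set P2) (β n) (O n)
  suppO : ∀ n, ∀ v ∈ T n, G.regO (δ n * v.1) (δ n * v.2)
  /-- reflection lines -/
  ℓ : ℕ → ℤ
  hℓ : Tendsto (fun n => δ n * (ℓ n : ℝ)) atTop (𝓝 G.x₀)
  hℓL : ∀ n, G.x₀ ≤ δ n * (ℓ n : ℝ)
  small : Tendsto (fun n => (∫ h, conj (O n (act (rfl6 (1, 0) (ℓ n)) h)) * O n h ∂P).re)
    atTop (𝓝 0)

/-- Data of a peeling problem for the state `P`. -/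
structure PProb6 (P : Measure Ht) extends PIn P where
  /-- the four groups -/
  A : ℕ → Fin 4 → Ht → ℂ
  hA : ∀ n i h, Lp h → ‖A n i h‖ ≤ 1
  S : ℕ → Fin 4 → Finset P2
  α : ℕ → Fin 4 → ℝ
  fnA : ∀ n i, Fn (S n i : Set P2) (α n i) (A n i)
  suppA : ∀ n i, ∀ v ∈ S n i, G.reg i (δ n * v.1) (δ n * v.2)
  neutral : ∀ n, ∑ i, α n i + β n = 0

namespace PProb6

variable {P : Measure Ht} (D : PProb6 P)

/-- functional of all groups except `X` -/
def oth (n : ℕ) (X : Fin 3) (z : Fin 3 → P2) (h : Ht) : ℂ :=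
  (∏ i ∈ Finset.univ.erase X, D.A n i.castSucc (trans (z i) h)) * (D.A n 3 h * D.O n h)

/-- the correlation with displaced groups -/
def c (n : ℕ) (z : Fin 3 → P2) : ℂ :=
  ∫ h, (∏ i : Fin 3, D.A n i.castSucc (trans (z i) h)) * (D.A n 3 h * D.O n h) ∂P

theorem norm_prod_le {ι : Type*} (s : Finset ι) (f : ι → ℂ) (h : ∀ i ∈ s, ‖f i‖ ≤ 1) :
    ‖∏ i ∈ s, f i‖ ≤ 1 := by
  rw [norm_prod]
  exact Finset.prod_le_one (fun i _ => norm_nonneg _) h

theorem norm_oth_le (n : ℕ) (X : Fin 3) (z : Fin 3 → P2) {h : Ht} (hh : Lp h) :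
    ‖D.oth n X z h‖ ≤ ‖D.O n h‖ := by
  unfold oth
  rw [norm_mul, norm_mul]
  calc _ ≤ 1 * (1 * ‖D.O n h‖) := by
        gcongr
        · exact norm_prod_le _ _ fun i _ => D.hA n _ _ (hh.trans _)
        · exact D.hA n _ _ hh
    _ = ‖D.O n h‖ := by ring

/-- `L²`-integrability of functionals of finitely many heights -/
theorem integrable_sq (D : PIn P) {S : Set P2} {α : ℝ} {F : Ht → ℂ} (hF : Fn S α F) :
    Integrable (fun h => ‖F h‖ ^ 2) P := by
  have := D.prob
  obtain ⟨M, hM⟩ := hF.bdd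
  refine Integrable.of_bound ((hF.meas.norm.pow_const 2).aestronglyMeasurable) (M ^ 2) ?_
  filter_upwards [D.lip] with h hh
  have h1 := hM h hh
  rw [Real.norm_eq_abs, abs_of_nonneg (by positivity)]
  gcongr

theorem sqrt_int_le_one (D : PIn P) {S : Set P2} {α : ℝ} {F : Ht → ℂ} (hF : Fn S α F)
    (h1 : ∀ h, Lp h → ‖F h‖ ≤ 1) : √(∫ h, ‖F h‖ ^ 2 ∂P) ≤ 1 := by
  have := D.prob
  rw [Real.sqrt_le_left zero_le_one]
  have h := integral_mono_ae (integrable_sq D hF) (integrable_const (1 : ℝ)) (by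
    filter_upwards [D.lip] with h hh
    have := h1 h hh
    exact pow_le_one₀ (norm_nonneg _) this)
  simpa using h

theorem sqrt_int_le_M (D : PIn P) (n : ℕ) {S : Set P2} {α : ℝ} {F : Ht → ℂ} (hF : Fn S α F)
    (h1 : ∀ h, Lp h → ‖F h‖ ≤ ‖D.O n h‖) : √(∫ h, ‖F h‖ ^ 2 ∂P) ≤ D.M := by
  have := D.prob
  rw [Real.sqrt_le_left D.M0]
  refine (integral_mono_ae (integrable_sq D hF) (integrable_sq D (D.fnO n)) ?_).trans (D.hO n)
  filter_upwards [D.lip] with h hh
  have := h1 h hh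
  gcongr

/-- support functions at stage `n` -/
def hi (n : ℕ) (i : Fin 4) (e : ℤ × ℤ) : ℤ := ⌊D.G.hiR i e / D.δ n⌋

theorem hi_mul_le (n : ℕ) (i : Fin 4) (e : ℤ × ℤ) : (D.hi n i e : ℝ) * D.δ n ≤ D.G.hiR i e := by
  have := Int.floor_le (D.G.hiR i e / D.δ n)
  rwa [le_div_iff₀ (D.δpos n)] at this

theorem dot_le_of (n : ℕ) (i : Fin 4) (e : ℤ × ℤ) (v : P2)
    (h : (e.1 : ℝ) * (D.δ n * v.1) + e.2 * (D.δ n * v.2) ≤ D.G.hiR i e) :
    Ga1867.dot e v ≤ D.hi n i e := by
  unfold hi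
  rw [Int.le_floor, le_div_iff₀ (D.δpos n)]
  unfold Ga1867.dot
  push_cast
  linarith

theorem dot_le (n : ℕ) (i : Fin 4) (e : ℤ × ℤ) (v : P2) (hv : v ∈ D.S n i) :
    Ga1867.dot e v ≤ D.hi n i e := D.dot_le_of n i e v (D.G.le_hiR i e (D.suppA n i v hv))

theorem dot_le_O (n : ℕ) (e : ℤ × ℤ) (v : P2) (hv : v ∈ D.T n) :
    Ga1867.dot e v ≤ D.hi n 3 e := D.dot_le_of n 3 e v (D.G.le_hiO e (D.suppO n v hv))

theorem dot_neg_le (n : ℕ) (i : Fin 4) (e : ℤ × ℤ) (v : P2) (hv : v ∈ D.S n i) :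
    -D.hi n i (-e) ≤ Ga1867.dot e v := by
  have := D.dot_le n i (-e) v hv
  have h2 : Ga1867.dot (-e) v = -Ga1867.dot e v := by
    simp [Ga1867.dot]
    ring
  rw [h2] at this
  linarith

theorem dot_add (e a b : ℤ × ℤ) : Ga1867.dot e (a + b) = Ga1867.dot e a + Ga1867.dot e b := by
  simp [Ga1867.dot]
  ring

/-- support of the functional `oth` -/
def Soth (n : ℕ) (X : Fin 3) (z : Fin 3 → P2) : Finset P2 :=
  ((Finset.univ.erase X).biUnion fun i => (D.S n i.castSucc).image (· + z i)) ∪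
    (D.S n 3 ∪ D.T n)

theorem fn_oth (n : ℕ) (X : Fin 3) (z : Fin 3 → P2) :
    Fn (D.Soth n X z : Set P2) (-(D.α n X.castSucc)) (D.oth n X z) := by
  have h1 : Fn (D.Soth n X z : Set P2) (∑ i ∈ Finset.univ.erase X, D.α n i.castSucc)
      (fun h => ∏ i ∈ Finset.univ.erase X, D.A n i.castSucc (trans (z i) h)) := by
    refine fn_prod _ fun i hi => Fn.mono (fn_trans (D.fnA n i.castSucc) (z i)) ?_
    intro v hv
    simp only [Soth, Finset.coe_union, Set.mem_union, Finset.mem_coe]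
    left
    rw [Finset.mem_biUnion]
    exact ⟨i, hi, by simpa using hv⟩
  have h3 : Fn (D.Soth n X z : Set P2) (D.α n 3) (D.A n 3) := by
    refine Fn.mono (D.fnA n 3) ?_
    intro v hv
    simp only [Soth, Finset.coe_union, Set.mem_union]
    exact Or.inr (Or.inl hv)
  have h4 : Fn (D.Soth n X z : Set P2) (D.β n) (D.O n) := by
    refine Fn.mono (D.fnO n) ?_
    intro v hv
    simp only [Soth, Finset.coe_union, Set.mem_union]
    exact Or.inr (Or.inr hv)
  have h2 := h1.mul' (h3.mul' h4)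
  have h3 : ∑ i ∈ Finset.univ.erase X, D.α n i.castSucc + (D.α n 3 + D.β n) =
      -(D.α n X.castSucc) := by
    have h4 := D.neutral n
    rw [Fin.sum_univ_castSucc] at h4
    have h5 : (Fin.last 3) = 3 := rfl
    rw [h5] at h4
    have h6 := Finset.add_sum_erase Finset.univ (fun i : Fin 3 => D.α n i.castSucc)
      (Finset.mem_univ X)
    linarith
  rw [h3] at h2
  exact h2

theorem fn_all (n : ℕ) (z : Fin 3 → P2) :
    Fn ((Finset.univ.biUnion (fun i : Fin 3 => (D.S n i.castSucc).image (· + z i)) ∪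
      D.S n 3 : Finset P2) : Set P2) (-(D.β n))
      (fun h => (∏ i : Fin 3, D.A n i.castSucc (trans (z i) h)) * D.A n 3 h) := by
  set U : Finset P2 := Finset.univ.biUnion (fun i : Fin 3 => (D.S n i.castSucc).image (· + z i)) ∪
      D.S n 3 with hU
  have h1 : Fn (U : Set P2) (∑ i : Fin 3, D.α n i.castSucc)
      (fun h => ∏ i : Fin 3, D.A n i.castSucc (trans (z i) h)) := by
    refine fn_prod _ fun i hi => Fn.mono (fn_trans (D.fnA n i.castSucc) (z i)) ?_
    intro v hv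
    simp only [hU, Finset.coe_union, Set.mem_union, Finset.mem_coe]
    left
    rw [Finset.mem_biUnion]
    exact ⟨i, Finset.mem_univ i, by simpa using hv⟩
  have h3 : Fn (U : Set P2) (D.α n 3) (D.A n 3) := by
    refine Fn.mono (D.fnA n 3) ?_
    intro v hv
    simp only [hU, Finset.coe_union, Set.mem_union]
    exact Or.inr hv
  have h2 := h1.mul' h3
  have h4 : ∑ i : Fin 3, D.α n i.castSucc + D.α n 3 = -(D.β n) := by
    have h4 := D.neutral n
    rw [Fin.sum_univ_castSucc] at h4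
    have h5 : (Fin.last 3) = 3 := rfl
    rw [h5] at h4
    linarith
  rw [h4] at h2
  exact h2

theorem norm_c_le (n : ℕ) (z : Fin 3 → P2) : ‖D.c n z‖ ≤ D.M := by
  have := D.prob
  have hM := D.M0
  have h1 : ‖D.c n z‖ ≤ ∫ h, ‖D.O n h‖ ∂P := by
    unfold c
    refine norm_integral_le_of_norm_le ?_ ?_
    · obtain ⟨M, hM⟩ := (D.fnO n).bdd
      refine Integrable.of_bound ((D.fnO n).meas.norm.aestronglyMeasurable) M ?_
      filter_upwards [D.lip] with h hh
      rw [norm_norm]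
      exact hM h hh
    · filter_upwards [D.lip] with h hh
      rw [norm_mul, norm_mul]
      calc _ ≤ 1 * (1 * ‖D.O n h‖) := by
            gcongr
            · exact norm_prod_le _ _ fun i _ => D.hA n _ _ (hh.trans _)
            · exact D.hA n _ _ hh
        _ = ‖D.O n h‖ := by ring
  refine h1.trans ?_
  -- `∫ ‖O‖ ≤ √∫ ‖O‖²`
  have h2 : (∫ h, ‖D.O n h‖ ∂P) ^ 2 ≤ D.M ^ 2 := by
    refine le_trans ?_ (D.hO n)
    have hint := integrable_sq D.toPIn (D.fnO n)
    have hint1 : Integrable (fun h => ‖D.O n h‖) P := by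
      obtain ⟨M, hM⟩ := (D.fnO n).bdd
      refine Integrable.of_bound ((D.fnO n).meas.norm.aestronglyMeasurable) M ?_
      filter_upwards [D.lip] with h hh
      rw [norm_norm]
      exact hM h hh
    set m := ∫ h, ‖D.O n h‖ ∂P with hm
    have h3 : 0 ≤ ∫ h, (‖D.O n h‖ - m) ^ 2 ∂P := integral_nonneg fun h => sq_nonneg _
    have h4 : ∫ h, (‖D.O n h‖ - m) ^ 2 ∂P = ∫ h, ‖D.O n h‖ ^ 2 ∂P - m ^ 2 := by
      have e : ∀ h, (‖D.O n h‖ - m) ^ 2 = (‖D.O n h‖ ^ 2 - 2 * m * ‖D.O n h‖) + m ^ 2 := by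
        intro h; ring
      have i1 : Integrable (fun h => ‖D.O n h‖ ^ 2 - 2 * m * ‖D.O n h‖) P :=
        hint.sub (hint1.const_mul _)
      have i2 : ∫ h, (‖D.O n h‖ ^ 2 - 2 * m * ‖D.O n h‖) ∂P =
          ∫ h, ‖D.O n h‖ ^ 2 ∂P - 2 * m * m := by
        rw [integral_sub hint (hint1.const_mul _), integral_const_mul]
      simp only [e]
      rw [integral_add i1 (integrable_const _), i2]
      simp only [integral_const, probReal_univ, one_smul]
      ring
    linarith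
  exact (abs_le_of_sq_le_sq' h2 hM).2

theorem c_update (n : ℕ) (X : Fin 3) (z : Fin 3 → P2) (w : P2) :
    D.c n (Function.update z X w) =
      ∫ h, D.oth n X z h * D.A n X.castSucc (trans w h) ∂P := by
  unfold c oth
  refine integral_congr_ae (Eventually.of_forall fun ω => ?_)
  simp only
  rw [← Finset.mul_prod_erase Finset.univ
    (fun i : Fin 3 => D.A n i.castSucc (trans (Function.update z X w i) ω)) (Finset.mem_univ X)]
  rw [Function.update_self]
  have : ∏ i ∈ Finset.univ.erase X, D.A n i.castSucc (trans (Function.update z X w i) ω) =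
      ∏ i ∈ Finset.univ.erase X, D.A n i.castSucc (trans (z i) ω) := by
    refine Finset.prod_congr rfl fun i hi => ?_
    rw [Function.update_of_ne (Finset.ne_of_mem_erase hi)]
  rw [this]
  ring

/-- the two descriptions of the six directions -/
theorem dir6 {ν τ : ℤ × ℤ} (h : Ga1867.Dir6 ν τ) : ν ∈ Ga2617.Dir6 ∧ τ = stp ν := by
  rcases h with ⟨rfl, rfl⟩ | ⟨rfl, rfl⟩ | ⟨rfl, rfl⟩ | ⟨rfl, rfl⟩ | ⟨rfl, rfl⟩ | ⟨rfl, rfl⟩ <;>
    exact ⟨by simp [Ga2617.Dir6], by simp [Ga2617.stp]⟩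

theorem pb (n : ℕ) (ν τ : ℤ × ℤ) (he : Ga1867.Dir6 ν τ) (X : Fin 3) (z : Fin 3 → ℤ × ℤ)
    (hz : ∀ Y : Fin 4, Y ≠ X.castSucc →
      D.hi n Y ν + Ga1867.dot ν (pos4 z Y) + 0 ≤ -D.hi n X.castSucc (-ν) + Ga1867.dot ν (z X)) :
    PolyBound (fun k : ℕ => D.c n (Function.update z X (z X + (k : ℤ) • τ))) D.M := by
  have := D.prob
  obtain ⟨hν, rfl⟩ := dir6 he
  set b : ℤ := -D.hi n X.castSucc (-ν) + Ga1867.dot ν (z X) with hb
  have h := D.rp.pb ν hν b (D.Soth n X z) ((D.S n X.castSucc).image (· + z X))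
    (D.oth n X z) (fun ω => D.A n X.castSucc (trans (z X) ω)) (D.α n X.castSucc)
    (D.fn_oth n X z) (fn_trans (D.fnA n _) _) ?_ ?_
  · have heq : (fun k : ℕ => D.c n (Function.update z X (z X + (k : ℤ) • stp ν))) =
        fun k : ℕ => ∫ ω, D.oth n X z ω *
          D.A n X.castSucc (trans (z X) (trans ((k : ℤ) • stp ν) ω)) ∂P := by
      funext k
      rw [D.c_update]
      refine integral_congr_ae (Eventually.of_forall fun ω => ?_)
      simp only
      rw [trans_trans]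
    rw [heq]
    refine h.mono ?_
    calc _ ≤ D.M * 1 := by
          gcongr
          · exact D.M0
          · exact sqrt_int_le_M D.toPIn n (D.fn_oth n X z) fun h hh => D.norm_oth_le n X z hh
          · exact sqrt_int_le_one D.toPIn (fn_trans (D.fnA n _) _) fun h hh =>
              D.hA n _ _ (hh.trans _)
      _ = D.M := mul_one _
  · intro v hv
    change Ga1867.dot ν v ≤ b
    simp only [Soth, Finset.mem_union, Finset.mem_biUnion, Finset.mem_image] at hv
    rcases hv with ⟨i, hi, w, hw, rfl⟩ | hv | hv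
    · have h1 := hz i.castSucc (fun h => Finset.ne_of_mem_erase hi (Fin.castSucc_injective _ h))
      have h2 : pos4 z i.castSucc = z i := by
        unfold pos4
        rw [dif_pos (by simp)]
        rfl
      rw [h2] at h1
      rw [dot_add]
      have := D.dot_le n _ ν w hw
      linarith
    · have h1 := hz 3 (fun h => absurd (congrArg Fin.val h) (by simp; omega))
      have h2 : pos4 z 3 = 0 := by
        unfold pos4
        rw [dif_neg (by decide)]
      rw [h2] at h1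
      have h3 : Ga1867.dot ν 0 = 0 := by simp [Ga1867.dot]
      rw [h3] at h1
      have := D.dot_le n _ ν v hv
      linarith
    · have h1 := hz 3 (fun h => absurd (congrArg Fin.val h) (by simp; omega))
      have h2 : pos4 z 3 = 0 := by
        unfold pos4
        rw [dif_neg (by decide)]
      rw [h2] at h1
      have h3 : Ga1867.dot ν 0 = 0 := by simp [Ga1867.dot]
      rw [h3] at h1
      have := D.dot_le_O n ν v hv
      linarith
  · intro v hv
    change b ≤ Ga1867.dot ν v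
    simp only [Finset.mem_image] at hv
    obtain ⟨w, hw, rfl⟩ := hv
    rw [dot_add]
    have := D.dot_neg_le n _ ν w hw
    linarith

/-- geometric condition under which Cauchy–Schwarz applies -/
def good (n : ℕ) : Prop := D.δ n * (D.ℓ n : ℝ) ≤ D.G.x₀ + D.G.γ

open Classical in
/-- bound for the correlation when all groups are left of the line -/
def eps (n : ℕ) : ℝ :=
  if D.good n then √(∫ h, conj (D.O n (act (rfl6 (1, 0) (D.ℓ n)) h)) * D.O n h ∂P).re
  else D.M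

theorem eps_lim : Tendsto D.eps atTop (𝓝 0) := by
  have h1 : Tendsto (fun n => √(∫ h, conj (D.O n (act (rfl6 (1, 0) (D.ℓ n)) h)) *
      D.O n h ∂P).re) atTop (𝓝 0) := by
    have := D.small.sqrt
    rwa [Real.sqrt_zero] at this
  refine h1.congr' ?_
  have hγ := D.G.γpos
  filter_upwards [D.hℓ.eventually (ge_mem_nhds (by linarith : D.G.x₀ < D.G.x₀ + D.G.γ))] with n h4
  unfold eps
  rw [if_pos]
  exact h4

theorem base (n : ℕ) (z : Fin 3 → ℤ × ℤ)
    (hz : ∀ X : Fin 3, D.hi n X.castSucc (1, 0) + (z X).1 + 0 ≤ D.ℓ n) :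
    ‖D.c n z‖ ≤ D.eps n := by
  have := D.prob
  unfold eps
  split_ifs with hg
  swap
  · exact D.norm_c_le n z
  have hδ := D.δpos n
  have h := D.rp.cs (1, 0) (by simp [Ga2617.Dir6]) (D.ℓ n) _ (D.T n) _ (D.O n) (D.β n)
    (D.fn_all n z) (D.fnO n) ?_ ?_
  · have e1 : D.c n z = ∫ ω, (∏ i : Fin 3, D.A n i.castSucc (trans (z i) ω)) * D.A n 3 ω *
        D.O n ω ∂P := by
      unfold c
      refine integral_congr_ae (Eventually.of_forall fun ω => ?_)
      simp only
      ring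
    rw [e1]
    refine h.trans ?_
    calc _ ≤ 1 * √(∫ h, conj (D.O n (act (rfl6 (1, 0) (D.ℓ n)) h)) * D.O n h ∂P).re := by
          gcongr
          refine sqrt_int_le_one D.toPIn (D.fn_all n z) fun ω hω => ?_
          rw [norm_mul]
          calc _ ≤ (1 : ℝ) * 1 := by
                gcongr
                · exact norm_prod_le _ _ fun i _ => D.hA n _ _ (hω.trans _)
                · exact D.hA n _ _ hω
            _ = 1 := one_mul _
      _ = _ := one_mul _
  · intro v hv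
    simp only [Finset.mem_union, Finset.mem_biUnion, Finset.mem_image] at hv
    rcases hv with ⟨i, hi, w, hw, rfl⟩ | hv
    · have h1 := hz i
      have h2 := D.dot_le n _ (1, 0) w hw
      simp only [Ga1867.dot, one_mul, zero_mul, add_zero] at h2
      simp only [Ga2617.dot, Prod.fst_add, one_mul, zero_mul, add_zero]
      linarith
    · have h1 := D.suppA n 3 v hv
      have h2 : D.δ n * (v.1 : ℝ) ≤ D.G.x₀ - D.G.γ := h1.2.1
      have h3 := D.hℓL n
      have hγ := D.G.γpos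
      have h4 : ((v.1 : ℤ) : ℝ) ≤ (D.ℓ n : ℝ) := by
        refine le_of_mul_le_mul_left ?_ hδ
        linarith
      simp only [Ga2617.dot, one_mul, zero_mul, add_zero]
      exact_mod_cast h4
  · intro v hv
    have h1 := D.suppO n v hv
    have h2 : D.G.x₀ + D.G.γ ≤ D.δ n * (v.1 : ℝ) := h1.1
    have h3 : D.δ n * (D.ℓ n : ℝ) ≤ D.G.x₀ + D.G.γ := hg
    have h4 : (D.ℓ n : ℝ) ≤ (v.1 : ℝ) := by
      refine le_of_mul_le_mul_left ?_ hδ
      linarith
    simp only [Ga2617.dot, one_mul, zero_mul, add_zero]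
    exact_mod_cast h4

theorem boxH_10 (p₁ p₂ q₁ q₂ : ℝ) (h : p₁ ≤ p₂) : boxH p₁ p₂ q₁ q₂ (1, 0) = p₂ := by
  simp [boxH, h]

theorem boxH_m10 (p₁ p₂ q₁ q₂ : ℝ) (h : p₁ ≤ p₂) : boxH p₁ p₂ q₁ q₂ (-1, 0) = -p₁ := by
  simp [boxH, h]

theorem boxH_01 (p₁ p₂ q₁ q₂ : ℝ) (h : q₁ ≤ q₂) : boxH p₁ p₂ q₁ q₂ (0, 1) = q₂ := by
  simp [boxH, h]

theorem boxH_0m1 (p₁ p₂ q₁ q₂ : ℝ) (h : q₁ ≤ q₂) : boxH p₁ p₂ q₁ q₂ (0, -1) = -q₁ := by
  simp [boxH, h]

/-- the abstract peeling problem -/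
def toPeel : PeelData6 where
  c := D.c
  δ := D.δ
  δpos := D.δpos
  δlim := D.δlim
  C := D.M
  κ := 0
  κ0 := le_refl 0
  hi := D.hi
  loO := D.ℓ
  L := D.G.L
  Lpos := D.G.Lpos
  g := 2 * D.G.γ
  gpos := by have := D.G.γpos; positivity
  hi_le := fun n Y e _ => (D.hi_mul_le n Y e).trans (D.G.hiR_le Y e)
  loO_ge := by
    intro n
    have := D.hℓL n
    have := D.G.γpos; have := D.G.hx₀
    linarith
  home_D := by
    intro n
    have h1 := D.hi_mul_le n 3 (0, -1)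
    have h2 := D.hi_mul_le n 2 (0, 1)
    have := D.G.γpos; have := D.G.hx; have := D.G.hx₀; have := D.G.hx₁
    have := D.G.hy; have := D.G.hy₀; have := D.G.hy₁
    change _ ≤ boxH (-D.G.L) (D.G.x₁ - D.G.γ) (D.G.y₀ + D.G.γ) (D.G.y₁ - D.G.γ) _ at h1
    change _ ≤ boxH (-D.G.L) (D.G.x₁ - D.G.γ) (-D.G.L) (D.G.y₀ - D.G.γ) _ at h2
    rw [boxH_0m1 _ _ _ _ (by linarith)] at h1
    rw [boxH_01 _ _ _ _ (by linarith)] at h2
    linarith
  home_U := by
    intro n Y hY
    have h2 := D.hi_mul_le n 1 (0, -1)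
    have := D.G.γpos; have := D.G.hx; have := D.G.hx₀; have := D.G.hx₁
    have := D.G.hy; have := D.G.hy₀; have := D.G.hy₁
    change _ ≤ boxH (-D.G.L) (D.G.x₁ - D.G.γ) (D.G.y₁ + D.G.γ) D.G.L _ at h2
    rw [boxH_0m1 _ _ _ _ (by linarith)] at h2
    rcases hY with rfl | rfl
    · have h1 := D.hi_mul_le n 2 (0, 1)
      change _ ≤ boxH (-D.G.L) (D.G.x₁ - D.G.γ) (-D.G.L) (D.G.y₀ - D.G.γ) _ at h1
      rw [boxH_01 _ _ _ _ (by linarith)] at h1
      linarith
    · have h1 := D.hi_mul_le n 3 (0, 1)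
      change _ ≤ boxH (-D.G.L) (D.G.x₁ - D.G.γ) (D.G.y₀ + D.G.γ) (D.G.y₁ - D.G.γ) _ at h1
      rw [boxH_01 _ _ _ _ (by linarith)] at h1
      linarith
  home_R := by
    intro n Y hY
    have h2 := D.hi_mul_le n 0 (-1, 0)
    have := D.G.γpos; have := D.G.hx; have := D.G.hx₀; have := D.G.hx₁
    have := D.G.hy; have := D.G.hy₀; have := D.G.hy₁
    change _ ≤ boxH (D.G.x₁ + D.G.γ) D.G.L (-D.G.L) D.G.L _ at h2
    rw [boxH_m10 _ _ _ _ (by linarith)] at h2
    have h1 := D.hi_mul_le n Y (1, 0)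
    have h3 : D.G.hiR Y (1, 0) = D.G.x₁ - D.G.γ := by
      fin_cases Y
      · exact absurd rfl hY
      · exact boxH_10 _ _ _ _ (by linarith)
      · exact boxH_10 _ _ _ _ (by linarith)
      · exact boxH_10 _ _ _ _ (by linarith)
    rw [h3] at h1
    linarith
  pb := fun n ν τ he X z hz => D.pb n ν τ he X z hz
  ε := D.eps
  εlim := D.eps_lim
  base := fun n z hz => D.base n z hz

/-- **Peeling theorem.** -/
theorem tendsto : Tendsto (fun n => ∫ h, (∏ i : Fin 4, D.A n i h) * D.O n h ∂P) atTop (𝓝 0) := by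
  have h := D.toPeel.tendsto_home
  refine h.congr fun n => ?_
  change D.c n 0 = _
  unfold c
  refine integral_congr_ae (Eventually.of_forall fun ω => ?_)
  simp only [Pi.zero_apply]
  have h0 : trans (0 : ℤ × ℤ) ω = ω := Ga2617.trans_zero ω
  simp only [h0]
  rw [Fin.prod_univ_castSucc (n := 3)]
  have h5 : (Fin.last 3) = 3 := rfl
  rw [h5]
  ring

end PProb6

end Crest.Agent.R144.Ga3572
end
end

-- ▼ part R144/Ga3b_572
section

/-!
# R144, GA3 (helper572), part b: uniform forms of the Ward identity with patches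

* `PIn.uniform`: uniform over all admissible groups of functionals;
* `PIn.uniform_patches`: the same for finitely many patches, each contained in one of the four regions;
* `ward_grid`: patches = cells of a square grid (index coordinates) with corridors of width `2γ`.
-/

set_option autoImplicit false

noncomputable section

open Filter Topology MeasureTheory
open scoped ComplexConjugate

namespace Crest.Agent.R144.Ga3572

open Crest.Agent.R144.Ps643 (P2 Ht Loc FinLoc Neut Chg act tr Obs PlaneState lin)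
open Crest.Agent.R144.Ga2617 (trans Lp Fn rfl6 RPHyp6 rpHyp6 stp)

namespace PIn

variable {P : Measure Ht} (E : PIn P)

/-- admissible groups at stage `n` -/
structure Adm (n : ℕ) (A : Fin 4 → Ht → ℂ) (S : Fin 4 → Finset P2) (α : Fin 4 → ℝ) : Prop where
  hA : ∀ i h, Lp h → ‖A i h‖ ≤ 1
  fnA : ∀ i, Fn (S i : Set P2) (α i) (A i)
  suppA : ∀ i, ∀ v ∈ S i, E.G.reg i (E.δ n * v.1) (E.δ n * v.2)
  neutral : ∑ i, α i + E.β n = 0

/-- the trivial group -/
theorem adm_zero (n : ℕ) :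
    E.Adm n (fun _ _ => 0) (fun _ => ∅) (fun i => if i = 0 then -E.β n else 0) where
  hA := fun i h _ => by simp
  fnA := fun i => Fn.zero _ _
  suppA := fun i v hv => by simp at hv
  neutral := by simp

theorem uniform {ε : ℝ} (hε : 0 < ε) : ∃ N : ℕ, ∀ n, N ≤ n → ∀ (A : Fin 4 → Ht → ℂ)
    (S : Fin 4 → Finset P2) (α : Fin 4 → ℝ), E.Adm n A S α →
    ‖∫ h, (∏ i, A i h) * E.O n h ∂P‖ ≤ ε := by
  classical
  by_contra hcon
  push Not at hcon
  -- data at stage `n`
  have hch : ∀ n, ∃ D : (Fin 4 → Ht → ℂ) × (Fin 4 → Finset P2) × (Fin 4 → ℝ),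
      E.Adm n D.1 D.2.1 D.2.2 ∧
      ((∃ D' : (Fin 4 → Ht → ℂ) × (Fin 4 → Finset P2) × (Fin 4 → ℝ), E.Adm n D'.1 D'.2.1 D'.2.2 ∧
        ε < ‖∫ h, (∏ i, D'.1 i h) * E.O n h ∂P‖) → ε < ‖∫ h, (∏ i, D.1 i h) * E.O n h ∂P‖) := by
    intro n
    by_cases hb : ∃ D' : (Fin 4 → Ht → ℂ) × (Fin 4 → Finset P2) × (Fin 4 → ℝ),
        E.Adm n D'.1 D'.2.1 D'.2.2 ∧ ε < ‖∫ h, (∏ i, D'.1 i h) * E.O n h ∂P‖
    · obtain ⟨D', h1, h2⟩ := hb
      exact ⟨D', h1, fun _ => h2⟩
    · exact ⟨(fun _ _ => 0, fun _ => ∅, fun i => if i = 0 then -E.β n else 0), E.adm_zero n,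
        fun h => absurd h hb⟩
  choose D hD hbad using hch
  let Q : PProb6 P :=
    { E with
      A := fun n => (D n).1
      hA := fun n => (hD n).hA
      S := fun n => (D n).2.1
      α := fun n => (D n).2.2
      fnA := fun n => (hD n).fnA
      suppA := fun n => (hD n).suppA
      neutral := fun n => (hD n).neutral }
  have ht := Q.tendsto
  have h0 : ∀ᶠ n in atTop, ‖∫ h, (∏ i : Fin 4, (D n).1 i h) * E.O n h ∂P‖ < ε := by
    have := (tendsto_zero_iff_norm_tendsto_zero.1 ht).eventually_lt_const hε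
    exact this
  obtain ⟨N, hN⟩ := eventually_atTop.1 h0
  obtain ⟨n, hn, A, S, α, hadm, hlt⟩ := hcon N
  have h1 := hbad n ⟨(A, S, α), hadm, hlt⟩
  exact absurd (hN n hn) (not_lt.2 h1.le)


end PIn

/-- the cell `k` of the square grid of side `r` (index coordinates), shrunk by `γ` on each side -/
def Cell (r γ : ℝ) (k : P2) (x y : ℝ) : Prop :=
  r * k.1 + γ ≤ x ∧ x ≤ r * (k.1 + 1) - γ ∧ r * k.2 + γ ≤ y ∧ y ≤ r * (k.2 + 1) - γ






end Crest.Agent.R144.Ga3572
end
end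

-- ▼ part R144/CcwA1_867
section

/-!
# R144, closed-contour Ward identity (doc 1620), step (A1) (helper867)

`a1` : for an observable `O n` located in a box, small in the half-plane sense, and two bounded charged
functionals, one below the box and one above it (any shape, any charge), the correlation tends to `0`,
uniformly over the two functionals.  (Two-group peeling: an instance of `PIn.uniform` of helper572.)
-/

set_option autoImplicit false

noncomputable section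

open Filter Topology MeasureTheory
open scoped ComplexConjugate

namespace Crest.Agent.R144.CcwA1867

open Crest.Agent.R144.Ps643 (P2 Ht Loc FinLoc Neut Chg act tr Obs PlaneState lin)
open Crest.Agent.R144.Ga2617 (trans Lp Fn rfl6 RPHyp6 rpHyp6 stp)
open Crest.Agent.R144.Ga3572

/-- geometry: the observable in `x₀ + γ ≤ x ≤ L`, `y₀ + γ ≤ y ≤ y₁ - γ`; everything in `[-L, L]²` -/
def geo {x₀ y₀ y₁ γ L : ℝ} (hγ : 0 < γ) (hx : x₀ + γ ≤ L) (hx₀ : -L ≤ x₀ - γ)
    (hy : y₀ + γ ≤ y₁ - γ) (hy₀ : -L ≤ y₀ - γ) (hy₁ : y₁ + γ ≤ L) : PGeo where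
  x₀ := x₀
  x₁ := L + γ
  y₀ := y₀
  y₁ := y₁
  γ := γ
  L := L + 2 * γ
  γpos := hγ
  hx := by linarith
  hy := hy
  hx₀ := by linarith
  hx₁ := by linarith
  hy₀ := by linarith
  hy₁ := by linarith

/-- **(A1) of the closed-contour Ward identity.** -/
theorem a1 {P : Measure Ht} (hP : PlaneState P) {δ : ℕ → ℝ} (δpos : ∀ n, 0 < δ n)
    (δlim : Tendsto δ atTop (𝓝 0)) {x₀ y₀ y₁ γ L : ℝ} (hγ : 0 < γ) (hx : x₀ + γ ≤ L)
    (hx₀ : -L ≤ x₀ - γ) (hy : y₀ + γ ≤ y₁ - γ) (hy₀ : -L ≤ y₀ - γ) (hy₁ : y₁ + γ ≤ L)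
    {O : ℕ → Ht → ℂ} {M : ℝ} (hM : 0 ≤ M) (hO : ∀ n, ∫ h, ‖O n h‖ ^ 2 ∂P ≤ M ^ 2)
    {T : ℕ → Finset P2} (fnO : ∀ n, Fn (T n : Set P2) 0 (O n))
    (suppO : ∀ n, ∀ v ∈ T n, x₀ + γ ≤ δ n * v.1 ∧ δ n * v.1 ≤ L ∧
      y₀ + γ ≤ δ n * v.2 ∧ δ n * v.2 ≤ y₁ - γ)
    (ℓ : ℕ → ℤ) (hℓ : Tendsto (fun n => δ n * (ℓ n : ℝ)) atTop (𝓝 x₀))
    (hℓL : ∀ n, x₀ ≤ δ n * (ℓ n : ℝ))
    (small : Tendsto (fun n => (∫ h, conj (O n (act (rfl6 (1, 0) (ℓ n)) h)) * O n h ∂P).re)
      atTop (𝓝 0)) {ε : ℝ} (hε : 0 < ε) :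
    ∃ N : ℕ, ∀ n, N ≤ n → ∀ (S1 S2 : Finset P2),
      (∀ v ∈ S1, -L ≤ δ n * v.1 ∧ δ n * v.1 ≤ L ∧ -L ≤ δ n * v.2 ∧ δ n * v.2 ≤ y₀ - γ) →
      (∀ v ∈ S2, -L ≤ δ n * v.1 ∧ δ n * v.1 ≤ L ∧ y₁ + γ ≤ δ n * v.2 ∧ δ n * v.2 ≤ L) →
      ∀ (α : ℝ) (Z1 Z2 : Ht → ℂ), Fn (S1 : Set P2) (-α) Z1 → Fn (S2 : Set P2) α Z2 →
        (∀ h, Lp h → ‖Z1 h‖ ≤ 1) → (∀ h, Lp h → ‖Z2 h‖ ≤ 1) →
        ‖∫ h, O n h * Z1 h * Z2 h ∂P‖ ≤ ε := by
  let E : PIn P :=
    { G := geo hγ hx hx₀ hy hy₀ hy₁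
      prob := hP.prob
      lip := hP.lip
      rp := rpHyp6 hP
      δ := δ
      δpos := δpos
      δlim := δlim
      O := O
      M := M
      M0 := hM
      hO := hO
      T := T
      β := fun _ => 0
      fnO := fnO
      suppO := fun n v hv => by
        obtain ⟨h1, h2, h3, h4⟩ := suppO n v hv
        refine ⟨h1, ?_, h3, h4⟩
        show δ n * v.1 ≤ L + γ - γ
        linarith
      ℓ := ℓ
      hℓ := hℓ
      hℓL := hℓL
      small := small }
  obtain ⟨N, hN⟩ := E.uniform hε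
  refine ⟨N, fun n hn S1 S2 h1 h2 α Z1 Z2 f1 f2 n1 n2 => ?_⟩
  let A : Fin 4 → Ht → ℂ := ![fun _ => 1, Z2, Z1, fun _ => 1]
  let S : Fin 4 → Finset P2 := ![∅, S2, S1, ∅]
  let a : Fin 4 → ℝ := ![0, α, -α, 0]
  have hadm : E.Adm n A S a :=
    { hA := by
        intro i h hh
        fin_cases i
        · show ‖(1 : ℂ)‖ ≤ 1
          simp
        · exact n2 h hh
        · exact n1 h hh
        · show ‖(1 : ℂ)‖ ≤ 1
          simp
      fnA := by
        intro i
        fin_cases i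
        · exact Fn.const _ 1
        · exact f2
        · exact f1
        · exact Fn.const _ 1
      suppA := by
        intro i v hv
        fin_cases i
        · exact absurd hv (Finset.notMem_empty v)
        · obtain ⟨a1, a2, a3, a4⟩ := h2 v hv
          refine ⟨?_, ?_, a3, ?_⟩
          · show -(L + 2 * γ) ≤ δ n * v.1
            linarith
          · show δ n * v.1 ≤ L + γ - γ
            linarith
          · show δ n * v.2 ≤ L + 2 * γ
            linarith
        · obtain ⟨a1, a2, a3, a4⟩ := h1 v hv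
          refine ⟨?_, ?_, ?_, a4⟩
          · show -(L + 2 * γ) ≤ δ n * v.1
            linarith
          · show δ n * v.1 ≤ L + γ - γ
            linarith
          · show -(L + 2 * γ) ≤ δ n * v.2
            linarith
        · exact absurd hv (Finset.notMem_empty v)
      neutral := by
        show ∑ i, a i + 0 = 0
        simp [a, Fin.sum_univ_four] }
  refine le_trans (le_of_eq ?_) (hN n hn A S a hadm)
  congr 1
  refine integral_congr_ae (Eventually.of_forall fun h => ?_)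
  show O n h * Z1 h * Z2 h = (∏ i, A i h) * O n h
  rw [Fin.prod_univ_four]
  simp only [A, Matrix.cons_val_zero, Matrix.cons_val_one, Matrix.cons_val, one_mul, mul_one]
  ring

end Crest.Agent.R144.CcwA1867
end
end

-- ▼ part R144/Ca1_867

/-!
# R144 (helper867): step (A1) of the closed-contour Ward identity for the plane state of the integer
model and helper643's lattice functionals `XX`
-/

set_option autoImplicit false

noncomputable section

namespace Crest.Agent.R144.Ca1867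

open Filter Topology MeasureTheory
open scoped ComplexConjugate Real ContDiff Laplacian
open Crest.ProbabilityR.HexHeights (Adj centre)
open Crest.Agent.R144.HexTil353 Crest.Agent.R144.Geo268
open Crest.Agent.R144.Ps643 Crest.Agent.R144.Ps643.PlaneState
open Crest.Agent.R144.Cw643
open Crest.Agent.R144.Ga5885 (Tst)
open Crest.Agent.R144.Gi643
open Crest.Agent.R144.Ga2617 (Fn Lp rfl6 Dir6 dot fn_lin)
open Crest.Agent.R144.Pst967 (Hz LocZ PinnedZ toR measurable_toR)
open Crest.Agent.R144.Ccw435 (ChgZ a1_of_real)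

theorem ca_one_centre {d : ℝ} (hd : 0 < d) (v : P2) : ca 1 (centre d v) = d * v.1 := by
  have h := Xn_centre hd (1, 0) v
  unfold Xn dot at h
  push_cast at h
  linarith

theorem cb_one_centre {d : ℝ} (hd : 0 < d) (v : P2) : cb 1 (centre d v) = d * v.2 := by
  have h := Xn_centre hd (0, 1) v
  unfold Xn dot at h
  push_cast at h
  linarith

theorem abs_ca_le (z : ℂ) : |ca 1 z| ≤ 4 * ‖z‖ := by
  have h := abs_Xn_le (n := (1, 0)) (by simp [Dir6]) z
  have e : Xn (1, 0) z = ca 1 z := by unfold Xn; push_cast; ring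
  rwa [e] at h

theorem abs_cb_le (z : ℂ) : |cb 1 z| ≤ 4 * ‖z‖ := by
  have h := abs_Xn_le (n := (0, 1)) (by simp [Dir6]) z
  have e : Xn (0, 1) z = cb 1 z := by unfold Xn; push_cast; ring
  rwa [e] at h

theorem ca_one_sub (z w : ℂ) : ca 1 (z - w) = ca 1 z - ca 1 w := by
  have h := ca_add (δ := 1) (z - w) w
  rw [sub_add_cancel] at h
  linarith

theorem cb_one_sub (z w : ℂ) : cb 1 (z - w) = cb 1 z - cb 1 w := by
  have h := cb_add (δ := 1) (z - w) w
  rw [sub_add_cancel] at h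
  linarith

/-- second moments of `XX` are bounded along a vanishing scale -/
theorem sq_bdd {P : Measure Ht} (hP : PlaneState P) {κ : ℝ} (hκ : Lim2 (vg P) κ) {δ : ℕ → ℝ}
    (hδ : ∀ n, 0 < δ n) (hδ0 : Tendsto δ atTop (𝓝 0)) {u : ℂ → ℝ} (hu : Tst u) :
    ∃ V : ℝ, 0 ≤ V ∧ ∀ᶠ n in atTop, ∫ h, XX (δ n) u h ^ 2 ∂P ≤ V := by
  obtain ⟨R, hR0, hR⟩ := exists_R hu
  have hN := near_Dop hδ hδ0 hu.1 hu.2
  have hw : ∀ᶠ n in atTop, Wt (BX (mm R (δ n))) (Dop fun v => u (centre (δ n) v)) :=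
    Eventually.of_forall fun n => wt_Dop (hδ n) hR
  have h := cov_tendsto hP hκ hδ hδ0 hu.1 hu.2 (continuous_lap hu.1).neg
    (hasCompactSupport_lap hu.2).neg hN hN hw hw
  refine ⟨|κ * ∫ z, u z * (-(Δ u) z)| + 1, by positivity, ?_⟩
  filter_upwards [h.eventually (gt_mem_nhds (lt_of_le_of_lt (le_abs_self _) (lt_add_one _)))] with n hn
  refine le_trans (le_of_eq ?_) hn.le
  refine integral_congr_ae (ae_of_all _ fun g => ?_)
  beta_reduce
  rw [XX_box (hδ n) hR, sq]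

/-- **step (A1) of the closed-contour Ward identity** -/
theorem a1_inst {P : Measure Hz} (hP : PinnedZ P) (hS : PlaneState (P.map toR)) {κ : ℝ}
    (hκ : Lim2 (vg (P.map toR)) κ) {δ : ℕ → ℝ} (hδ : ∀ n, 0 < δ n) (hδ0 : Tendsto δ atTop (𝓝 0))
    {u : ℂ → ℝ} (hu : Tst u) {s0 t0 ρ L : ℝ} (hρ : 0 < ρ)
    (supp : ∀ z, u z ≠ 0 → |ca 1 z - s0| ≤ ρ ∧ |cb 1 z - t0| ≤ ρ) (hL : |s0| + |t0| + 8 * ρ ≤ L) :
    ∀ ε > 0, ∀ᶠ n in atTop, ∀ A B : Finset P2, A.Nonempty → B.Nonempty →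
      (∀ v ∈ A, |δ n * v.1| ≤ L ∧ |δ n * v.2| ≤ L ∧ δ n * v.2 ≤ t0 - 2 * ρ) →
      (∀ v ∈ B, |δ n * v.1| ≤ L ∧ |δ n * v.2| ≤ L ∧ t0 + 2 * ρ ≤ δ n * v.2) →
      ∀ (α : ℝ) (Z1 Z2 : Hz → ℂ), LocZ (A : Set P2) Z1 → LocZ (B : Set P2) Z2 →
        ChgZ (-α) Z1 → ChgZ α Z2 → (∀ h, ‖Z1 h‖ ≤ 1) → (∀ h, ‖Z2 h‖ ≤ 1) →
        ‖∫ h, (XX (δ n) u (toR h) : ℂ) * Z1 h * Z2 h ∂P‖ ≤ ε := by
  classical
  intro ε hε
  obtain ⟨R, hR0, hR⟩ := exists_R hu
  obtain ⟨V, hV0, hV⟩ := sq_bdd hS hκ hδ hδ0 hu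
  have hsm := hδ0.eventually (gt_mem_nhds (show (0 : ℝ) < ρ / 16 by positivity))
  obtain ⟨N0, hN0⟩ := eventually_atTop.1 (hV.and hsm)
  have hs0 := abs_le.1 (le_refl |s0|)
  have ht0 := abs_le.1 (le_refl |t0|)
  have hs1 := abs_nonneg s0
  have ht1 := abs_nonneg t0
  set δ' : ℕ → ℝ := fun n => δ (n + N0) with hδ'
  have hδ'p : ∀ n, 0 < δ' n := fun n => hδ _
  have hδ'0 : Tendsto δ' atTop (𝓝 0) := hδ0.comp (tendsto_add_atTop_nat N0)
  have hδ's : ∀ n, δ' n < ρ / 16 := fun n => (hN0 (n + N0) (Nat.le_add_left _ _)).2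
  have hδ'V : ∀ n, ∫ h, XX (δ' n) u h ^ 2 ∂(P.map toR) ≤ V :=
    fun n => (hN0 (n + N0) (Nat.le_add_left _ _)).1
  -- the weights
  set b : ℕ → P2 → ℝ := fun n => Dop fun v => u (centre (δ' n) v) with hb
  set T : ℕ → Finset P2 := fun n => (BX (mm R (δ' n))).filter fun v => b n v ≠ 0 with hT
  have hTout : ∀ n p, p ∉ T n → b n p = 0 := by
    intro n p hp
    by_contra h1
    apply hp
    refine Finset.mem_filter.2 ⟨?_, h1⟩
    by_contra h2
    exact h1 ((wt_Dop (hδ'p n) hR).1 p h2)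
  have hXT : ∀ n h, XX (δ' n) u h = lin (T n) (b n) h := fun n h => XX_eq (hTout n) h
  have hmass : ∀ n, ∑ v ∈ T n, b n v = 0 := by
    intro n
    rw [hT, Finset.sum_filter_ne_zero]
    exact (wt_Dop (hδ'p n) hR).2
  have hwt : ∀ n, Wt (T n) (b n) := fun n => ⟨hTout n, hmass n⟩
  have hsupp : ∀ n, ∀ v ∈ T n, |δ' n * v.1 - s0| ≤ ρ + ρ / 4 ∧ |δ' n * v.2 - t0| ≤ ρ + ρ / 4 := by
    intro n v hv
    obtain ⟨w, hw, hd⟩ := Dop_ne_zero (hδ'p n).le (Finset.mem_filter.1 hv).2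
    obtain ⟨h1, h2⟩ := supp w hw
    have h3 := abs_ca_le (centre (δ' n) v - w)
    have h4 := abs_cb_le (centre (δ' n) v - w)
    rw [ca_one_sub, ca_one_centre (hδ'p n)] at h3
    rw [cb_one_sub, cb_one_centre (hδ'p n)] at h4
    have h5 := hδ's n
    have h6 : 4 * ‖centre (δ' n) v - w‖ ≤ ρ / 4 := by linarith
    constructor
    · have : δ' n * v.1 - s0 = (δ' n * v.1 - ca 1 w) + (ca 1 w - s0) := by ring
      rw [this]
      refine (abs_add_le _ _).trans ?_
      linarith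
    · have : δ' n * v.2 - t0 = (δ' n * v.2 - cb 1 w) + (cb 1 w - t0) := by ring
      rw [this]
      refine (abs_add_le _ _).trans ?_
      linarith
  -- the reflection lines
  set ℓ : ℕ → ℤ := fun n => ⌈(s0 - 2 * ρ) / δ' n⌉ with hℓ
  have hℓ1 : ∀ n, s0 - 2 * ρ ≤ δ' n * (ℓ n : ℝ) := by
    intro n
    have h1 := Int.le_ceil ((s0 - 2 * ρ) / δ' n)
    rw [div_le_iff₀ (hδ'p n)] at h1
    linarith [mul_comm (δ' n) (ℓ n : ℝ)]
  have hℓ2 : ∀ n, δ' n * (ℓ n : ℝ) ≤ s0 - 2 * ρ + δ' n := by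
    intro n
    have h1 := (Int.ceil_lt_add_one ((s0 - 2 * ρ) / δ' n)).le
    have h2 := mul_le_mul_of_nonneg_left h1 (hδ'p n).le
    have h3 : δ' n * ((s0 - 2 * ρ) / δ' n + 1) = s0 - 2 * ρ + δ' n := by
      have := (hδ'p n).ne'
      field_simp
    linarith
  have hℓlim : Tendsto (fun n => δ' n * (ℓ n : ℝ)) atTop (𝓝 (s0 - 2 * ρ)) := by
    refine tendsto_of_tendsto_of_tendsto_of_le_of_le tendsto_const_nhds ?_ hℓ1 hℓ2
    simpa using hδ'0.const_add (s0 - 2 * ρ)
  -- `small`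
  have hward := ward_rfl hS hκ hδ'p hδ'0 hu.1 hu.2 (near_Dop hδ'p hδ'0 hu.1 hu.2)
    (s := T) (Eventually.of_forall hwt) (n := (1, 0)) (by simp [Dir6]) hℓlim (fun z hz => by
      have h1 := abs_le.1 (supp z hz).1
      have e : Xn (1, 0) z = ca 1 z := by unfold Xn; push_cast; ring
      rw [e]
      linarith)
  obtain ⟨N, hN⟩ := CcwA1867.a1 hS hδ'p hδ'0 (x₀ := s0 - 2 * ρ) (y₀ := t0 - 3 * ρ / 2)
    (y₁ := t0 + 3 * ρ / 2) (γ := ρ / 4) (L := L) (by positivity) (by linarith) (by linarith)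
    (by linarith) (by linarith) (by linarith)
    (O := fun n h => ((lin (T n) (b n) h : ℝ) : ℂ)) (M := √V) (Real.sqrt_nonneg V)
    (fun n => by
      rw [Real.sq_sqrt hV0]
      refine le_trans (le_of_eq ?_) (hδ'V n)
      refine integral_congr_ae (ae_of_all _ fun g => ?_)
      beta_reduce
      rw [Complex.norm_real, Real.norm_eq_abs, sq_abs, hXT])
    (T := T) (fun n => fn_lin (T n) (b n) (hmass n))
    (fun n v hv => by
      obtain ⟨h1, h2⟩ := hsupp n v hv
      have h3 := abs_le.1 h1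
      have h4 := abs_le.1 h2
      refine ⟨by linarith, by linarith, by linarith, by linarith⟩)
    ℓ hℓlim hℓ1
    (by
      refine hward.congr fun n => ?_
      have e : ∀ h : Ht, conj (((lin (T n) (b n) (act (rfl6 (1, 0) (ℓ n)) h) : ℝ) : ℂ)) *
          ((lin (T n) (b n) h : ℝ) : ℂ) =
          ((lin (T n) (b n) (act (rfl6 (1, 0) (ℓ n)) h) * lin (T n) (b n) h : ℝ) : ℂ) := by
        intro h
        rw [Complex.conj_ofReal]
        push_cast
        rfl
      simp only [e]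
      have e2 : ∫ h, ((lin (T n) (b n) (act (rfl6 (1, 0) (ℓ n)) h) * lin (T n) (b n) h : ℝ) : ℂ)
          ∂(P.map toR) = ((∫ h, lin (T n) (b n) (act (rfl6 (1, 0) (ℓ n)) h) * lin (T n) (b n) h
          ∂(P.map toR) : ℝ) : ℂ) := integral_complex_ofReal
      rw [e2, Complex.ofReal_re]) hε
  rw [eventually_atTop]
  refine ⟨N + N0, fun n hn A B hA hB hA1 hB1 => ?_⟩
  have hm : N ≤ n - N0 := by omega
  have hme : δ' (n - N0) = δ n := by
    show δ (n - N0 + N0) = δ n
    congr 1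
    omega
  have key := hN (n - N0) hm A B (fun v hv => by
      obtain ⟨h1, h2, h3⟩ := hA1 v hv
      rw [hme]
      have h1' := abs_le.1 h1
      have h2' := abs_le.1 h2
      exact ⟨h1'.1, h1'.2, h2'.1, by linarith⟩) (fun v hv => by
      obtain ⟨h1, h2, h3⟩ := hB1 v hv
      rw [hme]
      have h1' := abs_le.1 h1
      have h2' := abs_le.1 h2
      exact ⟨h1'.1, h1'.2, by linarith, h2'.2⟩)
  refine a1_of_real hA hB (XR := XX (δ n) u) ?_ (fun _ => rfl) (fun α Z1 Z2 f1 f2 n1 n2 => ?_)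
  · have : XX (δ n) u = lin (T (n - N0)) (b (n - N0)) := by
      funext h
      rw [← hXT, hme]
    rw [this]
    exact measurable_lin _ _
  · have h1 := key α Z1 Z2 f1 f2 (fun h _ => n1 h) (fun h _ => n2 h)
    refine le_trans (le_of_eq ?_) h1
    congr 1
    refine integral_congr_ae (ae_of_all _ fun g => ?_)
    beta_reduce
    rw [← hXT, hme]

end Crest.Agent.R144.Ca1867
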