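import Crest.Agent.R144.Zs2_349
import Crest.Agent.R144.Cb2_169

/-!
# R144 (CCW, step B), kernels and gluing (helper169)

* `St` : domain `F`, region `G` (strip and layers), layers `Lay`, revealed rows and walls `RW ⊆ Lay`;
* `s.X ω` explored set (through triangles of `Lay` which are not closed plus, from `RW`), `s.Rv ω` the
  explored set with its layer (revealed), `s.N ω = F \ Rv`;
* `s.Fr V ω` : free sites when everything outside `V` is fixed;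
* `s.K0 V ω` : finite set of Lipschitz configurations with the same explored set as `ω`, the same heights off
  `s.Fr V ω` and the same `z` off `s.N ω ∩ V`; `s.K V ω` : the compatible ones;
* `s.gl V ξ η` : inside `V` from `ξ`, outside from `η`.
-/

set_option autoImplicit false
set_option linter.unusedSectionVars false
set_option linter.unusedSimpArgs false

noncomputable section

namespace Crest.Agent.R144.Cc169

open Finset
open Crest.Agent.R144.It844 (P2 Lip adj_iff adj_symm lip_iff)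
open Crest.ProbabilityR.HexHeights (Adj)
open Crest.Agent.R144.Zg349 Crest.Agent.R144.Zk349 Crest.Agent.R144.Zd349 Crest.Agent.R144.Zm349
open Crest.Agent.R144.Ze349
open Crest.Agent.R144.Cb2169 (Ex Cl Wd mem_Ex mem_Cl mem_Wd Ex_sub Cl_sub R_sub_Ex Ex_sub_Cl Ex_step
  layer_pC Ex_congr adj_of_share mem_D_of_path Stp)

/-- region data -/
structure St where
  F : Finset P2
  G : Finset P2
  Lay : Finset P2
  RW : Finset P2
  hRW : RW ⊆ Lay
  hLG : Lay ⊆ G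
  hGF : G ⊆ F
  hnb : ∀ t ∈ G, ∀ t', Adj t t' → t' ∈ F

/-- compatibility of the coins with the heights -/
def Cmp (A : Finset P2) (ω : Cfg) : Prop :=
  ∀ t ∈ A, (ω.2 t = true → C1 ω.1 t) ∧ (ω.2 t = false → C2 ω.1 t)

theorem Cmp.mono {A B : Finset P2} (h : A ⊆ B) {ω : Cfg} (hB : Cmp B ω) : Cmp A ω := fun t ht => hB t (h ht)

theorem cmp_of_wt {c : ℝ} {A : Finset P2} {ω : Cfg} (h : wt c A ω ≠ 0) : Cmp A ω := by
  intro t ht
  have h1 : ew c ω t ≠ 0 := fun h' => h (Finset.prod_eq_zero ht h')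
  unfold ew at h1
  constructor
  · intro h2
    by_contra h3
    rw [if_pos h2, if_neg h3] at h1
    exact h1 rfl
  · intro h2
    by_contra h3
    rw [if_neg (by rw [h2]; exact Bool.false_ne_true), if_neg h3] at h1
    exact h1 rfl

/-- all corners of a compatible plus-closed triangle have `s1 = +` -/
theorem pC_all {A : Finset P2} {ω : Cfg} (hc : Cmp A ω) {t : P2} (ht : t ∈ A) (hp : pC ω t) {v : P2}
    (hv : v ∈ up t) : s1 (ω.1 v) = true := by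
  obtain ⟨h1, h2⟩ := (hc t ht).1 hp.1
  have h0 : s1 (ω.1 (cr t 0)) = true := hp.2
  obtain ⟨i, rfl⟩ := mem_up_iff.1 hv
  fin_cases i
  · exact h0
  · exact h1 ▸ h0
  · exact h2 ▸ h0

namespace St
variable (s : St)

/-- explored set -/
def X (ω : Cfg) : Finset P2 := Ex s.Lay s.RW ω
/-- revealed set -/
def Rv (ω : Cfg) : Finset P2 := Cl s.Lay (s.X ω)
/-- not revealed -/
def N (ω : Cfg) : Finset P2 := s.F \ s.Rv ω

open Classical in
/-- free sites when the outside of `V` is fixed -/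
def Fr (V : Finset P2) (ω : Cfg) : Finset P2 :=
  (VF s.G).filter fun v => v ∉ VF (s.X ω) ∧ v ∉ VF (s.N ω \ V)

theorem mem_Fr {V : Finset P2} {ω : Cfg} {v : P2} :
    v ∈ s.Fr V ω ↔ v ∈ VF s.G ∧ v ∉ VF (s.X ω) ∧ v ∉ VF (s.N ω \ V) := by simp [Fr]

theorem X_sub (ω : Cfg) : s.X ω ⊆ s.Lay := Ex_sub _ _ _
theorem Rv_sub (ω : Cfg) : s.Rv ω ⊆ s.Lay := Cl_sub _ _
theorem X_sub_Rv (ω : Cfg) : s.X ω ⊆ s.Rv ω := Ex_sub_Cl ω
theorem N_sub (ω : Cfg) : s.N ω ⊆ s.F := Finset.sdiff_subset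
theorem mem_N {ω : Cfg} {t : P2} : t ∈ s.N ω ↔ t ∈ s.F ∧ t ∉ s.Rv ω := by simp [N]
theorem Lay_sub_F : s.Lay ⊆ s.F := s.hLG.trans s.hGF
theorem Rv_sub_F (ω : Cfg) : s.Rv ω ⊆ s.F := (s.Rv_sub ω).trans s.Lay_sub_F

theorem Rv_congr {ω η : Cfg} (h : s.X η = s.X ω) : s.Rv η = s.Rv ω := by unfold Rv; rw [h]
theorem N_congr {ω η : Cfg} (h : s.X η = s.X ω) : s.N η = s.N ω := by unfold N; rw [s.Rv_congr h]
theorem Fr_congr {ω η : Cfg} (h : s.X η = s.X ω) (V : Finset P2) : s.Fr V η = s.Fr V ω := by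
  unfold Fr; rw [h, s.N_congr h]

theorem layer {ω : Cfg} {t : P2} (ht : t ∈ s.Rv ω) (ht' : t ∉ s.X ω) : pC ω t := layer_pC ht ht'

theorem Fr_mono {V V' : Finset P2} (h : V ⊆ V') (ω : Cfg) : s.Fr V ω ⊆ s.Fr V' ω := by
  intro v hv
  rw [mem_Fr] at *
  refine ⟨hv.1, hv.2.1, fun h1 => hv.2.2 (VF_mono ?_ h1)⟩
  exact Finset.sdiff_subset_sdiff le_rfl h

open Classical in
/-- functions equal to `z0` off `W` -/
def zset (W : Finset P2) (z0 : P2 → Bool) : Finset (P2 → Bool) :=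
  W.powerset.image fun Z => fun t => if t ∈ W then decide (t ∈ Z) else z0 t

theorem mem_zset {W : Finset P2} {z0 z : P2 → Bool} : z ∈ zset W z0 ↔ ∀ t, t ∉ W → z t = z0 t := by
  classical
  unfold zset
  rw [Finset.mem_image]
  constructor
  · rintro ⟨Z, _, rfl⟩ t ht
    simp only [if_neg ht]
  · intro h
    refine ⟨W.filter fun t => z t = true, by simp, ?_⟩
    funext t
    by_cases ht : t ∈ W
    · rw [if_pos ht]
      rcases hz : z t with _ | _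
      · simp [ht, hz]
      · simp [ht, hz]
    · rw [if_neg ht, h t ht]

open Classical in
/-- kernel set, without compatibility -/
def K0 (V : Finset P2) (ω : Cfg) : Finset Cfg :=
  (It844.conf (s.Fr V ω) ω.1 ×ˢ zset (s.N ω ∩ V) ω.2).filter fun η => s.X η = s.X ω

theorem mem_K0 {V : Finset P2} {ω η : Cfg} : η ∈ s.K0 V ω ↔
    Lip η.1 ∧ (∀ v, v ∉ s.Fr V ω → η.1 v = ω.1 v) ∧ (∀ t, t ∉ s.N ω ∩ V → η.2 t = ω.2 t) ∧
      s.X η = s.X ω := by
  unfold K0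
  rw [Finset.mem_filter, Finset.mem_product, mem_zset]
  have : η.1 ∈ It844.conf (s.Fr V ω) ω.1 ↔ Lip η.1 ∧ ∀ v, v ∉ s.Fr V ω → η.1 v = ω.1 v := by
    unfold It844.conf
    rw [Set.Finite.mem_toFinset]
    rfl
  rw [this]
  tauto

open Classical in
/-- kernel set -/
def K (V : Finset P2) (ω : Cfg) : Finset Cfg := (s.K0 V ω).filter fun η => Cmp s.F η

theorem mem_K {V : Finset P2} {ω η : Cfg} : η ∈ s.K V ω ↔ η ∈ s.K0 V ω ∧ Cmp s.F η := by
  simp only [K, Finset.mem_filter]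

/-- admissible configurations -/
structure Adm (ω : Cfg) : Prop where
  lip : Lip ω.1
  cmp : Cmp s.F ω

theorem self_mem_K {V : Finset P2} {ω : Cfg} (h : s.Adm ω) : ω ∈ s.K V ω :=
  s.mem_K.2 ⟨s.mem_K0.2 ⟨h.lip, fun _ _ => rfl, fun _ _ => rfl, rfl⟩, h.cmp⟩

theorem adm_of_K {V : Finset P2} {ω η : Cfg} (h : η ∈ s.K V ω) : s.Adm η :=
  ⟨(s.mem_K0.1 (s.mem_K.1 h).1).1, (s.mem_K.1 h).2⟩

theorem K0_trans {V V' : Finset P2} (hV : V ⊆ V') {ω η ξ : Cfg} (h1 : η ∈ s.K0 V' ω) (h2 : ξ ∈ s.K0 V η) :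
    ξ ∈ s.K0 V' ω := by
  rw [mem_K0] at *
  obtain ⟨a1, a2, a3, a4⟩ := h1
  obtain ⟨b1, b2, b3, b4⟩ := h2
  refine ⟨b1, fun v hv => ?_, fun t ht => ?_, b4.trans a4⟩
  · rw [b2 v, a2 v hv]
    rw [s.Fr_congr a4]
    exact fun h => hv (s.Fr_mono hV ω h)
  · rw [b3 t, a3 t ht]
    rw [s.N_congr a4]
    exact fun h => ht (Finset.inter_subset_inter_left hV h)

theorem K0_symm {V : Finset P2} {ω η : Cfg} (hω : Lip ω.1) (h1 : η ∈ s.K0 V ω) : ω ∈ s.K0 V η := by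
  rw [mem_K0] at *
  obtain ⟨a1, a2, a3, a4⟩ := h1
  refine ⟨hω, fun v hv => ?_, fun t ht => ?_, a4.symm⟩
  · rw [s.Fr_congr a4] at hv
    exact (a2 v hv).symm
  · rw [s.N_congr a4] at ht
    exact (a3 t ht).symm

theorem K_trans {V V' : Finset P2} (hV : V ⊆ V') {ω η ξ : Cfg} (h1 : η ∈ s.K V' ω) (h2 : ξ ∈ s.K V η) :
    ξ ∈ s.K V' ω := by
  rw [mem_K] at *
  exact ⟨s.K0_trans hV h1.1 h2.1, h2.2⟩

theorem K_symm {V : Finset P2} {ω η : Cfg} (hω : s.Adm ω) (h1 : η ∈ s.K V ω) : ω ∈ s.K V η := by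
  rw [mem_K] at *
  exact ⟨s.K0_symm hω.lip h1.1, hω.cmp⟩

theorem K_eq {V : Finset P2} {ω η : Cfg} (hω : s.Adm ω) (h1 : η ∈ s.K V ω) : s.K V η = s.K V ω := by
  ext ξ
  exact ⟨fun h => s.K_trans (le_refl V) h1 h, fun h => s.K_trans (le_refl V) (s.K_symm hω h1) h⟩

theorem X_of_K {V : Finset P2} {ω η : Cfg} (h1 : η ∈ s.K V ω) : s.X η = s.X ω :=
  (s.mem_K0.1 (s.mem_K.1 h1).1).2.2.2

/-! ### same revealed information -/

/-- same explored set, same heights and coins on it -/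
structure Eq0 (ω η : Cfg) : Prop where
  X : s.X η = s.X ω
  ht : ∀ v ∈ VF (s.X ω), η.1 v = ω.1 v
  z : ∀ t ∈ s.X ω, η.2 t = ω.2 t

theorem Eq0.refl (ω : Cfg) : s.Eq0 ω ω := ⟨rfl, fun _ _ => rfl, fun _ _ => rfl⟩

variable {s}

theorem Eq0.symm {ω η : Cfg} (h : s.Eq0 ω η) : s.Eq0 η ω :=
  ⟨h.X.symm, fun v hv => (h.ht v (h.X ▸ hv)).symm, fun t ht => (h.z t (h.X ▸ ht)).symm⟩

theorem Eq0.trans {ω η ξ : Cfg} (h : s.Eq0 ω η) (h' : s.Eq0 η ξ) : s.Eq0 ω ξ :=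
  ⟨h'.X.trans h.X, fun v hv => (h'.ht v (by rw [h.X]; exact hv)).trans (h.ht v hv),
    fun t ht => (h'.z t (by rw [h.X]; exact ht)).trans (h.z t ht)⟩

theorem Eq0.N {ω η : Cfg} (h : s.Eq0 ω η) : s.N η = s.N ω := s.N_congr h.X
theorem Eq0.Rv {ω η : Cfg} (h : s.Eq0 ω η) : s.Rv η = s.Rv ω := s.Rv_congr h.X
theorem Eq0.Fr {ω η : Cfg} (h : s.Eq0 ω η) (V : Finset P2) : s.Fr V η = s.Fr V ω := s.Fr_congr h.X V

theorem eq0_of_K0 {V : Finset P2} {ω η : Cfg} (h : η ∈ s.K0 V ω) : s.Eq0 ω η := by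
  rw [mem_K0] at h
  obtain ⟨_, a2, a3, a4⟩ := h
  refine ⟨a4, fun v hv => a2 v fun h => ((s.mem_Fr).1 h).2.1 hv, fun t ht => a3 t fun h => ?_⟩
  exact ((s.mem_N).1 (Finset.mem_inter.1 h).1).2 (s.X_sub_Rv ω ht)

theorem eq0_of_K {V : Finset P2} {ω η : Cfg} (h : η ∈ s.K V ω) : s.Eq0 ω η := eq0_of_K0 ((s.mem_K).1 h).1

/-! ### gluing -/

variable (s)

open Classical in
/-- inside `V` from `ξ`, outside from `η` -/
def gl (V : Finset P2) (ξ η : Cfg) : Cfg :=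
  (fun v => if v ∈ s.Fr V η then ξ.1 v else η.1 v, fun t => if t ∈ s.N η ∩ V then ξ.2 t else η.2 t)

variable {s}

theorem gl_fr {V : Finset P2} {ξ η : Cfg} {v : P2} (h : v ∈ s.Fr V η) : (s.gl V ξ η).1 v = ξ.1 v := if_pos h
theorem gl_nfr {V : Finset P2} {ξ η : Cfg} {v : P2} (h : v ∉ s.Fr V η) : (s.gl V ξ η).1 v = η.1 v := if_neg h
theorem gl_z {V : Finset P2} {ξ η : Cfg} {t : P2} (h : t ∈ s.N η ∩ V) : (s.gl V ξ η).2 t = ξ.2 t := if_pos h
theorem gl_z' {V : Finset P2} {ξ η : Cfg} {t : P2} (h : t ∉ s.N η ∩ V) : (s.gl V ξ η).2 t = η.2 t := if_neg h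

/-- agreement on the interface of `V` -/
def Cpt (V : Finset P2) (ξ η : Cfg) : Prop :=
  ∀ v, v ∈ VF (s.N η ∩ V) → v ∈ VF (s.N η \ V) → ξ.1 v = η.1 v

theorem mem_VF_of {A : Finset P2} {t v : P2} (ht : t ∈ A) (hv : v ∈ up t) : v ∈ VF A := mem_VF.2 ⟨t, ht, hv⟩

section
variable {V : Finset P2} (hV : V ⊆ s.G) {ξ η : Cfg} (h0 : s.Eq0 η ξ) (hc : s.Cpt V ξ η)
include hV h0 hc

/-- inside `V` the glued heights are those of `ξ` -/
theorem gl_in {v : P2} (hv : v ∈ VF (s.N η ∩ V)) : (s.gl V ξ η).1 v = ξ.1 v := by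
  by_cases h : v ∈ s.Fr V η
  · exact gl_fr h
  · rw [gl_nfr h]
    rw [mem_Fr] at h
    have h1 : v ∈ VF s.G := VF_mono (Finset.inter_subset_right.trans hV) hv
    by_cases h2 : v ∈ VF (s.X η)
    · exact (h0.ht v h2).symm
    · by_cases h3 : v ∈ VF (s.N η \ V)
      · exact (hc v hv h3).symm
      · exact absurd ⟨h1, h2, h3⟩ h

omit hV h0 hc in
theorem gl_out {V : Finset P2} {ξ η : Cfg} {v : P2} (hv : v ∈ VF (s.N η \ V)) : (s.gl V ξ η).1 v = η.1 v :=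
  gl_nfr fun h => ((s.mem_Fr).1 h).2.2 hv

omit hV h0 hc in
theorem gl_X {V : Finset P2} {ξ η : Cfg} {v : P2} (hv : v ∈ VF (s.X η)) : (s.gl V ξ η).1 v = η.1 v :=
  gl_nfr fun h => ((s.mem_Fr).1 h).2.1 hv

end

/-- two heights with `s1 = +` at distance at most `1` are in the same block -/
theorem blk_eq {a b : ℤ} (ha : s1 a = true) (hb : s1 b = true) (h : |a - b| ≤ 1) : a / 4 = b / 4 := by
  rw [s1_true] at ha hb
  rw [abs_le] at h
  omega

theorem close_of_blk {a b : ℤ} (ha : s1 a = true) (hb : s1 b = true) (h : a / 4 = b / 4) : |a - b| ≤ 1 := by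
  rw [s1_true] at ha hb
  rw [abs_le]
  omega

theorem up_close {h : P2 → ℤ} (hh : Lip h) {t v u : P2} (hv : v ∈ up t) (hu : u ∈ up t) :
    |h v - h u| ≤ 1 := by
  obtain ⟨i, rfl⟩ := mem_up_iff.1 hv
  obtain ⟨j, rfl⟩ := mem_up_iff.1 hu
  exact Zs349.lip_cr hh t i j

/-- every layer triangle shares a site with the explored set -/
theorem layer_share {ω : Cfg} {t : P2} (ht : t ∈ s.Rv ω) (ht' : t ∉ s.X ω) :
    ∃ u ∈ VF (s.X ω), u ∈ up t := by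
  obtain ⟨_, h | ⟨r, hr, hrt⟩⟩ := mem_Cl.1 ht
  · exact absurd h ht'
  · obtain ⟨v, h1, h2⟩ : ∃ v ∈ up r, v ∈ up t := by
      rw [adj_iff] at hrt
      obtain ⟨a, b⟩ := r
      obtain ⟨x, y⟩ := t
      simp only [Prod.mk.injEq] at hrt
      simp only [mem_up]
      rcases hrt with ⟨rfl, rfl⟩ | ⟨rfl, rfl⟩ | ⟨rfl, rfl⟩ | ⟨rfl, rfl⟩ | ⟨rfl, rfl⟩ | ⟨rfl, rfl⟩
      · exact ⟨(a + 1, y), by simp⟩
      · exact ⟨(a, y), by simp⟩
      · exact ⟨(x, b + 1), by simp⟩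
      · exact ⟨(x, b), by simp⟩
      · exact ⟨(a + 1, b), by simp⟩
      · exact ⟨(a, b + 1), by simp⟩
    exact ⟨v, mem_VF_of hr h1, h2⟩

/-- block of the heights on a layer triangle is revealed -/
theorem layer_blk {ω η : Cfg} (hω : s.Adm ω) (hη : Lip η.1) (hηc : Cmp (s.Rv ω) η) (h0 : s.Eq0 ω η)
    {t v w : P2} (ht : t ∈ s.Rv ω) (ht' : t ∉ s.X ω) (hv : v ∈ up t) (hw : w ∈ up t) :
    s1 (ω.1 v) = true ∧ s1 (η.1 w) = true ∧ ω.1 v / 4 = η.1 w / 4 := by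
  obtain ⟨u, hu, hut⟩ := layer_share ht ht'
  have p1 : pC ω t := s.layer ht ht'
  have p2 : pC η t := s.layer (h0.Rv ▸ ht) (h0.X ▸ ht')
  have a1 := pC_all (hω.cmp.mono (s.Rv_sub_F ω)) ht p1 hv
  have a2 := pC_all (hω.cmp.mono (s.Rv_sub_F ω)) ht p1 hut
  have b1 := pC_all hηc ht p2 hw
  have b2 := pC_all hηc ht p2 hut
  have e1 := blk_eq a1 a2 (up_close hω.lip hv hut)
  have e2 := blk_eq b1 b2 (up_close hη hw hut)
  exact ⟨a1, b1, by rw [e1, e2, h0.ht u hu]⟩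

end St
end Crest.Agent.R144.Cc169
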