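import Mathlib.Algebra.BigOperators.Fin
import Mathlib.Algebra.BigOperators.Ring.Finset
import Mathlib.Algebra.Order.BigOperators.Group.Finset
import Mathlib.Data.Real.Basic
import Mathlib.Tactic

/-!
# Two-replica swap chain (R144, doc of helper356 on closed contours)

A finite chain of segments `s_m, ..., s_1, s_0` with weights `Z k s t` (interaction of the segment
`s` at level `k+1` with the segment `t` at level `k`) and `B k t` (weight of the segment `t` at
level `k`).  If for pairs of replicas related by `R k` the cross ratio of `Z k` is at most `C`, then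
the covariance of an observable of the segment at level `0` and an observable of the segment at
level `m` is bounded by the two-replica sum of `kappa ^ (number of levels with R)`,
`kappa = (C - 1) / (C + 1)`.
-/

set_option autoImplicit false

namespace Crest.Agent.R144.Swp356

open Finset

/-- `|a - a'| <= (C-1)/(C+1) (a + a')` when each of the two is at most `C` times the other. -/
theorem abs_sub_le_kappa {C a a' : ℝ} (hC : 1 ≤ C) (h : a ≤ C * a') (h' : a' ≤ C * a) :
    |a - a'| ≤ (C - 1) / (C + 1) * (a + a') := by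
  have hpos : 0 < C + 1 := by linarith
  rw [div_mul_eq_mul_div, le_div_iff₀ hpos]
  rcases abs_cases (a - a') with ⟨h1, _⟩ | ⟨h1, _⟩ <;> rw [h1] <;> nlinarith

/-- `kappa C R = (C-1)/(C+1)` if `R` holds and `1` otherwise. -/
noncomputable def kap (C : ℝ) (R : Prop) [Decidable R] : ℝ := if R then (C - 1) / (C + 1) else 1

theorem kap_nonneg {C : ℝ} (hC : 1 ≤ C) (R : Prop) [Decidable R] : 0 ≤ kap C R := by
  unfold kap; split_ifs
  · exact div_nonneg (by linarith) (by linarith)
  · norm_num

theorem kap_le_one {C : ℝ} (hC : 1 ≤ C) (R : Prop) [Decidable R] : kap C R ≤ 1 := by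
  unfold kap; split_ifs
  · rw [div_le_one (by linarith)]; linarith
  · exact le_rfl

section Step
variable {S T : Type*} [Fintype T]

/-- **One block of the swap chain.** `Z s t` weight between a right part `s` and a left part `t`,
`F` antisymmetric, dominated by the symmetric `G`; `R s s' t t'` = "both replicas have a barrier in
this block", symmetric in `t <-> t'`, implies that the cross ratio is at most `C`. -/
theorem step (Z : S → T → ℝ) (B : T → ℝ) (R : S → S → T → T → Prop)
    [∀ s s' t t', Decidable (R s s' t t')]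
    (hZ : ∀ s t, 0 ≤ Z s t) (hB : ∀ t, 0 ≤ B t) {C : ℝ} (hC : 1 ≤ C)
    (hR : ∀ s s' t t', R s s' t t' → R s s' t' t)
    (hcr : ∀ s s' t t', R s s' t t' → Z s t * Z s' t' ≤ C * (Z s t' * Z s' t))
    (F G : T → T → ℝ) (hF : ∀ t t', F t' t = - F t t') (hG : ∀ t t', G t' t = G t t')
    (hFG : ∀ t t', |F t t'| ≤ G t t') (s s' : S) :
    |∑ t, ∑ t', Z s t * Z s' t' * (B t * B t') * F t t'| ≤
      ∑ t, ∑ t', Z s t * Z s' t' * (B t * B t') * (kap C (R s s' t t') * G t t') := by
  classical
  have hG0 : ∀ t t', 0 ≤ G t t' := fun t t' => (abs_nonneg _).trans (hFG t t')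
  have hkap : ∀ t t', kap C (R s s' t' t) = kap C (R s s' t t') := by
    intro t t'
    unfold kap
    by_cases h : R s s' t t'
    · rw [if_pos h, if_pos (hR _ _ _ _ h)]
    · rw [if_neg h, if_neg (fun h' => h (hR _ _ _ _ h'))]
  -- antisymmetrise
  have h1 : ∑ t, ∑ t', Z s t * Z s' t' * (B t * B t') * F t t' =
      (1 / 2) * ∑ t, ∑ t', (Z s t * Z s' t' - Z s t' * Z s' t) * (B t * B t') * F t t' := by
    have hsw : ∑ t, ∑ t', Z s t' * Z s' t * (B t * B t') * F t t' =
        - ∑ t, ∑ t', Z s t * Z s' t' * (B t * B t') * F t t' := by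
      rw [Finset.sum_comm, ← Finset.sum_neg_distrib]
      refine Finset.sum_congr rfl fun t _ => ?_
      rw [← Finset.sum_neg_distrib]
      refine Finset.sum_congr rfl fun t' _ => ?_
      rw [hF t t']; ring
    have : ∑ t, ∑ t', (Z s t * Z s' t' - Z s t' * Z s' t) * (B t * B t') * F t t' =
        ∑ t, ∑ t', Z s t * Z s' t' * (B t * B t') * F t t' -
        ∑ t, ∑ t', Z s t' * Z s' t * (B t * B t') * F t t' := by
      rw [← Finset.sum_sub_distrib]
      refine Finset.sum_congr rfl fun t _ => ?_
      rw [← Finset.sum_sub_distrib]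
      refine Finset.sum_congr rfl fun t' _ => ?_
      ring
    rw [this, hsw]; ring
  have h2 : ∑ t, ∑ t', Z s t * Z s' t' * (B t * B t') * (kap C (R s s' t t') * G t t') =
      (1 / 2) * ∑ t, ∑ t', (Z s t * Z s' t' + Z s t' * Z s' t) * (B t * B t') *
        (kap C (R s s' t t') * G t t') := by
    have hsw : ∑ t, ∑ t', Z s t' * Z s' t * (B t * B t') * (kap C (R s s' t t') * G t t') =
        ∑ t, ∑ t', Z s t * Z s' t' * (B t * B t') * (kap C (R s s' t t') * G t t') := by
      rw [Finset.sum_comm]
      refine Finset.sum_congr rfl fun t _ => ?_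
      refine Finset.sum_congr rfl fun t' _ => ?_
      rw [hkap t t', hG t t']; ring
    have : ∑ t, ∑ t', (Z s t * Z s' t' + Z s t' * Z s' t) * (B t * B t') *
        (kap C (R s s' t t') * G t t') =
        ∑ t, ∑ t', Z s t * Z s' t' * (B t * B t') * (kap C (R s s' t t') * G t t') +
        ∑ t, ∑ t', Z s t' * Z s' t * (B t * B t') * (kap C (R s s' t t') * G t t') := by
      rw [← Finset.sum_add_distrib]
      refine Finset.sum_congr rfl fun t _ => ?_
      rw [← Finset.sum_add_distrib]
      refine Finset.sum_congr rfl fun t' _ => ?_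
      ring
    rw [this, hsw]; ring
  rw [h1, h2, abs_mul, abs_of_nonneg (by norm_num : (0 : ℝ) ≤ 1 / 2)]
  refine mul_le_mul_of_nonneg_left ?_ (by norm_num)
  refine (Finset.abs_sum_le_sum_abs _ _).trans (Finset.sum_le_sum fun t _ => ?_)
  refine (Finset.abs_sum_le_sum_abs _ _).trans (Finset.sum_le_sum fun t' _ => ?_)
  have hBB : 0 ≤ B t * B t' := mul_nonneg (hB _) (hB _)
  have hA : 0 ≤ Z s t * Z s' t' := mul_nonneg (hZ _ _) (hZ _ _)
  have hA' : 0 ≤ Z s t' * Z s' t := mul_nonneg (hZ _ _) (hZ _ _)
  have key : |Z s t * Z s' t' - Z s t' * Z s' t| ≤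
      kap C (R s s' t t') * (Z s t * Z s' t' + Z s t' * Z s' t) := by
    unfold kap
    split_ifs with h
    · exact abs_sub_le_kappa hC (hcr _ _ _ _ h)
        (by have := hcr _ _ _ _ (hR _ _ _ _ h); linarith)
    · rw [one_mul]
      exact (abs_sub _ _).trans (by rw [abs_of_nonneg hA, abs_of_nonneg hA'])
  rw [abs_mul, abs_mul, abs_of_nonneg hBB]
  calc |Z s t * Z s' t' - Z s t' * Z s' t| * (B t * B t') * |F t t'|
      ≤ (kap C (R s s' t t') * (Z s t * Z s' t' + Z s t' * Z s' t)) * (B t * B t') * G t t' := by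
        refine mul_le_mul (mul_le_mul_of_nonneg_right key hBB) (hFG t t') (abs_nonneg _) ?_
        exact mul_nonneg (mul_nonneg (kap_nonneg hC _) (by linarith)) hBB
    _ = (Z s t * Z s' t' + Z s t' * Z s' t) * (B t * B t') * (kap C (R s s' t t') * G t t') := by
        ring

end Step

section Chain
variable {S : Type*} [Fintype S]

/-- One-replica transfer: `tr Z B f k s = sum over t_{k-1}, ..., t_0` of the weights times
`f t_0`. -/
noncomputable def tr (Z : ℕ → S → S → ℝ) (B : ℕ → S → ℝ) (f : S → ℝ) : ℕ → S → ℝ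
  | 0 => f
  | k + 1 => fun s => ∑ t, Z k s t * B k t * tr Z B f k t




variable (Z : ℕ → S → S → ℝ) (B : ℕ → S → ℝ) {C : ℝ}
    (R : ℕ → S → S → S → S → Prop) [∀ k s s' t t', Decidable (R k s s' t t')]





end Chain

end Crest.Agent.R144.Swp356
private theorem rz_2aa5a99ae5 : type_of% @_root_.Crest.Agent.R144.Swp356.tr.eq_def := @_root_.Crest.Agent.R144.Swp356.tr.eq_def -- L135
private theorem rz_b01336ef59 : type_of% @_root_.Crest.Agent.R144.Swp356.tr.eq_1 := @_root_.Crest.Agent.R144.Swp356.tr.eq_1 -- L135
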