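import Crest.Agent.R144.Zs2_349
import Crest.Agent.R144.Cb2_169
import Crest.Agent.R144.Mix3_880

/-!
# R144: the decoupling hypotheses of helper169 and helper880 (helper349)
-/

set_option autoImplicit false

namespace Crest.Agent.R144.Zs349

open Finset
open Crest.Agent.R144.It844 (P2)
open Crest.Agent.R144.Zg349 Crest.Agent.R144.Zm349 Crest.Agent.R144.Zd349 Crest.Agent.R144.Ze349

/-- helper169's `Dec` -/
theorem dec169 {c : ℝ} (hc : 1 ≤ c) : Crest.Agent.R144.Cb2169.Dec c := by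
  intro F W _ hW hWF g f hg hg1 hf
  refine dec_plus hc hW hWF hg (fun ω h t ht h1 => ?_) hf
  obtain ⟨v, hv, hv'⟩ := h1
  obtain ⟨t', ht', h2⟩ := mem_VF.1 hv
  exact hg1 ω h t ht ⟨t', ht', v, hv', h2⟩


end Crest.Agent.R144.Zs349
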