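import Crest.Agent.R144.Cc1_169
import Crest.Agent.R144.Zs3_349
import Crest.Agent.R144.Swp_356

-- ▼ part R144/Cc2_169
section

/-!
# R144 (CCW, step B), gluing of admissible configurations (helper169)

* `gl_mem` : the glued configuration is in the kernel of the outer one;
* `gl_gl` : gluing back;
* `wt_gl` : weights are exchanged; `wt_gl_in` : inner weights.
-/

set_option autoImplicit false
set_option linter.unusedSectionVars false
set_option linter.unusedSimpArgs false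

noncomputable section

namespace Crest.Agent.R144.Cc169

open Finset
open Crest.Agent.R144.It844 (P2 Lip adj_iff adj_symm lip_iff)
open Crest.ProbabilityR.HexHeights (Adj)
open Crest.Agent.R144.Zg349 Crest.Agent.R144.Zk349 Crest.Agent.R144.Zd349 Crest.Agent.R144.Zm349
open Crest.Agent.R144.Ze349
open Crest.Agent.R144.Cb2169 (Ex Cl Wd mem_Ex mem_Cl mem_Wd Ex_sub Cl_sub R_sub_Ex Ex_sub_Cl Ex_step
  layer_pC Ex_congr adj_of_share mem_D_of_path Stp)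

theorem C1_congr {h g : P2 → ℤ} {t : P2} (H : ∀ v ∈ up t, h v = g v) : C1 h t ↔ C1 g t := by
  unfold C1
  rw [H _ (cr_mem_up t 0), H _ (cr_mem_up t 1), H _ (cr_mem_up t 2)]

theorem C2_congr {h g : P2 → ℤ} {t : P2} (H : ∀ v ∈ up t, h v = g v) : C2 h t ↔ C2 g t := by
  unfold C2
  rw [H _ (cr_mem_up t 0), H _ (cr_mem_up t 1), H _ (cr_mem_up t 2)]

theorem ew_congr (c : ℝ) {ω η : Cfg} {t : P2} (H : ∀ v ∈ up t, ω.1 v = η.1 v) (hz : ω.2 t = η.2 t) :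
    ew c ω t = ew c η t := by
  unfold ew
  simp only [hz, C1_congr H, C2_congr H]

theorem c1_of_s1 {h : P2 → ℤ} {t : P2} (H : ∀ v ∈ up t, s1 (h v) = true) : C1 h t :=
  ⟨by rw [H _ (cr_mem_up t 0), H _ (cr_mem_up t 1)], by rw [H _ (cr_mem_up t 0), H _ (cr_mem_up t 2)]⟩

theorem ew_plus (c : ℝ) {ω : Cfg} {t : P2} (hz : ω.2 t = true) (H : ∀ v ∈ up t, s1 (ω.1 v) = true) :
    ew c ω t = 1 := by
  unfold ew
  rw [if_pos hz, if_pos (c1_of_s1 H)]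

namespace St
variable {s : St}

/-- the four types of triangles of `F` -/
theorem cases_F (ω : Cfg) (V : Finset P2) {t : P2} (ht : t ∈ s.F) :
    t ∈ s.N ω ∩ V ∨ t ∈ s.N ω \ V ∨ t ∈ s.X ω ∨ (t ∈ s.Rv ω ∧ t ∉ s.X ω) := by
  by_cases h1 : t ∈ s.Rv ω
  · by_cases h2 : t ∈ s.X ω
    · exact Or.inr (Or.inr (Or.inl h2))
    · exact Or.inr (Or.inr (Or.inr ⟨h1, h2⟩))
  · have h3 : t ∈ s.N ω := s.mem_N.2 ⟨ht, h1⟩
    by_cases h2 : t ∈ V
    · exact Or.inl (Finset.mem_inter.2 ⟨h3, h2⟩)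
    · exact Or.inr (Or.inl (Finset.mem_sdiff.2 ⟨h3, h2⟩))

theorem up_not_G {t : P2} (ht : t ∉ s.F) {v : P2} (hv : v ∈ up t) : v ∉ VF s.G := by
  intro h
  obtain ⟨g, hg, hvg⟩ := mem_VF.1 h
  by_cases hne : g = t
  · exact ht (s.hGF (hne ▸ hg))
  · exact ht (s.hnb g hg t (adj_of_share hne hvg hv))

section
variable {V : Finset P2} (hV : V ⊆ s.G) {ξ η : Cfg} (h0 : s.Eq0 η ξ) (hc : s.Cpt V ξ η)
  (aξ : s.Adm ξ) (aη : s.Adm η)

omit hV h0 hc aξ aη in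
theorem not_inN_of_Rv {ω : Cfg} {V : Finset P2} {t : P2} (h : t ∈ s.Rv ω) : t ∉ s.N ω ∩ V := fun h' =>
  (s.mem_N.1 (Finset.mem_inter.1 h').1).2 h

include h0 aξ aη

/-- on a layer triangle the glued configuration is plus closed, in the same block as `η` -/
theorem gl_layer {t v w : P2} (ht : t ∈ s.Rv η) (ht' : t ∉ s.X η) (hv : v ∈ up t) (hw : w ∈ up t) :
    s1 ((s.gl V ξ η).1 v) = true ∧ (s.gl V ξ η).1 v / 4 = η.1 w / 4 := by
  by_cases h : v ∈ s.Fr V η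
  · rw [gl_fr h]
    obtain ⟨_, b, c⟩ := layer_blk aη aξ.lip (aξ.cmp.mono (s.Rv_sub_F η)) h0 ht ht' hw hv
    exact ⟨b, c.symm⟩
  · rw [gl_nfr h]
    obtain ⟨a, _, c⟩ := layer_blk aη aη.lip (aη.cmp.mono (s.Rv_sub_F η)) (Eq0.refl s η) ht ht' hv hw
    exact ⟨a, c⟩

theorem gl_layer_z {t : P2} (ht : t ∈ s.Rv η) (ht' : t ∉ s.X η) : (s.gl V ξ η).2 t = true := by
  rw [gl_z' (not_inN_of_Rv ht)]
  exact (s.layer ht ht').1

include hV hc

theorem gl_lip : Lip (s.gl V ξ η).1 := by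
  apply Zs349.lip_of_cr
  intro t i j
  by_cases htF : t ∈ s.F
  · rcases cases_F η V htF with h | h | h | ⟨h, h'⟩
    · rw [gl_in hV h0 hc (mem_VF_of h (cr_mem_up t i)), gl_in hV h0 hc (mem_VF_of h (cr_mem_up t j))]
      exact Zs349.lip_cr aξ.lip t i j
    · rw [gl_out (mem_VF_of h (cr_mem_up t i)), gl_out (mem_VF_of h (cr_mem_up t j))]
      exact Zs349.lip_cr aη.lip t i j
    · rw [gl_X (mem_VF_of h (cr_mem_up t i)), gl_X (mem_VF_of h (cr_mem_up t j))]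
      exact Zs349.lip_cr aη.lip t i j
    · obtain ⟨a1, a2⟩ := gl_layer (V := V) h0 aξ aη h h' (cr_mem_up t i) (cr_mem_up t 0)
      obtain ⟨b1, b2⟩ := gl_layer (V := V) h0 aξ aη h h' (cr_mem_up t j) (cr_mem_up t 0)
      exact close_of_blk a1 b1 (a2.trans b2.symm)
  · have h1 : ∀ k, cr t k ∉ s.Fr V η := fun k hk => up_not_G htF (cr_mem_up t k) ((s.mem_Fr).1 hk).1
    rw [gl_nfr (h1 i), gl_nfr (h1 j)]
    exact Zs349.lip_cr aη.lip t i j

theorem gl_cmp : Cmp s.F (s.gl V ξ η) := by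
  intro t htF
  rcases cases_F η V htF with h | h | h | ⟨h, h'⟩
  · rw [gl_z h, C1_congr fun v hv => gl_in hV h0 hc (mem_VF_of h hv),
      C2_congr fun v hv => gl_in hV h0 hc (mem_VF_of h hv)]
    exact aξ.cmp t htF
  · rw [gl_z' (fun h' => (Finset.mem_sdiff.1 h).2 (Finset.mem_inter.1 h').2),
      C1_congr fun v hv => gl_out (mem_VF_of h hv), C2_congr fun v hv => gl_out (mem_VF_of h hv)]
    exact aη.cmp t htF
  · rw [gl_z' (not_inN_of_Rv (s.X_sub_Rv η h)),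
      C1_congr fun v hv => gl_X (mem_VF_of h hv), C2_congr fun v hv => gl_X (mem_VF_of h hv)]
    exact aη.cmp t htF
  · rw [gl_layer_z (V := V) h0 aξ aη h h']
    refine ⟨fun _ => c1_of_s1 fun v hv => (gl_layer (V := V) h0 aξ aη h h' hv hv).1, fun h'' => ?_⟩
    exact absurd h'' (by decide)

omit hV hc in
theorem gl_pC {t : P2} (ht : t ∈ s.Rv η) : pC η t ↔ pC (s.gl V ξ η) t := by
  by_cases ht' : t ∈ s.X η
  · unfold pC
    rw [gl_z' (not_inN_of_Rv ht), gl_X (mem_VF_of ht' (base_mem_up t))]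
  · exact ⟨fun _ => ⟨gl_layer_z (V := V) h0 aξ aη ht ht',
      (gl_layer (V := V) h0 aξ aη ht ht' (base_mem_up t) (base_mem_up t)).1⟩, fun _ => s.layer ht ht'⟩

omit hV hc in
theorem X_gl : s.X (s.gl V ξ η) = s.X η :=
  Ex_congr s.hRW fun _ ht => gl_pC (V := V) h0 aξ aη ht

theorem gl_mem0 : s.gl V ξ η ∈ s.K0 V η :=
  s.mem_K0.2 ⟨gl_lip hV h0 hc aξ aη, fun _ hv => gl_nfr hv, fun _ ht => gl_z' ht,
    X_gl h0 aξ aη⟩

/-- **the glued configuration is in the kernel of the outer one** -/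
theorem gl_mem : s.gl V ξ η ∈ s.K V η := s.mem_K.2 ⟨gl_mem0 hV h0 hc aξ aη, gl_cmp hV h0 hc aξ aη⟩

theorem gl_adm : s.Adm (s.gl V ξ η) := ⟨gl_lip hV h0 hc aξ aη, gl_cmp hV h0 hc aξ aη⟩

/-- gluing back -/
theorem gl_gl : s.gl V (s.gl V ξ η) (s.gl V η ξ) = ξ := by
  have hX1 := X_gl (V := V) h0 aξ aη
  have hX2 := X_gl (V := V) h0.symm aη aξ
  have hF2 : s.Fr V (s.gl V η ξ) = s.Fr V ξ := s.Fr_congr hX2 V
  have hF3 : s.Fr V ξ = s.Fr V η := h0.Fr V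
  have hN2 : s.N (s.gl V η ξ) = s.N ξ := s.N_congr hX2
  have hN3 : s.N ξ = s.N η := h0.N
  refine Prod.ext ?_ ?_
  · funext v
    by_cases hv : v ∈ s.Fr V ξ
    · rw [gl_fr (hF2.symm ▸ hv), gl_fr (hF3 ▸ hv)]
    · rw [gl_nfr (hF2.symm ▸ hv), gl_nfr hv]
  · funext t
    by_cases ht : t ∈ s.N ξ ∩ V
    · rw [gl_z (by rw [hN2]; exact ht), gl_z (by rw [← hN3]; exact ht)]
    · rw [gl_z' (by rw [hN2]; exact ht), gl_z' ht]

/-- `ew` of the glued configuration -/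
theorem ew_gl_in (c : ℝ) {t : P2} (h : t ∈ s.N η ∩ V) : ew c (s.gl V ξ η) t = ew c ξ t :=
  ew_congr c (fun _ hv => gl_in hV h0 hc (mem_VF_of h hv)) (gl_z h)

omit hV h0 hc aξ aη in
theorem ew_gl_out (c : ℝ) {V : Finset P2} {ξ η : Cfg} {t : P2} (h : t ∈ s.N η \ V) :
    ew c (s.gl V ξ η) t = ew c η t :=
  ew_congr c (fun _ hv => gl_out (mem_VF_of h hv))
    (gl_z' fun h' => (Finset.mem_sdiff.1 h).2 (Finset.mem_inter.1 h').2)

/-- inner weights -/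
theorem wt_gl_in (c : ℝ) : wt c (s.N η ∩ V) (s.gl V ξ η) = wt c (s.N η ∩ V) ξ :=
  Finset.prod_congr rfl fun _ ht => ew_gl_in hV h0 hc aξ aη c ht

end

theorem Cpt.symm {V : Finset P2} {ξ η : Cfg} (h0 : s.Eq0 η ξ) (h : s.Cpt V ξ η) : s.Cpt V η ξ := by
  intro v h1 h2
  rw [h0.N] at h1 h2
  exact (h v h1 h2).symm

/-- **weights are exchanged** -/
theorem wt_gl (c : ℝ) {V V' : Finset P2} (hV : V ⊆ s.G) (hVV : V ⊆ V') {ξ η : Cfg} (h0 : s.Eq0 η ξ)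
    (hc : s.Cpt V ξ η) (aξ : s.Adm ξ) (aη : s.Adm η) :
    wt c (s.N η ∩ V') (s.gl V ξ η) * wt c (s.N η ∩ V') (s.gl V η ξ) =
      wt c (s.N η ∩ V') ξ * wt c (s.N η ∩ V') η := by
  have hN : s.N ξ = s.N η := h0.N
  have hsub : s.N η ∩ V ⊆ s.N η ∩ V' := Finset.inter_subset_inter_left hVV
  unfold wt
  rw [← Finset.prod_mul_distrib, ← Finset.prod_mul_distrib]
  refine Finset.prod_congr rfl fun t ht => ?_
  by_cases h : t ∈ V
  · have h1 : t ∈ s.N η ∩ V := Finset.mem_inter.2 ⟨(Finset.mem_inter.1 ht).1, h⟩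
    have h2 : t ∈ s.N ξ ∩ V := by rw [hN]; exact h1
    rw [ew_gl_in hV h0 hc aξ aη c h1, ew_gl_in hV h0.symm (hc.symm h0) aη aξ c h2]
  · have h1 : t ∈ s.N η \ V := Finset.mem_sdiff.2 ⟨(Finset.mem_inter.1 ht).1, h⟩
    have h2 : t ∈ s.N ξ \ V := by rw [hN]; exact h1
    rw [ew_gl_out c h1, ew_gl_out c h2, mul_comm]

end St
end Crest.Agent.R144.Cc169
end
end

-- ▼ part R144/Cc3_169
section

/-!
# R144 (CCW, step B), normalised kernels (helper169)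

* `s.W c V ω`, `s.R c V f ω` : total weight and conditional expectation given the revealed information and the
  outside of `V`; `R_tower`, `R_loc`, `R_comm`; `s.R2` : two replicas.
-/

set_option autoImplicit false
set_option linter.unusedSectionVars false
set_option linter.unusedSimpArgs false

noncomputable section

namespace Crest.Agent.R144.Cc169

open Finset
open Crest.Agent.R144.It844 (P2 Lip adj_iff adj_symm lip_iff)
open Crest.ProbabilityR.HexHeights (Adj)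
open Crest.Agent.R144.Zg349 Crest.Agent.R144.Zk349 Crest.Agent.R144.Zd349 Crest.Agent.R144.Zm349
open Crest.Agent.R144.Ze349
open Crest.Agent.R144.Cb2169 (Ex Cl Wd mem_Ex mem_Cl mem_Wd Ex_sub Cl_sub R_sub_Ex Ex_sub_Cl Ex_step
  layer_pC Ex_congr adj_of_share mem_D_of_path Stp)

/-- averaging over the classes of a partition -/
theorem part_avg {α : Type*} (C : Finset α) (cls : α → Finset α) (hsub : ∀ a ∈ C, cls a ⊆ C)
    (hself : ∀ a ∈ C, a ∈ cls a) (heq : ∀ a ∈ C, ∀ b ∈ cls a, cls b = cls a) (o u f : α → ℝ)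
    (ho : ∀ a ∈ C, ∀ b ∈ cls a, o b = o a) (hU : ∀ a ∈ C, ∑ b ∈ cls a, u b ≠ 0) :
    ∑ a ∈ C, o a * u a * f a = ∑ a ∈ C, o a * u a * ((∑ b ∈ cls a, u b * f b) / ∑ b ∈ cls a, u b) := by
  have h1 : ∑ a ∈ C, o a * u a * ((∑ b ∈ cls a, u b * f b) / ∑ b ∈ cls a, u b) =
      ∑ a ∈ C, ∑ b ∈ cls a, o a * u a * (u b * f b) / ∑ d ∈ cls a, u d := by
    refine Finset.sum_congr rfl fun a _ => ?_
    rw [Finset.sum_div, Finset.mul_sum]
    exact Finset.sum_congr rfl fun b _ => by ring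
  rw [h1, Finset.sum_comm' (s' := fun b => cls b) (t' := C)]
  · refine Finset.sum_congr rfl fun b hb => ?_
    have h2 : ∑ a ∈ cls b, o a * u a * (u b * f b) / ∑ d ∈ cls a, u d =
        ∑ a ∈ cls b, u a * (o b * u b * f b / ∑ d ∈ cls b, u d) := by
      refine Finset.sum_congr rfl fun a ha => ?_
      rw [heq b hb a ha, ho b hb a ha]
      ring
    rw [h2, ← Finset.sum_mul]
    have := hU b hb
    field_simp
  · intro a b
    constructor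
    · rintro ⟨ha, hb⟩
      refine ⟨?_, hsub a ha hb⟩
      rw [heq a ha b hb]
      exact hself a ha
    · rintro ⟨ha, hb⟩
      refine ⟨hsub b hb ha, ?_⟩
      rw [heq b hb a ha]
      exact hself b hb

theorem wt_sub (c : ℝ) {A B : Finset P2} (h : A ⊆ B) (ω : Cfg) : wt c B ω = wt c (B \ A) ω * wt c A ω :=
  (Finset.prod_sdiff h).symm

namespace St
variable (s : St)

/-- total weight of the kernel -/
def W (c : ℝ) (V : Finset P2) (ω : Cfg) : ℝ := ∑ ξ ∈ s.K V ω, wt c (s.N ω ∩ V) ξ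

/-- conditional expectation given the revealed information and the outside of `V` -/
def R (c : ℝ) (V : Finset P2) (f : Cfg → ℝ) (ω : Cfg) : ℝ :=
  (∑ ξ ∈ s.K V ω, wt c (s.N ω ∩ V) ξ * f ξ) / s.W c V ω

variable {s}

open Classical in
/-- closing everything possible inside `V` -/
def clo (s : St) (V : Finset P2) (ω : Cfg) : Cfg :=
  (ω.1, fun t => if t ∈ s.N ω ∩ V then decide (C1 ω.1 t) else ω.2 t)

theorem clo_mem {V : Finset P2} {ω : Cfg} (h : s.Adm ω) : s.clo V ω ∈ s.K V ω := by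
  classical
  have hz : ∀ t, t ∉ s.N ω ∩ V → (s.clo V ω).2 t = ω.2 t := fun t ht => if_neg ht
  refine s.mem_K.2 ⟨s.mem_K0.2 ⟨h.lip, fun _ _ => rfl, hz, ?_⟩, ?_⟩
  · refine Ex_congr s.hRW fun t ht => ?_
    have ht' : t ∈ s.Rv ω := ht
    unfold pC
    rw [hz t (not_inN_of_Rv ht')]
    exact Iff.rfl
  · intro t ht
    by_cases h1 : t ∈ s.N ω ∩ V
    · have e : (s.clo V ω).2 t = decide (C1 ω.1 t) := if_pos h1
      have e1 : (s.clo V ω).1 = ω.1 := rfl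
      rw [e, e1]
      refine ⟨fun h2 => of_decide_eq_true h2, fun h2 => ?_⟩
      exact (c1_or_c2 (h := ω.1) (t := t) (fun i j => Zs349.lip_cr h.lip t i j)).resolve_left
        (of_decide_eq_false h2)
    · rw [hz t h1]
      exact h.cmp t ht

theorem clo_wt (c : ℝ) {V : Finset P2} {ω : Cfg} (h : s.Adm ω) : wt c (s.N ω ∩ V) (s.clo V ω) = 1 := by
  classical
  refine Finset.prod_eq_one fun t ht => ?_
  have e : (s.clo V ω).2 t = decide (C1 ω.1 t) := if_pos ht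
  have e1 : (s.clo V ω).1 = ω.1 := rfl
  unfold ew
  rw [e, e1]
  by_cases h1 : C1 ω.1 t
  · simp [h1]
  · have h2 : C2 ω.1 t := (c1_or_c2 (h := ω.1) (t := t)
      (fun i j => Zs349.lip_cr h.lip t i j)).resolve_left h1
    simp [h1, h2]

theorem W_pos {c : ℝ} (hc : 1 ≤ c) {V : Finset P2} {ω : Cfg} (h : s.Adm ω) : 0 < s.W c V ω := by
  refine Finset.sum_pos' (fun ξ _ => wt_nonneg hc _ ξ) ⟨s.clo V ω, clo_mem h, ?_⟩
  rw [clo_wt c h]
  exact one_pos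


theorem R_smul (c : ℝ) (V : Finset P2) (a : ℝ) (f : Cfg → ℝ) (ω : Cfg) :
    s.R c V (fun ξ => a * f ξ) ω = a * s.R c V f ω := by
  unfold R
  rw [mul_div_assoc', Finset.mul_sum]
  congr 1
  exact Finset.sum_congr rfl fun _ _ => by ring

theorem R_sub (c : ℝ) (V : Finset P2) (f g : Cfg → ℝ) (ω : Cfg) :
    s.R c V (fun ξ => f ξ - g ξ) ω = s.R c V f ω - s.R c V g ω := by
  unfold R
  rw [← sub_div, ← Finset.sum_sub_distrib]
  congr 1
  exact Finset.sum_congr rfl fun _ _ => by ring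

theorem R_const {c : ℝ} (hc : 1 ≤ c) (V : Finset P2) (a : ℝ) {ω : Cfg} (h : s.Adm ω) :
    s.R c V (fun _ => a) ω = a := by
  unfold R
  rw [← Finset.sum_mul]
  have := (W_pos hc (V := V) h).ne'
  unfold W at *
  field_simp

theorem R_congr (c : ℝ) {V : Finset P2} {f g : Cfg → ℝ} {ω : Cfg} (h : ∀ ξ ∈ s.K V ω, f ξ = g ξ) :
    s.R c V f ω = s.R c V g ω := by
  unfold R
  congr 1
  exact Finset.sum_congr rfl fun ξ hξ => by rw [h ξ hξ]

theorem R_mono {c : ℝ} (hc : 1 ≤ c) {V : Finset P2} {f g : Cfg → ℝ} {ω : Cfg} (ha : s.Adm ω)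
    (h : ∀ ξ ∈ s.K V ω, f ξ ≤ g ξ) : s.R c V f ω ≤ s.R c V g ω := by
  unfold R
  refine div_le_div_of_nonneg_right ?_ (W_pos hc ha).le
  exact Finset.sum_le_sum fun ξ hξ => mul_le_mul_of_nonneg_left (h ξ hξ) (wt_nonneg hc _ ξ)


theorem R_abs {c : ℝ} (hc : 1 ≤ c) {V : Finset P2} {f : Cfg → ℝ} {ω : Cfg} (ha : s.Adm ω) :
    |s.R c V f ω| ≤ s.R c V (fun ξ => |f ξ|) ω := by
  rw [abs_le]
  constructor
  · have h1 := R_mono hc ha (V := V) (f := fun ξ => (-1) * |f ξ|) (g := f) fun ξ _ => by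
      rw [neg_one_mul]; exact neg_abs_le _
    rw [R_smul, neg_one_mul] at h1
    exact h1
  · exact R_mono hc ha fun ξ _ => le_abs_self _

/-- weights off `V` are constant on the kernels -/
theorem wt_out {c : ℝ} {V V' : Finset P2} {ω η : Cfg} (h : η ∈ s.K V ω) :
    wt c ((s.N ω ∩ V') \ (s.N ω ∩ V)) η = wt c ((s.N ω ∩ V') \ (s.N ω ∩ V)) ω := by
  obtain ⟨_, a2, a3, _⟩ := s.mem_K0.1 (s.mem_K.1 h).1
  refine Finset.prod_congr rfl fun t ht => ?_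
  rw [Finset.mem_sdiff, Finset.mem_inter] at ht
  have h1 : t ∈ s.N ω \ V :=
    Finset.mem_sdiff.2 ⟨ht.1.1, fun h' => ht.2 (Finset.mem_inter.2 ⟨ht.1.1, h'⟩)⟩
  exact ew_congr c (fun v hv => a2 v fun h' => ((s.mem_Fr).1 h').2.2 (mem_VF_of h1 hv)) (a3 t ht.2)

theorem sum_tower {c : ℝ} (hc : 1 ≤ c) {V V' : Finset P2} (hV : V ⊆ V') (f : Cfg → ℝ) {ω : Cfg}
    (h : s.Adm ω) :
    ∑ η ∈ s.K V' ω, wt c (s.N ω ∩ V') η * f η = ∑ η ∈ s.K V' ω, wt c (s.N ω ∩ V') η * s.R c V f η := by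
  have hsub : s.N ω ∩ V ⊆ s.N ω ∩ V' := Finset.inter_subset_inter_left hV
  have e : ∀ η, wt c (s.N ω ∩ V') η =
      wt c ((s.N ω ∩ V') \ (s.N ω ∩ V)) η * wt c (s.N ω ∩ V) η := fun η => wt_sub c hsub η
  have hN : ∀ η ∈ s.K V' ω, s.N η = s.N ω := fun η hη => s.N_congr (s.X_of_K hη)
  have key := part_avg (s.K V' ω) (fun η => s.K V η) (fun η hη ξ hξ => s.K_trans hV hη hξ)
    (fun η hη => s.self_mem_K (s.adm_of_K hη))
    (fun η hη ξ hξ => s.K_eq (s.adm_of_K hη) hξ)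
    (fun η => wt c ((s.N ω ∩ V') \ (s.N ω ∩ V)) η) (fun η => wt c (s.N ω ∩ V) η) f
    (fun η hη ξ hξ => by
      have h1 := wt_out (c := c) (V' := V') hξ
      rw [hN η hη] at h1
      exact h1)
    (fun η hη => by
      have h1 := (W_pos hc (V := V) (s.adm_of_K hη)).ne'
      unfold W at h1
      rw [hN η hη] at h1
      exact h1)
  have l : ∑ η ∈ s.K V' ω, wt c (s.N ω ∩ V') η * f η =
      ∑ η ∈ s.K V' ω, wt c ((s.N ω ∩ V') \ (s.N ω ∩ V)) η * wt c (s.N ω ∩ V) η * f η :=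
    Finset.sum_congr rfl fun η _ => by rw [e]
  rw [l, key]
  refine Finset.sum_congr rfl fun η hη => ?_
  rw [e]
  unfold R W
  rw [hN η hη]

/-- **tower** -/
theorem R_tower {c : ℝ} (hc : 1 ≤ c) {V V' : Finset P2} (hV : V ⊆ V') (f : Cfg → ℝ) {ω : Cfg}
    (h : s.Adm ω) : s.R c V' (s.R c V f) ω = s.R c V' f ω := by
  unfold R
  rw [sum_tower hc hV f h]
  rfl

/-- factors constant on the kernel come out -/
theorem R_mul_of_const (c : ℝ) {V : Finset P2} {f g : Cfg → ℝ} {ω : Cfg} (h : ∀ ξ ∈ s.K V ω, g ξ = g ω) :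
    s.R c V (fun ξ => g ξ * f ξ) ω = g ω * s.R c V f ω := by
  rw [← R_smul]
  exact R_congr c fun ξ hξ => by rw [h ξ hξ]

/-- observables seen inside `V` -/
def LocV (s : St) (V : Finset P2) (f : Cfg → ℝ) : Prop :=
  ∀ ξ η, s.Adm ξ → s.Adm η → s.Eq0 η ξ → s.Cpt V ξ η → f (s.gl V ξ η) = f ξ

theorem cpt_of_K {V : Finset P2} {η η2 ξ : Cfg} (h0 : s.Eq0 η η2) (hc : s.Cpt V η η2)
    (hξ : ξ ∈ s.K V η) : s.Eq0 η2 ξ ∧ s.Cpt V ξ η2 := by
  refine ⟨h0.symm.trans (eq0_of_K hξ), fun v h1 h2 => ?_⟩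
  rw [← hc v h1 h2]
  refine (s.mem_K0.1 (s.mem_K.1 hξ).1).2.1 v fun h' => ((s.mem_Fr).1 h').2.2 ?_
  rw [← h0.N]
  exact h2

theorem gl_back {V : Finset P2} {η η2 ξ : Cfg}
    (h0 : s.Eq0 η η2) (hξ : ξ ∈ s.K V η) : s.gl V (s.gl V ξ η2) η = ξ := by
  obtain ⟨_, b2, b3, _⟩ := s.mem_K0.1 (s.mem_K.1 hξ).1
  refine Prod.ext ?_ ?_
  · funext v
    by_cases hv : v ∈ s.Fr V η
    · rw [gl_fr hv, gl_fr (by rw [h0.Fr]; exact hv)]
    · rw [gl_nfr hv, b2 v hv]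
  · funext t
    by_cases ht : t ∈ s.N η ∩ V
    · rw [gl_z ht, gl_z (by rw [h0.N]; exact ht)]
    · rw [gl_z' ht, b3 t ht]

/-- **locality** -/
theorem R_loc {c : ℝ} {V : Finset P2} (hV : V ⊆ s.G) {η η2 : Cfg} (a : s.Adm η) (a2 : s.Adm η2)
    (h0 : s.Eq0 η η2) (hc : s.Cpt V η η2) {f : Cfg → ℝ} (hf : s.LocV V f) :
    s.R c V f η = s.R c V f η2 := by
  have key : ∀ g : Cfg → ℝ, s.LocV V g → ∑ ξ ∈ s.K V η, wt c (s.N η ∩ V) ξ * g ξ =
      ∑ ξ ∈ s.K V η2, wt c (s.N η2 ∩ V) ξ * g ξ := by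
    intro g hg
    have hc' : s.Cpt V η2 η := Cpt.symm h0.symm hc
    refine Finset.sum_bij' (fun ξ _ => s.gl V ξ η2) (fun ζ _ => s.gl V ζ η) ?_ ?_ ?_ ?_ ?_
    · intro ξ hξ
      obtain ⟨e1, e2⟩ := cpt_of_K h0 hc hξ
      exact gl_mem hV e1 e2 (s.adm_of_K hξ) a2
    · intro ζ hζ
      obtain ⟨e1, e2⟩ := cpt_of_K h0.symm hc' hζ
      exact gl_mem hV e1 e2 (s.adm_of_K hζ) a
    · intro ξ hξ
      exact gl_back h0 hξ
    · intro ζ hζ
      exact gl_back h0.symm hζ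
    · intro ξ hξ
      obtain ⟨e1, e2⟩ := cpt_of_K h0 hc hξ
      rw [hg ξ η2 (s.adm_of_K hξ) a2 e1 e2, wt_gl_in hV e1 e2 (s.adm_of_K hξ) a2 c, h0.N]
  have hone : s.LocV V (fun _ => (1 : ℝ)) := fun _ _ _ _ _ _ => rfl
  unfold R W
  rw [key f hf]
  have h1 := key _ hone
  simp only [mul_one] at h1
  rw [h1]

/-- two different kernels commute -/
theorem R_comm (c : ℝ) (V V' : Finset P2) (H : Cfg → Cfg → ℝ) (ω ω' : Cfg) :
    s.R c V (fun ξ => s.R c V' (fun ξ' => H ξ ξ') ω') ω =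
      s.R c V' (fun ξ' => s.R c V (fun ξ => H ξ ξ') ω) ω' := by
  unfold R
  have l : ∀ (A B : Finset Cfg) (u v : Cfg → ℝ) (P Q : ℝ) (H : Cfg → Cfg → ℝ),
      (∑ ξ ∈ A, u ξ * ((∑ ξ' ∈ B, v ξ' * H ξ ξ') / Q)) / P =
        (∑ ξ ∈ A, ∑ ξ' ∈ B, u ξ * v ξ' * H ξ ξ') / (P * Q) := by
    intro A B u v P Q H
    have : ∀ ξ ∈ A, u ξ * ((∑ ξ' ∈ B, v ξ' * H ξ ξ') / Q) = (∑ ξ' ∈ B, u ξ * v ξ' * H ξ ξ') / Q := by
      intro ξ _
      rw [mul_div_assoc', Finset.mul_sum]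
      congr 1
      exact Finset.sum_congr rfl fun _ _ => by ring
    rw [Finset.sum_congr rfl this, ← Finset.sum_div, div_div, mul_comm Q P]
  rw [l, l _ _ _ _ _ _ (fun ξ' ξ => H ξ ξ'), Finset.sum_comm, mul_comm]
  congr 1
  exact Finset.sum_congr rfl fun _ _ => Finset.sum_congr rfl fun _ _ => by ring

variable (s) in
/-- two replicas -/
def R2 (c : ℝ) (V : Finset P2) (H : Cfg → Cfg → ℝ) (ω ω' : Cfg) : ℝ :=
  s.R c V (fun ξ => s.R c V (fun ξ' => H ξ ξ') ω') ω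

theorem R2_congr (c : ℝ) {V : Finset P2} {H H' : Cfg → Cfg → ℝ} {ω ω' : Cfg}
    (h : ∀ ξ ∈ s.K V ω, ∀ ξ' ∈ s.K V ω', H ξ ξ' = H' ξ ξ') : s.R2 c V H ω ω' = s.R2 c V H' ω ω' :=
  R_congr c fun ξ hξ => R_congr c fun ξ' hξ' => h ξ hξ ξ' hξ'

theorem R2_mono {c : ℝ} (hc : 1 ≤ c) {V : Finset P2} {H H' : Cfg → Cfg → ℝ} {ω ω' : Cfg}
    (a : s.Adm ω) (a' : s.Adm ω') (h : ∀ ξ ∈ s.K V ω, ∀ ξ' ∈ s.K V ω', H ξ ξ' ≤ H' ξ ξ') :
    s.R2 c V H ω ω' ≤ s.R2 c V H' ω ω' :=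
  R_mono hc a fun ξ hξ => R_mono hc a' fun ξ' hξ' => h ξ hξ ξ' hξ'

theorem R2_sub_eq {c : ℝ} (hc : 1 ≤ c) {V : Finset P2} (f : Cfg → ℝ) {ω ω' : Cfg}
    (a : s.Adm ω) (a' : s.Adm ω') :
    s.R2 c V (fun ξ ξ' => f ξ - f ξ') ω ω' = s.R c V f ω - s.R c V f ω' := by
  unfold R2
  have h1 : ∀ ξ ∈ s.K V ω, s.R c V (fun ξ' => f ξ - f ξ') ω' = f ξ - s.R c V f ω' := by
    intro ξ _
    rw [R_sub c V (fun _ => f ξ) f ω', R_const hc V _ a']
  rw [R_congr c h1, R_sub c V f (fun _ => s.R c V f ω') ω, R_const hc V _ a]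

theorem R2_abs {c : ℝ} (hc : 1 ≤ c) {V : Finset P2} {H : Cfg → Cfg → ℝ} {ω ω' : Cfg}
    (a : s.Adm ω) (a' : s.Adm ω') : |s.R2 c V H ω ω'| ≤ s.R2 c V (fun ξ ξ' => |H ξ ξ'|) ω ω' :=
  (R_abs hc a).trans (R_mono hc a fun _ _ => R_abs hc a')


theorem R2_smul (c : ℝ) (V : Finset P2) (a : ℝ) (H : Cfg → Cfg → ℝ) (ω ω' : Cfg) :
    s.R2 c V (fun ξ ξ' => a * H ξ ξ') ω ω' = a * s.R2 c V H ω ω' := by
  unfold R2
  rw [← R_smul]
  exact R_congr c fun ξ _ => R_smul c V _ _ _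

/-- **tower for two replicas** -/
theorem R2_tower {c : ℝ} (hc : 1 ≤ c) {V V' : Finset P2} (hV : V ⊆ V') (H : Cfg → Cfg → ℝ) {ω ω' : Cfg}
    (a : s.Adm ω) (a' : s.Adm ω') : s.R2 c V' (s.R2 c V H) ω ω' = s.R2 c V' H ω ω' := by
  unfold R2
  have h1 : ∀ ξ ∈ s.K V' ω, s.R c V' (fun ξ' => s.R c V (fun ζ => s.R c V (fun ζ' => H ζ ζ') ξ') ξ) ω' =
      s.R c V (fun ζ => s.R c V' (fun ζ' => H ζ ζ') ω') ξ := by
    intro ξ _
    rw [R_comm c V' V (fun ξ' ζ => s.R c V (fun ζ' => H ζ ζ') ξ') ω' ξ]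
    refine R_congr c fun ζ _ => ?_
    exact R_tower hc hV (fun ζ' => H ζ ζ') a'
  rw [R_congr c h1]
  exact R_tower hc hV (fun ζ => s.R c V' (fun ζ' => H ζ ζ') ω') a

end St
end Crest.Agent.R144.Cc169
end
end

-- ▼ part R144/Cc4_169
section

/-!
# R144 (CCW, step B), one block: cross ratio of the fibre sums (helper169)

* `Bk` : nested sets `V ⊆ Vi ⊆ Vm ⊆ Vo ⊆ V'`; `s.Gd b ω` good block (seen in the revealed information);
* `s.Bar b η` : the outer exploration (from `N \ V'`) with its layer stays off `Vo`, the inner one (from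
  `N ∩ V`) with its layer stays in `Vi`;
* `s.Sf c b ω r l` : weight of the configurations of the kernel `K V' ω` with a barrier, outer part `r` and
  inner part `l`;
* `sf_cross` : `p ^ 2 * (Sf ω r l * Sf ω' r' l') ≤ Sf ω r l' * Sf ω' r' l`.
-/

set_option autoImplicit false
set_option linter.unusedSectionVars false
set_option linter.unusedSimpArgs false

noncomputable section

namespace Crest.Agent.R144.Cc169

open Finset
open Crest.Agent.R144.It844 (P2 Lip adj_iff adj_symm lip_iff)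
open Crest.ProbabilityR.HexHeights (Adj)
open Crest.Agent.R144.Zg349 Crest.Agent.R144.Zk349 Crest.Agent.R144.Zd349 Crest.Agent.R144.Zm349
open Crest.Agent.R144.Ze349
open Crest.Agent.R144.Cb2169 (Ex Cl Wd mem_Ex mem_Cl mem_Wd Ex_sub Cl_sub R_sub_Ex Ex_sub_Cl Ex_step
  layer_pC Ex_congr adj_of_share mem_D_of_path Stp Apart Bar stepIn_symm rtg_symm rtg_mono)
open Crest.Agent.R144.Zs349 (Lay glue lev ins inH)

/-! ### simply connected sets -/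

/-- every triangle of `T` is joined to the outside of `D0` inside `T ∪ D0ᶜ` -/
def Anch (D0 T : Finset P2) : Prop :=
  ∀ t ∈ T, ∃ r, r ∉ D0 ∧ Relation.ReflTransGen (StepIn ((T : Set P2) ∪ (D0 : Set P2)ᶜ)) r t

theorem Anch.union {D0 T T' : Finset P2} (h : Anch D0 T) (h' : Anch D0 T') : Anch D0 (T ∪ T') := by
  intro t ht
  rcases Finset.mem_union.1 ht with h1 | h1
  · obtain ⟨r, hr, p⟩ := h t h1
    refine ⟨r, hr, rtg_mono ?_ p⟩
    rw [Finset.coe_union]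
    exact Set.union_subset_union_left _ Set.subset_union_left
  · obtain ⟨r, hr, p⟩ := h' t h1
    refine ⟨r, hr, rtg_mono ?_ p⟩
    rw [Finset.coe_union]
    exact Set.union_subset_union_left _ Set.subset_union_right

theorem Anch.empty (D0 : Finset P2) : Anch D0 ∅ := fun t ht => absurd ht (Finset.notMem_empty t)

theorem sc_sdiff {D0 T : Finset P2} (h0 : SC D0) (h : Anch D0 T) : SC (D0 \ T) := by
  set S : Set P2 := ((D0 \ T : Finset P2) : Set P2)ᶜ with hS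
  have hsub : ((D0 : Set P2)ᶜ) ⊆ S := by
    intro t ht h'
    exact ht (Finset.mem_coe.2 (Finset.mem_sdiff.1 (Finset.mem_coe.1 h')).1)
  have hsub2 : ((T : Set P2) ∪ (D0 : Set P2)ᶜ) ⊆ S := by
    intro t ht h'
    have h'' := Finset.mem_sdiff.1 (Finset.mem_coe.1 h')
    rcases ht with h1 | h1
    · exact h''.2 (Finset.mem_coe.1 h1)
    · exact h1 (Finset.mem_coe.2 h''.1)
  have key : ∀ t ∈ S, ∃ r ∈ ((D0 : Set P2)ᶜ), Relation.ReflTransGen (StepIn S) r t := by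
    intro t ht
    by_cases h1 : t ∈ D0
    · have h2 : t ∈ T := by
        by_contra h3
        exact ht (Finset.mem_coe.2 (Finset.mem_sdiff.2 ⟨h1, h3⟩))
      obtain ⟨r, hr, p⟩ := h t h2
      exact ⟨r, fun h' => hr (Finset.mem_coe.1 h'), rtg_mono hsub2 p⟩
    · exact ⟨t, fun h' => h1 (Finset.mem_coe.1 h'), .refl⟩
  intro u hu v hv
  obtain ⟨r, hr, h1⟩ := key u hu
  obtain ⟨r', hr', h2⟩ := key v hv
  exact (rtg_symm h1).trans ((rtg_mono hsub (h0 r hr r' hr')).trans h2)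

/-- a closed exploration is anchored at its start -/
theorem anch_cl {D0 D R : Finset P2} (hR : R ⊆ D) (hR0 : ∀ r ∈ R, r ∉ D0) (ω : Cfg) :
    Anch D0 (Cl D (Ex D R ω)) := by
  have h1 : ∀ t ∈ Ex D R ω, ∃ r, r ∉ D0 ∧
      Relation.ReflTransGen (StepIn ((Cl D (Ex D R ω) : Set P2) ∪ (D0 : Set P2)ᶜ)) r t := by
    intro t ht
    obtain ⟨_, r, hr, hp⟩ := mem_Ex.1 ht
    clear ht
    refine ⟨r, hR0 r hr, ?_⟩
    induction hp with
    | refl => exact .refl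
    | @tail b e h1 h2 ih =>
      have hb' : b ∈ Ex D R ω := mem_Ex.2 ⟨mem_D_of_path hR hr h1, r, hr, h1⟩
      have he' : e ∈ Ex D R ω := Ex_step hb' h2.1 h2.2.1 h2.2.2
      exact (ih (Ex_sub _ _ _ hb')).tail
        ⟨Or.inl (Finset.mem_coe.2 (Ex_sub_Cl ω hb')), Or.inl (Finset.mem_coe.2 (Ex_sub_Cl ω he')), h2.1⟩
  intro t ht
  obtain ⟨_, h2 | ⟨x, hx, hxt⟩⟩ := mem_Cl.1 ht
  · exact h1 t h2
  · obtain ⟨r, hr, p⟩ := h1 x hx
    exact ⟨r, hr, p.tail ⟨Or.inl (Finset.mem_coe.2 (Ex_sub_Cl ω hx)), Or.inl (Finset.mem_coe.2 ht), hxt⟩⟩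

/-- explored sets do not depend on the configuration on the start set -/
theorem Ex_congr' {D R : Finset P2} {ω ω' : Cfg} (hR : R ⊆ D)
    (h : ∀ t ∈ Cl D (Ex D R ω), t ∉ R → (pC ω t ↔ pC ω' t)) : Ex D R ω' = Ex D R ω := by
  apply Finset.Subset.antisymm
  · intro t ht
    obtain ⟨htD, r, hr, hp⟩ := mem_Ex.1 ht
    clear htD ht
    induction hp with
    | refl => exact R_sub_Ex hR ω hr
    | @tail b e _ h2 ih =>
      obtain ⟨hbe, he, hz⟩ := h2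
      by_cases heR : e ∈ R
      · exact R_sub_Ex hR ω heR
      · refine Ex_step ih hbe he fun h' => hz ?_
        exact (h e (mem_Cl.2 ⟨he, Or.inr ⟨b, ih, hbe⟩⟩) heR).1 h'
  · intro t ht
    obtain ⟨htD, r, hr, hp⟩ := mem_Ex.1 ht
    clear htD ht
    induction hp with
    | refl => exact R_sub_Ex hR ω' hr
    | @tail b e h1 h2 ih =>
      obtain ⟨hbe, he, hz⟩ := h2
      by_cases heR : e ∈ R
      · exact R_sub_Ex hR ω' heR
      · have hb' : b ∈ Ex D R ω := mem_Ex.2 ⟨mem_D_of_path hR hr h1, r, hr, h1⟩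
        have he' : e ∈ Ex D R ω := Ex_step hb' hbe he hz
        refine Ex_step ih hbe he fun h' => hz ?_
        exact (h e (Ex_sub_Cl ω he') heR).2 h'

/-! ### restrictions -/

/-- partial configurations -/
abbrev Pt : Type := Finset P2 × (P2 → ℤ) × (P2 → Bool)

open Classical in
/-- restriction of a configuration to a set of triangles -/
def res (E : Finset P2) (η : Cfg) : Pt :=
  (E, fun v => if v ∈ VF E then η.1 v else 0, fun t => if t ∈ E then η.2 t else true)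


theorem res_eq {E : Finset P2} {η η' : Cfg} (h1 : ∀ v ∈ VF E, η.1 v = η'.1 v)
    (h2 : ∀ t ∈ E, η.2 t = η'.2 t) : res E η = res E η' := by
  unfold res
  refine Prod.ext rfl (Prod.ext ?_ ?_)
  · funext v
    simp only
    by_cases h : v ∈ VF E
    · rw [if_pos h, if_pos h, h1 v h]
    · rw [if_neg h, if_neg h]
  · funext t
    simp only
    by_cases h : t ∈ E
    · rw [if_pos h, if_pos h, h2 t h]
    · rw [if_neg h, if_neg h]

theorem of_res_eq {E E' : Finset P2} {η η' : Cfg} (h : res E η = res E' η') :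
    E = E' ∧ (∀ v ∈ VF E, η.1 v = η'.1 v) ∧ (∀ t ∈ E, η.2 t = η'.2 t) := by
  have h1 : E = E' := congrArg Prod.fst h
  subst h1
  have h2 := congrArg (fun p : Pt => p.2.1) h
  have h3 := congrArg (fun p : Pt => p.2.2) h
  refine ⟨rfl, fun v hv => ?_, fun t ht => ?_⟩
  · have := congrFun h2 v
    simp only [res, if_pos hv] at this
    exact this
  · have := congrFun h3 t
    simp only [res, if_pos ht] at this
    exact this

/-! ### blocks -/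

/-- a block -/
structure Bk where
  V : Finset P2
  Vi : Finset P2
  Vm : Finset P2
  Vo : Finset P2
  V' : Finset P2

/-- sites linked through triangles of `Z` -/
def Lk (Z : Finset P2) : P2 → P2 → Prop :=
  Relation.ReflTransGen fun a b => ∃ t ∈ Z, a ∈ up t ∧ b ∈ up t

namespace St
variable (s : St)

/-- good block: the explored set is not adjacent to the strip inside the block -/
def Gd (b : Bk) (ω : Cfg) : Prop := ∀ t ∈ b.V' \ b.V, t ∉ s.Lay → ∀ r ∈ s.X ω, ¬ Adj r t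

/-- outer exploration -/
def Eo (b : Bk) (η : Cfg) : Finset P2 := Ex (s.N η) (s.N η \ b.V') η
/-- inner exploration -/
def Ei (b : Bk) (η : Cfg) : Finset P2 := Ex (s.N η) (s.N η ∩ b.V) η

/-- barrier event -/
def Bar (b : Bk) (η : Cfg) : Prop :=
  Disjoint (Cl (s.N η) (s.Eo b η)) b.Vo ∧ Cl (s.N η) (s.Ei b η) ⊆ b.Vi

/-- geometric hypotheses on a block -/
structure BkOK (b : Bk) : Prop where
  i1 : b.V ⊆ b.Vi
  i2 : b.Vi ⊆ b.Vm
  i3 : b.Vm ⊆ b.Vo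
  i4 : b.Vo ⊆ b.V'
  i5 : b.V' ⊆ s.G
  ap : Apart (b.V' \ b.Vo) b.Vi
  sc0 : SC (b.V' \ b.V)
  sco : SC b.Vo
  row : ∀ t ∈ s.RW, t ∈ b.V' \ b.V → ∃ r, r ∉ b.V' \ b.V ∧ Adj r t
  col : ∀ ω, s.Adm ω → s.Gd b ω → ∀ v, v ∈ VF (s.N ω ∩ b.Vm) → v ∈ VF (s.N ω \ b.Vm) →
    ∃ u, ∃ t1 ∈ s.N ω ∩ (b.Vo \ b.Vi), u ∈ up t1 ∧ (∃ t' ∈ s.Rv ω, t' ∉ s.X ω ∧ u ∈ up t') ∧
      Lk (s.N ω ∩ (b.Vo \ b.Vi)) v u

variable {s}

/-- the revealed set is anchored -/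
theorem anch_Rv {b : Bk} (hb : s.BkOK b) (ω : Cfg) : Anch (b.V' \ b.V) (s.Rv ω) := by
  have h1 : ∀ t ∈ s.X ω, ∃ r, r ∉ b.V' \ b.V ∧
      Relation.ReflTransGen (StepIn ((s.Rv ω : Set P2) ∪ ((b.V' \ b.V : Finset P2) : Set P2)ᶜ)) r t := by
    intro t ht
    obtain ⟨_, r, hr, hp⟩ := mem_Ex.1 ht
    clear ht
    have hrX : r ∈ s.X ω := R_sub_Ex s.hRW ω hr
    have hstart : ∃ r0, r0 ∉ b.V' \ b.V ∧
        Relation.ReflTransGen (StepIn ((s.Rv ω : Set P2) ∪ ((b.V' \ b.V : Finset P2) : Set P2)ᶜ)) r0 r := by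
      by_cases h : r ∈ b.V' \ b.V
      · obtain ⟨r0, h2, h3⟩ := hb.row r hr h
        exact ⟨r0, h2, Relation.ReflTransGen.single ⟨Or.inr fun h' => h2 (Finset.mem_coe.1 h'),
          Or.inl (Finset.mem_coe.2 (s.X_sub_Rv ω hrX)), h3⟩⟩
      · exact ⟨r, h, .refl⟩
    obtain ⟨r0, h0, p0⟩ := hstart
    refine ⟨r0, h0, ?_⟩
    induction hp with
    | refl => exact p0
    | @tail b' e h1 h2 ih =>
      have hb' : b' ∈ s.X ω := mem_Ex.2 ⟨mem_D_of_path s.hRW hr h1, r, hr, h1⟩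
      have he' : e ∈ s.X ω := Ex_step hb' h2.1 h2.2.1 h2.2.2
      exact (ih (s.X_sub ω hb')).tail
        ⟨Or.inl (Finset.mem_coe.2 (s.X_sub_Rv ω hb')), Or.inl (Finset.mem_coe.2 (s.X_sub_Rv ω he')), h2.1⟩
  intro t ht
  obtain ⟨_, h2 | ⟨x, hx, hxt⟩⟩ := mem_Cl.1 ht
  · exact h1 t h2
  · obtain ⟨r, hr, p⟩ := h1 x hx
    exact ⟨r, hr, p.tail ⟨Or.inl (Finset.mem_coe.2 (s.X_sub_Rv ω hx)), Or.inl (Finset.mem_coe.2 ht), hxt⟩⟩

theorem anch_Eo {b : Bk} (η : Cfg) : Anch (b.V' \ b.V) (Cl (s.N η) (s.Eo b η)) :=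
  anch_cl Finset.sdiff_subset (fun _ hr h => (Finset.mem_sdiff.1 hr).2 (Finset.mem_sdiff.1 h).1) η

theorem anch_Ei {b : Bk} (η : Cfg) : Anch (b.V' \ b.V) (Cl (s.N η) (s.Ei b η)) :=
  anch_cl Finset.inter_subset_left
    (fun _ hr h => (Finset.mem_sdiff.1 h).2 (Finset.mem_inter.1 hr).2) η

theorem anch_out {b : Bk} (hb : s.BkOK b) : Anch (b.V' \ b.V) (b.V' \ b.Vo) := by
  intro t ht
  obtain ⟨r, hr⟩ := Infinite.exists_notMem_finset b.V'
  have hr' : r ∉ b.V' \ b.V := fun h => hr (Finset.mem_sdiff.1 h).1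
  refine ⟨r, hr', ?_⟩
  have h1 : r ∈ ((b.Vo : Finset P2) : Set P2)ᶜ := fun h => hr (hb.i4 (Finset.mem_coe.1 h))
  have h2 : t ∈ ((b.Vo : Finset P2) : Set P2)ᶜ := fun h => (Finset.mem_sdiff.1 ht).2 (Finset.mem_coe.1 h)
  refine rtg_mono ?_ (hb.sco r h1 t h2)
  intro x hx
  by_cases h : x ∈ b.V'
  · exact Or.inl (Finset.mem_coe.2 (Finset.mem_sdiff.2 ⟨h, fun h' => hx (Finset.mem_coe.2 h')⟩))
  · exact Or.inr fun h' => h (Finset.mem_sdiff.1 (Finset.mem_coe.1 h')).1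

variable (s) in
/-- the domain of the block -/
def Dm (b : Bk) (ω : Cfg) : Finset P2 := s.N ω ∩ (b.V' \ b.V)

theorem Dm_eq {b : Bk} (hb : s.BkOK b) (ω : Cfg) : s.Dm b ω = (b.V' \ b.V) \ s.Rv ω := by
  ext t
  unfold Dm
  rw [Finset.mem_inter, Finset.mem_sdiff, s.mem_N, Finset.mem_sdiff, Finset.mem_sdiff]
  have := @hb.i5 t
  have := @s.hGF t
  tauto

theorem sc_Dm {b : Bk} (hb : s.BkOK b) (ω : Cfg) (T : Finset P2) (hT : Anch (b.V' \ b.V) T) :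
    SC (s.Dm b ω \ T) := by
  have e : s.Dm b ω \ T = (b.V' \ b.V) \ (s.Rv ω ∪ T) := by
    rw [Dm_eq hb]
    ext t
    simp only [Finset.mem_sdiff, Finset.mem_union]
    tauto
  rw [e]
  exact sc_sdiff hb.sc0 ((anch_Rv hb ω).union hT)

end St
end Crest.Agent.R144.Cc169
end
end

-- ▼ part R144/Cc5_169
section

/-!
# R144 (CCW, step B), one block: swap of the middle part (helper169)

`fib_eq` : the fibre sum over the configurations with a barrier, outer part `r` and inner part `l` is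
`Z c (middle)` times the fibre sum restricted to the configurations which are flat in the middle.
-/

set_option autoImplicit false
set_option linter.unusedSectionVars false
set_option linter.unusedSimpArgs false

noncomputable section

namespace Crest.Agent.R144.Cc169

open Finset
open Crest.Agent.R144.It844 (P2 Lip adj_iff adj_symm lip_iff)
open Crest.ProbabilityR.HexHeights (Adj)
open Crest.Agent.R144.Zg349 Crest.Agent.R144.Zk349 Crest.Agent.R144.Zd349 Crest.Agent.R144.Zm349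
open Crest.Agent.R144.Ze349
open Crest.Agent.R144.Cb2169 (Ex Cl Wd mem_Ex mem_Cl mem_Wd Ex_sub Cl_sub R_sub_Ex Ex_sub_Cl Ex_step
  layer_pC Ex_congr adj_of_share mem_D_of_path Stp Apart Bar stepIn_symm rtg_symm rtg_mono)
open Crest.Agent.R144.Zs349 (Lay glue lev ins inH)

/-- flat on a set of triangles -/
def Flt (M : Finset P2) (η : Cfg) : Prop := ∀ t ∈ M, η.2 t = true ∧ ∀ v ∈ up t, η.1 v % 4 = 0

theorem eq_flat {M : Finset P2} {ω' : Cfg} (h : Valid M ω') (h1 : ∀ t ∈ M, ω'.2 t = true)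
    (h2 : ∀ v ∈ VF M, ω'.1 v % 4 = 0) : ω' = flat := by
  have h3 : ω'.1 = fun _ => 0 := by
    have key : ∀ v, ω'.1 v % 4 = 0 := by
      intro v
      by_cases hv : v ∈ VF M
      · exact h2 v hv
      · rw [h.ht.off v hv]; norm_num
    refine height_inj h.ht (valid_flat M).ht (fun v => ?_) (fun v => ?_)
    · have := key v
      unfold s1
      rw [decide_eq_decide]
      omega
    · have := key v
      unfold s2
      rw [decide_eq_decide]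
      omega
  refine Prod.ext h3 ?_
  funext t
  by_cases ht : t ∈ M
  · exact h1 t ht
  · exact h.cl t ht

open Classical in
/-- sum over the inside of the flat indicator -/
theorem sum_flat {c : ℝ} {M : Finset P2} {η : Cfg} (hM : SC M) (hl : Lip η.1) (hL : Zs349.Lay true M η) :
    ∑ ω' ∈ conf M, wt c M ω' * (if Flt M (glue true M η ω') then 1 else 0) = 1 := by
  have hmod : ∀ v ∈ VF M, lev true M η v % 4 = 0 := fun v hv => Zs349.lev_mod hM hl hL hv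
  have key : ∀ ω' ∈ conf M, (Flt M (glue true M η ω') ↔ ω' = flat) := by
    intro ω' hω'
    constructor
    · intro h
      refine eq_flat (mem_conf.1 hω') (fun t ht => ?_) (fun v hv => ?_)
      · rw [← Zs349.glue_z (e := true) (ω := η) (ω' := ω') ht]
        exact (h t ht).1
      · obtain ⟨t, ht, hvt⟩ := mem_VF.1 hv
        have h1 := (h t ht).2 v hvt
        rw [Zs349.glue_in hv] at h1
        have h2 := hmod v hv
        omega
    · rintro rfl t ht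
      refine ⟨by rw [Zs349.glue_z ht]; rfl, fun v hv => ?_⟩
      have hv' : v ∈ VF M := mem_VF.2 ⟨t, ht, hv⟩
      rw [Zs349.glue_in hv']
      have h2 := hmod v hv'
      show (lev true M η v + 0) % 4 = 0
      omega
  rw [Finset.sum_eq_single flat]
  · rw [if_pos ((key flat (mem_conf.2 (valid_flat M))).2 rfl), wt_flat, mul_one]
  · intro ω' hω' hne
    rw [if_neg fun h => hne ((key ω' hω').1 h), mul_zero]
  · intro h
    exact absurd (mem_conf.2 (valid_flat M)) h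

namespace St
variable {s : St}

variable (s) in
/-- middle part -/
def Md (b : Bk) (ω : Cfg) (r l : Pt) : Finset P2 := s.Dm b ω \ (Cl (s.N ω) r.1 ∪ Cl (s.N ω) l.1)

variable (s) in
/-- structure of the configurations of a fibre -/
structure Fb (b : Bk) (r l : Pt) (η : Cfg) : Prop where
  bar : s.Bar b η
  ro : res (s.Eo b η) η = r
  li : res (s.Ei b η) η = l

theorem Fb.r1 {b : Bk} {r l : Pt} {η : Cfg} (h : s.Fb b r l η) : r.1 = s.Eo b η := by rw [← h.ro]; rfl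
theorem Fb.l1 {b : Bk} {r l : Pt} {η : Cfg} (h : s.Fb b r l η) : l.1 = s.Ei b η := by rw [← h.li]; rfl

theorem mem_Md {b : Bk} {ω η : Cfg} {r l : Pt} (h : s.Fb b r l η) (hN : s.N η = s.N ω) {t : P2} :
    t ∈ s.Md b ω r l ↔ t ∈ s.N η ∧ t ∈ b.V' \ b.V ∧ t ∉ Cl (s.N η) (s.Eo b η) ∧ t ∉ Cl (s.N η) (s.Ei b η) := by
  unfold Md Dm
  rw [h.r1, h.l1, ← hN, Finset.mem_sdiff, Finset.mem_inter, Finset.mem_union]
  tauto

theorem sc_Md {b : Bk} (hb : s.BkOK b) {ω η η' : Cfg} {r l r' l' : Pt} (h : s.Fb b r l η)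
    (h' : s.Fb b r' l' η') (hN : s.N η = s.N ω) (hN' : s.N η' = s.N ω) : SC (s.Md b ω r l') := by
  unfold Md
  rw [h.r1, h'.l1]
  refine sc_Dm hb ω _ (Anch.union ?_ ?_)
  · rw [← hN]; exact anch_Eo η
  · rw [← hN']; exact anch_Ei η'

/-- neighbours of the middle part -/
theorem Md_nb {b : Bk} (hb : s.BkOK b) {ω η : Cfg} {r l : Pt} (hg : s.Gd b ω) (h : s.Fb b r l η)
    (hX : s.X η = s.X ω) {m t : P2} (hm : m ∈ s.Md b ω r l) (hmt : Adj m t) :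
    t ∈ s.F ∧ t ∉ s.Eo b η ∧ t ∉ s.Ei b η ∧ t ∉ s.X ω ∧ t ∉ s.N η \ b.V' ∧
      (t ∉ s.Md b ω r l → pC η t) := by
  have hN := s.N_congr hX
  rw [mem_Md h hN] at hm
  obtain ⟨m1, m2, m3, m4⟩ := hm
  have hmG : m ∈ s.G := hb.i5 (Finset.mem_sdiff.1 m2).1
  have htF : t ∈ s.F := s.hnb m hmG t hmt
  have c1 : t ∉ s.Eo b η := fun h1 => m3 (mem_Cl.2 ⟨m1, Or.inr ⟨t, h1, adj_symm hmt⟩⟩)
  have c2 : t ∉ s.Ei b η := fun h1 => m4 (mem_Cl.2 ⟨m1, Or.inr ⟨t, h1, adj_symm hmt⟩⟩)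
  have c3 : t ∉ s.X ω := by
    intro h1
    by_cases hmL : m ∈ s.Lay
    · rw [hN] at m1
      exact (s.mem_N.1 m1).2 (mem_Cl.2 ⟨hmL, Or.inr ⟨t, h1, adj_symm hmt⟩⟩)
    · exact hg m m2 hmL t h1 (adj_symm hmt)
  have c4 : t ∉ s.N η \ b.V' := fun h1 => c1 (R_sub_Ex Finset.sdiff_subset η h1)
  refine ⟨htF, c1, c2, c3, c4, fun htM => ?_⟩
  by_cases htR : t ∈ s.Rv ω
  · exact s.layer ((s.Rv_congr hX).symm ▸ htR) (hX.symm ▸ c3)
  · have htN : t ∈ s.N η := by rw [hN]; exact s.mem_N.2 ⟨htF, htR⟩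
    have htV : t ∈ b.V' \ b.V := by
      rw [Finset.mem_sdiff]
      constructor
      · by_contra h1
        exact c4 (Finset.mem_sdiff.2 ⟨htN, h1⟩)
      · intro h1
        exact c2 (R_sub_Ex Finset.inter_subset_left η (Finset.mem_inter.2 ⟨htN, h1⟩))
    rw [mem_Md h hN] at htM
    have : t ∈ Cl (s.N η) (s.Eo b η) ∨ t ∈ Cl (s.N η) (s.Ei b η) := by
      by_contra h1
      push Not at h1
      exact htM ⟨htN, htV, h1.1, h1.2⟩
    rcases this with h1 | h1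
    · exact layer_pC h1 c1
    · exact layer_pC h1 c2

open Classical in
variable (s) in
/-- ambient family for the swap -/
def Fam (b : Bk) (ω : Cfg) (r l : Pt) : Finset Cfg :=
  (s.K0 b.V' ω).filter fun η => s.Fb b r l η ∧ Cmp (s.F \ s.Md b ω r l) η

theorem mem_Fam {b : Bk} {ω : Cfg} {r l : Pt} {η : Cfg} :
    η ∈ s.Fam b ω r l ↔ η ∈ s.K0 b.V' ω ∧ s.Fb b r l η ∧ Cmp (s.F \ s.Md b ω r l) η := by
  simp only [Fam, Finset.mem_filter]

section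
variable {b : Bk} (hb : s.BkOK b) {ω : Cfg} (hg : s.Gd b ω) {r l : Pt}
include hb hg


theorem fam_lay {η : Cfg} (h : η ∈ s.Fam b ω r l) : Zs349.Lay true (s.Md b ω r l) η := by
  obtain ⟨h1, h2, h3⟩ := mem_Fam.1 h
  have hX : s.X η = s.X ω := (s.mem_K0.1 h1).2.2.2
  rintro t ht ⟨v, hv, hvt⟩
  obtain ⟨m, hm, hvm⟩ := mem_VF.1 hv
  have hmt : Adj m t := adj_of_share (fun h' => ht (h' ▸ hm)) hvm hvt
  obtain ⟨a1, _, _, _, _, a6⟩ := Md_nb hb hg h2 hX hm hmt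
  have hp := a6 ht
  exact ⟨hp.1, fun u hu => pC_all h3 (Finset.mem_sdiff.2 ⟨a1, ht⟩) hp hu⟩

/-- sites of the middle part are free -/
theorem VF_Md_fr {η : Cfg} (h2 : s.Fb b r l η) (hX : s.X η = s.X ω) {v : P2}
    (hv : v ∈ VF (s.Md b ω r l)) :
    v ∈ s.Fr b.V' ω ∧ v ∉ VF (s.Eo b η) ∧ v ∉ VF (s.Ei b η) := by
  have hN := s.N_congr hX
  obtain ⟨m, hm, hvm⟩ := mem_VF.1 hv
  have hm' := (mem_Md h2 hN).1 hm
  have nb : ∀ t, v ∈ up t → t = m ∨ (t ∉ s.Eo b η ∧ t ∉ s.Ei b η ∧ t ∉ s.X ω ∧ t ∉ s.N η \ b.V') := by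
    intro t hvt
    by_cases hmt : t = m
    · exact Or.inl hmt
    · obtain ⟨_, a2, a3, a4, a5, _⟩ := Md_nb hb hg h2 hX hm (adj_of_share (fun h => hmt h.symm) hvm hvt)
      exact Or.inr ⟨a2, a3, a4, a5⟩
  have mG : m ∈ s.G := hb.i5 (Finset.mem_sdiff.1 hm'.2.1).1
  refine ⟨s.mem_Fr.2 ⟨mem_VF_of mG hvm, fun h => ?_, fun h => ?_⟩, fun h => ?_, fun h => ?_⟩
  · obtain ⟨t, ht, hvt⟩ := mem_VF.1 h
    rcases nb t hvt with rfl | ⟨_, _, h3, _⟩
    · have := hm'.1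
      rw [hN] at this
      exact (s.mem_N.1 this).2 (s.X_sub_Rv ω ht)
    · exact h3 ht
  · obtain ⟨t, ht, hvt⟩ := mem_VF.1 h
    rcases nb t hvt with rfl | ⟨_, _, _, h4⟩
    · exact (Finset.mem_sdiff.1 ht).2 (Finset.mem_sdiff.1 hm'.2.1).1
    · rw [hN] at h4
      exact h4 ht
  · obtain ⟨t, ht, hvt⟩ := mem_VF.1 h
    rcases nb t hvt with rfl | ⟨h1, _, _, _⟩
    · exact hm'.2.2.1 (Ex_sub_Cl η ht)
    · exact h1 ht
  · obtain ⟨t, ht, hvt⟩ := mem_VF.1 h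
    rcases nb t hvt with rfl | ⟨_, h1, _, _⟩
    · exact hm'.2.2.2 (Ex_sub_Cl η ht)
    · exact h1 ht

theorem fam_glue {η : Cfg} (h : η ∈ s.Fam b ω r l) (hL : Zs349.Lay true (s.Md b ω r l) η) {ω' : Cfg}
    (hω' : ω' ∈ conf (s.Md b ω r l)) : glue true (s.Md b ω r l) η ω' ∈ s.Fam b ω r l := by
  obtain ⟨h1, h2, h3⟩ := mem_Fam.1 h
  obtain ⟨k1, k2, k3, hX⟩ := s.mem_K0.1 h1
  have hN := s.N_congr hX
  have hM := sc_Md hb h2 h2 hN hN
  have hv' := mem_conf.1 hω'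
  set M := s.Md b ω r l with hMdef
  set g := glue true M η ω' with hgdef
  have hpC : ∀ t, t ∉ M → (pC η t ↔ pC g t) := by
    intro t ht
    unfold pC
    rw [hgdef, Zs349.glue_z' ht, Zs349.glue_s1_off hM k1 hL hv'
      (fun h => ht (mem_of_corner (base_mem_up t) h))]
  have hMN : ∀ t ∈ M, t ∈ s.N ω := fun t ht => by
    have := ((mem_Md h2 hN).1 ht).1
    rwa [hN] at this
  have hXg : s.X g = s.X ω := by
    rw [← hX]
    refine Ex_congr s.hRW fun t ht => hpC t fun htM => ?_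
    have : t ∈ s.Rv η := ht
    rw [s.Rv_congr hX] at this
    exact (s.mem_N.1 (hMN t htM)).2 this
  have hNg : s.N g = s.N η := by rw [s.N_congr hXg, hN]
  have hEo : s.Eo b g = s.Eo b η := by
    unfold Eo
    rw [hNg]
    exact Ex_congr Finset.sdiff_subset fun t ht => hpC t fun htM => ((mem_Md h2 hN).1 htM).2.2.1 ht
  have hEi : s.Ei b g = s.Ei b η := by
    unfold Ei
    rw [hNg]
    exact Ex_congr Finset.inter_subset_left fun t ht => hpC t fun htM => ((mem_Md h2 hN).1 htM).2.2.2 ht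
  have hout : ∀ v, v ∉ VF M → g.1 v = η.1 v := fun v hv => Zs349.glue_out hv
  have hzout : ∀ t, t ∉ M → g.2 t = η.2 t := fun t ht => Zs349.glue_z' ht
  refine mem_Fam.2 ⟨s.mem_K0.2 ⟨Zs349.glue_lip hM k1 hL hv', fun v hv => ?_, fun t ht => ?_, hXg⟩,
    ⟨?_, ?_, ?_⟩, ?_⟩
  · rw [hout v fun hv' => hv (VF_Md_fr hb hg h2 hX hv').1]
    exact k2 v hv
  · rw [hzout t fun htM => ht ?_]
    · exact k3 t ht
    · exact Finset.mem_inter.2 ⟨hMN t htM, (Finset.mem_sdiff.1 ((mem_Md h2 hN).1 htM).2.1).1⟩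
  · unfold Bar
    rw [hEo, hEi, hNg]
    exact h2.bar
  · rw [hEo, ← h2.ro]
    refine res_eq (fun v hv => hout v fun hv' => (VF_Md_fr hb hg h2 hX hv').2.1 hv)
      (fun t ht => hzout t fun htM => ((mem_Md h2 hN).1 htM).2.2.1 (Ex_sub_Cl η ht))
  · rw [hEi, ← h2.li]
    refine res_eq (fun v hv => hout v fun hv' => (VF_Md_fr hb hg h2 hX hv').2.2 hv)
      (fun t ht => hzout t fun htM => ((mem_Md h2 hN).1 htM).2.2.2 (Ex_sub_Cl η ht))
  · intro t ht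
    obtain ⟨htF, htM⟩ := Finset.mem_sdiff.1 ht
    by_cases hsh : ∃ v ∈ VF M, v ∈ up t
    · obtain ⟨a1, a2⟩ := Zs349.glue_lay hM k1 hL hv' t htM hsh
      rw [← hgdef] at a1 a2
      refine ⟨fun _ => c1_of_s1 a2, fun h' => ?_⟩
      rw [a1] at h'
      exact absurd h' (by decide)
    · push Not at hsh
      have e1 : ∀ v ∈ up t, g.1 v = η.1 v := fun v hv => hout v fun h' => hsh v h' hv
      rw [hzout t htM, C1_congr e1, C2_congr e1]
      exact h3 t ht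

variable (s r l) in
open Classical in
/-- fibre -/
def FK (b : Bk) (ω : Cfg) : Finset Cfg := (s.K b.V' ω).filter fun η => s.Fb b r l η

omit hb hg in
theorem mem_FK {η : Cfg} : η ∈ s.FK r l b ω ↔ η ∈ s.K b.V' ω ∧ s.Fb b r l η := by
  simp only [FK, Finset.mem_filter]

variable (s r l) in
open Classical in
/-- flat fibre -/
def GK (b : Bk) (ω : Cfg) : Finset Cfg := (s.FK r l b ω).filter fun η => Flt (s.Md b ω r l) η

omit hb hg in
theorem mem_GK {η : Cfg} : η ∈ s.GK r l b ω ↔ η ∈ s.FK r l b ω ∧ Flt (s.Md b ω r l) η := by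
  simp only [GK, Finset.mem_filter]

omit hb hg in
theorem cmp_of_flt {M : Finset P2} {η : Cfg} (h : Flt M η) : Cmp M η := by
  intro t ht
  obtain ⟨h1, h2⟩ := h t ht
  refine ⟨fun _ => c1_of_s1 fun v hv => ?_, fun h' => ?_⟩
  · rw [s1_true, h2 v hv]; norm_num
  · rw [h1] at h'
    exact absurd h' (by decide)

omit hb hg in
theorem FK_sub : s.FK r l b ω ⊆ s.Fam b ω r l := by
  intro η h
  obtain ⟨h1, h2⟩ := mem_FK.1 h
  obtain ⟨h3, h4⟩ := s.mem_K.1 h1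
  exact mem_Fam.2 ⟨h3, h2, h4.mono Finset.sdiff_subset⟩

omit hb hg in
theorem cmp_split {M : Finset P2} {η : Cfg} (h : Cmp (s.F \ M) η) (h' : Cmp M η) : Cmp s.F η := by
  intro t ht
  by_cases hM : t ∈ M
  · exact h' t hM
  · exact h t (Finset.mem_sdiff.2 ⟨ht, hM⟩)

omit hb hg in
theorem Md_sub {η : Cfg} (h2 : s.Fb b r l η) (hN : s.N η = s.N ω) : s.Md b ω r l ⊆ s.N ω ∩ b.V' := by
  intro t ht
  obtain ⟨a, a', _⟩ := (mem_Md h2 hN).1 ht
  rw [hN] at a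
  exact Finset.mem_inter.2 ⟨a, (Finset.mem_sdiff.1 a').1⟩

/-- **swap of the middle part** -/
theorem fib_eq (c : ℝ) : ∑ η ∈ s.FK r l b ω, wt c (s.N ω ∩ b.V') η =
    Z c (s.Md b ω r l) * ∑ η ∈ s.GK r l b ω, wt c (s.N ω ∩ b.V') η := by
  classical
  by_cases hne : ∃ η0, η0 ∈ s.Fam b ω r l
  · obtain ⟨η0, hη0⟩ := hne
    obtain ⟨g1, g2, _⟩ := mem_Fam.1 hη0
    have hX0 : s.X η0 = s.X ω := (s.mem_K0.1 g1).2.2.2
    have hN0 := s.N_congr hX0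
    have hM := sc_Md hb g2 g2 hN0 hN0
    have hMK := Md_sub g2 hN0
    have e0 : (s.Fam b ω r l).filter (Zs349.Lay true (s.Md b ω r l)) = s.Fam b ω r l :=
      Finset.filter_true_of_mem fun η hη => fam_lay hb hg hη
    have sw := Zs349.swap (e := true) hM c hMK (s.Fam b ω r l) (fun η hη => (s.mem_K0.1 (mem_Fam.1 hη).1).1)
      (fun η hη hL ω' hω' => fam_glue hb hg hη hL hω') (fun η => if Flt (s.Md b ω r l) η then 1 else 0)
    rw [e0] at sw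
    have r1 : ∑ η ∈ s.Fam b ω r l, wt c (s.N ω ∩ b.V') η * ∑ ω' ∈ conf (s.Md b ω r l),
        wt c (s.Md b ω r l) ω' * (if Flt (s.Md b ω r l) (glue true (s.Md b ω r l) η ω') then 1 else 0) =
        ∑ η ∈ s.Fam b ω r l, wt c (s.N ω ∩ b.V') η := by
      refine Finset.sum_congr rfl fun η hη => ?_
      rw [sum_flat hM (s.mem_K0.1 (mem_Fam.1 hη).1).1 (fam_lay hb hg hη), mul_one]
    have r2 : ∑ η ∈ s.Fam b ω r l, wt c (s.N ω ∩ b.V') η = ∑ η ∈ s.FK r l b ω, wt c (s.N ω ∩ b.V') η := by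
      refine (Finset.sum_subset FK_sub fun η hη hη' => ?_).symm
      by_contra hw
      obtain ⟨h1, h2, h3⟩ := mem_Fam.1 hη
      exact hη' (mem_FK.2 ⟨s.mem_K.2 ⟨h1, cmp_split h3 ((cmp_of_wt hw).mono hMK)⟩, h2⟩)
    have r3 : ∑ η ∈ s.Fam b ω r l, wt c (s.N ω ∩ b.V') η * (if Flt (s.Md b ω r l) η then 1 else 0) =
        ∑ η ∈ s.GK r l b ω, wt c (s.N ω ∩ b.V') η := by
      have : (s.Fam b ω r l).filter (fun η => Flt (s.Md b ω r l) η) = s.GK r l b ω := by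
        ext η
        rw [Finset.mem_filter, mem_GK]
        constructor
        · rintro ⟨h4, h5⟩
          obtain ⟨h1, h2, h3⟩ := mem_Fam.1 h4
          exact ⟨mem_FK.2 ⟨s.mem_K.2 ⟨h1, cmp_split h3 (cmp_of_flt h5)⟩, h2⟩, h5⟩
        · rintro ⟨h4, h5⟩
          exact ⟨FK_sub h4, h5⟩
      rw [← this, Finset.sum_filter]
      refine Finset.sum_congr rfl fun η _ => ?_
      split_ifs <;> simp
    rw [r3, r1, r2] at sw
    rw [← sw, mul_comm]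
  · have e1 : s.FK r l b ω = ∅ := Finset.eq_empty_of_forall_notMem fun η h => hne ⟨η, FK_sub h⟩
    have e2 : s.GK r l b ω = ∅ := Finset.eq_empty_of_forall_notMem fun η h => by
      have := (mem_GK.1 h).1
      rw [e1] at this
      exact absurd this (Finset.notMem_empty η)
    rw [e1, e2]
    simp

end

end St
end Crest.Agent.R144.Cc169
end
end

-- ▼ part R144/Cc6_169
section

/-!
# R144 (CCW, step B), one block: exchange and cross ratio (helper169)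

`sf_cross` : for two admissible configurations with the same revealed information, in a good block,
`p ^ 2 * (Sf ω r l * Sf ω' r' l') ≤ Sf ω r l' * Sf ω' r' l`.
-/

set_option autoImplicit false
set_option linter.unusedSectionVars false
set_option linter.unusedSimpArgs false

noncomputable section

namespace Crest.Agent.R144.Cc169

open Finset
open Crest.Agent.R144.It844 (P2 Lip adj_iff adj_symm lip_iff)
open Crest.ProbabilityR.HexHeights (Adj)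
open Crest.Agent.R144.Zg349 Crest.Agent.R144.Zk349 Crest.Agent.R144.Zd349 Crest.Agent.R144.Zm349
open Crest.Agent.R144.Ze349
open Crest.Agent.R144.Cb2169 (Ex Cl Wd mem_Ex mem_Cl mem_Wd Ex_sub Cl_sub R_sub_Ex Ex_sub_Cl Ex_step
  layer_pC Ex_congr adj_of_share mem_D_of_path Stp Apart stepIn_symm rtg_symm rtg_mono)

namespace St
variable {s : St}

section
variable {b : Bk} (hb : s.BkOK b) {ω ω' : Cfg} (aω : s.Adm ω) (h0 : s.Eq0 ω ω')
  (hg : s.Gd b ω) {r l r' l' : Pt}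

/-- the middle zone is in the middle part -/
theorem zone_Md (hb : s.BkOK b) {η : Cfg} (h : s.Fb b r l η) (hN : s.N η = s.N ω) {t : P2}
    (ht : t ∈ s.N ω ∩ (b.Vo \ b.Vi)) : t ∈ s.Md b ω r l := by
  rw [Finset.mem_inter, Finset.mem_sdiff] at ht
  rw [mem_Md h hN]
  refine ⟨by rw [hN]; exact ht.1, Finset.mem_sdiff.2 ⟨hb.i4 ht.2.1, fun h' => ht.2.2 (hb.i1 h')⟩, ?_, ?_⟩
  · exact fun h' => Finset.disjoint_left.1 h.bar.1 h' ht.2.1
  · exact fun h' => ht.2.2 (h.bar.2 h')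

/-- heights are constant along flat links -/
theorem lk_eq {Z : Finset P2} {η : Cfg} (hl : Lip η.1) (hf : Flt Z η) {v u : P2} (h : Lk Z v u) :
    η.1 v = η.1 u := by
  unfold Lk at h
  induction h with
  | refl => rfl
  | @tail a c _ h2 ih =>
    obtain ⟨t, ht, h3, h4⟩ := h2
    have h5 := (hf t ht).2 a h3
    have h6 := (hf t ht).2 c h4
    have h7 := abs_le.1 (up_close hl h3 h4)
    omega

theorem eq0_pair (h0 : s.Eq0 ω ω') {V : Finset P2} {η η' : Cfg} (h : η ∈ s.K V ω) (h' : η' ∈ s.K V ω') :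
    s.Eq0 η η' := (eq0_of_K h).symm.trans (h0.trans (eq0_of_K h'))

include hb aω h0 hg

theorem agree {η η' : Cfg} (h : η ∈ s.K b.V' ω) (h' : η' ∈ s.K b.V' ω') (hF : s.Fb b r l η)
    (hF' : s.Fb b r' l' η') (hf : Flt (s.Md b ω r l) η) (hf' : Flt (s.Md b ω r' l') η') :
    s.Cpt b.Vm η' η := by
  have hX : s.X η = s.X ω := s.X_of_K h
  have hN := s.N_congr hX
  have hX' : s.X η' = s.X ω := (s.X_of_K h').trans h0.X
  have hN' := s.N_congr hX'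
  intro v h1 h2
  rw [hN] at h1 h2
  obtain ⟨u, t1, ht1, hu1, ⟨t', ht', htX, hut⟩, hlk⟩ := hb.col ω aω hg v h1 h2
  have z : Flt (s.N ω ∩ (b.Vo \ b.Vi)) η := fun t ht => hf t (zone_Md hb hF hN ht)
  have z' : Flt (s.N ω ∩ (b.Vo \ b.Vi)) η' := fun t ht => hf' t (zone_Md hb hF' hN' ht)
  have aη := s.adm_of_K h
  have aη' := s.adm_of_K h'
  have e1 := lk_eq aη.lip z hlk
  have e2 := lk_eq aη'.lip z' hlk
  have m1 := (z t1 ht1).2 u hu1
  have m2 := (z' t1 ht1).2 u hu1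
  obtain ⟨_, _, e3⟩ := layer_blk aη aη'.lip (aη'.cmp.mono (s.Rv_sub_F η)) (eq0_pair h0 h h')
    (by rw [s.Rv_congr hX]; exact ht') (by rw [hX]; exact htX) hut hut
  omega

/-- exchange: outside of the middle line from `η`, inside from `η'` -/
theorem exch {η η' : Cfg} (h : η ∈ s.GK r l b ω) (h' : η' ∈ s.GK r' l' b ω') :
    s.gl b.Vm η' η ∈ s.GK r l' b ω := by
  obtain ⟨h1, hf⟩ := mem_GK.1 h
  obtain ⟨hK, hF⟩ := mem_FK.1 h1
  obtain ⟨h1', hf'⟩ := mem_GK.1 h'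
  obtain ⟨hK', hF'⟩ := mem_FK.1 h1'
  have hX : s.X η = s.X ω := s.X_of_K hK
  have hN := s.N_congr hX
  have hX' : s.X η' = s.X ω := (s.X_of_K hK').trans h0.X
  have hN' := s.N_congr hX'
  have hMd' : s.Md b ω' r' l' = s.Md b ω r' l' := by
    unfold Md Dm
    rw [h0.N]
  rw [hMd'] at hf'
  have hc := agree hb aω h0 hg hK hK' hF hF' hf hf'
  have hE : s.Eq0 η η' := eq0_pair h0 hK hK'
  have aη := s.adm_of_K hK
  have aη' := s.adm_of_K hK'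
  have hVm : b.Vm ⊆ s.G := (hb.i3.trans hb.i4).trans hb.i5
  have hmem := gl_mem hVm hE hc aη' aη
  set g := s.gl b.Vm η' η with hgdef
  have hXg : s.X g = s.X η := X_gl hE aη' aη
  have hNg : s.N g = s.N η := s.N_congr hXg
  have hNN : s.N η' = s.N η := hE.N
  -- closure of the outer exploration
  have o1 : ∀ t ∈ Cl (s.N η) (s.Eo b η), t ∈ s.N η \ b.Vm := fun t ht =>
    Finset.mem_sdiff.2 ⟨Cl_sub _ _ ht, fun h3 => Finset.disjoint_left.1 hF.bar.1 ht (hb.i3 h3)⟩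
  have i1 : ∀ t ∈ Cl (s.N η') (s.Ei b η'), t ∈ s.N η ∩ b.Vm := fun t ht =>
    Finset.mem_inter.2 ⟨hNN ▸ Cl_sub _ _ ht, hb.i2 (hF'.bar.2 ht)⟩
  have nin : ∀ {t : P2}, t ∈ s.N η \ b.Vm → t ∉ s.N η ∩ b.Vm := fun h3 h4 =>
    (Finset.mem_sdiff.1 h3).2 (Finset.mem_inter.1 h4).2
  have pCo : ∀ t ∈ s.N η \ b.Vm, (pC η t ↔ pC g t) := by
    intro t ht
    unfold pC
    rw [hgdef, gl_z' (nin ht), gl_out (mem_VF_of ht (base_mem_up t))]
  have pCi : ∀ t ∈ s.N η ∩ b.Vm, (pC η' t ↔ pC g t) := by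
    intro t ht
    unfold pC
    rw [hgdef, gl_z ht, gl_in hVm hE hc (mem_VF_of ht (base_mem_up t))]
  have hEo : s.Eo b g = s.Eo b η := by
    unfold Eo
    rw [hNg]
    exact Ex_congr Finset.sdiff_subset fun t ht => pCo t (o1 t ht)
  have hEi : s.Ei b g = s.Ei b η' := by
    unfold Ei
    rw [hNg, ← hNN]
    exact Ex_congr Finset.inter_subset_left fun t ht => pCi t (i1 t ht)
  have oE : ∀ t ∈ s.Eo b η, t ∈ s.N η \ b.Vm := fun t ht => o1 t (Ex_sub_Cl η ht)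
  have iE : ∀ t ∈ s.Ei b η', t ∈ s.N η ∩ b.Vm := fun t ht => i1 t (Ex_sub_Cl η' ht)
  have hFb : s.Fb b r l' g := by
    refine ⟨⟨?_, ?_⟩, ?_, ?_⟩
    · rw [hEo, hNg]; exact hF.bar.1
    · rw [hEi, hNg, ← hNN]; exact hF'.bar.2
    · rw [hEo, ← hF.ro]
      refine res_eq (fun v hv => ?_) fun t ht => gl_z' (nin (oE t ht))
      obtain ⟨t, ht, hvt⟩ := mem_VF.1 hv
      exact gl_out (mem_VF_of (oE t ht) hvt)
    · rw [hEi, ← hF'.li]
      refine res_eq (fun v hv => ?_) fun t ht => gl_z (iE t ht)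
      obtain ⟨t, ht, hvt⟩ := mem_VF.1 hv
      exact gl_in hVm hE hc (mem_VF_of (iE t ht) hvt)
  refine mem_GK.2 ⟨mem_FK.2 ⟨s.K_trans (hb.i3.trans hb.i4) hK hmem, hFb⟩, ?_⟩
  intro t ht
  have ht2 := (mem_Md hFb (hNg.trans hN)).1 ht
  rw [hEo, hEi, hNg] at ht2
  obtain ⟨b1, b2, b3, b4⟩ := ht2
  by_cases hm : t ∈ b.Vm
  · have hti : t ∈ s.N η ∩ b.Vm := Finset.mem_inter.2 ⟨b1, hm⟩
    have htM : t ∈ s.Md b ω r' l' := by
      rw [mem_Md hF' hN', hNN]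
      refine ⟨b1, b2, fun h3 => ?_, by rw [← hNN] at b4 ⊢; exact b4⟩
      rw [← hNN] at h3
      exact Finset.disjoint_left.1 hF'.bar.1 h3 (hb.i3 hm)
    obtain ⟨q1, q2⟩ := hf' t htM
    refine ⟨by rw [hgdef, gl_z hti]; exact q1, fun v hv => ?_⟩
    rw [hgdef, gl_in hVm hE hc (mem_VF_of hti hv)]
    exact q2 v hv
  · have hto : t ∈ s.N η \ b.Vm := Finset.mem_sdiff.2 ⟨b1, hm⟩
    have htM : t ∈ s.Md b ω r l := by
      rw [mem_Md hF hN]
      exact ⟨b1, b2, b3, fun h3 => hm (hb.i2 (hF.bar.2 h3))⟩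
    obtain ⟨q1, q2⟩ := hf t htM
    refine ⟨by rw [hgdef, gl_z' (nin hto)]; exact q1, fun v hv => ?_⟩
    rw [hgdef, gl_out (mem_VF_of hto hv)]
    exact q2 v hv

omit hb aω h0 hg in
theorem gd_congr {b : Bk} {ω ω' : Cfg} (h : s.X ω' = s.X ω) (hg : s.Gd b ω) : s.Gd b ω' := by
  unfold Gd at *
  rw [h]
  exact hg

/-- flat fibre sums factorise -/
theorem gk_prod (c : ℝ) (aω' : s.Adm ω') :
    (∑ η ∈ s.GK r l b ω, wt c (s.N ω ∩ b.V') η) * (∑ η' ∈ s.GK r' l' b ω', wt c (s.N ω' ∩ b.V') η') =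
    (∑ η ∈ s.GK r l' b ω, wt c (s.N ω ∩ b.V') η) * (∑ η' ∈ s.GK r' l b ω', wt c (s.N ω' ∩ b.V') η') := by
  have hg' : s.Gd b ω' := gd_congr h0.X hg
  have hVm : b.Vm ⊆ s.G := (hb.i3.trans hb.i4).trans hb.i5
  rw [Finset.sum_mul_sum, Finset.sum_mul_sum, ← Finset.sum_product', ← Finset.sum_product']
  have facts : ∀ {r l r' l' : Pt} {p : Cfg × Cfg}, p ∈ s.GK r l b ω ×ˢ s.GK r' l' b ω' →
      s.Adm p.1 ∧ s.Adm p.2 ∧ s.Eq0 p.1 p.2 ∧ s.Cpt b.Vm p.2 p.1 ∧ s.N p.1 = s.N ω := by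
    intro r l r' l' p hp
    obtain ⟨h1, h2⟩ := Finset.mem_product.1 hp
    obtain ⟨k1, f1⟩ := mem_GK.1 h1
    obtain ⟨k1, b1⟩ := mem_FK.1 k1
    obtain ⟨k2, f2⟩ := mem_GK.1 h2
    obtain ⟨k2, b2⟩ := mem_FK.1 k2
    have hMd' : s.Md b ω' r' l' = s.Md b ω r' l' := by
      unfold Md Dm
      rw [h0.N]
    rw [hMd'] at f2
    exact ⟨s.adm_of_K k1, s.adm_of_K k2, eq0_pair h0 k1 k2,
      agree hb aω h0 hg k1 k2 b1 b2 f1 f2, s.N_congr (s.X_of_K k1)⟩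
  refine Finset.sum_bij' (fun p _ => (s.gl b.Vm p.2 p.1, s.gl b.Vm p.1 p.2))
    (fun p _ => (s.gl b.Vm p.2 p.1, s.gl b.Vm p.1 p.2)) ?_ ?_ ?_ ?_ ?_
  · intro p hp
    obtain ⟨h1, h2⟩ := Finset.mem_product.1 hp
    exact Finset.mem_product.2 ⟨exch hb aω h0 hg h1 h2, exch hb aω' h0.symm hg' h2 h1⟩
  · intro p hp
    obtain ⟨h1, h2⟩ := Finset.mem_product.1 hp
    exact Finset.mem_product.2 ⟨exch hb aω h0 hg h1 h2, exch hb aω' h0.symm hg' h2 h1⟩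
  · intro p hp
    obtain ⟨a1, a2, a3, a4, _⟩ := facts hp
    refine Prod.ext ?_ ?_
    · exact gl_gl hVm a3.symm (a4.symm a3) a1 a2
    · exact gl_gl hVm a3 a4 a2 a1
  · intro p hp
    obtain ⟨a1, a2, a3, a4, _⟩ := facts hp
    refine Prod.ext ?_ ?_
    · exact gl_gl hVm a3.symm (a4.symm a3) a1 a2
    · exact gl_gl hVm a3 a4 a2 a1
  · intro p hp
    obtain ⟨a1, a2, a3, a4, a5⟩ := facts hp
    have key := wt_gl c hVm (hb.i3.trans hb.i4) a3 a4 a2 a1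
    simp only
    rw [h0.N, ← a5, key, mul_comm]

end

variable (s) in
/-- fibre sum -/
def Sf (c : ℝ) (b : Bk) (ω : Cfg) (r l : Pt) : ℝ := ∑ η ∈ s.FK r l b ω, wt c (s.N ω ∩ b.V') η

theorem Sf_nonneg {c : ℝ} (hc : 1 ≤ c) (b : Bk) (ω : Cfg) (r l : Pt) : 0 ≤ s.Sf c b ω r l :=
  Finset.sum_nonneg fun η _ => wt_nonneg hc _ η

variable (s) in
/-- lower bound for the middle barrier in the maximal law of the block -/
def PB (c p : ℝ) (b : Bk) (ω : Cfg) : Prop :=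
  p ≤ Pr c (s.Dm b ω) (Cb2169.Bar (s.Dm b ω) (s.Dm b ω \ b.Vo) (s.Dm b ω ∩ b.Vi))

/-- **Cross ratio of the fibre sums.** -/
theorem sf_cross {c : ℝ} (hc : 1 ≤ c) {b : Bk} (hb : s.BkOK b) {ω ω' : Cfg} (aω : s.Adm ω)
    (aω' : s.Adm ω') (h0 : s.Eq0 ω ω') (hg : s.Gd b ω) {p : ℝ} (hp0 : 0 ≤ p) (hp : s.PB c p b ω)
    (r l r' l' : Pt) :
    p ^ 2 * (s.Sf c b ω r l * s.Sf c b ω' r' l') ≤ s.Sf c b ω r l' * s.Sf c b ω' r' l := by
  have hrhs : 0 ≤ s.Sf c b ω r l' * s.Sf c b ω' r' l := mul_nonneg (Sf_nonneg hc _ _ _ _) (Sf_nonneg hc _ _ _ _)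
  by_cases h1 : s.FK r l b ω = ∅
  · have : s.Sf c b ω r l = 0 := by unfold Sf; rw [h1]; simp
    rw [this, zero_mul, mul_zero]
    exact hrhs
  by_cases h2 : s.FK r' l' b ω' = ∅
  · have : s.Sf c b ω' r' l' = 0 := by unfold Sf; rw [h2]; simp
    rw [this, mul_zero, mul_zero]
    exact hrhs
  obtain ⟨η, hη⟩ := Finset.nonempty_iff_ne_empty.2 h1
  obtain ⟨η', hη'⟩ := Finset.nonempty_iff_ne_empty.2 h2
  obtain ⟨hK, hF⟩ := mem_FK.1 hη
  obtain ⟨hK', hF'⟩ := mem_FK.1 hη'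
  have hg' : s.Gd b ω' := gd_congr h0.X hg
  have hN := s.N_congr (s.X_of_K hK)
  have hN' : s.N η' = s.N ω := s.N_congr ((s.X_of_K hK').trans h0.X)
  have hMd : ∀ r l, s.Md b ω' r l = s.Md b ω r l := fun r l => by
    unfold Md Dm
    rw [h0.N]
  unfold Sf
  rw [fib_eq hb hg c, fib_eq hb hg' c, fib_eq hb hg c, fib_eq hb hg' c, hMd, hMd]
  have hG := gk_prod hb aω h0 hg (r := r) (l := l) (r' := r') (l' := l') c aω'
  set G1 := ∑ η ∈ s.GK r l b ω, wt c (s.N ω ∩ b.V') η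
  set G2 := ∑ η' ∈ s.GK r' l' b ω', wt c (s.N ω' ∩ b.V') η'
  set G3 := ∑ η ∈ s.GK r l' b ω, wt c (s.N ω ∩ b.V') η
  set G4 := ∑ η' ∈ s.GK r' l b ω', wt c (s.N ω' ∩ b.V') η'
  have g1 : 0 ≤ G1 := Finset.sum_nonneg fun η _ => wt_nonneg hc _ η
  have g2 : 0 ≤ G2 := Finset.sum_nonneg fun η _ => wt_nonneg hc _ η
  -- cross ratio of the partition functions
  set D := s.Dm b ω with hD
  have eM : ∀ A B : Finset P2, D \ (A ∪ B) = D \ ((A ∩ D) ∪ (B ∩ D)) := by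
    intro A B
    ext t
    simp only [Finset.mem_sdiff, Finset.mem_union, Finset.mem_inter]
    tauto
  have eS : ∀ A : Finset P2, D \ A = D \ (A ∩ D) := by
    intro A
    ext t
    simp only [Finset.mem_sdiff, Finset.mem_inter]
    tauto
  have ar : Anch (b.V' \ b.V) (Cl (s.N ω) r.1) := by rw [hF.r1, ← hN]; exact anch_Eo η
  have ar' : Anch (b.V' \ b.V) (Cl (s.N ω) r'.1) := by rw [hF'.r1, ← hN']; exact anch_Eo η'
  have al : Anch (b.V' \ b.V) (Cl (s.N ω) l.1) := by rw [hF.l1, ← hN]; exact anch_Ei η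
  have al' : Anch (b.V' \ b.V) (Cl (s.N ω) l'.1) := by rw [hF'.l1, ← hN']; exact anch_Ei η'
  have rsub : ∀ {η : Cfg} {r l : Pt}, s.Fb b r l η → s.N η = s.N ω → Cl (s.N ω) r.1 ∩ D ⊆ D \ b.Vo := by
    intro η r l hF hN t ht
    rw [Finset.mem_inter] at ht
    refine Finset.mem_sdiff.2 ⟨ht.2, fun h3 => ?_⟩
    have := hF.bar.1
    rw [← hF.r1, hN] at this
    exact Finset.disjoint_left.1 this ht.1 h3
  have lsub : ∀ {η : Cfg} {r l : Pt}, s.Fb b r l η → s.N η = s.N ω → Cl (s.N ω) l.1 ∩ D ⊆ D ∩ b.Vi := by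
    intro η r l hF hN t ht
    rw [Finset.mem_inter] at ht
    have := hF.bar.2
    rw [← hF.l1, hN] at this
    exact Finset.mem_inter.2 ⟨ht.2, this ht.1⟩
  have hcr := Cb2169.cross hc (Zs349.dec169 hc) (D := D) (R := D \ b.Vo) (L := D ∩ b.Vi)
    (by simpa using sc_Dm hb ω ∅ (Anch.empty _)) Finset.sdiff_subset Finset.inter_subset_left
    (by
      have e : D \ (D \ b.Vo) = D \ (b.V' \ b.Vo) := by
        ext t
        have : t ∈ D → t ∈ b.V' := fun h => (Finset.mem_sdiff.1 (Finset.mem_inter.1 h).2).1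
        simp only [Finset.mem_sdiff]
        tauto
      rw [e]
      exact sc_Dm hb ω _ (anch_out hb))
    (fun t ht t' ht' v hv => hb.ap t
      (Finset.mem_sdiff.2 ⟨(Finset.mem_sdiff.1 (Finset.mem_inter.1 (Finset.mem_sdiff.1 ht).1).2).1,
        (Finset.mem_sdiff.1 ht).2⟩) t' (Finset.mem_inter.1 ht').2 v hv)
    hp0 hp (rsub hF hN) (rsub hF' hN') (lsub hF hN) (lsub hF' hN')
    (by rw [← eS]; exact sc_Dm hb ω _ ar) (by rw [← eS]; exact sc_Dm hb ω _ ar')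
    (by rw [← eS]; exact sc_Dm hb ω _ al) (by rw [← eS]; exact sc_Dm hb ω _ al')
    (by rw [← eM]; exact sc_Dm hb ω _ (ar.union al)) (by rw [← eM]; exact sc_Dm hb ω _ (ar'.union al'))
    (by rw [← eM]; exact sc_Dm hb ω _ (ar.union al')) (by rw [← eM]; exact sc_Dm hb ω _ (ar'.union al))
  rw [← eM, ← eM, ← eM, ← eM] at hcr
  have eMd : ∀ r l : Pt, s.Md b ω r l = D \ (Cl (s.N ω) r.1 ∪ Cl (s.N ω) l.1) := fun _ _ => rfl
  rw [eMd, eMd, eMd, eMd]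
  set z1 := Z c (D \ (Cl (s.N ω) r.1 ∪ Cl (s.N ω) l.1))
  set z2 := Z c (D \ (Cl (s.N ω) r'.1 ∪ Cl (s.N ω) l'.1))
  set z3 := Z c (D \ (Cl (s.N ω) r.1 ∪ Cl (s.N ω) l'.1))
  set z4 := Z c (D \ (Cl (s.N ω) r'.1 ∪ Cl (s.N ω) l.1))
  calc p ^ 2 * (z1 * G1 * (z2 * G2)) = (p ^ 2 * (z1 * z2)) * (G1 * G2) := by ring
    _ ≤ (z3 * z4) * (G1 * G2) := mul_le_mul_of_nonneg_right hcr (mul_nonneg g1 g2)
    _ = (z3 * z4) * (G3 * G4) := by rw [hG]
    _ = z3 * G3 * (z4 * G4) := by ring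

end St
end Crest.Agent.R144.Cc169
end
end

-- ▼ part R144/Cc7_169
section

/-!
# R144 (CCW, step B), chain of blocks (helper169)

* `pair_le` : contraction on pairs of configurations which both have a barrier;
* `block_step`, `chain` : `|R V f ω - R V f ω'| ≤ R2 V (∏ kp (b i) * |f - f'|) ω ω'`.
-/

set_option autoImplicit false
set_option linter.unusedSectionVars false
set_option linter.unusedSimpArgs false

noncomputable section

namespace Crest.Agent.R144.Cc169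

open Finset
open Crest.Agent.R144.It844 (P2 Lip adj_iff adj_symm lip_iff)
open Crest.ProbabilityR.HexHeights (Adj)
open Crest.Agent.R144.Zg349 Crest.Agent.R144.Zk349 Crest.Agent.R144.Zd349 Crest.Agent.R144.Zm349
open Crest.Agent.R144.Ze349
open Crest.Agent.R144.Cb2169 (Ex Cl Wd mem_Ex mem_Cl mem_Wd Ex_sub Cl_sub R_sub_Ex Ex_sub_Cl Ex_step
  layer_pC Ex_congr adj_of_share mem_D_of_path Stp Apart stepIn_symm rtg_symm rtg_mono)
open Crest.Agent.R144.Swp356 (kap kap_nonneg kap_le_one step)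

/-- contraction factor -/
def kq (p : ℝ) : ℝ := ((p ^ 2)⁻¹ - 1) / ((p ^ 2)⁻¹ + 1)

theorem kq_nonneg {p : ℝ} (h0 : 0 < p) (h1 : p ≤ 1) : 0 ≤ kq p := by
  have : 1 ≤ (p ^ 2)⁻¹ := (one_le_inv₀ (by positivity)).2 (pow_le_one₀ h0.le h1)
  unfold kq
  exact div_nonneg (by linarith) (by linarith)

theorem kq_le_one {p : ℝ} (h0 : 0 < p) : kq p ≤ 1 := by
  have : 0 < (p ^ 2)⁻¹ := by positivity
  unfold kq
  rw [div_le_one (by linarith)]
  linarith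

theorem kq_lt_one {p : ℝ} (h0 : 0 < p) : kq p < 1 := by
  have : 0 < (p ^ 2)⁻¹ := by positivity
  unfold kq
  rw [div_lt_one (by linarith)]
  linarith

namespace St
variable {s : St}

variable (s) in
open Classical in
/-- configurations of the kernel with a barrier -/
def KB (b : Bk) (ω : Cfg) : Finset Cfg := (s.K b.V' ω).filter fun η => s.Bar b η

theorem mem_KB {b : Bk} {ω η : Cfg} : η ∈ s.KB b ω ↔ η ∈ s.K b.V' ω ∧ s.Bar b η := by
  simp only [KB, Finset.mem_filter]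

variable (s) in
/-- outer part -/
def rho (b : Bk) (η : Cfg) : Pt := res (s.Eo b η) η
variable (s) in
/-- inner part -/
def lam (b : Bk) (η : Cfg) : Pt := res (s.Ei b η) η

theorem fb_iff {b : Bk} {η : Cfg} {r l : Pt} : s.Fb b r l η ↔ s.Bar b η ∧ s.rho b η = r ∧ s.lam b η = l :=
  ⟨fun h => ⟨h.bar, h.ro, h.li⟩, fun h => ⟨h.1, h.2.1, h.2.2⟩⟩

/-- sum over fibres -/
theorem fib1 (c : ℝ) {b : Bk} {ω : Cfg} {Rs Ls : Finset Pt} (hR : ∀ η ∈ s.KB b ω, s.rho b η ∈ Rs)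
    (hL : ∀ η ∈ s.KB b ω, s.lam b η ∈ Ls) (φ : Pt → ℝ) :
    ∑ η ∈ s.KB b ω, wt c (s.N ω ∩ b.V') η * φ (s.lam b η) =
      ∑ r ∈ Rs, ∑ l ∈ Ls, s.Sf c b ω r l * φ l := by
  classical
  have h1 : ∀ r l, s.Sf c b ω r l = ∑ η ∈ s.KB b ω,
      if s.rho b η = r ∧ s.lam b η = l then wt c (s.N ω ∩ b.V') η else 0 := by
    intro r l
    unfold Sf
    rw [← Finset.sum_filter]
    refine Finset.sum_congr ?_ fun _ _ => rfl
    ext η
    rw [mem_FK, Finset.mem_filter, mem_KB, fb_iff]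
    tauto
  have h3 : ∀ r l, s.Sf c b ω r l * φ l = ∑ η ∈ s.KB b ω,
      (if s.rho b η = r ∧ s.lam b η = l then wt c (s.N ω ∩ b.V') η * φ l else 0) := by
    intro r l
    rw [h1, Finset.sum_mul]
    refine Finset.sum_congr rfl fun η _ => ?_
    split_ifs <;> simp
  have h2 : ∑ r ∈ Rs, ∑ l ∈ Ls, s.Sf c b ω r l * φ l = ∑ η ∈ s.KB b ω, ∑ r ∈ Rs, ∑ l ∈ Ls,
      (if s.rho b η = r ∧ s.lam b η = l then wt c (s.N ω ∩ b.V') η * φ l else 0) := by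
    calc ∑ r ∈ Rs, ∑ l ∈ Ls, s.Sf c b ω r l * φ l
        = ∑ r ∈ Rs, ∑ l ∈ Ls, ∑ η ∈ s.KB b ω,
          (if s.rho b η = r ∧ s.lam b η = l then wt c (s.N ω ∩ b.V') η * φ l else 0) :=
          Finset.sum_congr rfl fun r _ => Finset.sum_congr rfl fun l _ => h3 r l
      _ = ∑ r ∈ Rs, ∑ η ∈ s.KB b ω, ∑ l ∈ Ls,
          (if s.rho b η = r ∧ s.lam b η = l then wt c (s.N ω ∩ b.V') η * φ l else 0) :=
          Finset.sum_congr rfl fun r _ => Finset.sum_comm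
      _ = _ := Finset.sum_comm
  rw [h2]
  refine Finset.sum_congr rfl fun η hη => ?_
  rw [Finset.sum_eq_single (s.rho b η), Finset.sum_eq_single (s.lam b η)]
  · rw [if_pos ⟨rfl, rfl⟩]
  · intro l _ hne
    rw [if_neg fun h => hne h.2.symm]
  · intro h
    exact absurd (hL η hη) h
  · intro r _ hne
    refine Finset.sum_eq_zero fun l _ => ?_
    rw [if_neg fun h => hne h.1.symm]
  · intro h
    exact absurd (hR η hη) h

theorem fib2 (c : ℝ) {b : Bk} {ω ω' : Cfg} {Rs Ls : Finset Pt} (hR : ∀ η ∈ s.KB b ω, s.rho b η ∈ Rs)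
    (hL : ∀ η ∈ s.KB b ω, s.lam b η ∈ Ls) (hR' : ∀ η ∈ s.KB b ω', s.rho b η ∈ Rs)
    (hL' : ∀ η ∈ s.KB b ω', s.lam b η ∈ Ls) (φ : Pt → Pt → ℝ) :
    ∑ η ∈ s.KB b ω, ∑ η' ∈ s.KB b ω', wt c (s.N ω ∩ b.V') η * wt c (s.N ω' ∩ b.V') η' *
      φ (s.lam b η) (s.lam b η') =
      ∑ r ∈ Rs, ∑ r' ∈ Rs, ∑ l ∈ Ls, ∑ l' ∈ Ls, s.Sf c b ω r l * s.Sf c b ω' r' l' * φ l l' := by
  have h1 : ∀ η ∈ s.KB b ω, ∑ η' ∈ s.KB b ω', wt c (s.N ω ∩ b.V') η * wt c (s.N ω' ∩ b.V') η' *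
      φ (s.lam b η) (s.lam b η') =
      wt c (s.N ω ∩ b.V') η * (fun l => ∑ r' ∈ Rs, ∑ l' ∈ Ls, s.Sf c b ω' r' l' * φ l l') (s.lam b η) := by
    intro η _
    show _ = wt c (s.N ω ∩ b.V') η * (∑ r' ∈ Rs, ∑ l' ∈ Ls, s.Sf c b ω' r' l' * φ (s.lam b η) l')
    rw [← fib1 c hR' hL' (φ (s.lam b η)), Finset.mul_sum]
    exact Finset.sum_congr rfl fun _ _ => by ring
  rw [Finset.sum_congr rfl h1, fib1 c hR hL (fun l => ∑ r' ∈ Rs, ∑ l' ∈ Ls, s.Sf c b ω' r' l' * φ l l')]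
  refine Finset.sum_congr rfl fun r _ => ?_
  rw [Finset.sum_comm]
  refine Finset.sum_congr rfl fun l _ => ?_
  rw [Finset.mul_sum]
  refine Finset.sum_congr rfl fun r' _ => ?_
  rw [Finset.mul_sum]
  exact Finset.sum_congr rfl fun _ _ => by ring

/-- **contraction on pairs with two barriers** -/
theorem pair_le {c : ℝ} (hc : 1 ≤ c) {b : Bk} (hb : s.BkOK b) {ω ω' : Cfg} (aω : s.Adm ω)
    (aω' : s.Adm ω') (h0 : s.Eq0 ω ω') (hg : s.Gd b ω) {p : ℝ} (hp0 : 0 < p) (hp1 : p ≤ 1)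
    (hp : s.PB c p b ω) (F G : Pt → Pt → ℝ) (hF : ∀ l l', F l' l = - F l l')
    (hG : ∀ l l', G l' l = G l l') (hFG : ∀ l l', |F l l'| ≤ G l l') :
    |∑ η ∈ s.KB b ω, ∑ η' ∈ s.KB b ω', wt c (s.N ω ∩ b.V') η * wt c (s.N ω' ∩ b.V') η' *
      F (s.lam b η) (s.lam b η')| ≤
    kq p * ∑ η ∈ s.KB b ω, ∑ η' ∈ s.KB b ω', wt c (s.N ω ∩ b.V') η * wt c (s.N ω' ∩ b.V') η' *
      G (s.lam b η) (s.lam b η') := by
  classical
  set Rs : Finset Pt := (s.KB b ω).image (s.rho b) ∪ (s.KB b ω').image (s.rho b) with hRs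
  set Ls : Finset Pt := (s.KB b ω).image (s.lam b) ∪ (s.KB b ω').image (s.lam b) with hLs
  have hR : ∀ η ∈ s.KB b ω, s.rho b η ∈ Rs := fun η h =>
    Finset.mem_union_left _ (Finset.mem_image_of_mem _ h)
  have hL : ∀ η ∈ s.KB b ω, s.lam b η ∈ Ls := fun η h =>
    Finset.mem_union_left _ (Finset.mem_image_of_mem _ h)
  have hR' : ∀ η ∈ s.KB b ω', s.rho b η ∈ Rs := fun η h =>
    Finset.mem_union_right _ (Finset.mem_image_of_mem _ h)
  have hL' : ∀ η ∈ s.KB b ω', s.lam b η ∈ Ls := fun η h =>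
    Finset.mem_union_right _ (Finset.mem_image_of_mem _ h)
  rw [fib2 c hR hL hR' hL' F, fib2 c hR hL hR' hL' G, Finset.mul_sum]
  refine (Finset.abs_sum_le_sum_abs _ _).trans (Finset.sum_le_sum fun r _ => ?_)
  rw [Finset.mul_sum]
  refine (Finset.abs_sum_le_sum_abs _ _).trans (Finset.sum_le_sum fun r' _ => ?_)
  have hC : 1 ≤ (p ^ 2)⁻¹ := (one_le_inv₀ (by positivity)).2 (pow_le_one₀ hp0.le hp1)
  have hp2 : 0 < p ^ 2 := by positivity
  -- apply the one block lemma on the finite type `Ls`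
  have key := step (S := Bool) (T := {l // l ∈ Ls})
    (fun e l => if e then s.Sf c b ω' r' l.1 else s.Sf c b ω r l.1) (fun _ => 1)
    (fun e e' _ _ => e = false ∧ e' = true)
    (fun e l => by
      cases e
      · exact Sf_nonneg hc _ _ _ _
      · exact Sf_nonneg hc _ _ _ _)
    (fun _ => zero_le_one) hC (fun _ _ _ _ h => h)
    (fun e e' l l' h => by
      rw [h.1, h.2]
      simp only [Bool.false_eq_true, if_false, if_true]
      have := sf_cross hc hb aω aω' h0 hg hp0.le hp r l.1 r' l'.1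
      rw [← div_eq_inv_mul, le_div_iff₀ hp2]
      linarith)
    (fun l l' => F l.1 l'.1) (fun l l' => G l.1 l'.1) (fun _ _ => hF _ _) (fun _ _ => hG _ _)
    (fun _ _ => hFG _ _) false true
  simp only [Bool.false_eq_true, if_false, if_true, mul_one] at key
  have kk : ∀ (Q : Prop) [Decidable Q], Q → kap (p ^ 2)⁻¹ Q = kq p := by
    intro Q _ h
    unfold kap kq
    rw [if_pos h]
  have e1 : ∀ Q : Pt → Pt → ℝ, ∑ l ∈ Ls, ∑ l' ∈ Ls, s.Sf c b ω r l * s.Sf c b ω' r' l' * Q l l' =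
      ∑ l : {l // l ∈ Ls}, ∑ l' : {l // l ∈ Ls}, s.Sf c b ω r l.1 * s.Sf c b ω' r' l'.1 * Q l.1 l'.1 := by
    intro Q
    rw [← Finset.sum_coe_sort Ls]
    refine Finset.sum_congr rfl fun l _ => ?_
    rw [← Finset.sum_coe_sort Ls]
  rw [e1, e1]
  refine key.trans (le_of_eq ?_)
  rw [Finset.mul_sum]
  refine Finset.sum_congr rfl fun l _ => ?_
  rw [Finset.mul_sum]
  refine Finset.sum_congr rfl fun l' _ => ?_
  rw [kk _ ⟨trivial, trivial⟩]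
  ring

/-! ### invariance of the barrier event -/

/-- the barrier event is constant on the kernels of `V` -/
theorem bar_K {b : Bk} (hb : s.BkOK b) {ξ ζ : Cfg} (h : ζ ∈ s.K b.V ξ) (hB : s.Bar b ξ) : s.Bar b ζ := by
  obtain ⟨_, k2, k3, hX⟩ := s.mem_K0.1 (s.mem_K.1 h).1
  have hN := s.N_congr hX
  have hpC : ∀ t ∈ s.N ξ \ b.V, (pC ξ t ↔ pC ζ t) := by
    intro t ht
    unfold pC
    rw [k3 t (fun h' => (Finset.mem_sdiff.1 ht).2 (Finset.mem_inter.1 h').2),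
      k2 t (fun h' => ((s.mem_Fr).1 h').2.2 (mem_VF_of ht (base_mem_up t)))]
  have hEo : s.Eo b ζ = s.Eo b ξ := by
    unfold Eo
    rw [hN]
    refine Ex_congr Finset.sdiff_subset fun t ht => hpC t (Finset.mem_sdiff.2 ⟨Cl_sub _ _ ht, fun h' => ?_⟩)
    exact Finset.disjoint_left.1 hB.1 ht (hb.i3 (hb.i2 (hb.i1 h')))
  have hEi : s.Ei b ζ = s.Ei b ξ := by
    unfold Ei
    rw [hN]
    refine Ex_congr' Finset.inter_subset_left fun t ht ht' => hpC t (Finset.mem_sdiff.2 ⟨Cl_sub _ _ ht, ?_⟩)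
    exact fun h' => ht' (Finset.mem_inter.2 ⟨Cl_sub _ _ ht, h'⟩)
  unfold Bar
  rw [hEo, hEi, hN]
  exact hB

theorem bar_K_iff {b : Bk} (hb : s.BkOK b) {ξ ζ : Cfg} (aξ : s.Adm ξ) (h : ζ ∈ s.K b.V ξ) :
    s.Bar b ζ ↔ s.Bar b ξ :=
  ⟨bar_K hb (s.K_symm aξ h), bar_K hb h⟩

/-- the barrier event is seen inside `V ⊇ V'` -/
theorem bar_gl {b : Bk} (hb : s.BkOK b) {V : Finset P2} (hV : b.V' ⊆ V) (hVG : V ⊆ s.G) {ξ η : Cfg}
    (aξ : s.Adm ξ) (aη : s.Adm η) (h0 : s.Eq0 η ξ) (hc : s.Cpt V ξ η) :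
    s.Bar b (s.gl V ξ η) ↔ s.Bar b ξ := by
  have hX : s.X (s.gl V ξ η) = s.X ξ := (X_gl h0 aξ aη).trans h0.X.symm
  have hN : s.N (s.gl V ξ η) = s.N ξ := s.N_congr hX
  have hNN : s.N ξ = s.N η := h0.N
  have hpC : ∀ t ∈ s.N ξ ∩ V, (pC ξ t ↔ pC (s.gl V ξ η) t) := by
    intro t ht
    rw [hNN] at ht
    unfold pC
    rw [gl_z ht, gl_in hVG h0 hc (mem_VF_of ht (base_mem_up t))]
  have hVi : b.Vi ⊆ V := ((hb.i2.trans hb.i3).trans hb.i4).trans hV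
  have hEo : s.Eo b (s.gl V ξ η) = s.Eo b ξ := by
    unfold Eo
    rw [hN]
    refine Ex_congr' Finset.sdiff_subset fun t ht ht' => hpC t (Finset.mem_inter.2 ⟨Cl_sub _ _ ht, hV ?_⟩)
    by_contra h'
    exact ht' (Finset.mem_sdiff.2 ⟨Cl_sub _ _ ht, h'⟩)
  have hEi : s.Bar b ξ → s.Ei b (s.gl V ξ η) = s.Ei b ξ := by
    intro hB
    unfold Ei
    rw [hN]
    exact Ex_congr Finset.inter_subset_left fun t ht =>
      hpC t (Finset.mem_inter.2 ⟨Cl_sub _ _ ht, hVi (hB.2 ht)⟩)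
  have hEi' : s.Bar b (s.gl V ξ η) → s.Ei b ξ = s.Ei b (s.gl V ξ η) := by
    intro hB
    have h2 := hB.2
    unfold Ei at h2 ⊢
    rw [hN] at h2 ⊢
    exact Ex_congr Finset.inter_subset_left fun t ht =>
      (hpC t (Finset.mem_inter.2 ⟨Cl_sub _ _ ht, hVi (h2 ht)⟩)).symm
  constructor
  · intro hB
    have h1 := hEi' hB
    unfold Bar at *
    rw [h1, ← hEo, ← hN]
    exact hB
  · intro hB
    have h1 := hEi hB
    unfold Bar at *
    rw [h1, hEo, hN]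
    exact hB

theorem gd_gl {b : Bk} {V : Finset P2} {ξ η : Cfg} (aξ : s.Adm ξ) (aη : s.Adm η) (h0 : s.Eq0 η ξ) :
    s.Gd b (s.gl V ξ η) ↔ s.Gd b ξ := by
  have hX : s.X (s.gl V ξ η) = s.X ξ := (X_gl h0 aξ aη).trans h0.X.symm
  exact ⟨gd_congr hX.symm, gd_congr hX⟩

/-- monotonicity of locality -/
theorem LocV.mono {V V' : Finset P2} (hV : V ⊆ V') (hVG : V' ⊆ s.G) {f : Cfg → ℝ} (h : s.LocV V f) :
    s.LocV V' f := by
  intro ξ η aξ aη h0 hc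
  have e0 : s.Eq0 (s.gl V' ξ η) ξ := by
    have := eq0_of_K (gl_mem hVG h0 hc aξ aη)
    exact this.symm.trans h0
  have hN : s.N (s.gl V' ξ η) = s.N η := s.N_congr (X_gl h0 aξ aη)
  have hX : s.X (s.gl V' ξ η) = s.X η := X_gl h0 aξ aη
  have e1 : s.Cpt V ξ (s.gl V' ξ η) := by
    intro v h1 _
    rw [hN] at h1
    exact (gl_in hVG h0 hc (VF_mono (Finset.inter_subset_inter_left hV) h1)).symm
  have e2 : s.gl V ξ (s.gl V' ξ η) = s.gl V' ξ η := by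
    refine Prod.ext ?_ ?_
    · funext v
      by_cases hv : v ∈ s.Fr V (s.gl V' ξ η)
      · rw [gl_fr hv]
        rw [s.Fr_congr hX] at hv
        exact (gl_fr (s.Fr_mono hV η hv)).symm
      · rw [gl_nfr hv]
    · funext t
      by_cases ht : t ∈ s.N (s.gl V' ξ η) ∩ V
      · rw [gl_z ht]
        rw [hN] at ht
        exact (gl_z (Finset.inter_subset_inter_left hV ht)).symm
      · rw [gl_z' ht]
  have := h ξ (s.gl V' ξ η) aξ (gl_adm hVG h0 hc aξ aη) e0 e1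
  rw [e2] at this
  exact this

/-! ### block step -/

variable (s) in
open Classical in
/-- contraction factor of a pair at a block -/
def kp (p : ℝ) (b : Bk) (ξ ξ' : Cfg) : ℝ := if (s.Gd b ξ ∧ s.Gd b ξ') ∧ (s.Bar b ξ ∧ s.Bar b ξ') then kq p else 1

/-- two-variable locality and symmetry -/
structure Loc2 (s : St) (V : Finset P2) (H : Cfg → Cfg → ℝ) : Prop where
  l1 : ∀ ξ', s.LocV V fun ξ => H ξ ξ'
  symm : ∀ ξ ξ', H ξ ξ' = H ξ' ξ

theorem R2_symm (c : ℝ) {V : Finset P2} {H : Cfg → Cfg → ℝ} (hH : ∀ ξ ξ', H ξ ξ' = H ξ' ξ) (ω ω' : Cfg) :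
    s.R2 c V H ω ω' = s.R2 c V H ω' ω := by
  unfold R2
  rw [R_comm c V V (fun ξ ξ' => H ξ ξ') ω ω']
  refine R_congr c fun ξ _ => R_congr c fun ξ' _ => hH _ _

theorem R2_loc {c : ℝ} {V : Finset P2} (hV : V ⊆ s.G) {H : Cfg → Cfg → ℝ} (hH : s.Loc2 V H)
    {η η2 η' η2' : Cfg} (a : s.Adm η) (a2 : s.Adm η2) (h0 : s.Eq0 η η2) (hc : s.Cpt V η η2)
    (a' : s.Adm η') (a2' : s.Adm η2') (h0' : s.Eq0 η' η2') (hc' : s.Cpt V η' η2') :
    s.R2 c V H η η' = s.R2 c V H η2 η2' := by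
  have key : ∀ {η η2 : Cfg} (η' : Cfg), s.Adm η → s.Adm η2 → s.Eq0 η η2 → s.Cpt V η η2 →
      s.R2 c V H η η' = s.R2 c V H η2 η' := by
    intro η η2 η' a a2 h0 hc
    unfold R2
    refine R_loc hV a a2 h0 hc fun ξ ζ aξ aζ e0 ec => ?_
    refine R_congr c fun ξ' _ => ?_
    exact hH.l1 ξ' ξ ζ aξ aζ e0 ec
  rw [key η' a a2 h0 hc, R2_symm c hH.symm, key η2 a' a2' h0' hc', R2_symm c hH.symm]

theorem lam_cpt {b : Bk} {η η2 : Cfg} (h0 : s.Eq0 η η2) (h : s.lam b η = s.lam b η2) :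
    s.Cpt b.V η η2 := by
  obtain ⟨e1, e2, _⟩ := of_res_eq h
  intro v h1 _
  refine e2 v ?_
  rw [e1]
  exact VF_mono (R_sub_Ex (ω := η2) Finset.inter_subset_left) h1

theorem lift_step {c : ℝ} (hc : 1 ≤ c) {V V' : Finset P2} (hV : V ⊆ V') {f : Cfg → ℝ}
    {H : Cfg → Cfg → ℝ} (hyp : ∀ η η', s.Adm η → s.Adm η' → s.Eq0 η η' →
      |s.R c V f η - s.R c V f η'| ≤ s.R2 c V H η η') {ω ω' : Cfg} (aω : s.Adm ω) (aω' : s.Adm ω')
    (h0 : s.Eq0 ω ω') : |s.R c V' f ω - s.R c V' f ω'| ≤ s.R2 c V' H ω ω' := by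
  rw [← R_tower hc hV f aω, ← R_tower hc hV f aω', ← R2_sub_eq hc (s.R c V f) aω aω']
  refine (R2_abs hc aω aω').trans ?_
  rw [← R2_tower hc hV H aω aω']
  exact R2_mono hc aω aω' fun ξ hξ ξ' hξ' => hyp ξ ξ' (s.adm_of_K hξ) (s.adm_of_K hξ') (eq0_pair h0 hξ hξ')

theorem R2_eq (c : ℝ) (V : Finset P2) (H : Cfg → Cfg → ℝ) (ω ω' : Cfg) :
    s.R2 c V H ω ω' = (∑ ξ ∈ s.K V ω, ∑ ξ' ∈ s.K V ω', wt c (s.N ω ∩ V) ξ * wt c (s.N ω' ∩ V) ξ' *
      H ξ ξ') / (s.W c V ω * s.W c V ω') := by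
  unfold R2 R
  have : ∀ ξ ∈ s.K V ω, wt c (s.N ω ∩ V) ξ * ((∑ ξ' ∈ s.K V ω', wt c (s.N ω' ∩ V) ξ' * H ξ ξ') /
      s.W c V ω') = (∑ ξ' ∈ s.K V ω', wt c (s.N ω ∩ V) ξ * wt c (s.N ω' ∩ V) ξ' * H ξ ξ') /
      s.W c V ω' := by
    intro ξ _
    rw [mul_div_assoc', Finset.mul_sum]
    congr 1
    exact Finset.sum_congr rfl fun _ _ => by ring
  rw [Finset.sum_congr rfl this, ← Finset.sum_div, div_div, mul_comm (s.W c V ω') _]

theorem block_step {c : ℝ} (hc : 1 ≤ c) {b : Bk} (hb : s.BkOK b) {p : ℝ} (hp0 : 0 < p) (hp1 : p ≤ 1)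
    (hp : ∀ ω, s.Adm ω → s.Gd b ω → s.PB c p b ω) {f : Cfg → ℝ} (hf : s.LocV b.V f)
    {H : Cfg → Cfg → ℝ} (hH : s.Loc2 b.V H)
    (hyp : ∀ η η', s.Adm η → s.Adm η' → s.Eq0 η η' →
      |s.R c b.V f η - s.R c b.V f η'| ≤ s.R2 c b.V H η η') {ω ω' : Cfg} (aω : s.Adm ω)
    (aω' : s.Adm ω') (h0 : s.Eq0 ω ω') :
    |s.R c b.V' f ω - s.R c b.V' f ω'| ≤ s.R2 c b.V' (fun ξ ξ' => s.kp p b ξ ξ' * H ξ ξ') ω ω' := by
  classical
  have hVV : b.V ⊆ b.V' := ((hb.i1.trans hb.i2).trans hb.i3).trans hb.i4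
  have hVG : b.V ⊆ s.G := hVV.trans hb.i5
  by_cases hg : s.Gd b ω
  swap
  · have h1 := lift_step hc hVV hyp aω aω' h0
    refine h1.trans (le_of_eq ?_)
    refine R2_congr c fun ξ hξ ξ' _ => ?_
    have : ¬ s.Gd b ξ := fun h => hg (gd_congr (s.X_of_K hξ).symm h)
    unfold kp
    rw [if_neg fun h => this h.1.1, one_mul]
  -- representatives
  let P : Pt → Prop := fun l => ∃ η, s.Adm η ∧ s.Eq0 ω η ∧ s.Bar b η ∧ s.lam b η = l
  let rp : Pt → Cfg := fun l => if h : P l then h.choose else ω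
  have hrp : ∀ l, P l → s.Adm (rp l) ∧ s.Eq0 ω (rp l) ∧ s.Bar b (rp l) ∧ s.lam b (rp l) = l := by
    intro l h
    have : rp l = h.choose := dif_pos h
    rw [this]
    exact h.choose_spec
  let Fq : Pt → Pt → ℝ := fun l l' =>
    if P l ∧ P l' then s.R c b.V f (rp l) - s.R c b.V f (rp l') else 0
  let Gq : Pt → Pt → ℝ := fun l l' => if P l ∧ P l' then s.R2 c b.V H (rp l) (rp l') else 0
  have hPK : ∀ η ∈ s.KB b ω, P (s.lam b η) := fun η h =>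
    ⟨η, s.adm_of_K (mem_KB.1 h).1, eq0_of_K (mem_KB.1 h).1, (mem_KB.1 h).2, rfl⟩
  have hPK' : ∀ η ∈ s.KB b ω', P (s.lam b η) := fun η h =>
    ⟨η, s.adm_of_K (mem_KB.1 h).1, h0.trans (eq0_of_K (mem_KB.1 h).1), (mem_KB.1 h).2, rfl⟩
  have main := pair_le hc hb aω aω' h0 hg hp0 hp1 (hp ω aω hg) Fq Gq
    (fun l l' => by
      simp only [Fq]
      by_cases h : P l ∧ P l'
      · rw [if_pos h, if_pos h.symm]; ring
      · rw [if_neg h, if_neg fun h' => h h'.symm]; ring)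
    (fun l l' => by
      simp only [Gq]
      by_cases h : P l ∧ P l'
      · rw [if_pos h, if_pos h.symm]; exact R2_symm c hH.symm _ _
      · rw [if_neg h, if_neg fun h' => h h'.symm])
    (fun l l' => by
      simp only [Fq, Gq]
      by_cases h : P l ∧ P l'
      · rw [if_pos h, if_pos h]
        obtain ⟨a1, a2, _, _⟩ := hrp l h.1
        obtain ⟨b1, b2, _, _⟩ := hrp l' h.2
        exact hyp _ _ a1 b1 (a2.symm.trans b2)
      · rw [if_neg h, if_neg h, abs_zero])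
  have loc : ∀ η, s.Adm η → s.Eq0 ω η → P (s.lam b η) →
      s.Eq0 (rp (s.lam b η)) η ∧ s.Cpt b.V (rp (s.lam b η)) η ∧ s.Adm (rp (s.lam b η)) := by
    intro η _ e h
    obtain ⟨a1, a2, _, a4⟩ := hrp _ h
    exact ⟨a2.symm.trans e, lam_cpt (a2.symm.trans e) a4, a1⟩
  have eF : ∀ η ∈ s.KB b ω, ∀ η' ∈ s.KB b ω', Fq (s.lam b η) (s.lam b η') =
      s.R c b.V f η - s.R c b.V f η' := by
    intro η hη η' hη'
    have h1 := hPK η hη
    have h2 := hPK' η' hη'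
    have aη := s.adm_of_K (mem_KB.1 hη).1
    have aη' := s.adm_of_K (mem_KB.1 hη').1
    obtain ⟨l1, l2, l3⟩ := loc η aη (eq0_of_K (mem_KB.1 hη).1) h1
    obtain ⟨m1, m2, m3⟩ := loc η' aη' (h0.trans (eq0_of_K (mem_KB.1 hη').1)) h2
    simp only [Fq]
    rw [if_pos ⟨h1, h2⟩, R_loc hVG l3 aη l1 l2 hf, R_loc hVG m3 aη' m1 m2 hf]
  have eG : ∀ η ∈ s.KB b ω, ∀ η' ∈ s.KB b ω', Gq (s.lam b η) (s.lam b η') =
      s.R2 c b.V H η η' := by
    intro η hη η' hη'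
    have h1 := hPK η hη
    have h2 := hPK' η' hη'
    have aη := s.adm_of_K (mem_KB.1 hη).1
    have aη' := s.adm_of_K (mem_KB.1 hη').1
    obtain ⟨l1, l2, l3⟩ := loc η aη (eq0_of_K (mem_KB.1 hη).1) h1
    obtain ⟨m1, m2, m3⟩ := loc η' aη' (h0.trans (eq0_of_K (mem_KB.1 hη').1)) h2
    simp only [Gq]
    rw [if_pos ⟨h1, h2⟩, R2_loc hVG hH l3 aη l1 l2 m3 aη' m1 m2]
  have main' : |∑ η ∈ s.KB b ω, ∑ η' ∈ s.KB b ω', wt c (s.N ω ∩ b.V') η * wt c (s.N ω' ∩ b.V') η' *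
      (s.R c b.V f η - s.R c b.V f η')| ≤
      kq p * ∑ η ∈ s.KB b ω, ∑ η' ∈ s.KB b ω', wt c (s.N ω ∩ b.V') η * wt c (s.N ω' ∩ b.V') η' *
      s.R2 c b.V H η η' := by
    have e1 : ∑ η ∈ s.KB b ω, ∑ η' ∈ s.KB b ω', wt c (s.N ω ∩ b.V') η * wt c (s.N ω' ∩ b.V') η' *
      (s.R c b.V f η - s.R c b.V f η') = ∑ η ∈ s.KB b ω, ∑ η' ∈ s.KB b ω',
        wt c (s.N ω ∩ b.V') η * wt c (s.N ω' ∩ b.V') η' * Fq (s.lam b η) (s.lam b η') :=
      Finset.sum_congr rfl fun η hη => Finset.sum_congr rfl fun η' hη' => by rw [eF η hη η' hη']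
    have e2 : ∑ η ∈ s.KB b ω, ∑ η' ∈ s.KB b ω', wt c (s.N ω ∩ b.V') η * wt c (s.N ω' ∩ b.V') η' *
      s.R2 c b.V H η η' = ∑ η ∈ s.KB b ω, ∑ η' ∈ s.KB b ω',
        wt c (s.N ω ∩ b.V') η * wt c (s.N ω' ∩ b.V') η' * Gq (s.lam b η) (s.lam b η') :=
      Finset.sum_congr rfl fun η hη => Finset.sum_congr rfl fun η' hη' => by rw [eG η hη η' hη']
    rw [e1, e2]
    exact main
  -- rewrite both sides
  rw [← R_tower hc hVV f aω, ← R_tower hc hVV f aω', ← R2_sub_eq hc (s.R c b.V f) aω aω',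
    ← R2_tower hc hVV (fun ξ ξ' => s.kp p b ξ ξ' * H ξ ξ') aω aω']
  have hkp : s.R2 c b.V' (s.R2 c b.V (fun ξ ξ' => s.kp p b ξ ξ' * H ξ ξ')) ω ω' =
      s.R2 c b.V' (fun ξ ξ' => s.kp p b ξ ξ' * s.R2 c b.V H ξ ξ') ω ω' := by
    refine R2_congr c fun ξ hξ ξ' hξ' => ?_
    rw [← R2_smul]
    refine R2_congr c fun ζ hζ ζ' hζ' => ?_
    have e1 := bar_K_iff hb (s.adm_of_K hξ) hζ
    have e2 := bar_K_iff hb (s.adm_of_K hξ') hζ'
    have e3 : s.Gd b ζ ↔ s.Gd b ξ := ⟨gd_congr (s.X_of_K hζ).symm, gd_congr (s.X_of_K hζ)⟩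
    have e4 : s.Gd b ζ' ↔ s.Gd b ξ' := ⟨gd_congr (s.X_of_K hζ').symm, gd_congr (s.X_of_K hζ')⟩
    unfold kp
    simp only [e1, e2, e3, e4]
  rw [hkp, R2_eq, R2_eq, abs_div]
  have hW : 0 < s.W c b.V' ω * s.W c b.V' ω' := mul_pos (W_pos hc aω) (W_pos hc aω')
  rw [abs_of_pos hW]
  refine div_le_div_of_nonneg_right ?_ hW.le
  -- split
  have split : ∀ Q : Cfg → Cfg → ℝ, ∑ ξ ∈ s.K b.V' ω, ∑ ξ' ∈ s.K b.V' ω', Q ξ ξ' =
      (∑ ξ ∈ s.KB b ω, ∑ ξ' ∈ s.KB b ω', Q ξ ξ') +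
      ∑ ξ ∈ s.K b.V' ω, ∑ ξ' ∈ s.K b.V' ω', if s.Bar b ξ ∧ s.Bar b ξ' then 0 else Q ξ ξ' := by
    intro Q
    have h1 : ∑ ξ ∈ s.KB b ω, ∑ ξ' ∈ s.KB b ω', Q ξ ξ' =
        ∑ ξ ∈ s.K b.V' ω, ∑ ξ' ∈ s.K b.V' ω', if s.Bar b ξ ∧ s.Bar b ξ' then Q ξ ξ' else 0 := by
      unfold KB
      rw [Finset.sum_filter]
      refine Finset.sum_congr rfl fun ξ _ => ?_
      by_cases h : s.Bar b ξ
      · rw [if_pos h, Finset.sum_filter]
        refine Finset.sum_congr rfl fun ξ' _ => ?_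
        simp only [h, true_and]
      · rw [if_neg h]
        simp only [h, false_and, if_false, Finset.sum_const_zero]
    rw [h1, ← Finset.sum_add_distrib]
    refine Finset.sum_congr rfl fun ξ _ => ?_
    rw [← Finset.sum_add_distrib]
    refine Finset.sum_congr rfl fun ξ' _ => ?_
    split_ifs <;> simp
  rw [split, split (fun ξ ξ' => wt c (s.N ω ∩ b.V') ξ * wt c (s.N ω' ∩ b.V') ξ' *
    (s.kp p b ξ ξ' * s.R2 c b.V H ξ ξ'))]
  refine (abs_add_le _ _).trans (add_le_add ?_ ?_)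
  · refine main'.trans (le_of_eq ?_)
    rw [Finset.mul_sum]
    refine Finset.sum_congr rfl fun ξ hξ => ?_
    rw [Finset.mul_sum]
    refine Finset.sum_congr rfl fun ξ' hξ' => ?_
    have : s.kp p b ξ ξ' = kq p := by
      unfold kp
      rw [if_pos ⟨⟨gd_congr (s.X_of_K (mem_KB.1 hξ).1) hg,
        gd_congr ((s.X_of_K (mem_KB.1 hξ').1).trans h0.X) hg⟩, (mem_KB.1 hξ).2, (mem_KB.1 hξ').2⟩]
    rw [this]
    ring
  · refine (Finset.abs_sum_le_sum_abs _ _).trans (Finset.sum_le_sum fun ξ hξ => ?_)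
    refine (Finset.abs_sum_le_sum_abs _ _).trans (Finset.sum_le_sum fun ξ' hξ' => ?_)
    by_cases h : s.Bar b ξ ∧ s.Bar b ξ'
    · rw [if_pos h, if_pos h, abs_zero]
    · rw [if_neg h, if_neg h]
      have : s.kp p b ξ ξ' = 1 := by
        unfold kp
        rw [if_neg fun h' => h h'.2]
      have hw : 0 ≤ wt c (s.N ω ∩ b.V') ξ * wt c (s.N ω' ∩ b.V') ξ' :=
        mul_nonneg (wt_nonneg hc _ _) (wt_nonneg hc _ _)
      rw [this, one_mul, abs_mul, abs_of_nonneg hw]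
      exact mul_le_mul_of_nonneg_left
        (hyp ξ ξ' (s.adm_of_K hξ) (s.adm_of_K hξ') (eq0_pair h0 hξ hξ')) hw

/-! ### chain -/

variable (s) in
/-- product of the contraction factors of the first blocks -/
def Kp (p : ℝ) (b : ℕ → Bk) (m : ℕ) (ξ ξ' : Cfg) : ℝ := ∏ i ∈ Finset.range m, s.kp p (b i) ξ ξ'

theorem kp_symm {p : ℝ} {b : Bk} (ξ ξ' : Cfg) : s.kp p b ξ ξ' = s.kp p b ξ' ξ := by
  unfold kp
  by_cases h1 : (s.Gd b ξ ∧ s.Gd b ξ') ∧ (s.Bar b ξ ∧ s.Bar b ξ')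
  · rw [if_pos h1, if_pos ⟨⟨h1.1.2, h1.1.1⟩, h1.2.2, h1.2.1⟩]
  · rw [if_neg h1, if_neg fun h2 => h1 ⟨⟨h2.1.2, h2.1.1⟩, h2.2.2, h2.2.1⟩]

theorem kp_nonneg {p : ℝ} (h0 : 0 < p) (h1 : p ≤ 1) (b : Bk) (ξ ξ' : Cfg) : 0 ≤ s.kp p b ξ ξ' := by
  unfold kp
  split_ifs
  · exact kq_nonneg h0 h1
  · exact zero_le_one

theorem Kp_nonneg {p : ℝ} (h0 : 0 < p) (h1 : p ≤ 1) (b : ℕ → Bk) (m : ℕ) (ξ ξ' : Cfg) :
    0 ≤ s.Kp p b m ξ ξ' := Finset.prod_nonneg fun _ _ => kp_nonneg h0 h1 _ _ _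

theorem Kp_symm {p : ℝ} (b : ℕ → Bk) (m : ℕ) (ξ ξ' : Cfg) : s.Kp p b m ξ ξ' = s.Kp p b m ξ' ξ :=
  Finset.prod_congr rfl fun _ _ => kp_symm ξ ξ'

/-- hypotheses on the chain of blocks -/
structure Chain (s : St) (c p : ℝ) (b : ℕ → Bk) (m : ℕ) (V0 : Finset P2) : Prop where
  ok : ∀ i < m, s.BkOK (b i)
  nest : ∀ i j, i < j → j < m → (b i).V' ⊆ (b j).V
  start : ∀ i < m, V0 ⊆ (b i).V
  pb : ∀ i < m, ∀ ω, s.Adm ω → s.Gd (b i) ω → s.PB c p (b i) ω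

theorem chain {c : ℝ} (hc : 1 ≤ c) {p : ℝ} (hp0 : 0 < p) (hp1 : p ≤ 1) {b : ℕ → Bk} {V0 : Finset P2}
    {f : Cfg → ℝ} (hf : s.LocV V0 f) (m : ℕ) (hb : Chain s c p b m V0) :
    ∀ V, (∀ i < m, (b i).V' ⊆ V) → V0 ⊆ V → V ⊆ s.G → ∀ ω ω', s.Adm ω → s.Adm ω' → s.Eq0 ω ω' →
      |s.R c V f ω - s.R c V f ω'| ≤ s.R2 c V (fun ξ ξ' => s.Kp p b m ξ ξ' * |f ξ - f ξ'|) ω ω' := by
  induction m with
  | zero =>
    intro V _ _ _ ω ω' aω aω' _
    rw [← R2_sub_eq hc f aω aω']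
    refine (R2_abs hc aω aω').trans (le_of_eq ?_)
    refine R2_congr c fun ξ _ ξ' _ => ?_
    simp [Kp]
  | succ m ih =>
    intro V hV hV0 hVG ω ω' aω aω' h0
    have hb' : Chain s c p b m V0 := ⟨fun i hi => hb.ok i (by omega), fun i j hij hj => hb.nest i j hij (by omega),
      fun i hi => hb.start i (by omega), fun i hi => hb.pb i (by omega)⟩
    have ok := hb.ok m (Nat.lt_succ_self m)
    have hVV : (b m).V ⊆ (b m).V' := ((ok.i1.trans ok.i2).trans ok.i3).trans ok.i4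
    have hst := hb.start m (Nat.lt_succ_self m)
    have hmG : (b m).V ⊆ s.G := hVV.trans ok.i5
    have h1 := ih hb' (b m).V (fun i hi => hb.nest i m hi (Nat.lt_succ_self m)) hst hmG
    have hfV : s.LocV (b m).V f := hf.mono hst hmG
    have hH : s.Loc2 (b m).V (fun ξ ξ' => s.Kp p b m ξ ξ' * |f ξ - f ξ'|) := by
      refine ⟨fun ξ' ξ η aξ aη e0 ec => ?_, fun ξ ξ' => ?_⟩
      · simp only
        rw [hfV ξ η aξ aη e0 ec]
        congr 1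
        refine Finset.prod_congr rfl fun i hi => ?_
        have hi' := Finset.mem_range.1 hi
        have hbi := hb.ok i (by omega)
        have e1 := bar_gl hbi (hb.nest i m hi' (Nat.lt_succ_self m)) hmG aξ aη e0 ec
        have e2 := gd_gl (b := b i) (V := (b m).V) aξ aη e0
        show s.kp p (b i) (s.gl (b m).V ξ η) ξ' = s.kp p (b i) ξ ξ'
        unfold kp
        by_cases h3 : (s.Gd (b i) ξ ∧ s.Gd (b i) ξ') ∧ (s.Bar (b i) ξ ∧ s.Bar (b i) ξ')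
        · rw [if_pos h3, if_pos ⟨⟨e2.2 h3.1.1, h3.1.2⟩, e1.2 h3.2.1, h3.2.2⟩]
        · rw [if_neg h3, if_neg fun h4 => h3 ⟨⟨e2.1 h4.1.1, h4.1.2⟩, e1.1 h4.2.1, h4.2.2⟩]
      · show s.Kp p b m ξ ξ' * |f ξ - f ξ'| = s.Kp p b m ξ' ξ * |f ξ' - f ξ|
        rw [Kp_symm, abs_sub_comm]
    have h2 : ∀ η η', s.Adm η → s.Adm η' → s.Eq0 η η' →
        |s.R c (b m).V' f η - s.R c (b m).V' f η'| ≤
          s.R2 c (b m).V' (fun ξ ξ' => s.kp p (b m) ξ ξ' * (s.Kp p b m ξ ξ' * |f ξ - f ξ'|)) η η' :=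
      fun η η' aη aη' e0 => block_step hc ok hp0 hp1 (hb.pb m (Nat.lt_succ_self m)) hfV hH
        (fun ζ ζ' aζ aζ' e => h1 ζ ζ' aζ aζ' e) aη aη' e0
    refine (lift_step hc (hV m (Nat.lt_succ_self m)) h2 aω aω' h0).trans (le_of_eq ?_)
    refine R2_congr c fun ξ _ ξ' _ => ?_
    unfold Kp
    rw [Finset.prod_range_succ]
    ring

end St
end Crest.Agent.R144.Cc169
end
end

-- ▼ part R144/Cc8_169

/-!
# R144 (CCW, step B), two replicas for the F-type law (helper169)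

* `s.Rel4 ω ω'` : same revealed information up to a global shift in `4 ℤ`;
* `s.CF` : valid compatible configurations of `F`; `s.cls`, `s.Pcl` classes of `Rel4` and their masses;
* `s.E2 c H` : two replicas with law `E c F`, conditionally independent given the class;
* `s.Yt c Y` : conditional expectation of `Y` given the class;
* `cov_le` : `|E (f Y) - E (f Yt)| ≤ E2 (Kp |f - f'|)` for `f` seen in `V0`, invariant under `4 ℤ` shifts, `Y` constant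
  on the kernels of the top set.
-/

set_option autoImplicit false
set_option linter.unusedSectionVars false
set_option linter.unusedSimpArgs false

noncomputable section

namespace Crest.Agent.R144.Cc169

open Finset
open Crest.Agent.R144.It844 (P2 Lip adj_iff adj_symm lip_iff)
open Crest.ProbabilityR.HexHeights (Adj)
open Crest.Agent.R144.Zg349 Crest.Agent.R144.Zk349 Crest.Agent.R144.Zd349 Crest.Agent.R144.Zm349
open Crest.Agent.R144.Ze349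
open Crest.Agent.R144.Cb2169 (Ex Cl Wd mem_Ex mem_Cl mem_Wd Ex_sub Cl_sub R_sub_Ex Ex_sub_Cl Ex_step
  layer_pC Ex_congr adj_of_share mem_D_of_path Stp Apart stepIn_symm rtg_symm rtg_mono)

/-! ### shifts -/

theorem s1_add4 (a k : ℤ) : s1 (a + 4 * k) = s1 a := by
  unfold s1
  rw [decide_eq_decide]
  omega

theorem s2_add4 (a k : ℤ) : s2 (a + 4 * k) = s2 a := by
  unfold s2
  rw [decide_eq_decide]
  omega

theorem addH_1 (a : ℤ) (ω : Cfg) (v : P2) : (addH a ω).1 v = ω.1 v + a := rfl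
theorem addH_2 (a : ℤ) (ω : Cfg) (t : P2) : (addH a ω).2 t = ω.2 t := rfl

theorem addH_zero (ω : Cfg) : addH 0 ω = ω := by
  refine Prod.ext ?_ rfl
  funext v
  exact add_zero _

theorem addH_addH (a b : ℤ) (ω : Cfg) : addH a (addH b ω) = addH (a + b) ω := by
  refine Prod.ext ?_ rfl
  funext v
  show ω.1 v + b + a = ω.1 v + (a + b)
  ring

theorem pC_add4 (k : ℤ) (ω : Cfg) (t : P2) : pC (addH (4 * k) ω) t ↔ pC ω t := by
  unfold pC
  rw [addH_1, s1_add4, addH_2]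

theorem C1_add4 (k : ℤ) (ω : Cfg) (t : P2) : C1 (addH (4 * k) ω).1 t ↔ C1 ω.1 t := by
  unfold C1
  simp only [addH_1, s1_add4]

theorem C2_add4 (k : ℤ) (ω : Cfg) (t : P2) : C2 (addH (4 * k) ω).1 t ↔ C2 ω.1 t := by
  unfold C2
  simp only [addH_1, s2_add4]

theorem ew_add4 (c : ℝ) (k : ℤ) (ω : Cfg) (t : P2) : ew c (addH (4 * k) ω) t = ew c ω t := by
  unfold ew
  simp only [C1_add4, C2_add4, addH_2]

theorem wt_add4 (c : ℝ) (A : Finset P2) (k : ℤ) (ω : Cfg) : wt c A (addH (4 * k) ω) = wt c A ω :=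
  Finset.prod_congr rfl fun t _ => ew_add4 c k ω t

theorem Ex_add4 (D R : Finset P2) (k : ℤ) (ω : Cfg) : Ex D R (addH (4 * k) ω) = Ex D R ω := by
  ext t
  rw [mem_Ex, mem_Ex]
  have : ∀ a b, Stp D (addH (4 * k) ω) a b ↔ Stp D ω a b := fun a b => by
    unfold Stp
    rw [pC_add4]
  unfold Cb2169.InE
  have e : Stp D (addH (4 * k) ω) = Stp D ω := by
    funext a b
    exact propext (this a b)
  rw [e]

theorem cmp_add4 {A : Finset P2} {k : ℤ} {ω : Cfg} (h : Cmp A ω) : Cmp A (addH (4 * k) ω) := by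
  intro t ht
  rw [C1_add4, C2_add4, addH_2]
  exact h t ht

theorem lip_add {ω : Cfg} (a : ℤ) (h : Lip ω.1) : Lip (addH a ω).1 := h.add_const a

namespace St
variable (s : St)

theorem X_add4 (k : ℤ) (ω : Cfg) : s.X (addH (4 * k) ω) = s.X ω := Ex_add4 _ _ _ _
theorem N_add4 (k : ℤ) (ω : Cfg) : s.N (addH (4 * k) ω) = s.N ω := s.N_congr (s.X_add4 k ω)

variable {s}

theorem adm_add4 {k : ℤ} {ω : Cfg} (h : s.Adm ω) : s.Adm (addH (4 * k) ω) :=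
  ⟨lip_add _ h.lip, cmp_add4 h.cmp⟩

theorem K_add4 {V : Finset P2} {k : ℤ} {ω η : Cfg} (h : η ∈ s.K V ω) :
    addH (4 * k) η ∈ s.K V (addH (4 * k) ω) := by
  obtain ⟨h1, h2⟩ := s.mem_K.1 h
  obtain ⟨k1, k2, k3, k4⟩ := s.mem_K0.1 h1
  refine s.mem_K.2 ⟨s.mem_K0.2 ⟨lip_add _ k1, fun v hv => ?_, fun t ht => ?_, ?_⟩, cmp_add4 h2⟩
  · rw [s.Fr_congr (s.X_add4 k ω)] at hv
    rw [addH_1, addH_1, k2 v hv]
  · rw [s.N_add4] at ht
    rw [addH_2, addH_2, k3 t ht]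
  · rw [s.X_add4, s.X_add4, k4]

/-- kernels commute with the shifts -/
theorem R_add4 (c : ℝ) (V : Finset P2) (k : ℤ) (f : Cfg → ℝ) (ω : Cfg) :
    s.R c V f (addH (4 * k) ω) = s.R c V (fun ξ => f (addH (4 * k) ξ)) ω := by
  have key : ∀ g : Cfg → ℝ, ∑ ξ ∈ s.K V (addH (4 * k) ω), wt c (s.N (addH (4 * k) ω) ∩ V) ξ * g ξ =
      ∑ ξ ∈ s.K V ω, wt c (s.N ω ∩ V) ξ * g (addH (4 * k) ξ) := by
    intro g
    symm
    have hk : ∀ ζ : Cfg, addH (4 * k) (addH (4 * (-k)) ζ) = ζ := fun ζ => by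
      rw [addH_addH]
      have : 4 * k + 4 * (-k) = 0 := by ring
      rw [this, addH_zero]
    have hk' : ∀ ζ : Cfg, addH (4 * (-k)) (addH (4 * k) ζ) = ζ := fun ζ => by
      rw [addH_addH]
      have : 4 * (-k) + 4 * k = 0 := by ring
      rw [this, addH_zero]
    refine Finset.sum_bij' (fun ξ _ => addH (4 * k) ξ) (fun ξ _ => addH (4 * (-k)) ξ)
      (fun ξ hξ => K_add4 hξ) (fun ξ hξ => ?_) (fun ξ _ => hk' ξ) (fun ξ _ => hk ξ) (fun ξ _ => ?_)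
    · have := K_add4 (k := -k) hξ
      rwa [hk'] at this
    · rw [wt_add4, s.N_add4]
  have h1 := key (fun _ => 1)
  simp only [mul_one] at h1
  unfold R W
  rw [key f, h1]

variable (s) in
/-- same revealed information up to a global shift in `4 ℤ` -/
def Rel4 (ω ω' : Cfg) : Prop := ∃ k : ℤ, s.Eq0 (addH (4 * k) ω) ω'

theorem eq0_add4 {ω ω' : Cfg} (k : ℤ) (h : s.Eq0 ω ω') : s.Eq0 (addH (4 * k) ω) (addH (4 * k) ω') := by
  refine ⟨by rw [s.X_add4, s.X_add4, h.X], fun v hv => ?_, fun t ht => ?_⟩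
  · rw [s.X_add4] at hv
    rw [addH_1, addH_1, h.ht v hv]
  · rw [s.X_add4] at ht
    rw [addH_2, addH_2, h.z t ht]

theorem rel_refl (ω : Cfg) : s.Rel4 ω ω := ⟨0, by rw [mul_zero, addH_zero]; exact Eq0.refl s ω⟩

theorem rel_symm {ω ω' : Cfg} (h : s.Rel4 ω ω') : s.Rel4 ω' ω := by
  obtain ⟨k, hk⟩ := h
  refine ⟨-k, ?_⟩
  have h1 := (eq0_add4 (-k) hk).symm
  rw [addH_addH] at h1
  have : 4 * (-k) + 4 * k = 0 := by ring
  rwa [this, addH_zero] at h1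

theorem rel_trans {ω ω' ω'' : Cfg} (h : s.Rel4 ω ω') (h' : s.Rel4 ω' ω'') : s.Rel4 ω ω'' := by
  obtain ⟨k, hk⟩ := h
  obtain ⟨j, hj⟩ := h'
  refine ⟨j + k, ?_⟩
  have h1 := (eq0_add4 j hk).trans hj
  rw [addH_addH] at h1
  have : 4 * j + 4 * k = 4 * (j + k) := by ring
  rwa [this] at h1

theorem rel_of_eq0 {ω ω' : Cfg} (h : s.Eq0 ω ω') : s.Rel4 ω ω' := ⟨0, by rw [mul_zero, addH_zero]; exact h⟩

theorem rel_X {ω ω' : Cfg} (h : s.Rel4 ω ω') : s.X ω' = s.X ω := by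
  obtain ⟨k, hk⟩ := h
  rw [hk.X, s.X_add4]

/-! ### the F-type law -/

variable (s) in
open Classical in
/-- valid compatible configurations -/
def CF : Finset Cfg := (conf s.F).filter fun ω => Cmp s.F ω

theorem mem_CF {ω : Cfg} : ω ∈ s.CF ↔ Valid s.F ω ∧ Cmp s.F ω := by
  simp only [CF, Finset.mem_filter, mem_conf]

theorem adm_CF {ω : Cfg} (h : ω ∈ s.CF) : s.Adm ω := ⟨(mem_CF.1 h).1.ht.toLip, (mem_CF.1 h).2⟩

theorem E_CF (c : ℝ) (g : Cfg → ℝ) : E c s.F g = ∑ ω ∈ s.CF, pr c s.F ω * g ω := by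
  classical
  unfold E
  refine (Finset.sum_subset (Finset.filter_subset _ _) fun ω hω hω' => ?_).symm
  have h1 : wt c s.F ω = 0 := by
    by_contra h
    exact hω' (Finset.mem_filter.2 ⟨hω, cmp_of_wt h⟩)
  rw [pr_of_valid c (mem_conf.1 hω), h1, zero_div, zero_mul]

theorem G_sub_IV {v : P2} (hv : v ∈ VF s.G) : v ∈ IV s.F := by
  rw [mem_IV']
  intro t ht
  by_contra h
  exact up_not_G h ht hv

theorem K_sub_CF {V : Finset P2} {ω η : Cfg} (hω : ω ∈ s.CF) (h : η ∈ s.K V ω) : η ∈ s.CF := by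
  obtain ⟨h1, h2⟩ := s.mem_K.1 h
  obtain ⟨k1, k2, k3, _⟩ := s.mem_K0.1 h1
  obtain ⟨hv, _⟩ := mem_CF.1 hω
  refine mem_CF.2 ⟨⟨⟨fun t _ i j => Zs349.lip_cr k1 t i j, fun v hv' => ?_, fun v hv' => ?_⟩, fun t ht => ?_⟩, h2⟩
  · have : v ∉ s.Fr V ω := fun h' => hv' (G_sub_IV ((s.mem_Fr).1 h').1)
    rw [k2 v this]
    exact hv.ht.bd v hv'
  · have : v ∉ s.Fr V ω := fun h' => hv' (VF_mono s.hGF ((s.mem_Fr).1 h').1)
    rw [k2 v this]
    exact hv.ht.off v hv'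
  · rw [k3 t fun h' => ht ((s.N_sub ω) (Finset.mem_inter.1 h').1)]
    exact hv.cl t ht

/-- weights off `V` are constant on the kernels (all triangles of `F`) -/
theorem wt_outF {c : ℝ} {V : Finset P2} {ω η : Cfg} (a : s.Adm ω) (h : η ∈ s.K V ω) :
    wt c (s.F \ (s.N ω ∩ V)) η = wt c (s.F \ (s.N ω ∩ V)) ω := by
  have e0 := eq0_of_K h
  have aη := s.adm_of_K h
  obtain ⟨_, a2, a3, _⟩ := s.mem_K0.1 (s.mem_K.1 h).1
  refine Finset.prod_congr rfl fun t ht => ?_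
  rw [Finset.mem_sdiff] at ht
  rcases cases_F ω V ht.1 with h1 | h1 | h1 | ⟨h1, h2⟩
  · exact absurd h1 ht.2
  · exact ew_congr c (fun v hv => a2 v fun h' => ((s.mem_Fr).1 h').2.2 (mem_VF_of h1 hv)) (a3 t ht.2)
  · exact ew_congr c (fun v hv => e0.ht v (mem_VF_of h1 hv)) (e0.z t h1)
  · have p1 : pC ω t := s.layer h1 h2
    have p2 : pC η t := s.layer (by rw [e0.Rv]; exact h1) (by rw [e0.X]; exact h2)
    rw [ew_plus c p2.1 fun v hv => pC_all aη.cmp ht.1 p2 hv,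
      ew_plus c p1.1 fun v hv => pC_all a.cmp ht.1 p1 hv]

/-- averaging over kernels under the F-type law, on unions of kernels -/
theorem sum_avg {c : ℝ} (hc : 1 ≤ c) {V : Finset P2} {C : Finset Cfg} (hC : C ⊆ s.CF)
    (hK : ∀ ω ∈ C, s.K V ω ⊆ C) (g : Cfg → ℝ) :
    ∑ ω ∈ C, pr c s.F ω * g ω = ∑ ω ∈ C, pr c s.F ω * s.R c V g ω := by
  have hpr : ∀ ω ∈ C, pr c s.F ω = wt c (s.F \ (s.N ω ∩ V)) ω / Z c s.F * wt c (s.N ω ∩ V) ω := by
    intro ω hω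
    have hsub : s.N ω ∩ V ⊆ s.F := Finset.inter_subset_left.trans (s.N_sub ω)
    rw [pr_of_valid c (mem_CF.1 (hC hω)).1, wt_sub c hsub ω]
    ring
  have hN : ∀ ω ∈ C, ∀ η ∈ s.K V ω, s.N η = s.N ω := fun ω _ η h => s.N_congr (s.X_of_K h)
  -- the weight function must not depend on the class representative
  have key := part_avg C (fun ω => s.K V ω) hK (fun ω hω => s.self_mem_K (adm_CF (hC hω)))
    (fun ω hω η h => s.K_eq (adm_CF (hC hω)) h)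
    (fun ω => wt c (s.F \ (s.N ω ∩ V)) ω / Z c s.F) (fun ω => wt c (s.N ω ∩ V) ω) g
    (fun ω hω η h => by
      rw [hN ω hω η h, wt_outF (adm_CF (hC hω)) h])
    (fun ω hω => by
      have h1 := (W_pos hc (V := V) (adm_CF (hC hω))).ne'
      unfold W at h1
      have : ∑ η ∈ s.K V ω, wt c (s.N η ∩ V) η = ∑ η ∈ s.K V ω, wt c (s.N ω ∩ V) η :=
        Finset.sum_congr rfl fun η h => by rw [hN ω hω η h]
      rw [this]
      exact h1)
  have l : ∑ ω ∈ C, pr c s.F ω * g ω =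
      ∑ ω ∈ C, wt c (s.F \ (s.N ω ∩ V)) ω / Z c s.F * wt c (s.N ω ∩ V) ω * g ω :=
    Finset.sum_congr rfl fun ω hω => by rw [hpr ω hω]
  rw [l, key]
  refine Finset.sum_congr rfl fun ω hω => ?_
  rw [hpr ω hω]
  congr 1
  unfold R W
  have e1 : ∑ η ∈ s.K V ω, wt c (s.N η ∩ V) η = ∑ η ∈ s.K V ω, wt c (s.N ω ∩ V) η :=
    Finset.sum_congr rfl fun η h => by rw [hN ω hω η h]
  have e2 : ∑ η ∈ s.K V ω, wt c (s.N η ∩ V) η * g η = ∑ η ∈ s.K V ω, wt c (s.N ω ∩ V) η * g η :=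
    Finset.sum_congr rfl fun η h => by rw [hN ω hω η h]
  rw [e1, e2]

variable (s) in
open Classical in
/-- class of a configuration -/
def cls (ω : Cfg) : Finset Cfg := s.CF.filter fun ω' => s.Rel4 ω ω'

theorem mem_cls {ω ω' : Cfg} : ω' ∈ s.cls ω ↔ ω' ∈ s.CF ∧ s.Rel4 ω ω' := by
  simp only [cls, Finset.mem_filter]

theorem cls_sub (ω : Cfg) : s.cls ω ⊆ s.CF := fun _ h => (mem_cls.1 h).1

theorem self_mem_cls {ω : Cfg} (h : ω ∈ s.CF) : ω ∈ s.cls ω := mem_cls.2 ⟨h, rel_refl ω⟩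

theorem cls_eq {ω ω' : Cfg} (h : s.Rel4 ω ω') : s.cls ω' = s.cls ω := by
  ext η
  rw [mem_cls, mem_cls]
  exact ⟨fun h' => ⟨h'.1, rel_trans h h'.2⟩, fun h' => ⟨h'.1, rel_trans (rel_symm h) h'.2⟩⟩

theorem K_sub_cls {V : Finset P2} {ω ω' : Cfg} (h : ω' ∈ s.cls ω) : s.K V ω' ⊆ s.cls ω := fun η hη =>
  mem_cls.2 ⟨K_sub_CF (mem_cls.1 h).1 hη, rel_trans (mem_cls.1 h).2 (rel_of_eq0 (eq0_of_K hη))⟩

variable (s) in
/-- mass of a class -/
def Pcl (c : ℝ) (ω : Cfg) : ℝ := ∑ ω' ∈ s.cls ω, pr c s.F ω'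

variable (s) in
/-- conditional expectation given the class -/
def Yt (c : ℝ) (Y : Cfg → ℝ) (ω : Cfg) : ℝ := (∑ ω' ∈ s.cls ω, pr c s.F ω' * Y ω') / s.Pcl c ω

variable (s) in
/-- two replicas, conditionally independent given the class -/
def E2 (c : ℝ) (H : Cfg → Cfg → ℝ) : ℝ :=
  ∑ ω ∈ s.CF, pr c s.F ω * ((∑ ω' ∈ s.cls ω, pr c s.F ω' * H ω ω') / s.Pcl c ω)

theorem Pcl_eq (c : ℝ) {ω ω' : Cfg} (h : s.Rel4 ω ω') : s.Pcl c ω' = s.Pcl c ω := by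
  unfold Pcl; rw [cls_eq h]

theorem Yt_eq (c : ℝ) (Y : Cfg → ℝ) {ω ω' : Cfg} (h : s.Rel4 ω ω') : s.Yt c Y ω' = s.Yt c Y ω := by
  unfold Yt; rw [cls_eq h, Pcl_eq c h]

theorem Pcl_nonneg {c : ℝ} (hc : 1 ≤ c) (ω : Cfg) : 0 ≤ s.Pcl c ω :=
  Finset.sum_nonneg fun _ _ => pr_nonneg hc _ _

theorem pr_zero_of {c : ℝ} (hc : 1 ≤ c) {ω : Cfg} (h : s.Pcl c ω = 0) : ∀ ω' ∈ s.cls ω, pr c s.F ω' = 0 :=
  (Finset.sum_eq_zero_iff_of_nonneg fun _ _ => pr_nonneg hc _ _).1 h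

theorem Yt_abs {c : ℝ} (hc : 1 ≤ c) {Y : Cfg → ℝ} {B : ℝ} (hB : 0 ≤ B) (hY : ∀ ω ∈ s.CF, |Y ω| ≤ B)
    (ω : Cfg) : |s.Yt c Y ω| ≤ B := by
  unfold Yt
  rcases (Pcl_nonneg hc ω).lt_or_eq with h | h
  · rw [abs_div, abs_of_pos h, div_le_iff₀ h]
    refine (Finset.abs_sum_le_sum_abs _ _).trans ?_
    unfold Pcl
    rw [Finset.mul_sum]
    refine Finset.sum_le_sum fun ω' hω' => ?_
    rw [abs_mul, abs_of_nonneg (pr_nonneg hc _ _), mul_comm]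
    exact mul_le_mul_of_nonneg_right (hY ω' (cls_sub ω hω')) (pr_nonneg hc _ _)
  · rw [← h, div_zero, abs_zero]
    exact hB

/-- exchange of the two replicas -/
theorem E2_swap {c : ℝ} (H : Cfg → Cfg → ℝ) : s.E2 c H = s.E2 c (fun ω ω' => H ω' ω) := by
  unfold E2
  have l : ∀ H : Cfg → Cfg → ℝ, ∑ ω ∈ s.CF, pr c s.F ω * ((∑ ω' ∈ s.cls ω, pr c s.F ω' * H ω ω') / s.Pcl c ω) =
      ∑ ω ∈ s.CF, ∑ ω' ∈ s.cls ω, pr c s.F ω * pr c s.F ω' / s.Pcl c ω * H ω ω' := by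
    intro H
    refine Finset.sum_congr rfl fun ω _ => ?_
    rw [Finset.sum_div, Finset.mul_sum]
    exact Finset.sum_congr rfl fun _ _ => by ring
  rw [l, l, Finset.sum_comm' (s' := fun ω' => s.cls ω') (t' := s.CF)]
  · refine Finset.sum_congr rfl fun ω' _ => Finset.sum_congr rfl fun ω hω => ?_
    rw [Pcl_eq c (mem_cls.1 hω).2]
    ring
  · intro ω ω'
    rw [mem_cls, mem_cls]
    exact ⟨fun h => ⟨⟨h.1, rel_symm h.2.2⟩, h.2.1⟩, fun h => ⟨h.1.1, h.2, rel_symm h.1.2⟩⟩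

theorem E2_fst {c : ℝ} (hc : 1 ≤ c) (g : Cfg → ℝ) : s.E2 c (fun ω _ => g ω) = E c s.F g := by
  rw [E_CF]
  unfold E2
  refine Finset.sum_congr rfl fun ω hω => ?_
  rw [← Finset.sum_mul]
  show _ * (s.Pcl c ω * g ω / s.Pcl c ω) = _
  rcases (Pcl_nonneg (s := s) hc ω).lt_or_eq with h | h
  · rw [mul_div_assoc, mul_div_cancel₀ _ h.ne']
  · rw [pr_zero_of hc h.symm ω (self_mem_cls hω), zero_mul, zero_mul]

theorem E2_snd {c : ℝ} (hc : 1 ≤ c) (g : Cfg → ℝ) : s.E2 c (fun _ ω' => g ω') = E c s.F g := by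
  rw [E2_swap]
  exact E2_fst hc g

theorem E2_mono {c : ℝ} (hc : 1 ≤ c) {H H' : Cfg → Cfg → ℝ}
    (h : ∀ ω ∈ s.CF, ∀ ω' ∈ s.CF, s.Rel4 ω ω' → H ω ω' ≤ H' ω ω') : s.E2 c H ≤ s.E2 c H' := by
  unfold E2
  refine Finset.sum_le_sum fun ω hω => mul_le_mul_of_nonneg_left ?_ (pr_nonneg hc _ _)
  refine div_le_div_of_nonneg_right ?_ (Pcl_nonneg hc ω)
  exact Finset.sum_le_sum fun ω' hω' =>
    mul_le_mul_of_nonneg_left (h ω hω ω' (mem_cls.1 hω').1 (mem_cls.1 hω').2) (pr_nonneg hc _ _)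

theorem E2_congr {c : ℝ} {H H' : Cfg → Cfg → ℝ}
    (h : ∀ ω ∈ s.CF, ∀ ω' ∈ s.CF, s.Rel4 ω ω' → H ω ω' = H' ω ω') : s.E2 c H = s.E2 c H' := by
  unfold E2
  refine Finset.sum_congr rfl fun ω hω => ?_
  congr 2
  exact Finset.sum_congr rfl fun ω' hω' => by rw [h ω hω ω' (mem_cls.1 hω').1 (mem_cls.1 hω').2]

theorem E2_add (c : ℝ) (H H' : Cfg → Cfg → ℝ) :
    s.E2 c (fun ω ω' => H ω ω' + H' ω ω') = s.E2 c H + s.E2 c H' := by
  unfold E2
  rw [← Finset.sum_add_distrib]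
  refine Finset.sum_congr rfl fun ω _ => ?_
  rw [← mul_add, ← add_div, ← Finset.sum_add_distrib]
  congr 2
  exact Finset.sum_congr rfl fun _ _ => by ring

theorem E2_smul (c a : ℝ) (H : Cfg → Cfg → ℝ) : s.E2 c (fun ω ω' => a * H ω ω') = a * s.E2 c H := by
  unfold E2
  rw [Finset.mul_sum]
  refine Finset.sum_congr rfl fun ω _ => ?_
  have : ∑ ω' ∈ s.cls ω, pr c s.F ω' * (a * H ω ω') = a * ∑ ω' ∈ s.cls ω, pr c s.F ω' * H ω ω' := by
    rw [Finset.mul_sum]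
    exact Finset.sum_congr rfl fun _ _ => by ring
  rw [this]
  ring

/-- tower for the second variable -/
theorem E2_avg2 {c : ℝ} (hc : 1 ≤ c) (V : Finset P2) (H : Cfg → Cfg → ℝ) :
    s.E2 c (fun ω ω' => s.R c V (H ω) ω') = s.E2 c H := by
  unfold E2
  refine Finset.sum_congr rfl fun ω _ => ?_
  rw [sum_avg hc (V := V) (cls_sub ω) (fun ω' h => K_sub_cls h) (H ω)]

/-- **tower for the two replicas** -/
theorem E2_tower {c : ℝ} (hc : 1 ≤ c) (V : Finset P2) (H : Cfg → Cfg → ℝ) :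
    s.E2 c (s.R2 c V H) = s.E2 c H := by
  have h1 : s.E2 c (s.R2 c V H) = s.E2 c (fun ω ω' => s.R c V (fun ξ => H ξ ω') ω) := by
    have e : s.R2 c V H = fun ω ω' => s.R c V (fun ω'' => s.R c V (fun ξ => H ξ ω'') ω) ω' := by
      funext ω ω'
      unfold R2
      exact R_comm c V V H ω ω'
    rw [e]
    exact E2_avg2 hc V fun ω ω'' => s.R c V (fun ξ => H ξ ω'') ω
  rw [h1, E2_swap]
  have h2 := E2_avg2 (s := s) hc V (fun ω ω' => H ω' ω)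
  rw [h2, ← E2_swap]

theorem E2_abs {c : ℝ} (hc : 1 ≤ c) (H : Cfg → Cfg → ℝ) : |s.E2 c H| ≤ s.E2 c fun ω ω' => |H ω ω'| := by
  rw [abs_le]
  constructor
  · have h1 := E2_mono (s := s) hc (H := fun ω ω' => (-1) * |H ω ω'|) (H' := H) fun ω _ ω' _ _ => by
      rw [neg_one_mul]; exact neg_abs_le _
    rw [E2_smul, neg_one_mul] at h1
    exact h1
  · exact E2_mono hc fun ω _ ω' _ _ => le_abs_self _

theorem Kp_add4 {p : ℝ} (b : ℕ → Bk) (m : ℕ) (k : ℤ) (ξ ξ' : Cfg) :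
    s.Kp p b m ξ (addH (4 * k) ξ') = s.Kp p b m ξ ξ' := by
  refine Finset.prod_congr rfl fun i _ => ?_
  have e1 : s.Gd (b i) (addH (4 * k) ξ') ↔ s.Gd (b i) ξ' :=
    ⟨gd_congr (s.X_add4 k ξ').symm, gd_congr (s.X_add4 k ξ')⟩
  have e2 : s.Bar (b i) (addH (4 * k) ξ') ↔ s.Bar (b i) ξ' := by
    unfold Bar Eo Ei
    rw [s.N_add4, Ex_add4, Ex_add4]
  unfold kp
  by_cases h : (s.Gd (b i) ξ ∧ s.Gd (b i) ξ') ∧ (s.Bar (b i) ξ ∧ s.Bar (b i) ξ')
  · rw [if_pos h, if_pos ⟨⟨h.1.1, e1.2 h.1.2⟩, h.2.1, e2.2 h.2.2⟩]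
  · rw [if_neg h, if_neg fun h' => h ⟨⟨h'.1.1, e1.1 h'.1.2⟩, h'.2.1, e2.1 h'.2.2⟩]

/-- chain for configurations with the same revealed information up to a shift -/
theorem chain4 {c : ℝ} (hc : 1 ≤ c) {p : ℝ} (hp0 : 0 < p) (hp1 : p ≤ 1) {b : ℕ → Bk} {V0 : Finset P2}
    {f : Cfg → ℝ} (hf : s.LocV V0 f) (h4 : ∀ k ω, f (addH (4 * k) ω) = f ω) {m : ℕ}
    (hb : Chain s c p b m V0) {V : Finset P2} (hV : ∀ i < m, (b i).V' ⊆ V) (hV0 : V0 ⊆ V) (hVG : V ⊆ s.G)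
    {ω ω' : Cfg} (aω : s.Adm ω) (aω' : s.Adm ω') (h0 : s.Rel4 ω ω') :
    |s.R c V f ω - s.R c V f ω'| ≤ s.R2 c V (fun ξ ξ' => s.Kp p b m ξ ξ' * |f ξ - f ξ'|) ω ω' := by
  obtain ⟨k, hk⟩ := rel_symm h0
  have h1 := chain hc hp0 hp1 hf m hb V hV hV0 hVG ω (addH (4 * k) ω') aω (adm_add4 aω') hk.symm
  have e1 : s.R c V f (addH (4 * k) ω') = s.R c V f ω' := by
    rw [R_add4]
    exact R_congr c fun ξ _ => h4 k ξ
  have e2 : s.R2 c V (fun ξ ξ' => s.Kp p b m ξ ξ' * |f ξ - f ξ'|) ω (addH (4 * k) ω') =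
      s.R2 c V (fun ξ ξ' => s.Kp p b m ξ ξ' * |f ξ - f ξ'|) ω ω' := by
    unfold R2
    refine R_congr c fun ξ _ => ?_
    rw [R_add4]
    refine R_congr c fun ξ' _ => ?_
    show s.Kp p b m ξ (addH (4 * k) ξ') * |f ξ - f (addH (4 * k) ξ')| =
      s.Kp p b m ξ ξ' * |f ξ - f ξ'|
    rw [Kp_add4, h4]
  rw [e1, e2] at h1
  exact h1

/-- **Covariance bound** -/
theorem cov_le {c : ℝ} (hc : 1 ≤ c) {p : ℝ} (hp0 : 0 < p) (hp1 : p ≤ 1) {b : ℕ → Bk} {V0 : Finset P2}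
    {f : Cfg → ℝ} (hf : s.LocV V0 f) (h4 : ∀ k ω, f (addH (4 * k) ω) = f ω) {m : ℕ}
    (hb : Chain s c p b m V0) {V : Finset P2} (hV : ∀ i < m, (b i).V' ⊆ V) (hV0 : V0 ⊆ V) (hVG : V ⊆ s.G)
    {Y : Cfg → ℝ} (hY1 : ∀ ω ∈ s.CF, |Y ω| ≤ 1) (hYK : ∀ ω ∈ s.CF, ∀ η ∈ s.K V ω, Y η = Y ω) :
    |E c s.F (fun ω => f ω * Y ω) - E c s.F (fun ω => f ω * s.Yt c Y ω)| ≤
      s.E2 c (fun ω ω' => s.Kp p b m ω ω' * |f ω - f ω'|) := by
  have step1 : ∀ g : Cfg → ℝ, (∀ ω ∈ s.CF, ∀ η ∈ s.K V ω, g η = g ω) →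
      E c s.F (fun ω => f ω * g ω) = ∑ ω ∈ s.CF, pr c s.F ω * (g ω * s.R c V f ω) := by
    intro g hg
    rw [E_CF, sum_avg hc (V := V) le_rfl (fun ω h => fun η hη => K_sub_CF h hη) (fun ω => f ω * g ω)]
    refine Finset.sum_congr rfl fun ω hω => ?_
    congr 1
    rw [← R_mul_of_const c (f := f) (g := g) (hg ω hω)]
    exact R_congr c fun ξ _ => mul_comm _ _
  have hYt : ∀ ω ∈ s.CF, ∀ η ∈ s.K V ω, s.Yt c Y η = s.Yt c Y ω := fun ω _ η hη =>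
    Yt_eq c Y (rel_of_eq0 (eq0_of_K hη))
  rw [step1 Y hYK, step1 _ hYt]
  have e1 : ∑ ω ∈ s.CF, pr c s.F ω * (Y ω * s.R c V f ω) =
      s.E2 c (fun _ ω' => Y ω' * s.R c V f ω') := by
    rw [E2_snd hc (fun ω => Y ω * s.R c V f ω), E_CF]
  have e2 : ∑ ω ∈ s.CF, pr c s.F ω * (s.Yt c Y ω * s.R c V f ω) =
      s.E2 c (fun ω ω' => Y ω' * s.R c V f ω) := by
    unfold E2 Yt
    refine Finset.sum_congr rfl fun ω _ => ?_
    congr 1
    rw [div_mul_eq_mul_div, Finset.sum_mul]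
    congr 1
    exact Finset.sum_congr rfl fun _ _ => by ring
  rw [e1, e2]
  have e3 : s.E2 c (fun _ ω' => Y ω' * s.R c V f ω') - s.E2 c (fun ω ω' => Y ω' * s.R c V f ω) =
      s.E2 c (fun ω ω' => Y ω' * (s.R c V f ω' - s.R c V f ω)) := by
    have h1 : s.E2 c (fun ω ω' => Y ω' * (s.R c V f ω' - s.R c V f ω)) =
        s.E2 c (fun ω ω' => (fun _ ω' => Y ω' * s.R c V f ω') ω ω' +
          (-1) * (fun ω ω' => Y ω' * s.R c V f ω) ω ω') := by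
      refine E2_congr fun ω _ ω' _ _ => ?_
      simp only
      ring
    rw [h1, E2_add, E2_smul c (-1) (fun ω ω' => Y ω' * s.R c V f ω)]
    ring
  rw [e3]
  refine (E2_abs hc _).trans ?_
  rw [← E2_tower hc V (fun ω ω' => s.Kp p b m ω ω' * |f ω - f ω'|)]
  refine E2_mono hc fun ω hω ω' hω' hr => ?_
  rw [abs_mul]
  have h2 := chain4 hc hp0 hp1 hf h4 hb hV hV0 hVG (adm_CF hω) (adm_CF hω') hr
  rw [abs_sub_comm] at h2
  calc |Y ω'| * |s.R c V f ω' - s.R c V f ω| ≤ 1 * |s.R c V f ω' - s.R c V f ω| :=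
        mul_le_mul_of_nonneg_right (hY1 ω' hω') (abs_nonneg _)
    _ = |s.R c V f ω' - s.R c V f ω| := one_mul _
    _ ≤ _ := h2

end St
end Crest.Agent.R144.Cc169
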