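import Crest.Agent.R144.Cb2_169
import Crest.Agent.R144.Rsw0_867
import Crest.Agent.R144.Ccn2_311
import Crest.Agent.R144.Cc8_169

-- ▼ part R144/Cgeo_311
section

/-!
# R144, CCW step B: geometry of the strip, of the layers and of the blocks (helper311)

Index coordinates around a centre `g.a`: `col = |t.1 - a.1|` (both signs at once, folding),
`row = t.2 - a.2`.  Parameters (structure `GP`): `w` width of the strip = radius of the balls, `K` the RSW
ratio, `H = h w` thickness of the layers, `L` number of unit sub-blocks per third, `w0` size of the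
middle part, `m` number of blocks.

* `S`, `Lay`, `SL`, `RW` (revealed: outermost rows of the layers and walls of thickness 3), `V`, `Vi`, `Vo`,
  `V'`, `Bj` (block box), `Gd j` (good block), `NC lo hi` (no crossing), `Xj`, `Gp j` (ball events);
* `gp_sub_gd` : `Gp j ⊆ Gd j`; `xj_sub_nc` : `Xj j ⊆ NC`; `bar_out`, `bar_in`, `bar_mid`: no crossing implies
  barriers for the exploration of helper169.
-/

set_option autoImplicit false
set_option linter.unusedSectionVars false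
set_option linter.unusedSimpArgs false

noncomputable section

namespace Crest.Agent.R144.Cgeo311

open Finset
open Crest.Agent.R144.It844 (P2 adj_iff adj_symm)
open Crest.ProbabilityR.HexHeights (Adj)
open Crest.Agent.R144.Zg349 Crest.Agent.R144.Zk349 Crest.Agent.R144.Zd349 Crest.Agent.R144.Zm349
open Crest.Agent.R144.Ze349 Crest.Agent.R144.Zf349
open Crest.Agent.R144.Rsw867 (ball mem_ball BlkP Blk Sepr RSW)
open Crest.Agent.R144.Cb2169 (Ex Cl Bar Stp InE mem_Ex mem_Cl Ex_sub)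
open Crest.Agent.R144.Ccnt311 Crest.Agent.R144.Ccn2311

/-! ### coordinates -/

/-- folded column coordinate -/
def col (a t : P2) : ℤ := |t.1 - a.1|
/-- row coordinate -/
def row (a t : P2) : ℤ := t.2 - a.2

theorem col_adj {a s t : P2} (h : Adj s t) : col a t ≤ col a s + 1 ∧ col a s ≤ col a t + 1 := by
  unfold col
  rcases adj_iff.1 h with h | h | h | h | h | h <;> subst h <;> simp only <;>
    rcases abs_cases (s.1 - a.1) with h1 | h1 <;>
    first
      | (rcases abs_cases (s.1 + 1 - a.1) with h2 | h2 <;> constructor <;> omega)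
      | (rcases abs_cases (s.1 - 1 - a.1) with h2 | h2 <;> constructor <;> omega)

theorem row_adj {a s t : P2} (h : Adj s t) : row a t ≤ row a s + 1 ∧ row a s ≤ row a t + 1 := by
  unfold row
  rcases adj_iff.1 h with h | h | h | h | h | h <;> subst h <;> simp only <;>
    constructor <;> omega

open Classical in
/-- `{lo ≤ col < hi, r1 ≤ row < r2}` -/
def Box (a : P2) (lo hi r1 r2 : ℤ) : Finset P2 :=
  ((Finset.Icc (a.1 - hi) (a.1 + hi)) ×ˢ (Finset.Icc (a.2 + r1) (a.2 + r2))).filter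
    fun t => (lo ≤ col a t ∧ col a t < hi) ∧ (r1 ≤ row a t ∧ row a t < r2)

theorem mem_Box {a t : P2} {lo hi r1 r2 : ℤ} : t ∈ Box a lo hi r1 r2 ↔
    (lo ≤ col a t ∧ col a t < hi) ∧ (r1 ≤ row a t ∧ row a t < r2) := by
  unfold Box
  rw [Finset.mem_filter, Finset.mem_product, Finset.mem_Icc, Finset.mem_Icc]
  constructor
  · exact fun h => h.2
  · intro h
    refine ⟨?_, h⟩
    obtain ⟨⟨h1, h2⟩, h3, h4⟩ := h
    unfold col at h1 h2
    unfold row at h3 h4
    have := abs_lt.1 h2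
    refine ⟨⟨by omega, by omega⟩, by omega, by omega⟩

theorem Box_mono {a : P2} {lo hi r1 r2 lo' hi' r1' r2' : ℤ} (h1 : lo' ≤ lo) (h2 : hi ≤ hi')
    (h3 : r1' ≤ r1) (h4 : r2 ≤ r2') : Box a lo hi r1 r2 ⊆ Box a lo' hi' r1' r2' := fun t ht => by
  rw [mem_Box] at ht ⊢
  omega

/-! ### boxes have connected complement -/

theorem rtg_up {S : Set P2} (i : ℤ) : ∀ (n : ℕ) (j : ℤ), (∀ k : ℤ, j ≤ k → k ≤ j + n → (i, k) ∈ S) →
    Relation.ReflTransGen (StepIn S) (i, j) (i, j + n) := by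
  intro n
  induction n with
  | zero => intro j _; simp only [Nat.cast_zero, add_zero]; exact .refl
  | succ n ih =>
    intro j h
    have h1 := ih j fun k h1 h2 => h k h1 (by push_cast; omega)
    refine h1.tail ⟨h _ (by omega) (by push_cast; omega), h _ (by push_cast; omega) (by push_cast; omega), ?_⟩
    rw [adj_iff]
    refine Or.inr (Or.inr (Or.inl ?_))
    push_cast
    simp only [Prod.mk.injEq, true_and]
    ring

theorem rtg_right {S : Set P2} (j : ℤ) : ∀ (n : ℕ) (i : ℤ), (∀ k : ℤ, i ≤ k → k ≤ i + n → (k, j) ∈ S) →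
    Relation.ReflTransGen (StepIn S) (i, j) (i + n, j) := by
  intro n
  induction n with
  | zero => intro j _; simp only [Nat.cast_zero, add_zero]; exact .refl
  | succ n ih =>
    intro i h
    have h1 := ih i fun k h1 h2 => h k h1 (by push_cast; omega)
    refine h1.tail ⟨h _ (by omega) (by push_cast; omega), h _ (by push_cast; omega) (by push_cast; omega), ?_⟩
    rw [adj_iff]
    refine Or.inl ?_
    push_cast
    simp only [Prod.mk.injEq, and_true]
    ring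

theorem rtg_symm' {S : Set P2} {u v : P2} (h : Relation.ReflTransGen (StepIn S) u v) :
    Relation.ReflTransGen (StepIn S) v u := Crest.Agent.R144.Cb2169.rtg_symm h

theorem rtg_col {S : Set P2} (i j k : ℤ) (hjk : j ≤ k) (h : ∀ l : ℤ, j ≤ l → l ≤ k → (i, l) ∈ S) :
    Relation.ReflTransGen (StepIn S) (i, j) (i, k) := by
  have h1 := rtg_up (S := S) i (k - j).toNat j fun l h1 h2 => h l h1 (by omega)
  rw [Int.toNat_of_nonneg (by omega)] at h1
  rwa [add_sub_cancel] at h1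

theorem rtg_row {S : Set P2} (i j k : ℤ) (hik : i ≤ k) (h : ∀ l : ℤ, i ≤ l → l ≤ k → (l, j) ∈ S) :
    Relation.ReflTransGen (StepIn S) (i, j) (k, j) := by
  have h1 := rtg_right (S := S) j (k - i).toNat i fun l h1 h2 => h l h1 (by omega)
  rw [Int.toNat_of_nonneg (by omega)] at h1
  rwa [add_sub_cancel] at h1

/-- a set of finitely many columns times a row interval has connected complement -/
theorem sc_of_cols {B : Finset P2} {I : Set ℤ} {r1 r2 N : ℤ} (hN : ∀ i ∈ I, i < N)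
    (hB : ∀ t : P2, t ∈ B ↔ t.1 ∈ I ∧ r1 ≤ t.2 ∧ t.2 < r2) : SC B := by
  set S : Set P2 := ((B : Finset P2) : Set P2)ᶜ with hS
  have hmem : ∀ t : P2, t ∈ S ↔ ¬ (t.1 ∈ I ∧ r1 ≤ t.2 ∧ t.2 < r2) := by
    intro t
    rw [hS, Set.mem_compl_iff, Finset.mem_coe, hB]
  -- every point reaches the column `N`
  have key : ∀ t ∈ S, ∃ k : ℤ, Relation.ReflTransGen (StepIn S) t (N, k) ∧ r2 ≤ k := by
    -- first for points of column `≥ N`
    have h0 : ∀ j : ℤ, ∃ k : ℤ, Relation.ReflTransGen (StepIn S) (N, j) (N, k) ∧ r2 ≤ k := by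
      intro j
      refine ⟨max j r2, rtg_col N j _ (le_max_left _ _) fun l _ _ => ?_, le_max_right _ _⟩
      rw [hmem]
      rintro ⟨h1, _⟩
      exact absurd (hN _ h1) (lt_irrefl _)
    -- horizontal motion in a free row
    have h1 : ∀ i j : ℤ, (∀ l : ℤ, (l, j) ∈ S) → ∃ k : ℤ,
        Relation.ReflTransGen (StepIn S) (i, j) (N, k) ∧ r2 ≤ k := by
      intro i j hj
      obtain ⟨k, hk1, hk2⟩ := h0 j
      refine ⟨k, ?_, hk2⟩
      rcases le_total i N with h | h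
      · exact (rtg_row i j N h fun l _ _ => hj l).trans hk1
      · exact (rtg_symm' (rtg_row N j i h fun l _ _ => hj l)).trans hk1
    rintro ⟨i, j⟩ ht
    by_cases hj : r1 ≤ j ∧ j < r2
    · have hi : i ∉ I := fun h => (hmem _).1 ht ⟨h, hj⟩
      obtain ⟨k, hk1, hk2⟩ := h1 i r2 fun l => (hmem _).2 fun h => by
        have := h.2.2
        simp only at this
        omega
      refine ⟨k, (rtg_col i j r2 hj.2.le fun l _ _ => (hmem _).2 fun h => hi h.1).trans hk1, hk2⟩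
    · exact h1 i j fun l => (hmem _).2 fun h => hj h.2
  intro u hu v hv
  obtain ⟨k, hk1, hk2⟩ := key u hu
  obtain ⟨l, hl1, hl2⟩ := key v hv
  have hkl : Relation.ReflTransGen (StepIn S) (N, k) (N, l) := by
    have h : ∀ x : ℤ, (N, x) ∈ S := fun x => (hmem _).2 fun h => absurd (hN _ h.1) (lt_irrefl _)
    rcases le_total k l with h1 | h1
    · exact rtg_col N k l h1 fun x _ _ => h x
    · exact rtg_symm' (rtg_col N l k h1 fun x _ _ => h x)
  exact hk1.trans (hkl.trans (rtg_symm' hl1))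

theorem sc_Box (a : P2) (lo hi r1 r2 : ℤ) : SC (Box a lo hi r1 r2) := by
  refine sc_of_cols (I := {i : ℤ | lo ≤ |i - a.1| ∧ |i - a.1| < hi}) (r1 := a.2 + r1) (r2 := a.2 + r2)
    (N := a.1 + hi) ?_ ?_
  · intro i hi'
    have := (abs_lt.1 hi'.2).2
    omega
  · intro t
    rw [mem_Box]
    unfold col row
    simp only [Set.mem_ofPred_eq]
    constructor
    · rintro ⟨h1, h2, h3⟩
      exact ⟨h1, by omega, by omega⟩
    · rintro ⟨h1, h2, h3⟩
      exact ⟨h1, by omega, by omega⟩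

/-! ### no crossing -/

/-- no path of not closed-plus triangles of `Box a lo hi r1 r2` between the columns `lo` and `hi - 1` -/
def NC (a : P2) (lo hi r1 r2 : ℤ) : Set Cfg :=
  {ω | ∀ u v, col a u = lo → col a v = hi - 1 →
    ¬ Relation.ReflTransGen (StepIn {t | t ∈ Box a lo hi r1 r2 ∧ ¬ pC ω t}) u v}

theorem NC.swap {a : P2} {lo hi r1 r2 : ℤ} {ω : Cfg} (h : ω ∈ NC a lo hi r1 r2) {u v : P2}
    (hu : col a u = hi - 1) (hv : col a v = lo) :
    ¬ Relation.ReflTransGen (StepIn {t | t ∈ Box a lo hi r1 r2 ∧ ¬ pC ω t}) u v := fun p =>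
  h v u hv hu (rtg_symm' p)

/-- discrete intermediate value -/
theorem rtg_ivt {S : Set P2} (f : P2 → ℤ) (hf : ∀ s t, Adj s t → f t ≤ f s + 1) {u v : P2}
    (p : Relation.ReflTransGen (StepIn S) u v) {k : ℤ} (hu : f u ≤ k) (hv : k ≤ f v) :
    ∃ t, f t = k ∧ Relation.ReflTransGen (StepIn S) u t ∧ (t = u ∨ t ∈ S) := by
  induction p with
  | refl => exact ⟨u, le_antisymm hu hv, .refl, Or.inl rfl⟩
  | @tail b d h1 h2 ih =>
    by_cases hb : k ≤ f b
    · exact ih hb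
    · have := hf _ _ h2.2.2
      exact ⟨d, by omega, h1.tail h2, Or.inr h2.2.1⟩

/-- a blocked column of balls forbids crossings -/
theorem nc_of_blk {a : P2} {lo hi r1 r2 : ℤ} {ω : Cfg} {w : ℕ} {x : ℤ} {C : Set P2}
    (hlo : lo + 2 * w < x) (hx : x ≤ hi - 1) (hcol : ∀ b ∈ C, col a b = x)
    (hC : ∀ b ∈ C, ω ∈ BlkP b w (2 * w))
    (hcov : ∀ t ∈ Box a lo hi r1 r2, col a t = x → ∃ b ∈ C, t ∈ ball b w) : ω ∈ NC a lo hi r1 r2 := by
  intro u v hu hv p
  obtain ⟨t, ht, hp, ht'⟩ := rtg_ivt (fun t => col a t) (fun s t h => (col_adj h).1) p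
    (k := x) (by show col a u ≤ x; omega) (by show x ≤ col a v; omega)
  replace ht : col a t = x := ht
  have htu : t ≠ u := by
    rintro rfl
    omega
  have htB : t ∈ Box a lo hi r1 r2 := by
    rcases ht' with h | h
    · exact absurd h htu
    · exact h.1
  obtain ⟨b, hb, htb⟩ := hcov t htB ht
  refine hC b hb u t ?_ htb (Crest.Agent.R144.Cb2169.rtg_mono (fun s hs => hs.2) hp)
  intro hub
  rw [mem_ball] at hub
  have h1 := hcol b hb
  unfold col at h1 hu
  have h2 := hub.1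
  push_cast at h2
  rcases abs_cases (u.1 - b.1) with h3 | h3 <;> rcases abs_cases (b.1 - a.1) with h4 | h4 <;>
    rcases abs_cases (u.1 - a.1) with h5 | h5 <;> omega

/-! ### exploration and no crossing -/

/-- general exploration lemma: `P` = side of the sources, `M` = middle region -/
theorem expl {N R0 : Finset P2} {ω : Cfg} {P M : P2 → Prop} {ent ext : P2 → Prop} (hR : R0 ⊆ N)
    (hsrc : ∀ r ∈ R0, P r)
    (h1 : ∀ b e, P b → b ∈ N → e ∈ N → Adj b e → P e ∨ (M e ∧ ent e))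
    (h2 : ∀ b e, M b → b ∈ N → e ∈ N → Adj b e → P e ∨ M e ∨ ext b)
    (NC : ∀ u v, ent u → ext v → ¬ Relation.ReflTransGen (StepIn {t | M t ∧ ¬ pC ω t}) u v) :
    ∀ e ∈ Ex N R0 ω, P e ∨ (M e ∧ ¬ ext e) := by
  have key : ∀ r ∈ R0, ∀ e, Relation.ReflTransGen (Stp N ω) r e →
      P e ∨ (M e ∧ ¬ pC ω e ∧ ∃ u, ent u ∧
        Relation.ReflTransGen (StepIn {t | M t ∧ ¬ pC ω t}) u e) := by
    intro r hr e p
    induction p with
    | refl => exact Or.inl (hsrc r hr)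
    | @tail b d hb hd ih =>
      obtain ⟨hbd, hdN, hz⟩ := hd
      have hbN := Crest.Agent.R144.Cb2169.mem_D_of_path hR hr hb
      rcases ih with hP | ⟨hM, hz', u, hu, hp⟩
      · rcases h1 b d hP hbN hdN hbd with h | ⟨h, h'⟩
        · exact Or.inl h
        · exact Or.inr ⟨h, hz, d, h', .refl⟩
      · rcases h2 b d hM hbN hdN hbd with h | h | h
        · exact Or.inl h
        · exact Or.inr ⟨h, hz, u, hu, hp.tail ⟨⟨hM, hz'⟩, ⟨h, hz⟩, hbd⟩⟩
        · exact absurd hp (NC u b hu h)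
  intro e he
  obtain ⟨heN, r, hr, hp⟩ := mem_Ex.1 he
  rcases key r hr e hp with h | ⟨h, _, u, hu, hq⟩
  · exact Or.inl h
  · exact Or.inr ⟨h, fun hx => NC u e hu hx hq⟩

/-! ### the geometry -/

/-- geometric parameters -/
structure GP where
  /-- centre -/
  a : P2
  /-- width of the strip and radius of the balls -/
  w : ℕ
  /-- RSW ratio -/
  K : ℕ
  /-- thickness of the layers in units of `w` -/
  h : ℕ
  /-- number of unit sub-blocks in the outer and in the inner third of a block -/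
  L : ℕ
  /-- position of the first wall in units of `w` -/
  w0 : ℕ
  /-- number of blocks -/
  m : ℕ
  hw : 1 ≤ w
  hK : 4 ≤ K
  hh : 4 ≤ h
  hL : 1 ≤ L
  hw0 : 1 ≤ w0

namespace GP

variable (g : GP)

/-- length of a unit sub-block in units of `w` -/
def un : ℕ := 2 * g.K + 1
/-- period of the walls in units of `w` -/
def per : ℕ := (2 * g.K + 3) + (2 * g.L + 1) * g.un
/-- wall `j`, in units of `w` -/
def Wn (j : ℕ) : ℕ := g.w0 + j * g.per
/-- start of the core of block `j`, in units of `w` -/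
def vn (j : ℕ) : ℕ := g.Wn j + (g.K + 2)

/-- thickness of the layers -/
def H : ℤ := g.h * g.w
/-- column of the wall `j` -/
def W (j : ℕ) : ℤ := g.Wn j * g.w
/-- `V j = {col < v j}` -/
def v (j : ℕ) : ℤ := g.vn j * g.w
def vi (j : ℕ) : ℤ := (g.vn j + g.L * g.un : ℕ) * g.w
def vo (j : ℕ) : ℤ := (g.vn j + (g.L + 1) * g.un : ℕ) * g.w
def v' (j : ℕ) : ℤ := (g.vn j + (2 * g.L + 1) * g.un : ℕ) * g.w

theorem w_pos : (1 : ℤ) ≤ g.w := by exact_mod_cast g.hw

theorem W_succ (j : ℕ) : g.W (j + 1) = g.v' j + (g.K + 1) * g.w := by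
  unfold W v' vn Wn per
  push_cast
  ring

theorem v_eq (j : ℕ) : g.v j = g.W j + (g.K + 2) * g.w := by
  unfold W v vn
  push_cast
  ring

theorem vi_eq (j : ℕ) : g.vi j = g.v j + (g.L * g.un) * g.w := by
  unfold vi v
  push_cast
  ring

theorem vo_eq (j : ℕ) : g.vo j = g.vi j + g.un * g.w := by
  unfold vi vo
  push_cast
  ring

theorem v'_eq (j : ℕ) : g.v' j = g.vo j + (g.L * g.un) * g.w := by
  unfold vo v'
  push_cast
  ring

theorem un_eq : (g.un : ℤ) = 2 * g.K + 1 := by unfold un; push_cast; ring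

theorem Wn_le {i j : ℕ} (h : i ≤ j) : g.Wn i ≤ g.Wn j := by
  unfold Wn
  exact Nat.add_le_add_left (Nat.mul_le_mul_right _ h) _

theorem W_le {i j : ℕ} (h : i ≤ j) : g.W i ≤ g.W j := by
  unfold W
  have := g.Wn_le h
  have h1 : (g.Wn i : ℤ) ≤ g.Wn j := by exact_mod_cast this
  exact mul_le_mul_of_nonneg_right h1 (by positivity)

theorem W_pos (j : ℕ) : (g.w : ℤ) ≤ g.W j := by
  unfold W Wn
  have h1 := g.hw0
  have h2 : (1 : ℤ) ≤ ((g.w0 + j * g.per : ℕ) : ℤ) := by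
    have : 1 ≤ g.w0 + j * g.per := by omega
    exact_mod_cast this
  have h3 : (0 : ℤ) ≤ g.w := by positivity
  nlinarith

/-- order of the columns of one block -/
theorem order (j : ℕ) : g.W j + (g.K + 2) * g.w = g.v j ∧ g.v j + 9 * g.w ≤ g.vi j ∧
    g.vi j + 9 * g.w ≤ g.vo j ∧ g.vo j + 9 * g.w ≤ g.v' j ∧
    g.v' j + (g.K + 1) * g.w = g.W (j + 1) := by
  have hK : (4 : ℤ) ≤ g.K := by exact_mod_cast g.hK
  have hL : (1 : ℤ) ≤ g.L := by exact_mod_cast g.hL
  have hw := g.w_pos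
  have hu := g.un_eq
  have h1 : 9 * (g.w : ℤ) ≤ g.un * g.w := by rw [hu]; nlinarith
  have h2 : (g.un : ℤ) * g.w ≤ (g.L * g.un) * g.w := by
    have h3 : (0 : ℤ) ≤ g.un * g.w := by positivity
    nlinarith
  refine ⟨(g.v_eq j).symm, ?_, ?_, ?_, (g.W_succ j).symm⟩
  · rw [vi_eq]; linarith
  · rw [vo_eq]; linarith
  · rw [v'_eq]; linarith

/-- strip triangles -/
def S : Finset P2 := Box g.a 0 (g.W g.m + 2) 0 g.w
/-- strip and layers -/
def SL : Finset P2 := Box g.a 0 (g.W g.m + 2) (-g.H) (g.w + g.H)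
/-- layer triangles -/
def Lay : Finset P2 := g.SL.filter fun t => row g.a t < 0 ∨ (g.w : ℤ) ≤ row g.a t

open Classical in
/-- revealed sources: outermost rows of the layers, walls of thickness 3 -/
def RW : Finset P2 := g.Lay.filter fun t => row g.a t = -g.H ∨ row g.a t = g.w + g.H - 1 ∨
  ∃ j ≤ g.m, g.W j - 1 ≤ col g.a t ∧ col g.a t ≤ g.W j + 1

def V (j : ℕ) : Finset P2 := Box g.a 0 (g.v j) (-g.H) (g.w + g.H)
def Vi (j : ℕ) : Finset P2 := Box g.a 0 (g.vi j) (-g.H) (g.w + g.H)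
def Vo (j : ℕ) : Finset P2 := Box g.a 0 (g.vo j) (-g.H) (g.w + g.H)
def V' (j : ℕ) : Finset P2 := Box g.a 0 (g.v' j) (-g.H) (g.w + g.H)

/-- block box -/
def Bj (j : ℕ) : Finset P2 := Box g.a (g.W j + 1) (g.W (j + 1)) (-(g.H + g.K * g.w))
  (g.w + g.H + g.K * g.w + 1)

/-- good block (helper169) -/
def Gd (j : ℕ) : Set Cfg := {ω | ∀ t ∈ g.V' j \ g.V j, t ∉ g.Lay → ∀ s ∈ Ex g.Lay g.RW ω, ¬ Adj s t}

/-- no crossing of the outer and of the inner third -/
def NCj (j : ℕ) : Set Cfg := NC g.a (g.vo j) (g.v' j) (-g.H) (g.w + g.H) ∩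
  NC g.a (g.v j) (g.vi j) (-g.H) (g.w + g.H)

/-- no crossing of the middle third -/
def NCm (j : ℕ) : Set Cfg := NC g.a (g.vi j) (g.vo j) (-g.H) (g.w + g.H)

variable {g}

theorem mem_Lay {t : P2} : t ∈ g.Lay ↔ t ∈ g.SL ∧ (row g.a t < 0 ∨ (g.w : ℤ) ≤ row g.a t) := by
  unfold Lay; rw [Finset.mem_filter]

theorem mem_RW {t : P2} : t ∈ g.RW ↔ t ∈ g.Lay ∧ (row g.a t = -g.H ∨ row g.a t = g.w + g.H - 1 ∨
    ∃ j ≤ g.m, g.W j - 1 ≤ col g.a t ∧ col g.a t ≤ g.W j + 1) := by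
  unfold RW; rw [Finset.mem_filter]

theorem H_ge : 4 * (g.w : ℤ) ≤ g.H := by
  unfold H
  have h1 : (4 : ℤ) ≤ g.h := by exact_mod_cast g.hh
  exact mul_le_mul_of_nonneg_right h1 (by positivity)


theorem RW_sub : g.RW ⊆ g.Lay := Finset.filter_subset _ _
theorem Lay_sub : g.Lay ⊆ g.SL := Finset.filter_subset _ _

/-- a triangle of `SL` in an outermost row is revealed -/
theorem rw_of_row {t : P2} (ht : t ∈ g.SL) (h : row g.a t = -g.H ∨ row g.a t = g.w + g.H - 1) :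
    t ∈ g.RW := by
  have h1 := H_ge (g := g)
  have h2 := g.w_pos
  rw [mem_RW, mem_Lay]
  exact ⟨⟨ht, by omega⟩, by tauto⟩

theorem inner_row {N : Finset P2} (hN : Disjoint N g.RW) {t : P2} (ht : t ∈ g.SL) (htN : t ∈ N) :
    -g.H < row g.a t ∧ row g.a t < g.w + g.H - 1 := by
  have h0 : t ∉ g.RW := fun h => Finset.disjoint_left.1 hN htN h
  have h1 : ¬ (row g.a t = -g.H ∨ row g.a t = g.w + g.H - 1) := fun h => h0 (rw_of_row ht h)
  unfold SL at ht
  rw [mem_Box] at ht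
  omega

theorem Vset_sub {x : ℤ} (hx : x ≤ g.W g.m + 2) : Box g.a 0 x (-g.H) (g.w + g.H) ⊆ g.SL :=
  Box_mono le_rfl hx le_rfl le_rfl

/-- **outer barrier**: no crossing of the outer third keeps the exploration from outside `V' j`, with
its layer, off `Vo j` -/
theorem bar_out {N : Finset P2} (hN : Disjoint N g.RW) {j : ℕ} (hj : j < g.m) {ω : Cfg}
    (hω : ω ∈ NC g.a (g.vo j) (g.v' j) (-g.H) (g.w + g.H)) :
    Disjoint (Cl N (Ex N (N \ g.V' j) ω)) (g.Vo j) := by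
  obtain ⟨o1, o2, o3, o4, o5⟩ := g.order j
  have hw := g.w_pos
  have hKw : (0 : ℤ) ≤ g.K * g.w := by positivity
  have hW := g.W_le (show j + 1 ≤ g.m by omega)
  have hs' : g.v' j ≤ g.W g.m + 2 := by nlinarith
  have hV' : g.V' j ⊆ g.SL := Vset_sub hs'
  have hV'm : ∀ t, t ∈ g.V' j ↔ (0 ≤ col g.a t ∧ col g.a t < g.v' j) ∧
      (-g.H ≤ row g.a t ∧ row g.a t < g.w + g.H) := fun t => mem_Box
  have h := expl (N := N) (R0 := N \ g.V' j) (ω := ω)
    (P := fun e => e ∉ g.V' j) (M := fun e => e ∈ Box g.a (g.vo j) (g.v' j) (-g.H) (g.w + g.H))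
    (ent := fun e => col g.a e = g.v' j - 1) (ext := fun e => col g.a e = g.vo j)
    Finset.sdiff_subset (fun r hr => (Finset.mem_sdiff.1 hr).2)
    (fun b e hb hbN heN hbe => by
      by_cases he : e ∈ g.V' j
      · right
        have h1 := inner_row hN (hV' he) heN
        have h2 := row_adj (a := g.a) hbe
        have h3 := col_adj (a := g.a) hbe
        rw [hV'm] at he hb
        have h4 : 0 ≤ col g.a b := abs_nonneg _
        rw [mem_Box]
        refine ⟨⟨⟨by omega, by omega⟩, by omega⟩, by omega⟩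
      · exact Or.inl he)
    (fun b e hb hbN heN hbe => by
      by_cases he : e ∈ g.V' j
      · right
        have h3 := col_adj (a := g.a) hbe
        rw [hV'm] at he
        rw [mem_Box] at hb
        by_cases h4 : g.vo j ≤ col g.a e
        · left
          rw [mem_Box]
          omega
        · right
          omega
      · exact Or.inl he)
    (fun u v hu hv => NC.swap hω hu hv)
  rw [Finset.disjoint_left]
  intro t ht hto
  obtain ⟨htN, ht2⟩ := mem_Cl.1 ht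
  unfold Vo at hto
  rw [mem_Box] at hto
  have htV' : t ∈ g.V' j := by rw [hV'm]; omega
  rcases ht2 with ht2 | ⟨s, hs, hst⟩
  · rcases h t ht2 with h1 | ⟨h1, h2⟩
    · exact h1 htV'
    · rw [mem_Box] at h1; omega
  · have h3 := col_adj (a := g.a) hst
    have h4 := row_adj (a := g.a) hst
    rcases h s hs with h1 | ⟨h1, h2⟩
    · have h5 := inner_row hN (hV' htV') htN
      have h6 : 0 ≤ col g.a s := abs_nonneg _
      apply h1
      rw [hV'm]
      omega
    · rw [mem_Box] at h1; omega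

/-- **inner barrier** -/
theorem bar_in {N : Finset P2} (hN : Disjoint N g.RW) {j : ℕ} (hj : j < g.m) {ω : Cfg}
    (hω : ω ∈ NC g.a (g.v j) (g.vi j) (-g.H) (g.w + g.H)) :
    Cl N (Ex N (N ∩ g.V j) ω) ⊆ g.Vi j := by
  obtain ⟨o1, o2, o3, o4, o5⟩ := g.order j
  have hw := g.w_pos
  have hKw : (0 : ℤ) ≤ g.K * g.w := by positivity
  have hW := g.W_le (show j + 1 ≤ g.m by omega)
  have hs' : g.vi j ≤ g.W g.m + 2 := by nlinarith
  have hSL : ∀ t, (0 ≤ col g.a t ∧ col g.a t < g.vi j + 1) ∧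
      (-g.H ≤ row g.a t ∧ row g.a t < g.w + g.H) → t ∈ g.SL := fun t ht => by
    unfold SL
    rw [mem_Box]
    have : g.vi j + 1 ≤ g.W g.m + 2 := by nlinarith
    omega
  have hrow : ∀ b e, b ∈ N → Adj b e →
      ((0 ≤ col g.a b ∧ col g.a b < g.vi j + 1) ∧
      (-g.H ≤ row g.a b ∧ row g.a b < g.w + g.H)) → -g.H ≤ row g.a e ∧ row g.a e < g.w + g.H := by
    intro b e hb hbe h
    have h1 := inner_row hN (hSL b h) hb
    have h2 := row_adj (a := g.a) hbe
    omega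
  have h := expl (N := N) (R0 := N ∩ g.V j) (ω := ω)
    (P := fun e => e ∈ g.V j) (M := fun e => e ∈ Box g.a (g.v j) (g.vi j) (-g.H) (g.w + g.H))
    (ent := fun e => col g.a e = g.v j) (ext := fun e => col g.a e = g.vi j - 1)
    Finset.inter_subset_left (fun r hr => (Finset.mem_inter.1 hr).2)
    (fun b e hb hbN heN hbe => by
      unfold V at hb ⊢
      rw [mem_Box] at hb ⊢
      rw [mem_Box]
      have h2 := hrow b e hbN hbe (by omega)
      have h3 := col_adj (a := g.a) hbe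
      have h4 : 0 ≤ col g.a e := abs_nonneg _
      omega)
    (fun b e hb hbN heN hbe => by
      unfold V
      rw [mem_Box] at hb ⊢
      rw [mem_Box]
      have h4 : 0 ≤ col g.a e := abs_nonneg _
      have hv0 : 0 ≤ g.v j := by
        have := g.W_pos j
        nlinarith
      have h2 := hrow b e hbN hbe (by omega)
      have h3 := col_adj (a := g.a) hbe
      omega)
    (fun u v hu hv => hω u v hu hv)
  intro t ht
  obtain ⟨htN, ht2⟩ := mem_Cl.1 ht
  unfold Vi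
  rw [mem_Box]
  have h0 : 0 ≤ col g.a t := abs_nonneg _
  have hv0 : 0 ≤ g.v j := by
    have := g.W_pos j
    nlinarith
  rcases ht2 with ht2 | ⟨s, hs, hst⟩
  · rcases h t ht2 with h1 | ⟨h1, h2⟩
    · unfold V at h1; rw [mem_Box] at h1; omega
    · rw [mem_Box] at h1; omega
  · have h3 := col_adj (a := g.a) hst
    have hsN : s ∈ N := Ex_sub _ _ _ hs
    rcases h s hs with h1 | ⟨h1, h2⟩
    · unfold V at h1
      rw [mem_Box] at h1
      have h5 := hrow s t hsN hst (by omega)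
      omega
    · rw [mem_Box] at h1
      have h5 := hrow s t hsN hst (by omega)
      omega

/-- **middle barrier**, for every `D` inside the core of the block -/
theorem bar_mid {D : Finset P2} {j : ℕ} (hD : D ⊆ g.V' j \ g.V j) {ω : Cfg} (hω : ω ∈ g.NCm j) :
    ω ∈ Bar D (D \ g.Vo j) (D ∩ g.Vi j) := by
  obtain ⟨o1, o2, o3, o4, o5⟩ := g.order j
  have hw := g.w_pos
  have hDm : ∀ t ∈ D, (0 ≤ col g.a t ∧ col g.a t < g.v' j) ∧
      (-g.H ≤ row g.a t ∧ row g.a t < g.w + g.H) := fun t ht => by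
    have := (Finset.mem_sdiff.1 (hD ht)).1
    unfold V' at this
    rwa [mem_Box] at this
  have h := expl (N := D) (R0 := D \ g.Vo j) (ω := ω)
    (P := fun e => g.vo j ≤ col g.a e) (M := fun e => e ∈ Box g.a (g.vi j) (g.vo j) (-g.H) (g.w + g.H))
    (ent := fun e => col g.a e = g.vo j - 1) (ext := fun e => col g.a e = g.vi j)
    Finset.sdiff_subset
    (fun r hr => by
      obtain ⟨h1, h2⟩ := Finset.mem_sdiff.1 hr
      have h3 := hDm r h1
      by_contra h4
      apply h2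
      unfold Vo
      rw [mem_Box]
      omega)
    (fun b e hb hbN heN hbe => by
      have h1 := hDm e heN
      have h3 := col_adj (a := g.a) hbe
      rw [mem_Box]
      omega)
    (fun b e hb hbN heN hbe => by
      have h1 := hDm e heN
      have h3 := col_adj (a := g.a) hbe
      rw [mem_Box] at hb ⊢
      omega)
    (fun u v hu hv => NC.swap (show ω ∈ NC _ _ _ _ _ from hω) hu hv)
  show Disjoint _ _
  rw [Finset.disjoint_left]
  intro t ht hto
  obtain ⟨htN, ht2⟩ := mem_Cl.1 ht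
  have h5 := (Finset.mem_inter.1 hto).2
  unfold Vi at h5
  rw [mem_Box] at h5
  rcases ht2 with ht2 | ⟨s, hs, hst⟩
  · rcases h t ht2 with h1 | ⟨h1, h2⟩
    · omega
    · rw [mem_Box] at h1; omega
  · have h3 := col_adj (a := g.a) hst
    rcases h s hs with h1 | ⟨h1, h2⟩
    · omega
    · rw [mem_Box] at h1; omega

end GP

end Crest.Agent.R144.Cgeo311
end
end

-- ▼ part R144/Cge2_311
section

/-!
# R144, CCW step B: good blocks and barriers, deterministic part (helper311)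

* `BallC C w` : plus-closed layers around all balls `ball b w`, `b ∈ C` (between radii `w` and `2 w`);
* `stk x` : column of centres, `sid j` : centres along the two sides of the strip;
* `g.Gp j := BallC (sid j)`, `gp_sub_gd`; `g.Xj j`, `xj_sub_nc`, `xm_sub_ncm`;
* `incE_gd`, `incE_gp`, `incE_xj` : increasing events of the block box `g.Bj j`.
-/

set_option autoImplicit false
set_option linter.unusedSectionVars false
set_option linter.unusedSimpArgs false

noncomputable section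

namespace Crest.Agent.R144.Cgeo311

open Finset
open Crest.Agent.R144.It844 (P2 adj_iff adj_symm)
open Crest.ProbabilityR.HexHeights (Adj)
open Crest.Agent.R144.Zg349 Crest.Agent.R144.Zk349 Crest.Agent.R144.Zd349 Crest.Agent.R144.Zm349
open Crest.Agent.R144.Ze349 Crest.Agent.R144.Zf349
open Crest.Agent.R144.Rsw867 (ball mem_ball BlkP Blk Sepr RSW ball_mono)
open Crest.Agent.R144.Cb2169 (Ex Cl Bar Stp InE mem_Ex mem_Cl Ex_sub R_sub_Ex Ex_step)
open Crest.Agent.R144.Ccnt311 Crest.Agent.R144.Ccn2311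

/-! ### families of balls -/

/-- all the balls of radius `w` with centre in `C` are surrounded by plus-closed layers -/
def BallC (C : Finset P2) (w : ℕ) : Set Cfg := {ω | ∀ b ∈ C, ω ∈ BlkP b w (2 * w)}

theorem ind_BallC (C : Finset P2) (w : ℕ) :
    (ind (BallC C w) : Cfg → ℝ) = fun ω => ∏ b ∈ C, ind (BlkP b w (2 * w)) ω := by
  classical
  funext ω
  by_cases h : ω ∈ BallC C w
  · rw [ind_mem h, Finset.prod_eq_one]
    intro b hb
    exact ind_mem (h b hb)
  · rw [ind_not h]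
    have h1 : ∃ b ∈ C, ω ∉ BlkP b w (2 * w) := by
      by_contra h2
      push Not at h2
      exact h h2
    obtain ⟨b, hb, h2⟩ := h1
    exact (Finset.prod_eq_zero hb (ind_not h2)).symm

theorem incE_blkP {B : Finset P2} {b : P2} {w : ℕ} (hB : ball b (2 * w + 2) ⊆ B) :
    IncE B (BlkP b w (2 * w)) :=
  ⟨Crest.Agent.R144.Rsw867.incP_blkP b w (2 * w),
    Crest.Agent.R144.Rsw867.inTZ_blkP b (by omega) hB⟩

theorem incE_univ (B : Finset P2) {G : Set Cfg} (hG : ∀ ω, ω ∈ G) : IncE B G := by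
  have e : (ind G : Cfg → ℝ) = fun _ => 1 := funext fun ω => ind_mem (hG ω)
  exact ⟨by rw [e]; exact incP_one, by rw [e]; exact inTZ_one B⟩

theorem incE_BallC {B C : Finset P2} {w : ℕ} (hB : ∀ b ∈ C, ball b (2 * w + 2) ⊆ B) :
    IncE B (BallC C w) := by
  classical
  induction C using Finset.induction_on with
  | empty => exact incE_univ B fun ω b hb => absurd hb (Finset.notMem_empty b)
  | insert b C hb ih =>
    have e : BallC (insert b C) w = BlkP b w (2 * w) ∩ BallC C w := by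
      ext ω
      simp only [BallC, Finset.mem_insert, forall_eq_or_imp, Set.mem_inter_iff, Set.mem_ofPred_eq]
    rw [e]
    exact (incE_blkP (hB b (Finset.mem_insert_self _ _))).inter
      (ih fun b' hb' => hB b' (Finset.mem_insert_of_mem hb'))

/-! ### exploration -/

theorem Ex_anti {D R : Finset P2} {ω ω' : Cfg} (h : ∀ t, pC ω t → pC ω' t) :
    Ex D R ω' ⊆ Ex D R ω := by
  intro t ht
  obtain ⟨h1, r, hr, hp⟩ := mem_Ex.1 ht
  refine mem_Ex.2 ⟨h1, r, hr, ?_⟩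
  exact Relation.ReflTransGen.mono (fun a b hab => ⟨hab.1, hab.2.1, fun hz => hab.2.2 (h _ hz)⟩) _ _ hp

/-- an explored triangle is a source or is reached by a path of not closed-plus triangles which starts
next to a source -/
theorem ex_path {D R : Finset P2} {ω : Cfg} {s : P2} (hs : s ∈ Ex D R ω) :
    s ∈ R ∨ ∃ r ∈ R, ∃ u, Adj r u ∧ Relation.ReflTransGen (StepIn {t | pC ω t}ᶜ) u s := by
  obtain ⟨hsD, r, hr, hp⟩ := mem_Ex.1 hs
  clear hs hsD
  have key : s = r ∨ (¬ pC ω s ∧ ∃ u, Adj r u ∧ Relation.ReflTransGen (StepIn {t | pC ω t}ᶜ) u s) := by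
    induction hp with
    | refl => exact Or.inl rfl
    | @tail b d _ hd ih =>
      right
      refine ⟨hd.2.2, ?_⟩
      rcases ih with ih | ⟨h1, u, h2, h3⟩
      · subst ih
        exact ⟨d, hd.1, .refl⟩
      · exact ⟨u, h2, h3.tail ⟨h1, hd.2.2, hd.1⟩⟩
  rcases key with h | ⟨_, u, h2, h3⟩
  · exact Or.inl (h ▸ hr)
  · exact Or.inr ⟨r, hr, u, h2, h3⟩

/-! ### centres -/

/-- point with signed column `± x` and row `y` -/
def pt (a : P2) (σ : Bool) (x y : ℤ) : P2 := (a.1 + (if σ then x else -x), a.2 + y)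

theorem col_pt {a : P2} {σ : Bool} {x y : ℤ} (hx : 0 ≤ x) : col a (pt a σ x y) = x := by
  unfold col pt
  cases σ
  · simp only [Bool.false_eq_true, if_false, add_sub_cancel_left, abs_neg]
    exact abs_of_nonneg hx
  · simp only [if_true, add_sub_cancel_left]
    exact abs_of_nonneg hx

theorem row_pt {a : P2} {σ : Bool} {x y : ℤ} : row a (pt a σ x y) = y := by
  unfold row pt
  simp

/-- columns and rows of a ball -/
theorem col_ball {a b t : P2} {n : ℕ} (h : t ∈ ball b n) :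
    col a t ≤ col a b + n ∧ col a b ≤ col a t + n ∧ row a t ≤ row a b + n ∧ row a b ≤ row a t + n := by
  rw [mem_ball] at h
  obtain ⟨h1, h2, _⟩ := h
  rw [abs_le] at h1 h2
  unfold col row
  rcases abs_cases (t.1 - a.1) with h3 | h3 <;> rcases abs_cases (b.1 - a.1) with h4 | h4 <;>
    refine ⟨?_, ?_, ?_, ?_⟩ <;> omega

theorem ball_sub_box {a b : P2} {n : ℕ} {lo hi r1 r2 : ℤ} (h1 : lo + n ≤ col a b)
    (h2 : col a b + n < hi) (h3 : r1 + n ≤ row a b) (h4 : row a b + n < r2) :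
    ball b n ⊆ Box a lo hi r1 r2 := by
  intro t ht
  have := col_ball (a := a) ht
  rw [mem_Box]
  omega

namespace GP

variable (g : GP)

open Classical in
/-- column of centres at distance `x` (both signs) -/
def stk (x : ℤ) : Finset P2 :=
  ((Finset.univ : Finset Bool) ×ˢ Finset.range (2 * g.h + 1)).image
    fun q => pt g.a q.1 x (-g.H + q.2 * g.w)

open Classical in
/-- centres along the two sides of the strip -/
def sid (j : ℕ) : Finset P2 :=
  (((Finset.univ : Finset Bool) ×ˢ (Finset.univ : Finset Bool)) ×ˢ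
    Finset.range ((2 * g.L + 1) * g.un + 2)).image
    fun q => pt g.a q.1.1 ((g.vn j - 1 + q.2 : ℕ) * g.w) (if q.1.2 then 0 else g.w - 1)

/-- number of balls in a column -/
def nstk : ℕ := 2 * (2 * g.h + 1)
/-- number of balls along the sides -/
def nsid : ℕ := 4 * ((2 * g.L + 1) * g.un + 2)

theorem card_stk (x : ℤ) : (g.stk x).card ≤ g.nstk := by
  classical
  refine Finset.card_image_le.trans ?_
  rw [Finset.card_product, Finset.card_univ, Finset.card_range, Fintype.card_bool]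
  exact le_rfl

theorem card_sid (j : ℕ) : (g.sid j).card ≤ g.nsid := by
  classical
  refine Finset.card_image_le.trans ?_
  rw [Finset.card_product, Finset.card_product, Finset.card_univ, Finset.card_range,
    Fintype.card_bool]
  exact le_rfl

/-- centre column of the outer sub-block `l` -/
def xo (j l : ℕ) : ℤ := g.vo j + (l * g.un + g.K : ℕ) * g.w
/-- centre column of the inner sub-block `l` -/
def xi (j l : ℕ) : ℤ := g.v j + (l * g.un + g.K : ℕ) * g.w
/-- centre column of the middle sub-block -/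
def xm (j : ℕ) : ℤ := g.vi j + g.K * g.w

/-- ball events along the sides -/
def Gp (j : ℕ) : Set Cfg := BallC (g.sid j) g.w

/-- barrier events -/
def Xo (j : ℕ) : Set Cfg := ⋃ l ∈ Finset.range g.L, BallC (g.stk (g.xo j l)) g.w
def Xi (j : ℕ) : Set Cfg := ⋃ l ∈ Finset.range g.L, BallC (g.stk (g.xi j l)) g.w
def Xj (j : ℕ) : Set Cfg := g.Xo j ∩ g.Xi j
def Xm (j : ℕ) : Set Cfg := BallC (g.stk (g.xm j)) g.w

variable {g}

theorem mem_stk {x : ℤ} {b : P2} (hb : b ∈ g.stk x) : ∃ (σ : Bool) (k : ℕ), k < 2 * g.h + 1 ∧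
    b = pt g.a σ x (-g.H + k * g.w) := by
  classical
  unfold stk at hb
  rw [Finset.mem_image] at hb
  obtain ⟨q, hq, rfl⟩ := hb
  rw [Finset.mem_product, Finset.mem_range] at hq
  exact ⟨q.1, q.2, hq.2, rfl⟩

theorem stk_mem {x : ℤ} (σ : Bool) {k : ℕ} (hk : k < 2 * g.h + 1) :
    pt g.a σ x (-g.H + k * g.w) ∈ g.stk x := by
  classical
  unfold stk
  rw [Finset.mem_image]
  exact ⟨(σ, k), Finset.mem_product.2 ⟨Finset.mem_univ _, Finset.mem_range.2 hk⟩, rfl⟩

theorem mem_sid {j : ℕ} {b : P2} (hb : b ∈ g.sid j) : ∃ (σ ρ : Bool) (k : ℕ),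
    k < (2 * g.L + 1) * g.un + 2 ∧
      b = pt g.a σ ((g.vn j - 1 + k : ℕ) * g.w) (if ρ then 0 else g.w - 1) := by
  classical
  unfold sid at hb
  rw [Finset.mem_image] at hb
  obtain ⟨q, hq, rfl⟩ := hb
  rw [Finset.mem_product, Finset.mem_range] at hq
  exact ⟨q.1.1, q.1.2, q.2, hq.2, rfl⟩

theorem sid_mem {j : ℕ} (σ ρ : Bool) {k : ℕ} (hk : k < (2 * g.L + 1) * g.un + 2) :
    pt g.a σ ((g.vn j - 1 + k : ℕ) * g.w) (if ρ then 0 else g.w - 1) ∈ g.sid j := by
  classical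
  unfold sid
  rw [Finset.mem_image]
  exact ⟨((σ, ρ), k), Finset.mem_product.2 ⟨Finset.mem_univ _, Finset.mem_range.2 hk⟩, rfl⟩

/-- a column of balls covers a column of `SL` -/
theorem stk_cover {x lo hi : ℤ} (_hx : 0 ≤ x) {t : P2} (ht : t ∈ Box g.a lo hi (-g.H) (g.w + g.H))
    (htx : col g.a t = x) : ∃ b ∈ (g.stk x : Set P2), t ∈ ball b g.w := by
  have hw := g.w_pos
  rw [mem_Box] at ht
  -- sign
  obtain ⟨σ, hσ⟩ : ∃ σ : Bool, t.1 = g.a.1 + (if σ then x else -x) := by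
    unfold col at htx
    rcases abs_cases (t.1 - g.a.1) with h | h
    · exact ⟨true, by simp only [if_true]; omega⟩
    · exact ⟨false, by simp only [Bool.false_eq_true, if_false]; omega⟩
  -- index of the row
  have h0 : 0 ≤ row g.a t + g.H := by omega
  set q : ℤ := (row g.a t + g.H) / g.w with hq
  have hq0 : 0 ≤ q := Int.ediv_nonneg h0 (by omega)
  have hdm := Int.mul_ediv_add_emod (row g.a t + g.H) g.w
  have hr0 := Int.emod_nonneg (row g.a t + g.H) (show (g.w : ℤ) ≠ 0 by omega)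
  have hr1 := Int.emod_lt_of_pos (row g.a t + g.H) (show (0 : ℤ) < g.w by omega)
  rw [← hq] at hdm
  have hq1 : q.toNat < 2 * g.h + 1 := by
    have h1 : (g.w : ℤ) * q < g.w * (2 * g.h + 1) := by
      have h2 : row g.a t + g.H < g.w + 2 * g.H := by omega
      have h3 : (g.w : ℤ) + 2 * g.H = g.w * (2 * g.h + 1) := by unfold H; ring
      linarith
    have h2 : q < 2 * g.h + 1 := lt_of_mul_lt_mul_left h1 (by omega)
    omega
  refine ⟨_, Finset.mem_coe.2 (stk_mem (x := x) σ hq1), ?_⟩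
  rw [mem_ball]
  unfold pt
  have hqn : ((q.toNat : ℕ) : ℤ) = q := Int.toNat_of_nonneg hq0
  simp only [hqn]
  have e1 : t.1 - (g.a.1 + (if σ then x else -x)) = 0 := by rw [hσ]; ring
  have e2 : t.2 - (g.a.2 + (-g.H + q * g.w)) = (row g.a t + g.H) % g.w := by
    have h3 : t.2 - g.a.2 = row g.a t := rfl
    have h4 : q * (g.w : ℤ) = g.w * q := by ring
    linarith
  rw [e1, e2]
  simp only [abs_zero, zero_add]
  rw [abs_of_nonneg hr0]
  omega

/-- a blocked column of balls forbids crossings -/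
theorem nc_of_stk {x lo hi : ℤ} (h0 : 0 ≤ lo) (h1 : lo + 2 * g.w < x) (h2 : x ≤ hi - 1) {ω : Cfg}
    (hω : ω ∈ BallC (g.stk x) g.w) : ω ∈ NC g.a lo hi (-g.H) (g.w + g.H) := by
  have hw := g.w_pos
  refine nc_of_blk (w := g.w) (x := x) (C := (g.stk x : Set P2)) h1 h2 ?_
    (fun b hb => hω b (Finset.mem_coe.1 hb)) (fun t ht htx => stk_cover (by omega) ht htx)
  intro b hb
  obtain ⟨σ, k, _, rfl⟩ := mem_stk (Finset.mem_coe.1 hb)
  exact col_pt (by omega)

theorem xcol {l : ℕ} (hl : l < g.L) : (4 : ℤ) * g.w ≤ (l * g.un + g.K : ℕ) * g.w ∧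
    ((l * g.un + g.K : ℕ) : ℤ) * g.w + (g.K + 1) * g.w ≤ (g.L * g.un) * g.w ∧
    (l * g.un : ℤ) * g.w + g.K * g.w = (l * g.un + g.K : ℕ) * g.w := by
  have hw := g.w_pos
  have hK : (4 : ℤ) ≤ g.K := by exact_mod_cast g.hK
  have hl' : (l : ℤ) + 1 ≤ g.L := by exact_mod_cast hl
  have hu := g.un_eq
  have hl0 : (0 : ℤ) ≤ l := by positivity
  have hun0 : (0 : ℤ) ≤ g.un := by positivity
  refine ⟨?_, ?_, ?_⟩
  · push_cast
    have : (0 : ℤ) ≤ l * g.un := by positivity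
    nlinarith
  · push_cast
    have h1 : ((l : ℤ) + 1) * g.un ≤ g.L * g.un := mul_le_mul_of_nonneg_right hl' hun0
    have h2 : (l : ℤ) * g.un + g.K + (g.K + 1) ≤ g.L * g.un := by
      have : ((l : ℤ) + 1) * g.un = l * g.un + g.un := by ring
      omega
    have h3 : ((l : ℤ) * g.un + g.K + (g.K + 1)) * g.w ≤ (g.L * g.un) * g.w :=
      mul_le_mul_of_nonneg_right h2 (by omega)
    linarith
  · push_cast; ring

theorem v_nonneg (j : ℕ) : 0 ≤ g.v j := by
  have := g.W_pos j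
  have := g.w_pos
  have := (g.order j).1
  have hKw : (0 : ℤ) ≤ g.K * g.w := by positivity
  nlinarith

theorem xo_sub {j : ℕ} {ω : Cfg} (h : ω ∈ g.Xo j) :
    ω ∈ NC g.a (g.vo j) (g.v' j) (-g.H) (g.w + g.H) := by
  unfold Xo at h
  simp only [Set.mem_iUnion, Finset.mem_range] at h
  obtain ⟨l, hl, h⟩ := h
  have hw := g.w_pos
  have h1 := xcol (g := g) hl
  have h2 := g.v'_eq j
  have h3 := v_nonneg (g := g) j
  obtain ⟨o1, o2, o3, o4, o5⟩ := g.order j
  have hKw : (0 : ℤ) ≤ g.K * g.w := by positivity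
  refine nc_of_stk (by omega) ?_ ?_ h
  · unfold xo; omega
  · unfold xo; nlinarith

theorem xi_sub {j : ℕ} {ω : Cfg} (h : ω ∈ g.Xi j) :
    ω ∈ NC g.a (g.v j) (g.vi j) (-g.H) (g.w + g.H) := by
  unfold Xi at h
  simp only [Set.mem_iUnion, Finset.mem_range] at h
  obtain ⟨l, hl, h⟩ := h
  have hw := g.w_pos
  have h1 := xcol (g := g) hl
  have h2 := g.vi_eq j
  have h3 := v_nonneg (g := g) j
  have hKw : (0 : ℤ) ≤ g.K * g.w := by positivity
  refine nc_of_stk (by omega) ?_ ?_ h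
  · unfold xi; omega
  · unfold xi; nlinarith

/-- the barrier events forbid the crossings of the outer and inner thirds -/
theorem xj_sub_nc {j : ℕ} : g.Xj j ⊆ g.NCj j := fun _ h => ⟨xo_sub h.1, xi_sub h.2⟩

theorem xm_sub_nc {j : ℕ} : g.Xm j ⊆ g.NCm j := by
  intro ω h
  have hw := g.w_pos
  have hK : (4 : ℤ) ≤ g.K := by exact_mod_cast g.hK
  have h2 := g.vo_eq j
  have h3 := v_nonneg (g := g) j
  obtain ⟨o1, o2, o3, o4, o5⟩ := g.order j
  have hu := g.un_eq
  refine nc_of_stk (x := g.xm j) (by omega) ?_ ?_ h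
  · unfold xm; nlinarith
  · unfold xm
    rw [h2, hu]
    have hKw : (0 : ℤ) ≤ g.K * g.w := by positivity
    nlinarith

/-! ### good blocks -/

/-- geometry of a layer triangle next to the core of the strip -/
theorem near_core {j : ℕ} {s t : P2} (ht : t ∈ g.V' j \ g.V j) (htL : t ∉ g.Lay) (hj : j < g.m)
    (hs : s ∈ g.Lay) (hst : Adj s t) : g.v j - 1 ≤ col g.a s ∧ col g.a s ≤ g.v' j ∧
      (row g.a s = -1 ∨ row g.a s = g.w) := by
  obtain ⟨o1, o2, o3, o4, o5⟩ := g.order j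
  have hw := g.w_pos
  have hH := H_ge (g := g)
  have hKw : (0 : ℤ) ≤ g.K * g.w := by positivity
  have hW := g.W_le (show j + 1 ≤ g.m by omega)
  obtain ⟨h1, h2⟩ := Finset.mem_sdiff.1 ht
  unfold V' at h1
  unfold V at h2
  rw [mem_Box] at h1 h2
  have hc0 : 0 ≤ col g.a t := abs_nonneg _
  have h3 : g.v j ≤ col g.a t := by
    by_contra h
    exact h2 ⟨⟨hc0, by omega⟩, h1.2⟩
  have hSL : t ∈ g.SL := by
    unfold SL
    rw [mem_Box]
    exact ⟨⟨hc0, by nlinarith⟩, h1.2⟩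
  have h4 : ¬ (row g.a t < 0 ∨ (g.w : ℤ) ≤ row g.a t) := fun h => htL (mem_Lay.2 ⟨hSL, h⟩)
  have h5 := (mem_Lay.1 hs).2
  have h6 := col_adj (a := g.a) hst
  have h7 := row_adj (a := g.a) hst
  refine ⟨by omega, by omega, by omega⟩

/-- the position of the walls -/
theorem wall_far {i j : ℕ} : g.W i ≤ g.v j - (g.K + 2) * g.w ∨ g.v' j + (g.K + 1) * g.w ≤ g.W i := by
  obtain ⟨o1, o2, o3, o4, o5⟩ := g.order j
  rcases Nat.lt_or_ge j i with h | h
  · right
    have := g.W_le (show j + 1 ≤ i from h)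
    omega
  · left
    have := g.W_le h
    omega

/-- layer triangles around the core are not revealed sources -/
theorem not_rw {j : ℕ} {s : P2} (h1 : g.v j - 1 ≤ col g.a s) (h2 : col g.a s ≤ g.v' j)
    (h3 : row g.a s = -1 ∨ row g.a s = g.w) : s ∉ g.RW := by
  have hw := g.w_pos
  have hH := H_ge (g := g)
  have hKw : 4 * (g.w : ℤ) ≤ g.K * g.w := by
    have hK : (4 : ℤ) ≤ g.K := by exact_mod_cast g.hK
    exact mul_le_mul_of_nonneg_right hK (by omega)
  intro h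
  rcases (mem_RW.1 h).2 with h4 | h4 | ⟨i, _, h4, h5⟩
  · omega
  · omega
  · rcases wall_far (g := g) (i := i) (j := j) with h6 | h6 <;> nlinarith

/-- **Balls along the sides make a good block.** -/
theorem gp_sub_gd {j : ℕ} (hj : j < g.m) : g.Gp j ⊆ g.Gd j := by
  intro ω hω t ht htL s hs hst
  have hw := g.w_pos
  have hH := H_ge (g := g)
  have hKw : 4 * (g.w : ℤ) ≤ g.K * g.w := by
    have hK : (4 : ℤ) ≤ g.K := by exact_mod_cast g.hK
    exact mul_le_mul_of_nonneg_right hK (by omega)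
  have hsL : s ∈ g.Lay := Ex_sub _ _ _ hs
  obtain ⟨c1, c2, c3⟩ := near_core ht htL hj hsL hst
  rcases ex_path hs with h | ⟨r, hr, u, hru, hp⟩
  · exact not_rw c1 c2 c3 h
  -- the ball
  have hvn : 1 ≤ g.vn j := by unfold vn; omega
  have hcol0 : 0 ≤ col g.a s := abs_nonneg _
  set q : ℤ := col g.a s / g.w with hq
  have hq0 : 0 ≤ q := Int.ediv_nonneg hcol0 (by omega)
  have hdm := Int.mul_ediv_add_emod (col g.a s) g.w
  have hr0 := Int.emod_nonneg (col g.a s) (show (g.w : ℤ) ≠ 0 by omega)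
  have hr1 := Int.emod_lt_of_pos (col g.a s) (show (0 : ℤ) < g.w by omega)
  rw [← hq] at hdm
  set r0 : ℤ := col g.a s % g.w with hr0def
  have hqa : (g.vn j : ℤ) - 1 ≤ q := by
    have h1 : (g.vn j : ℤ) * g.w - 1 ≤ col g.a s := c1
    have h2 : (g.w : ℤ) * ((g.vn j : ℤ) - 1) < g.w * (q + 1) := by nlinarith
    have h3 := lt_of_mul_lt_mul_left h2 (by omega)
    omega
  have hqb : q ≤ g.vn j + (2 * g.L + 1) * g.un := by
    have h1 : col g.a s ≤ ((g.vn j : ℤ) + (2 * g.L + 1) * g.un) * g.w := by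
      have : g.v' j = ((g.vn j : ℤ) + (2 * g.L + 1) * g.un) * g.w := by
        unfold v'; push_cast; ring
      omega
    have h2 : (g.w : ℤ) * q < g.w * ((g.vn j : ℤ) + (2 * g.L + 1) * g.un + 1) := by nlinarith
    have h3 := lt_of_mul_lt_mul_left h2 (by omega)
    omega
  obtain ⟨k, hk⟩ : ∃ k : ℕ, (g.vn j - 1 + k : ℕ) = q.toNat := ⟨q.toNat - (g.vn j - 1), by omega⟩
  have hkq : (((g.vn j - 1 + k : ℕ)) : ℤ) = q := by rw [hk]; exact Int.toNat_of_nonneg hq0
  have hkr : k < (2 * g.L + 1) * g.un + 2 := by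
    have h1 : ((g.vn j - 1 + k : ℕ) : ℤ) ≤ g.vn j + (2 * g.L + 1) * g.un := by rw [hkq]; exact hqb
    have h2 : g.vn j - 1 + k ≤ g.vn j + (2 * g.L + 1) * g.un := by exact_mod_cast h1
    omega
  obtain ⟨σ, hσ⟩ : ∃ σ : Bool, s.1 = g.a.1 + (if σ then col g.a s else -col g.a s) := by
    unfold col
    rcases abs_cases (s.1 - g.a.1) with h | h
    · exact ⟨true, by simp only [if_true]; omega⟩
    · exact ⟨false, by simp only [Bool.false_eq_true, if_false]; omega⟩
  obtain ⟨ρ, hρ⟩ : ∃ ρ : Bool, (ρ = true ∧ row g.a s = -1) ∨ (ρ = false ∧ row g.a s = g.w) := by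
    rcases c3 with h | h
    · exact ⟨true, Or.inl ⟨rfl, h⟩⟩
    · exact ⟨false, Or.inr ⟨rfl, h⟩⟩
  set b : P2 := pt g.a σ ((g.vn j - 1 + k : ℕ) * g.w) (if ρ then 0 else g.w - 1) with hb
  have hbm : b ∈ g.sid j := sid_mem σ ρ hkr
  have hrow : t.2 - g.a.2 = row g.a t := rfl
  -- `s` in the small ball
  have hsb : s ∈ ball b g.w := by
    rw [mem_ball, hb]
    unfold pt
    simp only [hkq]
    have hqw : q * (g.w : ℤ) = col g.a s - r0 := by
      have : q * (g.w : ℤ) = g.w * q := by ring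
      omega
    have e2 : s.2 - (g.a.2 + (if ρ then 0 else (g.w : ℤ) - 1)) =
        row g.a s - (if ρ then 0 else (g.w : ℤ) - 1) := by
      unfold row; ring
    rw [e2, hσ, hqw]
    rcases hρ with ⟨h1, h2⟩ | ⟨h1, h2⟩ <;> rw [h1, h2] <;> cases σ <;>
      simp only [Bool.false_eq_true, if_false, if_true, abs_le] <;> omega
  -- `u` outside the large ball
  have hub : u ∉ ball b (2 * g.w) := by
    intro hub
    have h1 := col_ball (a := g.a) hub
    have hbc : col g.a b = q * g.w := by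
      rw [hb, hkq]
      exact col_pt (by positivity)
    have hbr : row g.a b = if ρ then 0 else (g.w : ℤ) - 1 := by rw [hb]; exact row_pt
    have hbr' : 0 ≤ row g.a b ∧ row g.a b ≤ g.w - 1 := by
      rw [hbr]; cases ρ <;> simp only [Bool.false_eq_true, if_false, if_true] <;> omega
    have hqv : g.v j - g.w ≤ q * g.w ∧ q * g.w ≤ g.v' j := by
      constructor
      · have : g.v j - g.w = ((g.vn j : ℤ) - 1) * g.w := by unfold v; ring
        rw [this]
        exact mul_le_mul_of_nonneg_right hqa (by omega)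
      · have : g.v' j = ((g.vn j : ℤ) + (2 * g.L + 1) * g.un) * g.w := by
          unfold v'; push_cast; ring
        rw [this]
        exact mul_le_mul_of_nonneg_right hqb (by omega)
    have h5 := col_adj (a := g.a) hru
    have h6 := row_adj (a := g.a) hru
    push_cast at h1
    rcases (mem_RW.1 hr).2 with h4 | h4 | ⟨i, _, h4, h4'⟩
    · omega
    · omega
    · rcases wall_far (g := g) (i := i) (j := j) with h7 | h7 <;> nlinarith
  exact hω b hbm u s hub hsb hp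

/-! ### locality -/

/-- the layer triangles strictly inside a block -/
theorem zone_IV {j : ℕ} {e : P2} (h1 : g.W j + 1 < col g.a e) (h2 : col g.a e < g.W (j + 1) - 1)
    (h3 : -g.H ≤ row g.a e) (h4 : row g.a e < g.w + g.H) : e ∈ g.Bj j ∧ e ∈ IV (g.Bj j) := by
  have hw := g.w_pos
  have hKw : 4 * (g.w : ℤ) ≤ g.K * g.w := by
    have hK : (4 : ℤ) ≤ g.K := by exact_mod_cast g.hK
    exact mul_le_mul_of_nonneg_right hK (by omega)
  have a1 : Adj e (e.1 - 1, e.2) := adj_iff.2 (by simp)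
  have a2 : Adj e (e.1, e.2 - 1) := adj_iff.2 (by simp)
  have b1 := col_adj (a := g.a) a1
  have b2 := col_adj (a := g.a) a2
  have b3 := row_adj (a := g.a) a1
  have b4 := row_adj (a := g.a) a2
  have he : e ∈ g.Bj j := by unfold Bj; rw [mem_Box]; omega
  refine ⟨he, mem_IV.2 ⟨he, ?_, ?_⟩⟩ <;> unfold Bj <;> rw [mem_Box] <;> omega

theorem pC_zone {j : ℕ} {ω ω' : Cfg} (h1 : ∀ v ∈ IV (g.Bj j), s1 (ω.1 v) = s1 (ω'.1 v))
    (h2 : ∀ t ∈ g.Bj j, ω.2 t = ω'.2 t) {e : P2} (he : e ∈ g.Bj j ∧ e ∈ IV (g.Bj j)) :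
    pC ω e ↔ pC ω' e := by
  unfold pC
  rw [h1 e he.2, h2 e he.1]

/-- exploration inside a block only depends on the block -/
theorem ex_zone {j : ℕ} (hj : j < g.m) {ω ω' : Cfg}
    (h1 : ∀ v ∈ IV (g.Bj j), s1 (ω.1 v) = s1 (ω'.1 v))
    (h2 : ∀ t ∈ g.Bj j, ω.2 t = ω'.2 t) {e : P2} (he : e ∈ Ex g.Lay g.RW ω')
    (h3 : g.W j + 1 < col g.a e) (h4 : col g.a e < g.W (j + 1) - 1) : e ∈ Ex g.Lay g.RW ω := by
  obtain ⟨heD, r, hr, hp⟩ := mem_Ex.1 he
  clear he heD
  induction hp with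
  | refl => exact R_sub_Ex RW_sub ω hr
  | @tail b d hb hd ih =>
    obtain ⟨hbd, hdL, hz⟩ := hd
    have hdr : -g.H ≤ row g.a d ∧ row g.a d < g.w + g.H := by
      have := Lay_sub hdL
      unfold SL at this
      rw [mem_Box] at this
      exact this.2
    have hz' : ¬ pC ω d := fun h => hz ((pC_zone h1 h2 (zone_IV h3 h4 hdr.1 hdr.2)).1 h)
    have hbL : b ∈ g.Lay := Crest.Agent.R144.Cb2169.mem_D_of_path RW_sub hr hb
    have hc := col_adj (a := g.a) hbd
    by_cases hbR : b ∈ g.RW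
    · exact Ex_step (R_sub_Ex RW_sub ω hbR) hbd hdL hz'
    · have hn : ∀ i ≤ g.m, ¬ (g.W i - 1 ≤ col g.a b ∧ col g.a b ≤ g.W i + 1) := fun i hi h =>
        hbR (mem_RW.2 ⟨hbL, Or.inr (Or.inr ⟨i, hi, h⟩)⟩)
      have n1 := hn j hj.le
      have n2 := hn (j + 1) hj
      exact Ex_step (ih (by omega) (by omega)) hbd hdL hz'

theorem incE_gd {j : ℕ} (hj : j < g.m) : IncE (g.Bj j) (g.Gd j) := by
  have hmono : ∀ ω ω' : Cfg, (∀ t ∈ g.V' j \ g.V j, t ∉ g.Lay → ∀ s ∈ Ex g.Lay g.RW ω', Adj s t →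
      s ∈ Ex g.Lay g.RW ω) → ω ∈ g.Gd j → ω' ∈ g.Gd j := by
    intro ω ω' h hω t ht htL s hs hst
    exact hω t ht htL s (h t ht htL s hs hst) hst
  constructor
  · intro ω ω' hle
    by_cases hω : ω ∈ g.Gd j
    · have h1 : ω' ∈ g.Gd j := hmono ω ω' (fun t _ _ s hs _ => Ex_anti (fun t h => hle.p t h) hs) hω
      rw [ind_mem hω, ind_mem h1]
    · rw [ind_not hω]; exact ind_nonneg _ _
  · have hloc : ∀ ω ω' : Cfg, (∀ v ∈ IV (g.Bj j), s1 (ω.1 v) = s1 (ω'.1 v)) →
        (∀ t ∈ g.Bj j, ω.2 t = ω'.2 t) → ω ∈ g.Gd j → ω' ∈ g.Gd j := by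
      intro ω ω' h1 h2
      refine hmono ω ω' fun t ht htL s hs hst => ?_
      have hw := g.w_pos
      obtain ⟨o1, o2, o3, o4, o5⟩ := g.order j
      have hKw : 4 * (g.w : ℤ) ≤ g.K * g.w := by
        have hK : (4 : ℤ) ≤ g.K := by exact_mod_cast g.hK
        exact mul_le_mul_of_nonneg_right hK (by omega)
      obtain ⟨c1, c2, _⟩ := near_core ht htL hj (Ex_sub _ _ _ hs) hst
      exact ex_zone hj h1 h2 hs (by nlinarith) (by nlinarith)
    intro ω ω' h1 h2
    by_cases hω : ω ∈ g.Gd j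
    · rw [ind_mem hω, ind_mem (hloc ω ω' h1 h2 hω)]
    · have : ω' ∉ g.Gd j := fun h => hω (hloc ω' ω (fun v hv => (h1 v hv).symm)
        (fun t ht => (h2 t ht).symm) h)
      rw [ind_not hω, ind_not this]

/-! ### balls inside the block box -/

theorem ball_stk_sub {x lo hi : ℤ} (h0 : 0 ≤ x) (h1 : lo + g.K * g.w ≤ x) (h2 : x + g.K * g.w < hi)
    {b : P2} (hb : b ∈ g.stk x) : ball b (g.K * g.w) ⊆
      Box g.a lo hi (-(g.H + g.K * g.w)) (g.w + g.H + g.K * g.w + 1) := by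
  obtain ⟨σ, k, hk, rfl⟩ := mem_stk hb
  have hw := g.w_pos
  have hkH : (0 : ℤ) ≤ k * g.w ∧ (k : ℤ) * g.w ≤ 2 * g.H := by
    constructor
    · positivity
    · unfold H
      have h3 : (k : ℤ) ≤ 2 * g.h := by omega
      have h4 : (k : ℤ) * g.w ≤ (2 * g.h) * g.w := mul_le_mul_of_nonneg_right h3 (by omega)
      linarith
  refine ball_sub_box ?_ ?_ ?_ ?_ <;> (try rw [col_pt h0]) <;> (try rw [row_pt]) <;> push_cast <;>
    omega

theorem ball_sid_sub {j : ℕ} {b : P2} (hb : b ∈ g.sid j) : ball b (g.K * g.w) ⊆ g.Bj j := by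
  obtain ⟨σ, ρ, k, hk, rfl⟩ := mem_sid hb
  have hw := g.w_pos
  have hH := H_ge (g := g)
  obtain ⟨o1, o2, o3, o4, o5⟩ := g.order j
  have hvn : 1 ≤ g.vn j := by unfold vn; omega
  have hx : g.v j - g.w ≤ ((g.vn j - 1 + k : ℕ) : ℤ) * g.w ∧
      ((g.vn j - 1 + k : ℕ) : ℤ) * g.w ≤ g.v' j := by
    constructor
    · have h1 : g.v j - g.w = ((g.vn j : ℤ) - 1) * g.w := by unfold v; ring
      rw [h1]
      exact mul_le_mul_of_nonneg_right (by omega) (by omega)
    · have h1 : g.v' j = ((g.vn j + (2 * g.L + 1) * g.un : ℕ) : ℤ) * g.w := rfl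
      rw [h1]
      refine mul_le_mul_of_nonneg_right ?_ (by omega)
      have : g.vn j - 1 + k ≤ g.vn j + (2 * g.L + 1) * g.un := by omega
      exact_mod_cast this
  have hrow : 0 ≤ (if ρ then 0 else (g.w : ℤ) - 1) ∧ (if ρ then 0 else (g.w : ℤ) - 1) ≤ g.w - 1 := by
    cases ρ <;> simp only [Bool.false_eq_true, if_false, if_true] <;> omega
  have hKw : 4 * (g.w : ℤ) ≤ g.K * g.w := by
    have hK : (4 : ℤ) ≤ g.K := by exact_mod_cast g.hK
    exact mul_le_mul_of_nonneg_right hK (by omega)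
  have e1 : ((g.K : ℤ) + 2) * g.w = g.K * g.w + 2 * g.w := by ring
  have e2 : ((g.K : ℤ) + 1) * g.w = g.K * g.w + g.w := by ring
  unfold Bj
  refine ball_sub_box ?_ ?_ ?_ ?_ <;> (try rw [col_pt (by positivity)]) <;> (try rw [row_pt]) <;>
    push_cast at * <;> omega

theorem ball_small {b : P2} : ball b (2 * g.w + 2) ⊆ ball b (g.K * g.w) :=
  Crest.Agent.R144.Rsw867.ball_sub_scale b g.hK g.hw

/-- sub-block of the outer third -/
def bo (g : GP) (j l : ℕ) : Finset P2 := Box g.a (g.vo j + (l * g.un : ℕ) * g.w)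
  (g.vo j + ((l + 1) * g.un : ℕ) * g.w) (-(g.H + g.K * g.w)) (g.w + g.H + g.K * g.w + 1)
/-- sub-block of the inner third -/
def bi (g : GP) (j l : ℕ) : Finset P2 := Box g.a (g.v j + (l * g.un : ℕ) * g.w)
  (g.v j + ((l + 1) * g.un : ℕ) * g.w) (-(g.H + g.K * g.w)) (g.w + g.H + g.K * g.w + 1)

theorem ub {l : ℕ} : ((l * g.un : ℕ) : ℤ) * g.w + (2 * g.K + 1) * g.w = ((l + 1) * g.un : ℕ) * g.w ∧
    ((l * g.un + g.K : ℕ) : ℤ) * g.w = ((l * g.un : ℕ) : ℤ) * g.w + g.K * g.w := by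
  have hu := g.un_eq
  constructor
  · push_cast
    rw [hu]; ring
  · push_cast; ring

theorem ball_bo {j l : ℕ} {b : P2} (hb : b ∈ g.stk (g.xo j l)) : ball b (g.K * g.w) ⊆ g.bo j l := by
  obtain ⟨o1, o2, o3, o4, o5⟩ := g.order j
  have h3 := v_nonneg (g := g) j
  have hw := g.w_pos
  obtain ⟨u1, u2⟩ := ub (g := g) (l := l)
  have hKw : (0 : ℤ) ≤ g.K * g.w := by positivity
  have hl : (0 : ℤ) ≤ ((l * g.un : ℕ) : ℤ) * g.w := by positivity
  refine ball_stk_sub (x := g.xo j l) ?_ ?_ ?_ hb <;> unfold xo <;> rw [u2] <;> nlinarith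

theorem ball_bi {j l : ℕ} {b : P2} (hb : b ∈ g.stk (g.xi j l)) : ball b (g.K * g.w) ⊆ g.bi j l := by
  have h3 := v_nonneg (g := g) j
  have hw := g.w_pos
  obtain ⟨u1, u2⟩ := ub (g := g) (l := l)
  have hKw : (0 : ℤ) ≤ g.K * g.w := by positivity
  have hl : (0 : ℤ) ≤ ((l * g.un : ℕ) : ℤ) * g.w := by positivity
  refine ball_stk_sub (x := g.xi j l) ?_ ?_ ?_ hb <;> unfold xi <;> rw [u2] <;> nlinarith

theorem lu {l : ℕ} (hl : l < g.L) : (((l + 1) * g.un : ℕ) : ℤ) * g.w ≤ (g.L * g.un) * g.w := by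
  refine mul_le_mul_of_nonneg_right ?_ (by positivity)
  have : (l + 1) * g.un ≤ g.L * g.un := Nat.mul_le_mul_right _ hl
  exact_mod_cast this

theorem bo_sub {j l : ℕ} (hlL : l < g.L) : g.bo j l ⊆ g.Bj j := by
  obtain ⟨o1, o2, o3, o4, o5⟩ := g.order j
  have hw := g.w_pos
  have h1 := lu (g := g) hlL
  have h2 := g.v'_eq j
  have hKw : (0 : ℤ) ≤ g.K * g.w := by positivity
  have hl : (0 : ℤ) ≤ ((l * g.un : ℕ) : ℤ) * g.w := by positivity
  refine Box_mono ?_ ?_ le_rfl le_rfl <;> nlinarith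

theorem bi_sub {j l : ℕ} (hlL : l < g.L) : g.bi j l ⊆ g.Bj j := by
  obtain ⟨o1, o2, o3, o4, o5⟩ := g.order j
  have hw := g.w_pos
  have h1 := lu (g := g) hlL
  have h2 := g.vi_eq j
  have hKw : (0 : ℤ) ≤ g.K * g.w := by positivity
  have hl : (0 : ℤ) ≤ ((l * g.un : ℕ) : ℤ) * g.w := by positivity
  refine Box_mono ?_ ?_ le_rfl le_rfl <;> nlinarith

theorem box_disj {a : P2} {x r1 r2 : ℤ} {u w l l' : ℕ} (h : l ≠ l') :
    Disjoint (Box a (x + (l * u : ℕ) * w) (x + ((l + 1) * u : ℕ) * w) r1 r2)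
      (Box a (x + (l' * u : ℕ) * w) (x + ((l' + 1) * u : ℕ) * w) r1 r2) := by
  rw [Finset.disjoint_left]
  intro t h1 h2
  rw [mem_Box] at h1 h2
  have key : ∀ k k' : ℕ, k < k' → (((k + 1) * u : ℕ) : ℤ) * w ≤ ((k' * u : ℕ) : ℤ) * w := by
    intro k k' hk
    refine mul_le_mul_of_nonneg_right ?_ (by positivity)
    have : (k + 1) * u ≤ k' * u := Nat.mul_le_mul_right _ hk
    exact_mod_cast this
  rcases lt_or_gt_of_ne h with h3 | h3
  · have := key _ _ h3; omega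
  · have := key _ _ h3; omega

theorem bj_disj {i j : ℕ} (h : i ≠ j) : Disjoint (g.Bj i) (g.Bj j) := by
  rw [Finset.disjoint_left]
  intro t h1 h2
  unfold Bj at h1 h2
  rw [mem_Box] at h1 h2
  rcases lt_or_gt_of_ne h with h3 | h3
  · have := g.W_le (show i + 1 ≤ j from h3); omega
  · have := g.W_le (show j + 1 ≤ i from h3); omega


theorem incE_xo {j : ℕ} : IncE (g.Bj j) (g.Xo j) :=
  IncE.biUnion _ fun _ hl => (incE_BallC fun _ hb => ball_small.trans (ball_bo hb)).mono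
    (bo_sub (Finset.mem_range.1 hl))

theorem incE_xi {j : ℕ} : IncE (g.Bj j) (g.Xi j) :=
  IncE.biUnion _ fun _ hl => (incE_BallC fun _ hb => ball_small.trans (ball_bi hb)).mono
    (bi_sub (Finset.mem_range.1 hl))

theorem incE_xj {j : ℕ} : IncE (g.Bj j) (g.Xj j) := incE_xo.inter incE_xi

end GP

end Crest.Agent.R144.Cgeo311
end
end

-- ▼ part R144/Cge3_311
section

/-!
# R144, CCW step B: probabilities of good blocks and of barriers, final count (helper311)

Hypothesis `RSW c K p` of helper867.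
* `em_gd` : `p ^ nsid ≤ Em c (Bj j) (Gd j)`; `em_xj` : `(1 - (1 - p ^ nstk) ^ L) ^ 2 ≤ Em c (Bj j) (Xj j)`;
* `pr_bar` : `p ^ nstk ≤ Pr c D (Bar D (D \ Vo j) (D ∩ Vi j))` for every `SC` set `D ⊆ V' j \ V j`;
* `count` : the two counts for every law `E c F`; `kap` : the two-replica bound.
-/

set_option autoImplicit false
set_option linter.unusedSectionVars false
set_option linter.unusedSimpArgs false

noncomputable section

namespace Crest.Agent.R144.Cgeo311

open Finset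
open Crest.Agent.R144.It844 (P2 adj_iff adj_symm)
open Crest.ProbabilityR.HexHeights (Adj)
open Crest.Agent.R144.Zg349 Crest.Agent.R144.Zk349 Crest.Agent.R144.Zd349 Crest.Agent.R144.Zm349
open Crest.Agent.R144.Ze349 Crest.Agent.R144.Zf349
open Crest.Agent.R144.Rsw867 (ball mem_ball BlkP Blk Sepr RSW ball_mono)
open Crest.Agent.R144.Cb2169 (Ex Cl Bar Stp InE mem_Ex mem_Cl Ex_sub R_sub_Ex Ex_step)
open Crest.Agent.R144.Ccnt311 Crest.Agent.R144.Ccn2311

variable {c : ℝ} {K : ℕ} {p : ℝ}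


/-- one ball, minimal law -/
theorem em_blkP (hc : 1 ≤ c) (h : RSW c K p) {w : ℕ} (hw : 1 ≤ w) {B : Finset P2} (hB : SC B) {b : P2}
    (hb : ball b (K * w) ⊆ B) : p ≤ Em c B (ind (BlkP b w (2 * w))) := by
  have h1 := h.minus w hw b B hB hb (fun _ => 1) (fun _ => zero_le_one) (offTZ_const _ 1)
  rw [E_const hc B 1, mul_one] at h1
  simp only [one_mul] at h1
  refine h1.trans (le_of_eq ?_)
  unfold Em
  congr 1
  funext ω
  exact Crest.Agent.R144.Rsw867.ind_congr Crest.Agent.R144.Rsw867.blkP_addH2.symm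

/-- family of balls, minimal law -/
theorem em_BallC (hc : 1 ≤ c) (h : RSW c K p) {w : ℕ} (hw : 1 ≤ w) {B : Finset P2} (hB : SC B)
    {C : Finset P2} (hC : ∀ b ∈ C, ball b (K * w) ⊆ B) {n : ℕ} (hn : C.card ≤ n) :
    p ^ n ≤ Em c B (ind (BallC C w)) := by
  have h1 := (Em_prod hc hB C (f := fun b => ind (BlkP b w (2 * w)))
    (fun b _ => Crest.Agent.R144.Rsw867.incP_blkP b w (2 * w)) (fun _ _ ω => ind_nonneg _ ω)).2
  rw [ind_BallC]
  refine le_trans ?_ h1
  have h2 : p ^ C.card ≤ ∏ b ∈ C, Em c B (ind (BlkP b w (2 * w))) := by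
    rw [← Finset.prod_const]
    exact Finset.prod_le_prod (fun _ _ => h.p0.le) fun b hb => em_blkP hc h hw hB (hC b hb)
  exact (pow_le_pow_of_le_one h.p0.le (by linarith [h.p1]) hn).trans h2

/-- family of balls in any position, maximal law of any simply connected domain -/
theorem e_BallC (hc : 1 ≤ c) (h : RSW c K p) {w : ℕ} (hw : 1 ≤ w) {D : Finset P2} (hD : SC D)
    {C : Finset P2} {n : ℕ} (hn : C.card ≤ n) : p ^ n ≤ E c D (ind (BallC C w)) := by
  classical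
  refine (pow_le_pow_of_le_one h.p0.le (by linarith [h.p1]) hn).trans ?_
  clear hn
  have key : IncP (fun ω => ∏ b ∈ C, ind (BlkP b w (2 * w)) ω) ∧
      p ^ C.card ≤ E c D (fun ω => ∏ b ∈ C, ind (BlkP b w (2 * w)) ω) := by
    induction C using Finset.induction_on with
    | empty =>
      refine ⟨fun _ _ _ => by simp, ?_⟩
      simp only [Finset.prod_empty, Finset.card_empty, pow_zero]
      exact (E_const hc D 1).ge
    | insert b C hb ih =>
      obtain ⟨ih1, ih2⟩ := ih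
      have hb1 : IncP (ind (BlkP b w (2 * w))) := Crest.Agent.R144.Rsw867.incP_blkP b w (2 * w)
      have h0 : ∀ ω : Cfg, 0 ≤ ∏ b ∈ C, ind (BlkP b w (2 * w)) ω := fun ω =>
        Finset.prod_nonneg fun b _ => ind_nonneg _ ω
      simp only [Finset.prod_insert hb]
      refine ⟨incP_mul hb1 ih1 (ind_nonneg _) h0, ?_⟩
      have h1 := h.plus w hw b D hD (fun _ => 1) (fun _ => zero_le_one) (offTZ_const _ 1)
      rw [E_const hc D 1, mul_one] at h1
      simp only [one_mul] at h1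
      rw [Finset.card_insert_of_notMem hb, pow_succ, mul_comm]
      exact (mul_le_mul h1 ih2 (pow_nonneg h.p0.le _) (h.p0.le.trans h1)).trans (assoc hc hD hb1 ih1)
  rw [ind_BallC]
  exact key.2

namespace GP

variable {g : GP}

theorem sc_Bj (j : ℕ) : SC (g.Bj j) := sc_Box _ _ _ _ _

/-- probability of a good block -/
theorem em_gd (hc : 1 ≤ c) (h : RSW c K p) (hgK : g.K = K) {j : ℕ} (hj : j < g.m) :
    p ^ g.nsid ≤ Em c (g.Bj j) (ind (g.Gd j)) := by
  subst hgK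
  refine (em_BallC hc h g.hw (sc_Bj j) (fun _ hb => ball_sid_sub hb) (g.card_sid j)).trans ?_
  exact (law_Em hc (g.Bj j)).mono _ _ trivial trivial fun ω => ind_mono (gp_sub_gd hj) ω

/-- probability of a barrier in the outer third -/
theorem em_xo (hc : 1 ≤ c) (h : RSW c K p) (hgK : g.K = K) {j : ℕ} :
    1 - (1 - p ^ g.nstk) ^ g.L ≤ Em c (g.Bj j) (ind (g.Xo j)) := by
  subst hgK
  have h1 := Em_union hc (sc_Bj (g := g) j) (Finset.range g.L) (b := fun l => g.bo j l)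
    (fun _ _ => sc_Box _ _ _ _ _) (fun l hl => bo_sub (Finset.mem_range.1 hl))
    (fun l _ l' _ hll => box_disj hll) (X := fun l => BallC (g.stk (g.xo j l)) g.w)
    (fun l _ => incE_BallC fun _ hb => ball_small.trans (ball_bo hb)) (p := p ^ g.nstk)
    (pow_le_one₀ h.p0.le (by linarith [h.p1]))
    (fun l _ => em_BallC hc h g.hw (sc_Box _ _ _ _ _) (fun _ hb => ball_bo hb) (g.card_stk _))
  rwa [Finset.card_range] at h1

theorem em_xi (hc : 1 ≤ c) (h : RSW c K p) (hgK : g.K = K) {j : ℕ} :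
    1 - (1 - p ^ g.nstk) ^ g.L ≤ Em c (g.Bj j) (ind (g.Xi j)) := by
  subst hgK
  have h1 := Em_union hc (sc_Bj (g := g) j) (Finset.range g.L) (b := fun l => g.bi j l)
    (fun _ _ => sc_Box _ _ _ _ _) (fun l hl => bi_sub (Finset.mem_range.1 hl))
    (fun l _ l' _ hll => box_disj hll) (X := fun l => BallC (g.stk (g.xi j l)) g.w)
    (fun l _ => incE_BallC fun _ hb => ball_small.trans (ball_bi hb)) (p := p ^ g.nstk)
    (pow_le_one₀ h.p0.le (by linarith [h.p1]))
    (fun l _ => em_BallC hc h g.hw (sc_Box _ _ _ _ _) (fun _ hb => ball_bi hb) (g.card_stk _))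
  rwa [Finset.card_range] at h1

/-- probability of barriers in both thirds -/
theorem em_xj (hc : 1 ≤ c) (h : RSW c K p) (hgK : g.K = K) {j : ℕ} :
    1 - 2 * (1 - p ^ g.nstk) ^ g.L ≤ Em c (g.Bj j) (ind (g.Xj j)) := by
  have h1 := em_xo (g := g) hc h hgK (j := j)
  have h2 := em_xi (g := g) hc h hgK (j := j)
  have h3 := Em_assoc hc (sc_Bj (g := g) j) (incE_xo (g := g) (j := j)).inc
    (incE_xi (g := g) (j := j)).inc
  have e : (ind (g.Xj j) : Cfg → ℝ) = fun ω => ind (g.Xo j) ω * ind (g.Xi j) ω :=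
    funext (ind_inter _ _)
  rw [e]
  have hp : 0 ≤ p ^ g.nstk := pow_nonneg h.p0.le _
  have hp1 : p ^ g.nstk ≤ 1 := pow_le_one₀ h.p0.le (by linarith [h.p1])
  have hq0 : 0 ≤ (1 - p ^ g.nstk) ^ g.L := pow_nonneg (by linarith) _
  have hq1 : (1 - p ^ g.nstk) ^ g.L ≤ 1 := pow_le_one₀ (by linarith) (by linarith)
  have h4 : (1 - (1 - p ^ g.nstk) ^ g.L) * (1 - (1 - p ^ g.nstk) ^ g.L) ≤
      Em c (g.Bj j) (ind (g.Xo j)) * Em c (g.Bj j) (ind (g.Xi j)) :=
    mul_le_mul h1 h2 (by linarith) ((by linarith : (0 : ℝ) ≤ 1 - (1 - p ^ g.nstk) ^ g.L).trans h1)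
  nlinarith

/-- **Middle barrier** (input `p ≤ Pr c D (Bar ..)` of helper169's `cross`) -/
theorem pr_bar (hc : 1 ≤ c) (h : RSW c K p) {j : ℕ} {D : Finset P2} (hD : SC D)
    (hDV : D ⊆ g.V' j \ g.V j) : p ^ g.nstk ≤ Pr c D (Bar D (D \ g.Vo j) (D ∩ g.Vi j)) := by
  refine (e_BallC hc h g.hw hD (g.card_stk (g.xm j))).trans ?_
  have h1 : E c D (ind (BallC (g.stk (g.xm j)) g.w)) ≤
      E c D (ind (Bar D (D \ g.Vo j) (D ∩ g.Vi j))) :=
    E_mono hc fun ω _ => ind_mono (fun ω hω => bar_mid hDV (xm_sub_nc hω)) ω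
  exact h1

/-- the barrier events of helper169 -/
theorem bar_of_xj {N : Finset P2} (hN : Disjoint N g.RW) {j : ℕ} (hj : j < g.m) {ω : Cfg}
    (hω : ω ∈ g.Xj j) : Disjoint (Cl N (Ex N (N \ g.V' j) ω)) (g.Vo j) ∧
      Cl N (Ex N (N ∩ g.V j) ω) ⊆ g.Vi j :=
  ⟨bar_out hN hj (xj_sub_nc hω).1, bar_in hN hj (xj_sub_nc hω).2⟩

/-! ### counts -/

/-- number of good blocks -/
theorem few (hc : 1 ≤ c) (h : RSW c K p) (hgK : g.K = K) {F : Finset P2} (hF : SC F) {n : ℕ}
    (hn : (n : ℝ) ≤ p ^ g.nsid * g.m / 4) :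
    E c F (ind {w | cnt (Finset.range g.m) g.Gd w ≤ n}) ≤ Real.exp (-(p ^ g.nsid * g.m / 4)) := by
  have h1 := (lowB_E hc hF).few_good (Finset.range g.m) (B := g.Bj) (G := g.Gd)
    (fun j _ => sc_Bj j) (fun i _ j _ hij => bj_disj hij)
    (fun j hj => incE_gd (Finset.mem_range.1 hj)) (p := p ^ g.nsid) (pow_nonneg h.p0.le _)
    (pow_le_one₀ h.p0.le (by linarith [h.p1]))
    (fun j hj => em_gd hc h hgK (Finset.mem_range.1 hj)) (n := n) (by rwa [Finset.card_range])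
  rwa [Finset.card_range] at h1

/-- number of good blocks without barrier -/
theorem bad (hc : 1 ≤ c) (h : RSW c K p) (hgK : g.K = K)
    (hL : (1 - p ^ g.nstk) ^ g.L ≤ 1 / 64) {F : Finset P2} (hF : SC F) (n : ℕ) :
    E c F (ind {w | n ≤ cnt (Finset.range g.m) g.Gd w ∧ cnt (Finset.range g.m) g.Gd w ≤
      4 * cnt (Finset.range g.m) (fun j => g.Gd j ∩ (g.Xj j)ᶜ) w}) ≤ (3 / 4 : ℝ) ^ n := by
  refine (lowB_E hc hF).many_bad (Finset.range g.m) (B := g.Bj) (G := g.Gd) (X := g.Xj)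
    (fun j _ => sc_Bj j) (fun i _ j _ hij => bj_disj hij)
    (fun j hj => incE_gd (Finset.mem_range.1 hj)) (fun _ _ => incE_xj) (ε := 1 / 32) (by norm_num)
    (fun j _ => ?_) (K := 4) (by norm_num) n
  have := em_xj (g := g) hc h hgK (j := j)
  linarith

end GP

/-- the number of sub-blocks -/
theorem exists_L (h : RSW c K p) (n : ℕ) : ∃ L : ℕ, 1 ≤ L ∧ (1 - p ^ n) ^ L ≤ 1 / 64 := by
  have hp : 0 < p ^ n := pow_pos h.p0 _
  have hp1 : p ^ n ≤ 1 := pow_le_one₀ h.p0.le (by linarith [h.p1])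
  obtain ⟨L, hL⟩ := exists_pow_lt_of_lt_one (show (0 : ℝ) < 1 / 64 by norm_num)
    (show 1 - p ^ n < 1 by linarith)
  refine ⟨L + 1, by omega, ?_⟩
  rw [pow_succ]
  have h1 : 0 ≤ (1 - p ^ n) ^ L := pow_nonneg (by linarith) _
  nlinarith

/-- **Final two-replica bound.**  Constants `L`, `q`, `C`, `α` only depend on `c, K, p, h, r`; every law `E c F`,
`F` simply connected, every law `E2` of two replicas with marginals `E c F` carried by pairs with the
same good blocks. -/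
theorem kap_geo (hc : 1 ≤ c) (h : RSW c K p) (hh : ℕ) {r : ℝ} (hr0 : 0 ≤ r) (hr1 : r < 1) :
    ∃ (L : ℕ) (C α : ℝ), 1 ≤ L ∧ 0 < C ∧ 0 < α ∧ ∀ g : GP, g.K = K → g.h = hh → g.L = L →
      ∀ F : Finset P2, SC F → ∀ (A2 : (Cfg × Cfg → ℝ) → Prop) (E2 : (Cfg × Cfg → ℝ) → ℝ), Alg A2 →
      Law A2 E2 → (∀ f : Cfg → ℝ, A2 (fun w => f w.1) ∧ E2 (fun w => f w.1) = E c F f) →
      (∀ f : Cfg → ℝ, A2 (fun w => f w.2) ∧ E2 (fun w => f w.2) = E c F f) →
      ∀ Supp : Set (Cfg × Cfg), (∀ f g, A2 f → A2 g → (∀ w ∈ Supp, f w ≤ g w) → E2 f ≤ E2 g) →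
      (∀ w ∈ Supp, ∀ j ∈ Finset.range g.m, (w.1 ∈ g.Gd j ↔ w.2 ∈ g.Gd j)) →
      A2 (fun w => r ^ cnt2 (Finset.range g.m) g.Gd g.Xj w) →
      E2 (fun w => r ^ cnt2 (Finset.range g.m) g.Gd g.Xj w) ≤ C * Real.exp (-(α * g.m)) := by
  obtain ⟨L, hL1, hL⟩ := exists_L h (2 * (2 * hh + 1))
  set N : ℕ := 4 * ((2 * L + 1) * (2 * K + 1) + 2) with hN
  set q : ℝ := p ^ N with hq
  have hq0 : 0 < q := pow_pos h.p0 _
  have hq1 : q ≤ 1 := pow_le_one₀ h.p0.le (by linarith [h.p1])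
  -- a common exponential rate
  set s : ℝ := max (max r (1 / 2)) (3 / 4) with hs
  have hs0 : 0 < s := lt_of_lt_of_le (by norm_num) (le_max_right _ _)
  have hs1 : s < 1 := max_lt (max_lt hr1 (by norm_num)) (by norm_num)
  have hls : 0 < -Real.log s := by
    have := Real.log_neg hs0 hs1
    linarith
  set α : ℝ := min (q / 4) (-Real.log s * q / 16) with hα
  have hα0 : 0 < α := lt_min (by positivity) (by positivity)
  refine ⟨L, s⁻¹ * s⁻¹ + 3 * (s⁻¹ * s⁻¹), α, hL1, by positivity, hα0, ?_⟩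
  intro g hgK hgh hgL F hF A2 E2 hA2 hE2 m1 m2 Supp hsupp hsame hCA
  have hnst : g.nstk = 2 * (2 * hh + 1) := by unfold GP.nstk; rw [hgh]
  have hnsi : g.nsid = N := by
    unfold GP.nsid GP.un
    rw [hgL, hgK]
  -- the integer `n`
  set n : ℕ := ⌊q * g.m / 4⌋₊ with hn
  have hnle : (n : ℝ) ≤ q * g.m / 4 := Nat.floor_le (by positivity)
  have hnlt : q * g.m / 4 < n + 1 := Nat.lt_floor_add_one _
  set n1 : ℕ := n / 2 with hn1
  have hn1' : (n : ℝ) ≤ 2 * n1 + 1 := by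
    have : n ≤ 2 * n1 + 1 := by omega
    exact_mod_cast this
  have hfew := GP.few (g := g) hc h hgK hF (n := n) (by rw [hnsi]; exact hnle)
  rw [hnsi] at hfew
  have hbad := GP.bad (g := g) hc h hgK (by rw [hnst, hgL]; exact hL) hF n
  have hk := kap_two (A := fun _ => True) (E := E c F) hA2 hE2 (fun f _ => m1 f) (fun f _ => m2 f)
    hsupp (Finset.range g.m) (G := g.Gd) (X := g.Xj) hsame (K := 4) (n := n) (n1 := n1) (by norm_num)
    (by omega) trivial trivial hr0 hr1.le hCA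
  -- numerical bounds
  have hexp : ∀ k : ℕ, (q * g.m / 4 : ℝ) ≤ 2 * k + 2 → s ^ k ≤ s⁻¹ * Real.exp (-(α * g.m)) := by
    intro k hk
    have e1 : s ^ k = Real.exp (Real.log s * k) := by
      rw [Real.exp_mul, Real.exp_log hs0, Real.rpow_natCast]
    have e2 : s⁻¹ = Real.exp (-Real.log s) := by rw [Real.exp_neg, Real.exp_log hs0]
    rw [e1, e2, ← Real.exp_add]
    apply Real.exp_le_exp.2
    have h1 : α ≤ -Real.log s * q / 16 := min_le_right _ _
    have h2 : (0 : ℝ) ≤ g.m := Nat.cast_nonneg _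
    have h3 : α * g.m ≤ -Real.log s * q / 16 * g.m := mul_le_mul_of_nonneg_right h1 h2
    nlinarith
  have hs2 : 1 ≤ s⁻¹ := (one_le_inv₀ hs0).2 hs1.le
  have hE0 : 0 < Real.exp (-(α * g.m)) := Real.exp_pos _
  have b1 : r ^ n1 ≤ s⁻¹ * s⁻¹ * Real.exp (-(α * g.m)) := by
    have h1 : r ^ n1 ≤ s ^ n1 := pow_le_pow_left₀ hr0 ((le_max_left _ _).trans (le_max_left _ _)) _
    have h2 := hexp n1 (by linarith)
    have h3 : s⁻¹ * Real.exp (-(α * g.m)) ≤ s⁻¹ * s⁻¹ * Real.exp (-(α * g.m)) := by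
      have := mul_le_mul_of_nonneg_right hs2 (mul_pos (inv_pos.2 hs0) hE0).le
      nlinarith
    linarith
  have b2 : (3 / 4 : ℝ) ^ n ≤ s⁻¹ * s⁻¹ * Real.exp (-(α * g.m)) := by
    have h1 : (3 / 4 : ℝ) ^ n ≤ s ^ n := pow_le_pow_left₀ (by norm_num) (le_max_right _ _) _
    have h2 := hexp n (by
      have : (0 : ℝ) ≤ n := Nat.cast_nonneg _
      linarith)
    have h3 : s⁻¹ * Real.exp (-(α * g.m)) ≤ s⁻¹ * s⁻¹ * Real.exp (-(α * g.m)) := by
      have := mul_le_mul_of_nonneg_right hs2 (mul_pos (inv_pos.2 hs0) hE0).le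
      nlinarith
    linarith
  have b3 : Real.exp (-(q * g.m / 4)) ≤ s⁻¹ * s⁻¹ * Real.exp (-(α * g.m)) := by
    have h1 : Real.exp (-(q * g.m / 4)) ≤ Real.exp (-(α * g.m)) := by
      apply Real.exp_le_exp.2
      have h1 : α ≤ q / 4 := min_le_left _ _
      have h2 : (0 : ℝ) ≤ g.m := Nat.cast_nonneg _
      have := mul_le_mul_of_nonneg_right h1 h2
      linarith
    have h2 : (1 : ℝ) ≤ s⁻¹ * s⁻¹ := by nlinarith
    nlinarith
  calc _ ≤ _ := hk
    _ ≤ s⁻¹ * s⁻¹ * Real.exp (-(α * g.m)) + s⁻¹ * s⁻¹ * Real.exp (-(α * g.m)) +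
        2 * (s⁻¹ * s⁻¹ * Real.exp (-(α * g.m))) := by
        refine add_le_add (add_le_add b1 (hfew.trans b3)) ?_
        exact mul_le_mul_of_nonneg_left (hbad.trans b2) (by norm_num)
    _ = _ := by ring

end Crest.Agent.R144.Cgeo311
end
end

-- ▼ part R144/Cge4_311

/-!
# R144, CCW step B: instance of helper169's structures for the geometry `GP` (helper311)

* `g.InF F` : `SL ⊆ F` and all neighbours of `SL` are in `F`; `g.st F h : St`; `g.bk j : Bk`; `g.V0`;
* `bkOK` : `(g.st F h).BkOK (g.bk j)` for `j < m`; `chain` : `Chain (g.st F h) c (p ^ nstk) g.bk m V0`;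
* `Kp_le` : `Kp ≤ kq ^ cnt2`; `E2_le` : `E2 c (Kp ^ 2) ≤ C exp (- α m)`.
-/

set_option autoImplicit false
set_option linter.unusedSectionVars false
set_option linter.unusedSimpArgs false

noncomputable section

namespace Crest.Agent.R144.Cgeo311

open Finset
open Crest.Agent.R144.It844 (P2 adj_iff adj_symm)
open Crest.ProbabilityR.HexHeights (Adj)
open Crest.Agent.R144.Zg349 Crest.Agent.R144.Zk349 Crest.Agent.R144.Zd349 Crest.Agent.R144.Zm349
open Crest.Agent.R144.Ze349 Crest.Agent.R144.Zf349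
open Crest.Agent.R144.Rsw867 (ball mem_ball BlkP Blk Sepr RSW ball_mono)
open Crest.Agent.R144.Cb2169 (Ex Cl Stp InE mem_Ex mem_Cl Ex_sub R_sub_Ex Ex_step Apart)
open Crest.Agent.R144.Ccnt311 Crest.Agent.R144.Ccn2311
open Crest.Agent.R144.Cc169 (St Bk Lk kq)
open Crest.Agent.R144.Cc169.St (Chain)

namespace GP

variable (g : GP)

/-- the domain contains the strip, its layers and their neighbours -/
structure InF (F : Finset P2) : Prop where
  sub : g.SL ⊆ F
  nb : ∀ t ∈ g.SL, ∀ t', Adj t t' → t' ∈ F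

/-- region data of helper169 -/
def st (F : Finset P2) (h : g.InF F) : St := ⟨F, g.SL, g.Lay, g.RW, RW_sub, Lay_sub, h.sub, h.nb⟩

/-- middle line of a block -/
def vm (j : ℕ) : ℤ := g.vi j + g.K * g.w
def Vm (j : ℕ) : Finset P2 := Box g.a 0 (g.vm j) (-g.H) (g.w + g.H)

/-- block of helper169 -/
def bk (j : ℕ) : Bk := ⟨g.V j, g.Vi j, g.Vm j, g.Vo j, g.V' j⟩

/-- the strip between the first walls -/
def V0 : Finset P2 := Box g.a 0 (g.w0 * g.w) 0 g.w

variable {g}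

theorem order_m (j : ℕ) : g.vi j + 4 ≤ g.vm j ∧ g.vm j + 4 ≤ g.vo j := by
  have hw := g.w_pos
  have hK : (4 : ℤ) ≤ g.K := by exact_mod_cast g.hK
  have hKw : 4 * (g.w : ℤ) ≤ g.K * g.w := mul_le_mul_of_nonneg_right hK (by omega)
  have h2 := g.vo_eq j
  rw [g.un_eq] at h2
  have h3 : (2 * (g.K : ℤ) + 1) * g.w = g.K * g.w + g.K * g.w + g.w := by ring
  unfold vm
  omega

theorem v'_le {j : ℕ} (hj : j < g.m) : g.v' j + 5 ≤ g.W g.m := by
  obtain ⟨o1, o2, o3, o4, o5⟩ := g.order j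
  have hw := g.w_pos
  have hK : (4 : ℤ) ≤ g.K := by exact_mod_cast g.hK
  have hKw : 4 * (g.w : ℤ) ≤ g.K * g.w := mul_le_mul_of_nonneg_right hK (by omega)
  have hW := g.W_le (show j + 1 ≤ g.m by omega)
  have e : ((g.K : ℤ) + 1) * g.w = g.K * g.w + g.w := by ring
  omega

theorem sub_SL {j : ℕ} (hj : j < g.m) : g.V' j ⊆ g.SL :=
  Vset_sub (by have := v'_le (g := g) hj; omega)

theorem V'_sdiff (j : ℕ) : g.V' j \ g.V j = Box g.a (g.v j) (g.v' j) (-g.H) (g.w + g.H) := by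
  have h0 := v_nonneg (g := g) j
  ext t
  unfold V' V
  rw [Finset.mem_sdiff, mem_Box, mem_Box, mem_Box]
  have : 0 ≤ col g.a t := abs_nonneg _
  omega

theorem v_nb (j : ℕ) : g.W j + 6 ≤ g.v j := by
  have hw := g.w_pos
  have hK : (4 : ℤ) ≤ g.K := by exact_mod_cast g.hK
  have hKw : 4 * (g.w : ℤ) ≤ g.K * g.w := mul_le_mul_of_nonneg_right hK (by omega)
  have := g.v_eq j
  have e : ((g.K : ℤ) + 2) * g.w = g.K * g.w + 2 * g.w := by ring
  omega

/-- walls are outside the blocks -/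
theorem row_of_rw {j : ℕ} {t : P2} (ht : t ∈ g.RW) (h : t ∈ g.V' j \ g.V j) :
    row g.a t = -g.H ∨ row g.a t = g.w + g.H - 1 := by
  rw [V'_sdiff, mem_Box] at h
  rcases (mem_RW.1 ht).2 with h4 | h4 | ⟨i, _, h4, h5⟩
  · exact Or.inl h4
  · exact Or.inr h4
  · exfalso
    have hw := g.w_pos
    have hK : (4 : ℤ) ≤ g.K := by exact_mod_cast g.hK
    have hKw : 4 * (g.w : ℤ) ≤ g.K * g.w := mul_le_mul_of_nonneg_right hK (by omega)
    have e : ((g.K : ℤ) + 2) * g.w = g.K * g.w + 2 * g.w := by ring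
    have e' : ((g.K : ℤ) + 1) * g.w = g.K * g.w + g.w := by ring
    rcases wall_far (g := g) (i := i) (j := j) with h6 | h6 <;> omega

section
variable {F : Finset P2} {hF : g.InF F}

theorem disj_N (ω : Cfg) : Disjoint ((g.st F hF).N ω) g.RW := by
  rw [Finset.disjoint_left]
  intro t ht h
  exact ((g.st F hF).mem_N.1 ht).2 ((g.st F hF).X_sub_Rv ω (R_sub_Ex RW_sub ω h))

/-- first triangle of a column which is not in `N` -/
theorem first_not {N : Finset P2} {x : ℤ} {y0 : ℤ} (h0 : (x, y0) ∉ N) : ∀ (n : ℕ) (y : ℤ), y = y0 + n →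
    (x, y) ∈ N → ∃ y', y0 ≤ y' ∧ y' < y ∧ (x, y') ∉ N ∧ ∀ k, y' < k → k ≤ y → (x, k) ∈ N := by
  intro n
  induction n with
  | zero =>
    intro y hy h
    rw [Nat.cast_zero, add_zero] at hy
    exact absurd (hy ▸ h) h0
  | succ n ih =>
    intro y hy h
    by_cases h1 : (x, y - 1) ∈ N
    · obtain ⟨y', a1, a2, a3, a4⟩ := ih (y - 1) (by push_cast at hy; omega) h1
      refine ⟨y', a1, by omega, a3, fun k hk1 hk2 => ?_⟩
      rcases Int.lt_or_le (y - 1) k with h2 | h2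
      · have : k = y := by omega
        rw [this]; exact h
      · exact a4 k hk1 h2
    · refine ⟨y - 1, by push_cast at hy; omega, by omega, h1, fun k hk1 hk2 => ?_⟩
      have : k = y := by omega
      rw [this]; exact h

/-- links down a column -/
theorem lk_down {Z : Finset P2} {x : ℤ} (n : ℕ) : ∀ y : ℤ, (∀ k, y - n ≤ k → k ≤ y → (x, k) ∈ Z) →
    Lk Z (x, y) (x, y - n) := by
  induction n with
  | zero => intro y _; rw [Nat.cast_zero, sub_zero]; exact .refl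
  | succ n ih =>
    intro y h
    have h1 := ih y fun k hk1 hk2 => h k (by push_cast; omega) hk2
    refine h1.tail ⟨(x, y - (n + 1 : ℕ)), h _ le_rfl (by push_cast; omega), ?_, base_mem_up _⟩
    rw [mem_up]
    refine Or.inr (Or.inr ?_)
    push_cast
    simp only [Prod.mk.injEq, true_and]
    ring

theorem bk_col {j : ℕ} (hj : j < g.m) {ω : Cfg} (hg : (g.st F hF).Gd (g.bk j) ω) {v : P2}
    (h1 : v ∈ VF ((g.st F hF).N ω ∩ g.Vm j)) (h2 : v ∈ VF ((g.st F hF).N ω \ g.Vm j)) :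
    ∃ u, ∃ t1 ∈ (g.st F hF).N ω ∩ (g.Vo j \ g.Vi j), u ∈ up t1 ∧
      (∃ t' ∈ (g.st F hF).Rv ω, t' ∉ (g.st F hF).X ω ∧ u ∈ up t') ∧
      Lk ((g.st F hF).N ω ∩ (g.Vo j \ g.Vi j)) v u := by
  set s := g.st F hF with hs
  obtain ⟨o1, o2, o3, o4, o5⟩ := g.order j
  obtain ⟨p1, p2⟩ := order_m (g := g) j
  have hw := g.w_pos
  have hH := H_ge (g := g)
  have hv0 := v_nonneg (g := g) j
  have hv' := v'_le (g := g) hj
  have dj : Disjoint (s.N ω) g.RW := disj_N ω
  obtain ⟨tm, htm, hvm⟩ := mem_VF.1 h1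
  obtain ⟨tn, htn, hvn⟩ := mem_VF.1 h2
  obtain ⟨hm1, hm2⟩ := Finset.mem_inter.1 htm
  obtain ⟨hn1, hn2⟩ := Finset.mem_sdiff.1 htn
  have hne : tm ≠ tn := fun h => hn2 (h ▸ hm2)
  have hadj : Adj tm tn := Crest.Agent.R144.Cb2169.adj_of_share hne hvm hvn
  have c1 := col_adj (a := g.a) hadj
  have c2 := row_adj (a := g.a) hadj
  unfold Vm at hm2 hn2
  rw [mem_Box] at hm2 hn2
  have hmSL : tm ∈ g.SL := by
    unfold SL
    rw [mem_Box]
    omega
  have r1 := inner_row dj hmSL hm1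
  have hc0 : 0 ≤ col g.a tn := abs_nonneg _
  have hcm : col g.a tm = g.vm j - 1 := by omega
  -- the column of `tm`
  obtain ⟨x, y⟩ := tm
  have hcolx : ∀ k : ℤ, col g.a (x, k) = g.vm j - 1 := fun k => hcm
  have hrow : ∀ k : ℤ, row g.a (x, k) = k - g.a.2 := fun k => rfl
  rw [hrow] at r1
  set y0 : ℤ := g.a.2 - g.H with hy0
  have hSLk : ∀ k : ℤ, y0 ≤ k → k ≤ y → (x, k) ∈ g.SL := fun k hk1 hk2 => by
    unfold SL
    rw [mem_Box, hcolx, hrow]
    omega
  have h0N : (x, y0) ∉ s.N ω := fun h => by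
    have h3 := inner_row dj (hSLk y0 le_rfl (by omega)) h
    rw [hrow] at h3
    omega
  obtain ⟨y', a1, a2, a3, a4⟩ := first_not h0N (y - y0).toNat y
    (by rw [Int.toNat_of_nonneg (by omega)]; ring) hm1
  have hZ : ∀ k : ℤ, y' < k → k ≤ y → (x, k) ∈ s.N ω ∩ (g.Vo j \ g.Vi j) := by
    intro k hk1 hk2
    rw [Finset.mem_inter]
    refine ⟨a4 k hk1 hk2, ?_⟩
    unfold Vo Vi
    rw [Finset.mem_sdiff, mem_Box, mem_Box, hcolx, hrow]
    omega
  have ht1 : (x, y' + 1) ∈ s.N ω := a4 _ (by omega) (by omega)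
  have hadj' : Adj (x, y') (x, y' + 1) := adj_iff.2 (Or.inr (Or.inr (Or.inl rfl)))
  have ht'SL : (x, y') ∈ g.SL := hSLk y' a1 a2.le
  have ht'R : (x, y') ∈ s.Rv ω := by
    by_contra h
    exact a3 (s.mem_N.2 ⟨hF.sub ht'SL, h⟩)
  have ht'X : (x, y') ∉ s.X ω := by
    intro h
    by_cases hL : (x, y' + 1) ∈ g.Lay
    · exact (s.mem_N.1 ht1).2 (mem_Cl.2 ⟨hL, Or.inr ⟨_, h, hadj'⟩⟩)
    · refine hg (x, y' + 1) ?_ hL (x, y') h hadj'
      show (x, y' + 1) ∈ g.V' j \ g.V j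
      rw [V'_sdiff, mem_Box, hcolx, hrow]
      omega
  refine ⟨(x, y' + 1), (x, y' + 1), hZ _ (by omega) (by omega), base_mem_up _,
    ⟨(x, y'), ht'R, ht'X, ?_⟩, ?_⟩
  · rw [mem_up]
    exact Or.inr (Or.inr rfl)
  · have l1 : Lk (s.N ω ∩ (g.Vo j \ g.Vi j)) v (x, y) :=
      Relation.ReflTransGen.single ⟨(x, y), hZ y a2 le_rfl, hvm, base_mem_up _⟩
    have l2 := lk_down (Z := s.N ω ∩ (g.Vo j \ g.Vi j)) (x := x) (y - (y' + 1)).toNat y
      (fun k hk1 hk2 => hZ k (by rw [Int.toNat_of_nonneg (by omega)] at hk1; omega) hk2)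
    rw [Int.toNat_of_nonneg (by omega), show y - (y - (y' + 1)) = y' + 1 by ring] at l2
    exact l1.trans l2

/-- **geometric hypotheses on the blocks** -/
theorem bkOK {j : ℕ} (hj : j < g.m) : (g.st F hF).BkOK (g.bk j) := by
  obtain ⟨o1, o2, o3, o4, o5⟩ := g.order j
  obtain ⟨p1, p2⟩ := order_m (g := g) j
  have hw := g.w_pos
  have hH := H_ge (g := g)
  have hv0 := v_nonneg (g := g) j
  refine ⟨Box_mono le_rfl (by omega) le_rfl le_rfl, Box_mono le_rfl (by omega) le_rfl le_rfl,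
    Box_mono le_rfl (by omega) le_rfl le_rfl, Box_mono le_rfl (by omega) le_rfl le_rfl,
    sub_SL hj, ?_, ?_, sc_Box _ _ _ _ _, ?_, ?_⟩
  · intro t ht t' ht' v h1 h2
    change t ∈ g.V' j \ g.Vo j at ht
    change t' ∈ g.Vi j at ht'
    unfold V' Vo at ht
    unfold Vi at ht'
    rw [Finset.mem_sdiff, mem_Box, mem_Box] at ht
    rw [mem_Box] at ht'
    by_cases hne : t = t'
    · subst hne
      omega
    · have hc := col_adj (a := g.a) (Crest.Agent.R144.Cb2169.adj_of_share hne h1 h2)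
      omega
  · show SC (g.V' j \ g.V j)
    rw [V'_sdiff]
    exact sc_Box _ _ _ _ _
  · intro t ht h
    change t ∈ g.V' j \ g.V j at h
    show ∃ r, r ∉ g.V' j \ g.V j ∧ Adj r t
    rcases row_of_rw ht h with h1 | h1
    · refine ⟨(t.1, t.2 - 1), fun h2 => ?_, adj_iff.2 ?_⟩
      · rw [V'_sdiff, mem_Box] at h2
        unfold row at h1 h2
        omega
      · refine Or.inr (Or.inr (Or.inl ?_))
        simp
    · refine ⟨(t.1, t.2 + 1), fun h2 => ?_, adj_symm (adj_iff.2 (Or.inr (Or.inr (Or.inl rfl))))⟩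
      rw [V'_sdiff, mem_Box] at h2
      unfold row at h1 h2
      omega
  · intro ω _ hg v h1 h2
    exact bk_col hj hg h1 h2

theorem V0_sub (j : ℕ) : g.V0 ⊆ g.V j := by
  have h1 := v_nb (g := g) j
  have h2 := H_ge (g := g)
  have hw := g.w_pos
  have h3 := g.W_le (Nat.zero_le j)
  have h4 : g.W 0 = g.w0 * g.w := by unfold W Wn; push_cast; ring
  exact Box_mono le_rfl (by omega) (by omega) (by omega)

theorem nest {i j : ℕ} (hij : i < j) : g.V' i ⊆ g.V j := by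
  obtain ⟨o1, o2, o3, o4, o5⟩ := g.order i
  have h1 := v_nb (g := g) j
  have h3 := g.W_le (show i + 1 ≤ j from hij)
  have hw := g.w_pos
  have hKw : (0 : ℤ) ≤ g.K * g.w := by positivity
  have e : ((g.K : ℤ) + 1) * g.w = g.K * g.w + g.w := by ring
  exact Box_mono le_rfl (by omega) le_rfl le_rfl

/-- **chain of blocks** -/
theorem chain {c : ℝ} {K : ℕ} {p : ℝ} (hc : 1 ≤ c) (h : RSW c K p) {V1 : Finset P2}
    (hV1 : ∀ i < g.m, V1 ⊆ g.V i) : Chain (g.st F hF) c (p ^ g.nstk) g.bk g.m V1 := by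
  refine ⟨fun i hi => bkOK hi, fun i j hij _ => nest hij, hV1, fun i hi ω _ _ => ?_⟩
  have hsc : SC ((g.st F hF).Dm (g.bk i) ω) := by
    have h1 := Crest.Agent.R144.Cc169.St.sc_Dm (s := g.st F hF) (bkOK hi) ω ∅
      (Crest.Agent.R144.Cc169.Anch.empty _)
    rwa [Finset.sdiff_empty] at h1
  exact pr_bar hc h hsc Finset.inter_subset_right

theorem chain0 {c : ℝ} {K : ℕ} {p : ℝ} (hc : 1 ≤ c) (h : RSW c K p) :
    Chain (g.st F hF) c (p ^ g.nstk) g.bk g.m g.V0 := chain hc h fun i _ => V0_sub i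

/-- barriers of helper169 -/
theorem bar_bk {j : ℕ} (hj : j < g.m) {ω : Cfg} (hω : ω ∈ g.Xj j) : (g.st F hF).Bar (g.bk j) ω :=
  bar_of_xj (disj_N ω) hj hω

theorem gd_iff {j : ℕ} {ω : Cfg} : (g.st F hF).Gd (g.bk j) ω ↔ ω ∈ g.Gd j := Iff.rfl

/-- **contraction factor and count** -/
theorem Kp_le {q : ℝ} (hq0 : 0 < q) (hq1 : q ≤ 1) (ξ ξ' : Cfg) :
    (g.st F hF).Kp q g.bk g.m ξ ξ' ≤ kq q ^ cnt2 (Finset.range g.m) g.Gd g.Xj (ξ, ξ') := by
  classical
  have k0 := Crest.Agent.R144.Cc169.kq_nonneg hq0 hq1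
  have k1 := Crest.Agent.R144.Cc169.kq_le_one hq0
  have e : kq q ^ cnt2 (Finset.range g.m) g.Gd g.Xj (ξ, ξ') =
      ∏ i ∈ Finset.range g.m, if (ξ ∈ g.Gd i ∩ g.Xj i ∧ ξ' ∈ g.Gd i ∩ g.Xj i) then kq q else 1 := by
    rw [Finset.prod_ite, Finset.prod_const, Finset.prod_const_one, mul_one]
    unfold cnt2 cnt
    congr 2
    ext x
    simp only [Finset.mem_filter, Set.mem_ofPred_eq]
  rw [e]
  unfold Crest.Agent.R144.Cc169.St.Kp
  refine Finset.prod_le_prod (fun i _ => Crest.Agent.R144.Cc169.St.kp_nonneg hq0 hq1 _ _ _) fun i hi => ?_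
  unfold Crest.Agent.R144.Cc169.St.kp
  by_cases h1 : ξ ∈ g.Gd i ∩ g.Xj i ∧ ξ' ∈ g.Gd i ∩ g.Xj i
  · have hi' := Finset.mem_range.1 hi
    rw [if_pos h1, if_pos ⟨⟨gd_iff.2 h1.1.1, gd_iff.2 h1.2.1⟩, bar_bk hi' h1.1.2, bar_bk hi' h1.2.2⟩]
  · rw [if_neg h1]
    split_ifs
    · exact k1
    · exact le_rfl

end

end GP

/-- **Two-replica bound.** -/
theorem E2_le {c : ℝ} {K : ℕ} {p : ℝ} (hc : 1 ≤ c) (h : RSW c K p) (hh : ℕ) :
    ∃ (L : ℕ) (C α : ℝ), 1 ≤ L ∧ 0 < C ∧ 0 < α ∧ ∀ g : GP, g.K = K → g.h = hh → g.L = L →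
      ∀ (F : Finset P2) (hF : g.InF F), SC F →
        (g.st F hF).E2 c (fun ω ω' => (g.st F hF).Kp (p ^ g.nstk) g.bk g.m ω ω' ^ 2) ≤
          C * Real.exp (-(α * g.m)) := by
  set q : ℝ := p ^ (2 * (2 * hh + 1)) with hq
  have hq0 : 0 < q := pow_pos h.p0 _
  have hq1 : q ≤ 1 := pow_le_one₀ h.p0.le (by linarith [h.p1])
  have k0 := Crest.Agent.R144.Cc169.kq_nonneg hq0 hq1
  have k1 := Crest.Agent.R144.Cc169.kq_lt_one hq0
  obtain ⟨L, C, α, hL, hC, hα, key⟩ := kap_geo hc h hh (r := kq q ^ 2) (by positivity)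
    (pow_lt_one₀ k0 k1 (by norm_num))
  refine ⟨L, C, α, hL, hC, hα, fun g hgK hgh hgL F hF hSC => ?_⟩
  have hnst : g.nstk = 2 * (2 * hh + 1) := by unfold GP.nstk; rw [hgh]
  set s := g.st F hF with hs
  set E2 : (Cfg × Cfg → ℝ) → ℝ := fun H => s.E2 c (fun ω ω' => H (ω, ω')) with hE2
  have hsupp : ∀ f f' : Cfg × Cfg → ℝ, (∀ w ∈ {w : Cfg × Cfg | w.1 ∈ s.CF ∧ w.2 ∈ s.CF ∧ s.Rel4 w.1 w.2},
      f w ≤ f' w) → E2 f ≤ E2 f' := fun f f' hff =>
    Crest.Agent.R144.Cc169.St.E2_mono hc fun ω hω ω' hω' hr => hff (ω, ω') ⟨hω, hω', hr⟩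
  have m1 : ∀ f : Cfg → ℝ, E2 (fun w => f w.1) = E c F f := fun f =>
    Crest.Agent.R144.Cc169.St.E2_fst hc f
  have m2 : ∀ f : Cfg → ℝ, E2 (fun w => f w.2) = E c F f := fun f =>
    Crest.Agent.R144.Cc169.St.E2_snd hc f
  have hlaw : Law (fun _ => True) E2 := by
    refine ⟨fun f f' _ _ => ?_, fun a f _ => ?_, fun f f' _ _ hff => ?_, ?_⟩
    · exact Crest.Agent.R144.Cc169.St.E2_add c _ _
    · exact Crest.Agent.R144.Cc169.St.E2_smul c a _
    · exact hsupp f f' fun w _ => hff w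
    · have := m1 fun _ => 1
      rw [this, E_const hc F 1]
  have h1 := key g hgK hgh hgL F hSC (fun _ => True) E2 alg_top hlaw (fun f => ⟨trivial, m1 f⟩)
    (fun f => ⟨trivial, m2 f⟩) {w | w.1 ∈ s.CF ∧ w.2 ∈ s.CF ∧ s.Rel4 w.1 w.2}
    (fun f f' _ _ hff => hsupp f f' hff) ?_ trivial
  · refine le_trans ?_ h1
    refine Crest.Agent.R144.Cc169.St.E2_mono hc fun ω _ ω' _ _ => ?_
    rw [hnst]
    have h2 := GP.Kp_le (g := g) (F := F) (hF := hF) hq0 hq1 ω ω'
    have h3 := Crest.Agent.R144.Cc169.St.Kp_nonneg (s := s) hq0 hq1 g.bk g.m ω ω'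
    calc s.Kp q g.bk g.m ω ω' ^ 2 ≤ (kq q ^ cnt2 (Finset.range g.m) g.Gd g.Xj (ω, ω')) ^ 2 :=
          pow_le_pow_left₀ h3 h2 2
      _ = (kq q ^ 2) ^ cnt2 (Finset.range g.m) g.Gd g.Xj (ω, ω') := by
          rw [← pow_mul, ← pow_mul, mul_comm]
  · intro w hw j _
    have hX : s.X w.2 = s.X w.1 := Crest.Agent.R144.Cc169.St.rel_X hw.2.2
    rw [← GP.gd_iff (F := F) (hF := hF), ← GP.gd_iff (F := F) (hF := hF)]
    exact ⟨Crest.Agent.R144.Cc169.St.gd_congr hX, Crest.Agent.R144.Cc169.St.gd_congr hX.symm⟩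

end Crest.Agent.R144.Cgeo311
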