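import Crest.Agent.R144.Cc9_169
import Crest.Agent.R144.Pst12_967
import Crest.Agent.R144.Cge4_311
import Crest.Agent.R144.Ccw7_435
import Crest.Agent.R144.CuP_880
import Crest.Agent.R144.Gi1_643

-- ▼ part R144/Cc10_169
section

/-!
# R144 (CCW, step B), limit of the F-type laws (helper169)

* `PHz c P` : uniform phase: local functions of the heights of period `4` converge, to the plane average over the
  four phases;
* `sh4 Y` : average over the four phases; `ph_unif` : the convergence of `E (f Y)`, uniformly over `Y` of period `4`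
  seen on a fixed finite set;
* `planeB` : step B for the plane state.
-/

set_option autoImplicit false
set_option linter.unusedSectionVars false
set_option linter.unusedSimpArgs false

noncomputable section

namespace Crest.Agent.R144.Cc169

open Finset Filter Topology MeasureTheory
open Crest.Agent.R144.It844 (P2 Lip adj_iff adj_symm lip_iff)
open Crest.ProbabilityR.HexHeights (Adj)
open Crest.Agent.R144.Zg349 Crest.Agent.R144.Zk349 Crest.Agent.R144.Zd349 Crest.Agent.R144.Zm349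
open Crest.Agent.R144.Ze349
open Crest.Agent.R144.Pst967 (Hz LocZ NeutZ GObs FLim lC scs hexB cls_scs PinnedZ subset_hexB
  grad_of_colours gobs_bounded integrable_gobs measurable_of_loc mem_lC mem_lC_of_subset)

/-- average over the four phases -/
def sh4 (Y : Hz → ℝ) (h : Hz) : ℝ := 1 / 4 * ∑ j ∈ Finset.range 4, Y (fun v => h v + (j : ℤ))

/-- uniform phase -/
def PHz (c : ℝ) (P : Measure Hz) : Prop := ∀ f : Hz → ℝ, (∃ S : Finset P2, LocZ (S : Set P2) f) →
  (∀ h : Hz, f (fun v => h v + 4) = f h) → (∃ C : ℝ, ∀ h, |f h| ≤ C) →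
  Tendsto (fun F => E c F (fun ω => f ω.1)) (lC scs) (𝓝 (∫ h, sh4 f h ∂P))

theorem per_nat {Y : Hz → ℝ} (h4 : ∀ h : Hz, Y (fun v => h v + 4) = Y h) (k : ℕ) (h : Hz) :
    Y (fun v => h v + 4 * (k : ℤ)) = Y h := by
  induction k with
  | zero => simp
  | succ k ih =>
    rw [← ih, ← h4 (fun v => h v + 4 * (k : ℤ))]
    congr 1
    funext v
    push_cast
    ring

theorem per_int {Y : Hz → ℝ} (h4 : ∀ h : Hz, Y (fun v => h v + 4) = Y h) (k : ℤ) (h : Hz) :
    Y (fun v => h v + 4 * k) = Y h := by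
  rcases Int.eq_nat_or_neg k with ⟨n, rfl | rfl⟩
  · exact per_nat h4 n h
  · have h1 := per_nat h4 n (fun v => h v + 4 * (-(n : ℤ)))
    rw [← h1]
    congr 1
    funext v
    ring

theorem sh4_loc {S : Set P2} {Y : Hz → ℝ} (hY : LocZ S Y) : LocZ S (sh4 Y) := by
  intro h g hg
  unfold sh4
  congr 1
  exact Finset.sum_congr rfl fun j _ => hY _ _ fun v hv => by rw [hg v hv]

theorem sh4_abs {Y : Hz → ℝ} {B : ℝ} (hY : ∀ h, |Y h| ≤ B) (h : Hz) : |sh4 Y h| ≤ B := by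
  unfold sh4
  rw [abs_mul, abs_of_pos (by norm_num : (0 : ℝ) < 1 / 4)]
  have h1 : |∑ j ∈ Finset.range 4, Y (fun v => h v + (j : ℤ))| ≤ ∑ _j ∈ Finset.range 4, B :=
    (Finset.abs_sum_le_sum_abs _ _).trans (Finset.sum_le_sum fun j _ => hY _)
  rw [Finset.sum_const, Finset.card_range, nsmul_eq_mul] at h1
  push_cast at h1
  linarith

theorem sh4_neut {Y : Hz → ℝ} (h4 : ∀ h : Hz, Y (fun v => h v + 4) = Y h) : NeutZ (sh4 Y) := by
  have h1 : ∀ h : Hz, sh4 Y (fun v => h v + 1) = sh4 Y h := by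
    intro h
    unfold sh4
    congr 1
    have e1 : Y (fun v => h v + 1 + ((3 : ℕ) : ℤ)) = Y (fun v => h v + ((0 : ℕ) : ℤ)) := by
      have : (fun v => h v + 1 + ((3 : ℕ) : ℤ)) = fun v => (fun v => h v + ((0 : ℕ) : ℤ)) v + 4 := by
        funext v
        push_cast
        ring
      rw [this, h4]
    have e2 : ∀ j : ℕ, Y (fun v => h v + 1 + (j : ℤ)) = Y (fun v => h v + ((j + 1 : ℕ) : ℤ)) := by
      intro j
      congr 1
      funext v
      push_cast
      ring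
    rw [Finset.sum_range_succ, Finset.sum_range_succ, Finset.sum_range_succ, Finset.sum_range_one,
      Finset.sum_range_succ, Finset.sum_range_succ, Finset.sum_range_succ, Finset.sum_range_one,
      e1, e2, e2, e2]
    ring
  have h2 : ∀ (n : ℕ) (h : Hz), sh4 Y (fun v => h v + (n : ℤ)) = sh4 Y h := by
    intro n
    induction n with
    | zero => intro h; simp
    | succ n ih =>
      intro h
      rw [← ih h, ← h1 (fun v => h v + (n : ℤ))]
      congr 1
      funext v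
      push_cast
      ring
  intro h c
  rcases Int.eq_nat_or_neg c with ⟨n, rfl | rfl⟩
  · exact h2 n h
  · rw [← h2 n (fun v => h v + -(n : ℤ))]
    congr 1
    funext v
    ring

theorem s1_mod {a b : ℤ} (h : a % 4 = b % 4) : s1 a = s1 b := by
  unfold s1
  rw [decide_eq_decide]
  omega

theorem s2_mod {a b : ℤ} (h : a % 4 = b % 4) : s2 a = s2 b := by
  unfold s2
  rw [decide_eq_decide]
  omega

/-- sites of the box -/
abbrev HB (n : ℕ) : Type := {v : P2 // v ∈ hexB n}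

open Classical in
/-- indicator of a pattern modulo `4` -/
def pind (n : ℕ) (a : HB n → Fin 4) (h : Hz) : ℝ :=
  if ∀ v : HB n, h v % 4 = ((a v : ℕ) : ℤ) then 1 else 0

theorem pind_loc (n : ℕ) (a : HB n → Fin 4) : LocZ (hexB n : Set P2) (pind n a) := by
  intro h g hg
  unfold pind
  have : (∀ v : HB n, h v % 4 = ((a v : ℕ) : ℤ)) ↔
      ∀ v : HB n, g v % 4 = ((a v : ℕ) : ℤ) :=
    forall_congr' fun v => by rw [hg v v.2]
  simp only [this]

theorem pind_per (n : ℕ) (a : HB n → Fin 4) (h : Hz) :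
    pind n a (fun v => h v + 4) = pind n a h := by
  unfold pind
  have : (∀ v : HB n, (h v + 4) % 4 = ((a v : ℕ) : ℤ)) ↔
      ∀ v : HB n, h v % 4 = ((a v : ℕ) : ℤ) :=
    forall_congr' fun v => by rw [Int.add_emod_right]
  simp only [this]

theorem pind_abs (n : ℕ) (a : HB n → Fin 4) (h : Hz) : |pind n a h| ≤ 1 := by
  unfold pind
  split_ifs <;> simp

/-- pattern of a height function -/
def pt4 (n : ℕ) (h : Hz) : HB n → Fin 4 := fun v =>
  ⟨(h v % 4).toNat, by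
    have h1 := Int.emod_nonneg (h v) (by norm_num : (4 : ℤ) ≠ 0)
    have h2 := Int.emod_lt_of_pos (h v) (by norm_num : (0 : ℤ) < 4)
    omega⟩

theorem pt4_spec (n : ℕ) (h : Hz) (v : HB n) : h v % 4 = ((pt4 n h v : ℕ) : ℤ) := by
  have h1 := Int.emod_nonneg (h v) (by norm_num : (4 : ℤ) ≠ 0)
  show h v % 4 = (((h v % 4).toNat : ℕ) : ℤ)
  omega

theorem pind_iff (n : ℕ) (a : HB n → Fin 4) (h : Hz) :
    pind n a h = if a = pt4 n h then 1 else 0 := by
  classical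
  unfold pind
  have : (∀ v : HB n, h v % 4 = ((a v : ℕ) : ℤ)) ↔ a = pt4 n h := by
    constructor
    · intro H
      funext v
      apply Fin.ext
      have h1 := H v
      rw [pt4_spec n h v] at h1
      exact_mod_cast h1.symm
    · rintro rfl v
      exact pt4_spec n h v
  by_cases h1 : a = pt4 n h
  · rw [if_pos (this.2 h1), if_pos h1]
  · rw [if_neg fun h2 => h1 (this.1 h2), if_neg h1]

/-- Lipschitz heights with the same pattern modulo `4` -/
theorem eq_of_pt4 {n : ℕ} {f Y : Hz → ℝ} (hfW : LocZ (hexB n : Set P2) f) (hfn : NeutZ f)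
    (hYW : LocZ (hexB n : Set P2) Y) (h4 : ∀ h : Hz, Y (fun v => h v + 4) = Y h) {h g : Hz} (hl : Lip h)
    (gl : Lip g) (hp : pt4 n h = pt4 n g) : f h * Y h = f g * Y g := by
  have hm : ∀ v ∈ hexB n, h v % 4 = g v % 4 := fun v hv => by
    rw [pt4_spec n h ⟨v, hv⟩, pt4_spec n g ⟨v, hv⟩, hp]
  have h0 : (0 : P2) ∈ hexB n := by
    rw [Pst967.mem_hexB]
    simp
  have hd := fun v hv => grad_of_colours hl gl (fun v hv => s1_mod (hm v hv)) (fun v hv => s2_mod (hm v hv))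
    (v := v) hv
  have hm0 := hm 0 h0
  obtain ⟨k, hk⟩ : ∃ k : ℤ, h 0 - g 0 = 4 * k := ⟨(h 0 - g 0) / 4, by omega⟩
  have e : ∀ v ∈ (hexB n : Set P2), h v = g v + 4 * k := fun v hv => by
    have := hd v hv
    omega
  rw [hfW h (fun v => g v + 4 * k) e, hYW h (fun v => g v + 4 * k) e, hfn g (4 * k), per_int h4]

/-- **Uniform convergence** over the functions of period `4` seen on a finite set. -/
theorem ph_unif {c : ℝ} {P : Measure Hz} (hP : PinnedZ P) (hPH : PHz c P) (W : Finset P2)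
    {f : Hz → ℝ} (hf : GObs f) {ε : ℝ} (hε : 0 < ε) :
    ∀ᶠ F in lC scs, ∀ Y : Hz → ℝ, LocZ (W : Set P2) Y → (∀ h, |Y h| ≤ 1) →
      (∀ h : Hz, Y (fun v => h v + 4) = Y h) →
      |E c F (fun ω => f ω.1 * Y ω.1) - ∫ h, f h * sh4 Y h ∂P| ≤ ε := by
  classical
  have hprob := hP.prob
  obtain ⟨C, hC⟩ := gobs_bounded hf
  have hC0 : 0 ≤ C := (abs_nonneg _).trans (hC (fun _ => 0) (It844.lip_const 0))
  obtain ⟨⟨S, hS⟩, hN⟩ := hf
  obtain ⟨n, hn⟩ := subset_hexB (S ∪ W)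
  have hSn : (S : Set P2) ⊆ hexB n := fun v hv => hn (Finset.mem_union_left _ hv)
  have hWn : (W : Set P2) ⊆ hexB n := fun v hv => hn (Finset.mem_union_right _ hv)
  set A := (HB n → Fin 4) with hA
  have hcard : (0 : ℝ) < Fintype.card A + 1 := by positivity
  have hev : ∀ a : A, ∀ᶠ F in lC scs, |E c F (fun ω => pind n a ω.1) - ∫ h, sh4 (pind n a) h ∂P| ≤
      ε / ((C + 1) * (Fintype.card A + 1)) := by
    intro a
    have h1 := hPH (pind n a) ⟨hexB n, pind_loc n a⟩ (pind_per n a) ⟨1, pind_abs n a⟩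
    have h2 := Metric.tendsto_nhds.1 h1 (ε / ((C + 1) * (Fintype.card A + 1))) (by positivity)
    filter_upwards [h2] with F hF
    rw [Real.dist_eq] at hF
    exact hF.le
  filter_upwards [eventually_all.2 hev] with F hF Y hYW hY1 hY4
  -- values on patterns
  let val : A → ℝ := fun a => if hh : ∃ g : Hz, Lip g ∧ pt4 n g = a then
    f hh.choose * Y hh.choose else 0
  have hval : ∀ h : Hz, Lip h → val (pt4 n h) = f h * Y h := by
    intro h hl
    have hh : ∃ g : Hz, Lip g ∧ pt4 n g = pt4 n h := ⟨h, hl, rfl⟩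
    have e : val (pt4 n h) = f hh.choose * Y hh.choose := dif_pos hh
    rw [e]
    exact eq_of_pt4 (hS.mono hSn) hN (hYW.mono hWn) hY4 hh.choose_spec.1 hl hh.choose_spec.2
  have hvb : ∀ a, |val a| ≤ C := by
    intro a
    by_cases hh : ∃ g : Hz, Lip g ∧ pt4 n g = a
    · have e : val a = f hh.choose * Y hh.choose := dif_pos hh
      rw [e, abs_mul]
      calc |f hh.choose| * |Y hh.choose| ≤ C * 1 :=
            mul_le_mul (hC _ hh.choose_spec.1) (hY1 _) (abs_nonneg _) hC0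
        _ = C := mul_one C
    · have e : val a = 0 := dif_neg hh
      rw [e, abs_zero]
      exact hC0
  have hdec : ∀ h : Hz, Lip h → f h * Y h = ∑ a : A, val a * pind n a h := by
    intro h hl
    rw [← hval h hl, Finset.sum_eq_single (pt4 n h)]
    · rw [pind_iff, if_pos rfl, mul_one]
    · intro a _ ha
      rw [pind_iff, if_neg ha, mul_zero]
    · intro h1
      exact absurd (Finset.mem_univ _) h1
  have e1 : E c F (fun ω => f ω.1 * Y ω.1) = ∑ a : A, val a * E c F (fun ω => pind n a ω.1) := by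
    rw [E_congr (g := fun ω => ∑ a : A, val a * pind n a ω.1) fun ω hω => hdec ω.1 hω.ht.toLip, E_sum]
    exact Finset.sum_congr rfl fun a _ => E_smul c F (val a) _
  have hint : ∀ a : A, Integrable (sh4 (pind n a)) P := fun a =>
    Integrable.of_bound (measurable_of_loc ⟨hexB n, sh4_loc (pind_loc n a)⟩).aestronglyMeasurable 1
      (ae_of_all _ fun h => by rw [Real.norm_eq_abs]; exact sh4_abs (pind_abs n a) h)
  have e2 : ∫ h, f h * sh4 Y h ∂P = ∑ a : A, val a * ∫ h, sh4 (pind n a) h ∂P := by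
    have h1 : ∀ h : Hz, Lip h → f h * sh4 Y h = ∑ a : A, val a * sh4 (pind n a) h := by
      intro h hl
      unfold sh4
      have h2 : ∀ j : ℕ, f h * Y (fun v => h v + (j : ℤ)) =
          ∑ a : A, val a * pind n a (fun v => h v + (j : ℤ)) := by
        intro j
        rw [← hdec (fun v => h v + (j : ℤ)) (hl.add_const _), hN h (j : ℤ)]
      rw [mul_left_comm, Finset.mul_sum, Finset.sum_congr rfl fun j _ => h2 j, Finset.sum_comm,
        Finset.mul_sum]
      refine Finset.sum_congr rfl fun a _ => ?_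
      rw [← Finset.mul_sum]
      ring
    rw [integral_congr_ae (g := fun h => ∑ a : A, val a * sh4 (pind n a) h)
      (by filter_upwards [hP.lip] with h hl using h1 h hl),
      integral_finsetSum _ fun a _ => (hint a).const_mul _]
    exact Finset.sum_congr rfl fun a _ => integral_const_mul _ _
  rw [e1, e2, ← Finset.sum_sub_distrib]
  refine (Finset.abs_sum_le_sum_abs _ _).trans ?_
  have h3 : ∀ a ∈ (Finset.univ : Finset A), |val a * E c F (fun ω => pind n a ω.1) -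
      val a * ∫ h, sh4 (pind n a) h ∂P| ≤ C * (ε / ((C + 1) * (Fintype.card A + 1))) := by
    intro a _
    rw [← mul_sub, abs_mul]
    exact mul_le_mul (hvb a) (hF a) (abs_nonneg _) hC0
  refine (Finset.sum_le_sum h3).trans ?_
  rw [Finset.sum_const, Finset.card_univ, nsmul_eq_mul]
  have h4 : (Fintype.card A : ℝ) * (C * (ε / ((C + 1) * (Fintype.card A + 1)))) =
      ε * ((Fintype.card A / (Fintype.card A + 1)) * (C / (C + 1))) := by
    field_simp
  rw [h4]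
  have h5 : (Fintype.card A : ℝ) / (Fintype.card A + 1) ≤ 1 := by
    rw [div_le_one hcard]; linarith
  have h6 : C / (C + 1) ≤ 1 := by
    rw [div_le_one (by linarith)]; linarith
  have h7 : (0 : ℝ) ≤ C / (C + 1) := by positivity
  calc ε * ((Fintype.card A : ℝ) / (Fintype.card A + 1) * (C / (C + 1))) ≤ ε * 1 := by
        refine mul_le_mul_of_nonneg_left ?_ hε.le
        exact mul_le_one₀ h5 h7 h6
    _ = ε := mul_one ε

/-- F-level estimate of step B, for one pair `f, Y` -/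
def StepF (c : ℝ) (F : Finset P2) (Lay : Finset P2) (f Y : Hz → ℝ) (B2 : ℝ) : Prop :=
  ∃ Yb : Hz → ℝ, LocZ (VF Lay : Set P2) Yb ∧ (∀ h, |Yb h| ≤ 1) ∧
    (∀ h : Hz, Yb (fun v => h v + 4) = Yb h) ∧
    ∀ t : ℝ, 0 < t → |E c F (fun ω => f ω.1 * Y ω.1) - E c F (fun ω => f ω.1 * Yb ω.1)| ≤
      t * B2 + t⁻¹ * E c F (fun ω => f ω.1 ^ 2)

/-- **Step B for the plane state.** -/
theorem planeB {c : ℝ} {P : Measure Hz} (hP : PinnedZ P) (hPH : PHz c P)
    (hF : ∀ f : Hz → ℝ, GObs f → FLim c f (∫ h, f h ∂P)) {Lay : Finset P2} {f Y : Hz → ℝ} (hf : GObs f)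
    (hY : GObs Y) {B2 : ℝ} (hst : ∀ᶠ F in lC scs, StepF c F Lay f Y B2) {t : ℝ} (ht : 0 < t) {ε : ℝ}
    (hε : 0 < ε) :
    ∃ Yb : Hz → ℝ, LocZ (VF Lay : Set P2) Yb ∧ NeutZ Yb ∧ (∀ h, |Yb h| ≤ 1) ∧
      |∫ h, f h * Y h ∂P - ∫ h, f h * Yb h ∂P| ≤ t * B2 + t⁻¹ * ∫ h, f h ^ 2 ∂P + ε := by
  have hne := cls_scs.neBot
  have h1 := Metric.tendsto_nhds.1 (hF _ (hf.map₂ hY fun a b => a * b)) (ε / 3) (by positivity)
  have h2 := Metric.tendsto_nhds.1 (hF _ (hf.comp fun a => a ^ 2)) (t * (ε / 3)) (by positivity)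
  have h3 := ph_unif hP hPH (VF Lay) hf (ε := ε / 3) (by positivity)
  obtain ⟨F, k1, k2, k3, Yb, y1, y2, y3, y4⟩ := (((h1.and h2).and h3).and hst).exists.imp
    fun F h => (⟨h.1.1.1, h.1.1.2, h.1.2, h.2⟩ : _ ∧ _ ∧ _ ∧ _)
  refine ⟨sh4 Yb, sh4_loc y1, sh4_neut y3, sh4_abs y2, ?_⟩
  have k4 := k3 Yb y1 y2 y3
  have k5 := y4 t ht
  rw [Real.dist_eq, abs_lt] at k1 k2
  rw [abs_le] at k4 k5
  have k6 : t⁻¹ * E c F (fun ω => f ω.1 ^ 2) ≤ t⁻¹ * ∫ h, f h ^ 2 ∂P + ε / 3 := by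
    have h6 : E c F (fun ω => f ω.1 ^ 2) ≤ ∫ h, f h ^ 2 ∂P + t * (ε / 3) := by linarith [k2.2]
    calc t⁻¹ * E c F (fun ω => f ω.1 ^ 2) ≤ t⁻¹ * (∫ h, f h ^ 2 ∂P + t * (ε / 3)) :=
          mul_le_mul_of_nonneg_left h6 (by positivity)
      _ = _ := by field_simp
  rw [abs_le]
  constructor <;> linarith [k1.1, k1.2, k4.1, k4.2, k5.1, k5.2]

end Crest.Agent.R144.Cc169
end
end

-- ▼ part R144/Cd1_169

/-!
# R144 (CCW, cell theorem), geometry of one cell (helper169)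

Cell with centre `z0` and size `η`, lattice scale `d`: `s = sc η d` the lattice unit (`d s ≈ η / 4`), `g = gp ..` the
strip of width `128 s` and `m` blocks around the cell; `S1, S2` the sites of the lower and of the upper layer,
`Lam = nb S1 (8 s)`, `LL = nb S1 (16 s) \ Lam`, `TT` the sites of the cell.
-/

set_option autoImplicit false
set_option linter.unusedSectionVars false
set_option linter.unusedSimpArgs false

noncomputable section

namespace Crest.Agent.R144.Cd169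

open Finset Filter Topology MeasureTheory
open Crest.Agent.R144.It844 (P2 Lip adj_iff adj_symm nbhd)
open Crest.ProbabilityR.HexHeights (Adj centre)
open Crest.Agent.R144.Zg349 Crest.Agent.R144.Zk349 Crest.Agent.R144.Zd349 Crest.Agent.R144.Zm349
open Crest.Agent.R144.Ze349
open Crest.Agent.R144.Pst967 (Hz LocZ NeutZ GObs)
open Crest.Agent.R144.HexTil353 (ca cb cen centre_eq cen_ca_cb cen_sub norm_cen_sq N_ge cen_re cen_im)
open Crest.Agent.R144.Cgeo311 (GP Box mem_Box col row)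
open Crest.Agent.R144.Rsw867 (ball mem_ball)
open Crest.Agent.R144.CuP880 (nb)

/-! ### index coordinates of the plane -/

theorem ca1_centre (d : ℝ) (v : P2) : ca 1 (centre d v) = d * v.1 := by
  have h3 : Real.sqrt 3 ≠ 0 := by positivity
  rw [centre_eq]
  unfold ca
  rw [cen_re, cen_im]
  field_simp
  ring

theorem cb1_centre (d : ℝ) (v : P2) : cb 1 (centre d v) = d * v.2 := by
  have h3 : Real.sqrt 3 ≠ 0 := by positivity
  rw [centre_eq]
  unfold cb
  rw [cen_im]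
  field_simp

theorem eq_cen (z : ℂ) : cen 1 (ca 1 z) (cb 1 z) = z := cen_ca_cb one_pos z

theorem abs_cab_sub (z z' : ℂ) : |ca 1 z - ca 1 z'| ≤ 2 * ‖z - z'‖ ∧ |cb 1 z - cb 1 z'| ≤ 2 * ‖z - z'‖ := by
  have h : ‖z - z'‖ ^ 2 = Crest.Agent.R144.HexTil353.N (ca 1 z - ca 1 z') (cb 1 z - cb 1 z') := by
    conv_lhs => rw [← eq_cen z, ← eq_cen z']
    rw [cen_sub, norm_cen_sq, one_pow, one_mul]
  have h2 := N_ge (ca 1 z - ca 1 z') (cb 1 z - cb 1 z')
  rw [← h] at h2
  have h0 : 0 ≤ 2 * ‖z - z'‖ := by positivity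
  have key : ∀ x : ℝ, x ^ 2 ≤ 2 * ‖z - z'‖ ^ 2 → |x| ≤ 2 * ‖z - z'‖ := by
    intro x hx
    refine (abs_le_of_sq_le_sq' ?_ h0).2
    rw [sq_abs]
    nlinarith [sq_nonneg ‖z - z'‖]
  exact ⟨key _ (by nlinarith [sq_nonneg (cb 1 z - cb 1 z')]), key _ (by nlinarith [sq_nonneg (ca 1 z - ca 1 z')])⟩

theorem norm_le_cab (z z' : ℂ) : ‖z - z'‖ ≤ |ca 1 z - ca 1 z'| + |cb 1 z - cb 1 z'| := by
  conv_lhs => rw [← eq_cen z, ← eq_cen z']
  rw [cen_sub]
  have := Crest.Agent.R144.Mix880.norm_cen_le' (δ := 1) zero_le_one (ca 1 z - ca 1 z') (cb 1 z - cb 1 z')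
  rwa [one_mul] at this

/-! ### data of a cell -/

/-- lattice unit -/
def sc (η d : ℝ) : ℕ := ⌈η / (4 * d)⌉₊ + 1

theorem sc_pos (η d : ℝ) : 1 ≤ sc η d := Nat.le_add_left 1 _

theorem sc_ge {η d : ℝ} (hd : 0 < d) : η ≤ 4 * (d * sc η d) := by
  unfold sc
  have h := Nat.le_ceil (η / (4 * d))
  rw [div_le_iff₀ (by positivity)] at h
  push_cast
  nlinarith

theorem sc_le {η d : ℝ} (hη : 0 < η) (hd : 0 < d) (hs : 1024 * d ≤ η) : 2 * (d * sc η d) ≤ η := by
  unfold sc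
  have h := (Nat.ceil_lt_add_one (a := η / (4 * d)) (by positivity)).le
  push_cast
  have h1 : d * (((⌈η / (4 * d)⌉₊ : ℕ) : ℝ) + 1) ≤ d * (η / (4 * d) + 1 + 1) :=
    mul_le_mul_of_nonneg_left (by linarith) hd.le
  have h2 : d * (η / (4 * d) + 1 + 1) = η / 4 + 2 * d := by
    field_simp
    ring
  linarith

/-- strip around the cell -/
def gp {K L : ℕ} (hK : 4 ≤ K) (hL : 1 ≤ L) (m : ℕ) (η d : ℝ) (z0 : ℂ) : GP where
  a := (⌊ca 1 z0 / d⌋, ⌊cb 1 z0 / d⌋ - 64 * (sc η d : ℤ))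
  w := 128 * sc η d
  K := K
  h := 4
  L := L
  w0 := 1
  m := m
  hw := by have := sc_pos η d; omega
  hK := hK
  hh := le_rfl
  hL := hL
  hw0 := le_rfl

/-- lower layer, triangles -/
def LayD (g : GP) : Finset P2 := g.SL.filter fun t => row g.a t < 0
/-- upper layer, triangles -/
def LayU (g : GP) : Finset P2 := g.SL.filter fun t => (g.w : ℤ) ≤ row g.a t

theorem Lay_eq (g : GP) : g.Lay = LayD g ∪ LayU g := by
  ext t
  unfold LayD LayU GP.Lay
  rw [Finset.mem_union, Finset.mem_filter, Finset.mem_filter, Finset.mem_filter]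
  tauto

/-- sites of the lower layer -/
def S1 (g : GP) : Finset P2 := VF (LayD g)
/-- sites of the upper layer -/
def S2 (g : GP) : Finset P2 := VF (LayU g)

theorem VF_Lay (g : GP) : VF g.Lay = S1 g ∪ S2 g := by
  unfold S1 S2
  rw [Lay_eq]
  unfold VF
  exact Finset.union_biUnion

section
variable {K L : ℕ} (hK : 4 ≤ K) (hL : 1 ≤ L) (m : ℕ) (η d : ℝ) (z0 : ℂ)

/-- total length of the strip in lattice units -/
def len (K L m : ℕ) : ℕ := 1 + m * ((2 * K + 3) + (2 * L + 1) * (2 * K + 1))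

theorem W_m : (gp hK hL m η d z0).W (gp hK hL m η d z0).m = 128 * (len K L m * sc η d : ℤ) := by
  unfold GP.W GP.Wn GP.per GP.un gp len
  push_cast
  ring

theorem H_eq : (gp hK hL m η d z0).H = 512 * (sc η d : ℤ) := by
  unfold GP.H gp
  push_cast
  ring

theorem w_eq : ((gp hK hL m η d z0).w : ℤ) = 128 * (sc η d : ℤ) := by
  unfold gp
  push_cast
  ring

variable {hK hL m η d z0}

theorem mem_SL {t : P2} : t ∈ (gp hK hL m η d z0).SL ↔
    |t.1 - (gp hK hL m η d z0).a.1| < 128 * (len K L m * sc η d : ℤ) + 2 ∧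
    -(512 * (sc η d : ℤ)) ≤ t.2 - (gp hK hL m η d z0).a.2 ∧
    t.2 - (gp hK hL m η d z0).a.2 < 640 * (sc η d : ℤ) := by
  unfold GP.SL
  rw [mem_Box, W_m, H_eq, w_eq]
  unfold col row
  have h0 : 0 ≤ |t.1 - (gp hK hL m η d z0).a.1| := abs_nonneg _
  constructor
  · intro h; omega
  · intro h; omega

theorem len_pos (K L m : ℕ) : 1 ≤ len K L m := by unfold len; omega

/-- unit times length -/
theorem len_ge (η d : ℝ) (K L m : ℕ) : (sc η d : ℤ) ≤ len K L m * sc η d := by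
  have h1 : (1 : ℤ) ≤ len K L m := by exact_mod_cast len_pos K L m
  have h2 : (0 : ℤ) ≤ sc η d := by positivity
  nlinarith

theorem mem_S1 {v : P2} (hv : v ∈ S1 (gp hK hL m η d z0)) :
    |v.1 - (gp hK hL m η d z0).a.1| ≤ 128 * (len K L m * sc η d : ℤ) + 2 ∧
    -(512 * (sc η d : ℤ)) ≤ v.2 - (gp hK hL m η d z0).a.2 ∧ v.2 - (gp hK hL m η d z0).a.2 ≤ 0 := by
  obtain ⟨t, ht, hvt⟩ := mem_VF.1 hv
  unfold LayD at ht
  rw [Finset.mem_filter, mem_SL] at ht
  unfold row at ht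
  obtain ⟨⟨h1, h2, h3⟩, h4⟩ := ht
  rw [mem_up] at hvt
  rw [abs_lt] at h1
  rw [abs_le]
  rcases hvt with rfl | rfl | rfl
  · omega
  · simp only
    omega
  · simp only
    omega

theorem mem_S2 {v : P2} (hv : v ∈ S2 (gp hK hL m η d z0)) :
    |v.1 - (gp hK hL m η d z0).a.1| ≤ 128 * (len K L m * sc η d : ℤ) + 2 ∧
    128 * (sc η d : ℤ) ≤ v.2 - (gp hK hL m η d z0).a.2 ∧
    v.2 - (gp hK hL m η d z0).a.2 ≤ 640 * (sc η d : ℤ) := by
  obtain ⟨t, ht, hvt⟩ := mem_VF.1 hv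
  unfold LayU at ht
  rw [Finset.mem_filter, mem_SL, w_eq] at ht
  unfold row at ht
  obtain ⟨⟨h1, h2, h3⟩, h4⟩ := ht
  rw [mem_up] at hvt
  rw [abs_lt] at h1
  rw [abs_le]
  rcases hvt with rfl | rfl | rfl
  · omega
  · simp only
    omega
  · simp only
    omega

theorem mem_VF_SL {v : P2} (hv : v ∈ VF (gp hK hL m η d z0).SL) :
    |v.1 - (gp hK hL m η d z0).a.1| ≤ 128 * (len K L m * sc η d : ℤ) + 2 ∧
    |v.2 - (gp hK hL m η d z0).a.2| ≤ 640 * (sc η d : ℤ) := by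
  obtain ⟨t, ht, hvt⟩ := mem_VF.1 hv
  rw [mem_SL] at ht
  obtain ⟨h1, h2, h3⟩ := ht
  rw [mem_up] at hvt
  rw [abs_lt] at h1
  rw [abs_le, abs_le]
  have := sc_pos η d
  rcases hvt with rfl | rfl | rfl
  · omega
  · simp only
    omega
  · simp only
    omega

theorem in_S1 {v : P2} (h1 : |v.1 - (gp hK hL m η d z0).a.1| ≤ sc η d)
    (h2 : -(512 * (sc η d : ℤ)) ≤ v.2 - (gp hK hL m η d z0).a.2)
    (h3 : v.2 - (gp hK hL m η d z0).a.2 < 0) : v ∈ S1 (gp hK hL m η d z0) := by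
  refine mem_VF.2 ⟨v, ?_, base_mem_up v⟩
  unfold LayD
  rw [Finset.mem_filter, mem_SL]
  have := len_ge η d K L m
  unfold row
  omega


theorem in_S2 {v : P2} (h1 : |v.1 - (gp hK hL m η d z0).a.1| ≤ sc η d)
    (h2 : 128 * (sc η d : ℤ) ≤ v.2 - (gp hK hL m η d z0).a.2)
    (h3 : v.2 - (gp hK hL m η d z0).a.2 < 640 * (sc η d : ℤ)) : v ∈ S2 (gp hK hL m η d z0) := by
  refine mem_VF.2 ⟨v, ?_, base_mem_up v⟩
  unfold LayU
  rw [Finset.mem_filter, mem_SL, w_eq]
  have := len_ge η d K L m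
  unfold row
  omega

end

/-! ### neighbourhoods -/


theorem self_mem_ball (v : P2) (r : ℕ) : v ∈ ball v r := by
  rw [mem_ball]
  simp




/-- sites of the cell -/
def TT (g : GP) (s : ℕ) : Finset P2 := Box g.a 0 (25 * s + 1) (40 * s) (89 * s + 1)



section
variable {K L : ℕ} {hK : 4 ≤ K} {hL : 1 ≤ L} {m : ℕ} {η d : ℝ} {z0 : ℂ}




theorem TT_sub : TT (gp hK hL m η d z0) (sc η d) ⊆ (gp hK hL m η d z0).V0 := by
  intro v hv
  unfold TT at hv
  unfold GP.V0
  rw [mem_Box] at hv ⊢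
  have e : (((gp hK hL m η d z0).w0 : ℤ) * (gp hK hL m η d z0).w) = 128 * (sc η d : ℤ) := by
    unfold gp
    push_cast
    ring
  rw [e, w_eq]
  have := sc_pos η d
  omega

/-! ### level balls -/

/-- ball in the contour -/
def bo (g : GP) (s : ℕ) : Finset P2 := ball (g.a.1, g.a.2 + 12 * s) s
/-- ball in the lower layer -/
def b1 (g : GP) (s : ℕ) : Finset P2 := ball (g.a.1, g.a.2 - 2 * s) s
/-- ball in the upper layer -/
def b2 (g : GP) (s : ℕ) : Finset P2 := ball (g.a.1, g.a.2 + 130 * s) s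


theorem b1_sub : b1 (gp hK hL m η d z0) (sc η d) ⊆ S1 (gp hK hL m η d z0) := by
  intro v hv
  unfold b1 at hv
  rw [mem_ball] at hv
  have hs := sc_pos η d
  simp only [abs_le] at hv
  refine in_S1 ?_ ?_ ?_
  · rw [abs_le]; omega
  · omega
  · omega

theorem b2_sub : b2 (gp hK hL m η d z0) (sc η d) ⊆ S2 (gp hK hL m η d z0) := by
  intro v hv
  unfold b2 at hv
  rw [mem_ball] at hv
  have hs := sc_pos η d
  simp only [abs_le] at hv
  refine in_S2 ?_ ?_ ?_
  · rw [abs_le]; omega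
  · omega
  · omega


/-! ### in the plane -/

theorem a_1 (hd : 0 < d) : d * ((gp hK hL m η d z0).a.1 : ℝ) ≤ ca 1 z0 ∧
    ca 1 z0 < d * ((gp hK hL m η d z0).a.1 : ℝ) + d := by
  show d * ((⌊ca 1 z0 / d⌋ : ℤ) : ℝ) ≤ ca 1 z0 ∧ ca 1 z0 < d * ((⌊ca 1 z0 / d⌋ : ℤ) : ℝ) + d
  have h1 := Int.floor_le (ca 1 z0 / d)
  have h2 := Int.lt_floor_add_one (ca 1 z0 / d)
  rw [le_div_iff₀ hd] at h1
  rw [div_lt_iff₀ hd] at h2
  constructor <;> nlinarith

theorem a_2 (hd : 0 < d) : d * ((gp hK hL m η d z0).a.2 : ℝ) + 64 * (d * sc η d) ≤ cb 1 z0 ∧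
    cb 1 z0 < d * ((gp hK hL m η d z0).a.2 : ℝ) + 64 * (d * sc η d) + d := by
  have e0 : (gp hK hL m η d z0).a.2 = ⌊cb 1 z0 / d⌋ - 64 * (sc η d : ℤ) := rfl
  have e : ((gp hK hL m η d z0).a.2 : ℝ) = ((⌊cb 1 z0 / d⌋ : ℤ) : ℝ) - 64 * (sc η d : ℝ) := by
    rw [e0]
    push_cast
    ring
  rw [e]
  have h1 := Int.floor_le (cb 1 z0 / d)
  have h2 := Int.lt_floor_add_one (cb 1 z0 / d)
  rw [le_div_iff₀ hd] at h1
  rw [div_lt_iff₀ hd] at h2
  constructor <;> nlinarith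

/-- sites near the cell are in `TT` -/
theorem mem_TT (hd : 0 < d) {v : P2} (h1 : |d * v.1 - ca 1 z0| ≤ 6 * η)
    (h2 : |d * v.2 - cb 1 z0| ≤ 6 * η) : v ∈ TT (gp hK hL m η d z0) (sc η d) := by
  obtain ⟨p1, p2⟩ := a_1 (hK := hK) (hL := hL) (m := m) (η := η) (z0 := z0) hd
  obtain ⟨q1, q2⟩ := a_2 (hK := hK) (hL := hL) (m := m) (η := η) (z0 := z0) hd
  have hge := sc_ge (η := η) hd
  have hs1 : d ≤ d * sc η d := by
    have : (1 : ℝ) ≤ sc η d := by exact_mod_cast sc_pos η d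
    nlinarith
  rw [abs_le] at h1 h2
  unfold TT
  rw [mem_Box]
  unfold col row
  have key : ∀ x y : ℤ, d * (x : ℝ) ≤ d * (y : ℝ) → x ≤ y := fun x y h => by
    have := le_of_mul_le_mul_left h hd
    exact_mod_cast this
  refine ⟨⟨abs_nonneg _, ?_⟩, ?_, ?_⟩
  · rw [Int.lt_add_one_iff, abs_le]
    constructor
    · apply key
      push_cast
      nlinarith
    · apply key
      push_cast
      nlinarith
  · apply key
    push_cast
    nlinarith
  · rw [Int.lt_add_one_iff]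
    apply key
    push_cast
    nlinarith


/-- conditions of `a1_inst` for the upper layer -/
theorem S2_high (hd : 0 < d) {v : P2} (hv : v ∈ S2 (gp hK hL m η d z0)) :
    cb 1 z0 + 2 * (4 * η) ≤ d * v.2 ∧ |d * v.1 - ca 1 z0| ≤ (200 * len K L m) * (d * sc η d) ∧
      |d * v.2 - cb 1 z0| ≤ 1000 * (d * sc η d) := by
  obtain ⟨h1, h2, h3⟩ := mem_S2 hv
  obtain ⟨p1, p2⟩ := a_1 (hK := hK) (hL := hL) (m := m) (η := η) (z0 := z0) hd
  obtain ⟨q1, q2⟩ := a_2 (hK := hK) (hL := hL) (m := m) (η := η) (z0 := z0) hd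
  have hge := sc_ge (η := η) hd
  have hlen : (1 : ℝ) ≤ len K L m := by exact_mod_cast len_pos K L m
  have hs0 : (1 : ℝ) ≤ sc η d := by exact_mod_cast sc_pos η d
  have hs1 : d ≤ d * sc η d := by nlinarith
  have hs2 : d * sc η d ≤ len K L m * (d * sc η d) := by
    have : 0 ≤ d * (sc η d : ℝ) := by positivity
    nlinarith
  rw [abs_le] at h1
  obtain ⟨h1a, h1b⟩ := h1
  have r1 : (((-(128 * (len K L m * sc η d : ℤ) + 2) : ℤ)) : ℝ) ≤
      ((v.1 - (gp hK hL m η d z0).a.1 : ℤ) : ℝ) := by exact_mod_cast h1a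
  have r2 : ((v.1 - (gp hK hL m η d z0).a.1 : ℤ) : ℝ) ≤
      (((128 * (len K L m * sc η d : ℤ) + 2) : ℤ) : ℝ) := by exact_mod_cast h1b
  have r3 : (((128 * (sc η d : ℤ) : ℤ)) : ℝ) ≤
      ((v.2 - (gp hK hL m η d z0).a.2 : ℤ) : ℝ) := by exact_mod_cast h2
  have r4 : ((v.2 - (gp hK hL m η d z0).a.2 : ℤ) : ℝ) ≤ ((640 * (sc η d : ℤ) : ℤ) : ℝ) := by
    exact_mod_cast h3
  push_cast at r1 r2 r3 r4
  have m1 := mul_le_mul_of_nonneg_left r1 hd.le
  have m2 := mul_le_mul_of_nonneg_left r2 hd.le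
  have m3 := mul_le_mul_of_nonneg_left r3 hd.le
  have m4 := mul_le_mul_of_nonneg_left r4 hd.le
  refine ⟨?_, ?_, ?_⟩
  · nlinarith
  · rw [abs_le]
    constructor <;> nlinarith
  · rw [abs_le]
    constructor <;> nlinarith

/-- the strip is in the disc of radius `(400 + 64 per m) η` around `z0` -/
theorem SL_disc (hη : 0 < η) (hd : 0 < d) (hsm : 1024 * d ≤ η) {v : P2}
    (hv : v ∈ VF (gp hK hL m η d z0).SL) :
    ‖centre d v - z0‖ < (500 + 64 * ((2 * K + 3) + (2 * L + 1) * (2 * K + 1)) * m) * η := by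
  obtain ⟨h1, h2⟩ := mem_VF_SL hv
  obtain ⟨p1, p2⟩ := a_1 (hK := hK) (hL := hL) (m := m) (η := η) (z0 := z0) hd
  obtain ⟨q1, q2⟩ := a_2 (hK := hK) (hL := hL) (m := m) (η := η) (z0 := z0) hd
  have hle := sc_le hη hd hsm
  have hs0 : (1 : ℝ) ≤ sc η d := by exact_mod_cast sc_pos η d
  have hs1 : d ≤ d * sc η d := by nlinarith
  rw [abs_le] at h1 h2
  obtain ⟨h1a, h1b⟩ := h1
  obtain ⟨h2a, h2b⟩ := h2
  have r1 : (((-(128 * (len K L m * sc η d : ℤ) + 2) : ℤ)) : ℝ) ≤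
      ((v.1 - (gp hK hL m η d z0).a.1 : ℤ) : ℝ) := by exact_mod_cast h1a
  have r2 : ((v.1 - (gp hK hL m η d z0).a.1 : ℤ) : ℝ) ≤
      (((128 * (len K L m * sc η d : ℤ) + 2) : ℤ) : ℝ) := by exact_mod_cast h1b
  have r3 : (((-(640 * (sc η d : ℤ)) : ℤ)) : ℝ) ≤
      ((v.2 - (gp hK hL m η d z0).a.2 : ℤ) : ℝ) := by exact_mod_cast h2a
  have r4 : ((v.2 - (gp hK hL m η d z0).a.2 : ℤ) : ℝ) ≤ ((640 * (sc η d : ℤ) : ℤ) : ℝ) := by
    exact_mod_cast h2b
  push_cast at r1 r2 r3 r4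
  have m1 := mul_le_mul_of_nonneg_left r1 hd.le
  have m2 := mul_le_mul_of_nonneg_left r2 hd.le
  have m3 := mul_le_mul_of_nonneg_left r3 hd.le
  have m4 := mul_le_mul_of_nonneg_left r4 hd.le
  have hlen : (len K L m : ℝ) = 1 + m * ((2 * K + 3) + (2 * L + 1) * (2 * K + 1)) := by
    unfold len
    push_cast
    ring
  have hlen0 : (0 : ℝ) ≤ len K L m := by positivity
  have e1 : len K L m * (d * sc η d) ≤ len K L m * (η / 2) :=
    mul_le_mul_of_nonneg_left (by linarith) hlen0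
  refine lt_of_le_of_lt (norm_le_cab _ _) ?_
  rw [ca1_centre, cb1_centre]
  have b1 : |d * (v.1 : ℝ) - ca 1 z0| ≤ 128 * (len K L m * (d * sc η d)) + 3 * (d * sc η d) := by
    rw [abs_le]
    constructor <;> nlinarith
  have b2 : |d * (v.2 : ℝ) - cb 1 z0| ≤ 705 * (d * sc η d) := by
    rw [abs_le]
    constructor <;> nlinarith
  have e2 : (500 + 64 * ((2 * (K : ℝ) + 3) + (2 * L + 1) * (2 * K + 1)) * m) * η =
      128 * (len K L m * (η / 2)) + 436 * η := by
    rw [hlen]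
    ring
  rw [e2]
  linarith

end

end Crest.Agent.R144.Cd169
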