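import Crest.Agent.R144.Con4_549

-- ▼ part R144/Con5_549
section

/-!
# R144, continuum side, part 5 (helper549)

Energy of the Dirichlet potential in the disc; the flow `J₀` on `D`; `L²` bound for the gradient of the
logarithmic potential.
-/

set_option autoImplicit false

open MeasureTheory Metric Set Filter Topology Laplacian InnerProductSpace
open scoped ComplexConjugate ContDiff

namespace Crest.Agent.R144.Con549

open Crest.Agent.R161.Green722
open Crest.ProbabilityR.HexHeights (domainGreenForm)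

noncomputable section

theorem lap_const_zero (c : ℝ) (z : ℂ) : (Δ (fun _ : ℂ => c)) z = 0 := by
  have : (Δ (fun _ : ℂ => c)) = fun _ => 0 := laplacian_const
  rw [this]

theorem energy_Ue {g : ℂ → ℝ} (hg : IsTest (ball (0 : ℂ) 1) g) :
    IntegrableOn (fun z => ‖fderiv ℝ (Ue 1 g) z‖ ^ 2) (ball (0 : ℂ) 1) ∧
      ∫ z in ball (0 : ℂ) 1, ‖fderiv ℝ (Ue 1 g) z‖ ^ 2 ≤ Gf 1 g g := by
  obtain ⟨r, hr, hr1, hT⟩ := isTest_Tst hg
  obtain ⟨L, hL0, hL1, hL2⟩ := exists_lip one_pos hr hr1 hT hg.smooth hg.comp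
  obtain ⟨M, hM0, hM1, hM2⟩ := smoothTransition_bdd
  have hsm : ∀ z ∈ Dm 1 r, ContDiffAt ℝ ∞ (Ue 1 g) z := fun z hz =>
    contDiffAt_Ue hr hT hg.smooth hg.comp hz
  have hsub : closedBall (0 : ℂ) 1 ⊆ Dm 1 r := fun w hw =>
    mem_Dm one_pos hr hr1 (mem_closedBall_zero_iff.1 hw)
  have hcont : ContinuousOn (fun z => ‖fderiv ℝ (Ue 1 g) z‖ ^ 2) (Dm 1 r) := fun z hz =>
    ((((hsm z hz).fderiv_right (m := ∞) (by simp)).continuousAt.norm).pow 2).continuousWithinAt
  have hint : IntegrableOn (fun z => ‖fderiv ℝ (Ue 1 g) z‖ ^ 2) (closedBall (0 : ℂ) 1) :=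
    (hcont.mono hsub).integrableOn_compact (isCompact_closedBall _ _)
  have hint1 : IntegrableOn (fun z => ‖fderiv ℝ (Ue 1 g) z‖ ^ 2) (ball (0 : ℂ) 1) :=
    hint.mono_set ball_subset_closedBall
  refine ⟨hint1, ?_⟩
  set E := ∫ z in ball (0 : ℂ) 1, ‖fderiv ℝ (Ue 1 g) z‖ ^ 2 with hE
  -- it is enough to have an error `C η`
  obtain ⟨C, hC0, hC⟩ : ∃ C : ℝ, 0 ≤ C ∧ ∀ η : ℝ, 0 < η → η < (1 - r) / 2 → η < 1 / 3 →
      E ≤ Gf 1 g g + C * η := by
    refine ⟨24 * M * L ^ 2 * Real.pi + 4 * L ^ 2 * Real.pi, by positivity, fun η hη hη1 hη2 => ?_⟩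
    set a := 1 - 2 * η with ha
    set b := 1 - η with hb
    have ha0 : 0 < a := by rw [ha]; linarith
    have hra : r < a := by rw [ha]; linarith
    have hab : a < b := by rw [ha, hb]; linarith
    have hb1 : b < 1 := by rw [hb]; linarith
    have hb0 : 0 < b := ha0.trans hab
    have hab2 : η * 1 ≤ b ^ 2 - a ^ 2 := by
      rw [ha, hb]
      have : (1 - η) ^ 2 - (1 - 2 * η) ^ 2 = η * (2 * 1 - 3 * η) := by ring
      rw [this]
      exact mul_le_mul_of_nonneg_left (by linarith) hη.le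
    have hab3 : b ^ 2 - a ^ 2 ≤ 2 * 1 * η := by
      rw [ha, hb]
      have : (1 - η) ^ 2 - (1 - 2 * η) ^ 2 = η * (2 * 1 - 3 * η) := by ring
      rw [this]
      nlinarith
    have hinv : (b ^ 2 - a ^ 2)⁻¹ ≤ (η * 1)⁻¹ := inv_anti₀ (by positivity) hab2
    have hpos : 0 < b ^ 2 - a ^ 2 := lt_of_lt_of_le (by positivity) hab2
    have hk1 : (b ^ 2 - a ^ 2)⁻¹ * (2 * b) ≤ 2 / η := by
      calc (b ^ 2 - a ^ 2)⁻¹ * (2 * b) ≤ (η * 1)⁻¹ * (2 * 1) := by gcongr
        _ = 2 / η := by field_simp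
    have hk0 : 0 ≤ (b ^ 2 - a ^ 2)⁻¹ * (2 * b) := by positivity
    have hk2 : 4 * (b ^ 2 - a ^ 2)⁻¹ ≤ 2 / η ^ 2 := by
      calc 4 * (b ^ 2 - a ^ 2)⁻¹ ≤ 4 * (η * 1)⁻¹ := by gcongr
        _ ≤ 4 * (η * (3 * η))⁻¹ := by
            gcongr
            linarith
        _ ≤ 2 / η ^ 2 := by
            rw [← div_eq_mul_inv, div_le_div_iff₀ (by positivity) (by positivity)]
            nlinarith [sq_nonneg η]
    have hχ : IsTest (Dm 1 r) (chi a b) := by
      have hz : ∀ w, w ∉ closedBall (0 : ℂ) b → chi a b w = 0 := fun w hw => by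
        rw [mem_closedBall_zero_iff, not_le] at hw
        exact chi_zero ha0.le hab hw.le
      refine ⟨contDiff_chi a b, HasCompactSupport.intro (isCompact_closedBall (0 : ℂ) b) hz, ?_⟩
      refine (closure_minimal (fun w hw => ?_) (isClosed_closedBall (x := (0 : ℂ)) (ε := b))).trans
        ((closedBall_subset_closedBall hb1.le).trans hsub)
      by_contra h
      exact hw (hz w h)
    have hcc := cacc (isOpen_Dm 1 r) hsm hχ
    -- Laplacian of the cutoff
    have hl0 : ∀ w, w ∉ closedBall (0 : ℂ) b \ ball 0 a → (Δ (chi a b)) w = 0 := by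
      intro w hw
      rw [Set.mem_sdiff, mem_closedBall_zero_iff, mem_ball_zero_iff, not_and_or, not_le, not_lt,
        not_le] at hw
      rcases hw with hw | hw
      · have : chi a b =ᶠ[𝓝 w] fun _ => (0 : ℝ) := by
          filter_upwards [(isOpen_lt continuous_const continuous_norm).mem_nhds hw] with y hy
          exact chi_zero ha0.le hab (le_of_lt hy)
        rw [(laplacian_congr_nhds this).eq_of_nhds, lap_const_zero]
      · have : chi a b =ᶠ[𝓝 w] fun _ => (1 : ℝ) := by
          filter_upwards [(isOpen_lt continuous_norm continuous_const).mem_nhds hw] with y hy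
          exact chi_one ha0.le hab (le_of_lt hy)
        rw [(laplacian_congr_nhds this).eq_of_nhds, lap_const_zero]
    have hl1 : ∀ w ∈ closedBall (0 : ℂ) b \ ball 0 a, |Ue 1 g w ^ 2 * (Δ (chi a b)) w| ≤
        24 * M * L ^ 2 := by
      intro w hw
      obtain ⟨h1, h2⟩ := hw
      rw [mem_closedBall_zero_iff] at h1
      rw [mem_ball_zero_iff, not_lt] at h2
      obtain ⟨_, c2⟩ := chi_bounds hM0 hM1 hM2 ha0.le hab h1
      have d2 : |(Δ (chi a b)) w| ≤ M * (6 / η ^ 2) := by
        refine c2.trans ?_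
        have e1 : ((b ^ 2 - a ^ 2)⁻¹ * (2 * b)) ^ 2 ≤ (2 / η) ^ 2 := pow_le_pow_left₀ hk0 hk1 2
        calc M * ((b ^ 2 - a ^ 2)⁻¹ * (2 * b)) ^ 2 + M * (4 * (b ^ 2 - a ^ 2)⁻¹)
            ≤ M * (2 / η) ^ 2 + M * (2 / η ^ 2) := by gcongr
          _ = M * (6 / η ^ 2) := by ring
      have d3 : |Ue 1 g w| ≤ L * (2 * η) := by
        refine (hL2 w (h1.trans hb1.le)).trans (mul_le_mul_of_nonneg_left ?_ hL0)
        rw [ha] at h2
        linarith
      rw [abs_mul, abs_pow]
      calc |Ue 1 g w| ^ 2 * |(Δ (chi a b)) w| ≤ (L * (2 * η)) ^ 2 * (M * (6 / η ^ 2)) := by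
            gcongr
        _ = 24 * M * L ^ 2 := by field_simp; ring
    have hvol : (volume : Measure ℂ).real (closedBall 0 b \ ball 0 a) ≤ Real.pi * (2 * η) := by
      rw [volume_annulus ha0.le hab.le]
      have := Real.pi_pos
      nlinarith
    have hfin : (volume : Measure ℂ) (closedBall 0 b \ ball 0 a) < ⊤ :=
      (measure_mono sdiff_subset).trans_lt (isCompact_closedBall (0 : ℂ) b).measure_lt_top
    have hb1' : |∫ z, Ue 1 g z ^ 2 * (Δ (chi a b)) z| ≤ 24 * M * L ^ 2 * (Real.pi * (2 * η)) := by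
      have e1 : ∫ z, Ue 1 g z ^ 2 * (Δ (chi a b)) z =
          ∫ z in closedBall (0 : ℂ) b \ ball 0 a, Ue 1 g z ^ 2 * (Δ (chi a b)) z := by
        rw [setIntegral_eq_integral_of_forall_compl_eq_zero]
        intro z hz
        rw [hl0 z hz, mul_zero]
      rw [e1]
      have e2 := norm_setIntegral_le_of_norm_le_const (μ := (volume : Measure ℂ))
        (f := fun w => Ue 1 g w ^ 2 * (Δ (chi a b)) w) (C := 24 * M * L ^ 2) hfin
        (fun w hw => by rw [Real.norm_eq_abs]; exact hl1 w hw)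
      rw [Real.norm_eq_abs] at e2
      refine e2.trans ?_
      gcongr
    -- the source term
    have hsrc : ∫ z, chi a b z * (Ue 1 g z * (Δ (Ue 1 g)) z) = -Gf 1 g g := by
      rw [Gf_eq_U, ← integral_neg]
      congr 1
      funext z
      by_cases hz : z ∈ closedBall (0 : ℂ) 1
      · rw [lap_Ue hr hT hg.smooth hg.comp (hsub hz),
          U_eq_Ue one_pos hr hr1 hT (mem_closedBall_zero_iff.1 hz)]
        by_cases hz2 : r < ‖z‖
        · rw [hT.supp z hz2]; ring
        · rw [chi_one ha0.le hab ((not_lt.1 hz2).trans hra.le)]; ring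
      · rw [mem_closedBall_zero_iff, not_le] at hz
        rw [chi_zero ha0.le hab (hb1.trans hz).le, hT.supp z (hr1.trans hz)]; ring
    rw [hsrc] at hcc
    -- comparison
    have hχint : Integrable fun z => chi a b z * ‖fderiv ℝ (Ue 1 g) z‖ ^ 2 := by
      have h1 : IntegrableOn (fun z => chi a b z * ‖fderiv ℝ (Ue 1 g) z‖ ^ 2)
          (closedBall (0 : ℂ) 1) :=
        (((contDiff_chi a b).continuous.continuousOn).mul (hcont.mono hsub)).integrableOn_compact
          (isCompact_closedBall _ _)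
      refine h1.integrable_of_forall_notMem_eq_zero fun z hz => ?_
      rw [mem_closedBall_zero_iff, not_le] at hz
      rw [chi_zero ha0.le hab (hb1.trans hz).le, zero_mul]
    have hvol2 : (volume : Measure ℂ).real (closedBall 0 1 \ ball 0 a) ≤ Real.pi * (4 * η) := by
      rw [volume_annulus ha0.le (hab.le.trans hb1.le)]
      have h3 : (1 : ℝ) ^ 2 - a ^ 2 ≤ 4 * η := by rw [ha]; nlinarith [sq_nonneg η]
      have := Real.pi_pos
      nlinarith
    have hfin2 : (volume : Measure ℂ) (closedBall 0 1 \ ball 0 a) < ⊤ :=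
      (measure_mono sdiff_subset).trans_lt (isCompact_closedBall (0 : ℂ) 1).measure_lt_top
    have hE1 : E ≤ (∫ z, chi a b z * ‖fderiv ℝ (Ue 1 g) z‖ ^ 2) +
        L ^ 2 * (volume : Measure ℂ).real (closedBall 0 1 \ ball 0 a) := by
      have e1 : L ^ 2 * (volume : Measure ℂ).real (closedBall 0 1 \ ball 0 a) =
          ∫ z, (closedBall (0 : ℂ) 1 \ ball 0 a).indicator (fun _ => L ^ 2) z := by
        rw [integral_indicator (isClosed_closedBall.measurableSet.diff isOpen_ball.measurableSet),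
          setIntegral_const, smul_eq_mul, mul_comm]
      rw [e1, ← integral_add hχint ((integrable_indicator_iff
        (isClosed_closedBall.measurableSet.diff isOpen_ball.measurableSet)).2
        (integrableOn_const hfin2.ne)), hE, ← integral_indicator isOpen_ball.measurableSet]
      refine integral_mono ((integrable_indicator_iff isOpen_ball.measurableSet).2 hint1)
        (hχint.add ((integrable_indicator_iff
        (isClosed_closedBall.measurableSet.diff isOpen_ball.measurableSet)).2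
        (integrableOn_const hfin2.ne))) fun z => ?_
      simp only
      have hχ0 := (chi_mem a b z).1
      by_cases hz : z ∈ ball (0 : ℂ) 1
      · rw [indicator_of_mem hz]
        by_cases hza : z ∈ ball (0 : ℂ) a
        · rw [chi_one ha0.le hab (mem_ball_zero_iff.1 hza).le, one_mul]
          exact le_add_of_nonneg_right (indicator_nonneg (fun _ _ => by positivity) _)
        · rw [indicator_of_mem (show z ∈ closedBall (0 : ℂ) 1 \ ball 0 a from
            ⟨ball_subset_closedBall hz, hza⟩)]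
          have h5 := hL1 z (mem_ball_zero_iff.1 hz).le
          have h6 : ‖fderiv ℝ (Ue 1 g) z‖ ^ 2 ≤ L ^ 2 := pow_le_pow_left₀ (norm_nonneg _) h5 2
          have h7 : 0 ≤ chi a b z * ‖fderiv ℝ (Ue 1 g) z‖ ^ 2 := by positivity
          linarith
      · rw [indicator_of_notMem hz]
        have h7 : 0 ≤ chi a b z * ‖fderiv ℝ (Ue 1 g) z‖ ^ 2 := by positivity
        have h8 : (0 : ℝ) ≤ (closedBall (0 : ℂ) 1 \ ball 0 a).indicator (fun _ => L ^ 2) z :=
          indicator_nonneg (fun _ _ => by positivity) _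
        linarith
    have h9 := (abs_le.1 hb1').2
    have h10 : L ^ 2 * (volume : Measure ℂ).real (closedBall 0 1 \ ball 0 a) ≤
        L ^ 2 * (Real.pi * (4 * η)) := by gcongr
    nlinarith
  by_contra hcon
  rw [not_le] at hcon
  have hpos : 0 < E - Gf 1 g g := by linarith
  set η := min (min ((1 - r) / 4) (1 / 4)) ((E - Gf 1 g g) / (2 * (C + 1))) with hη
  have hη0 : 0 < η := lt_min (lt_min (by linarith) (by norm_num)) (by positivity)
  have hη1 : η < (1 - r) / 2 :=
    ((min_le_left _ _).trans (min_le_left _ _)).trans_lt (by linarith)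
  have hη2 : η < 1 / 3 := ((min_le_left _ _).trans (min_le_right _ _)).trans_lt (by norm_num)
  have hη3 : η ≤ (E - Gf 1 g g) / (2 * (C + 1)) := min_le_right _ _
  have h1 := hC η hη0 hη1 hη2
  have h2 : C * η ≤ (E - Gf 1 g g) / 2 := by
    calc C * η ≤ (C + 1) * ((E - Gf 1 g g) / (2 * (C + 1))) := by
          gcongr
          linarith
      _ = (E - Gf 1 g g) / 2 := by field_simp
  linarith

/-- a smooth flow on `D` with divergence `r` and energy at most the Green energy of `r` -/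
theorem exists_J0 {D : Set ℂ} {φ ψ : ℂ → ℂ} (B : Bih D (ball 0 1) φ ψ) {f : ℂ → ℝ}
    (hf : IsTest D f) : ∃ J : ℂ → ℂ, (∀ z ∈ D, ContDiffAt ℝ ∞ J z) ∧ (∀ z ∈ D, dv J z = f z) ∧
      IntegrableOn (fun z => ‖J z‖ ^ 2) D ∧ ∫ z in D, ‖J z‖ ^ 2 ≤ domainGreenForm φ f := by
  have hg := isTest_td B.symm hf
  set g := td (ball 0 1) ψ f with hgdef
  obtain ⟨r, hr, hr1, hT⟩ := isTest_Tst hg
  obtain ⟨hi, he⟩ := energy_Ue hg
  have hmem : ∀ z ∈ D, φ z ∈ Dm 1 r := fun z hz =>
    mem_Dm one_pos hr hr1 (mem_ball_zero_iff.1 (B.mh z hz)).le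
  have hUs : ∀ z ∈ D, ContDiffAt ℝ ∞ (Ue 1 g) (φ z) := fun z hz =>
    contDiffAt_Ue hr hT hg.smooth hg.comp (hmem z hz)
  have hus : ∀ z ∈ D, ContDiffAt ℝ ∞ (fun w => Ue 1 g (φ w)) z := fun z hz =>
    (hUs z hz).comp z (contDiffAt_h B hz)
  refine ⟨fun z => -gr (fun w => Ue 1 g (φ w)) z, fun z hz => (contDiffAt_gr (hus z hz)).neg,
    fun z hz => ?_, ?_, ?_⟩
  · rw [dv_neg, dv_gr (hus z hz), lap_comp_holo ((hUs z hz).of_le (by norm_cast)) (B.anAt hz),
      lap_Ue hr hT hg.smooth hg.comp (hmem z hz)]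
    have h1 : td D φ g z = f z := by rw [hgdef, td_td B hf]
    rw [td_mem hz] at h1
    rw [← h1]
    ring
  · have h1 : ∀ z ∈ D, ‖-gr (fun w => Ue 1 g (φ w)) z‖ ^ 2 =
        ‖fderiv ℝ (Ue 1 g) (φ z)‖ ^ 2 * ‖deriv φ z‖ ^ 2 := fun z hz => by
      rw [norm_neg, norm_gr, norm_fderiv_comp_holo ((hUs z hz).differentiableAt (by simp))
        (B.dhAt hz), mul_pow]
    refine IntegrableOn.congr_fun ?_ (fun z hz => (h1 z hz).symm) B.oU.measurableSet
    have h2 := (integrableOn_image_iff_integrableOn_abs_det_fderiv_smul (volume : Measure ℂ)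
      B.oU.measurableSet (f := φ)
      (f' := fun z => (ContinuousLinearMap.toSpanSingleton ℂ (deriv φ z)).restrictScalars ℝ)
      (fun z hz => ((B.dhAt hz).hasDerivAt.hasFDerivAt.restrictScalars ℝ).hasFDerivWithinAt)
      B.injOn (fun w => ‖fderiv ℝ (Ue 1 g) w‖ ^ 2)).1 (by rw [B.image]; exact hi)
    refine h2.congr_fun (fun z _ => ?_) B.oU.measurableSet
    simp only [det_mul, smul_eq_mul, abs_of_nonneg (sq_nonneg ‖deriv φ z‖)]
    ring
  · have h1 : ∀ z ∈ D, ‖-gr (fun w => Ue 1 g (φ w)) z‖ ^ 2 =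
        ‖fderiv ℝ (Ue 1 g) (φ z)‖ ^ 2 * ‖deriv φ z‖ ^ 2 := fun z hz => by
      rw [norm_neg, norm_gr, norm_fderiv_comp_holo ((hUs z hz).differentiableAt (by simp))
        (B.dhAt hz), mul_pow]
    rw [setIntegral_congr_fun B.oU.measurableSet h1,
      B.integral_comp (fun w => ‖fderiv ℝ (Ue 1 g) w‖ ^ 2), ← DG_self, DG_eq B hf hf]
    exact he

end

end Crest.Agent.R144.Con549
end

-- ▼ part R144/Con6_549

/-!
# R144, continuum side, part 6 (helper549)

`L²` bound for the gradient of the logarithmic potential on discs.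
-/

set_option autoImplicit false

open MeasureTheory Metric Set Filter Topology Laplacian InnerProductSpace
open scoped ComplexConjugate ContDiff

namespace Crest.Agent.R144.Con549

open Crest.Agent.R161.Green722

noncomputable section

/-- Cauchy–Schwarz for integrals -/
theorem integral_cs {α : Type*} [MeasurableSpace α] {μ : Measure α} {a b : α → ℝ}
    (ha : Integrable (fun x => a x ^ 2) μ) (hb : Integrable (fun x => b x ^ 2) μ)
    (hab : Integrable (fun x => a x * b x) μ) :
    (∫ x, a x * b x ∂μ) ^ 2 ≤ (∫ x, a x ^ 2 ∂μ) * ∫ x, b x ^ 2 ∂μ := by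
  have h : ∀ t : ℝ, 0 ≤ (∫ x, b x ^ 2 ∂μ) * (t * t) + 2 * (∫ x, a x * b x ∂μ) * t +
      ∫ x, a x ^ 2 ∂μ := by
    intro t
    have h1 : 0 ≤ ∫ x, (a x + t * b x) ^ 2 ∂μ := integral_nonneg fun x => sq_nonneg _
    have h2 : ∫ x, (a x + t * b x) ^ 2 ∂μ = ∫ x, (a x ^ 2 + (2 * t) * (a x * b x)) +
        (t * t) * b x ^ 2 ∂μ := by
      congr 1
      funext x
      ring
    have h3 : Integrable (fun x => a x ^ 2 + (2 * t) * (a x * b x)) μ := ha.add (hab.const_mul _)
    rw [h2, integral_add h3 (hb.const_mul _),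
      integral_add ha (hab.const_mul _), integral_const_mul, integral_const_mul] at h1
    linarith
  have h2 := discrim_le_zero h
  unfold discrim at h2
  nlinarith


theorem isTest_sq_integrable {U : Set ℂ} {f : ℂ → ℝ} (hf : IsTest U f) :
    Integrable fun z => f z ^ 2 := by
  have := integrable_mul hf hf.smooth.continuous
  refine this.congr (Eventually.of_forall fun z => ?_)
  simp only
  ring




end

end Crest.Agent.R144.Con549
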