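import Mathlib
import Crest.Agent.R144.Con6_549
import Crest.Prelude.Def_TriHeights

-- ▼ part R144/Push_938
section

set_option autoImplicit false

open Set Filter Topology Metric
open scoped ContDiff Manifold

namespace Crest.Agent.R144.Push938

noncomputable section

/-- the planar cross product. -/
def cr (a b : ℂ) : ℝ := a.re * b.im - a.im * b.re

lemma cr_self (a : ℂ) : cr a a = 0 := by unfold cr; ring
lemma cr_I (a : ℂ) : cr a (Complex.I * a) = ‖a‖ ^ 2 := by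
  rw [← Complex.normSq_eq_norm_sq, Complex.normSq_apply]
  unfold cr; simp
lemma cr_add (a b c : ℂ) : cr a (b + c) = cr a b + cr a c := by unfold cr; simp; ring
lemma cr_smul (a b : ℂ) (t : ℝ) : cr a (t • b) = t * cr a b := by unfold cr; simp; ring
lemma cr_neg (a b : ℂ) : cr a (-b) = - cr a b := by unfold cr; simp; ring

lemma continuous_cr : Continuous (fun p : ℂ × ℂ => cr p.1 p.2) := by
  unfold cr; fun_prop

lemma abs_cr_le (a b : ℂ) : |cr a b| ≤ 2 * (‖a‖ * ‖b‖) := by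
  unfold cr
  have h1 := Complex.abs_re_le_norm a
  have h2 := Complex.abs_im_le_norm a
  have h3 := Complex.abs_re_le_norm b
  have h4 := Complex.abs_im_le_norm b
  calc |a.re * b.im - a.im * b.re| ≤ |a.re * b.im| + |a.im * b.re| := abs_sub _ _
    _ = |a.re| * |b.im| + |a.im| * |b.re| := by rw [abs_mul, abs_mul]
    _ ≤ ‖a‖ * ‖b‖ + ‖a‖ * ‖b‖ := by gcongr
    _ = _ := by ring

/-- `D` bounded, open, connected, with boundary a simple closed regular `C¹` curve. -/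
structure Jor (D : Set ℂ) (γ : ℝ → ℂ) : Prop where
  op : IsOpen D
  bd : Bornology.IsBounded D
  conn : IsConnected D
  c1 : ContDiff ℝ 1 γ
  per : Function.Periodic γ (2 * Real.pi)
  reg : ∀ s : ℝ, deriv γ s ≠ 0
  inj : InjOn γ (Ico 0 (2 * Real.pi))
  rng : range γ = frontier D

variable {D : Set ℂ} {γ : ℝ → ℂ}

namespace Jor

lemma pos2pi : (0 : ℝ) < 2 * Real.pi := by positivity

lemma per' (h : Jor D γ) : Function.Periodic (deriv γ) (2 * Real.pi) := by
  intro s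
  have : (fun t => γ (t + 2 * Real.pi)) = γ := funext h.per
  rw [← deriv_comp_add_const, this]

lemma exists_red (h : Jor D γ) (s : ℝ) :
    ∃ s' ∈ Ico 0 (2 * Real.pi), γ s = γ s' ∧ deriv γ s = deriv γ s' := by
  refine ⟨toIcoMod pos2pi 0 s, ?_, ?_, ?_⟩
  · simpa using toIcoMod_mem_Ico pos2pi 0 s
  · rw [toIcoMod]; exact (h.per.sub_zsmul_eq _).symm
  · rw [toIcoMod]; exact (h.per'.sub_zsmul_eq _).symm

lemma deriv_eq (h : Jor D γ) {s t : ℝ} (e : γ s = γ t) : deriv γ s = deriv γ t := by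
  obtain ⟨s', hs', e1, e2⟩ := h.exists_red s
  obtain ⟨t', ht', e3, e4⟩ := h.exists_red t
  have : s' = t' := h.inj hs' ht' (by rw [← e1, ← e3, e])
  rw [e2, e4, this]

lemma cont (h : Jor D γ) : Continuous γ := h.c1.continuous
lemma cont' (h : Jor D γ) : Continuous (deriv γ) := h.c1.continuous_deriv le_rfl

lemma rng_compact (h : Jor D γ) : IsCompact (range γ) := by
  have : range γ = γ '' Icc 0 (2 * Real.pi) := by
    apply Subset.antisymm
    · rintro _ ⟨s, rfl⟩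
      obtain ⟨s', hs', e1, -⟩ := h.exists_red s
      exact ⟨s', Ico_subset_Icc_self hs', e1.symm⟩
    · exact image_subset_range _ _
  rw [this]
  exact isCompact_Icc.image h.cont

/-- tangents at nearby points of the curve are close. -/
lemma near (h : Jor D γ) (s₀ : ℝ) {U : Set ℂ} (hU : IsOpen U) (h0 : deriv γ s₀ ∈ U) :
    ∀ᶠ z in 𝓝 (γ s₀), ∀ s, γ s = z → deriv γ s ∈ U := by
  let K : Set ℝ := Icc 0 (2 * Real.pi) ∩ (deriv γ) ⁻¹' Uᶜ
  have hK : IsCompact K := isCompact_Icc.inter_right (hU.isClosed_compl.preimage h.cont')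
  have hc : IsClosed (γ '' K) := (hK.image h.cont).isClosed
  have hn : γ s₀ ∉ γ '' K := by
    rintro ⟨s, ⟨-, hs⟩, e⟩
    exact hs (by rw [h.deriv_eq e]; exact h0)
  filter_upwards [hc.isOpen_compl.mem_nhds hn] with z hz s hs
  by_contra hcon
  obtain ⟨s', hs', e1, e2⟩ := h.exists_red s
  exact hz ⟨s', ⟨Ico_subset_Icc_self hs', by simpa [← e2] using hcon⟩, by rw [← e1, hs]⟩

/-- a smooth, compactly supported field transversal to the curve. -/
lemma exists_field (h : Jor D γ) : ∃ X : ℂ → ℂ, ContDiff ℝ ∞ X ∧ HasCompactSupport X ∧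
    ∀ s, 0 < cr (deriv γ s) (X (γ s)) := by
  obtain ⟨R, hR⟩ : ∃ R : ℝ, range γ ⊆ ball 0 R := h.rng_compact.isBounded.subset_ball 0
  let t : ℂ → Set ℂ := fun z => {v | (∀ s, γ s = z → 0 < cr (deriv γ s) v) ∧
    (z ∉ closedBall 0 (R + 1) → v = 0)}
  have ht : ∀ z, Convex ℝ (t z) := by
    intro z v hv w hw a b ha hb hab
    refine ⟨fun s hs => ?_, fun hz => ?_⟩
    · rw [cr_add, cr_smul, cr_smul]
      have h1 := hv.1 s hs
      have h2 := hw.1 s hs
      rcases ha.eq_or_lt with rfl | ha'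
      · have : b = 1 := by linarith
        subst this; simpa using h2
      · have := mul_pos ha' h1
        have := mul_nonneg hb h2.le
        linarith
    · rw [hv.2 hz, hw.2 hz]; simp
  have hl : ∀ z : ℂ, ∃ c : ℂ, ∀ᶠ y in 𝓝 z, c ∈ t y := by
    intro z
    by_cases hz : z ∈ range γ
    · obtain ⟨s₀, rfl⟩ := hz
      refine ⟨Complex.I * deriv γ s₀, ?_⟩
      have hU : IsOpen {w : ℂ | 0 < cr w (Complex.I * deriv γ s₀)} :=
        isOpen_lt continuous_const (continuous_cr.comp (by fun_prop : Continuous fun w : ℂ =>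
          (w, Complex.I * deriv γ s₀)))
      have h0 : deriv γ s₀ ∈ {w : ℂ | 0 < cr w (Complex.I * deriv γ s₀)} := by
        show 0 < cr (deriv γ s₀) (Complex.I * deriv γ s₀)
        rw [cr_I]; exact pow_pos (norm_pos_iff.2 (h.reg s₀)) 2
      have hb : ball (0 : ℂ) R ∈ 𝓝 (γ s₀) := isOpen_ball.mem_nhds (hR ⟨s₀, rfl⟩)
      filter_upwards [h.near s₀ hU h0, hb] with y hy hyb
      refine ⟨fun s hs => hy s hs, fun hn => (hn ?_).elim⟩
      rw [mem_ball] at hyb; rw [mem_closedBall]; linarith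
    · refine ⟨0, ?_⟩
      filter_upwards [h.rng_compact.isClosed.isOpen_compl.mem_nhds hz] with y hy
      exact ⟨fun s hs => (hy ⟨s, hs⟩).elim, fun _ => rfl⟩
  obtain ⟨g, hg⟩ := exists_contMDiffMap_forall_mem_convex_of_local_const (n := (⊤ : ℕ∞))
    (𝓘(ℝ, ℂ)) (t := t) ht hl
  refine ⟨g, g.contMDiff.contDiff, ?_, fun s => (hg (γ s)).1 s rfl⟩
  refine HasCompactSupport.intro (isCompact_closedBall (0 : ℂ) (R + 1)) fun z hz => (hg z).2 hz

/-- local form of transversality. -/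
lemma displaced_loc (h : Jor D γ) {X : ℂ → ℂ} (hX : Continuous X)
    (hp : ∀ s, 0 < cr (deriv γ s) (X (γ s))) (a : ℝ) :
    ∀ᶠ p : ℝ × ℝ in 𝓝 (a, a), ∀ t : ℝ, t ≠ 0 → γ p.1 + t • X (γ p.1) ≠ γ p.2 := by
  set v := deriv γ a with hv
  have hvp : 0 < ‖v‖ := norm_pos_iff.2 (h.reg a)
  set m := cr v (X (γ a)) / 2 with hm
  have hmp : 0 < m := by have := hp a; rw [hm]; positivity
  set M := ‖X (γ a)‖ + 1 with hM
  have hMp : 0 < M := by positivity
  obtain ⟨c, hc, hc2⟩ : ∃ c : ℝ, 0 < c ∧ c * (2 * ‖v‖ * M / m + 1) < ‖v‖ := by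
    refine ⟨‖v‖ / (2 * (2 * ‖v‖ * M / m + 1)), by positivity, ?_⟩
    rw [div_mul_eq_mul_div, div_lt_iff₀ (by positivity)]
    have : 0 < 2 * ‖v‖ * M / m + 1 := by positivity
    nlinarith [mul_pos hvp this]
  have hs : HasStrictDerivAt γ v a := h.c1.contDiffAt.hasStrictDerivAt one_ne_zero
  have e1 : ∀ᶠ p : ℝ × ℝ in 𝓝 (a, a), ‖γ p.1 - γ p.2 - (p.1 - p.2) • v‖ ≤ c * ‖p.1 - p.2‖ := by
    have := (hasStrictFDerivAt_iff_isLittleO.1 hs.hasStrictFDerivAt).def hc
    filter_upwards [this] with p hp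
    simpa using hp
  have e2 : ∀ᶠ p : ℝ × ℝ in 𝓝 (a, a), m < cr v (X (γ p.1)) := by
    have hcn : Continuous fun p : ℝ × ℝ => cr v (X (γ p.1)) :=
      continuous_cr.comp (continuous_const.prodMk (hX.comp (h.cont.comp continuous_fst)))
    refine (hcn.tendsto (a, a)).eventually_const_lt ?_
    have := hp a
    rw [hm]; simp only; linarith
  have e3 : ∀ᶠ p : ℝ × ℝ in 𝓝 (a, a), ‖X (γ p.1)‖ < M := by
    have hcn : Continuous fun p : ℝ × ℝ => ‖X (γ p.1)‖ :=
      (hX.comp (h.cont.comp continuous_fst)).norm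
    refine (hcn.tendsto (a, a)).eventually_lt_const ?_
    rw [hM]; simp
  filter_upwards [e1, e2, e3] with p h1 h2 h3 t ht he
  have hd : γ p.1 - γ p.2 = -(t • X (γ p.1)) := by rw [← he]; simp
  have h4 : |t| * m ≤ 2 * ‖v‖ * (c * ‖p.1 - p.2‖) := by
    have h5 : cr v (γ p.1 - γ p.2 - (p.1 - p.2) • v) = -(t * cr v (X (γ p.1))) := by
      rw [sub_eq_add_neg, cr_add, hd, cr_neg, cr_smul, cr_neg, cr_smul, cr_self]; ring
    have h6 := abs_cr_le v (γ p.1 - γ p.2 - (p.1 - p.2) • v)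
    rw [h5, abs_neg, abs_mul] at h6
    have h7 : |t| * m ≤ |t| * |cr v (X (γ p.1))| :=
      mul_le_mul_of_nonneg_left (h2.le.trans (le_abs_self _)) (abs_nonneg _)
    calc |t| * m ≤ _ := h7
      _ ≤ _ := h6
      _ ≤ _ := by
        have := mul_le_mul_of_nonneg_left h1 (norm_nonneg v)
        linarith
  have h8 : ‖p.1 - p.2‖ * ‖v‖ ≤ |t| * M + c * ‖p.1 - p.2‖ := by
    have : (p.1 - p.2) • v = (γ p.1 - γ p.2) - (γ p.1 - γ p.2 - (p.1 - p.2) • v) := by
      simp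
    have h9 : ‖(p.1 - p.2) • v‖ ≤ ‖γ p.1 - γ p.2‖ + ‖γ p.1 - γ p.2 - (p.1 - p.2) • v‖ := by
      calc ‖(p.1 - p.2) • v‖ = ‖(γ p.1 - γ p.2) - (γ p.1 - γ p.2 - (p.1 - p.2) • v)‖ := by
            rw [← this]
        _ ≤ _ := norm_sub_le _ _
    rw [norm_smul, hd, norm_neg, norm_smul, Real.norm_eq_abs t] at h9
    rw [hd] at h1
    have := mul_le_mul_of_nonneg_left h3.le (abs_nonneg t)
    linarith
  have hxy : 0 < ‖p.1 - p.2‖ := by
    rw [norm_pos_iff]
    intro h0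
    have : p.1 = p.2 := sub_eq_zero.1 h0
    rw [this, sub_self] at hd
    have h10 : t • X (γ p.2) = 0 := by
      have := hd.symm; simpa using this
    rcases smul_eq_zero.1 h10 with h11 | h11
    · exact ht h11
    · have := hp p.2
      rw [h11] at this; unfold cr at this; simp at this
  have h12 : |t| ≤ 2 * ‖v‖ * (c * ‖p.1 - p.2‖) / m := by
    rw [le_div_iff₀ hmp]; exact h4
  have h13 : ‖p.1 - p.2‖ * ‖v‖ ≤ ‖p.1 - p.2‖ * (c * (2 * ‖v‖ * M / m + 1)) := by
    calc ‖p.1 - p.2‖ * ‖v‖ ≤ |t| * M + c * ‖p.1 - p.2‖ := h8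
      _ ≤ 2 * ‖v‖ * (c * ‖p.1 - p.2‖) / m * M + c * ‖p.1 - p.2‖ := by gcongr
      _ = _ := by ring
  have h14 := le_of_mul_le_mul_left h13 hxy
  linarith

/-- transversality: the displaced curve does not meet the curve. -/
lemma displaced (h : Jor D γ) {X : ℂ → ℂ} (hX : Continuous X)
    (hp : ∀ s, 0 < cr (deriv γ s) (X (γ s))) :
    ∃ t₀ > 0, ∀ s t : ℝ, t ≠ 0 → |t| < t₀ → γ s + t • X (γ s) ∉ range γ := by
  by_contra hcon
  push Not at hcon
  have hk : ∀ k : ℕ, ∃ p ∈ Icc (0 : ℝ) (2 * Real.pi) ×ˢ Icc (0 : ℝ) (2 * Real.pi), ∃ t : ℝ,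
      t ≠ 0 ∧ |t| < 1 / ((k : ℝ) + 1) ∧ γ p.1 + t • X (γ p.1) = γ p.2 := by
    intro k
    obtain ⟨s, t, ht0, ht, r, hr⟩ := hcon (1 / ((k : ℝ) + 1)) (by positivity)
    obtain ⟨s', hs', e1, -⟩ := h.exists_red s
    obtain ⟨r', hr', e2, -⟩ := h.exists_red r
    refine ⟨(s', r'), ⟨Ico_subset_Icc_self hs', Ico_subset_Icc_self hr'⟩, t, ht0, ht, ?_⟩
    simp only
    rw [← e1, ← e2, hr]
  choose p hp' t ht0 htk hpt using hk
  obtain ⟨⟨a, b⟩, -, φ, hφ, hlim⟩ := (isCompact_Icc.prod isCompact_Icc).tendsto_subseq hp'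
  have ha : Tendsto (fun k => (p (φ k)).1) atTop (𝓝 a) := (continuous_fst.tendsto _).comp hlim
  have hb : Tendsto (fun k => (p (φ k)).2) atTop (𝓝 b) := (continuous_snd.tendsto _).comp hlim
  have htz : Tendsto (fun k => t (φ k)) atTop (𝓝 0) := by
    have h0 : Tendsto t atTop (𝓝 0) := by
      refine squeeze_zero_norm (fun k => ?_) tendsto_one_div_add_atTop_nhds_zero_nat
      exact (htk k).le
    exact h0.comp hφ.tendsto_atTop
  have hab : γ a = γ b := by
    have h1 : Tendsto (fun k => γ (p (φ k)).1 + t (φ k) • X (γ (p (φ k)).1)) atTop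
        (𝓝 (γ a + (0 : ℝ) • X (γ a))) :=
      ((h.cont.tendsto _).comp ha).add (htz.smul (((hX.comp h.cont).tendsto _).comp ha))
    have h2 : Tendsto (fun k => γ (p (φ k)).2) atTop (𝓝 (γ b)) := (h.cont.tendsto _).comp hb
    have h3 : (fun k => γ (p (φ k)).1 + t (φ k) • X (γ (p (φ k)).1)) =
        fun k => γ (p (φ k)).2 := funext fun k => hpt _
    rw [h3] at h1
    have := tendsto_nhds_unique h1 h2
    simpa using this
  obtain ⟨n, hn⟩ : ∃ n : ℤ, b = a + n • (2 * Real.pi) := by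
    have e1 : toIcoMod pos2pi 0 a = toIcoMod pos2pi 0 b := by
      refine h.inj (by simpa using toIcoMod_mem_Ico pos2pi 0 a)
        (by simpa using toIcoMod_mem_Ico pos2pi 0 b) ?_
      rw [toIcoMod, toIcoMod, h.per.sub_zsmul_eq, h.per.sub_zsmul_eq, hab]
    refine ⟨toIcoDiv pos2pi 0 b - toIcoDiv pos2pi 0 a, ?_⟩
    rw [toIcoMod, toIcoMod] at e1
    rw [sub_smul]
    linarith
  have hb' : Tendsto (fun k => (p (φ k)).2 - n • (2 * Real.pi)) atTop (𝓝 a) := by
    have := hb.sub_const (n • (2 * Real.pi))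
    rwa [hn, add_sub_cancel_right] at this
  have hpair : Tendsto (fun k => ((p (φ k)).1, (p (φ k)).2 - n • (2 * Real.pi))) atTop
      (𝓝 (a, a)) := ha.prodMk_nhds hb'
  obtain ⟨k, hk⟩ := (hpair.eventually (h.displaced_loc hX hp a)).exists
  refine hk (t (φ k)) (ht0 _) ?_
  simp only
  rw [hpt, h.per.sub_zsmul_eq]

/-- the tube map is a local homeomorphism at the curve. -/
lemma tube_nhds (h : Jor D γ) {X : ℂ → ℂ} (hX : ContDiff ℝ ∞ X)
    (hp : ∀ s, 0 < cr (deriv γ s) (X (γ s))) (s : ℝ) :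
    map (fun p : ℝ × ℝ => γ p.1 + p.2 • X (γ p.1)) (𝓝 (s, 0)) = 𝓝 (γ s) := by
  set Φ : ℝ × ℝ → ℂ := fun p => γ p.1 + p.2 • X (γ p.1) with hΦ
  have hc : ContDiff ℝ 1 Φ := by
    have h1 : ContDiff ℝ 1 fun p : ℝ × ℝ => γ p.1 := h.c1.comp contDiff_fst
    have hX1 : ContDiff ℝ 1 X := hX.of_le (by exact_mod_cast le_top)
    exact h1.add (contDiff_snd.smul (hX1.comp h1))
  have hs : HasStrictFDerivAt Φ (fderiv ℝ Φ (s, 0)) (s, 0) :=
    hc.contDiffAt.hasStrictFDerivAt one_ne_zero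
  have d1 : fderiv ℝ Φ (s, 0) (1, 0) = deriv γ s := by
    have hl : HasDerivAt (fun τ : ℝ => ((τ, 0) : ℝ × ℝ)) (1, 0) s :=
      (hasDerivAt_id s).prodMk (hasDerivAt_const s 0)
    have := hs.hasFDerivAt.comp_hasDerivAt s hl
    have h2 : HasDerivAt γ (deriv γ s) s :=
      (h.c1.differentiable one_ne_zero s).hasDerivAt
    have e : Φ ∘ (fun τ : ℝ => ((τ, 0) : ℝ × ℝ)) = γ := by
      funext τ; simp [hΦ]
    rw [e] at this
    exact this.unique h2
  have d2 : fderiv ℝ Φ (s, 0) (0, 1) = X (γ s) := by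
    have hl : HasDerivAt (fun τ : ℝ => ((s, τ) : ℝ × ℝ)) (0, 1) 0 :=
      (hasDerivAt_const (0 : ℝ) s).prodMk (hasDerivAt_id 0)
    have := hs.hasFDerivAt.comp_hasDerivAt 0 hl
    have h2 : HasDerivAt (Φ ∘ (fun τ : ℝ => ((s, τ) : ℝ × ℝ))) (X (γ s)) 0 := by
      have e : Φ ∘ (fun τ : ℝ => ((s, τ) : ℝ × ℝ)) = fun τ : ℝ => γ s + τ • X (γ s) := by
        funext τ; simp [hΦ]
      rw [e]
      have h3 := ((hasDerivAt_id (0 : ℝ)).smul_const (X (γ s))).const_add (γ s)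
      simpa using h3
    exact this.unique h2
  have hr : (fderiv ℝ Φ (s, 0)).range = ⊤ := by
    rw [LinearMap.range_eq_top]
    intro w
    set c := cr (deriv γ s) (X (γ s)) with hcd
    have hc0 : c ≠ 0 := (hp s).ne'
    refine ⟨(cr w (X (γ s)) / c, cr (deriv γ s) w / c), ?_⟩
    have e : ((cr w (X (γ s)) / c, cr (deriv γ s) w / c) : ℝ × ℝ) =
        (cr w (X (γ s)) / c) • ((1, 0) : ℝ × ℝ) + (cr (deriv γ s) w / c) • ((0, 1) : ℝ × ℝ) := by
      simp
    show fderiv ℝ Φ (s, 0) _ = w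
    rw [e, map_add, map_smul, map_smul, d1, d2]
    apply Complex.ext
    · simp only [Complex.add_re, Complex.real_smul, Complex.re_ofReal_mul]
      rw [div_mul_eq_mul_div, div_mul_eq_mul_div, ← add_div, div_eq_iff hc0, hcd]
      unfold cr; ring
    · simp only [Complex.add_im, Complex.real_smul, Complex.im_ofReal_mul]
      rw [div_mul_eq_mul_div, div_mul_eq_mul_div, ← add_div, div_eq_iff hc0, hcd]
      unfold cr; ring
  have := hs.map_nhds_eq_of_surj hr
  rw [this]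
  simp [hΦ]

/-- the field pushes the curve outside on one side and inside on the other side. -/
lemma exists_outward (h : Jor D γ) : ∃ X : ℂ → ℂ, ContDiff ℝ ∞ X ∧ HasCompactSupport X ∧
    (∀ s, cr (deriv γ s) (X (γ s)) ≠ 0) ∧
    ∃ t₀ > 0, (∀ s t : ℝ, 0 < t → t < t₀ → γ s + t • X (γ s) ∉ closure D) ∧
      (∀ s t : ℝ, 0 < t → t < t₀ → γ s - t • X (γ s) ∈ D) := by
  obtain ⟨X, hX, hXc, hp⟩ := h.exists_field
  obtain ⟨t₀, ht₀, hd⟩ := h.displaced hX.continuous hp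
  set Φ : ℝ × ℝ → ℂ := fun p => γ p.1 + p.2 • X (γ p.1) with hΦ
  have hΦc : Continuous Φ :=
    (h.cont.comp continuous_fst).add (continuous_snd.smul
      (hX.continuous.comp (h.cont.comp continuous_fst)))
  have hopen : ∀ s, Φ '' (univ ×ˢ Ioo (-t₀) t₀) ∈ 𝓝 (γ s) := by
    intro s
    rw [← h.tube_nhds hX hp s]
    refine image_mem_map (prod_mem_nhds univ_mem (Ioo_mem_nhds (by linarith) ht₀))
  have hfr : frontier D = closure D \ D := by rw [frontier, h.op.interior_eq]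
  have key : ∀ A : Set ℝ, IsPreconnected A → (∀ t ∈ A, t ≠ 0 ∧ |t| < t₀) →
      Φ '' (univ ×ˢ A) ⊆ D ∨ Φ '' (univ ×ˢ A) ⊆ (closure D)ᶜ := by
    intro A hA hAt
    have hpc : IsPreconnected (Φ '' (univ ×ˢ A)) :=
      (isPreconnected_univ.prod hA).image _ hΦc.continuousOn
    refine hpc.subset_or_subset h.op isClosed_closure.isOpen_compl
      (disjoint_compl_right.mono_left subset_closure) ?_
    rintro _ ⟨⟨s, t⟩, ⟨-, ht⟩, rfl⟩
    have h1 := hd s t (hAt t ht).1 (hAt t ht).2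
    rw [h.rng, hfr] at h1
    by_cases h2 : Φ (s, t) ∈ closure D
    · left
      by_contra h3
      exact h1 ⟨h2, h3⟩
    · exact Or.inr h2
  have kp := key (Ioo 0 t₀) isPreconnected_Ioo fun t ht =>
    ⟨ht.1.ne', by rw [abs_of_pos ht.1]; exact ht.2⟩
  have km := key (Ioo (-t₀) 0) isPreconnected_Ioo fun t ht =>
    ⟨ht.2.ne, by rw [abs_of_neg ht.2]; linarith [ht.1]⟩
  have hsplit : ∀ s : ℝ, ∀ᶠ z in 𝓝 (γ s), z ∈ Φ '' (univ ×ˢ Ioo 0 t₀) ∨
      z ∈ Φ '' (univ ×ˢ Ioo (-t₀) 0) ∨ z ∈ range γ := by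
    intro s
    filter_upwards [hopen s] with z hz
    obtain ⟨⟨a, t⟩, ⟨-, ht⟩, rfl⟩ := hz
    rcases lt_trichotomy t 0 with h1 | h1 | h1
    · exact Or.inr (Or.inl ⟨(a, t), ⟨mem_univ _, ht.1, h1⟩, rfl⟩)
    · subst h1
      exact Or.inr (Or.inr ⟨a, by simp [hΦ]⟩)
    · exact Or.inl ⟨(a, t), ⟨mem_univ _, h1, ht.2⟩, rfl⟩
  have hγcl : ∀ s, γ s ∈ closure D := fun s => by
    have : γ s ∈ frontier D := h.rng ▸ ⟨s, rfl⟩
    exact frontier_subset_closure this
  have hγn : ∀ s, γ s ∉ D := fun s hs => by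
    have : γ s ∈ frontier D := h.rng ▸ ⟨s, rfl⟩
    rw [hfr] at this
    exact this.2 hs
  rcases kp with kp | kp <;> rcases km with km | km
  · -- both sides in D: D ∪ range γ is clopen
    exfalso
    have hcl : IsOpen (closure D) := by
      rw [isOpen_iff_mem_nhds]
      intro z hz
      by_cases hzD : z ∈ D
      · exact mem_of_superset (h.op.mem_nhds hzD) subset_closure
      · have : z ∈ range γ := by rw [h.rng, hfr]; exact ⟨hz, hzD⟩
        obtain ⟨s, rfl⟩ := this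
        filter_upwards [hsplit s] with w hw
        rcases hw with hw | hw | ⟨a, rfl⟩
        · exact subset_closure (kp hw)
        · exact subset_closure (km hw)
        · exact hγcl a
    have huniv : closure D = univ :=
      IsClopen.eq_univ ⟨isClosed_closure, hcl⟩ h.conn.nonempty.closure
    have hb := h.bd.closure
    rw [huniv] at hb
    exact NormedSpace.unbounded_univ ℝ ℂ hb
  · -- plus side in D: replace X by -X
    refine ⟨-X, hX.neg, hXc.neg, fun s => ?_, t₀, ht₀, fun s t h1 h2 => ?_, fun s t h1 h2 => ?_⟩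
    · simp only [Pi.neg_apply]; rw [cr_neg]; exact (neg_neg_of_pos (hp s)).ne
    · have := km ⟨(s, -t), ⟨mem_univ _, by linarith, by linarith⟩, rfl⟩
      simpa [hΦ] using this
    · have := kp ⟨(s, t), ⟨mem_univ _, h1, h2⟩, rfl⟩
      simpa [hΦ] using this
  · refine ⟨X, hX, hXc, fun s => (hp s).ne', t₀, ht₀, fun s t h1 h2 => ?_, fun s t h1 h2 => ?_⟩
    · have := kp ⟨(s, t), ⟨mem_univ _, h1, h2⟩, rfl⟩
      simpa [hΦ] using this
    · have := km ⟨(s, -t), ⟨mem_univ _, by linarith, by linarith⟩, rfl⟩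
      simpa [hΦ, sub_eq_add_neg] using this
  · -- both sides outside
    exfalso
    have hs0 := hγcl 0
    obtain ⟨z, hz, hzD⟩ := mem_closure_iff_nhds.1 hs0 _ (hsplit 0)
    rcases hz with hz | hz | ⟨a, rfl⟩
    · exact kp hz (subset_closure hzD)
    · exact km hz (subset_closure hzD)
    · exact hγn a hzD

/-- PUSH: a diffeomorphism of the plane, as close to the identity as one likes, which maps `D` onto
a neighbourhood of its closure. -/
theorem exists_push (h : Jor D γ) {ε : ℝ} (hε : 0 < ε) : ∃ Ψ : ℂ ≃ₜ ℂ,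
    ContDiff ℝ ∞ (Ψ : ℂ → ℂ) ∧ ContDiff ℝ ∞ (Ψ.symm : ℂ → ℂ) ∧
    HasCompactSupport (fun z => Ψ z - z) ∧ (∀ z, ‖Ψ z - z‖ ≤ ε) ∧
    (∀ z, ‖fderiv ℝ (Ψ : ℂ → ℂ) z - ContinuousLinearMap.id ℝ ℂ‖ ≤ ε) ∧
    closure D ⊆ Ψ '' D := by
  obtain ⟨X, hX, hXc, -, t₀, ht₀, hout, -⟩ := h.exists_outward
  obtain ⟨B, hB⟩ : ∃ B, ∀ z, ‖X z‖ ≤ B := hXc.exists_bound_of_continuous hX.continuous
  have hXd : Differentiable ℝ X := hX.differentiable (by simp)
  obtain ⟨L, hL⟩ : ∃ L, ∀ z, ‖fderiv ℝ X z‖ ≤ L :=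
    (hXc.fderiv (𝕜 := ℝ)).exists_bound_of_continuous (hX.continuous_fderiv (by simp))
  have hB0 : 0 ≤ B := (norm_nonneg _).trans (hB 0)
  have hL0 : 0 ≤ L := (norm_nonneg _).trans (hL 0)
  obtain ⟨z₀, hz₀⟩ := h.conn.nonempty
  obtain ⟨r, hr, hball⟩ := Metric.isOpen_iff.1 h.op z₀ hz₀
  -- choice of the time
  obtain ⟨t, ht, htt, h1, h2, h3, h4⟩ : ∃ t : ℝ, 0 < t ∧ t < t₀ ∧ t * B ≤ ε ∧ t * L ≤ ε ∧
      t * L ≤ 1 / 2 ∧ t * B < r := by
    refine ⟨min (t₀ / 2) (min (ε / (B + 1)) (min (ε / (L + 1)) (min (1 / (2 * (L + 1)))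
      (r / (2 * (B + 1)))))), by positivity, ?_, ?_, ?_, ?_, ?_⟩
    · exact (min_le_left _ _).trans_lt (by linarith)
    · have : min (t₀ / 2) (min (ε / (B + 1)) (min (ε / (L + 1)) (min (1 / (2 * (L + 1)))
        (r / (2 * (B + 1)))))) ≤ ε / (B + 1) := (min_le_right _ _).trans (min_le_left _ _)
      calc _ ≤ ε / (B + 1) * B := by gcongr
        _ ≤ ε := by rw [div_mul_eq_mul_div, div_le_iff₀ (by positivity)]; nlinarith
    · have : min (t₀ / 2) (min (ε / (B + 1)) (min (ε / (L + 1)) (min (1 / (2 * (L + 1)))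
        (r / (2 * (B + 1)))))) ≤ ε / (L + 1) :=
        (min_le_right _ _).trans ((min_le_right _ _).trans (min_le_left _ _))
      calc _ ≤ ε / (L + 1) * L := by gcongr
        _ ≤ ε := by rw [div_mul_eq_mul_div, div_le_iff₀ (by positivity)]; nlinarith
    · have : min (t₀ / 2) (min (ε / (B + 1)) (min (ε / (L + 1)) (min (1 / (2 * (L + 1)))
        (r / (2 * (B + 1)))))) ≤ 1 / (2 * (L + 1)) :=
        (min_le_right _ _).trans ((min_le_right _ _).trans ((min_le_right _ _).trans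
          (min_le_left _ _)))
      calc _ ≤ 1 / (2 * (L + 1)) * L := by gcongr
        _ ≤ 1 / 2 := by rw [div_mul_eq_mul_div, div_le_iff₀ (by positivity)]; nlinarith
    · have : min (t₀ / 2) (min (ε / (B + 1)) (min (ε / (L + 1)) (min (1 / (2 * (L + 1)))
        (r / (2 * (B + 1)))))) ≤ r / (2 * (B + 1)) :=
        (min_le_right _ _).trans ((min_le_right _ _).trans ((min_le_right _ _).trans
          (min_le_right _ _)))
      calc _ ≤ r / (2 * (B + 1)) * B := by gcongr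
        _ < r := by rw [div_mul_eq_mul_div, div_lt_iff₀ (by positivity)]; nlinarith
  set F : ℂ → ℂ := fun z => z + t • X z with hF
  have hFs : ContDiff ℝ ∞ F := contDiff_id.add (hX.const_smul t)
  have hFd : ∀ z, HasFDerivAt F (ContinuousLinearMap.id ℝ ℂ + t • fderiv ℝ X z) z := fun z =>
    (hasFDerivAt_id z).add ((hXd z).hasFDerivAt.const_smul t)
  have hlip : LipschitzWith (Real.toNNReal L) X := by
    refine lipschitzWith_of_nnnorm_fderiv_le hXd fun z => ?_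
    rw [← NNReal.coe_le_coe, coe_nnnorm, Real.coe_toNNReal _ hL0]
    exact hL z
  have hcpos : 0 ≤ t * L := mul_nonneg ht.le hL0
  have hap : ApproximatesLinearOn F ((ContinuousLinearEquiv.refl ℝ ℂ : ℂ ≃L[ℝ] ℂ) : ℂ →L[ℝ] ℂ) univ
      (Real.toNNReal (t * L)) := by
    intro x _ y _
    have e : F x - F y - ((ContinuousLinearEquiv.refl ℝ ℂ : ℂ ≃L[ℝ] ℂ) : ℂ →L[ℝ] ℂ) (x - y) =
        t • (X x - X y) := by
      simp [hF, smul_sub]; ring
    rw [e, norm_smul, Real.norm_of_nonneg ht.le, Real.coe_toNNReal _ hcpos, mul_assoc]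
    have := hlip.dist_le_mul x y
    rw [dist_eq_norm, dist_eq_norm, Real.coe_toNNReal _ hL0] at this
    gcongr
  have hc : Subsingleton ℂ ∨ Real.toNNReal (t * L) <
      ‖(((ContinuousLinearEquiv.refl ℝ ℂ : ℂ ≃L[ℝ] ℂ).symm : ℂ ≃L[ℝ] ℂ) : ℂ →L[ℝ] ℂ)‖₊⁻¹ := by
    right
    have e : ‖(((ContinuousLinearEquiv.refl ℝ ℂ : ℂ ≃L[ℝ] ℂ).symm : ℂ ≃L[ℝ] ℂ) : ℂ →L[ℝ] ℂ)‖₊ = 1 := by
      have : (((ContinuousLinearEquiv.refl ℝ ℂ : ℂ ≃L[ℝ] ℂ).symm : ℂ ≃L[ℝ] ℂ) : ℂ →L[ℝ] ℂ) =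
          ContinuousLinearMap.id ℝ ℂ := rfl
      rw [this]
      ext
      simp
    rw [e, inv_one, ← NNReal.coe_lt_coe, Real.coe_toNNReal _ hcpos]
    simp only [NNReal.coe_one]
    linarith
  set Ψ : ℂ ≃ₜ ℂ := hap.toHomeomorph F hc with hΨ
  have hΨF : (Ψ : ℂ → ℂ) = F := rfl
  have hder : ∀ z, ‖t • fderiv ℝ X z‖ ≤ t * L := fun z => by
    rw [norm_smul, Real.norm_of_nonneg ht.le]; gcongr; exact hL z
  have hinv : ContDiff ℝ ∞ (Ψ.symm : ℂ → ℂ) := by
    have hlt : ∀ z, ‖-(t • fderiv ℝ X z)‖ < 1 := fun z => by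
      rw [norm_neg]; exact (hder z).trans_lt (by linarith)
    refine Ψ.contDiff_symm (f₀' := fun z => ContinuousLinearEquiv.unitsEquiv ℝ ℂ
      (Units.oneSub (-(t • fderiv ℝ X z)) (hlt z))) (fun z => ?_) hFs
    have : ((ContinuousLinearEquiv.unitsEquiv ℝ ℂ (Units.oneSub (-(t • fderiv ℝ X z)) (hlt z)) :
        ℂ ≃L[ℝ] ℂ) : ℂ →L[ℝ] ℂ) = ContinuousLinearMap.id ℝ ℂ + t • fderiv ℝ X z := by
      ext w <;> simp
    rw [this]
    exact hFd z
  refine ⟨Ψ, hFs, hinv, ?_, fun z => ?_, fun z => ?_, ?_⟩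
  · have : (fun z => Ψ z - z) = fun z => t • X z := by
      funext z; rw [hΨF]; simp [hF]
    rw [this]
    exact hXc.smul_left (f := fun _ => t)
  · rw [hΨF]
    have : F z - z = t • X z := by simp [hF]
    rw [this, norm_smul, Real.norm_of_nonneg ht.le]
    exact (mul_le_mul_of_nonneg_left (hB z) ht.le).trans h1
  · rw [hΨF, (hFd z).fderiv, add_sub_cancel_left]
    exact (hder z).trans h2
  · have hV : IsOpen (Ψ '' D) := Ψ.isOpenMap _ h.op
    have hfrV : frontier (Ψ '' D) = Ψ '' frontier D := (Ψ.image_frontier D).symm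
    have hcov : closure D ⊆ Ψ '' D ∪ (closure (Ψ '' D))ᶜ := by
      intro x hx
      by_cases h5 : x ∈ closure (Ψ '' D)
      · left
        by_contra h6
        have h7 : x ∈ frontier (Ψ '' D) := by
          rw [frontier, hV.interior_eq]; exact ⟨h5, h6⟩
        rw [hfrV, ← h.rng] at h7
        obtain ⟨_, ⟨s, rfl⟩, rfl⟩ := h7
        exact hout s t ht htt hx
      · exact Or.inr h5
    rcases h.conn.isPreconnected.closure.subset_or_subset hV isClosed_closure.isOpen_compl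
      (disjoint_compl_right.mono_left subset_closure) hcov with h5 | h5
    · exact h5
    · exfalso
      refine h5 (subset_closure hz₀) (subset_closure ⟨Ψ.symm z₀, ?_, Ψ.apply_symm_apply z₀⟩)
      apply hball
      rw [mem_ball, dist_comm, dist_eq_norm]
      have : z₀ - Ψ.symm z₀ = t • X (Ψ.symm z₀) := by
        have e : F (Ψ.symm z₀) = z₀ := Ψ.apply_symm_apply z₀
        rw [sub_eq_iff_eq_add, add_comm]
        exact e.symm
      rw [this, norm_smul, Real.norm_of_nonneg ht.le]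
      exact (mul_le_mul_of_nonneg_left (hB _) ht.le).trans_lt h4

end Jor

end

end Crest.Agent.R144.Push938
end

-- ▼ part R144/ConP_938
section

/-!
# R144, continuum side: flows on a neighbourhood of the closure, sharp constant (helper938)
-/

set_option autoImplicit false

open MeasureTheory Metric Set Filter Topology Laplacian InnerProductSpace
open scoped ComplexConjugate ContDiff

namespace Crest.Agent.R144.ConP938

open Crest.Agent.R144.Con549 Crest.Agent.R144.Push938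
open Crest.ProbabilityR.HexHeights (domainGreenForm)

noncomputable section

/-! ### divergence in coordinates -/

theorem hasFDerivAt_mk {p q : ℂ → ℝ} {P Q : ℂ →L[ℝ] ℝ} {z : ℂ} (hp : HasFDerivAt p P z)
    (hq : HasFDerivAt q Q z) :
    HasFDerivAt (fun w => (⟨p w, q w⟩ : ℂ)) (P.smulRight (1 : ℂ) + Q.smulRight Complex.I) z := by
  have h := (hp.smul_const (1 : ℂ)).add (hq.smul_const Complex.I)
  refine h.congr_of_eventuallyEq (Eventually.of_forall fun w => ?_)
  apply Complex.ext <;> simp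

theorem dv_mk {p q : ℂ → ℝ} {P Q : ℂ →L[ℝ] ℝ} {z : ℂ} (hp : HasFDerivAt p P z)
    (hq : HasFDerivAt q Q z) : dv (fun w => (⟨p w, q w⟩ : ℂ)) z = P 1 + Q Complex.I := by
  unfold dv
  rw [(hasFDerivAt_mk hp hq).fderiv]
  simp

theorem hasFDerivAt_cr {a b : ℂ → ℂ} {A B : ℂ →L[ℝ] ℂ} {z : ℂ} (ha : HasFDerivAt a A z)
    (hb : HasFDerivAt b B z) : ∃ L : ℂ →L[ℝ] ℝ, HasFDerivAt (fun w => cr (a w) (b w)) L z ∧
      ∀ v, L v = cr (A v) (b z) + cr (a z) (B v) := by
  have har := Complex.reCLM.hasFDerivAt.comp z ha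
  have hai := Complex.imCLM.hasFDerivAt.comp z ha
  have hbr := Complex.reCLM.hasFDerivAt.comp z hb
  have hbi := Complex.imCLM.hasFDerivAt.comp z hb
  have h := (har.mul hbi).sub (hai.mul hbr)
  refine ⟨_, h, fun v => ?_⟩
  simp [cr]
  ring

/-! ### Piola transform -/

/-- pull back of the 1-form `cr J ·` by `Θ`. -/
def pio (Θ J : ℂ → ℂ) (z : ℂ) : ℂ :=
  ⟨cr (J (Θ z)) (fderiv ℝ Θ z Complex.I), -cr (J (Θ z)) (fderiv ℝ Θ z 1)⟩

theorem cr_trace (L : ℂ →L[ℝ] ℂ) (a b : ℂ) :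
    cr (L a) b + cr a (L b) = ((L 1).re + (L Complex.I).im) * cr a b := by
  have h : ∀ v : ℂ, L v = v.re • L 1 + v.im • L Complex.I := fun v => by
    have : v = v.re • (1 : ℂ) + v.im • Complex.I := by
      apply Complex.ext <;> simp
    conv_lhs => rw [this]
    rw [map_add, map_smul, map_smul]
  rw [h a, h b]
  unfold cr
  simp
  ring

theorem dv_pio {Θ J : ℂ → ℂ} {z : ℂ} (hΘ : ContDiffAt ℝ ∞ Θ z)
    (hJ : DifferentiableAt ℝ J (Θ z)) :
    dv (pio Θ J) z = dv J (Θ z) * cr (fderiv ℝ Θ z 1) (fderiv ℝ Θ z Complex.I) := by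
  have hΘd : HasFDerivAt Θ (fderiv ℝ Θ z) z := (hΘ.differentiableAt (by simp)).hasFDerivAt
  have ha : HasFDerivAt (fun w => J (Θ w)) ((fderiv ℝ J (Θ z)).comp (fderiv ℝ Θ z)) z :=
    hJ.hasFDerivAt.comp z hΘd
  have hfd : DifferentiableAt ℝ (fderiv ℝ Θ) z :=
    (hΘ.fderiv_right (m := ∞) (by simp)).differentiableAt (by simp)
  have hb : ∀ e : ℂ, HasFDerivAt (fun w => fderiv ℝ Θ w e)
      ((fderiv ℝ (fderiv ℝ Θ) z).flip e) z := by
    intro e
    have := hfd.hasFDerivAt.clm_apply (hasFDerivAt_const e z)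
    simpa using this
  obtain ⟨L1, hL1, hL1v⟩ := hasFDerivAt_cr ha (hb Complex.I)
  obtain ⟨L2, hL2, hL2v⟩ := hasFDerivAt_cr ha (hb 1)
  have hsym : fderiv ℝ (fderiv ℝ Θ) z 1 Complex.I = fderiv ℝ (fderiv ℝ Θ) z Complex.I 1 := by
    have : IsSymmSndFDerivAt ℝ Θ z := (hΘ.of_le (by norm_cast : (2 : WithTop ℕ∞) ≤ ∞)).isSymmSndFDerivAt (by simp)
    exact this 1 Complex.I
  have this : dv (pio Θ J) z = L1 1 + (-L2) Complex.I := dv_mk hL1 hL2.neg
  rw [this]
  simp only [ContinuousLinearMap.neg_apply, hL1v, hL2v, ContinuousLinearMap.coe_comp',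
    Function.comp_apply, ContinuousLinearMap.flip_apply]
  rw [hsym]
  have ht := cr_trace (fderiv ℝ J (Θ z)) (fderiv ℝ Θ z 1) (fderiv ℝ Θ z Complex.I)
  unfold dv
  rw [← ht]
  unfold cr
  ring

theorem contDiffAt_pio {Θ J : ℂ → ℂ} {z : ℂ} (hΘ : ContDiffAt ℝ ∞ Θ z)
    (hJ : ContDiffAt ℝ ∞ J (Θ z)) : ContDiffAt ℝ ∞ (pio Θ J) z := by
  have hc : ContDiffAt ℝ ∞ (fun w => J (Θ w)) z := hJ.comp z hΘ
  have hb : ∀ e : ℂ, ContDiffAt ℝ ∞ (fun w => fderiv ℝ Θ w e) z := fun e =>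
    (hΘ.fderiv_right (m := ∞) (by simp)).clm_apply contDiffAt_const
  have hcr : ∀ e : ℂ, ContDiffAt ℝ ∞ (fun w => cr (J (Θ w)) (fderiv ℝ Θ w e)) z := fun e => by
    unfold cr
    have r1 := Complex.reCLM.contDiff.contDiffAt.comp z hc
    have i1 := Complex.imCLM.contDiff.contDiffAt.comp z hc
    have r2 := Complex.reCLM.contDiff.contDiffAt.comp z (hb e)
    have i2 := Complex.imCLM.contDiff.contDiffAt.comp z (hb e)
    exact (r1.mul i2).sub (i1.mul r2)
  have h := ((hcr Complex.I).smul (contDiffAt_const (c := (1 : ℂ)))).add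
    (((hcr 1).neg).smul (contDiffAt_const (c := Complex.I)))
  refine h.congr_of_eventuallyEq (Eventually.of_forall fun w => ?_)
  apply Complex.ext <;> simp [pio]

/-! ### determinants -/

theorem cr_eq_det (L : ℂ →L[ℝ] ℂ) : cr (L 1) (L Complex.I) = L.det := by
  rw [ContinuousLinearMap.det, ← LinearMap.det_toMatrix Complex.basisOneI, Matrix.det_fin_two]
  simp [LinearMap.toMatrix_apply, Complex.coe_basisOneI_repr, cr]
  ring

theorem abs_cr_sub_one_le {δ : ℝ} (hδ : 0 ≤ δ) (hδ1 : δ ≤ 1) {L : ℂ →L[ℝ] ℂ}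
    (h : ‖L - ContinuousLinearMap.id ℝ ℂ‖ ≤ δ) :
    |cr (L 1) (L Complex.I) - 1| ≤ 6 * δ := by
  have h1 : ‖L 1 - 1‖ ≤ δ := by
    have := (L - ContinuousLinearMap.id ℝ ℂ).le_opNorm 1
    simp at this
    exact this.trans h
  have h2 : ‖L Complex.I - Complex.I‖ ≤ δ := by
    have := (L - ContinuousLinearMap.id ℝ ℂ).le_opNorm Complex.I
    simp at this
    exact this.trans h
  have e : cr (L 1) (L Complex.I) - 1 = (L 1 - 1).re + (L Complex.I - Complex.I).im +
      cr (L 1 - 1) (L Complex.I - Complex.I) := by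
    unfold cr; simp; ring
  rw [e]
  have h3 := Complex.abs_re_le_norm (L 1 - 1)
  have h4 := Complex.abs_im_le_norm (L Complex.I - Complex.I)
  have h5 := abs_cr_le (L 1 - 1) (L Complex.I - Complex.I)
  have h6 : ‖L 1 - 1‖ * ‖L Complex.I - Complex.I‖ ≤ δ * 1 :=
    mul_le_mul h1 (h2.trans hδ1) (norm_nonneg _) hδ
  calc _ ≤ |(L 1 - 1).re + (L Complex.I - Complex.I).im| +
      |cr (L 1 - 1) (L Complex.I - Complex.I)| := abs_add_le _ _
    _ ≤ (|(L 1 - 1).re| + |(L Complex.I - Complex.I).im|) +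
      |cr (L 1 - 1) (L Complex.I - Complex.I)| := by gcongr; exact abs_add_le _ _
    _ ≤ 6 * δ := by linarith

theorem norm_pio_le {δ : ℝ} {Θ J : ℂ → ℂ} {z : ℂ}
    (h : ‖fderiv ℝ Θ z - ContinuousLinearMap.id ℝ ℂ‖ ≤ δ) :
    ‖pio Θ J z‖ ≤ (1 + 4 * δ) * ‖J (Θ z)‖ := by
  set L := fderiv ℝ Θ z with hL
  have h1 : ‖L 1 - 1‖ ≤ δ := by
    have := (L - ContinuousLinearMap.id ℝ ℂ).le_opNorm 1
    simp at this
    exact this.trans h
  have h2 : ‖L Complex.I - Complex.I‖ ≤ δ := by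
    have := (L - ContinuousLinearMap.id ℝ ℂ).le_opNorm Complex.I
    simp at this
    exact this.trans h
  set j := J (Θ z) with hj
  have e : pio Θ J z = j + (⟨cr j (L Complex.I - Complex.I), -cr j (L 1 - 1)⟩ : ℂ) := by
    unfold pio
    rw [← hL, ← hj]
    apply Complex.ext <;> simp [cr] <;> ring
  rw [e]
  have h5 := abs_cr_le j (L 1 - 1)
  have h6 := abs_cr_le j (L Complex.I - Complex.I)
  have h7 : ‖j‖ * ‖L 1 - 1‖ ≤ ‖j‖ * δ := by gcongr
  have h8 : ‖j‖ * ‖L Complex.I - Complex.I‖ ≤ ‖j‖ * δ := by gcongr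
  have h9 := Complex.norm_le_abs_re_add_abs_im
    (⟨cr j (L Complex.I - Complex.I), -cr j (L 1 - 1)⟩ : ℂ)
  simp only [abs_neg] at h9
  calc _ ≤ ‖j‖ + ‖(⟨cr j (L Complex.I - Complex.I), -cr j (L 1 - 1)⟩ : ℂ)‖ := norm_add_le _ _
    _ ≤ ‖j‖ + (|cr j (L Complex.I - Complex.I)| + |cr j (L 1 - 1)|) := by gcongr
    _ ≤ ‖j‖ + (2 * (‖j‖ * δ) + 2 * (‖j‖ * δ)) := by
        gcongr
        · linarith
        · linarith
    _ = _ := by ring

/-! ### Poincaré inequality and `L²` bound of the Green form -/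

theorem poincare {R : ℝ} (hR : 0 < R) {u : ℂ → ℝ} (hu : IsTest (ball (0 : ℂ) R) u) :
    ∫ z, u z ^ 2 ≤ 4 * R ^ 2 * ∫ z, ‖fderiv ℝ u z‖ ^ 2 := by
  have hud : Differentiable ℝ u := hu.smooth.differentiable (by simp)
  have hfc : Continuous (fderiv ℝ u) := hu.smooth.continuous_fderiv (by simp)
  have hfs : HasCompactSupport (fderiv ℝ u) := hu.comp.fderiv (𝕜 := ℝ)
  have hd : ∀ z, fderiv ℝ (fun w => u w ^ 2) z 1 = 2 * (u z * fderiv ℝ u z 1) := by
    intro z
    have := ((hud z).hasFDerivAt.pow 2).fderiv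
    rw [this]
    simp
    ring
  have hre : ∀ z, fderiv ℝ (fun w : ℂ => w.re) z 1 = 1 := fun z => by
    have : fderiv ℝ (fun w : ℂ => w.re) z = Complex.reCLM := Complex.reCLM.hasFDerivAt.fderiv
    rw [this]; simp
  have hcs1 : HasCompactSupport (fun z => u z ^ 2) := by
    have : (fun z => u z ^ 2) = fun z => u z * u z := by funext z; ring
    rw [this]; exact hu.comp.mul_left
  have hcs2 : HasCompactSupport (fun z => u z * fderiv ℝ u z 1) := hu.comp.mul_right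
  have hc2 : Continuous (fun z => u z * fderiv ℝ u z 1) :=
    hu.smooth.continuous.mul (hfc.clm_apply continuous_const)
  have key : ∫ z, u z ^ 2 * fderiv ℝ (fun w : ℂ => w.re) z 1 =
      -∫ z, fderiv ℝ (fun w => u w ^ 2) z 1 * z.re := by
    refine integral_mul_fderiv_eq_neg_fderiv_mul_of_integrable ?_ ?_ ?_
      (fun z _ => (hud z).pow 2) (fun z _ => Complex.reCLM.differentiableAt)
    · simp only [hd]
      refine Continuous.integrable_of_hasCompactSupport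
        ((continuous_const.mul hc2).mul Complex.continuous_re) ?_
      exact (hcs2.mul_left (f := fun _ => (2 : ℝ))).mul_right
    · simp only [hre, mul_one]
      exact (hu.smooth.continuous.pow 2).integrable_of_hasCompactSupport hcs1
    · exact ((hu.smooth.continuous.pow 2).mul
        Complex.continuous_re).integrable_of_hasCompactSupport hcs1.mul_right
  simp only [hre, mul_one, hd] at key
  have i1 : Integrable fun z => u z ^ 2 :=
    (hu.smooth.continuous.pow 2).integrable_of_hasCompactSupport hcs1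
  have i2 : Integrable fun z => ‖fderiv ℝ u z‖ ^ 2 := integrable_energy hu
  have hle : -∫ z, 2 * (u z * fderiv ℝ u z 1) * z.re ≤
      ∫ z, (u z ^ 2 / 2 + 2 * R ^ 2 * ‖fderiv ℝ u z‖ ^ 2) := by
    rw [← integral_neg]
    refine integral_mono ?_ ((i1.div_const 2).add (i2.const_mul _)) fun z => ?_
    · refine (Continuous.integrable_of_hasCompactSupport
        ((continuous_const.mul hc2).mul Complex.continuous_re) ?_).neg
      exact (hcs2.mul_left (f := fun _ => (2 : ℝ))).mul_right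
    · simp only
      by_cases hz : z ∈ ball (0 : ℂ) R
      · have h1 : |z.re| ≤ R := (Complex.abs_re_le_norm z).trans (mem_ball_zero_iff.1 hz).le
        have h2 : |fderiv ℝ u z 1| ≤ ‖fderiv ℝ u z‖ := by
          have := (fderiv ℝ u z).le_opNorm 1
          simpa using this
        have h3 : |u z * fderiv ℝ u z 1 * z.re| ≤ |u z| * ‖fderiv ℝ u z‖ * R := by
          rw [abs_mul, abs_mul]; gcongr
        have h4 := neg_abs_le (u z * fderiv ℝ u z 1 * z.re)
        have h5 : u z ^ 2 = |u z| ^ 2 := (sq_abs _).symm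
        nlinarith [sq_nonneg (|u z| - 2 * (‖fderiv ℝ u z‖ * R))]
      · rw [hu.eq_zero hz]
        have : 0 ≤ ‖fderiv ℝ u z‖ ^ 2 := by positivity
        simp
        positivity
  rw [integral_add (i1.div_const 2) (i2.const_mul _), integral_div, integral_const_mul] at hle
  linarith

section domain

variable {D : Set ℂ} {φ ψ : ℂ → ℂ}

theorem DG_le_L2 (B : Bih D (ball 0 1) φ ψ) {R : ℝ} (hR : 0 < R) (hDR : D ⊆ ball 0 R)
    {g : ℂ → ℝ} (hg : IsTest D g) : domainGreenForm φ g ≤ 4 * R ^ 2 * ∫ z, g z ^ 2 := by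
  set G := domainGreenForm φ g with hG
  have hG0 : 0 ≤ G := by rw [hG, ← DG_self]; exact DG_nonneg B hg
  set M := 4 * R ^ 2 * ∫ z, g z ^ 2 with hM
  have hN0 : 0 ≤ ∫ z, g z ^ 2 := integral_nonneg fun z => sq_nonneg _
  have hM0 : 0 ≤ M := by positivity
  have hkey : ∀ ε : ℝ, 0 < ε → G ≤ Real.sqrt (ε * G) + Real.sqrt (M * (G + ε)) := by
    intro ε hε
    obtain ⟨u, hu, h1, h2⟩ := exists_approx B hg hε
    have hk : IsTest D (fun z => g z + (Δ u) z) := hg.add hu.lap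
    have e1 : G = DG φ (fun z => g z + (Δ u) z) g + DG φ (fun z => -(Δ u) z) g := by
      rw [← DG_add_left B hk hu.lap.neg hg, hG, ← DG_self]
      congr 1
      funext z
      ring
    have hcs := DG_cs B hk hg
    rw [DG_self, DG_self, ← hG] at hcs
    have h3 : DG φ (fun z => g z + (Δ u) z) g ≤ Real.sqrt (ε * G) := by
      refine Real.le_sqrt_of_sq_le (hcs.trans ?_)
      exact mul_le_mul_of_nonneg_right ((le_abs_self _).trans h1.le) hG0
    have h4 : DG φ (fun z => -(Δ u) z) g ≤ Real.sqrt (M * (G + ε)) := by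
      rw [DG_neg_lap B hu hg]
      refine Real.le_sqrt_of_sq_le ?_
      have hcs2 := integral_cs (μ := (volume : Measure ℂ)) (a := u) (b := g)
        (isTest_sq_integrable hu) (isTest_sq_integrable hg) (integrable_mul hu hg.smooth.continuous)
      have hp := poincare hR (hu.mono hDR)
      have h5 : ∫ z, ‖fderiv ℝ u z‖ ^ 2 ≤ G + ε := by
        have := (abs_lt.1 h2).1
        linarith
      calc _ ≤ (∫ z, u z ^ 2) * ∫ z, g z ^ 2 := hcs2
        _ ≤ (4 * R ^ 2 * (G + ε)) * ∫ z, g z ^ 2 := by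
            gcongr
            exact hp.trans (by gcongr)
        _ = M * (G + ε) := by rw [hM]; ring
    linarith
  have hlim : Tendsto (fun ε : ℝ => Real.sqrt (ε * G) + Real.sqrt (M * (G + ε))) (𝓝[>] 0)
      (𝓝 (Real.sqrt (0 * G) + Real.sqrt (M * (G + 0)))) := by
    refine Tendsto.mono_left (Continuous.tendsto ?_ 0) nhdsWithin_le_nhds
    fun_prop
  have h6 : G ≤ Real.sqrt (0 * G) + Real.sqrt (M * (G + 0)) :=
    ge_of_tendsto hlim (by filter_upwards [self_mem_nhdsWithin] with ε hε using hkey ε hε)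
  rw [zero_mul, Real.sqrt_zero, zero_add, add_zero] at h6
  have h7 : G ^ 2 ≤ M * G := by
    have := Real.sq_sqrt (mul_nonneg hM0 hG0)
    nlinarith [Real.sqrt_nonneg (M * G)]
  rcases hG0.eq_or_lt with h8 | h8
  · rw [← h8]; exact hM0
  · have : G * G ≤ M * G := by nlinarith
    exact le_of_mul_le_mul_right this h8

end domain

end

end Crest.Agent.R144.ConP938
end

-- ▼ part R144/ConQ_938
section

/-!
# R144, continuum side: flows on a neighbourhood of the closure, sharp constant, part 2 (helper938)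
-/

set_option autoImplicit false

open MeasureTheory Metric Set Filter Topology Laplacian InnerProductSpace
open scoped ComplexConjugate ContDiff Manifold

namespace Crest.Agent.R144.ConP938

open Crest.Agent.R144.Con549 Crest.Agent.R144.Push938
open Crest.ProbabilityR.HexHeights (domainGreenForm)

noncomputable section

/-! ### a `C¹`-small diffeomorphism and its inverse -/

/-- data of a small diffeomorphism. -/
structure Small (δ : ℝ) (Ψ : ℂ ≃ₜ ℂ) : Prop where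
  s1 : ContDiff ℝ ∞ (Ψ : ℂ → ℂ)
  s2 : ContDiff ℝ ∞ (Ψ.symm : ℂ → ℂ)
  c0 : ∀ z, ‖Ψ z - z‖ ≤ δ
  c1 : ∀ z, ‖fderiv ℝ (Ψ : ℂ → ℂ) z - ContinuousLinearMap.id ℝ ℂ‖ ≤ δ

namespace Small

variable {δ : ℝ} {Ψ : ℂ ≃ₜ ℂ}

/-- jacobian determinant. -/
def jd (Ψ : ℂ → ℂ) (z : ℂ) : ℝ := cr (fderiv ℝ Ψ z 1) (fderiv ℝ Ψ z Complex.I)

theorem d1 (h : Small δ Ψ) (z : ℂ) : HasFDerivAt (Ψ : ℂ → ℂ) (fderiv ℝ (Ψ : ℂ → ℂ) z) z :=
  (h.s1.differentiable (by simp) z).hasFDerivAt

theorem d2 (h : Small δ Ψ) (z : ℂ) :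
    HasFDerivAt (Ψ.symm : ℂ → ℂ) (fderiv ℝ (Ψ.symm : ℂ → ℂ) z) z :=
  (h.s2.differentiable (by simp) z).hasFDerivAt

theorem comp_eq (h : Small δ Ψ) (z : ℂ) :
    (fderiv ℝ (Ψ : ℂ → ℂ) (Ψ.symm z)).comp (fderiv ℝ (Ψ.symm : ℂ → ℂ) z) =
      ContinuousLinearMap.id ℝ ℂ := by
  have h1 := (h.d1 (Ψ.symm z)).comp z (h.d2 z)
  have h2 : (Ψ : ℂ → ℂ) ∘ (Ψ.symm : ℂ → ℂ) = id := by funext w; simp
  rw [h2] at h1
  exact h1.unique (hasFDerivAt_id z)

theorem jd_mul (h : Small δ Ψ) (z : ℂ) : jd Ψ (Ψ.symm z) * jd Ψ.symm z = 1 := by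
  unfold jd
  rw [cr_eq_det, cr_eq_det]
  have h1 := congrArg ContinuousLinearMap.det (h.comp_eq z)
  have h2 : ((fderiv ℝ (Ψ : ℂ → ℂ) (Ψ.symm z)).comp (fderiv ℝ (Ψ.symm : ℂ → ℂ) z)).det =
      (fderiv ℝ (Ψ : ℂ → ℂ) (Ψ.symm z)).det * (fderiv ℝ (Ψ.symm : ℂ → ℂ) z).det := by
    unfold ContinuousLinearMap.det
    exact LinearMap.det_comp _ _
  rw [h2] at h1
  rw [h1]
  unfold ContinuousLinearMap.det
  exact LinearMap.det_id

theorem c1' (h : Small δ Ψ) (hδ : δ ≤ 1 / 2) (z : ℂ) :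
    ‖fderiv ℝ (Ψ.symm : ℂ → ℂ) z - ContinuousLinearMap.id ℝ ℂ‖ ≤ 2 * δ := by
  set A := fderiv ℝ (Ψ : ℂ → ℂ) (Ψ.symm z) with hA
  set T := fderiv ℝ (Ψ.symm : ℂ → ℂ) z with hT
  have hc : A.comp T = ContinuousLinearMap.id ℝ ℂ := h.comp_eq z
  have h1 : T - ContinuousLinearMap.id ℝ ℂ = -((A - ContinuousLinearMap.id ℝ ℂ).comp T) := by
    rw [ContinuousLinearMap.sub_comp, hc, ContinuousLinearMap.id_comp]
    abel
  have h2 : ‖A - ContinuousLinearMap.id ℝ ℂ‖ ≤ δ := h.c1 _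
  have hδ0 : 0 ≤ δ := (norm_nonneg _).trans h2
  have h3 : ‖T‖ ≤ 1 + ‖T - ContinuousLinearMap.id ℝ ℂ‖ := by
    calc ‖T‖ = ‖ContinuousLinearMap.id ℝ ℂ + (T - ContinuousLinearMap.id ℝ ℂ)‖ := by
          rw [add_sub_cancel]
      _ ≤ ‖ContinuousLinearMap.id ℝ ℂ‖ + ‖T - ContinuousLinearMap.id ℝ ℂ‖ := norm_add_le _ _
      _ ≤ _ := by gcongr; exact ContinuousLinearMap.norm_id_le
  have h4 : ‖T - ContinuousLinearMap.id ℝ ℂ‖ ≤ δ * ‖T‖ := by
    conv_lhs => rw [h1]
    rw [norm_neg]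
    exact (ContinuousLinearMap.opNorm_comp_le _ _).trans (by gcongr)
  nlinarith [norm_nonneg (T - ContinuousLinearMap.id ℝ ℂ)]

theorem contDiff_jd {Φ : ℂ → ℂ} (h : ContDiff ℝ ∞ Φ) : ContDiff ℝ ∞ (jd Φ) := by
  have hb : ∀ e : ℂ, ContDiff ℝ ∞ (fun w => fderiv ℝ Φ w e) := fun e =>
    (h.fderiv_right (m := ∞) (by simp)).clm_apply contDiff_const
  unfold jd cr
  have r1 := Complex.reCLM.contDiff.comp (hb 1)
  have i1 := Complex.imCLM.contDiff.comp (hb 1)
  have r2 := Complex.reCLM.contDiff.comp (hb Complex.I)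
  have i2 := Complex.imCLM.contDiff.comp (hb Complex.I)
  exact (r1.mul i2).sub (i1.mul r2)

theorem abs_jd_sub_one (h : Small δ Ψ) (hδ0 : 0 ≤ δ) (hδ : δ ≤ 1) (z : ℂ) :
    |jd Ψ z - 1| ≤ 6 * δ := abs_cr_sub_one_le hδ0 hδ (h.c1 z)

end Small

open Crest.Agent.R144.ConP938.Small

/-- the transported source. -/
def src (Ψ : ℂ → ℂ) (f : ℂ → ℝ) (w : ℂ) : ℝ := f (Ψ w) * jd Ψ w

theorem isTest_src {D : Set ℂ} {δ : ℝ} {Ψ : ℂ ≃ₜ ℂ} (h : Small δ Ψ) {f : ℂ → ℝ}
    (hf : IsTest D f) (hth : cthickening δ (tsupport f) ⊆ D) : IsTest D (src Ψ f) := by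
  have hK : IsCompact (Ψ.symm '' tsupport f) := hf.comp.isCompact.image Ψ.symm.continuous
  have hz : ∀ w, w ∉ Ψ.symm '' tsupport f → src Ψ f w = 0 := by
    intro w hw
    have : Ψ w ∉ tsupport f := fun h1 => hw ⟨Ψ w, h1, by simp⟩
    unfold src
    rw [image_eq_zero_of_notMem_tsupport this, zero_mul]
  refine ⟨(hf.smooth.comp h.s1).mul (contDiff_jd h.s1), HasCompactSupport.intro hK hz, ?_⟩
  have h1 : tsupport (src Ψ f) ⊆ Ψ.symm '' tsupport f := by
    refine closure_minimal (fun w hw => ?_) hK.isClosed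
    by_contra h2
    exact hw (hz w h2)
  refine h1.trans ?_
  rintro _ ⟨z, hz, rfl⟩
  refine hth (mem_cthickening_of_dist_le _ z _ _ hz ?_)
  have h2 := h.c0 (Ψ.symm z)
  rw [Ψ.apply_symm_apply] at h2
  rw [dist_comm, dist_eq_norm]
  exact h2

theorem abs_src_sub_le {δ : ℝ} {Ψ : ℂ ≃ₜ ℂ} (h : Small δ Ψ) (hδ0 : 0 ≤ δ)
    (hδ : δ ≤ 1) {f : ℂ → ℝ} {C : NNReal} (hC : LipschitzWith C f) {M : ℝ}
    (hM : ∀ z, |f z| ≤ M) (w : ℂ) :
    |src Ψ f w - f w| ≤ (7 * C + 6 * M) * δ := by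
  have h1 := h.abs_jd_sub_one hδ0 hδ w
  have hj : |jd Ψ w| ≤ 7 := by
    have : |jd Ψ w| ≤ |jd Ψ w - 1| + |(1 : ℝ)| := by
      have := abs_add_le (jd Ψ w - 1) 1
      rwa [sub_add_cancel] at this
    rw [abs_one] at this
    linarith
  have h2 : |f (Ψ w) - f w| ≤ C * δ := by
    have := hC.dist_le_mul (Ψ w) w
    rw [Real.dist_eq, dist_eq_norm] at this
    exact this.trans (mul_le_mul_of_nonneg_left (h.c0 w) C.coe_nonneg)
  have e : src Ψ f w - f w = (f (Ψ w) - f w) * jd Ψ w + f w * (jd Ψ w - 1) := by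
    unfold src; ring
  have hM0 : 0 ≤ M := (abs_nonneg _).trans (hM w)
  rw [e]
  calc _ ≤ |(f (Ψ w) - f w) * jd Ψ w| + |f w * (jd Ψ w - 1)| := abs_add_le _ _
    _ = |f (Ψ w) - f w| * |jd Ψ w| + |f w| * |jd Ψ w - 1| := by rw [abs_mul, abs_mul]
    _ ≤ (C * δ) * 7 + M * (6 * δ) := by
        gcongr
        exact hM w
    _ = _ := by ring

/-- the transported source has Green energy close to the one of `f`. -/
theorem green_src {D : Set ℂ} {φ ψ : ℂ → ℂ} (B : Bih D (ball 0 1) φ ψ) {R : ℝ} (hR : 0 < R)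
    (hDR : D ⊆ ball 0 R) {f : ℂ → ℝ} (hf : IsTest D f) : ∃ C : ℝ, 0 ≤ C ∧ ∀ (δ : ℝ) (Ψ : ℂ ≃ₜ ℂ),
      0 ≤ δ → δ ≤ 1 → Small δ Ψ → cthickening δ (tsupport f) ⊆ D →
      domainGreenForm φ (src Ψ f) ≤ (Real.sqrt (domainGreenForm φ f) + C * δ) ^ 2 := by
  obtain ⟨L, hL⟩ := ContDiff.lipschitzWith_of_hasCompactSupport hf.comp hf.smooth (by simp)
  obtain ⟨M, hM⟩ : ∃ M, ∀ z, ‖f z‖ ≤ M :=
    hf.comp.exists_bound_of_continuous hf.smooth.continuous
  have hM' : ∀ z, |f z| ≤ M := fun z => by simpa [Real.norm_eq_abs] using hM z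
  have hM0 : 0 ≤ M := (abs_nonneg _).trans (hM' 0)
  set V : ℝ := (volume : Measure ℂ).real (ball 0 R) with hV
  set K : ℝ := 4 * R ^ 2 * ((7 * L + 6 * M) ^ 2 * V) with hK
  have hV0 : 0 ≤ V := measureReal_nonneg
  have hK0 : 0 ≤ K := by positivity
  refine ⟨Real.sqrt K, Real.sqrt_nonneg _, fun δ Ψ hδ0 hδ1 h hth => ?_⟩
  have hs := isTest_src h hf hth
  have hg : IsTest D (fun z => src Ψ f z + -f z) := hs.add hf.neg
  have hgb : domainGreenForm φ (fun z => src Ψ f z + -f z) ≤ K * δ ^ 2 := by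
    refine (DG_le_L2 B hR hDR hg).trans ?_
    have h1 : ∫ z, (src Ψ f z + -f z) ^ 2 ≤ (((7 * L + 6 * M) * δ) ^ 2) * V := by
      have h2 : ∫ z, (src Ψ f z + -f z) ^ 2 =
          ∫ z in ball (0 : ℂ) R, (src Ψ f z + -f z) ^ 2 := by
        rw [setIntegral_eq_integral_of_forall_compl_eq_zero]
        intro z hz
        rw [hg.eq_zero fun h3 => hz (hDR h3)]
        simp
      rw [h2]
      have h3 : ∀ z ∈ ball (0 : ℂ) R, ‖(src Ψ f z + -f z) ^ 2‖ ≤ ((7 * L + 6 * M) * δ) ^ 2 := by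
        intro z _
        rw [Real.norm_eq_abs, abs_pow]
        have := abs_src_sub_le h hδ0 hδ1 hL hM' z
        rw [sub_eq_add_neg] at this
        gcongr
      have := norm_setIntegral_le_of_norm_le_const (μ := (volume : Measure ℂ))
        measure_ball_lt_top h3
      exact (le_abs_self _).trans this
    calc 4 * R ^ 2 * ∫ z, (src Ψ f z + -f z) ^ 2 ≤
        4 * R ^ 2 * ((((7 * L + 6 * M) * δ) ^ 2) * V) := by gcongr
      _ = K * δ ^ 2 := by rw [hK]; ring
  have htri := sqrt_DG_add_le B hf hg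
  have e : (fun z => f z + (src Ψ f z + -f z)) = src Ψ f := by funext z; ring
  rw [e] at htri
  have h4 : Real.sqrt (domainGreenForm φ (fun z => src Ψ f z + -f z)) ≤ Real.sqrt K * δ := by
    calc _ ≤ Real.sqrt (K * δ ^ 2) := Real.sqrt_le_sqrt hgb
      _ = Real.sqrt K * δ := by rw [Real.sqrt_mul hK0, Real.sqrt_sq hδ0]
  have h5 : 0 ≤ domainGreenForm φ (src Ψ f) := by rw [← DG_self]; exact DG_nonneg B hs
  calc domainGreenForm φ (src Ψ f) = Real.sqrt (domainGreenForm φ (src Ψ f)) ^ 2 :=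
        (Real.sq_sqrt h5).symm
    _ ≤ _ := by
        gcongr
        linarith

/-! ### the flow -/

/-- flow near the closure, for a given small diffeomorphism pushing `D` over its closure. -/
theorem flow_of_small {D : Set ℂ} {φ ψ : ℂ → ℂ} (B : Bih D (ball 0 1) φ ψ) {f : ℂ → ℝ}
    (hf : IsTest D f) {δ : ℝ} (hδ0 : 0 ≤ δ) (hδ : δ ≤ 1 / 2) {Ψ : ℂ ≃ₜ ℂ} (h : Small δ Ψ)
    (hth : cthickening δ (tsupport f) ⊆ D) :
    ∃ J : ℂ → ℂ, (∀ z ∈ Ψ '' D, ContDiffAt ℝ ∞ J z) ∧ (∀ z ∈ Ψ '' D, dv J z = f z) ∧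
      IntegrableOn (fun z => ‖J z‖ ^ 2) (Ψ '' D) ∧
      ∫ z in Ψ '' D, ‖J z‖ ^ 2 ≤
        (1 + 8 * δ) ^ 2 * ((1 + 6 * δ) * domainGreenForm φ (src Ψ f)) := by
  obtain ⟨J, hJ1, hJ2, hJ3, hJ4⟩ := exists_J0 B (isTest_src h hf hth)
  have hsm : ∀ z ∈ Ψ '' D, ContDiffAt ℝ ∞ (pio Ψ.symm J) z := by
    rintro _ ⟨w, hw, rfl⟩
    refine contDiffAt_pio h.s2.contDiffAt ?_
    rw [Ψ.symm_apply_apply]
    exact hJ1 w hw
  have hop : IsOpen (Ψ '' D) := Ψ.isOpenMap _ B.oU
  have hI : IntegrableOn (fun w => |(fderiv ℝ (Ψ : ℂ → ℂ) w).det| • ‖J w‖ ^ 2) D := by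
    have : IntegrableOn (fun w => (1 + 6 * δ) * ‖J w‖ ^ 2) D := hJ3.const_mul _
    refine Integrable.mono' this ?_ ?_
    · refine (ContinuousOn.mul ?_ ?_).aestronglyMeasurable B.oU.measurableSet
      · have : (fun w => |(fderiv ℝ (Ψ : ℂ → ℂ) w).det|) = fun w => |jd Ψ w| := by
          funext w; rw [jd, cr_eq_det]
        rw [this]
        exact (contDiff_jd h.s1).continuous.abs.continuousOn
      · exact fun w hw => ((hJ1 w hw).continuousAt.norm.pow 2).continuousWithinAt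
    · refine Eventually.of_forall fun w => ?_
      rw [smul_eq_mul, norm_mul, Real.norm_eq_abs, abs_abs, norm_pow, norm_norm]
      gcongr
      rw [← cr_eq_det]
      have h1 := h.abs_jd_sub_one hδ0 (by linarith) w
      have h2 := abs_add_le (jd Ψ w - 1) 1
      rw [sub_add_cancel, abs_one] at h2
      unfold jd at h1 h2
      linarith
  have himg : IntegrableOn (fun z => ‖J (Ψ.symm z)‖ ^ 2) (Ψ '' D) := by
    rw [integrableOn_image_iff_integrableOn_abs_det_fderiv_smul volume B.oU.measurableSet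
      (fun w _ => (h.d1 w).hasFDerivWithinAt) Ψ.injective.injOn]
    simpa using hI
  have hcv : ∫ z in Ψ '' D, ‖J (Ψ.symm z)‖ ^ 2 =
      ∫ w in D, |(fderiv ℝ (Ψ : ℂ → ℂ) w).det| • ‖J w‖ ^ 2 := by
    rw [integral_image_eq_integral_abs_det_fderiv_smul volume B.oU.measurableSet
      (fun w _ => (h.d1 w).hasFDerivWithinAt) Ψ.injective.injOn]
    simp
  have hpt : ∀ z, ‖pio Ψ.symm J z‖ ^ 2 ≤ (1 + 8 * δ) ^ 2 * ‖J (Ψ.symm z)‖ ^ 2 := by
    intro z
    have h1 := norm_pio_le (J := J) (h.c1' hδ z)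
    rw [← mul_pow]
    gcongr
    calc _ ≤ (1 + 4 * (2 * δ)) * ‖J (Ψ.symm z)‖ := h1
      _ = _ := by ring
  have hint : IntegrableOn (fun z => ‖pio Ψ.symm J z‖ ^ 2) (Ψ '' D) := by
    refine Integrable.mono' (himg.const_mul ((1 + 8 * δ) ^ 2)) ?_ ?_
    · refine ContinuousOn.aestronglyMeasurable (fun z hz => ?_) hop.measurableSet
      exact ((hsm z hz).continuousAt.norm.pow 2).continuousWithinAt
    · refine Eventually.of_forall fun z => ?_
      rw [norm_pow, norm_norm]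
      exact hpt z
  refine ⟨pio Ψ.symm J, hsm, ?_, hint, ?_⟩
  · rintro _ ⟨w, hw, rfl⟩
    rw [dv_pio h.s2.contDiffAt ((hJ1 _ (by simpa using hw)).differentiableAt (by simp))]
    rw [Ψ.symm_apply_apply, hJ2 w hw]
    have h1 := h.jd_mul (Ψ w)
    rw [Ψ.symm_apply_apply] at h1
    unfold src
    change f (Ψ w) * jd Ψ w * jd Ψ.symm (Ψ w) = f (Ψ w)
    rw [mul_assoc, h1, mul_one]
  · calc ∫ z in Ψ '' D, ‖pio Ψ.symm J z‖ ^ 2 ≤
        ∫ z in Ψ '' D, (1 + 8 * δ) ^ 2 * ‖J (Ψ.symm z)‖ ^ 2 :=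
          integral_mono hint (himg.const_mul _) hpt
      _ = (1 + 8 * δ) ^ 2 * ∫ w in D, |(fderiv ℝ (Ψ : ℂ → ℂ) w).det| • ‖J w‖ ^ 2 := by
          rw [integral_const_mul, hcv]
      _ ≤ (1 + 8 * δ) ^ 2 * ∫ w in D, (1 + 6 * δ) * ‖J w‖ ^ 2 := by
          refine mul_le_mul_of_nonneg_left ?_ (by positivity)
          refine integral_mono hI (hJ3.const_mul _) fun w => ?_
          simp only [smul_eq_mul]
          refine mul_le_mul_of_nonneg_right ?_ (by positivity)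
          rw [← cr_eq_det]
          have h1 := h.abs_jd_sub_one hδ0 (by linarith) w
          have h2 := abs_add_le (jd Ψ w - 1) 1
          rw [sub_add_cancel, abs_one] at h2
          unfold jd at h1 h2
          linarith
      _ ≤ _ := by
          rw [integral_const_mul]
          gcongr

/-- **(C3), sharp**: a smooth compactly supported flow with divergence `f` on a neighbourhood of the
closure of `D` and energy at most the Green energy plus `ε`. -/
theorem exists_flow {D : Set ℂ} {γ : ℝ → ℂ} (hJor : Jor D γ) {φ ψ : ℂ → ℂ}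
    (B : Bih D (ball 0 1) φ ψ) {f : ℂ → ℝ} (hf : IsTest D f) {ε : ℝ} (hε : 0 < ε) :
    ∃ (N : Set ℂ) (J : ℂ → ℂ), IsOpen N ∧ Bornology.IsBounded N ∧ closure D ⊆ N ∧
      ContDiff ℝ ∞ J ∧ HasCompactSupport J ∧ (∀ z ∈ N, dv J z = f z) ∧
      ∫ z in N, ‖J z‖ ^ 2 ≤ domainGreenForm φ f + ε := by
  obtain ⟨R, hR⟩ := hJor.bd.subset_ball (0 : ℂ)
  obtain ⟨z₀, hz₀⟩ := hJor.conn.nonempty
  have hR0 : 0 < R := (dist_nonneg).trans_lt (mem_ball.1 (hR hz₀))
  obtain ⟨C, hC0, hC⟩ := green_src B hR0 hR hf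
  obtain ⟨ρ, hρ, hρ2⟩ := hf.comp.isCompact.exists_cthickening_subset_open B.oU hf.supp
  have hG0 : 0 ≤ domainGreenForm φ f := by rw [← DG_self]; exact DG_nonneg B hf
  set G := domainGreenForm φ f with hG
  have hev : ∀ᶠ δ : ℝ in 𝓝[>] 0,
      (1 + 8 * δ) ^ 2 * ((1 + 6 * δ) * (Real.sqrt G + C * δ) ^ 2) < G + ε := by
    have hc : Continuous fun δ : ℝ =>
        (1 + 8 * δ) ^ 2 * ((1 + 6 * δ) * (Real.sqrt G + C * δ) ^ 2) := by fun_prop
    have h0 := (hc.tendsto 0).mono_left (nhdsWithin_le_nhds (s := Ioi (0 : ℝ)))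
    refine h0.eventually_lt_const ?_
    simp [Real.sq_sqrt hG0, hε]
  have hev2 : ∀ᶠ δ : ℝ in 𝓝[>] 0, δ < min ρ (1 / 2) :=
    nhdsWithin_le_nhds (Iio_mem_nhds (by positivity))
  obtain ⟨δ, ⟨h1, h2⟩, hδ⟩ := ((hev.and hev2).and self_mem_nhdsWithin).exists
  have hδ0 : (0 : ℝ) < δ := hδ
  have hδρ : δ ≤ ρ := (h2.trans_le (min_le_left _ _)).le
  have hδ2 : δ ≤ 1 / 2 := (h2.trans_le (min_le_right _ _)).le
  obtain ⟨Ψ, p1, p2, -, p4, p5, p6⟩ := hJor.exists_push hδ0
  have hs : Small δ Ψ := ⟨p1, p2, p4, p5⟩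
  have hth : cthickening δ (tsupport f) ⊆ D := (cthickening_mono hδρ _).trans hρ2
  obtain ⟨J, j1, j2, j3, j4⟩ := flow_of_small B hf hδ0.le hδ2 hs hth
  have hen : ∫ z in Ψ '' D, ‖J z‖ ^ 2 ≤ G + ε := by
    refine j4.trans (le_trans ?_ h1.le)
    gcongr
    exact hC δ Ψ hδ0.le (by linarith) hs hth
  -- cut-off
  have hcD : IsCompact (closure D) := hJor.bd.isCompact_closure
  have hop : IsOpen (Ψ '' D) := Ψ.isOpenMap _ B.oU
  obtain ⟨η, hη, hη2⟩ := hcD.exists_cthickening_subset_open hop p6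
  obtain ⟨χ, c1, c2, -⟩ := exists_contMDiffMap_one_nhds_of_subset_interior (n := (⊤ : ℕ∞))
    (𝓘(ℝ, ℂ)) (s := closure D) (t := cthickening η (closure D)) isClosed_closure
    ((self_subset_thickening hη _).trans
      (interior_maximal (thickening_subset_cthickening _ _) isOpen_thickening))
  have hχ : ContDiff ℝ ∞ (χ : ℂ → ℝ) := χ.contMDiff.contDiff
  obtain ⟨N, hN1, hN2, hN3⟩ := eventually_nhdsSet_iff_exists.1 c1
  have hNt : N ⊆ cthickening η (closure D) := fun z hz => by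
    by_contra h3
    have h4 := c2 z h3
    rw [hN3 z hz] at h4
    exact one_ne_zero h4
  have hNsub : N ⊆ Ψ '' D := hNt.trans hη2
  have hct : IsCompact (cthickening η (closure D)) := hcD.cthickening
  have hz0 : ∀ z, z ∉ cthickening η (closure D) → χ z • J z = 0 := fun z hz => by
    rw [c2 z hz, zero_smul]
  refine ⟨N, fun z => χ z • J z, hN1, hct.isBounded.subset hNt, hN2, ?_, ?_, ?_, ?_⟩
  · rw [contDiff_iff_contDiffAt]
    intro z
    by_cases hz : z ∈ Ψ '' D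
    · exact hχ.contDiffAt.smul (j1 z hz)
    · have h3 : z ∉ cthickening η (closure D) := fun h4 => hz (hη2 h4)
      have h5 : (fun z => χ z • J z) =ᶠ[𝓝 z] fun _ => (0 : ℂ) := by
        filter_upwards [isClosed_cthickening.isOpen_compl.mem_nhds h3] with w hw
        exact hz0 w hw
      exact contDiffAt_const.congr_of_eventuallyEq h5
  · exact HasCompactSupport.intro hct hz0
  · intro z hz
    have h5 : (fun z => χ z • J z) =ᶠ[𝓝 z] J := by
      filter_upwards [hN1.mem_nhds hz] with w hw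
      rw [hN3 w hw, one_smul]
    rw [dv_congr h5]
    exact j2 z (hNsub hz)
  · have h5 : ∫ z in N, ‖χ z • J z‖ ^ 2 = ∫ z in N, ‖J z‖ ^ 2 := by
      refine setIntegral_congr_fun hN1.measurableSet fun z hz => ?_
      show ‖χ z • J z‖ ^ 2 = ‖J z‖ ^ 2
      rw [hN3 z hz, one_smul]
    rw [h5]
    refine le_trans ?_ hen
    exact setIntegral_mono_set j3 (Eventually.of_forall fun z => by positivity)
      (Eventually.of_forall hNsub)

end

end Crest.Agent.R144.ConP938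
end

-- ▼ part R144/ConR_938
section

/-!
# R144, continuum side: killing a flow near finitely many marks (helper938)
-/

set_option autoImplicit false

open MeasureTheory Metric Set Filter Topology Laplacian InnerProductSpace
open scoped ComplexConjugate ContDiff Manifold

namespace Crest.Agent.R144.ConP938

open Crest.Agent.R144.Con549 Crest.Agent.R144.Push938
open Crest.ProbabilityR.HexHeights (domainGreenForm)

noncomputable section

/-- rotated gradient. -/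
def pg (T : ℂ → ℝ) (z : ℂ) : ℂ := ⟨fderiv ℝ T z Complex.I, -fderiv ℝ T z 1⟩

theorem dv_pg {T : ℂ → ℝ} {z : ℂ} (hT : ContDiffAt ℝ ∞ T z) : dv (pg T) z = 0 := by
  have hfd : DifferentiableAt ℝ (fderiv ℝ T) z :=
    (hT.fderiv_right (m := ∞) (by simp)).differentiableAt (by simp)
  have hb : ∀ e : ℂ, HasFDerivAt (fun w => fderiv ℝ T w e)
      ((fderiv ℝ (fderiv ℝ T) z).flip e) z := by
    intro e
    have := hfd.hasFDerivAt.clm_apply (hasFDerivAt_const e z)
    simpa using this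
  have hsym : fderiv ℝ (fderiv ℝ T) z 1 Complex.I = fderiv ℝ (fderiv ℝ T) z Complex.I 1 := by
    have : IsSymmSndFDerivAt ℝ T z := (hT.of_le (by norm_cast : (2 : WithTop ℕ∞) ≤ ∞)).isSymmSndFDerivAt (by simp)
    exact this 1 Complex.I
  have this : dv (pg T) z = _ := dv_mk (hb Complex.I) (hb 1).neg
  rw [this]
  simp [hsym]

theorem contDiffAt_pg {T : ℂ → ℝ} {z : ℂ} (hT : ContDiffAt ℝ ∞ T z) :
    ContDiffAt ℝ ∞ (pg T) z := by
  have hb : ∀ e : ℂ, ContDiffAt ℝ ∞ (fun w => fderiv ℝ T w e) z := fun e =>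
    (hT.fderiv_right (m := ∞) (by simp)).clm_apply contDiffAt_const
  have h := ((hb Complex.I).smul (contDiffAt_const (c := (1 : ℂ)))).add
    (((hb 1).neg).smul (contDiffAt_const (c := Complex.I)))
  refine h.congr_of_eventuallyEq (Eventually.of_forall fun w => ?_)
  apply Complex.ext <;> simp [pg]

/-- the 1-form of a flow. -/
def fm (J : ℂ → ℂ) (z : ℂ) : ℂ →L[ℝ] ℝ :=
  (J z).re • Complex.imCLM - (J z).im • Complex.reCLM

theorem fm_apply (J : ℂ → ℂ) (z v : ℂ) : fm J z v = cr (J z) v := by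
  simp [fm, cr]

theorem hasFDerivAt_fm {J : ℂ → ℂ} {L : ℂ →L[ℝ] ℂ} {z : ℂ} (h : HasFDerivAt J L z) :
    ∃ W : ℂ →L[ℝ] ℂ →L[ℝ] ℝ, HasFDerivAt (fm J) W z ∧ ∀ a b, W a b = cr (L a) b := by
  have h1 := (Complex.reCLM.hasFDerivAt.comp z h).smul_const Complex.imCLM
  have h2 := (Complex.imCLM.hasFDerivAt.comp z h).smul_const Complex.reCLM
  refine ⟨_, h1.sub h2, fun a b => ?_⟩
  simp [cr]

/-- a stream function on a ball where the divergence vanishes. -/
theorem exists_stream {J : ℂ → ℂ} (hJ : ContDiff ℝ ∞ J) {p : ℂ} {r : ℝ} (hr : 0 < r)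
    (h0 : ∀ z ∈ ball p r, dv J z = 0) :
    ∃ S : ℂ → ℝ, S p = 0 ∧ (∀ z ∈ ball p r, HasFDerivAt S (fm J z) z) := by
  have hJd : Differentiable ℝ J := hJ.differentiable (by simp)
  have hd1 : DifferentiableOn ℝ (fm J) (ball p r) := fun z _ => by
    obtain ⟨W, hW, -⟩ := hasFDerivAt_fm (hJd z).hasFDerivAt
    exact hW.differentiableAt.differentiableWithinAt
  have hd2 : ∀ z ∈ ball p r, ∀ a b : ℂ, fderiv ℝ (fm J) z a b = fderiv ℝ (fm J) z b a := by
    intro z hz a b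
    obtain ⟨W, hW, hWv⟩ := hasFDerivAt_fm (hJd z).hasFDerivAt
    rw [hW.fderiv, hWv, hWv]
    have h1 := cr_trace (fderiv ℝ J z) a b
    have h2 : (fderiv ℝ J z 1).re + (fderiv ℝ J z Complex.I).im = 0 := h0 z hz
    rw [h2, zero_mul] at h1
    have h3 : cr (fderiv ℝ J z b) a = -cr a (fderiv ℝ J z b) := by unfold cr; ring
    rw [h3]; linarith
  obtain ⟨S, hS⟩ := (convex_ball p r).exists_forall_hasFDerivAt_of_fderiv_symmetric isOpen_ball
    hd1 hd2
  refine ⟨fun z => S z - S p, by simp, fun z hz => ?_⟩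
  have := (hS z hz).sub_const (S p)
  simpa using this

theorem contDiffAt_stream {J : ℂ → ℂ} (hJ : ContDiff ℝ ∞ J) {p : ℂ} {r : ℝ} {S : ℂ → ℝ}
    (hS : ∀ z ∈ ball p r, HasFDerivAt S (fm J z) z) {z : ℂ} (hz : z ∈ ball p r) :
    ContDiffAt ℝ ∞ S z := by
  have hfm : ContDiff ℝ ∞ (fm J) := by
    unfold fm
    have h1 := Complex.reCLM.contDiff.comp hJ
    have h2 := Complex.imCLM.contDiff.comp hJ
    exact (h1.smul contDiff_const).sub (h2.smul contDiff_const)
  have h1 : ContDiffOn ℝ ∞ S (ball p r) := by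
    rw [contDiffOn_infty_iff_fderiv_of_isOpen isOpen_ball]
    refine ⟨fun w hw => (hS w hw).differentiableAt.differentiableWithinAt, ?_⟩
    exact hfm.contDiffOn.congr fun w hw => (hS w hw).fderiv
  exact h1.contDiffAt (isOpen_ball.mem_nhds hz)

theorem norm_fm_le (J : ℂ → ℂ) (z : ℂ) : ‖fm J z‖ ≤ 2 * ‖J z‖ := by
  refine ContinuousLinearMap.opNorm_le_bound _ (by positivity) fun v => ?_
  rw [fm_apply, Real.norm_eq_abs]
  have := abs_cr_le (J z) v
  linarith

theorem norm_pg_le (T : ℂ → ℝ) (z : ℂ) : ‖pg T z‖ ≤ 2 * ‖fderiv ℝ T z‖ := by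
  have h1 : |fderiv ℝ T z Complex.I| ≤ ‖fderiv ℝ T z‖ := by
    have := (fderiv ℝ T z).le_opNorm Complex.I; simpa using this
  have h2 : |fderiv ℝ T z 1| ≤ ‖fderiv ℝ T z‖ := by
    have := (fderiv ℝ T z).le_opNorm 1; simpa using this
  have h9 := Complex.norm_le_abs_re_add_abs_im (pg T z)
  simp only [pg, abs_neg] at h9 ⊢
  linarith

theorem int_sq {K : ℂ → ℂ} (hK : Continuous K) (hKc : HasCompactSupport K) :
    Integrable (fun z => ‖K z‖ ^ 2) := by
  have h1 : HasCompactSupport (fun z => ‖K z‖ ^ 2) :=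
    HasCompactSupport.intro hKc.isCompact fun z hz => by
      rw [image_eq_zero_of_notMem_tsupport hz]; simp
  exact (hK.norm.pow 2).integrable_of_hasCompactSupport h1

/-- killing a flow near one point where it has no divergence. -/
theorem kill_one {J : ℂ → ℂ} (hJ : ContDiff ℝ ∞ J) (hJc : HasCompactSupport J) {p : ℂ} {R : ℝ}
    (hR : 0 < R) (h0 : ∀ z ∈ ball p R, dv J z = 0) {ε : ℝ} (hε : 0 < ε) :
    ∃ J' : ℂ → ℂ, ContDiff ℝ ∞ J' ∧ HasCompactSupport J' ∧ (∀ z, dv J' z = dv J z) ∧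
      (∀ᶠ z in 𝓝 p, J' z = 0) ∧ (∀ z ∉ ball p R, J' =ᶠ[𝓝 z] J) ∧
      ∀ N : Set ℂ, MeasurableSet N → ∫ z in N, ‖J' z‖ ^ 2 ≤ (∫ z in N, ‖J z‖ ^ 2) + ε := by
  obtain ⟨S, hS0, hS⟩ := exists_stream hJ hR h0
  obtain ⟨M, hM⟩ : ∃ M, ∀ z, ‖J z‖ ≤ M := hJc.exists_bound_of_continuous hJ.continuous
  have hM0 : 0 ≤ M := (norm_nonneg _).trans (hM 0)
  let b : ContDiffBump (0 : ℂ) := ⟨1, 2, one_pos, one_lt_two⟩
  have hbs : ContDiff ℝ ∞ (b : ℂ → ℝ) := b.contDiff
  have hbc : HasCompactSupport (b : ℂ → ℝ) := b.hasCompactSupport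
  obtain ⟨C, hC⟩ : ∃ C, ∀ z, ‖fderiv ℝ (b : ℂ → ℝ) z‖ ≤ C :=
    (hbc.fderiv (𝕜 := ℝ)).exists_bound_of_continuous (hbs.continuous_fderiv (by simp))
  have hC0 : 0 ≤ C := (norm_nonneg _).trans (hC 0)
  -- the radius
  set Q : ℝ := M + 2 * (4 * M * C + 2 * M) with hQ
  have hQ0 : 0 ≤ Q := by positivity
  obtain ⟨r, hr, hr1, hr2⟩ : ∃ r : ℝ, 0 < r ∧ 4 * r < R ∧ Q ^ 2 * (Real.pi * (2 * r) ^ 2) ≤ ε := by
    refine ⟨min (R / 8) (min 1 (ε / (4 * Real.pi * (Q ^ 2 + 1)))), by positivity, ?_, ?_⟩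
    · have := min_le_left (R / 8) (min 1 (ε / (4 * Real.pi * (Q ^ 2 + 1))))
      linarith
    · set m := min (R / 8) (min 1 (ε / (4 * Real.pi * (Q ^ 2 + 1)))) with hm
      have h1 : m ≤ 1 := (min_le_right _ _).trans (min_le_left _ _)
      have h2 : m ≤ ε / (4 * Real.pi * (Q ^ 2 + 1)) := (min_le_right _ _).trans (min_le_right _ _)
      have h3 : 0 < m := by positivity
      rw [le_div_iff₀ (by positivity)] at h2
      have h4 : m ^ 2 ≤ m := by nlinarith
      have h5 : 0 ≤ Real.pi * 4 := by positivity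
      calc Q ^ 2 * (Real.pi * (2 * m) ^ 2) = (4 * Real.pi * Q ^ 2) * m ^ 2 := by ring
        _ ≤ (4 * Real.pi * (Q ^ 2 + 1)) * m := by
            gcongr
            linarith
        _ ≤ ε := by linarith
  -- the cut-off
  set χ : ℂ → ℝ := fun z => b ((1 / r) • (z - p)) with hχ
  have hχs : ContDiff ℝ ∞ χ := hbs.comp ((contDiff_id.sub contDiff_const).const_smul _)
  have hχ1 : ∀ z ∈ closedBall p r, χ z = 1 := fun z hz => by
    refine b.one_of_mem_closedBall ?_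
    rw [mem_closedBall_zero_iff, norm_smul, Real.norm_of_nonneg (by positivity)]
    rw [mem_closedBall, dist_eq_norm] at hz
    show 1 / r * ‖z - p‖ ≤ 1
    rw [div_mul_eq_mul_div, one_mul, div_le_one hr]; exact hz
  have hχ0 : ∀ z ∉ ball p (2 * r), χ z = 0 := fun z hz => by
    refine b.zero_of_le_dist ?_
    rw [dist_zero_right, norm_smul, Real.norm_of_nonneg (by positivity)]
    rw [mem_ball, dist_eq_norm, not_lt] at hz
    show 2 ≤ 1 / r * ‖z - p‖
    rw [div_mul_eq_mul_div, one_mul, le_div_iff₀ hr]; linarith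
  have hχb : ∀ z, 0 ≤ χ z ∧ χ z ≤ 1 := fun z => ⟨b.nonneg, b.le_one⟩
  have hχd : ∀ z, ‖fderiv ℝ χ z‖ ≤ C / r := fun z => by
    have h1 : HasFDerivAt (fun z : ℂ => (1 / r) • (z - p))
        ((1 / r) • ContinuousLinearMap.id ℝ ℂ) z :=
      ((hasFDerivAt_id (𝕜 := ℝ) z).sub_const p).const_smul (1 / r)
    have h2 := ((hbs.differentiable (by simp) ((1 / r) • (z - p))).hasFDerivAt).comp z h1
    have h3 : fderiv ℝ χ z = (fderiv ℝ (b : ℂ → ℝ) ((1 / r) • (z - p))).comp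
      ((1 / r) • ContinuousLinearMap.id ℝ ℂ) := h2.fderiv
    rw [h3]
    refine (ContinuousLinearMap.opNorm_comp_le _ _).trans ?_
    rw [norm_smul, Real.norm_of_nonneg (by positivity)]
    calc _ ≤ C * (1 / r * 1) := by
          gcongr
          · exact hC _
          · exact ContinuousLinearMap.norm_id_le
      _ = C / r := by ring
  -- the corrected stream function
  set T : ℂ → ℝ := fun z => χ z * S z with hT
  have hsub : ball p (2 * r) ⊆ ball p R := ball_subset_ball (by linarith)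
  have hT0 : ∀ z ∉ closedBall p (2 * r), T =ᶠ[𝓝 z] fun _ => 0 := fun z hz => by
    filter_upwards [isClosed_closedBall.isOpen_compl.mem_nhds hz] with w hw
    rw [hT]
    simp only
    rw [hχ0 w fun h => hw (ball_subset_closedBall h), zero_mul]
  have hcs : closedBall p (2 * r) ⊆ ball p R := closedBall_subset_ball (by linarith)
  have hTs : ContDiff ℝ ∞ T := by
    rw [contDiff_iff_contDiffAt]
    intro z
    by_cases hz : z ∈ ball p R
    · exact hχs.contDiffAt.mul (contDiffAt_stream hJ hS hz)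
    · exact contDiffAt_const.congr_of_eventuallyEq (hT0 z fun h => hz (hcs h))
  have hpgs : ContDiff ℝ ∞ (pg T) := contDiff_iff_contDiffAt.2 fun z => contDiffAt_pg hTs.contDiffAt
  have hpg0 : ∀ z ∉ closedBall p (2 * r), pg T z = 0 := fun z hz => by
    unfold pg
    rw [(hT0 z hz).fderiv_eq]
    apply Complex.ext <;> simp
  have hpgc : HasCompactSupport (pg T) := HasCompactSupport.intro (isCompact_closedBall _ _) hpg0
  have hSb : ∀ z ∈ ball p (2 * r), |S z| ≤ 2 * M * (2 * r) := by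
    intro z hz
    have h1 := (convex_ball p (2 * r)).norm_image_sub_le_of_norm_hasFDerivWithin_le
      (f := S) (f' := fm J) (C := 2 * M)
      (fun w hw => (hS w (hsub hw)).hasFDerivWithinAt)
      (fun w _ => (norm_fm_le J w).trans (by gcongr; exact hM w))
      (mem_ball_self (by positivity)) hz
    rw [hS0, sub_zero, Real.norm_eq_abs] at h1
    rw [mem_ball, dist_eq_norm] at hz
    exact h1.trans (by gcongr)
  have hTd : ∀ z ∈ ball p (2 * r), ‖fderiv ℝ T z‖ ≤ 4 * M * C + 2 * M := by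
    intro z hz
    have h1 : HasFDerivAt T (χ z • fm J z + S z • fderiv ℝ χ z) z :=
      (hχs.differentiable (by simp) z).hasFDerivAt.mul (hS z (hsub hz))
    rw [h1.fderiv]
    calc _ ≤ ‖χ z • fm J z‖ + ‖S z • fderiv ℝ χ z‖ := norm_add_le _ _
      _ = |χ z| * ‖fm J z‖ + |S z| * ‖fderiv ℝ χ z‖ := by rw [norm_smul, norm_smul]; rfl
      _ ≤ 1 * (2 * M) + (2 * M * (2 * r)) * (C / r) := by
          have h2 : |χ z| ≤ 1 := by rw [abs_of_nonneg (hχb z).1]; exact (hχb z).2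
          have h3 : ‖fm J z‖ ≤ 2 * M := (norm_fm_le J z).trans (by gcongr; exact hM z)
          have h4 := hSb z hz
          have h5 := hχd z
          gcongr
      _ = _ := by field_simp; ring
  refine ⟨fun z => J z - pg T z, hJ.sub hpgs, hJc.sub hpgc, fun z => ?_, ?_, fun z hz => ?_, ?_⟩
  · rw [dv_sub (hJ.differentiable (by simp) z) (hpgs.differentiable (by simp) z),
      dv_pg hTs.contDiffAt, sub_zero]
  · filter_upwards [ball_mem_nhds p hr] with z hz
    have h1 : T =ᶠ[𝓝 z] S := by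
      filter_upwards [isOpen_ball.mem_nhds hz] with w hw
      rw [hT]
      simp only
      rw [hχ1 w (ball_subset_closedBall hw), one_mul]
    have h2 : z ∈ ball p R := ball_subset_ball (by linarith) hz
    have h3 : fderiv ℝ T z = fm J z := by rw [h1.fderiv_eq, (hS z h2).fderiv]
    unfold pg
    rw [h3, fm_apply, fm_apply]
    apply Complex.ext <;> simp [cr]
  · have h1 : z ∉ closedBall p (2 * r) := fun h => hz (hcs h)
    filter_upwards [isClosed_closedBall.isOpen_compl.mem_nhds h1] with w hw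
    rw [hpg0 w hw, sub_zero]
  · intro N hN
    have i1 : Integrable (fun z => ‖J z‖ ^ 2) := int_sq hJ.continuous hJc
    have i2 : Integrable (fun z => ‖J z - pg T z‖ ^ 2) :=
      int_sq (hJ.sub hpgs).continuous (hJc.sub hpgc)
    have hpt : ∀ z, ‖J z - pg T z‖ ^ 2 ≤ ‖J z‖ ^ 2 +
        (ball p (2 * r)).indicator (fun _ => Q ^ 2) z := by
      intro z
      by_cases hz : z ∈ ball p (2 * r)
      · rw [indicator_of_mem hz]
        have h1 : ‖J z - pg T z‖ ≤ Q := by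
          calc _ ≤ ‖J z‖ + ‖pg T z‖ := norm_sub_le _ _
            _ ≤ M + 2 * (4 * M * C + 2 * M) := by
                gcongr
                · exact hM z
                · exact (norm_pg_le T z).trans (by gcongr; exact hTd z hz)
        have h2 : ‖J z - pg T z‖ ^ 2 ≤ Q ^ 2 := by gcongr
        have h3 : 0 ≤ ‖J z‖ ^ 2 := by positivity
        linarith
      · rw [indicator_of_notMem hz, add_zero]
        have h1 : pg T z = 0 := by
          have h2 : fderiv ℝ T z = 0 := by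
            -- `T ≥`-type argument not available: use continuity from outside
            have hcl : z ∈ closure (ball p (2 * r))ᶜ := subset_closure hz
            have hz' : z ∉ interior (closedBall p (2 * r)) := by
              rw [interior_closedBall _ (by positivity)]; exact hz
            have hcl2 : z ∈ closure (closedBall p (2 * r))ᶜ := by
              rw [closure_compl]; exact hz'
            have hfc : Continuous (fderiv ℝ T) := hTs.continuous_fderiv (by simp)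
            have hset : IsClosed {w | fderiv ℝ T w = 0} := isClosed_eq hfc continuous_const
            refine (hset.closure_subset_iff.2 ?_) hcl2
            intro w hw
            show fderiv ℝ T w = 0
            rw [(hT0 w hw).fderiv_eq]
            simp
          unfold pg
          rw [h2]
          apply Complex.ext <;> simp
        rw [h1, sub_zero]
    have i3 : Integrable ((ball p (2 * r)).indicator fun _ : ℂ => Q ^ 2) :=
      (integrable_indicator_iff isOpen_ball.measurableSet).2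
        (integrableOn_const measure_ball_lt_top.ne)
    have st1 : ∫ z in N, ‖J z - pg T z‖ ^ 2 ≤
        ∫ z in N, (‖J z‖ ^ 2 + (ball p (2 * r)).indicator (fun _ => Q ^ 2) z) :=
      integral_mono i2.integrableOn (i1.integrableOn.add i3.integrableOn) hpt
    have st2 : ∫ z in N, (‖J z‖ ^ 2 + (ball p (2 * r)).indicator (fun _ => Q ^ 2) z) =
        (∫ z in N, ‖J z‖ ^ 2) + ∫ z in N, (ball p (2 * r)).indicator (fun _ => Q ^ 2) z :=
      integral_add i1.integrableOn i3.integrableOn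
    have st3 : ∫ z in N, (ball p (2 * r)).indicator (fun _ => Q ^ 2) z ≤
        ∫ z, (ball p (2 * r)).indicator (fun _ => Q ^ 2) z :=
      setIntegral_le_integral i3 (Eventually.of_forall fun z =>
        indicator_nonneg (fun _ _ => sq_nonneg Q) z)
    have st4 : ∫ z, (ball p (2 * r)).indicator (fun _ => Q ^ 2) z ≤ ε := by
      rw [integral_indicator isOpen_ball.measurableSet, setIntegral_const, smul_eq_mul,
        Measure.real, Complex.volume_ball]
      refine le_trans (le_of_eq ?_) hr2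
      rw [mul_comm]
      congr 1
      rw [ENNReal.toReal_mul, ENNReal.toReal_pow, ENNReal.toReal_ofReal (by positivity)]
      simp
      ring
    rw [st2] at st1
    linarith

/-- killing a flow near finitely many points off the support of the source. -/
theorem kill_marks {J : ℂ → ℂ} (hJ : ContDiff ℝ ∞ J) (hJc : HasCompactSupport J) {N : Set ℂ}
    (hN : IsOpen N) {f : ℂ → ℝ} (hdv : ∀ z ∈ N, dv J z = f z) (P : Finset ℂ)
    (hP : ∀ p ∈ P, p ∈ N ∧ p ∉ tsupport f) {ε : ℝ} (hε : 0 < ε) :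
    ∃ J' : ℂ → ℂ, ContDiff ℝ ∞ J' ∧ HasCompactSupport J' ∧ (∀ z ∈ N, dv J' z = f z) ∧
      (∀ p ∈ P, ∀ᶠ z in 𝓝 p, J' z = 0) ∧
      ∫ z in N, ‖J' z‖ ^ 2 ≤ (∫ z in N, ‖J z‖ ^ 2) + ε := by
  classical
  induction P using Finset.induction_on generalizing ε with
  | empty => exact ⟨J, hJ, hJc, hdv, by simp, by linarith⟩
  | insert p P hp ih =>
    obtain ⟨J1, a1, a2, a3, a4, a5⟩ := ih (fun q hq => hP q (Finset.mem_insert_of_mem hq))
      (half_pos hε)
    obtain ⟨hpN, hpf⟩ := hP p (Finset.mem_insert_self _ _)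
    have hO : IsOpen (N ∩ (tsupport f)ᶜ ∩ (↑P : Set ℂ)ᶜ) :=
      (hN.inter (isClosed_tsupport f).isOpen_compl).inter P.finite_toSet.isClosed.isOpen_compl
    obtain ⟨R, hR, hRs⟩ := Metric.isOpen_iff.1 hO p ⟨⟨hpN, hpf⟩, by simpa using hp⟩
    obtain ⟨J2, b1, b2, b3, b4, b5, b6⟩ := kill_one a1 a2 hR (fun z hz => by
      rw [a3 z (hRs hz).1.1]
      exact image_eq_zero_of_notMem_tsupport (hRs hz).1.2) (half_pos hε)
    refine ⟨J2, b1, b2, fun z hz => by rw [b3, a3 z hz], fun q hq => ?_, ?_⟩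
    · rcases Finset.mem_insert.1 hq with rfl | hq
      · exact b4
      · have h1 : q ∉ ball p R := fun h => (hRs h).2 hq
        filter_upwards [a4 q hq, b5 q h1] with z h2 h3
        rw [h3, h2]
    · have := b6 N hN.measurableSet
      linarith

/-- **(C3), sharp, with marks**. -/
theorem exists_flow_marks {D : Set ℂ} {γ : ℝ → ℂ} (hJor : Jor D γ) {φ ψ : ℂ → ℂ}
    (B : Bih D (ball 0 1) φ ψ) {f : ℂ → ℝ} (hf : IsTest D f) (P : Finset ℂ)
    (hP : ∀ p ∈ P, p ∈ frontier D) {ε : ℝ} (hε : 0 < ε) :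
    ∃ (N : Set ℂ) (J : ℂ → ℂ), IsOpen N ∧ Bornology.IsBounded N ∧ closure D ⊆ N ∧
      ContDiff ℝ ∞ J ∧ HasCompactSupport J ∧ (∀ z ∈ N, dv J z = f z) ∧
      (∀ p ∈ P, ∀ᶠ z in 𝓝 p, J z = 0) ∧
      ∫ z in N, ‖J z‖ ^ 2 ≤ domainGreenForm φ f + ε := by
  obtain ⟨N, J, h1, h2, h3, h4, h5, h6, h7⟩ := exists_flow hJor B hf (half_pos hε)
  obtain ⟨J', a1, a2, a3, a4, a5⟩ := kill_marks h4 h5 h1 h6 P (fun p hp => ⟨h3
    (frontier_subset_closure (hP p hp)), fun h => by
      have h8 := hP p hp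
      rw [frontier, hJor.op.interior_eq] at h8
      exact h8.2 (hf.supp h)⟩) (half_pos hε)
  exact ⟨N, J', h1, h2, h3, a1, a2, a3, a4, by linarith⟩

end

end Crest.Agent.R144.ConP938
end

-- ▼ part R144/ConS_938

/-!
# R144, continuum side: `Jor` from the statements; Green form as a supremum (helper938)
-/

set_option autoImplicit false

open MeasureTheory Metric Set Filter Topology Laplacian InnerProductSpace
open scoped ComplexConjugate ContDiff Manifold

namespace Crest.Agent.R144.ConP938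

open Crest.Agent.R144.Con549 Crest.Agent.R144.Push938
open Crest.ProbabilityR.HexHeights (domainGreenForm IsC2JordanDomain)
open Crest.ProbabilityR.TriHeights (IsSmoothMarkedDomain)

noncomputable section


theorem jor_of_marked {D : Set ℂ} {γ : ℝ → ℂ} {θ : ℝ} (h : IsSmoothMarkedDomain D γ θ) :
    Jor D γ := by
  obtain ⟨h1, h2, h3, h4, h5, h6, h7, h8, -, -⟩ := h
  exact ⟨h1, h2, h3, h4.of_le (by norm_cast), h5, h6, h7, h8⟩

theorem marks_mem {D : Set ℂ} {γ : ℝ → ℂ} (h : Jor D γ) (θ : ℝ) : γ θ ∈ frontier D :=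
  h.rng ▸ ⟨θ, rfl⟩

variable {D : Set ℂ} {φ ψ : ℂ → ℂ}







end

end Crest.Agent.R144.ConP938
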