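import Crest.Agent.R144.Tp1_952

-- ▼ part R144/Tp2_952
section

/-!
# R144, block TP, helper952: the sector argument

`W a b` is the spectral density in the coordinates `a = k2 - k1/2`, `b = k2/2 - k1` (normal momenta of two of
the three frames); `M a b = (4/3)(a^2 - a b + b^2) = k1^2 - k1 k2 + k2^2`.
From the frame inequality in two frames and the symmetries: `M W -> L` as `(a,b) -> 0` between two axes.
-/

set_option autoImplicit false

open Filter Topology
open scoped Real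

noncomputable section

namespace Crest.Agent.R144.Tp952

theorem posR {x y : ℝ} (h : 0 < x * y) (hx : 0 ≤ x) : 0 < y := by
  by_contra hc
  exact absurd h (not_lt.2 (mul_nonpos_of_nonneg_of_nonpos hx (not_lt.1 hc)))

/-- hypotheses on the density in the sector `a, b > 0` -/
structure Sec (W : ℝ → ℝ → ℝ) (c0 : ℝ) : Prop where
  pos : 0 < c0
  le1 : c0 ≤ 1
  nonneg : ∀ a b, 0 < a → 0 < b → a < c0 → b < c0 → 0 ≤ W a b
  symm : ∀ a b, 0 < a → 0 < b → a < c0 → b < c0 → W b a = W a b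
  refl : ∀ a b, 0 < a → a < b → b < c0 → W (b - a) b = W a b
  frame : ∀ t x y z, 0 < x → x ≤ y → y ≤ z → z < c0 → 0 < x + t → (z + t) / 2 < c0 →
    (sg z - sg y) * (W y ((y + t) / 2) * W z ((z + t) / 2))
      + (sg y - sg x) * (W x ((x + t) / 2) * W y ((y + t) / 2))
      ≤ (sg z - sg x) * (W x ((x + t) / 2) * W z ((z + t) / 2))
  mono : ∀ t x y, 0 < x → x ≤ y → y < c0 → 0 < x + t → (y + t) / 2 < c0 →
    sg x * W x ((x + t) / 2) ≤ sg y * W y ((y + t) / 2)
  anti : ∀ t x y, 0 < x → x ≤ y → y < c0 → 0 < x + t → (y + t) / 2 < c0 →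
    (4 - sg y) * W y ((y + t) / 2) ≤ (4 - sg x) * W x ((x + t) / 2)

/-- `N(k)` in the coordinates `a, b` -/
def MM (a b : ℝ) : ℝ := 4 / 3 * (a ^ 2 - a * b + b ^ 2)

namespace Sec

variable {W : ℝ → ℝ → ℝ} {c0 : ℝ}

/-- values on the axis -/
def F (W : ℝ → ℝ → ℝ) (x : ℝ) : ℝ := sg (2 * x) * W (2 * x) x

theorem sgpos (h : Sec W c0) {x : ℝ} (hx : 0 < x) (hx' : x < c0) : 0 < sg x :=
  sg_pos hx (by linarith [h.le1, Real.pi_gt_three])

theorem sglt (h : Sec W c0) {x y : ℝ} (hx : 0 < x) (hxy : x < y) (hy : y < c0) : sg x < sg y :=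
  sg_strictMono hx.le hxy (by linarith [h.le1, Real.pi_gt_three])

theorem F_mono (h : Sec W c0) {x y : ℝ} (hx : 0 < x) (hxy : x ≤ y) (hy : 2 * y < c0) :
    F W x ≤ F W y := by
  have := h.mono 0 (2 * x) (2 * y) (by linarith) (by linarith) hy (by linarith) (by linarith)
  simpa [F] using this

theorem F_nonneg (h : Sec W c0) {x : ℝ} (hx : 0 < x) (hy : 2 * x < c0) : 0 ≤ F W x :=
  mul_nonneg (sg_nonneg _) (h.nonneg _ _ (by linarith) hx hy (by linarith))

theorem exists_L (h : Sec W c0) : ∃ L : ℝ, 0 ≤ L ∧ (∀ x, 0 < x → 2 * x < c0 → L ≤ F W x) ∧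
    ∀ ε > 0, ∃ x0, 0 < x0 ∧ 2 * x0 < c0 ∧ ∀ x, 0 < x → x ≤ x0 → F W x ≤ L + ε := by
  set S : Set ℝ := F W '' {x | 0 < x ∧ 2 * x < c0} with hS
  have hc := h.pos
  have hne : S.Nonempty := ⟨_, c0 / 4, ⟨by linarith, by linarith⟩, rfl⟩
  have hbd : BddBelow S := ⟨0, by
    rintro _ ⟨x, ⟨h1, h2⟩, rfl⟩; exact h.F_nonneg h1 h2⟩
  refine ⟨sInf S, le_csInf hne (by rintro _ ⟨x, ⟨h1, h2⟩, rfl⟩; exact h.F_nonneg h1 h2),
    fun x h1 h2 => csInf_le hbd ⟨x, ⟨h1, h2⟩, rfl⟩, fun ε hε => ?_⟩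
  obtain ⟨_, ⟨x0, ⟨h1, h2⟩, rfl⟩, h3⟩ := exists_lt_of_csInf_lt hne (lt_add_of_pos_right (sInf S) hε)
  exact ⟨x0, h1, h2, fun x hx hx' => (h.F_mono hx hx' h2).trans h3.le⟩

/-- The far point `(T, (T + 3 t)/2)` compared with the axis point `(T - t, (T - t)/2)`. -/
theorem far_le (h : Sec W c0) {T t : ℝ} (ht : 0 < t) (htT : t < T) (hT : (T + 3 * t) < c0) :
    (4 - sg ((T + 3 * t) / 2)) * (sg (T - t) * W T ((T + 3 * t) / 2)) ≤ 4 * F W ((T - t) / 2) := by
  have hc := h.le1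
  have h1 := h.anti (3 / 2 * (T - t)) ((T - t) / 2) ((T + 3 * t) / 2) (by linarith) (by linarith)
    (by linarith) (by linarith) (by linarith)
  have e1 : ((T + 3 * t) / 2 + 3 / 2 * (T - t)) / 2 = T := by ring
  have e2 : ((T - t) / 2 + 3 / 2 * (T - t)) / 2 = T - t := by ring
  rw [e1, e2] at h1
  rw [h.symm T ((T + 3 * t) / 2) (by linarith) (by linarith) (by linarith) (by linarith)] at h1
  rw [h.symm (T - t) ((T - t) / 2) (by linarith) (by linarith) (by linarith) (by linarith)] at h1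
  have h2 : F W ((T - t) / 2) = sg (T - t) * W (T - t) ((T - t) / 2) := by
    unfold F; rw [show 2 * ((T - t) / 2) = T - t by ring]
  rw [h2]
  have h3 := sg_nonneg (T - t)
  have h4 := sg_nonneg ((T - t) / 2)
  have h5 : 0 ≤ W (T - t) ((T - t) / 2) :=
    h.nonneg _ _ (by linarith) (by linarith) (by linarith) (by linarith)
  calc (4 - sg ((T + 3 * t) / 2)) * (sg (T - t) * W T ((T + 3 * t) / 2))
      = sg (T - t) * ((4 - sg ((T + 3 * t) / 2)) * W T ((T + 3 * t) / 2)) := by ring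
    _ ≤ sg (T - t) * ((4 - sg ((T - t) / 2)) * W (T - t) ((T - t) / 2)) :=
        mul_le_mul_of_nonneg_left h1 h3
    _ ≤ sg (T - t) * (4 * W (T - t) ((T - t) / 2)) := by
        apply mul_le_mul_of_nonneg_left _ h3
        apply mul_le_mul_of_nonneg_right _ h5
        linarith
    _ = _ := by ring

theorem far_pos (h : Sec W c0) {T t : ℝ} (ht : 0 < t) (htT : t < T) (hT : (T + 3 * t) < c0)
    (hF : 0 < F W ((T - t) / 2)) : 0 < W T ((T + 3 * t) / 2) := by
  have h1 := h.mono (3 / 2 * (T - t)) ((T - t) / 2) ((T + 3 * t) / 2) (by linarith) (by linarith)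
    (by linarith) (by linarith) (by linarith)
  have e1 : ((T + 3 * t) / 2 + 3 / 2 * (T - t)) / 2 = T := by ring
  have e2 : ((T - t) / 2 + 3 / 2 * (T - t)) / 2 = T - t := by ring
  rw [e1, e2] at h1
  rw [h.symm T ((T + 3 * t) / 2) (by linarith) (by linarith) (by linarith) (by linarith)] at h1
  rw [h.symm (T - t) ((T - t) / 2) (by linarith) (by linarith) (by linarith) (by linarith)] at h1
  have h2 : F W ((T - t) / 2) = sg (T - t) * W (T - t) ((T - t) / 2) := by
    unfold F; rw [show 2 * ((T - t) / 2) = T - t by ring]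
  rw [h2] at hF
  have h5 : 0 < W (T - t) ((T - t) / 2) := by
    rcases (h.nonneg (T - t) ((T - t) / 2) (by linarith) (by linarith) (by linarith)
      (by linarith)).eq_or_lt with h6 | h6
    · rw [← h6, mul_zero] at hF; exact absurd hF (lt_irrefl _)
    · exact h6
  have h6 : 0 < sg ((T - t) / 2) := h.sgpos (by linarith) (by linarith)
  have h7 : 0 < sg ((T + 3 * t) / 2) * W T ((T + 3 * t) / 2) := lt_of_lt_of_le (mul_pos h6 h5) h1
  exact posR h7 (sg_nonneg _)

/-- bound of the far value -/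
theorem far_bound (h : Sec W c0) {η L' a t : ℝ} (hη : 0 < η) (hη1 : η < 1 / 2) (hL' : 0 ≤ L')
    (ha : 0 < a) (ht : 0 < t) (hta : t ≤ a) (hsm : 5 * a / η < c0) (hsm2 : (5 * a / η) ^ 2 ≤ η)
    (hF : F W ((a / η - t) / 2) ≤ L') :
    sg (a / η) * W (a / η) ((a / η + 3 * t) / 2) * (1 - η) ^ 4 ≤ L' := by
  set T := a / η with hT
  have haT : a = η * T := by rw [hT]; field_simp
  have hT0 : 0 < T := by rw [hT]; positivity
  have htT : t < T := by
    have : η * T < 1 * T := mul_lt_mul_of_pos_right (by linarith) hT0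
    linarith
  have h5 : 5 * a / η = 5 * T := by rw [hT]; ring
  rw [h5] at hsm hsm2
  have hc := h.le1
  have hfar := h.far_le ht htT (by linarith)
  have hW0 : 0 ≤ W T ((T + 3 * t) / 2) :=
    h.nonneg _ _ hT0 (by linarith) (by linarith) (by linarith)
  -- lower bounds
  have hb2 : sg ((T + 3 * t) / 2) ≤ 4 * η := by
    refine (sg_le_sq _).trans ?_
    have : ((T + 3 * t) / 2) ^ 2 ≤ (5 * T) ^ 2 := by
      apply pow_le_pow_left₀ (by linarith); linarith
    linarith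
  have hTt : (1 - η) ^ 3 * T ^ 2 ≤ sg (T - t) := by
    have h1 : |T - t| ≤ 1 := by rw [abs_of_pos (by linarith)]; linarith
    refine le_trans ?_ (sg_ge_sq h1)
    have h2 : (T - t) ^ 2 ≤ η := by
      have : (T - t) ^ 2 ≤ (5 * T) ^ 2 := by
        apply pow_le_pow_left₀ (by linarith); linarith
      linarith
    have h3 : ((1 - η) * T) ^ 2 ≤ (T - t) ^ 2 := by
      apply pow_le_pow_left₀ (mul_nonneg (by linarith) hT0.le)
      nlinarith
    calc (1 - η) ^ 3 * T ^ 2 = (1 - η) * ((1 - η) * T) ^ 2 := by ring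
      _ ≤ (1 - (T - t) ^ 2) * (T - t) ^ 2 := by
        apply mul_le_mul (by linarith) h3 (by positivity) (by linarith)
  have hsT : sg T ≤ T ^ 2 := sg_le_sq T
  have hA : 4 * (1 - η) * (sg (T - t) * W T ((T + 3 * t) / 2)) ≤ 4 * L' := by
    refine le_trans ?_ (hfar.trans (by linarith))
    apply mul_le_mul_of_nonneg_right _ (mul_nonneg (sg_nonneg _) hW0)
    linarith
  have hB : (1 - η) * ((1 - η) ^ 3 * T ^ 2 * W T ((T + 3 * t) / 2)) ≤ L' := by
    have h1 : (1 - η) ^ 3 * T ^ 2 * W T ((T + 3 * t) / 2) ≤ sg (T - t) * W T ((T + 3 * t) / 2) :=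
      mul_le_mul_of_nonneg_right hTt hW0
    have h2 := mul_le_mul_of_nonneg_left h1 (show (0 : ℝ) ≤ 1 - η by linarith)
    linarith
  calc sg T * W T ((T + 3 * t) / 2) * (1 - η) ^ 4
      ≤ T ^ 2 * W T ((T + 3 * t) / 2) * (1 - η) ^ 4 := by
        apply mul_le_mul_of_nonneg_right _ (by positivity)
        exact mul_le_mul_of_nonneg_right hsT hW0
    _ = (1 - η) * ((1 - η) ^ 3 * T ^ 2 * W T ((T + 3 * t) / 2)) := by ring
    _ ≤ L' := hB

/-- value on the axis `(t, 2t)` -/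
theorem axis_val (h : Sec W c0) {t : ℝ} (ht : 0 < t) (ht' : 2 * t < c0) :
    sg (2 * t) * W t (2 * t) = F W t := by
  unfold F
  rw [h.symm (2 * t) t (by linarith) ht ht' (by linarith)]

set_option maxHeartbeats 1000000 in
/-- **upper bound** -/
theorem upper (h : Sec W c0) {η L' a t : ℝ} (hη : 0 < η) (hη1 : η < 1 / 4) (hL' : 0 ≤ L')
    (ha : 0 < a) (ht : 0 < t) (hta : t ≤ a) (hsm : 5 * a / η < c0) (hsm2 : (5 * a / η) ^ 2 ≤ η)
    (hF : F W ((a / η - t) / 2) ≤ L') (hF0 : F W t ≤ L') :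
    (a ^ 2 + 3 * t ^ 2) * W a ((a + 3 * t) / 2) * ((1 - η) ^ 4 * (1 - 4 / 3 * (η + 2 * η ^ 2))) ≤ L' := by
  have hfb := h.far_bound hη (by linarith) hL' ha ht hta hsm hsm2 hF
  set T := a / η with hT
  have haT : a = η * T := by rw [hT]; field_simp
  have hT0 : 0 < T := by rw [hT]; positivity
  have h5 : 5 * a / η = 5 * T := by rw [hT]; ring
  rw [h5] at hsm hsm2
  have hc := h.le1
  have haT' : a < T := by nlinarith
  set w0 := W t (2 * t) with hw0
  set w1 := W a ((a + 3 * t) / 2) with hw1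
  set w2 := W T ((T + 3 * t) / 2) with hw2
  have hw1n : 0 ≤ w1 := h.nonneg _ _ ha (by linarith) (by linarith) (by linarith)
  have hw0n : 0 ≤ w0 := h.nonneg _ _ ht (by linarith) (by linarith) (by linarith)
  have hw2n : 0 ≤ w2 := h.nonneg _ _ hT0 (by linarith) (by linarith) (by linarith)
  have hfr := h.frame (3 * t) t a T ht hta haT'.le (by linarith) (by linarith) (by linarith)
  rw [show (t + 3 * t) / 2 = 2 * t by ring] at hfr
  rw [← hw0, ← hw1, ← hw2] at hfr
  have hax := h.axis_val ht (by linarith)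
  rw [← hw0] at hax
  have hs21 : 0 < sg T - sg a := sub_pos.2 (h.sglt ha haT' (by linarith))
  have hs10 : 0 ≤ sg a - sg t := sub_nonneg.2 (sg_mono ht.le hta (by linarith [Real.pi_gt_three]))
  have hs2 : 0 < sg T := h.sgpos hT0 (by linarith)
  have hs0 : 0 < sg t := h.sgpos ht (by linarith)
  -- bounds of the sg's
  have hτ : ∀ x, 0 < x → x ≤ 5 * T → (1 - η) * x ^ 2 ≤ sg x := by
    intro x hx hx'
    have h1 : |x| ≤ 1 := by rw [abs_of_pos hx]; linarith
    refine le_trans ?_ (sg_ge_sq h1)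
    have h2 : x ^ 2 ≤ η := by
      have : x ^ 2 ≤ (5 * T) ^ 2 := pow_le_pow_left₀ hx.le hx' 2
      linarith
    exact mul_le_mul_of_nonneg_right (by linarith) (sq_nonneg _)
  have hb1 : sg a ≤ 2 * η ^ 2 * sg T := by
    have h1 : sg a ≤ η ^ 2 * T ^ 2 := by
      refine (sg_le_sq a).trans ?_
      rw [haT]; nlinarith
    have h2 := hτ T hT0 (by linarith)
    have h3 : T ^ 2 ≤ 2 * sg T := by nlinarith [sq_nonneg T]
    nlinarith [sq_nonneg η]
  have hb2 : (1 - η) * (4 * t ^ 2) ≤ sg (2 * t) := by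
    have := hτ (2 * t) (by linarith) (by linarith)
    linarith [this, show (1 - η) * (2 * t) ^ 2 = (1 - η) * (4 * t ^ 2) by ring]
  have hb3 : (1 - η) * a ^ 2 ≤ sg a := hτ a ha (by linarith)
  have hb4 : sg t ≤ t ^ 2 := sg_le_sq t
  have hP : (0 : ℝ) ≤ (1 - η) ^ 4 := by positivity
  -- multiply the frame inequality
  have key : w1 * ((sg T - sg a) * sg (2 * t) + (sg a - sg t) * sg T) * (1 - η) ^ 4 ≤ L' * sg T := by
    rcases hw1n.eq_or_lt with hz | hw1p
    · rw [← hz]; simp only [zero_mul]; exact mul_nonneg hL' hs2.le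
    have hm := h.mono (3 * t) a T ha haT'.le (by linarith) (by linarith) (by linarith)
    rw [← hw1, ← hw2] at hm
    have hw2p : 0 < w2 := by
      have h1 : 0 < sg T * w2 := lt_of_lt_of_le (mul_pos (h.sgpos ha (by linarith)) hw1p) hm
      exact posR h1 hs2.le
    have hw0p : 0 < w0 := by
      rcases hw0n.eq_or_lt with hz | hp
      · exfalso
        rw [← hz] at hfr
        simp only [zero_mul, mul_zero, add_zero] at hfr
        have := mul_pos hs21 (mul_pos hw1p hw2p)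
        linarith
      · exact hp
    -- `w1 ((s2-s1)/w0 + (s1-s0)/w2) ≤ s2 - s0`
    have h1 : w1 * ((sg T - sg a) / w0 + (sg a - sg t) / w2) ≤ sg T := by
      have h2 : w1 * ((sg T - sg a) / w0 + (sg a - sg t) / w2)
          = ((sg T - sg a) * (w1 * w2) + (sg a - sg t) * (w0 * w1)) / (w0 * w2) := by
        field_simp
      rw [h2, div_le_iff₀ (mul_pos hw0p hw2p)]
      refine hfr.trans ?_
      apply mul_le_mul_of_nonneg_right _ (mul_pos hw0p hw2p).le
      linarith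
    have h3 : sg (2 * t) * (1 - η) ^ 4 ≤ L' / w0 := by
      rw [le_div_iff₀ hw0p]
      have h4 : (1 - η) ^ 4 ≤ 1 := pow_le_one₀ (by linarith) (by linarith)
      calc sg (2 * t) * (1 - η) ^ 4 * w0 = F W t * (1 - η) ^ 4 := by rw [← hax]; ring
        _ ≤ F W t * 1 := mul_le_mul_of_nonneg_left h4 (h.F_nonneg ht (by linarith))
        _ ≤ L' := by linarith
    have h5' : sg T * (1 - η) ^ 4 ≤ L' / w2 := by
      rw [le_div_iff₀ hw2p]
      linarith [hfb]
    calc w1 * ((sg T - sg a) * sg (2 * t) + (sg a - sg t) * sg T) * (1 - η) ^ 4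
        = w1 * ((sg T - sg a) * (sg (2 * t) * (1 - η) ^ 4)
            + (sg a - sg t) * (sg T * (1 - η) ^ 4)) := by ring
      _ ≤ w1 * ((sg T - sg a) * (L' / w0) + (sg a - sg t) * (L' / w2)) := by
          apply mul_le_mul_of_nonneg_left _ hw1n
          exact add_le_add (mul_le_mul_of_nonneg_left h3 hs21.le)
            (mul_le_mul_of_nonneg_left h5' hs10)
      _ = L' * (w1 * ((sg T - sg a) / w0 + (sg a - sg t) / w2)) := by ring
      _ ≤ L' * sg T := mul_le_mul_of_nonneg_left h1 hL'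
  -- lower bound of the bracket
  have hbr : sg T * ((1 - 4 / 3 * (η + 2 * η ^ 2)) * (a ^ 2 + 3 * t ^ 2))
      ≤ (sg T - sg a) * sg (2 * t) + (sg a - sg t) * sg T := by
    have h1 : sg T * (1 - 2 * η ^ 2) ≤ sg T - sg a := by linarith
    have h2 : sg T * (1 - 2 * η ^ 2) * sg (2 * t) ≤ (sg T - sg a) * sg (2 * t) :=
      mul_le_mul_of_nonneg_right h1 (sg_nonneg _)
    have h3 : sg T * ((1 - 2 * η ^ 2) * ((1 - η) * (4 * t ^ 2))) ≤ sg T * (1 - 2 * η ^ 2) * sg (2 * t) := by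
      rw [mul_assoc]
      apply mul_le_mul_of_nonneg_left _ hs2.le
      apply mul_le_mul_of_nonneg_left hb2
      nlinarith
    have h4 : sg T * ((1 - η) * a ^ 2 - t ^ 2) ≤ (sg a - sg t) * sg T := by
      rw [mul_comm (sg a - sg t)]
      exact mul_le_mul_of_nonneg_left (by linarith) hs2.le
    have h6 : (1 - 4 / 3 * (η + 2 * η ^ 2)) * (a ^ 2 + 3 * t ^ 2)
        ≤ (1 - 2 * η ^ 2) * ((1 - η) * (4 * t ^ 2)) + ((1 - η) * a ^ 2 - t ^ 2) := by
      have e : (1 - 2 * η ^ 2) * ((1 - η) * (4 * t ^ 2)) + ((1 - η) * a ^ 2 - t ^ 2)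
          - (1 - 4 / 3 * (η + 2 * η ^ 2)) * (a ^ 2 + 3 * t ^ 2)
          = (1 / 3 * η + 8 / 3 * η ^ 2) * a ^ 2 + 8 * η ^ 3 * t ^ 2 := by ring
      have : 0 ≤ (1 / 3 * η + 8 / 3 * η ^ 2) * a ^ 2 + 8 * η ^ 3 * t ^ 2 := by positivity
      linarith
    have h7 := mul_le_mul_of_nonneg_left h6 hs2.le
    linarith
  have hfin : sg T * ((a ^ 2 + 3 * t ^ 2) * w1 * ((1 - η) ^ 4 * (1 - 4 / 3 * (η + 2 * η ^ 2))))
      ≤ sg T * L' := by
    have h1 := mul_le_mul_of_nonneg_right (mul_le_mul_of_nonneg_left hbr hw1n) hP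
    calc sg T * ((a ^ 2 + 3 * t ^ 2) * w1 * ((1 - η) ^ 4 * (1 - 4 / 3 * (η + 2 * η ^ 2))))
        = w1 * (sg T * ((1 - 4 / 3 * (η + 2 * η ^ 2)) * (a ^ 2 + 3 * t ^ 2))) * (1 - η) ^ 4 := by ring
      _ ≤ _ := h1
      _ ≤ L' * sg T := key
      _ = _ := by ring
  exact le_of_mul_le_mul_left hfin hs2

set_option maxHeartbeats 1000000 in
/-- **lower bound**, at a point `(x, (x + 3 t)/2)` with `x ≤ t` -/
theorem lower (h : Sec W c0) {η L L' x t : ℝ} (hη : 0 < η) (hη1 : η < 1 / 4) (hL : 0 < L)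
    (hLL : L ≤ L') (hx : 0 < x) (hxt : x ≤ t) (hsm : 5 * t / η < c0)
    (hsm2 : (5 * t / η) ^ 2 ≤ η)
    (hF : F W ((t / η - t) / 2) ≤ L') (hFL : L ≤ F W ((t / η - t) / 2)) (hF0 : L ≤ F W t) :
    L * (1 - 2 * η ^ 2) ≤ (x ^ 2 + 3 * t ^ 2) * W x ((x + 3 * t) / 2)
      * (1 + (1 - L / L' * (1 - η) ^ 5) / 3) := by
  have ht : 0 < t := hx.trans_le hxt
  have hL'0 : 0 < L' := hL.trans_le hLL
  have hfb := h.far_bound hη (by linarith) hL'0.le ht ht le_rfl hsm hsm2 hF
  set T := t / η with hT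
  have htT : t = η * T := by rw [hT]; field_simp
  have hT0 : 0 < T := by rw [hT]; positivity
  have h5 : 5 * t / η = 5 * T := by rw [hT]; ring
  rw [h5] at hsm hsm2
  have hc := h.le1
  have htT' : t < T := by nlinarith
  have hw2p := h.far_pos ht htT' (by linarith) (hL.trans_le hFL)
  set w0 := W t (2 * t) with hw0
  set w1 := W x ((x + 3 * t) / 2) with hw1
  set w2 := W T ((T + 3 * t) / 2) with hw2
  have hw1n : 0 ≤ w1 := h.nonneg _ _ hx (by linarith) (by linarith) (by linarith)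
  have hfr := h.frame (3 * t) x t T hx hxt htT'.le (by linarith) (by linarith) (by linarith)
  rw [show (t + 3 * t) / 2 = 2 * t by ring] at hfr
  rw [← hw0, ← hw1, ← hw2] at hfr
  have hax := h.axis_val ht (by linarith)
  rw [← hw0] at hax
  have hs2 : 0 < sg T := h.sgpos hT0 (by linarith)
  have hs2t : 0 < sg (2 * t) := h.sgpos (by linarith) (by linarith)
  have hw0p : 0 < w0 := by
    have h1 : 0 < sg (2 * t) * w0 := by rw [hax]; linarith
    exact posR h1 hs2t.le
  have hτ : ∀ y, 0 < y → y ≤ 5 * T → (1 - η) * y ^ 2 ≤ sg y := by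
    intro y hy hy'
    have h1 : |y| ≤ 1 := by rw [abs_of_pos hy]; linarith
    refine le_trans ?_ (sg_ge_sq h1)
    have h2 : y ^ 2 ≤ η := by
      have : y ^ 2 ≤ (5 * T) ^ 2 := pow_le_pow_left₀ hy.le hy' 2
      linarith
    exact mul_le_mul_of_nonneg_right (by linarith) (sq_nonneg _)
  have hb1 : sg t ≤ 2 * η ^ 2 * sg T := by
    have h1 : sg t ≤ η ^ 2 * T ^ 2 := by
      refine (sg_le_sq t).trans ?_
      rw [htT]; nlinarith
    have h2 := hτ T hT0 (by linarith)
    have h3 : T ^ 2 ≤ 2 * sg T := by nlinarith [sq_nonneg T]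
    nlinarith [sq_nonneg η]
  have hb3 : (1 - η) * t ^ 2 ≤ sg t := hτ t ht (by linarith)
  have hb4 : sg x ≤ x ^ 2 := sg_le_sq x
  have hb5 : sg (2 * t) ≤ 4 * t ^ 2 := by
    have := sg_le_sq (2 * t); linarith [this, show (2 * t) ^ 2 = 4 * t ^ 2 by ring]
  have hxt' : 0 ≤ sg t - sg x := sub_nonneg.2 (sg_mono hx.le hxt (by linarith [Real.pi_gt_three]))
  -- `s2 - s_t ≤ w1 ((s2 - s_x)/w0 - (s_t - s_x)/w2)`
  have h1 : sg T - sg t ≤ w1 * ((sg T - sg x) / w0 - (sg t - sg x) / w2) := by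
    have h2 : w1 * ((sg T - sg x) / w0 - (sg t - sg x) / w2)
        = ((sg T - sg x) * (w1 * w2) - (sg t - sg x) * (w1 * w0)) / (w0 * w2) := by
      field_simp
    rw [h2, le_div_iff₀ (mul_pos hw0p hw2p)]
    linarith
  have h3 : (sg T - sg x) / w0 ≤ sg T * (4 * t ^ 2) / L := by
    rw [div_le_div_iff₀ hw0p hL]
    have h4 : L ≤ sg (2 * t) * w0 := by rw [hax]; exact hF0
    have h6 : sg (2 * t) * w0 ≤ 4 * t ^ 2 * w0 := mul_le_mul_of_nonneg_right hb5 hw0p.le
    have h7 : (sg T - sg x) ≤ sg T := by linarith [sg_nonneg x]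
    calc (sg T - sg x) * L ≤ sg T * L := mul_le_mul_of_nonneg_right h7 hL.le
      _ ≤ sg T * (4 * t ^ 2 * w0) := mul_le_mul_of_nonneg_left (by linarith) hs2.le
      _ = _ := by ring
  set q := L / L' * (1 - η) ^ 4 with hq
  have hq0 : 0 ≤ q := by rw [hq]; positivity
  have hq1 : q ≤ 1 := by
    rw [hq]
    have h6 : L / L' ≤ 1 := (div_le_one hL'0).2 hLL
    have h7 : (1 - η) ^ 4 ≤ 1 := pow_le_one₀ (by linarith) (by linarith)
    have h8 : 0 ≤ (1 - η) ^ 4 := by positivity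
    calc L / L' * (1 - η) ^ 4 ≤ 1 * 1 := mul_le_mul h6 h7 h8 (by norm_num)
      _ = 1 := one_mul 1
  have h4 : sg T * (q * (sg t - sg x)) / L ≤ (sg t - sg x) / w2 := by
    rw [div_le_div_iff₀ hL hw2p, hq]
    have h6 : sg T * w2 * (1 - η) ^ 4 ≤ L' := hfb
    have h7 : L / L' * (sg T * w2 * (1 - η) ^ 4) ≤ L := by
      calc L / L' * (sg T * w2 * (1 - η) ^ 4) ≤ L / L' * L' :=
            mul_le_mul_of_nonneg_left h6 (by positivity)
        _ = L := by field_simp
    have h8 := mul_le_mul_of_nonneg_right h7 hxt'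
    calc sg T * (L / L' * (1 - η) ^ 4 * (sg t - sg x)) * w2
        = L / L' * (sg T * w2 * (1 - η) ^ 4) * (sg t - sg x) := by ring
      _ ≤ L * (sg t - sg x) := h8
      _ = _ := by ring
  have h6 : sg T - sg t ≤ w1 * (sg T * (4 * t ^ 2) / L - sg T * (q * (sg t - sg x)) / L) := by
    refine h1.trans (mul_le_mul_of_nonneg_left ?_ hw1n)
    linarith
  have h7 : L * (sg T - sg t) ≤ w1 * sg T * (4 * t ^ 2 - q * (sg t - sg x)) := by
    have := mul_le_mul_of_nonneg_left h6 hL.le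
    calc L * (sg T - sg t) ≤ L * (w1 * (sg T * (4 * t ^ 2) / L - sg T * (q * (sg t - sg x)) / L)) := this
      _ = _ := by field_simp
  have h8 : 4 * t ^ 2 - q * (sg t - sg x)
      ≤ (x ^ 2 + 3 * t ^ 2) * (1 + (1 - L / L' * (1 - η) ^ 5) / 3) := by
    have h9 : q * ((1 - η) * t ^ 2 - x ^ 2) ≤ q * (sg t - sg x) :=
      mul_le_mul_of_nonneg_left (by linarith) hq0
    have h10 : q * x ^ 2 ≤ x ^ 2 := by nlinarith [sq_nonneg x]
    have e : L / L' * (1 - η) ^ 5 = q * (1 - η) := by rw [hq]; ring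
    rw [e]
    have h11 : q * (1 - η) ≤ 1 := by nlinarith
    have h12 : 0 ≤ (1 - q * (1 - η)) * x ^ 2 := mul_nonneg (by linarith) (sq_nonneg _)
    nlinarith
  have h9 : sg T * (L * (1 - 2 * η ^ 2)) ≤ sg T * ((x ^ 2 + 3 * t ^ 2) * w1
      * (1 + (1 - L / L' * (1 - η) ^ 5) / 3)) := by
    have hq1 := mul_le_mul_of_nonneg_left hb1 hL.le
    calc sg T * (L * (1 - 2 * η ^ 2)) ≤ L * (sg T - sg t) := by linarith
      _ ≤ w1 * sg T * (4 * t ^ 2 - q * (sg t - sg x)) := h7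
      _ ≤ w1 * sg T * ((x ^ 2 + 3 * t ^ 2) * (1 + (1 - L / L' * (1 - η) ^ 5) / 3)) :=
          mul_le_mul_of_nonneg_left h8 (mul_nonneg hw1n hs2.le)
      _ = _ := by ring
  exact le_of_mul_le_mul_left h9 hs2

set_option maxHeartbeats 1000000 in
/-- **The sector theorem**: `M W → L` on the wedge `a < b < 2 a`. -/
theorem limit (h : Sec W c0) : ∃ L : ℝ, 0 ≤ L ∧ ∀ ε > 0, ∃ δ > 0, ∀ a b, 0 < a → a < b → b < 2 * a →
    a < δ → |MM a b * W a b - L| ≤ ε := by
  obtain ⟨L, hL0, hLle, hLε⟩ := h.exists_L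
  refine ⟨L, hL0, fun ε hε => ?_⟩
  -- choice of `η`
  have hup : Tendsto (fun η : ℝ => (L + η) / ((1 - η) ^ 4 * (1 - 4 / 3 * (η + 2 * η ^ 2)))) (𝓝[>] 0) (𝓝 L) := by
    have h1 : ContinuousAt (fun η : ℝ => (L + η) / ((1 - η) ^ 4 * (1 - 4 / 3 * (η + 2 * η ^ 2)))) 0 := by
      apply ContinuousAt.div (by fun_prop) (by fun_prop)
      norm_num
    have h2 := h1.tendsto
    simp only [add_zero, sub_zero, one_pow, ne_eq, OfNat.ofNat_ne_zero, not_false_eq_true, zero_pow,
      mul_zero, mul_one, div_one] at h2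
    exact h2.mono_left nhdsWithin_le_nhds
  have hE1 : ∀ᶠ η in 𝓝[>] (0 : ℝ), (L + η) / ((1 - η) ^ 4 * (1 - 4 / 3 * (η + 2 * η ^ 2))) < L + ε :=
    hup.eventually (gt_mem_nhds (by linarith))
  have hE2 : ∀ᶠ η in 𝓝[>] (0 : ℝ), η < 1 / 4 :=
    (tendsto_id.mono_left nhdsWithin_le_nhds).eventually (gt_mem_nhds (by norm_num))
  have hE3 : ∀ᶠ η in 𝓝[>] (0 : ℝ), 0 < L →
      L - ε < L * (1 - 2 * η ^ 2) / (1 + (1 - L / (L + η) * (1 - η) ^ 5) / 3) := by
    rcases hL0.eq_or_lt with hz | hLp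
    · filter_upwards with η h1
      rw [← hz] at h1; exact absurd h1 (lt_irrefl _)
    · have h1 : ContinuousAt (fun η : ℝ => L * (1 - 2 * η ^ 2) / (1 + (1 - L / (L + η) * (1 - η) ^ 5) / 3)) 0 := by
        apply ContinuousAt.div (by fun_prop)
        · have : ContinuousAt (fun η : ℝ => L / (L + η)) 0 :=
            ContinuousAt.div (by fun_prop) (by fun_prop) (by simpa using hLp.ne')
          fun_prop
        · simp only [add_zero, sub_zero, one_pow, mul_one]
          rw [div_self hLp.ne']; norm_num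
      have h2 := h1.tendsto
      simp only [add_zero, sub_zero, one_pow, mul_one, ne_eq, OfNat.ofNat_ne_zero,
        not_false_eq_true, zero_pow, mul_zero] at h2
      rw [div_self hLp.ne', sub_self, zero_div, add_zero, div_one] at h2
      have h2' : Tendsto (fun η : ℝ => L * (1 - 2 * η ^ 2) / (1 + (1 - L / (L + η) * (1 - η) ^ 5) / 3))
          (𝓝[>] 0) (𝓝 L) := h2.mono_left nhdsWithin_le_nhds
      have h3 := h2'.eventually (lt_mem_nhds (show L - ε < L by linarith))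
      filter_upwards [h3] with η h4 _
      exact h4
  have hE4 : ∀ᶠ η in 𝓝[>] (0 : ℝ), 0 < η := eventually_mem_nhdsWithin
  obtain ⟨η, ⟨⟨h1, h2⟩, h3⟩, h4⟩ := ((hE1.and hE2).and hE3).and hE4 |>.exists
  obtain ⟨x0, hx0, hx0', hFx⟩ := hLε η h4
  -- smallness
  obtain ⟨δ, hδ, hδ'⟩ : ∃ δ > 0, ∀ a, 0 < a → a < δ → 5 * a / η < c0 ∧ (5 * a / η) ^ 2 ≤ η ∧
      a / η < x0 := by
    have hη' : 0 < Real.sqrt η := Real.sqrt_pos.2 h4
    refine ⟨min (η * c0 / 5) (min (η * Real.sqrt η / 5) (η * x0)), ?_, ?_⟩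
    · have := h.pos
      apply lt_min (by positivity) (lt_min (by positivity) (by positivity))
    · intro a ha ha'
      have ha1 := lt_of_lt_of_le ha' (min_le_left _ _)
      have ha2 := lt_of_lt_of_le ha' ((min_le_right _ _).trans (min_le_left _ _))
      have ha3 := lt_of_lt_of_le ha' ((min_le_right _ _).trans (min_le_right _ _))
      refine ⟨?_, ?_, ?_⟩
      · rw [div_lt_iff₀ h4]; nlinarith
      · have : 5 * a / η ≤ Real.sqrt η := by
          rw [div_le_iff₀ h4]; nlinarith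
        calc (5 * a / η) ^ 2 ≤ (Real.sqrt η) ^ 2 := pow_le_pow_left₀ (by positivity) this 2
          _ = η := Real.sq_sqrt h4.le
      · rw [div_lt_iff₀ h4]; nlinarith
  refine ⟨δ, hδ, fun a b ha hab hba haδ => ?_⟩
  obtain ⟨hs1, hs2, hs3⟩ := hδ' a ha haδ
  have hden : 0 < (1 - η) ^ 4 * (1 - 4 / 3 * (η + 2 * η ^ 2)) := by
    have e1 : 0 < 1 - η := by linarith
    have e2 : 0 < 1 - 4 / 3 * (η + 2 * η ^ 2) := by nlinarith
    positivity
  have haη : 4 * a < a / η := by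
    rw [lt_div_iff₀ h4]; nlinarith
  have hac : 20 * a < c0 := by
    have : 5 * (4 * a) < 5 * (a / η) := by linarith
    have e : 5 * a / η = 5 * (a / η) := by ring
    linarith
  -- upper
  have hU : MM a b * W a b ≤ L + ε := by
    have ht : 0 < (2 * b - a) / 3 := by linarith
    have htx : (2 * b - a) / 3 ≤ x0 := by linarith
    have hu := h.upper (L' := L + η) (t := (2 * b - a) / 3) h4 h2 (by linarith) ha ht (by linarith)
      hs1 hs2 (hFx _ (by linarith) (by linarith)) (hFx _ ht htx)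
    rw [show (a + 3 * ((2 * b - a) / 3)) / 2 = b by ring] at hu
    rw [show a ^ 2 + 3 * ((2 * b - a) / 3) ^ 2 = MM a b by unfold MM; ring] at hu
    have := (le_div_iff₀ hden).2 hu
    linarith
  -- lower
  have hLo : L - ε ≤ MM a b * W a b := by
    rcases hL0.eq_or_lt with hz | hLp
    · rw [← hz]
      have hM : 0 ≤ MM a b := by
        unfold MM; nlinarith [sq_nonneg (a - b), sq_nonneg a, sq_nonneg b]
      have := mul_nonneg hM (h.nonneg a b ha (by linarith) (by linarith) (by linarith))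
      linarith
    · have hx : 0 < b - a := by linarith
      set t := (a + b) / 3 with ht
      have ht0 : 0 < t := by rw [ht]; linarith
      have hxt : b - a ≤ t := by rw [ht]; linarith
      have hta : t ≤ a := by rw [ht]; linarith
      have hdiv : t / η ≤ a / η := by gcongr
      have h4t : 4 * t < t / η := by
        rw [lt_div_iff₀ h4]; nlinarith
      have e5 : 5 * t / η = 5 * (t / η) := by ring
      have e5a : 5 * a / η = 5 * (a / η) := by ring
      have hlo := h.lower (L' := L + η) (x := b - a) (t := t) h4 h2 hLp (by linarith) hx hxt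
        (by rw [e5]; rw [e5a] at hs1; linarith)
        (by
          refine le_trans (pow_le_pow_left₀ (by positivity) ?_ 2) hs2
          rw [e5, e5a]; linarith)
        (hFx _ (by linarith) (by linarith))
        (hLle _ (by linarith) (by linarith)) (hLle _ ht0 (by linarith))
      rw [show (b - a + 3 * t) / 2 = b by rw [ht]; ring] at hlo
      rw [show (b - a) ^ 2 + 3 * t ^ 2 = MM a b by unfold MM; rw [ht]; ring] at hlo
      rw [h.refl a b ha hab (by linarith)] at hlo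
      have hD : 0 < 1 + (1 - L / (L + η) * (1 - η) ^ 5) / 3 := by
        have e1 : L / (L + η) ≤ 1 := (div_le_one (by linarith)).2 (by linarith)
        have e2 : (1 - η) ^ 5 ≤ 1 := pow_le_one₀ (by linarith) (by linarith)
        have e3 : 0 ≤ (1 - η) ^ 5 := pow_nonneg (by linarith) _
        have e4 : L / (L + η) * (1 - η) ^ 5 ≤ 1 * 1 := mul_le_mul e1 e2 e3 (by norm_num)
        linarith
      have h5 := h3 hLp
      rw [lt_div_iff₀ hD] at h5
      have h6 : (L - ε) * (1 + (1 - L / (L + η) * (1 - η) ^ 5) / 3)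
          ≤ MM a b * W a b * (1 + (1 - L / (L + η) * (1 - η) ^ 5) / 3) := by linarith
      exact le_of_mul_le_mul_right h6 hD
  rw [abs_le]
  constructor <;> linarith

end Sec

end Crest.Agent.R144.Tp952
end
end

-- ▼ part R144/Tp3_952
section

/-!
# R144, block TP, helper952: uniform bounds for the regularised densities

* `Wn U n a b` : density in the sector coordinates; symmetries, `Sec` for every `n`;
* `Reg.infra` : `s(a) W n a b ≤ C` uniformly in `n`;
* `Reg.equi` : equicontinuity in the open sector.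
-/

set_option autoImplicit false

open Filter Topology MeasureTheory
open scoped Real BigOperators

noncomputable section

namespace Crest.Agent.R144.Tp952

/-- densities in the sector coordinates `a = k2 - k1/2`, `b = k2/2 - k1` -/
def Wn (U : ℕ → ℝ → ℝ → ℝ) (n : ℕ) (a b : ℝ) : ℝ := U n ((2 * a - 4 * b) / 3) ((4 * a - 2 * b) / 3)

/-- the quadratic form -/
def NN (k1 k2 : ℝ) : ℝ := k1 ^ 2 - k1 * k2 + k2 ^ 2


theorem MM_ge_left (a b : ℝ) : a ^ 2 ≤ MM a b := by
  unfold MM; nlinarith [sq_nonneg (a - 2 * b)]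

theorem MM_ge_right (a b : ℝ) : b ^ 2 ≤ MM a b := by
  unfold MM; nlinarith [sq_nonneg (2 * a - b)]

variable {V : ℤ × ℤ → ℝ} {U : ℕ → ℝ → ℝ → ℝ}

namespace Reg

theorem W_nonneg (h : Reg V U) (n : ℕ) (a b : ℝ) : 0 ≤ Wn U n a b := h.nonneg _ _ _

theorem W_symm (h : Reg V U) (n : ℕ) (a b : ℝ) : Wn U n b a = Wn U n a b := by
  unfold Wn
  rw [← h.neg, h.swap]
  congr 1 <;> ring

theorem W_neg (h : Reg V U) (n : ℕ) (a b : ℝ) : Wn U n (-a) (-b) = Wn U n a b := by
  unfold Wn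
  rw [← h.neg]
  congr 1 <;> ring

theorem W_refl (h : Reg V U) (n : ℕ) (a b : ℝ) : Wn U n (b - a) b = Wn U n a b := by
  unfold Wn
  rw [← h.swap, ← h.theta, ← h.neg, h.swap]
  congr 1 <;> ring

theorem W_line (U : ℕ → ℝ → ℝ → ℝ) (n : ℕ) (t x : ℝ) :
    Wn U n x ((x + t) / 2) = U n (-(2 * t) / 3) (x + (-(2 * t) / 3) / 2) := by
  unfold Wn
  congr 1 <;> ring

theorem cont_line (h : Reg V U) (n : ℕ) (p : ℝ) : Continuous (fun φ => U n p (φ + p / 2)) :=
  (h.cont n).comp (f := fun φ : ℝ => ((p, φ + p / 2) : ℝ × ℝ)) (by fun_prop)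

theorem W_frame (h : Reg V U) (n : ℕ) (t x y z : ℝ) (hx : 0 ≤ x) (hxy : x ≤ y) (hyz : y ≤ z)
    (hz : z ≤ π) :
    (sg z - sg y) * (Wn U n y ((y + t) / 2) * Wn U n z ((z + t) / 2))
      + (sg y - sg x) * (Wn U n x ((x + t) / 2) * Wn U n y ((y + t) / 2))
      ≤ (sg z - sg x) * (Wn U n x ((x + t) / 2) * Wn U n z ((z + t) / 2)) := by
  simp only [W_line]
  exact h.frame n (-(2 * t) / 3) x y z hx hxy hyz hz

theorem W_mono (h : Reg V U) (n : ℕ) (t x y : ℝ) (hx : 0 < x) (hxy : x ≤ y) (hy : y ≤ π) :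
    sg x * Wn U n x ((x + t) / 2) ≤ sg y * Wn U n y ((y + t) / 2) := by
  simp only [W_line]
  exact frame_mono (h.frame n (-(2 * t) / 3)) (h.cont_line n _) (fun _ => h.nonneg _ _ _) hx hxy hy

theorem W_anti (h : Reg V U) (n : ℕ) (t x y : ℝ) (hx : 0 ≤ x) (hxy : x ≤ y) (hy : y < π) :
    (4 - sg y) * Wn U n y ((y + t) / 2) ≤ (4 - sg x) * Wn U n x ((x + t) / 2) := by
  simp only [W_line]
  exact frame_anti (h.frame n (-(2 * t) / 3)) (h.cont_line n _) (fun _ => h.nonneg _ _ _) hx hxy hy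

/-- frame 2 -/
theorem W_mono2 (h : Reg V U) (n : ℕ) (t x y : ℝ) (hx : 0 < x) (hxy : x ≤ y) (hy : y ≤ π) :
    sg x * Wn U n ((x + t) / 2) x ≤ sg y * Wn U n ((y + t) / 2) y := by
  rw [h.W_symm, h.W_symm n y]
  exact h.W_mono n t x y hx hxy hy


/-! ### infrared bound -/

/-- sum-rule integrals -/
def S1 (U : ℕ → ℝ → ℝ → ℝ) (n : ℕ) : ℝ := ∫ k1 in (-π)..π, ∫ k2 in (-π)..π, sg k1 * U n k1 k2

theorem normSq_one_sub_exp (x : ℝ) :
    Complex.normSq (Complex.exp (Complex.I * (x : ℂ)) - 1) = sg x := by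
  rw [mul_comm, Complex.exp_mul_I, ← Complex.ofReal_cos, ← Complex.ofReal_sin, Complex.normSq_apply]
  simp only [Complex.sub_re, Complex.add_re, Complex.ofReal_re, Complex.mul_re, Complex.ofReal_im,
    Complex.I_re, Complex.I_im, Complex.one_re, Complex.sub_im, Complex.add_im, Complex.mul_im,
    Complex.one_im]
  unfold sg
  nlinarith [Real.sin_sq_add_cos_sq x]

/-- the two-point test function `δ_{p} - δ_0` -/
def dd (p : ℤ × ℤ) : ℤ × ℤ → ℝ := fun q => if q = p then 1 else -1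

theorem sum_dd {p : ℤ × ℤ} (hp : p ≠ 0) : ∑ q ∈ ({p, 0} : Finset (ℤ × ℤ)), dd p q = 0 := by
  rw [Finset.sum_pair hp]
  simp [dd, hp.symm]

theorem fh_dd {p : ℤ × ℤ} (hp : p ≠ 0) (k1 k2 : ℝ) :
    fh {p, 0} (dd p) k1 k2
      = Complex.exp (Complex.I * (((p.1 : ℝ) * k1 + (p.2 : ℝ) * k2 : ℝ) : ℂ)) - 1 := by
  unfold fh
  rw [Finset.sum_pair hp]
  simp [dd, hp.symm]
  ring

theorem exists_S_bound (h : Reg V U) : ∃ C : ℝ, 0 ≤ C ∧
    (∀ n, ∫ k1 in (-π)..π, ∫ k2 in (-π)..π, sg k1 * U n k1 k2 ≤ C) ∧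
    (∀ n, ∫ k1 in (-π)..π, ∫ k2 in (-π)..π, sg k2 * U n k1 k2 ≤ C) := by
  have h1 := h.lim {((1, 0) : ℤ × ℤ), 0} (dd (1, 0)) (sum_dd (by decide))
  have h2 := h.lim {((0, 1) : ℤ × ℤ), 0} (dd (0, 1)) (sum_dd (by decide))
  obtain ⟨C1, hC1⟩ := h1.bddAbove_range
  obtain ⟨C2, hC2⟩ := h2.bddAbove_range
  have hπ : (0 : ℝ) < (2 * π) ^ 2 := by positivity
  refine ⟨max 0 (max (C1 * (2 * π) ^ 2) (C2 * (2 * π) ^ 2)), le_max_left _ _, fun n => ?_, fun n => ?_⟩
  · have h3 : _ ≤ C1 := hC1 ⟨n, rfl⟩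
    rw [div_le_iff₀ hπ] at h3
    refine le_trans (le_of_eq ?_) (h3.trans ((le_max_left _ _).trans (le_max_right _ _)))
    congr 1; funext k1; congr 1; funext k2
    rw [fh_dd (by decide)]
    have e : (((1, 0) : ℤ × ℤ).1 : ℝ) * k1 + (((1, 0) : ℤ × ℤ).2 : ℝ) * k2 = k1 := by simp
    rw [e, normSq_one_sub_exp]
  · have h3 : _ ≤ C2 := hC2 ⟨n, rfl⟩
    rw [div_le_iff₀ hπ] at h3
    refine le_trans (le_of_eq ?_) (h3.trans ((le_max_right _ _).trans (le_max_right _ _)))
    congr 1; funext k1; congr 1; funext k2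
    rw [fh_dd (by decide)]
    have e : (((0, 1) : ℤ × ℤ).1 : ℝ) * k1 + (((0, 1) : ℤ × ℤ).2 : ℝ) * k2 = k2 := by simp
    rw [e, normSq_one_sub_exp]

/-- pointwise comparison of a point near `0` with all points of a fixed box -/
theorem box_bound (h : Reg V U) (n : ℕ) {a b k1 k2 : ℝ} (ha : 0 < a) (ha' : a < 1 / 10) (hb : 0 < b)
    (hb' : b < 1 / 10) (h1 : -1 ≤ k1) (h1' : k1 ≤ -(9 / 10)) (h2 : 4 / 5 ≤ k2) (h2' : k2 ≤ 9 / 10) :
    sg a * Wn U n a b ≤ 256 * U n k1 k2 := by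
  have hπ := Real.pi_gt_three
  set a' := k2 + (2 * b - a) / 3 with ha1
  set b' := k2 / 2 + (4 * b - 2 * a) / 3 with hb1
  set b'' := k2 / 2 - k1 with hb2
  set a'' := k2 - k1 / 2 with ha2
  have e1 : sg a * Wn U n a b ≤ sg a' * Wn U n a' b' := by
    have := h.W_mono n (2 * b - a) a a' ha (by rw [ha1]; linarith) (by rw [ha1]; linarith)
    rw [show (a + (2 * b - a)) / 2 = b by ring,
      show (a' + (2 * b - a)) / 2 = b' by rw [ha1, hb1]; ring] at this
    exact this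
  have e2 : sg b' * Wn U n a' b' ≤ sg b'' * Wn U n a'' b'' := by
    have := h.W_mono2 n (2 * a' - b') b' b'' (by rw [hb1]; linarith) (by rw [hb1, hb2]; linarith)
      (by rw [hb2]; linarith)
    rw [show (b' + (2 * a' - b')) / 2 = a' by ring,
      show (b'' + (2 * a' - b')) / 2 = a'' by rw [hb2, ha1, hb1, ha2]; ring] at this
    exact this
  have e3 : Wn U n a'' b'' = U n k1 k2 := by
    unfold Wn
    congr 1
    · rw [ha2, hb2]; ring
    · rw [ha2, hb2]; ring
  have e4 : (1 : ℝ) / 16 ≤ sg b' := by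
    have h3 : (3 : ℝ) / 10 ≤ b' := by rw [hb1]; linarith
    have h4 : b' ≤ 1 := by rw [hb1]; linarith
    have h5 : sg (3 / 10) ≤ sg b' := sg_mono (by norm_num) h3 (by linarith)
    have h6 : (1 - (3 / 10 : ℝ) ^ 2) * (3 / 10) ^ 2 ≤ sg (3 / 10) :=
      sg_ge_sq (by rw [abs_of_pos] <;> norm_num)
    refine le_trans ?_ h5
    refine le_trans ?_ h6
    norm_num
  have hW1 := h.W_nonneg n a' b'
  have hU : 0 ≤ U n k1 k2 := h.nonneg _ _ _
  rw [e3] at e2
  have e5 : 1 / 16 * Wn U n a' b' ≤ 4 * U n k1 k2 := by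
    calc 1 / 16 * Wn U n a' b' ≤ sg b' * Wn U n a' b' := mul_le_mul_of_nonneg_right e4 hW1
      _ ≤ sg b'' * U n k1 k2 := e2
      _ ≤ 4 * U n k1 k2 := mul_le_mul_of_nonneg_right (sg_le_four _) hU
  have e6 : sg a' * Wn U n a' b' ≤ 4 * Wn U n a' b' := mul_le_mul_of_nonneg_right (sg_le_four _) hW1
  linarith

/-- **infrared bound**, uniform in `n` -/
theorem infra (h : Reg V U) : ∃ C : ℝ, 0 < C ∧ ∀ n a b, 0 < a → a < 1 / 10 → 0 < b → b < 1 / 10 →
    sg a * Wn U n a b ≤ C ∧ sg b * Wn U n a b ≤ C := by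
  obtain ⟨C0, hC0, hS, -⟩ := h.exists_S_bound
  have hπ := Real.pi_gt_three
  have main : ∀ n a b, 0 < a → a < 1 / 10 → 0 < b → b < 1 / 10 →
      sg a * Wn U n a b ≤ 256 * 1000 * C0 := by
    intro n a b ha ha' hb hb'
    set X := sg a * Wn U n a b with hX
    have hcU : Continuous (fun k : ℝ × ℝ => sg k.1 * U n k.1 k.2) :=
      (continuous_sg.comp continuous_fst).mul (h.cont n)
    -- inner integral
    have hin : ∀ k1, Continuous (fun k2 => sg k1 * U n k1 k2) := fun k1 =>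
      hcU.comp (f := fun k2 : ℝ => ((k1, k2) : ℝ × ℝ)) (by fun_prop)
    have hout : Continuous (fun k1 => ∫ k2 in (-π)..π, sg k1 * U n k1 k2) := by
      apply intervalIntegral.continuous_parametric_intervalIntegral_of_continuous'
      exact hcU
    have hnn : ∀ k1 k2, 0 ≤ sg k1 * U n k1 k2 := fun k1 k2 => mul_nonneg (sg_nonneg _) (h.nonneg _ _ _)
    -- lower bound of the inner integral
    have hlow : ∀ k1 ∈ Set.Icc (-1 : ℝ) (-(9 / 10)), 1 / 10 * (1 / 8 * (X / 256))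
        ≤ ∫ k2 in (-π)..π, sg k1 * U n k1 k2 := by
      intro k1 hk1
      have hsg : (1 : ℝ) / 8 ≤ sg k1 := by
        have e : sg k1 = sg (-k1) := by unfold sg; rw [Real.cos_neg]
        rw [e]
        have h5 : sg (9 / 10) ≤ sg (-k1) := sg_mono (by norm_num) (by linarith [hk1.2]) (by linarith [hk1.1])
        have h6 : (1 - (9 / 10 : ℝ) ^ 2) * (9 / 10) ^ 2 ≤ sg (9 / 10) :=
          sg_ge_sq (by rw [abs_of_pos] <;> norm_num)
        refine le_trans ?_ (h6.trans h5)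
        norm_num
      have h3 : ∫ k2 in (4 / 5 : ℝ)..(9 / 10), (1 / 8 * (X / 256)) ≤ ∫ k2 in (4 / 5 : ℝ)..(9 / 10), sg k1 * U n k1 k2 := by
        apply intervalIntegral.integral_mono_on (by norm_num) (by simp) ((hin k1).intervalIntegrable _ _)
        intro k2 hk2
        have h4 := h.box_bound n ha ha' hb hb' hk1.1 hk1.2 hk2.1 hk2.2
        have h5 : X / 256 ≤ U n k1 k2 := by rw [div_le_iff₀ (by norm_num)]; linarith
        have h6 : 0 ≤ U n k1 k2 := h.nonneg _ _ _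
        calc 1 / 8 * (X / 256) ≤ 1 / 8 * U n k1 k2 := by linarith
          _ ≤ sg k1 * U n k1 k2 := mul_le_mul_of_nonneg_right hsg h6
      have h4 : ∫ k2 in (4 / 5 : ℝ)..(9 / 10), sg k1 * U n k1 k2 ≤ ∫ k2 in (-π)..π, sg k1 * U n k1 k2 := by
        apply intervalIntegral.integral_mono_interval (by linarith) (by norm_num) (by linarith)
        · filter_upwards with k2; exact hnn _ _
        · exact (hin k1).intervalIntegrable _ _
      rw [intervalIntegral.integral_const, smul_eq_mul] at h3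
      have e : (9 / 10 - 4 / 5 : ℝ) = 1 / 10 := by norm_num
      rw [e] at h3
      exact h3.trans h4
    have h3 : ∫ k1 in (-1 : ℝ)..(-(9 / 10)), (1 / 10 * (1 / 8 * (X / 256)))
        ≤ ∫ k1 in (-1 : ℝ)..(-(9 / 10)), ∫ k2 in (-π)..π, sg k1 * U n k1 k2 := by
      apply intervalIntegral.integral_mono_on (by norm_num) (by simp) (hout.intervalIntegrable _ _)
      exact hlow
    have h4 : ∫ k1 in (-1 : ℝ)..(-(9 / 10)), ∫ k2 in (-π)..π, sg k1 * U n k1 k2
        ≤ ∫ k1 in (-π)..π, ∫ k2 in (-π)..π, sg k1 * U n k1 k2 := by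
      apply intervalIntegral.integral_mono_interval (by linarith) (by norm_num) (by linarith)
      · filter_upwards with k1
        apply intervalIntegral.integral_nonneg (by linarith)
        intro k2 _; exact hnn _ _
      · exact hout.intervalIntegrable _ _
    rw [intervalIntegral.integral_const, smul_eq_mul] at h3
    have h5 := (h3.trans h4).trans (hS n)
    norm_num at h5
    linarith
  refine ⟨256 * 1000 * C0 + 1, by positivity, fun n a b ha ha' hb hb' => ⟨?_, ?_⟩⟩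
  · linarith [main n a b ha ha' hb hb']
  · have := main n b a hb hb' ha ha'
    rw [h.W_symm] at this
    linarith

/-! ### equicontinuity -/

theorem sg_sub_le {x y : ℝ} (hxy : x ≤ y) : sg y - sg x ≤ 2 * (y - x) := by
  unfold sg
  have h1 : |Real.cos x - Real.cos y| ≤ |x - y| := by
    have := Real.abs_cos_sub_cos_le x y
    exact this
  have h2 := (abs_le.1 h1).2
  rw [abs_of_nonpos (show x - y ≤ 0 by linarith)] at h2
  linarith

/-- one-dimensional estimate from the two Harnack inequalities -/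
theorem harnack_sub {x y s wx wy B : ℝ} (hs : 0 < s) (hsx : s ≤ sg x) (hxy : x ≤ y) (hsgy : sg y ≤ 3)
    (hmono : sg x * wx ≤ sg y * wy) (hanti : (4 - sg y) * wy ≤ (4 - sg x) * wx)
    (hwx : 0 ≤ wx) (hwy : 0 ≤ wy) (hBx : wx ≤ B) (hBy : wy ≤ B) (hm : sg x ≤ sg y) :
    |wy - wx| ≤ 2 * (y - x) * (B + B / s) := by
  have h1 := sg_sub_le hxy
  have hB : 0 ≤ B := hwx.trans hBx
  have hyx : 0 ≤ y - x := by linarith
  have h2 : wy - wx ≤ 2 * (y - x) * B := by
    -- (4 - sg y)(wy - wx) ≤ (sg y - sg x) wx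
    have h3 : (4 - sg y) * (wy - wx) ≤ (sg y - sg x) * wx := by linarith [hanti]
    have h4 : (sg y - sg x) * wx ≤ 2 * (y - x) * B :=
      mul_le_mul h1 hBx hwx (by linarith)
    rcases le_or_gt (wy - wx) 0 with h5 | h5
    · have : 0 ≤ 2 * (y - x) * B := by positivity
      linarith
    · nlinarith
  have h3 : wx - wy ≤ 2 * (y - x) * (B / s) := by
    have h4 : s * (wx - wy) ≤ 2 * (y - x) * B := by
      rcases le_or_gt (wx - wy) 0 with h5 | h5
      · have h6 : 0 ≤ 2 * (y - x) * B := by positivity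
        nlinarith
      · have h6 : sg x * (wx - wy) ≤ (sg y - sg x) * wy := by linarith [hmono]
        have h7 : (sg y - sg x) * wy ≤ 2 * (y - x) * B := mul_le_mul h1 hBy hwy (by linarith)
        nlinarith
    rw [← mul_div_assoc, le_div_iff₀ hs]
    linarith
  have h4 : 0 ≤ 2 * (y - x) * (B / s) := by positivity
  have h5 : 0 ≤ 2 * (y - x) * B := by positivity
  rw [abs_le]
  constructor
  · linarith [mul_add (2 * (y - x)) B (B / s)]
  · linarith [mul_add (2 * (y - x)) B (B / s)]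

/-- equicontinuity in the open sector -/
theorem equi (h : Reg V U) {a b : ℝ} (ha : 0 < a) (ha' : a < 1 / 10) (hb : 0 < b) (hb' : b < 1 / 10) :
    ∃ K δ : ℝ, 0 < δ ∧ 0 ≤ K ∧ ∀ a' b', |a' - a| < δ → |b' - b| < δ → ∀ n,
      |Wn U n a' b' - Wn U n a b| ≤ K * (|a' - a| + |b' - b|) := by
  obtain ⟨C, hC, hI⟩ := h.infra
  have hπ := Real.pi_gt_three
  set m := min a b / 2 with hm
  have hm0 : 0 < m := by rw [hm]; positivity
  have hma : 2 * m ≤ a := by rw [hm]; linarith [min_le_left a b]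
  have hmb : 2 * m ≤ b := by rw [hm]; linarith [min_le_right a b]
  set s := sg m with hs
  have hs0 : 0 < s := sg_pos hm0 (by linarith)
  set B := C / s with hB
  have hB0 : 0 ≤ B := by positivity
  set δ := min (m / 4) (min ((1 / 10 - a) / 4) ((1 / 10 - b) / 4)) with hδ
  have hδ0 : 0 < δ := by
    rw [hδ]; apply lt_min (by positivity) (lt_min (by linarith) (by linarith))
  have hδ1 : δ ≤ m / 4 := min_le_left _ _
  have hδ2 : δ ≤ (1 / 10 - a) / 4 := (min_le_right _ _).trans (min_le_left _ _)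
  have hδ3 : δ ≤ (1 / 10 - b) / 4 := (min_le_right _ _).trans (min_le_right _ _)
  -- bound in the box
  have hbd : ∀ n x y, m ≤ x → x < 1 / 10 → m ≤ y → y < 1 / 10 → Wn U n x y ≤ B := by
    intro n x y hx hx' hy hy'
    have h1 := (hI n x y (by linarith) hx' (by linarith) hy').1
    have h2 : s ≤ sg x := sg_mono hm0.le hx (by linarith)
    have h3 := h.W_nonneg n x y
    rw [hB, le_div_iff₀ hs0]
    calc Wn U n x y * s ≤ Wn U n x y * sg x := mul_le_mul_of_nonneg_left h2 h3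
      _ = sg x * Wn U n x y := mul_comm _ _
      _ ≤ C := h1
  have hsg3 : ∀ x, 0 ≤ x → x < 1 / 10 → sg x ≤ 3 := by
    intro x hx hx'
    refine (sg_le_sq x).trans ?_
    nlinarith
  -- frame 1 step
  have step1 : ∀ n t x y, m ≤ x → x ≤ y → y < 1 / 10 → m ≤ (x + t) / 2 → (y + t) / 2 < 1 / 10 →
      |Wn U n y ((y + t) / 2) - Wn U n x ((x + t) / 2)| ≤ 2 * (y - x) * (B + B / s) := by
    intro n t x y hx hxy hy hxt hyt
    apply harnack_sub hs0 (sg_mono hm0.le hx (by linarith)) hxy (hsg3 y (by linarith) hy)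
      (h.W_mono n t x y (by linarith) hxy (by linarith))
      (h.W_anti n t x y (by linarith) hxy (by linarith)) (h.W_nonneg _ _ _) (h.W_nonneg _ _ _)
      (hbd n _ _ hx (by linarith) hxt (by linarith)) (hbd n _ _ (by linarith) hy (by linarith) hyt)
      (sg_mono (by linarith) hxy (by linarith))
  have step2 : ∀ n t x y, m ≤ x → x ≤ y → y < 1 / 10 → m ≤ (x + t) / 2 → (y + t) / 2 < 1 / 10 →
      |Wn U n ((y + t) / 2) y - Wn U n ((x + t) / 2) x| ≤ 2 * (y - x) * (B + B / s) := by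
    intro n t x y hx hxy hy hxt hyt
    rw [h.W_symm n y, h.W_symm n x]
    exact step1 n t x y hx hxy hy hxt hyt
  have step1' : ∀ n t x y, m ≤ x → x < 1 / 10 → m ≤ y → y < 1 / 10 → m ≤ (x + t) / 2 →
      (x + t) / 2 < 1 / 10 → m ≤ (y + t) / 2 → (y + t) / 2 < 1 / 10 →
      |Wn U n y ((y + t) / 2) - Wn U n x ((x + t) / 2)| ≤ 2 * |y - x| * (B + B / s) := by
    intro n t x y h1 h2 h3 h4 h5 h6 h7 h8
    rcases le_total x y with h9 | h9
    · rw [abs_of_nonneg (show 0 ≤ y - x by linarith)]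
      exact step1 n t x y h1 h9 h4 h5 h8
    · rw [abs_sub_comm, abs_sub_comm y x, abs_of_nonneg (show 0 ≤ x - y by linarith)]
      exact step1 n t y x h3 h9 h2 h7 h6
  have step2' : ∀ n t x y, m ≤ x → x < 1 / 10 → m ≤ y → y < 1 / 10 → m ≤ (x + t) / 2 →
      (x + t) / 2 < 1 / 10 → m ≤ (y + t) / 2 → (y + t) / 2 < 1 / 10 →
      |Wn U n ((y + t) / 2) y - Wn U n ((x + t) / 2) x| ≤ 2 * |y - x| * (B + B / s) := by
    intro n t x y h1 h2 h3 h4 h5 h6 h7 h8
    rw [h.W_symm n y, h.W_symm n x]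
    exact step1' n t x y h1 h2 h3 h4 h5 h6 h7 h8
  refine ⟨8 * (B + B / s), δ, hδ0, by positivity, fun a' b' h1 h2 n => ?_⟩
  obtain ⟨h1a, h1b⟩ := abs_lt.1 h1
  obtain ⟨h2a, h2b⟩ := abs_lt.1 h2
  -- intermediate point
  set α := 4 / 3 * ((a' - a) - (b' - b) / 2) with hα
  set β := 4 / 3 * ((b' - b) - (a' - a) / 2) with hβ
  have e1 : a + α + β / 2 = a' := by rw [hα, hβ]; ring
  have e2 : b + α / 2 + β = b' := by rw [hα, hβ]; ring
  have s1 := step1' n (2 * b - a) a (a + α) (by linarith) ha' (by rw [hα]; linarith)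
    (by rw [hα]; linarith) (by linarith) (by linarith) (by rw [hα]; linarith) (by rw [hα]; linarith)
  rw [show (a + (2 * b - a)) / 2 = b by ring,
    show (a + α + (2 * b - a)) / 2 = b + α / 2 by ring] at s1
  have s2 := step2' n (2 * (a + α) - (b + α / 2)) (b + α / 2) (b + α / 2 + β) (by rw [hα]; linarith)
    (by rw [hα]; linarith) (by rw [e2]; linarith) (by rw [e2]; linarith)
    (by rw [hα]; linarith) (by rw [hα]; linarith)
    (by rw [hα, hβ]; linarith) (by rw [hα, hβ]; linarith)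
  rw [show (b + α / 2 + β + (2 * (a + α) - (b + α / 2))) / 2 = a + α + β / 2 by ring,
    show (b + α / 2 + (2 * (a + α) - (b + α / 2))) / 2 = a + α by ring, e1, e2] at s2
  rw [show a + α - a = α by ring] at s1
  have e3 : |b' - (b + α / 2)| = |β| := by
    rw [← e2]; congr 1; ring
  rw [e3] at s2
  have hα1 : |α| ≤ 4 / 3 * (|a' - a| + |b' - b| / 2) := by
    rw [hα, abs_mul, abs_of_pos (show (0 : ℝ) < 4 / 3 by norm_num)]
    apply mul_le_mul_of_nonneg_left _ (by norm_num)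
    calc |a' - a - (b' - b) / 2| ≤ |a' - a| + |(b' - b) / 2| := abs_sub _ _
      _ = _ := by rw [abs_div, abs_two]
  have hβ1 : |β| ≤ 4 / 3 * (|b' - b| + |a' - a| / 2) := by
    rw [hβ, abs_mul, abs_of_pos (show (0 : ℝ) < 4 / 3 by norm_num)]
    apply mul_le_mul_of_nonneg_left _ (by norm_num)
    calc |b' - b - (a' - a) / 2| ≤ |b' - b| + |(a' - a) / 2| := abs_sub _ _
      _ = _ := by rw [abs_div, abs_two]
  have hBB : 0 ≤ B + B / s := by positivity
  have h9 : |Wn U n a' b' - Wn U n a b| ≤ 2 * |β| * (B + B / s) + 2 * |α| * (B + B / s) := by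
    calc |Wn U n a' b' - Wn U n a b|
        = |(Wn U n a' b' - Wn U n (a + α) (b + α / 2))
            + (Wn U n (a + α) (b + α / 2) - Wn U n a b)| := by congr 1; ring
      _ ≤ _ := (abs_add_le _ _).trans (add_le_add s2 s1)
  have h10 : |α| + |β| ≤ 2 * (|a' - a| + |b' - b|) := by
    linarith [abs_nonneg (a' - a), abs_nonneg (b' - b)]
  have h11 : 0 ≤ (|a' - a| + |b' - b|) := by positivity
  calc |Wn U n a' b' - Wn U n a b| ≤ 2 * (|α| + |β|) * (B + B / s) := by linarith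
    _ ≤ 2 * (2 * (|a' - a| + |b' - b|)) * (B + B / s) := by gcongr
    _ ≤ 8 * (B + B / s) * (|a' - a| + |b' - b|) := by nlinarith [mul_nonneg hBB h11]

end Reg

end Crest.Agent.R144.Tp952
end
end

-- ▼ part R144/Tp4_952
section

/-!
# R144, block TP, helper952: the limiting density

* `Reg.exists_subseq` : a subsequence of the regularised densities converges at every small `k ≠ 0`;
* `Reg.exists_density` : limit `u`, continuity, infrared bound, `N(k) u(k) → L` as `k → 0`.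
-/

set_option autoImplicit false

open Filter Topology MeasureTheory
open scoped Real BigOperators

noncomputable section

namespace Crest.Agent.R144.Tp952

variable {V : ℤ × ℤ → ℝ} {U : ℕ → ℝ → ℝ → ℝ}

theorem sector_induction (Q : ℝ → ℝ → Prop) (hs : ∀ a b, Q b a → Q a b)
    (hn : ∀ a b, Q (-a) (-b) → Q a b) (hr : ∀ a b, Q (b - a) b → Q a b) (c : ℝ)
    (h0 : ∀ a b, 0 < a → 0 < b → MM a b < c → Q a b) :
    ∀ a b, (a ≠ 0 ∨ b ≠ 0) → MM a b < c → Q a b := by
  have hMs : ∀ a b, MM b a = MM a b := fun a b => by unfold MM; ring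
  have hMn : ∀ a b, MM (-a) (-b) = MM a b := fun a b => by unfold MM; ring
  have hMr : ∀ a b, MM (b - a) b = MM a b := fun a b => by unfold MM; ring
  have hpos : ∀ a b, 0 < b → MM a b < c → Q a b := by
    intro a b hb hM
    rcases lt_or_ge 0 a with ha | ha
    · exact h0 a b ha hb hM
    · exact hr a b (h0 _ _ (by linarith) hb (by rw [hMr]; exact hM))
  have hb0 : ∀ a b, b ≠ 0 → MM a b < c → Q a b := by
    intro a b hb hM
    rcases lt_or_gt_of_ne hb with h1 | h1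
    · exact hn a b (hpos _ _ (by linarith) (by rw [hMn]; exact hM))
    · exact hpos a b h1 hM
  intro a b hab hM
  rcases eq_or_ne b 0 with h1 | h1
  · have ha : a ≠ 0 := by
      rcases hab with h2 | h2
      · exact h2
      · exact absurd h1 h2
    exact hs a b (hb0 b a ha (by rw [hMs]; exact hM))
  · exact hb0 a b h1 hM

namespace Reg

theorem exists_subseq (h : Reg V U) : ∃ φ : ℕ → ℕ, StrictMono φ ∧ ∀ a b, 0 < a → a < 1 / 10 →
    0 < b → b < 1 / 10 → ∃ l, Tendsto (fun n => Wn U (φ n) a b) atTop (𝓝 l) := by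
  classical
  obtain ⟨C, hC, hI⟩ := h.infra
  have hπ := Real.pi_gt_three
  let P : ℚ × ℚ → Prop := fun q => 0 < (q.1 : ℝ) ∧ (q.1 : ℝ) < 1 / 10 ∧ 0 < (q.2 : ℝ) ∧ (q.2 : ℝ) < 1 / 10
  let x : ℕ → (ℚ × ℚ → ℝ) := fun n q => if P q then Wn U n q.1 q.2 else 0
  let K : Set (ℚ × ℚ → ℝ) := Set.pi Set.univ fun q => Set.Icc 0 (max 0 (C / sg (q.1 : ℝ)))
  have hK : IsCompact K := isCompact_univ_pi fun q => isCompact_Icc
  have hx : ∀ n, x n ∈ K := by
    intro n q _
    show x n q ∈ Set.Icc 0 (max 0 (C / sg (q.1 : ℝ)))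
    simp only [x]
    split_ifs with hq
    · refine ⟨h.W_nonneg _ _ _, le_max_of_le_right ?_⟩
      rw [le_div_iff₀ (sg_pos hq.1 (by linarith [hq.2.1])), mul_comm]
      exact (hI n _ _ hq.1 hq.2.1 hq.2.2.1 hq.2.2.2).1
    · exact ⟨le_rfl, le_max_left _ _⟩
  obtain ⟨y, -, φ, hφ, hlim⟩ := hK.tendsto_subseq hx
  refine ⟨φ, hφ, fun a b ha ha' hb hb' => ?_⟩
  apply cauchySeq_tendsto_of_complete
  rw [Metric.cauchySeq_iff']
  intro ε hε
  obtain ⟨K0, δ, hδ, hK0, hE⟩ := h.equi ha ha' hb hb'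
  -- rational approximation
  set η := min δ (min (ε / (8 * (K0 + 1))) (min (min a (1 / 10 - a)) (min b (1 / 10 - b)))) with hη
  have hη0 : 0 < η := by
    rw [hη]
    refine lt_min hδ (lt_min (by positivity) (lt_min (lt_min ha (by linarith)) (lt_min hb (by linarith))))
  have hη1 : η ≤ δ := min_le_left _ _
  have hη2 : η ≤ ε / (8 * (K0 + 1)) := (min_le_right _ _).trans (min_le_left _ _)
  have hη3 : η ≤ a := (min_le_right _ _).trans ((min_le_right _ _).trans
    ((min_le_left _ _).trans (min_le_left _ _)))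
  have hη4 : η ≤ 1 / 10 - a := (min_le_right _ _).trans ((min_le_right _ _).trans
    ((min_le_left _ _).trans (min_le_right _ _)))
  have hη5 : η ≤ b := (min_le_right _ _).trans ((min_le_right _ _).trans
    ((min_le_right _ _).trans (min_le_left _ _)))
  have hη6 : η ≤ 1 / 10 - b := (min_le_right _ _).trans ((min_le_right _ _).trans
    ((min_le_right _ _).trans (min_le_right _ _)))
  obtain ⟨q1, hq1, hq1'⟩ := exists_rat_btwn (show a - η < a by linarith)
  obtain ⟨q2, hq2, hq2'⟩ := exists_rat_btwn (show b - η < b by linarith)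
  have hPq : P (q1, q2) := ⟨by show (0 : ℝ) < q1; linarith, by show (q1 : ℝ) < 1 / 10; linarith,
    by show (0 : ℝ) < q2; linarith, by show (q2 : ℝ) < 1 / 10; linarith⟩
  have hd1 : |(q1 : ℝ) - a| < η := by rw [abs_lt]; constructor <;> linarith
  have hd2 : |(q2 : ℝ) - b| < η := by rw [abs_lt]; constructor <;> linarith
  have hclose : ∀ n, |Wn U n q1 q2 - Wn U n a b| ≤ ε / 4 := by
    intro n
    refine (hE _ _ (hd1.trans_le hη1) (hd2.trans_le hη1) n).trans ?_
    have h1 : |(q1 : ℝ) - a| + |(q2 : ℝ) - b| ≤ 2 * (ε / (8 * (K0 + 1))) := by linarith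
    calc K0 * (|(q1 : ℝ) - a| + |(q2 : ℝ) - b|) ≤ (K0 + 1) * (2 * (ε / (8 * (K0 + 1)))) := by
          apply mul_le_mul (by linarith) h1 (by positivity) (by positivity)
      _ = ε / 4 := by field_simp; ring
  -- Cauchy at the rational point
  have hq : Tendsto (fun n => x (φ n) (q1, q2)) atTop (𝓝 (y (q1, q2))) :=
    (tendsto_pi_nhds.1 hlim) (q1, q2)
  have hq' : CauchySeq (fun n => x (φ n) (q1, q2)) := hq.cauchySeq
  rw [Metric.cauchySeq_iff'] at hq'
  obtain ⟨N, hN⟩ := hq' (ε / 4) (by positivity)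
  refine ⟨N, fun n hn => ?_⟩
  have h1 := hN n hn
  simp only [x, if_pos hPq] at h1
  rw [Real.dist_eq] at h1 ⊢
  have h2 := hclose (φ n)
  have h3 := hclose (φ N)
  have h4 : Wn U (φ n) a b - Wn U (φ N) a b
      = -(Wn U (φ n) q1 q2 - Wn U (φ n) a b) + (Wn U (φ n) q1 q2 - Wn U (φ N) q1 q2)
        + (Wn U (φ N) q1 q2 - Wn U (φ N) a b) := by ring
  rw [h4]
  refine (abs_add_le _ _).trans_lt ?_
  have h5 := abs_add_le (-(Wn U (φ n) q1 q2 - Wn U (φ n) a b)) (Wn U (φ n) q1 q2 - Wn U (φ N) q1 q2)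
  rw [abs_neg] at h5
  linarith

/-- uniform infrared bound, all small `k` -/
theorem infra_all (h : Reg V U) : ∃ C : ℝ, 0 < C ∧ ∀ a b, (a ≠ 0 ∨ b ≠ 0) → MM a b < 1 / 100 →
    ∀ n, MM a b * Wn U n a b ≤ C := by
  obtain ⟨C, hC, hI⟩ := h.infra
  refine ⟨3 * C, by positivity, ?_⟩
  apply sector_induction (fun a b => ∀ n, MM a b * Wn U n a b ≤ 3 * C)
  · intro a b hQ n
    have := hQ n
    rwa [h.W_symm, show MM b a = MM a b by unfold MM; ring] at this
  · intro a b hQ n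
    have := hQ n
    rwa [h.W_neg, show MM (-a) (-b) = MM a b by unfold MM; ring] at this
  · intro a b hQ n
    have := hQ n
    rwa [h.W_refl, show MM (b - a) b = MM a b by unfold MM; ring] at this
  · intro a b ha hb hM n
    have h1 := MM_ge_left a b
    have h2 := MM_ge_right a b
    have ha' : a < 1 / 10 := by nlinarith
    have hb' : b < 1 / 10 := by nlinarith
    obtain ⟨h3, h4⟩ := hI n a b ha ha' hb hb'
    have h5 : (1 - a ^ 2) * a ^ 2 ≤ sg a := sg_ge_sq (by rw [abs_of_pos ha]; linarith)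
    have h6 : (1 - b ^ 2) * b ^ 2 ≤ sg b := sg_ge_sq (by rw [abs_of_pos hb]; linarith)
    have h7 : a ^ 2 ≤ 100 / 99 * sg a := by nlinarith [sq_nonneg a]
    have h8 : b ^ 2 ≤ 100 / 99 * sg b := by nlinarith [sq_nonneg b]
    have hW := h.W_nonneg n a b
    have h9 : MM a b ≤ 4 / 3 * (a ^ 2 + b ^ 2) := by unfold MM; nlinarith [mul_pos ha hb]
    have h10 : MM a b ≤ 3 / 2 * (sg a + sg b) := by
      have := sg_nonneg a; have := sg_nonneg b
      linarith
    calc MM a b * Wn U n a b ≤ 3 / 2 * (sg a + sg b) * Wn U n a b :=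
          mul_le_mul_of_nonneg_right h10 hW
      _ = 3 / 2 * (sg a * Wn U n a b + sg b * Wn U n a b) := by ring
      _ ≤ 3 * C := by linarith

end Reg

/-- sector coordinates to momenta -/
def kk (p : ℝ × ℝ) : ℝ × ℝ := ((2 * p.1 - 4 * p.2) / 3, (4 * p.1 - 2 * p.2) / 3)

/-- momenta to sector coordinates -/
def ik (k : ℝ × ℝ) : ℝ × ℝ := (k.2 - k.1 / 2, k.2 / 2 - k.1)

theorem kk_ik (k : ℝ × ℝ) : kk (ik k) = k := by
  ext <;> simp only [kk, ik] <;> ring


theorem MM_ik (k : ℝ × ℝ) : MM (ik k).1 (ik k).2 = NN k.1 k.2 := by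
  unfold MM NN ik; ring

theorem ik_ne {k : ℝ × ℝ} (hk : k ≠ 0) : (ik k).1 ≠ 0 ∨ (ik k).2 ≠ 0 := by
  by_contra hcon
  push Not at hcon
  apply hk
  rw [← kk_ik k, show ik k = (0, 0) from Prod.ext hcon.1 hcon.2]
  simp [kk]

theorem continuous_ik : Continuous ik := by unfold ik; fun_prop

theorem NN_pos {k : ℝ × ℝ} (hk : k ≠ 0) : 0 < NN k.1 k.2 := by
  have h1 : 0 ≤ NN k.1 k.2 := by unfold NN; nlinarith [sq_nonneg (k.1 - k.2), sq_nonneg k.1, sq_nonneg k.2]
  rcases h1.eq_or_lt with h2 | h2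
  · exfalso; apply hk
    unfold NN at h2
    have h3 : k.1 = 0 := by nlinarith [sq_nonneg (k.1 - 2 * k.2), sq_nonneg k.1]
    have h4 : k.2 = 0 := by nlinarith [sq_nonneg (k.2 - 2 * k.1), sq_nonneg k.2]
    exact Prod.ext h3 h4
  · exact h2

namespace Reg

/-- **the limiting density** -/
theorem exists_density (h : Reg V U) : ∃ (φ : ℕ → ℕ) (u : ℝ × ℝ → ℝ) (L C : ℝ), StrictMono φ ∧
    0 ≤ L ∧ 0 < C ∧ (∀ k, 0 ≤ u k) ∧
    (∀ k : ℝ × ℝ, k ≠ 0 → NN k.1 k.2 < 1 / 100 →
      Tendsto (fun n => U (φ n) k.1 k.2) atTop (𝓝 (u k))) ∧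
    (∀ k : ℝ × ℝ, k ≠ 0 → NN k.1 k.2 < 1 / 100 → ContinuousAt u k) ∧
    (∀ k : ℝ × ℝ, NN k.1 k.2 < 1 / 100 → NN k.1 k.2 * u k ≤ C) ∧
    (∀ k : ℝ × ℝ, NN k.1 k.2 < 1 / 100 → ∀ n, NN k.1 k.2 * U n k.1 k.2 ≤ C) ∧
    Tendsto (fun k : ℝ × ℝ => NN k.1 k.2 * u k) (𝓝[≠] 0) (𝓝 L) := by
  classical
  obtain ⟨φ, hφ, hsub⟩ := h.exists_subseq
  obtain ⟨C, hC, hIR⟩ := h.infra_all
  -- the function in sector coordinates
  let w : ℝ → ℝ → ℝ := fun a b => |limUnder atTop (fun n => Wn U (φ n) a b)|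
  have hw_s : ∀ a b, w b a = w a b := by
    intro a b; simp only [w]
    congr 2; funext n; exact h.W_symm _ _ _
  have hw_n : ∀ a b, w (-a) (-b) = w a b := by
    intro a b; simp only [w]
    congr 2; funext n; exact h.W_neg _ _ _
  have hw_r : ∀ a b, w (b - a) b = w a b := by
    intro a b; simp only [w]
    congr 2; funext n; exact h.W_refl _ _ _
  have hlt : ∀ {a b : ℝ}, 0 < a → 0 < b → MM a b < 1 / 100 → a < 1 / 10 ∧ b < 1 / 10 := by
    intro a b ha hb hM
    have h1 := MM_ge_left a b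
    have h2 := MM_ge_right a b
    constructor <;> nlinarith
  -- convergence
  have hsec : ∀ a b, 0 < a → a < 1 / 10 → 0 < b → b < 1 / 10 →
      Tendsto (fun n => Wn U (φ n) a b) atTop (𝓝 (w a b)) := by
    intro a b ha ha' hb hb'
    obtain ⟨l, hl⟩ := hsub a b ha ha' hb hb'
    have h1 : 0 ≤ l := ge_of_tendsto' hl fun n => h.W_nonneg _ _ _
    have h2 : w a b = l := by
      simp only [w]
      rw [hl.limUnder_eq, abs_of_nonneg h1]
    rw [h2]; exact hl
  have hconv : ∀ a b, (a ≠ 0 ∨ b ≠ 0) → MM a b < 1 / 100 →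
      Tendsto (fun n => Wn U (φ n) a b) atTop (𝓝 (w a b)) := by
    apply sector_induction (fun a b => Tendsto (fun n => Wn U (φ n) a b) atTop (𝓝 (w a b)))
    · intro a b hQ
      rw [hw_s] at hQ
      exact hQ.congr fun n => h.W_symm _ _ _
    · intro a b hQ
      rw [hw_n] at hQ
      exact hQ.congr fun n => h.W_neg _ _ _
    · intro a b hQ
      rw [hw_r] at hQ
      exact hQ.congr fun n => h.W_refl _ _ _
    · intro a b ha hb hM
      obtain ⟨h1, h2⟩ := hlt ha hb hM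
      exact hsec a b ha h1 hb h2
  -- continuity
  have hcont : ∀ a b, (a ≠ 0 ∨ b ≠ 0) → MM a b < 1 / 100 →
      ContinuousAt (fun p : ℝ × ℝ => w p.1 p.2) (a, b) := by
    apply sector_induction (fun a b => ContinuousAt (fun p : ℝ × ℝ => w p.1 p.2) (a, b))
    · intro a b hQ
      have h1 : ContinuousAt (fun p : ℝ × ℝ => ((p.2, p.1) : ℝ × ℝ)) (a, b) := by fun_prop
      have h2 : ContinuousAt (fun p : ℝ × ℝ => w p.2 p.1) (a, b) :=
        ContinuousAt.comp (f := fun p : ℝ × ℝ => ((p.2, p.1) : ℝ × ℝ))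
          (g := fun p : ℝ × ℝ => w p.1 p.2) (x := (a, b)) hQ h1
      have h3 : (fun p : ℝ × ℝ => w p.2 p.1) = fun p : ℝ × ℝ => w p.1 p.2 := by
        funext p; exact hw_s _ _
      rwa [h3] at h2
    · intro a b hQ
      have h1 : ContinuousAt (fun p : ℝ × ℝ => ((-p.1, -p.2) : ℝ × ℝ)) (a, b) := by fun_prop
      have h2 : ContinuousAt (fun p : ℝ × ℝ => w (-p.1) (-p.2)) (a, b) :=
        ContinuousAt.comp (f := fun p : ℝ × ℝ => ((-p.1, -p.2) : ℝ × ℝ))
          (g := fun p : ℝ × ℝ => w p.1 p.2) (x := (a, b)) hQ h1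
      have h3 : (fun p : ℝ × ℝ => w (-p.1) (-p.2)) = fun p : ℝ × ℝ => w p.1 p.2 := by
        funext p; exact hw_n _ _
      rwa [h3] at h2
    · intro a b hQ
      have h1 : ContinuousAt (fun p : ℝ × ℝ => ((p.2 - p.1, p.2) : ℝ × ℝ)) (a, b) := by fun_prop
      have h2 : ContinuousAt (fun p : ℝ × ℝ => w (p.2 - p.1) p.2) (a, b) :=
        ContinuousAt.comp (f := fun p : ℝ × ℝ => ((p.2 - p.1, p.2) : ℝ × ℝ))
          (g := fun p : ℝ × ℝ => w p.1 p.2) (x := (a, b)) hQ h1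
      have h3 : (fun p : ℝ × ℝ => w (p.2 - p.1) p.2) = fun p : ℝ × ℝ => w p.1 p.2 := by
        funext p; exact hw_r _ _
      rwa [h3] at h2
    · intro a b ha hb hM
      obtain ⟨h1, h2⟩ := hlt ha hb hM
      obtain ⟨K0, δ, hδ, hK0, hE⟩ := h.equi ha h1 hb h2
      rw [Metric.continuousAt_iff]
      intro ε hε
      refine ⟨min (min δ (ε / (4 * (K0 + 1)))) (min (min a (1 / 10 - a)) (min b (1 / 10 - b))), ?_, ?_⟩
      · refine lt_min (lt_min hδ (by positivity)) (lt_min (lt_min ha (by linarith)) (lt_min hb (by linarith)))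
      · intro p hp
        have hp1 : |p.1 - a| ≤ dist p (a, b) := by
          rw [← Real.dist_eq]; exact le_max_left _ _
        have hp2 : |p.2 - b| ≤ dist p (a, b) := by
          rw [← Real.dist_eq]; exact le_max_right _ _
        have hd1 : dist p (a, b) < δ := hp.trans_le ((min_le_left _ _).trans (min_le_left _ _))
        have hd2 : dist p (a, b) < ε / (4 * (K0 + 1)) :=
          hp.trans_le ((min_le_left _ _).trans (min_le_right _ _))
        have hd3 : dist p (a, b) < a :=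
          hp.trans_le ((min_le_right _ _).trans ((min_le_left _ _).trans (min_le_left _ _)))
        have hd4 : dist p (a, b) < 1 / 10 - a :=
          hp.trans_le ((min_le_right _ _).trans ((min_le_left _ _).trans (min_le_right _ _)))
        have hd5 : dist p (a, b) < b :=
          hp.trans_le ((min_le_right _ _).trans ((min_le_right _ _).trans (min_le_left _ _)))
        have hd6 : dist p (a, b) < 1 / 10 - b :=
          hp.trans_le ((min_le_right _ _).trans ((min_le_right _ _).trans (min_le_right _ _)))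
        obtain ⟨h3, h4⟩ := abs_lt.1 (hp1.trans_lt hd3)
        obtain ⟨h3', h4'⟩ := abs_lt.1 (hp1.trans_lt hd4)
        obtain ⟨h5, h6⟩ := abs_lt.1 (hp2.trans_lt hd5)
        obtain ⟨h5', h6'⟩ := abs_lt.1 (hp2.trans_lt hd6)
        have hT1 := hsec p.1 p.2 (by linarith) (by linarith) (by linarith) (by linarith)
        have hT2 := hsec a b ha h1 hb h2
        have hT3 : Tendsto (fun n => |Wn U (φ n) p.1 p.2 - Wn U (φ n) a b|) atTop
            (𝓝 |w p.1 p.2 - w a b|) := (hT1.sub hT2).abs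
        have h7 : |w p.1 p.2 - w a b| ≤ K0 * (|p.1 - a| + |p.2 - b|) :=
          le_of_tendsto' hT3 fun n => hE _ _ (hp1.trans_lt hd1) (hp2.trans_lt hd1) (φ n)
        rw [Real.dist_eq]
        refine h7.trans_lt ?_
        have h8 : |p.1 - a| + |p.2 - b| ≤ 2 * (ε / (4 * (K0 + 1))) := by linarith
        calc K0 * (|p.1 - a| + |p.2 - b|) ≤ (K0 + 1) * (2 * (ε / (4 * (K0 + 1)))) := by
              apply mul_le_mul (by linarith) h8 (by positivity) (by positivity)
          _ = ε / 2 := by field_simp; ring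
          _ < ε := by linarith
  -- the sector structure
  have hπ := Real.pi_gt_three
  have hsq : ∀ {a b : ℝ}, 0 < a → 0 < b → a < 1 / 20 → b < 1 / 20 → a < 1 / 10 ∧ b < 1 / 10 := by
    intro a b _ _ h1 h2; constructor <;> linarith
  have hS : Sec w (1 / 20) := by
    refine ⟨by norm_num, by norm_num, ?_, ?_, ?_, ?_, ?_, ?_⟩
    · intro a b _ _ _ _; exact abs_nonneg _
    · intro a b _ _ _ _; exact hw_s a b
    · intro a b _ _ _; exact hw_r a b
    · intro t x y z hx hxy hyz hz hxt hzt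
      have hT : ∀ v, x ≤ v → v ≤ z → Tendsto (fun n => Wn U (φ n) v ((v + t) / 2)) atTop
          (𝓝 (w v ((v + t) / 2))) := fun v h1 h2 =>
        hsec v _ (by linarith) (by linarith) (by linarith) (by linarith)
      have h1 := hT x le_rfl (by linarith)
      have h2 := hT y hxy hyz
      have h3 := hT z (by linarith) le_rfl
      exact le_of_tendsto_of_tendsto' (((h2.mul h3).const_mul _).add ((h1.mul h2).const_mul _))
        ((h1.mul h3).const_mul _) fun n => h.W_frame _ t x y z hx.le hxy hyz (by linarith)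
    · intro t x y hx hxy hy hxt hyt
      have h1 := hsec x ((x + t) / 2) hx (by linarith) (by linarith) (by linarith)
      have h2 := hsec y ((y + t) / 2) (by linarith) (by linarith) (by linarith) (by linarith)
      exact le_of_tendsto_of_tendsto' (h1.const_mul _) (h2.const_mul _) fun n =>
        h.W_mono _ t x y hx hxy (by linarith)
    · intro t x y hx hxy hy hxt hyt
      have h1 := hsec x ((x + t) / 2) hx (by linarith) (by linarith) (by linarith)
      have h2 := hsec y ((y + t) / 2) (by linarith) (by linarith) (by linarith) (by linarith)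
      exact le_of_tendsto_of_tendsto' (h2.const_mul _) (h1.const_mul _) fun n =>
        h.W_anti _ t x y hx.le hxy (by linarith)
  obtain ⟨L, hL0, hL⟩ := hS.limit
  -- limit in all directions
  have hlimAll : ∀ ε > 0, ∃ c > 0, ∀ a b, (a ≠ 0 ∨ b ≠ 0) → MM a b < c →
      |MM a b * w a b - L| ≤ ε := by
    intro ε hε
    obtain ⟨δ, hδ, hδ'⟩ := hL ε hε
    refine ⟨min (δ ^ 2) (1 / 100), lt_min (by positivity) (by norm_num), ?_⟩
    have hMs : ∀ a b, MM b a = MM a b := fun a b => by unfold MM; ring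
    have hMn : ∀ a b, MM (-a) (-b) = MM a b := fun a b => by unfold MM; ring
    have hMr : ∀ a b, MM (b - a) b = MM a b := fun a b => by unfold MM; ring
    apply sector_induction (fun a b => |MM a b * w a b - L| ≤ ε)
    · intro a b hQ; rwa [hMs, hw_s] at hQ
    · intro a b hQ; rwa [hMn, hw_n] at hQ
    · intro a b hQ; rwa [hMr, hw_r] at hQ
    · -- sector
      have hwedge : ∀ a b, 0 < a → a < b → b < 2 * a → MM a b < min (δ ^ 2) (1 / 100) →
          |MM a b * w a b - L| ≤ ε := by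
        intro a b ha hab hba hM
        apply hδ' a b ha hab hba
        have h1 := (MM_ge_left a b).trans_lt (hM.trans_le (min_le_left _ _))
        exact lt_of_pow_lt_pow_left₀ 2 hδ.le h1
      have hne : ∀ a b, 0 < a → 0 < b → a ≠ b → b ≠ 2 * a → a ≠ 2 * b →
          MM a b < min (δ ^ 2) (1 / 100) → |MM a b * w a b - L| ≤ ε := by
        have haux : ∀ a b, 0 < a → a < b → b ≠ 2 * a → MM a b < min (δ ^ 2) (1 / 100) →
            |MM a b * w a b - L| ≤ ε := by
          intro a b ha hab hba hM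
          rcases lt_or_gt_of_ne hba with h1 | h1
          · exact hwedge a b ha hab h1 hM
          · have h2 := hwedge (b - a) b (by linarith) (by linarith) (by linarith) (by rw [hMr]; exact hM)
            rwa [hMr, hw_r] at h2
        intro a b ha hb hab h1 h2 hM
        rcases lt_or_gt_of_ne hab with h3 | h3
        · exact haux a b ha h3 h1 hM
        · have h4 := haux b a hb h3 h2 (by rw [hMs]; exact hM)
          rwa [hMs, hw_s] at h4
      intro a b ha hb hM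
      -- approximate by points of the form `(a, b + s)`
      have hM' : MM a b < 1 / 100 := hM.trans_le (min_le_right _ _)
      have hc1 : ContinuousAt (fun s : ℝ => MM a (b + s)) 0 := by unfold MM; fun_prop
      have hc2 : ContinuousAt (fun s : ℝ => w a (b + s)) 0 := by
        have h1 : ContinuousAt (fun s : ℝ => ((a, b + s) : ℝ × ℝ)) 0 := by fun_prop
        have h2 := hcont a b (Or.inl ha.ne') hM'
        rw [show ((a, b) : ℝ × ℝ) = (fun s : ℝ => ((a, b + s) : ℝ × ℝ)) 0 by simp] at h2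
        exact ContinuousAt.comp (f := fun s : ℝ => ((a, b + s) : ℝ × ℝ))
          (g := fun p : ℝ × ℝ => w p.1 p.2) (x := (0 : ℝ)) h2 h1
      have hc3 : ContinuousAt (fun s : ℝ => |MM a (b + s) * w a (b + s) - L|) 0 :=
        ((hc1.mul hc2).sub continuousAt_const).abs
      have hc4 : Tendsto (fun s : ℝ => |MM a (b + s) * w a (b + s) - L|) (𝓝[>] 0)
          (𝓝 |MM a b * w a b - L|) := by
        have := hc3.tendsto
        simp only [add_zero] at this
        exact this.mono_left nhdsWithin_le_nhds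
      refine le_of_tendsto hc4 ?_
      -- eventually admissible
      have hE1 : ∀ᶠ s in 𝓝[>] (0 : ℝ), MM a (b + s) < min (δ ^ 2) (1 / 100) := by
        have h1 := hc1.tendsto
        simp only [add_zero] at h1
        exact (h1.mono_left nhdsWithin_le_nhds).eventually (gt_mem_nhds hM)
      have hE2 : ∀ᶠ s in 𝓝[>] (0 : ℝ), 0 < s := eventually_mem_nhdsWithin
      have hE3 : ∀ c : ℝ, ∀ᶠ s in 𝓝[>] (0 : ℝ), b + s ≠ c := by
        intro c
        rcases eq_or_ne b c with h1 | h1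
        · filter_upwards [hE2] with s hs
          rw [h1]; intro h2; linarith
        · have h2 : Tendsto (fun s : ℝ => b + s) (𝓝[>] 0) (𝓝 (b + 0)) :=
            (Continuous.tendsto (by fun_prop) 0).mono_left nhdsWithin_le_nhds
          rw [add_zero] at h2
          exact h2.eventually (isOpen_ne.mem_nhds h1)
      filter_upwards [hE1, hE2, hE3 a, hE3 (2 * a), hE3 (a / 2)] with s h1 h2 h3 h4 h5
      exact hne a (b + s) ha (by linarith) h3.symm h4 (fun h6 => h5 (by linarith)) h1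
  -- assemble
  let u : ℝ × ℝ → ℝ := fun k => w (ik k).1 (ik k).2
  have hWU : ∀ n (k : ℝ × ℝ), Wn U n (ik k).1 (ik k).2 = U n k.1 k.2 := by
    intro n k
    have := kk_ik k
    unfold Wn
    have h1 : (2 * (ik k).1 - 4 * (ik k).2) / 3 = k.1 := congrArg Prod.fst this
    have h2 : (4 * (ik k).1 - 2 * (ik k).2) / 3 = k.2 := congrArg Prod.snd this
    rw [h1, h2]
  refine ⟨φ, u, L, C, hφ, hL0, hC, fun k => abs_nonneg _, ?_, ?_, ?_, ?_, ?_⟩
  · intro k hk hN
    have h1 := hconv (ik k).1 (ik k).2 (ik_ne hk) (by rw [MM_ik]; exact hN)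
    exact h1.congr fun n => hWU _ k
  · intro k hk hN
    have h1 := hcont (ik k).1 (ik k).2 (ik_ne hk) (by rw [MM_ik]; exact hN)
    exact ContinuousAt.comp (f := ik) (g := fun p : ℝ × ℝ => w p.1 p.2) (x := k) h1
      continuous_ik.continuousAt
  · intro k hN
    rcases eq_or_ne k 0 with h0 | hk
    · rw [h0]; simp only [NN]; norm_num; exact hC.le
    have h1 := hconv (ik k).1 (ik k).2 (ik_ne hk) (by rw [MM_ik]; exact hN)
    have h2 := h1.const_mul (NN k.1 k.2)
    refine le_of_tendsto' h2 fun n => ?_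
    have h3 := hIR (ik k).1 (ik k).2 (ik_ne hk) (by rw [MM_ik]; exact hN) (φ n)
    rwa [MM_ik] at h3
  · intro k hN n
    rcases eq_or_ne k 0 with h0 | hk
    · rw [h0]; simp only [NN]; norm_num; exact hC.le
    have h3 := hIR (ik k).1 (ik k).2 (ik_ne hk) (by rw [MM_ik]; exact hN) n
    rwa [MM_ik, hWU] at h3
  · rw [Metric.tendsto_nhdsWithin_nhds]
    intro ε hε
    obtain ⟨c, hc, hc'⟩ := hlimAll (ε / 2) (by positivity)
    have hNc : ContinuousAt (fun k : ℝ × ℝ => NN k.1 k.2) 0 := by unfold NN; fun_prop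
    rw [Metric.continuousAt_iff] at hNc
    obtain ⟨δ, hδ, hδ'⟩ := hNc c hc
    refine ⟨δ, hδ, fun k hk hkd => ?_⟩
    have h1 := hδ' hkd
    have h2 : NN (0 : ℝ × ℝ).1 (0 : ℝ × ℝ).2 = 0 := by simp [NN]
    rw [h2, Real.dist_eq, sub_zero] at h1
    have h3 := hc' (ik k).1 (ik k).2 (ik_ne hk) (by rw [MM_ik]; exact (le_abs_self _).trans_lt h1)
    rw [MM_ik] at h3
    rw [Real.dist_eq]
    show |NN k.1 k.2 * w (ik k).1 (ik k).2 - L| < ε
    linarith

end Reg

end Crest.Agent.R144.Tp952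
end
end

-- ▼ part R144/Tp5_952

/-!
# R144, block TP, helper952 (5): spectral representation of the variogram

* `Reg.exists_spec` : the quadratic form `-1/2 ∑∑ f f V` is `(2π)^{-2} ∫_{N k < r²} |f^|² u` up to
  `C / r² * sup_{N k ≥ r²} |f^|²`.
-/

set_option autoImplicit false

open Filter Topology MeasureTheory
open scoped Real BigOperators

noncomputable section

namespace Crest.Agent.R144.Tp952

variable {V : ℤ × ℤ → ℝ} {U : ℕ → ℝ → ℝ → ℝ}

/-! ### elementary bounds -/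

theorem NN_ge (k1 k2 : ℝ) : (k1 ^ 2 + k2 ^ 2) / 2 ≤ NN k1 k2 := by
  unfold NN; nlinarith [sq_nonneg (k1 - k2)]

theorem NN_le (k1 k2 : ℝ) : NN k1 k2 ≤ 3 / 2 * (k1 ^ 2 + k2 ^ 2) := by
  unfold NN; nlinarith [sq_nonneg (k1 + k2)]

theorem NN_nonneg (k1 k2 : ℝ) : 0 ≤ NN k1 k2 :=
  le_trans (by positivity) (NN_ge k1 k2)

theorem continuous_NN : Continuous (fun k : ℝ × ℝ => NN k.1 k.2) := by unfold NN; fun_prop

/-- `sg x ≥ (4/π²) x²` for `|x| ≤ π` -/
theorem sg_ge_jordan {x : ℝ} (hx : |x| ≤ π) : 4 / π ^ 2 * x ^ 2 ≤ sg x := by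
  have hπ := Real.pi_pos
  have h1 : sg x = 4 * Real.sin (|x| / 2) ^ 2 := by
    have h2 : Real.cos |x| = 1 - 2 * Real.sin (|x| / 2) ^ 2 := by
      have := Real.cos_two_mul (|x| / 2)
      rw [show 2 * (|x| / 2) = |x| by ring] at this
      rw [this, Real.cos_sq']; ring
    rw [Real.cos_abs] at h2
    unfold sg; rw [h2]; ring
  have h3 : 2 / π * (|x| / 2) ≤ Real.sin (|x| / 2) :=
    Real.mul_le_sin (by positivity) (by linarith)
  have h4 : 0 ≤ 2 / π * (|x| / 2) := by positivity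
  have h5 : (2 / π * (|x| / 2)) ^ 2 ≤ Real.sin (|x| / 2) ^ 2 := pow_le_pow_left₀ h4 h3 2
  have h6 : (2 / π * (|x| / 2)) ^ 2 = x ^ 2 / π ^ 2 := by
    rw [show 2 / π * (|x| / 2) = |x| / π by field_simp, div_pow, sq_abs]
  rw [h6] at h5
  rw [h1]
  calc 4 / π ^ 2 * x ^ 2 = 4 * (x ^ 2 / π ^ 2) := by ring
    _ ≤ _ := by linarith

theorem sg_sum_ge {k1 k2 r : ℝ} (h1 : |k1| ≤ π) (h2 : |k2| ≤ π) (hN : r ^ 2 ≤ NN k1 k2) :
    r ^ 2 / 4 ≤ sg k1 + sg k2 := by
  have e1 := sg_ge_jordan h1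
  have e2 := sg_ge_jordan h2
  have e3 := hN.trans (NN_le k1 k2)
  have hπ : (0 : ℝ) < π ^ 2 := by positivity
  have hπ' : π ^ 2 ≤ 10 := by nlinarith [Real.pi_lt_d2, Real.pi_pos]
  have e4 : (4 : ℝ) / 10 ≤ 4 / π ^ 2 := by
    apply div_le_div_of_nonneg_left (by norm_num) hπ hπ'
  have e5 : 4 / 10 * (k1 ^ 2 + k2 ^ 2) ≤ 4 / π ^ 2 * (k1 ^ 2 + k2 ^ 2) :=
    mul_le_mul_of_nonneg_right e4 (by positivity)
  nlinarith

/-! ### the Fourier transform -/

theorem continuous_fh (s : Finset (ℤ × ℤ)) (f : ℤ × ℤ → ℝ) :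
    Continuous (fun k : ℝ × ℝ => fh s f k.1 k.2) := by
  unfold fh
  refine continuous_finsetSum _ fun p _ => ?_
  refine continuous_const.mul (Complex.continuous_exp.comp ?_)
  refine continuous_const.mul (Complex.continuous_ofReal.comp ?_)
  fun_prop

/-- first-moment norm of a test function -/
def mom (s : Finset (ℤ × ℤ)) (f : ℤ × ℤ → ℝ) : ℝ := ∑ p ∈ s, |f p| * (|(p.1 : ℝ)| + |(p.2 : ℝ)|)

theorem mom_nonneg (s : Finset (ℤ × ℤ)) (f : ℤ × ℤ → ℝ) : 0 ≤ mom s f :=
  Finset.sum_nonneg fun p _ => by positivity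

theorem norm_fh_le {s : Finset (ℤ × ℤ)} {f : ℤ × ℤ → ℝ} (h0 : ∑ p ∈ s, f p = 0) (k1 k2 : ℝ) :
    ‖fh s f k1 k2‖ ≤ mom s f * max |k1| |k2| := by
  have h1 : fh s f k1 k2 = ∑ p ∈ s, (f p : ℂ) *
      (Complex.exp (Complex.I * ((p.1 : ℝ) * k1 + (p.2 : ℝ) * k2 : ℝ)) - 1) := by
    unfold fh
    have h2 : ∑ p ∈ s, (f p : ℂ) = 0 := by
      have := congrArg (fun x : ℝ => (x : ℂ)) h0
      simpa using this
    simp only [mul_sub, mul_one, Finset.sum_sub_distrib, h2, sub_zero]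
  rw [h1]
  refine (norm_sum_le _ _).trans ?_
  unfold mom
  rw [Finset.sum_mul]
  refine Finset.sum_le_sum fun p _ => ?_
  rw [norm_mul, Complex.norm_real, Real.norm_eq_abs, mul_assoc]
  refine mul_le_mul_of_nonneg_left ?_ (abs_nonneg _)
  have h3 : ‖Complex.exp (Complex.I * (((p.1 : ℝ) * k1 + (p.2 : ℝ) * k2 : ℝ) : ℂ)) - 1‖
      ≤ ‖((p.1 : ℝ) * k1 + (p.2 : ℝ) * k2 : ℝ)‖ := Real.norm_exp_I_mul_ofReal_sub_one_le
  refine h3.trans ?_
  rw [Real.norm_eq_abs]
  calc |(p.1 : ℝ) * k1 + (p.2 : ℝ) * k2| ≤ |(p.1 : ℝ) * k1| + |(p.2 : ℝ) * k2| := abs_add_le _ _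
    _ = |(p.1 : ℝ)| * |k1| + |(p.2 : ℝ)| * |k2| := by rw [abs_mul, abs_mul]
    _ ≤ |(p.1 : ℝ)| * max |k1| |k2| + |(p.2 : ℝ)| * max |k1| |k2| := by
        gcongr
        · exact le_max_left _ _
        · exact le_max_right _ _
    _ = _ := by ring

theorem normSq_fh_le {s : Finset (ℤ × ℤ)} {f : ℤ × ℤ → ℝ} (h0 : ∑ p ∈ s, f p = 0) (k1 k2 : ℝ) :
    Complex.normSq (fh s f k1 k2) ≤ 2 * mom s f ^ 2 * NN k1 k2 := by
  rw [Complex.normSq_eq_norm_sq]
  have h1 := norm_fh_le h0 k1 k2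
  have h2 : ‖fh s f k1 k2‖ ^ 2 ≤ (mom s f * max |k1| |k2|) ^ 2 := pow_le_pow_left₀ (norm_nonneg _) h1 2
  have h3 : (max |k1| |k2|) ^ 2 ≤ k1 ^ 2 + k2 ^ 2 := by
    rcases max_cases |k1| |k2| with ⟨h, -⟩ | ⟨h, -⟩
    · rw [h, sq_abs]; nlinarith [sq_nonneg k2]
    · rw [h, sq_abs]; nlinarith [sq_nonneg k1]
  have h4 := NN_ge k1 k2
  calc ‖fh s f k1 k2‖ ^ 2 ≤ mom s f ^ 2 * (max |k1| |k2|) ^ 2 := by rw [← mul_pow]; exact h2
    _ ≤ mom s f ^ 2 * (2 * NN k1 k2) := by gcongr; linarith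
    _ = _ := by ring

/-! ### the fundamental square and the disc -/

/-- the fundamental square -/
def JJ : Set (ℝ × ℝ) := Set.Ioc (-π) π ×ˢ Set.Ioc (-π) π

/-- the disc `N k < r²` -/
def BB (r : ℝ) : Set (ℝ × ℝ) := {k | NN k.1 k.2 < r ^ 2}

theorem measurableSet_JJ : MeasurableSet JJ := measurableSet_Ioc.prod measurableSet_Ioc

theorem isOpen_BB (r : ℝ) : IsOpen (BB r) := isOpen_lt continuous_NN continuous_const

theorem measurableSet_BB (r : ℝ) : MeasurableSet (BB r) := (isOpen_BB r).measurableSet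

theorem abs_le_of_mem_BB {r : ℝ} (hr : 0 ≤ r) {k : ℝ × ℝ} (hk : k ∈ BB r) :
    |k.1| ≤ 2 * r ∧ |k.2| ≤ 2 * r := by
  have h1 : NN k.1 k.2 < r ^ 2 := hk
  have h2 := NN_ge k.1 k.2
  constructor
  · apply abs_le_of_sq_le_sq _ (by linarith)
    nlinarith [sq_nonneg k.2]
  · apply abs_le_of_sq_le_sq _ (by linarith)
    nlinarith [sq_nonneg k.1]

theorem BB_subset_JJ {r : ℝ} (hr : 0 ≤ r) (hr' : r ≤ 1) : BB r ⊆ JJ := by
  intro k hk
  have hπ := Real.pi_gt_three
  obtain ⟨h1, h2⟩ := abs_le_of_mem_BB hr hk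
  rw [abs_le] at h1 h2
  exact ⟨⟨by linarith, by linarith⟩, ⟨by linarith, by linarith⟩⟩

theorem JJ_subset : JJ ⊆ Set.Icc (-π) π ×ˢ Set.Icc (-π) π :=
  Set.prod_mono Set.Ioc_subset_Icc_self Set.Ioc_subset_Icc_self

theorem integrableOn_JJ {G : ℝ × ℝ → ℝ} (hG : Continuous G) : IntegrableOn G JJ := by
  have h1 : IsCompact (Set.Icc (-π) π ×ˢ Set.Icc (-π) π) := isCompact_Icc.prod isCompact_Icc
  exact (hG.continuousOn.integrableOn_compact h1).mono_set JJ_subset

theorem integral_JJ {G : ℝ × ℝ → ℝ} (hG : Continuous G) :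
    ∫ k1 in (-π)..π, ∫ k2 in (-π)..π, G (k1, k2) = ∫ k in JJ, G k := by
  have hπ : -π ≤ π := by linarith [Real.pi_pos]
  have h1 := integrableOn_JJ hG
  unfold JJ at *
  rw [Measure.volume_eq_prod] at h1 ⊢
  rw [setIntegral_prod _ h1, intervalIntegral.integral_of_le hπ]
  congr 1; funext k1
  rw [intervalIntegral.integral_of_le hπ]

theorem volume_BB_lt_top {r : ℝ} (hr : 0 ≤ r) (hr' : r ≤ 1) : volume (BB r) < ⊤ := by
  have h1 : IsCompact (Set.Icc (-π) π ×ˢ Set.Icc (-π) π) := isCompact_Icc.prod isCompact_Icc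
  exact lt_of_le_of_lt (measure_mono ((BB_subset_JJ hr hr').trans JJ_subset)) h1.measure_lt_top

namespace Reg

/-- **spectral representation near `0`** -/
theorem exists_spec (h : Reg V U) : ∃ (u : ℝ × ℝ → ℝ) (L C : ℝ), 0 ≤ L ∧ 0 < C ∧ (∀ k, 0 ≤ u k) ∧
    ContinuousOn u {k | k ≠ 0 ∧ NN k.1 k.2 < 1 / 100} ∧
    (∀ k : ℝ × ℝ, NN k.1 k.2 < 1 / 100 → NN k.1 k.2 * u k ≤ C) ∧
    Tendsto (fun k : ℝ × ℝ => NN k.1 k.2 * u k) (𝓝[≠] 0) (𝓝 L) ∧
    ∀ (r : ℝ) (s : Finset (ℤ × ℤ)) (f : ℤ × ℤ → ℝ) (M : ℝ), 0 < r → r ≤ 1 / 10 →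
      ∑ p ∈ s, f p = 0 →
      (∀ k1 k2 : ℝ, |k1| ≤ π → |k2| ≤ π → r ^ 2 ≤ NN k1 k2 → Complex.normSq (fh s f k1 k2) ≤ M) →
      IntegrableOn (fun k : ℝ × ℝ => Complex.normSq (fh s f k.1 k.2) * u k) (BB r) ∧
      |(-(1 / 2) * ∑ p ∈ s, ∑ q ∈ s, f p * f q * V (p - q))
        - (∫ k in BB r, Complex.normSq (fh s f k.1 k.2) * u k) / (2 * π) ^ 2| ≤ C / r ^ 2 * M := by
  obtain ⟨φ, u, L, C, hφ, hL, hC, hu, hlim, hcont, hIR, hIRn, hT⟩ := h.exists_density
  obtain ⟨CS, hCS, hS1, hS2⟩ := h.exists_S_bound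
  refine ⟨u, L, C + 8 * CS, hL, by linarith, hu, ?_, ?_, hT, ?_⟩
  · intro k hk
    exact (hcont k hk.1 hk.2).continuousWithinAt
  · intro k hk
    linarith [hIR k hk]
  intro r s f M hr hr' h0 hM
  have hr1 : r ≤ 1 := by linarith
  have hrr : r ^ 2 ≤ 1 / 100 := by nlinarith
  have hBB : ∀ k ∈ BB r, NN k.1 k.2 < 1 / 100 := fun k hk => lt_of_lt_of_le hk hrr
  set F : ℝ × ℝ → ℝ := fun k => Complex.normSq (fh s f k.1 k.2) with hF
  have hFc : Continuous F := Complex.continuous_normSq.comp (continuous_fh s f)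
  have hF0 : ∀ k, 0 ≤ F k := fun k => Complex.normSq_nonneg _
  have hFN : ∀ k : ℝ × ℝ, F k ≤ 2 * mom s f ^ 2 * NN k.1 k.2 := fun k => normSq_fh_le h0 k.1 k.2
  have hFz : F 0 = 0 := by
    have h1 := hFN 0
    have h2 : NN (0 : ℝ × ℝ).1 (0 : ℝ × ℝ).2 = 0 := by simp [NN]
    rw [h2, mul_zero] at h1
    exact le_antisymm h1 (hF0 0)
  have hM0 : 0 ≤ M := by
    refine le_trans (Complex.normSq_nonneg (fh s f π π)) (hM π π ?_ ?_ ?_)
    · rw [abs_of_pos Real.pi_pos]
    · rw [abs_of_pos Real.pi_pos]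
    · unfold NN; nlinarith [Real.pi_gt_three]
  have hGc : ∀ n, Continuous (fun k : ℝ × ℝ => F k * U n k.1 k.2) := fun n => hFc.mul (h.cont n)
  -- dominated convergence on the disc
  have hfin : volume (BB r) < ⊤ := volume_BB_lt_top hr.le hr1
  have : IsFiniteMeasure (volume.restrict (BB r)) := ⟨by rwa [Measure.restrict_apply_univ]⟩
  have hbd : ∀ n, ∀ k ∈ BB r, ‖F k * U n k.1 k.2‖ ≤ 2 * mom s f ^ 2 * C := by
    intro n k hk
    rw [Real.norm_eq_abs, abs_of_nonneg (mul_nonneg (hF0 k) (h.nonneg _ _ _))]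
    calc F k * U n k.1 k.2 ≤ (2 * mom s f ^ 2 * NN k.1 k.2) * U n k.1 k.2 :=
          mul_le_mul_of_nonneg_right (hFN k) (h.nonneg _ _ _)
      _ = 2 * mom s f ^ 2 * (NN k.1 k.2 * U n k.1 k.2) := by ring
      _ ≤ _ := mul_le_mul_of_nonneg_left (hIRn k (hBB k hk) n) (by positivity)
  have hpt : ∀ k ∈ BB r, Tendsto (fun n => F k * U (φ n) k.1 k.2) atTop (𝓝 (F k * u k)) := by
    intro k hk
    by_cases hk0 : k = 0
    · subst hk0
      simp only [hFz, zero_mul]
      exact tendsto_const_nhds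
    · exact (hlim k hk0 (hBB k hk)).const_mul _
  have haem : ∀ n, AEStronglyMeasurable (fun k : ℝ × ℝ => F k * U (φ n) k.1 k.2)
      (volume.restrict (BB r)) := fun n => (hGc (φ n)).aestronglyMeasurable
  have hdct : Tendsto (fun n => ∫ k in BB r, F k * U (φ n) k.1 k.2) atTop
      (𝓝 (∫ k in BB r, F k * u k)) := by
    refine tendsto_integral_of_dominated_convergence (fun _ => 2 * mom s f ^ 2 * C) haem
      (integrable_const _) ?_ ?_
    · intro n
      filter_upwards [ae_restrict_mem (measurableSet_BB r)] with k hk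
      exact hbd (φ n) k hk
    · filter_upwards [ae_restrict_mem (measurableSet_BB r)] with k hk
      exact hpt k hk
  have hint : IntegrableOn (fun k : ℝ × ℝ => F k * u k) (BB r) := by
    have hae : AEStronglyMeasurable (fun k : ℝ × ℝ => F k * u k) (volume.restrict (BB r)) := by
      refine aestronglyMeasurable_of_tendsto_ae atTop haem ?_
      filter_upwards [ae_restrict_mem (measurableSet_BB r)] with k hk
      exact hpt k hk
    refine Integrable.mono' (integrable_const (2 * mom s f ^ 2 * C)) hae ?_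
    filter_upwards [ae_restrict_mem (measurableSet_BB r)] with k hk
    rw [Real.norm_eq_abs, abs_of_nonneg (mul_nonneg (hF0 k) (hu k))]
    calc F k * u k ≤ (2 * mom s f ^ 2 * NN k.1 k.2) * u k :=
          mul_le_mul_of_nonneg_right (hFN k) (hu _)
      _ = 2 * mom s f ^ 2 * (NN k.1 k.2 * u k) := by ring
      _ ≤ _ := mul_le_mul_of_nonneg_left (hIR k (hBB k hk)) (by positivity)
  refine ⟨hint, ?_⟩
  -- outside
  have hout : ∀ n, |(∫ k in JJ, F k * U n k.1 k.2) - ∫ k in BB r, F k * U n k.1 k.2|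
      ≤ M * (4 / r ^ 2) * (2 * CS) := by
    intro n
    have hsub := BB_subset_JJ hr.le hr1
    have hi := integrableOn_JJ (hGc n)
    have h1 : (∫ k in JJ, F k * U n k.1 k.2) - ∫ k in BB r, F k * U n k.1 k.2
        = ∫ k in JJ \ BB r, F k * U n k.1 k.2 := by
      rw [setIntegral_sdiff (measurableSet_BB r) hi hsub]
    rw [h1]
    have h2 : 0 ≤ ∫ k in JJ \ BB r, F k * U n k.1 k.2 :=
      setIntegral_nonneg (measurableSet_JJ.diff (measurableSet_BB r))
        fun k _ => mul_nonneg (hF0 k) (h.nonneg _ _ _)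
    rw [abs_of_nonneg h2]
    have hcs : Continuous (fun k : ℝ × ℝ => (sg k.1 + sg k.2) * U n k.1 k.2) :=
      ((continuous_sg.comp continuous_fst).add (continuous_sg.comp continuous_snd)).mul (h.cont n)
    have hcs1 : Continuous (fun k : ℝ × ℝ => sg k.1 * U n k.1 k.2) :=
      (continuous_sg.comp continuous_fst).mul (h.cont n)
    have hcs2 : Continuous (fun k : ℝ × ℝ => sg k.2 * U n k.1 k.2) :=
      (continuous_sg.comp continuous_snd).mul (h.cont n)
    have hJ : ∫ k in JJ, (sg k.1 + sg k.2) * U n k.1 k.2 ≤ 2 * CS := by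
      have e1 : ∫ k in JJ, (sg k.1 + sg k.2) * U n k.1 k.2
          = (∫ k in JJ, sg k.1 * U n k.1 k.2) + ∫ k in JJ, sg k.2 * U n k.1 k.2 := by
        rw [← integral_add (integrableOn_JJ hcs1) (integrableOn_JJ hcs2)]
        congr 1; funext k; ring
      rw [e1, ← integral_JJ hcs1, ← integral_JJ hcs2]
      linarith [hS1 n, hS2 n]
    calc ∫ k in JJ \ BB r, F k * U n k.1 k.2
        ≤ ∫ k in JJ \ BB r, M * (4 / r ^ 2) * ((sg k.1 + sg k.2) * U n k.1 k.2) := by
          refine setIntegral_mono_on (hi.mono_set Set.sdiff_subset)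
            (((integrableOn_JJ hcs).mono_set Set.sdiff_subset).const_mul _)
            (measurableSet_JJ.diff (measurableSet_BB r)) ?_
          intro k hk
          have hk1 : |k.1| ≤ π := abs_le.2 ⟨hk.1.1.1.le, hk.1.1.2⟩
          have hk2 : |k.2| ≤ π := abs_le.2 ⟨hk.1.2.1.le, hk.1.2.2⟩
          have hkN : r ^ 2 ≤ NN k.1 k.2 := not_lt.1 hk.2
          have e1 : F k ≤ M := hM _ _ hk1 hk2 hkN
          have e2 := sg_sum_ge hk1 hk2 hkN
          have e3 : 1 ≤ 4 / r ^ 2 * (sg k.1 + sg k.2) := by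
            rw [div_mul_eq_mul_div, le_div_iff₀ (by positivity)]; linarith
          have e4 : 0 ≤ U n k.1 k.2 := h.nonneg _ _ _
          calc F k * U n k.1 k.2 ≤ M * U n k.1 k.2 := mul_le_mul_of_nonneg_right e1 e4
            _ = M * (1 * U n k.1 k.2) := by ring
            _ ≤ M * ((4 / r ^ 2 * (sg k.1 + sg k.2)) * U n k.1 k.2) := by gcongr
            _ = _ := by ring
      _ = M * (4 / r ^ 2) * ∫ k in JJ \ BB r, (sg k.1 + sg k.2) * U n k.1 k.2 :=
          integral_const_mul _ _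
      _ ≤ M * (4 / r ^ 2) * ∫ k in JJ, (sg k.1 + sg k.2) * U n k.1 k.2 := by
          refine mul_le_mul_of_nonneg_left ?_ (by positivity)
          refine setIntegral_mono_set (integrableOn_JJ hcs) ?_ (Filter.Eventually.of_forall Set.sdiff_subset)
          exact Filter.Eventually.of_forall fun k =>
            mul_nonneg (add_nonneg (sg_nonneg _) (sg_nonneg _)) (h.nonneg _ _ _)
      _ ≤ _ := mul_le_mul_of_nonneg_left hJ (by positivity)
  -- the limit
  have hπ2 : (0 : ℝ) < (2 * π) ^ 2 := by positivity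
  have hlim2 := (h.lim s f h0).comp hφ.tendsto_atTop
  have hlim3 : Tendsto (fun n => (∫ k in JJ, F k * U (φ n) k.1 k.2) / (2 * π) ^ 2) atTop
      (𝓝 (-(1 / 2) * ∑ p ∈ s, ∑ q ∈ s, f p * f q * V (p - q))) := by
    refine hlim2.congr fun n => ?_
    simp only [Function.comp_apply]
    rw [← integral_JJ (hGc (φ n))]
  have hlim4 := (hlim3.sub (hdct.div_const ((2 * π) ^ 2))).abs
  refine le_of_tendsto hlim4 (Filter.Eventually.of_forall fun n => ?_)
  rw [← sub_div, abs_div, abs_of_pos hπ2, div_le_iff₀ hπ2]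
  refine (hout (φ n)).trans ?_
  have e5 : M * (4 / r ^ 2) * (2 * CS) = 8 * CS / r ^ 2 * M := by ring
  rw [e5]
  have e6 : 8 * CS / r ^ 2 * M ≤ (C + 8 * CS) / r ^ 2 * M := by
    gcongr; linarith
  have e7 : (1 : ℝ) ≤ (2 * π) ^ 2 := by nlinarith [Real.pi_gt_three]
  have e8 : 0 ≤ (C + 8 * CS) / r ^ 2 * M := by positivity
  nlinarith

end Reg

end Crest.Agent.R144.Tp952
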