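import Mathlib
import Crest.Agent.R144.Tp5_952
import Crest.Agent.R144.Tp6_952
import Crest.Agent.R144.Geo4_268

-- ▼ part R144/Cw1_643
section

/-!
# R144 (helper643), CW block, file 1: Taylor estimate of the triangular lattice Laplacian

Lemmas `step_bound` .. `second_diff_dir` are copied from `R161/Lap_695` (helper695).

* `om = 1/2 + (√3/2) i`;
* `lap7 δ ψ z = ∑_{six neighbours} ψ (z + δ e) - 6 ψ z`;
* `lap7_sub_le : |lap7 δ ψ z - (3/2) δ² Δψ z| ≤ C δ⁴`.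
-/

set_option autoImplicit false

noncomputable section

namespace Crest.Agent.R144.Cw643

open Finset Filter Topology Metric
open scoped ContDiff Laplacian

theorem step_bound {φ φ' : ℝ → ℝ} {C h : ℝ} (hd : ∀ t, HasDerivAt φ (φ' t) t)
    (h0 : φ 0 = 0) (hb : ∀ t ∈ Set.Icc 0 h, |φ' t| ≤ C) (hC : 0 ≤ C) :
    ∀ t ∈ Set.Icc 0 h, |φ t| ≤ C * h := by
  intro t ht
  have h1 := norm_image_sub_le_of_norm_deriv_le_segment' (f := φ) (f' := φ') (C := C) (a := 0)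
    (b := h) (fun x _ => (hd x).hasDerivWithinAt)
    (fun x hx => by rw [Real.norm_eq_abs]; exact hb x ⟨hx.1, hx.2.le⟩) t ht
  rw [h0, sub_zero, sub_zero, Real.norm_eq_abs] at h1
  exact h1.trans (mul_le_mul_of_nonneg_left ht.2 hC)

theorem second_diff {f f1 f2 f3 f4 : ℝ → ℝ} {M h : ℝ} (hh : 0 ≤ h)
    (h1 : ∀ t, HasDerivAt f (f1 t) t) (h2 : ∀ t, HasDerivAt f1 (f2 t) t)
    (h3 : ∀ t, HasDerivAt f2 (f3 t) t) (h4 : ∀ t, HasDerivAt f3 (f4 t) t)
    (hM : ∀ t, |f4 t| ≤ M) :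
    |f h + f (-h) - 2 * f 0 - h ^ 2 * f2 0| ≤ 2 * M * h ^ 4 := by
  have hM0 : 0 ≤ M := (abs_nonneg _).trans (hM 0)
  have neg : ∀ {g g' : ℝ → ℝ}, (∀ t, HasDerivAt g (g' t) t) →
      ∀ t, HasDerivAt (fun s => g (-s)) (-(g' (-t))) t := by
    intro g g' hg t
    have := (hg (-t)).comp t (hasDerivAt_neg t)
    simpa [Function.comp_def] using this
  -- third level
  have b3 : ∀ t ∈ Set.Icc 0 h, |f3 t - f3 (-t)| ≤ 2 * M * h := by
    refine step_bound (φ := fun t => f3 t - f3 (-t)) (φ' := fun t => f4 t - -(f4 (-t)))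
      (fun t => (h4 t).sub (neg h4 t)) (by simp) (fun t _ => ?_) (by positivity)
    rw [sub_neg_eq_add]
    calc |f4 t + f4 (-t)| ≤ |f4 t| + |f4 (-t)| := abs_add_le _ _
      _ ≤ 2 * M := by linarith [hM t, hM (-t)]
  have b2 : ∀ t ∈ Set.Icc 0 h, |f2 t + f2 (-t) - 2 * f2 0| ≤ 2 * M * h * h := by
    refine step_bound (φ := fun t => f2 t + f2 (-t) - 2 * f2 0) (φ' := fun t => f3 t + -(f3 (-t)))
      (fun t => ((h3 t).add (neg h3 t)).sub_const _) (by simp; ring) (fun t ht => ?_)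
      (by positivity)
    rw [← sub_eq_add_neg]
    exact b3 t ht
  have b1 : ∀ t ∈ Set.Icc 0 h, |f1 t - f1 (-t) - 2 * t * f2 0| ≤ 2 * M * h * h * h := by
    refine step_bound (φ := fun t => f1 t - f1 (-t) - 2 * t * f2 0)
      (φ' := fun t => f2 t - -(f2 (-t)) - 2 * 1 * f2 0)
      (fun t => ((h2 t).sub (neg h2 t)).sub ((((hasDerivAt_id t).const_mul 2)).mul_const _))
      (by simp) (fun t ht => ?_) (by positivity)
    rw [sub_neg_eq_add, mul_one]
    exact b2 t ht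
  have b0 : ∀ t ∈ Set.Icc 0 h, |f t + f (-t) - 2 * f 0 - t ^ 2 * f2 0| ≤
      2 * M * h * h * h * h := by
    refine step_bound (φ := fun t => f t + f (-t) - 2 * f 0 - t ^ 2 * f2 0)
      (φ' := fun t => f1 t + -(f1 (-t)) - (2 : ℕ) * t ^ (2 - 1) * f2 0)
      (fun t => (((h1 t).add (neg h1 t)).sub_const _).sub ((hasDerivAt_pow 2 t).mul_const _))
      (by simp; ring) (fun t ht => ?_) (by positivity)
    have := b1 t ht
    rw [← sub_eq_add_neg]
    simpa using this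
  have := b0 h ⟨hh, le_rfl⟩
  calc _ ≤ 2 * M * h * h * h * h := this
    _ = 2 * M * h ^ 4 := by ring

/-- `k`-th derivative in the direction `e` -/
def dirD (k : ℕ) (ψ : ℂ → ℝ) (e z : ℂ) : ℝ := iteratedFDeriv ℝ k ψ z (fun _ => e)

theorem dirD_zero (ψ : ℂ → ℝ) (e z : ℂ) : dirD 0 ψ e z = ψ z := by
  simp [dirD]

theorem hasDerivAt_dirD {ψ : ℂ → ℝ} (hψ : ContDiff ℝ ∞ ψ) (k : ℕ) (e z : ℂ) (t : ℝ) :
    HasDerivAt (fun t : ℝ => dirD k ψ e (z + t * e)) (dirD (k + 1) ψ e (z + t * e)) t := by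
  have h1 : Differentiable ℝ (iteratedFDeriv ℝ k ψ) :=
    hψ.differentiable_iteratedFDeriv (by exact_mod_cast WithTop.coe_lt_coe.2 (ENat.natCast_lt_top k))
  have h2 := (h1 (z + t * e)).hasFDerivAt
  have h3 : HasDerivAt (fun t : ℝ => z + (t : ℂ) * e) e t := by
    have h4 : HasDerivAt (fun t : ℝ => (t : ℂ)) 1 t := Complex.ofRealCLM.hasDerivAt
    have := (h4.mul_const e).const_add z
    simpa using this
  have h5 := h2.comp_hasDerivAt t h3
  have h6 := ((ContinuousMultilinearMap.apply ℝ (fun _ : Fin k => ℂ) ℝ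
    (fun _ => e)).hasFDerivAt (x := iteratedFDeriv ℝ k ψ (z + t * e))).comp_hasDerivAt t h5
  exact h6

theorem abs_dirD_le {ψ : ℂ → ℝ} (k : ℕ) {e : ℂ} (he : ‖e‖ = 1) (z : ℂ) :
    |dirD k ψ e z| ≤ ‖iteratedFDeriv ℝ k ψ z‖ := by
  have := (iteratedFDeriv ℝ k ψ z).le_opNorm (fun _ => e)
  simp only [he, Finset.prod_const_one, mul_one, Real.norm_eq_abs] at this
  exact this

theorem laplacian_eq (ψ : ℂ → ℝ) (z : ℂ) :
    (Δ ψ) z = dirD 2 ψ 1 z + dirD 2 ψ Complex.I z := by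
  rw [InnerProductSpace.laplacian_eq_iteratedFDeriv_complexPlane]
  unfold dirD
  have e : ∀ a : ℂ, (![a, a] : Fin 2 → ℂ) = fun _ => a := by
    intro a; funext i; fin_cases i <;> rfl
  simp only [e]

theorem second_diff_dir {ψ : ℂ → ℝ} (hψ : ContDiff ℝ ∞ ψ) {M : ℝ}
    (hM : ∀ z, ‖iteratedFDeriv ℝ 4 ψ z‖ ≤ M) {e : ℂ} (he : ‖e‖ = 1) (z : ℂ) {δ : ℝ}
    (hδ : 0 ≤ δ) :
    |ψ (z + δ * e) + ψ (z - δ * e) - 2 * ψ z - δ ^ 2 * dirD 2 ψ e z| ≤ 2 * M * δ ^ 4 := by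
  have h := second_diff hδ (hasDerivAt_dirD hψ 0 e z) (hasDerivAt_dirD hψ 1 e z)
    (hasDerivAt_dirD hψ 2 e z) (hasDerivAt_dirD hψ 3 e z)
    (fun t => (abs_dirD_le 4 he _).trans (hM _))
  simp only [dirD_zero, Complex.ofReal_zero, zero_mul, add_zero, Complex.ofReal_neg, neg_mul,
    ← sub_eq_add_neg] at h
  exact h

/-! ### the triangular directions -/

/-- `e^{iπ/3}` -/
def om : ℂ := 1 / 2 + (Real.sqrt 3 / 2 : ℝ) * Complex.I

theorem sq3 : Real.sqrt 3 ^ 2 = 3 := Real.sq_sqrt (by norm_num)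

theorem om_re : om.re = 1 / 2 := by simp [om]
theorem om_im : om.im = Real.sqrt 3 / 2 := by simp [om]

theorem norm_om : ‖om‖ = 1 := by
  have h : ‖om‖ ^ 2 = 1 := by
    rw [← Complex.normSq_eq_norm_sq, Complex.normSq_apply, om_re, om_im]
    nlinarith [sq3]
  nlinarith [norm_nonneg om]

theorem norm_om' : ‖om - 1‖ = 1 := by
  have h : ‖om - 1‖ ^ 2 = 1 := by
    rw [← Complex.normSq_eq_norm_sq, Complex.normSq_apply, Complex.sub_re, Complex.sub_im, om_re,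
      om_im, Complex.one_re, Complex.one_im]
    nlinarith [sq3]
  nlinarith [norm_nonneg (om - 1)]

/-- sum of second derivatives in the three lattice directions -/
theorem dirD_three {ψ : ℂ → ℝ} (z : ℂ) :
    dirD 2 ψ 1 z + dirD 2 ψ om z + dirD 2 ψ (om - 1) z = 3 / 2 * (Δ ψ) z := by
  rw [laplacian_eq]
  set B := fderiv ℝ (fderiv ℝ ψ) z with hB
  have hd : ∀ e : ℂ, dirD 2 ψ e z = B e e := by
    intro e
    unfold dirD
    rw [iteratedFDeriv_two_apply]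
  have e1 : om = (1 / 2 : ℝ) • (1 : ℂ) + (Real.sqrt 3 / 2) • Complex.I := by
    apply Complex.ext <;> simp [om]
  have e2 : om - 1 = (-(1 / 2) : ℝ) • (1 : ℂ) + (Real.sqrt 3 / 2) • Complex.I := by
    apply Complex.ext
    · rw [Complex.sub_re, om_re]; simp; norm_num
    · rw [Complex.sub_im, om_im]; simp
  rw [hd, hd, hd, hd, e2, e1]
  simp only [map_add, map_smul, ContinuousLinearMap.add_apply, ContinuousLinearMap.smul_apply,
    smul_eq_mul]
  have h3 := sq3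
  linear_combination (B Complex.I Complex.I / 2) * h3

/-- sum over the six neighbours minus `6 ψ` -/
def lap7 (δ : ℝ) (ψ : ℂ → ℝ) (z : ℂ) : ℝ :=
  (ψ (z + δ * 1) + ψ (z - δ * 1)) + (ψ (z + δ * om) + ψ (z - δ * om)) +
    (ψ (z + δ * (om - 1)) + ψ (z - δ * (om - 1))) - 6 * ψ z

theorem exists_M4 {ψ : ℂ → ℝ} (hψ : ContDiff ℝ ∞ ψ) (hc : HasCompactSupport ψ) :
    ∃ M : ℝ, 0 ≤ M ∧ ∀ z, ‖iteratedFDeriv ℝ 4 ψ z‖ ≤ M := by
  obtain ⟨M, hM⟩ := (hψ.continuous_iteratedFDeriv (m := 4)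
    (WithTop.coe_le_coe.2 (le_top : ((4 : ℕ) : ℕ∞) ≤ ⊤))).bounded_above_of_compact_support (hc.iteratedFDeriv 4)
  exact ⟨M, (norm_nonneg _).trans (hM 0), hM⟩

/-- **Taylor estimate of the triangular Laplacian.** -/
theorem lap7_sub_le {ψ : ℂ → ℝ} (hψ : ContDiff ℝ ∞ ψ) (hc : HasCompactSupport ψ) :
    ∃ C : ℝ, 0 ≤ C ∧ ∀ (δ : ℝ) (z : ℂ), 0 ≤ δ →
      |lap7 δ ψ z - 3 / 2 * δ ^ 2 * (Δ ψ) z| ≤ C * δ ^ 4 := by
  obtain ⟨M, hM0, hM⟩ := exists_M4 hψ hc
  refine ⟨6 * M, by positivity, fun δ z hδ => ?_⟩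
  have h1 := second_diff_dir hψ hM (e := 1) (by simp) z hδ
  have h2 := second_diff_dir hψ hM (e := om) norm_om z hδ
  have h3 := second_diff_dir hψ hM (e := om - 1) norm_om' z hδ
  have h4 := dirD_three (ψ := ψ) z
  have h5 : lap7 δ ψ z - 3 / 2 * δ ^ 2 * (Δ ψ) z =
      (ψ (z + δ * 1) + ψ (z - δ * 1) - 2 * ψ z - δ ^ 2 * dirD 2 ψ 1 z) +
      (ψ (z + δ * om) + ψ (z - δ * om) - 2 * ψ z - δ ^ 2 * dirD 2 ψ om z) +
      (ψ (z + δ * (om - 1)) + ψ (z - δ * (om - 1)) - 2 * ψ z - δ ^ 2 * dirD 2 ψ (om - 1) z) := by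
    unfold lap7
    linear_combination (δ ^ 2) * h4
  rw [h5]
  refine (abs_add_three _ _ _).trans ?_
  linarith

end Crest.Agent.R144.Cw643
end
end

-- ▼ part R144/Cw2_643
section

/-!
# R144 (helper643), CW block, file 2: lattice Fourier transforms of shifts and of the discrete Laplacian

* `fh_eq_tsum`, `fh_add`, `fh_sub`, `fh_smul`, `fh_shift`;
* `Dop φ = (1/√3) (6 φ - ∑_{six neighbours} φ)`, `fh_Dop : fh s (Dop φ) k = (1/√3) E(k) fh s φ k`,
  `sum_Dop = 0`;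
* `Es k = 6 - 2 cos k₁ - 2 cos k₂ - 2 cos (k₁ - k₂)`, bounds, `Es k * u k → 2 L`;
* `outer_le`: `normSq (fh s f k) ≤ (3π²/(4r²)) (∑ |∂f|)²` for `k` in the square with `NN k ≥ r²`.
-/

set_option autoImplicit false

noncomputable section

namespace Crest.Agent.R144.Cw643

open Finset Filter Topology
open Crest.Agent.R144.Tp952
open scoped Real ComplexConjugate

/-- the character `e^{i p·k}` -/
def ch (k1 k2 : ℝ) (p : ℤ × ℤ) : ℂ :=
  Complex.exp (Complex.I * ((p.1 : ℝ) * k1 + (p.2 : ℝ) * k2 : ℝ))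

theorem ch_add (k1 k2 : ℝ) (p q : ℤ × ℤ) : ch k1 k2 (p + q) = ch k1 k2 p * ch k1 k2 q := by
  unfold ch
  rw [← Complex.exp_add]
  congr 1
  push_cast [Prod.fst_add, Prod.snd_add]
  ring

theorem norm_ch (k1 k2 : ℝ) (p : ℤ × ℤ) : ‖ch k1 k2 p‖ = 1 := by
  unfold ch
  rw [mul_comm, Complex.norm_exp_ofReal_mul_I]

theorem fh_def (s : Finset (ℤ × ℤ)) (f : ℤ × ℤ → ℝ) (k1 k2 : ℝ) :
    fh s f k1 k2 = ∑ p ∈ s, (f p : ℂ) * ch k1 k2 p := rfl

theorem fh_add (s : Finset (ℤ × ℤ)) (f g : ℤ × ℤ → ℝ) (k1 k2 : ℝ) :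
    fh s (fun p => f p + g p) k1 k2 = fh s f k1 k2 + fh s g k1 k2 := by
  simp only [fh_def, Complex.ofReal_add, add_mul, Finset.sum_add_distrib]

theorem fh_sub (s : Finset (ℤ × ℤ)) (f g : ℤ × ℤ → ℝ) (k1 k2 : ℝ) :
    fh s (fun p => f p - g p) k1 k2 = fh s f k1 k2 - fh s g k1 k2 := by
  simp only [fh_def, Complex.ofReal_sub, sub_mul, Finset.sum_sub_distrib]


theorem fh_eq_tsum {s : Finset (ℤ × ℤ)} {f : ℤ × ℤ → ℝ} (hf : ∀ p, p ∉ s → f p = 0) (k1 k2 : ℝ) :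
    fh s f k1 k2 = ∑' p, (f p : ℂ) * ch k1 k2 p := by
  rw [fh_def, tsum_eq_sum]
  intro p hp
  rw [hf p hp, Complex.ofReal_zero, zero_mul]

theorem fh_shift {s : Finset (ℤ × ℤ)} {f : ℤ × ℤ → ℝ} (e : ℤ × ℤ) (hf : ∀ p, p ∉ s → f p = 0)
    (hf' : ∀ p, p ∉ s → f (p - e) = 0) (k1 k2 : ℝ) :
    fh s (fun p => f (p - e)) k1 k2 = ch k1 k2 e * fh s f k1 k2 := by
  rw [fh_eq_tsum hf, fh_eq_tsum hf', ← tsum_mul_left]
  rw [← (Equiv.addRight e).tsum_eq]
  refine tsum_congr fun p => ?_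
  simp only [Equiv.coe_addRight, add_sub_cancel_right, ch_add]
  ring

theorem norm_fh_le_sum (s : Finset (ℤ × ℤ)) (f : ℤ × ℤ → ℝ) (k1 k2 : ℝ) :
    ‖fh s f k1 k2‖ ≤ ∑ p ∈ s, |f p| := by
  rw [fh_def]
  refine (norm_sum_le _ _).trans (Finset.sum_le_sum fun p _ => ?_)
  rw [norm_mul, norm_ch, mul_one, Complex.norm_real, Real.norm_eq_abs]

/-! ### the symbol -/

/-- symbol of the lattice Laplacian -/
def Es (k : ℝ × ℝ) : ℝ := sg k.1 + sg k.2 + sg (k.1 - k.2)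


theorem sg_le_sq (x : ℝ) : sg x ≤ x ^ 2 := by
  unfold sg
  have := Real.one_sub_sq_div_two_le_cos (x := x)
  linarith

theorem sg_nn (x : ℝ) : 0 ≤ sg x := by
  unfold sg
  linarith [Real.cos_le_one x]

theorem Es_nonneg (k : ℝ × ℝ) : 0 ≤ Es k :=
  add_nonneg (add_nonneg (sg_nn _) (sg_nn _)) (sg_nn _)

theorem Es_le (k : ℝ × ℝ) : Es k ≤ 2 * NN k.1 k.2 := by
  have h1 := sg_le_sq k.1
  have h2 := sg_le_sq k.2
  have h3 := sg_le_sq (k.1 - k.2)
  unfold Es NN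
  nlinarith

/-- lower bound on the square -/
theorem Es_ge {k : ℝ × ℝ} (h1 : |k.1| ≤ π) (h2 : |k.2| ≤ π) : 8 / (3 * π ^ 2) * NN k.1 k.2 ≤ Es k := by
  have h3 := sg_ge_jordan h1
  have h4 := sg_ge_jordan h2
  have h5 := sg_nn (k.1 - k.2)
  have h6 := NN_le k.1 k.2
  have h7 : 8 / (3 * π ^ 2) * NN k.1 k.2 ≤ 8 / (3 * π ^ 2) * (3 / 2 * (k.1 ^ 2 + k.2 ^ 2)) :=
    mul_le_mul_of_nonneg_left h6 (by positivity)
  have h8 : 8 / (3 * π ^ 2) * (3 / 2 * (k.1 ^ 2 + k.2 ^ 2)) = 4 / π ^ 2 * k.1 ^ 2 + 4 / π ^ 2 * k.2 ^ 2 := by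
    field_simp; ring
  unfold Es
  linarith

/-- second order expansion of `sg` -/
theorem abs_sg_sub_sq {x : ℝ} (hx : |x| ≤ 1) : |sg x - x ^ 2| ≤ x ^ 4 / 9 := by
  have h1 := Real.cos_bound hx
  have h4 : |x| ^ 4 = x ^ 4 := by rw [show |x| ^ 4 = (|x| ^ 2) ^ 2 by ring, sq_abs]; ring
  rw [h4] at h1
  have h2 : sg x - x ^ 2 = -2 * (Real.cos x - (1 - x ^ 2 / 2)) := by unfold sg; ring
  rw [h2, abs_mul, abs_neg, abs_two]
  have h5 : 0 ≤ x ^ 4 := by positivity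
  linarith

theorem sq_le_NN1 (k : ℝ × ℝ) : k.1 ^ 2 ≤ 4 / 3 * NN k.1 k.2 := by
  unfold NN; nlinarith [sq_nonneg (k.1 - 2 * k.2)]

theorem sq_le_NN2 (k : ℝ × ℝ) : k.2 ^ 2 ≤ 4 / 3 * NN k.1 k.2 := by
  unfold NN; nlinarith [sq_nonneg (k.2 - 2 * k.1)]

theorem sq_le_NN3 (k : ℝ × ℝ) : (k.1 - k.2) ^ 2 ≤ 4 / 3 * NN k.1 k.2 := by
  unfold NN; nlinarith [sq_nonneg (k.1 + k.2)]

theorem abs_Es_sub {k : ℝ × ℝ} (hk : NN k.1 k.2 ≤ 3 / 4) :
    |Es k - 2 * NN k.1 k.2| ≤ NN k.1 k.2 ^ 2 := by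
  have a1 := sq_le_NN1 k
  have a2 := sq_le_NN2 k
  have a3 := sq_le_NN3 k
  have le1 : ∀ x : ℝ, x ^ 2 ≤ 4 / 3 * NN k.1 k.2 → |x| ≤ 1 := by
    intro x hx
    rw [← sq_le_one_iff_abs_le_one]
    linarith
  have b : ∀ x : ℝ, x ^ 2 ≤ 4 / 3 * NN k.1 k.2 → |sg x - x ^ 2| ≤ 16 / 81 * NN k.1 k.2 ^ 2 := by
    intro x hx
    refine (abs_sg_sub_sq (le1 x hx)).trans ?_
    have h0 := NN_nonneg k.1 k.2
    have : x ^ 4 ≤ (4 / 3 * NN k.1 k.2) ^ 2 := by
      rw [show x ^ 4 = (x ^ 2) ^ 2 by ring]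
      exact pow_le_pow_left₀ (sq_nonneg _) hx 2
    nlinarith
  have e : Es k - 2 * NN k.1 k.2 = (sg k.1 - k.1 ^ 2) + (sg k.2 - k.2 ^ 2) +
      (sg (k.1 - k.2) - (k.1 - k.2) ^ 2) := by
    unfold Es NN; ring
  rw [e]
  refine (abs_add_three _ _ _).trans ?_
  have := b _ a1
  have := b _ a2
  have := b _ a3
  nlinarith [sq_nonneg (NN k.1 k.2)]

theorem tendsto_NN : Tendsto (fun k : ℝ × ℝ => NN k.1 k.2) (𝓝[≠] 0) (𝓝 0) := by
  have h := (continuous_NN.tendsto (0 : ℝ × ℝ)).mono_left (nhdsWithin_le_nhds (s := {0}ᶜ))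
  have e : NN (0 : ℝ × ℝ).1 (0 : ℝ × ℝ).2 = 0 := by simp [NN]
  rwa [e] at h

/-- `Es k * u k → 2 L` -/
theorem tendsto_Es_mul {u : ℝ × ℝ → ℝ} {L C : ℝ} (hu : ∀ k, 0 ≤ u k)
    (hb : ∀ k : ℝ × ℝ, NN k.1 k.2 < 1 / 100 → NN k.1 k.2 * u k ≤ C)
    (hl : Tendsto (fun k : ℝ × ℝ => NN k.1 k.2 * u k) (𝓝[≠] 0) (𝓝 L)) :
    Tendsto (fun k : ℝ × ℝ => Es k * u k) (𝓝[≠] 0) (𝓝 (2 * L)) := by
  have h1 : Tendsto (fun k : ℝ × ℝ => 2 * (NN k.1 k.2 * u k)) (𝓝[≠] 0) (𝓝 (2 * L)) :=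
    hl.const_mul 2
  have h2 : Tendsto (fun k : ℝ × ℝ => (Es k - 2 * NN k.1 k.2) * u k) (𝓝[≠] 0) (𝓝 0) := by
    have h3 : Tendsto (fun k : ℝ × ℝ => NN k.1 k.2 * C) (𝓝[≠] 0) (𝓝 0) := by
      have := tendsto_NN.mul_const C
      rwa [zero_mul] at this
    refine squeeze_zero_norm' ?_ h3
    have h4 : ∀ᶠ k : ℝ × ℝ in 𝓝[≠] 0, NN k.1 k.2 < 1 / 100 :=
      tendsto_NN.eventually (gt_mem_nhds (by norm_num))
    filter_upwards [h4] with k hk
    rw [norm_mul, Real.norm_eq_abs, Real.norm_eq_abs, abs_of_nonneg (hu k)]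
    have h5 := abs_Es_sub (k := k) (by linarith)
    have h6 := NN_nonneg k.1 k.2
    calc |Es k - 2 * NN k.1 k.2| * u k ≤ NN k.1 k.2 ^ 2 * u k :=
          mul_le_mul_of_nonneg_right h5 (hu k)
      _ = NN k.1 k.2 * (NN k.1 k.2 * u k) := by ring
      _ ≤ NN k.1 k.2 * C := mul_le_mul_of_nonneg_left (hb k hk) h6
  have := h2.add h1
  rw [zero_add] at this
  refine this.congr fun k => by ring

/-! ### the discrete Laplacian -/

/-- `(1/√3) (6 φ - ∑_{six neighbours} φ)` -/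
def Dop (φ : ℤ × ℤ → ℝ) (p : ℤ × ℤ) : ℝ :=
  (1 / Real.sqrt 3) * (6 * φ p - ((φ (p - (1, 0)) + φ (p - (-1, 0))) + (φ (p - (0, 1)) + φ (p - (0, -1))) +
    (φ (p - (1, -1)) + φ (p - (-1, 1)))))

/-- the six directions -/
def six : Finset (ℤ × ℤ) := {(1, 0), (-1, 0), (0, 1), (0, -1), (1, -1), (-1, 1)}

/-- `s` contains the support of `φ` and its six translates -/
def Sup7 (s : Finset (ℤ × ℤ)) (φ : ℤ × ℤ → ℝ) : Prop :=
  (∀ p, p ∉ s → φ p = 0) ∧ ∀ e ∈ six, ∀ p, p ∉ s → φ (p - e) = 0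

theorem ch_add_neg (k1 k2 : ℝ) (a b : ℤ) :
    ch k1 k2 (a, b) + ch k1 k2 (-a, -b) = (2 - sg (a * k1 + b * k2) : ℝ) := by
  unfold ch sg
  have e1 : Complex.I * (((((a, b) : ℤ × ℤ).1 : ℝ) * k1 + (((a, b) : ℤ × ℤ).2 : ℝ) * k2 : ℝ) : ℂ) =
      ((a * k1 + b * k2 : ℝ) : ℂ) * Complex.I := by push_cast; ring
  have e2 : Complex.I * (((((-a, -b) : ℤ × ℤ).1 : ℝ) * k1 + (((-a, -b) : ℤ × ℤ).2 : ℝ) * k2 : ℝ) : ℂ) =
      -((a * k1 + b * k2 : ℝ) : ℂ) * Complex.I := by push_cast; ring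
  rw [e1, e2]
  have h := Complex.two_cos ((a * k1 + b * k2 : ℝ) : ℂ)
  rw [← h, ← Complex.ofReal_cos]
  push_cast
  ring

theorem fh_Dop {s : Finset (ℤ × ℤ)} {φ : ℤ × ℤ → ℝ} (h : Sup7 s φ) (k1 k2 : ℝ) :
    fh s (Dop φ) k1 k2 = (1 / Real.sqrt 3 * Es (k1, k2) : ℝ) * fh s φ k1 k2 := by
  have hs : ∀ e ∈ six, fh s (fun p => φ (p - e)) k1 k2 = ch k1 k2 e * fh s φ k1 k2 :=
    fun e he => fh_shift e h.1 (h.2 e he) k1 k2
  have e1 := ch_add_neg k1 k2 1 0
  have e2 := ch_add_neg k1 k2 0 1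
  have e3 := ch_add_neg k1 k2 1 (-1)
  have h0 : fh s (Dop φ) k1 k2 = (1 / Real.sqrt 3 : ℝ) * (6 * fh s φ k1 k2 -
      ((fh s (fun p => φ (p - (1, 0))) k1 k2 + fh s (fun p => φ (p - (-1, 0))) k1 k2) +
      (fh s (fun p => φ (p - (0, 1))) k1 k2 + fh s (fun p => φ (p - (0, -1))) k1 k2) +
      (fh s (fun p => φ (p - (1, -1))) k1 k2 + fh s (fun p => φ (p - (-1, 1))) k1 k2))) := by
    simp only [fh_def, Dop, Finset.mul_sum, ← Finset.sum_add_distrib, ← Finset.sum_sub_distrib]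
    refine Finset.sum_congr rfl fun p _ => ?_
    push_cast
    ring
  rw [h0, hs _ (by decide), hs _ (by decide), hs _ (by decide), hs _ (by decide), hs _ (by decide),
    hs _ (by decide)]
  have e4 : (6 * fh s φ k1 k2 - ((ch k1 k2 (1, 0) * fh s φ k1 k2 + ch k1 k2 (-1, 0) * fh s φ k1 k2) +
      (ch k1 k2 (0, 1) * fh s φ k1 k2 + ch k1 k2 (0, -1) * fh s φ k1 k2) +
      (ch k1 k2 (1, -1) * fh s φ k1 k2 + ch k1 k2 (-1, 1) * fh s φ k1 k2))) =
      (6 - ((ch k1 k2 (1, 0) + ch k1 k2 (-1, 0)) + (ch k1 k2 (0, 1) + ch k1 k2 (0, -1)) +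
      (ch k1 k2 (1, -1) + ch k1 k2 (-1, 1)))) * fh s φ k1 k2 := by ring
  rw [e4]
  norm_num at e1 e2 e3
  rw [e1, e2, e3]
  unfold Es
  simp only
  push_cast
  have : k1 + -k2 = k1 - k2 := by ring
  rw [this]
  ring

theorem sum_Dop {s : Finset (ℤ × ℤ)} {φ : ℤ × ℤ → ℝ} (h : Sup7 s φ) : ∑ p ∈ s, Dop φ p = 0 := by
  have h1 := fh_Dop h 0 0
  have h2 : Es ((0 : ℝ), (0 : ℝ)) = 0 := by simp [Es, sg]
  rw [h2, mul_zero, Complex.ofReal_zero, zero_mul] at h1
  have h3 : fh s (Dop φ) 0 0 = ((∑ p ∈ s, Dop φ p : ℝ) : ℂ) := by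
    simp [fh_def, ch]
  rw [h3] at h1
  exact_mod_cast h1

/-! ### the outer region -/

/-- total variation in the two coordinate directions -/
def tv (s : Finset (ℤ × ℤ)) (f : ℤ × ℤ → ℝ) : ℝ :=
  ∑ p ∈ s, (|f (p - (1, 0)) - f p| + |f (p - (0, 1)) - f p|)

theorem tv_nonneg (s : Finset (ℤ × ℤ)) (f : ℤ × ℤ → ℝ) : 0 ≤ tv s f :=
  Finset.sum_nonneg fun _ _ => by positivity

theorem normSq_ch_sub_one (k1 k2 : ℝ) (a b : ℤ) :
    Complex.normSq (ch k1 k2 (a, b) - 1) = sg (a * k1 + b * k2) := by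
  unfold ch sg
  have e1 : Complex.I * (((((a, b) : ℤ × ℤ).1 : ℝ) * k1 + (((a, b) : ℤ × ℤ).2 : ℝ) * k2 : ℝ) : ℂ) =
      ((a * k1 + b * k2 : ℝ) : ℂ) * Complex.I := by push_cast; ring
  rw [e1, Complex.normSq_apply, Complex.sub_re, Complex.sub_im, Complex.exp_ofReal_mul_I_re,
    Complex.exp_ofReal_mul_I_im, Complex.one_re, Complex.one_im]
  nlinarith [Real.sin_sq_add_cos_sq (a * k1 + b * k2 : ℝ)]

theorem outer_le {s : Finset (ℤ × ℤ)} {f : ℤ × ℤ → ℝ} (h : Sup7 s f) {k1 k2 r : ℝ}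
    (h1 : |k1| ≤ π) (h2 : |k2| ≤ π) (hr : 0 < r) (hk : r ^ 2 ≤ NN k1 k2) :
    Complex.normSq (fh s f k1 k2) ≤ 3 * π ^ 2 / (4 * r ^ 2) * tv s f ^ 2 := by
  have hπ := Real.pi_pos
  have hmain : ∀ (a b : ℤ), (a, b) ∈ six →
      ∑ p ∈ s, |f (p - (a, b)) - f p| ≤ tv s f →
      sg (a * k1 + b * k2) * Complex.normSq (fh s f k1 k2) ≤ tv s f ^ 2 := by
    intro a b he hle
    rw [← normSq_ch_sub_one, ← Complex.normSq_mul]
    have e : (ch k1 k2 (a, b) - 1) * fh s f k1 k2 = fh s (fun p => f (p - (a, b)) - f p) k1 k2 := by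
      rw [fh_sub, fh_shift _ h.1 (h.2 _ he)]; ring
    rw [e, Complex.normSq_eq_norm_sq]
    exact pow_le_pow_left₀ (norm_nonneg _) ((norm_fh_le_sum _ _ _ _).trans hle) 2
  have hx := hmain 1 0 (by decide) (by
    unfold tv; exact Finset.sum_le_sum fun p _ => le_add_of_nonneg_right (abs_nonneg _))
  have hy := hmain 0 1 (by decide) (by
    unfold tv; exact Finset.sum_le_sum fun p _ => le_add_of_nonneg_left (abs_nonneg _))
  norm_num at hx hy
  have h3 := NN_le k1 k2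
  have h4 := Complex.normSq_nonneg (fh s f k1 k2)
  have key : ∀ x : ℝ, |x| ≤ π → r ^ 2 / 3 ≤ x ^ 2 →
      sg x * Complex.normSq (fh s f k1 k2) ≤ tv s f ^ 2 →
      Complex.normSq (fh s f k1 k2) ≤ 3 * π ^ 2 / (4 * r ^ 2) * tv s f ^ 2 := by
    intro x hx1 hx2 hx3
    have h5 := sg_ge_jordan hx1
    have h6 : 4 * r ^ 2 / (3 * π ^ 2) ≤ sg x := by
      refine le_trans ?_ h5
      have : 4 * r ^ 2 / (3 * π ^ 2) = 4 / π ^ 2 * (r ^ 2 / 3) := by field_simp
      rw [this]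
      exact mul_le_mul_of_nonneg_left hx2 (by positivity)
    have h7 : 4 * r ^ 2 / (3 * π ^ 2) * Complex.normSq (fh s f k1 k2) ≤ tv s f ^ 2 :=
      (mul_le_mul_of_nonneg_right h6 h4).trans hx3
    have h8 : 3 * π ^ 2 / (4 * r ^ 2) * (4 * r ^ 2 / (3 * π ^ 2) * Complex.normSq (fh s f k1 k2)) ≤
        3 * π ^ 2 / (4 * r ^ 2) * tv s f ^ 2 := mul_le_mul_of_nonneg_left h7 (by positivity)
    refine le_trans (le_of_eq ?_) h8
    field_simp
  by_cases hc : r ^ 2 / 3 ≤ k1 ^ 2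
  · exact key k1 h1 hc hx
  · push Not at hc
    exact key k2 h2 (by nlinarith) hy

end Crest.Agent.R144.Cw643
end
end

-- ▼ part R144/Cw3_643
section

/-!
# R144 (helper643), CW block, file 3: the main estimate

`CV V s f t g = -(1/2) ∑ p ∈ s, ∑ q ∈ t, f p g q V (p - q)`.

`main_est`: for `φ, a` on the finite set `s` (`a` of mass zero),
`|CV V s (Dop φ) s a - (2 L/√3) ∑ φ a|` is bounded by the outer error, the error of `Es u → 2L` on the small
disc and a Parseval tail.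
-/

set_option autoImplicit false

noncomputable section

namespace Crest.Agent.R144.Cw643

open Finset Filter Topology MeasureTheory
open Crest.Agent.R144.Tp952
open scoped Real ComplexConjugate

/-- the bilinear form of the variogram -/
def CV (V : ℤ × ℤ → ℝ) (s : Finset (ℤ × ℤ)) (f : ℤ × ℤ → ℝ) (t : Finset (ℤ × ℤ)) (g : ℤ × ℤ → ℝ) : ℝ :=
  -(1 / 2) * ∑ p ∈ s, ∑ q ∈ t, f p * g q * V (p - q)

theorem continuous_fh (s : Finset (ℤ × ℤ)) (f : ℤ × ℤ → ℝ) :
    Continuous (fun k : ℝ × ℝ => fh s f k.1 k.2) := by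
  unfold fh
  fun_prop

/-! ### Parseval -/

theorem integral_exp_int (n : ℤ) :
    ∫ x in Set.Ioc (-π) π, Complex.exp (Complex.I * ((n : ℝ) * x : ℝ)) =
      if n = 0 then ((2 * π : ℝ) : ℂ) else 0 := by
  have hπ : -π ≤ π := by linarith [Real.pi_pos]
  rw [← intervalIntegral.integral_of_le hπ]
  split_ifs with h
  · subst h
    simp only [Int.cast_zero, zero_mul, Complex.ofReal_zero, mul_zero, Complex.exp_zero,
      intervalIntegral.integral_const]
    rw [Complex.real_smul, mul_one]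
    push_cast
    ring
  · have hc : Complex.I * (n : ℂ) ≠ 0 := mul_ne_zero Complex.I_ne_zero (by exact_mod_cast h)
    have h1 : ∀ x : ℝ, Complex.exp (Complex.I * ((n : ℝ) * x : ℝ)) =
        Complex.exp (Complex.I * (n : ℂ) * x) := by
      intro x; congr 1; push_cast; ring
    simp only [h1]
    rw [integral_exp_mul_complex hc]
    have h2 : Complex.I * (n : ℂ) * ((π : ℝ) : ℂ) = Complex.I * (n : ℂ) * ((-π : ℝ) : ℂ) +
        (n : ℂ) * (2 * π * Complex.I) := by push_cast; ring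
    rw [h2, Complex.exp_add, Complex.exp_int_mul_two_pi_mul_I, mul_one, sub_self, zero_div]

theorem integral_ch (p : ℤ × ℤ) :
    ∫ k in JJ, ch k.1 k.2 p = if p = 0 then (((2 * π) ^ 2 : ℝ) : ℂ) else 0 := by
  have h1 : ∀ k : ℝ × ℝ, ch k.1 k.2 p = Complex.exp (Complex.I * ((p.1 : ℝ) * k.1 : ℝ)) *
      Complex.exp (Complex.I * ((p.2 : ℝ) * k.2 : ℝ)) := by
    intro k
    unfold ch
    rw [← Complex.exp_add]
    congr 1; push_cast; ring
  simp only [h1]
  unfold JJ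
  rw [Measure.volume_eq_prod, setIntegral_prod_mul (fun x : ℝ => Complex.exp (Complex.I * ((p.1 : ℝ) * x : ℝ)))
    (fun y : ℝ => Complex.exp (Complex.I * ((p.2 : ℝ) * y : ℝ))), integral_exp_int, integral_exp_int]
  by_cases h1 : p.1 = 0 <;> by_cases h2 : p.2 = 0
  · have : p = 0 := Prod.ext h1 h2
    rw [if_pos h1, if_pos h2, if_pos this]
    push_cast; ring
  · have : p ≠ 0 := fun h => h2 (by rw [h]; rfl)
    rw [if_neg h2, if_neg this, mul_zero]
  · have : p ≠ 0 := fun h => h1 (by rw [h]; rfl)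
    rw [if_neg h1, if_neg this, zero_mul]
  · have : p ≠ 0 := fun h => h1 (by rw [h]; rfl)
    rw [if_neg h1, if_neg this, zero_mul]

theorem conj_ch (k1 k2 : ℝ) (p : ℤ × ℤ) : conj (ch k1 k2 p) = ch k1 k2 (-p) := by
  unfold ch
  rw [← Complex.exp_conj]
  congr 1
  rw [map_mul, Complex.conj_I, Complex.conj_ofReal]
  push_cast [Prod.fst_neg, Prod.snd_neg]
  ring

theorem continuous_ch (p : ℤ × ℤ) : Continuous (fun k : ℝ × ℝ => ch k.1 k.2 p) := by
  unfold ch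
  fun_prop

theorem integrableOn_JJ' {G : ℝ × ℝ → ℂ} (hG : Continuous G) : IntegrableOn G JJ := by
  have h1 : IsCompact (Set.Icc (-π) π ×ˢ Set.Icc (-π) π) := isCompact_Icc.prod isCompact_Icc
  exact (hG.continuousOn.integrableOn_compact h1).mono_set JJ_subset

theorem parsevalC (s : Finset (ℤ × ℤ)) (f g : ℤ × ℤ → ℝ) :
    ∫ k in JJ, fh s f k.1 k.2 * conj (fh s g k.1 k.2) = (((2 * π) ^ 2 * ∑ p ∈ s, f p * g p : ℝ) : ℂ) := by
  have h1 : ∀ k : ℝ × ℝ, fh s f k.1 k.2 * conj (fh s g k.1 k.2) =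
      ∑ p ∈ s, ∑ q ∈ s, ((f p * g q : ℝ) : ℂ) * ch k.1 k.2 (p - q) := by
    intro k
    rw [fh_def, fh_def, map_sum, Finset.sum_mul_sum]
    refine Finset.sum_congr rfl fun p _ => Finset.sum_congr rfl fun q _ => ?_
    rw [map_mul, Complex.conj_ofReal, conj_ch, sub_eq_add_neg, ch_add]
    push_cast
    ring
  simp only [h1]
  have hi : ∀ p q : ℤ × ℤ, IntegrableOn (fun k : ℝ × ℝ => ((f p * g q : ℝ) : ℂ) * ch k.1 k.2 (p - q)) JJ :=
    fun p q => integrableOn_JJ' ((continuous_ch _).const_mul _)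
  rw [integral_finsetSum _ fun p _ => integrable_finsetSum _ fun q _ => hi p q]
  have h2 : ∀ p ∈ s, ∫ k in JJ, ∑ q ∈ s, ((f p * g q : ℝ) : ℂ) * ch k.1 k.2 (p - q) =
      (((2 * π) ^ 2 * (f p * g p) : ℝ) : ℂ) := by
    intro p hp
    rw [integral_finsetSum _ fun q _ => hi p q, Finset.sum_eq_single p]
    · rw [integral_const_mul, integral_ch, if_pos (sub_self p)]
      push_cast; ring
    · intro q _ hq
      rw [integral_const_mul, integral_ch, if_neg (fun h => hq (sub_eq_zero.1 h).symm), mul_zero]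
    · exact fun h => absurd hp h
  rw [Finset.sum_congr rfl h2]
  push_cast
  rw [Finset.mul_sum]

theorem parseval (s : Finset (ℤ × ℤ)) (f g : ℤ × ℤ → ℝ) :
    ∫ k in JJ, (fh s f k.1 k.2 * conj (fh s g k.1 k.2)).re = (2 * π) ^ 2 * ∑ p ∈ s, f p * g p := by
  have hi : IntegrableOn (fun k : ℝ × ℝ => fh s f k.1 k.2 * conj (fh s g k.1 k.2)) JJ :=
    integrableOn_JJ' ((continuous_fh s f).mul (Complex.continuous_conj.comp (continuous_fh s g)))
  have h1 := integral_re (𝕜 := ℂ) hi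
  simp only [RCLike.re_to_complex] at h1
  rw [h1, parsevalC, Complex.ofReal_re]

theorem parseval_normSq (s : Finset (ℤ × ℤ)) (f : ℤ × ℤ → ℝ) :
    ∫ k in JJ, Complex.normSq (fh s f k.1 k.2) = (2 * π) ^ 2 * ∑ p ∈ s, f p ^ 2 := by
  have h := parseval s f f
  simp only [Complex.mul_conj, Complex.ofReal_re] at h
  rw [h]
  simp only [sq]

/-! ### bilinear form of the spectral representation -/

theorem CV_comm {V : ℤ × ℤ → ℝ} (hneg : ∀ p, V (-p) = V p) (s : Finset (ℤ × ℤ)) (f : ℤ × ℤ → ℝ)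
    (t : Finset (ℤ × ℤ)) (g : ℤ × ℤ → ℝ) : CV V s f t g = CV V t g s f := by
  unfold CV
  rw [Finset.sum_comm]
  congr 1
  refine Finset.sum_congr rfl fun p _ => Finset.sum_congr rfl fun q _ => ?_
  rw [← hneg (p - q), neg_sub]
  ring

theorem CV_add_left (V : ℤ × ℤ → ℝ) (s : Finset (ℤ × ℤ)) (f f' : ℤ × ℤ → ℝ)
    (t : Finset (ℤ × ℤ)) (g : ℤ × ℤ → ℝ) :
    CV V s (fun p => f p + f' p) t g = CV V s f t g + CV V s f' t g := by
  unfold CV
  rw [← mul_add, ← Finset.sum_add_distrib]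
  congr 1
  refine Finset.sum_congr rfl fun p _ => ?_
  rw [← Finset.sum_add_distrib]
  refine Finset.sum_congr rfl fun q _ => ?_
  ring

theorem CV_sub_left (V : ℤ × ℤ → ℝ) (s : Finset (ℤ × ℤ)) (f f' : ℤ × ℤ → ℝ)
    (t : Finset (ℤ × ℤ)) (g : ℤ × ℤ → ℝ) :
    CV V s (fun p => f p - f' p) t g = CV V s f t g - CV V s f' t g := by
  unfold CV
  rw [← mul_sub, ← Finset.sum_sub_distrib]
  congr 1
  refine Finset.sum_congr rfl fun p _ => ?_
  rw [← Finset.sum_sub_distrib]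
  refine Finset.sum_congr rfl fun q _ => ?_
  ring

theorem CV_smul_left (V : ℤ × ℤ → ℝ) (s : Finset (ℤ × ℤ)) (c : ℝ) (f : ℤ × ℤ → ℝ)
    (t : Finset (ℤ × ℤ)) (g : ℤ × ℤ → ℝ) :
    CV V s (fun p => c * f p) t g = c * CV V s f t g := by
  unfold CV
  simp only [Finset.mul_sum]
  refine Finset.sum_congr rfl fun p _ => Finset.sum_congr rfl fun q _ => ?_
  ring

theorem CV_add_right {V : ℤ × ℤ → ℝ} (hneg : ∀ p, V (-p) = V p) (s : Finset (ℤ × ℤ)) (f : ℤ × ℤ → ℝ)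
    (t : Finset (ℤ × ℤ)) (g g' : ℤ × ℤ → ℝ) :
    CV V s f t (fun p => g p + g' p) = CV V s f t g + CV V s f t g' := by
  rw [CV_comm hneg, CV_add_left, CV_comm hneg t g, CV_comm hneg t g']

theorem CV_sub_right {V : ℤ × ℤ → ℝ} (hneg : ∀ p, V (-p) = V p) (s : Finset (ℤ × ℤ)) (f : ℤ × ℤ → ℝ)
    (t : Finset (ℤ × ℤ)) (g g' : ℤ × ℤ → ℝ) :
    CV V s f t (fun p => g p - g' p) = CV V s f t g - CV V s f t g' := by
  rw [CV_comm hneg, CV_sub_left, CV_comm hneg t g, CV_comm hneg t g']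

theorem CV_superset (V : ℤ × ℤ → ℝ) {s s' t t' : Finset (ℤ × ℤ)} {f g : ℤ × ℤ → ℝ}
    (hs : s ⊆ s') (ht : t ⊆ t') (hf : ∀ p, p ∉ s → f p = 0) (hg : ∀ p, p ∉ t → g p = 0) :
    CV V s f t g = CV V s' f t' g := by
  unfold CV
  congr 1
  rw [← Finset.sum_subset hs]
  · refine Finset.sum_congr rfl fun p _ => ?_
    refine Finset.sum_subset ht fun q _ hq => ?_
    rw [hg q hq, mul_zero, zero_mul]
  · intro p _ hp
    refine Finset.sum_eq_zero fun q _ => ?_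
    rw [hf p hp, zero_mul, zero_mul]

theorem normSq_add_sub (z w : ℂ) :
    Complex.normSq (z + w) - Complex.normSq (z - w) = 4 * (z * conj w).re := by
  rw [Complex.normSq_add, Complex.normSq_sub]
  ring

theorem normSq_add_le' (z w : ℂ) {M : ℝ} (hz : Complex.normSq z ≤ M) (hw : Complex.normSq w ≤ M) :
    Complex.normSq (z + w) ≤ 4 * M ∧ Complex.normSq (z - w) ≤ 4 * M := by
  have h : Complex.normSq (z + w) + Complex.normSq (z - w) =
      2 * (Complex.normSq z + Complex.normSq w) := by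
    rw [Complex.normSq_add, Complex.normSq_sub]; ring
  have h1 := Complex.normSq_nonneg (z + w)
  have h2 := Complex.normSq_nonneg (z - w)
  constructor <;> linarith

theorem spec_bil {V : ℤ × ℤ → ℝ} {u : ℝ × ℝ → ℝ} {L C : ℝ} (hS : Spec V u L C) (hneg : ∀ p, V (-p) = V p)
    {r : ℝ} {s : Finset (ℤ × ℤ)} {f g : ℤ × ℤ → ℝ} {M : ℝ} (hr : 0 < r) (hr' : r ≤ 1 / 10)
    (hf : ∑ p ∈ s, f p = 0) (hg : ∑ p ∈ s, g p = 0)
    (hfM : ∀ k1 k2 : ℝ, |k1| ≤ π → |k2| ≤ π → r ^ 2 ≤ NN k1 k2 → Complex.normSq (fh s f k1 k2) ≤ M)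
    (hgM : ∀ k1 k2 : ℝ, |k1| ≤ π → |k2| ≤ π → r ^ 2 ≤ NN k1 k2 → Complex.normSq (fh s g k1 k2) ≤ M) :
    IntegrableOn (fun k : ℝ × ℝ => (fh s f k.1 k.2 * conj (fh s g k.1 k.2)).re * u k) (BB r) ∧
    |CV V s f s g - (∫ k in BB r, (fh s f k.1 k.2 * conj (fh s g k.1 k.2)).re * u k) / (2 * π) ^ 2|
      ≤ 2 * C / r ^ 2 * M := by
  obtain ⟨i1, b1⟩ := hS.rep r s (fun p => f p + g p) (4 * M) hr hr'
    (by rw [Finset.sum_add_distrib, hf, hg, add_zero]) (fun k1 k2 h1 h2 h3 => by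
      rw [fh_add]; exact (normSq_add_le' _ _ (hfM k1 k2 h1 h2 h3) (hgM k1 k2 h1 h2 h3)).1)
  obtain ⟨i2, b2⟩ := hS.rep r s (fun p => f p - g p) (4 * M) hr hr'
    (by rw [Finset.sum_sub_distrib, hf, hg, sub_zero]) (fun k1 k2 h1 h2 h3 => by
      rw [fh_sub]; exact (normSq_add_le' _ _ (hfM k1 k2 h1 h2 h3) (hgM k1 k2 h1 h2 h3)).2)
  have e : ∀ k : ℝ × ℝ, (fh s f k.1 k.2 * conj (fh s g k.1 k.2)).re * u k =
      1 / 4 * (Complex.normSq (fh s (fun p => f p + g p) k.1 k.2) * u k -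
        Complex.normSq (fh s (fun p => f p - g p) k.1 k.2) * u k) := by
    intro k
    rw [← sub_mul, fh_add, fh_sub, normSq_add_sub]; ring
  have hcv : ∀ h : ℤ × ℤ → ℝ, -(1 / 2) * ∑ p ∈ s, ∑ q ∈ s, h p * h q * V (p - q) = CV V s h s h :=
    fun h => rfl
  have epol : CV V s f s g = 1 / 4 * (CV V s (fun p => f p + g p) s (fun p => f p + g p) -
      CV V s (fun p => f p - g p) s (fun p => f p - g p)) := by
    rw [CV_add_left, CV_sub_left, CV_add_right hneg, CV_add_right hneg, CV_sub_right hneg,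
      CV_sub_right hneg, CV_comm hneg s g s f]
    ring
  have hint : IntegrableOn (fun k : ℝ × ℝ => 1 / 4 *
      (Complex.normSq (fh s (fun p => f p + g p) k.1 k.2) * u k -
        Complex.normSq (fh s (fun p => f p - g p) k.1 k.2) * u k)) (BB r) := (i1.sub i2).const_mul _
  refine ⟨by simp only [e]; exact hint, ?_⟩
  simp only [e]
  rw [integral_const_mul, integral_sub i1 i2, epol]
  rw [hcv] at b1 b2
  set A := CV V s (fun p => f p + g p) s (fun p => f p + g p)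
  set B := CV V s (fun p => f p - g p) s (fun p => f p - g p)
  set I := ∫ k in BB r, Complex.normSq (fh s (fun p => f p + g p) k.1 k.2) * u k
  set J := ∫ k in BB r, Complex.normSq (fh s (fun p => f p - g p) k.1 k.2) * u k
  have e2 : 1 / 4 * (A - B) - 1 / 4 * (I - J) / (2 * π) ^ 2 =
      1 / 4 * ((A - I / (2 * π) ^ 2) - (B - J / (2 * π) ^ 2)) := by ring
  rw [e2, abs_mul, abs_of_pos (by norm_num : (0 : ℝ) < 1 / 4)]
  have h3 := abs_sub (A - I / (2 * π) ^ 2) (B - J / (2 * π) ^ 2)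
  have h4 : C / r ^ 2 * (4 * M) = 4 * (C / r ^ 2 * M) := by ring
  have h5 : 2 * C / r ^ 2 * M = 2 * (C / r ^ 2 * M) := by ring
  rw [h4] at b1 b2
  rw [h5]
  linarith

/-- pointwise AM-GM -/
theorem abs_re_mul_conj_le (z w : ℂ) {t : ℝ} (ht : 0 < t) :
    ‖z‖ * ‖w‖ ≤ 1 / 2 * (t * Complex.normSq z + Complex.normSq w / t) := by
  rw [Complex.normSq_eq_norm_sq, Complex.normSq_eq_norm_sq]
  have h : 0 ≤ (t * ‖z‖ - ‖w‖) ^ 2 / t := by positivity
  have e : (t * ‖z‖ - ‖w‖) ^ 2 / t = t * ‖z‖ ^ 2 + ‖w‖ ^ 2 / t - 2 * (‖z‖ * ‖w‖) := by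
    field_simp; ring
  rw [e] at h
  linarith

theorem main_est {V : ℤ × ℤ → ℝ} {u : ℝ × ℝ → ℝ} {L C : ℝ} (hS : Spec V u L C) (hneg : ∀ p, V (-p) = V p)
    {s : Finset (ℤ × ℤ)} {φ a : ℤ × ℤ → ℝ} (hφ : Sup7 s φ) (ha : ∑ p ∈ s, a p = 0)
    {r ρ η M t : ℝ} (hr : 0 < r) (hr' : r ≤ 1 / 10) (hρ : 0 < ρ) (hρr : ρ ≤ r) (hη : 0 ≤ η) (ht : 0 < t)
    (hfM : ∀ k1 k2 : ℝ, |k1| ≤ π → |k2| ≤ π → r ^ 2 ≤ NN k1 k2 →
      Complex.normSq (fh s (Dop φ) k1 k2) ≤ M)
    (haM : ∀ k1 k2 : ℝ, |k1| ≤ π → |k2| ≤ π → r ^ 2 ≤ NN k1 k2 → Complex.normSq (fh s a k1 k2) ≤ M)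
    (hsmall : ∀ k : ℝ × ℝ, k ≠ 0 → NN k.1 k.2 < ρ ^ 2 → |Es k * u k - 2 * L| ≤ η) :
    |CV V s (Dop φ) s a - 2 * L / Real.sqrt 3 * ∑ p ∈ s, φ p * a p| ≤
      2 * C / r ^ 2 * M + η / 2 * (t * ∑ p ∈ s, φ p ^ 2 + (∑ p ∈ s, a p ^ 2) / t) +
      π ^ 2 * (C + L) / ρ ^ 2 * (∑ p ∈ s, Dop φ p ^ 2 + ∑ p ∈ s, a p ^ 2) := by
  have hπ := Real.pi_pos
  have h3 : (0 : ℝ) < Real.sqrt 3 := by positivity
  have h31 : 1 / Real.sqrt 3 ≤ 1 := by
    rw [div_le_one h3]
    exact Real.one_le_sqrt.2 (by norm_num)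
  have hC := hS.C_pos
  have hL := hS.L_nonneg
  obtain ⟨i1, b1⟩ := spec_bil hS hneg hr hr' (sum_Dop hφ) ha hfM haM
  -- notation
  set F : ℝ × ℝ → ℂ := fun k => fh s φ k.1 k.2 with hF
  set A : ℝ × ℝ → ℂ := fun k => fh s a k.1 k.2 with hA
  set D : ℝ × ℝ → ℂ := fun k => fh s (Dop φ) k.1 k.2 with hD
  have hDF : ∀ k, D k = (1 / Real.sqrt 3 * Es k : ℝ) * F k := fun k => fh_Dop hφ k.1 k.2
  have cF : Continuous F := continuous_fh s φ
  have cA : Continuous A := continuous_fh s a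
  have cD : Continuous D := continuous_fh s (Dop φ)
  set G : ℝ × ℝ → ℝ := fun k => (F k * conj (A k)).re with hG
  have cG : Continuous G := by
    exact Complex.continuous_re.comp (cF.mul (Complex.continuous_conj.comp cA))
  have hGle : ∀ k, |G k| ≤ ‖F k‖ * ‖A k‖ := by
    intro k
    refine (Complex.abs_re_le_norm _).trans ?_
    rw [norm_mul, Complex.norm_conj]
  have e1 : ∀ k, (D k * conj (A k)).re * u k = 1 / Real.sqrt 3 * (G k * (Es k * u k)) := by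
    intro k
    rw [hDF, mul_assoc, Complex.re_ofReal_mul]
    ring
  have hpar : ∫ k in JJ, G k = (2 * π) ^ 2 * ∑ p ∈ s, φ p * a p := parseval s φ a
  have hBJ : BB r ⊆ JJ := BB_subset_JJ hr.le (by linarith)
  -- the integrand on the square
  have i1' : IntegrableOn (fun k => (BB r).indicator (fun k => (D k * conj (A k)).re * u k) k) JJ := by
    rw [IntegrableOn, integrable_indicator_iff (measurableSet_BB r), IntegrableOn,
      Measure.restrict_restrict (measurableSet_BB r), Set.inter_eq_left.2 hBJ]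
    exact i1
  have e2 : ∫ k in BB r, (D k * conj (A k)).re * u k =
      ∫ k in JJ, (BB r).indicator (fun k => (D k * conj (A k)).re * u k) k := by
    rw [setIntegral_indicator (measurableSet_BB r), Set.inter_eq_right.2 hBJ]
  have iG : IntegrableOn G JJ := integrableOn_JJ cG
  set Hh : ℝ × ℝ → ℝ := fun k => (BB r).indicator (fun k => (D k * conj (A k)).re * u k) k -
    2 * L / Real.sqrt 3 * G k with hH
  have e3 : ∫ k in JJ, Hh k = (∫ k in BB r, (D k * conj (A k)).re * u k) -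
      2 * L / Real.sqrt 3 * ((2 * π) ^ 2 * ∑ p ∈ s, φ p * a p) := by
    rw [integral_sub i1' (iG.const_mul _), integral_const_mul, hpar, e2]
  -- the dominating function
  set K1 : ℝ := π ^ 2 * (C + L) / ρ ^ 2 with hK1
  have hK1p : 0 ≤ K1 := by positivity
  set Dm : ℝ × ℝ → ℝ := fun k => η / 2 * (t * Complex.normSq (F k) + Complex.normSq (A k) / t) +
    K1 * (Complex.normSq (D k) + Complex.normSq (A k)) with hDm
  have cDm : Continuous Dm := by
    have c1 : Continuous fun k => Complex.normSq (F k) := Complex.continuous_normSq.comp cF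
    have c2 : Continuous fun k => Complex.normSq (A k) := Complex.continuous_normSq.comp cA
    have c3 : Continuous fun k => Complex.normSq (D k) := Complex.continuous_normSq.comp cD
    exact (((c1.const_mul _).add (c2.div_const _)).const_mul _).add ((c3.add c2).const_mul _)
  have hdom : ∀ k ∈ JJ, k ≠ 0 → ‖Hh k‖ ≤ Dm k := by
    intro k hk hk0
    have hkb : |k.1| ≤ π ∧ |k.2| ≤ π := by
      have := JJ_subset hk
      exact ⟨abs_le.2 ⟨this.1.1, this.1.2⟩, abs_le.2 ⟨this.2.1, this.2.2⟩⟩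
    have hN0 := NN_nonneg k.1 k.2
    have hF0 := Complex.normSq_nonneg (F k)
    have hA0 := Complex.normSq_nonneg (A k)
    have hD0 := Complex.normSq_nonneg (D k)
    rw [Real.norm_eq_abs]
    by_cases hc : NN k.1 k.2 < ρ ^ 2
    · have hkB : k ∈ BB r := lt_of_lt_of_le hc (pow_le_pow_left₀ hρ.le hρr 2)
      have e4 : Hh k = 1 / Real.sqrt 3 * (G k * (Es k * u k - 2 * L)) := by
        simp only [hH, Set.indicator_of_mem hkB, e1]
        ring
      rw [e4, abs_mul, abs_of_pos (by positivity : 0 < 1 / Real.sqrt 3), abs_mul]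
      have h5 : |G k| * |Es k * u k - 2 * L| ≤ (1 / 2 * (t * Complex.normSq (F k) + Complex.normSq (A k) / t)) * η :=
        mul_le_mul ((hGle k).trans (abs_re_mul_conj_le _ _ ht)) (hsmall k hk0 hc) (abs_nonneg _)
          (by positivity)
      have h6 : 0 ≤ |G k| * |Es k * u k - 2 * L| := by positivity
      have h7 : 1 / Real.sqrt 3 * (|G k| * |Es k * u k - 2 * L|) ≤ |G k| * |Es k * u k - 2 * L| :=
        mul_le_of_le_one_left h6 h31
      have h8 : 0 ≤ K1 * (Complex.normSq (D k) + Complex.normSq (A k)) := by positivity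
      simp only [hDm]
      linarith
    · push Not at hc
      -- bound `|Hh| ≤ (1/√3) |G| (2C + 2L)`
      have h5 : |Hh k| ≤ 1 / Real.sqrt 3 * (|G k| * (2 * C + 2 * L)) := by
        by_cases hkB : k ∈ BB r
        · have e4 : Hh k = 1 / Real.sqrt 3 * (G k * (Es k * u k - 2 * L)) := by
            simp only [hH, Set.indicator_of_mem hkB, e1]
            ring
          rw [e4, abs_mul, abs_of_pos (by positivity : 0 < 1 / Real.sqrt 3), abs_mul]
          have h6 : NN k.1 k.2 < 1 / 100 := by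
            have : NN k.1 k.2 < r ^ 2 := hkB
            nlinarith
          have h7 := hS.bound k h6
          have h8 : Es k * u k ≤ 2 * C := by
            calc Es k * u k ≤ 2 * NN k.1 k.2 * u k := mul_le_mul_of_nonneg_right (Es_le k) (hS.nonneg k)
              _ ≤ 2 * C := by linarith
          have h9 : 0 ≤ Es k * u k := mul_nonneg (Es_nonneg k) (hS.nonneg k)
          have h10 : |Es k * u k - 2 * L| ≤ 2 * C + 2 * L := by
            rw [abs_le]; constructor <;> linarith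
          gcongr
        · have e4 : Hh k = -(1 / Real.sqrt 3 * (G k * (2 * L))) := by
            simp only [hH, Set.indicator_of_notMem hkB]
            ring
          rw [e4, abs_neg, abs_mul, abs_of_pos (by positivity : 0 < 1 / Real.sqrt 3), abs_mul,
            abs_of_nonneg (by positivity : 0 ≤ 2 * L)]
          gcongr
          linarith
      -- `‖F‖ = √3 ‖D‖ / E`
      have hE : 8 / (3 * π ^ 2) * ρ ^ 2 ≤ Es k :=
        (mul_le_mul_of_nonneg_left hc (by positivity)).trans (Es_ge hkb.1 hkb.2)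
      have hEp : 0 < Es k := lt_of_lt_of_le (by positivity) hE
      have h6 : ‖D k‖ = 1 / Real.sqrt 3 * Es k * ‖F k‖ := by
        rw [hDF, norm_mul, Complex.norm_real, Real.norm_eq_abs,
          abs_of_nonneg (mul_nonneg (by positivity) hEp.le)]
      have h7 : 1 / Real.sqrt 3 * ‖F k‖ ≤ 3 * π ^ 2 / (8 * ρ ^ 2) * ‖D k‖ := by
        have h8 : 3 * π ^ 2 / (8 * ρ ^ 2) * ‖D k‖ =
            (3 * π ^ 2 / (8 * ρ ^ 2) * Es k) * (1 / Real.sqrt 3 * ‖F k‖) := by rw [h6]; ring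
        rw [h8]
        refine le_mul_of_one_le_left (by positivity) ?_
        have h9 : 3 * π ^ 2 / (8 * ρ ^ 2) * (8 / (3 * π ^ 2) * ρ ^ 2) = 1 := by field_simp
        rw [← h9]
        exact mul_le_mul_of_nonneg_left hE (by positivity)
      have h8 : ‖D k‖ * ‖A k‖ ≤ 1 / 2 * (Complex.normSq (D k) + Complex.normSq (A k)) := by
        have := abs_re_mul_conj_le (D k) (A k) one_pos
        simpa using this
      have h9 : 1 / Real.sqrt 3 * (|G k| * (2 * C + 2 * L)) ≤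
          3 * π ^ 2 / (8 * ρ ^ 2) * (‖D k‖ * ‖A k‖) * (2 * C + 2 * L) := by
        calc 1 / Real.sqrt 3 * (|G k| * (2 * C + 2 * L))
            ≤ 1 / Real.sqrt 3 * ((‖F k‖ * ‖A k‖) * (2 * C + 2 * L)) := by gcongr; exact hGle k
          _ = (1 / Real.sqrt 3 * ‖F k‖) * (‖A k‖ * (2 * C + 2 * L)) := by ring
          _ ≤ (3 * π ^ 2 / (8 * ρ ^ 2) * ‖D k‖) * (‖A k‖ * (2 * C + 2 * L)) := by gcongr
          _ = _ := by ring
      have h10 : 3 * π ^ 2 / (8 * ρ ^ 2) * (‖D k‖ * ‖A k‖) * (2 * C + 2 * L) ≤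
          K1 * (Complex.normSq (D k) + Complex.normSq (A k)) := by
        calc 3 * π ^ 2 / (8 * ρ ^ 2) * (‖D k‖ * ‖A k‖) * (2 * C + 2 * L)
            ≤ 3 * π ^ 2 / (8 * ρ ^ 2) * (1 / 2 * (Complex.normSq (D k) + Complex.normSq (A k))) *
              (2 * C + 2 * L) := by gcongr
          _ = 3 / 8 * (K1 * (Complex.normSq (D k) + Complex.normSq (A k))) := by
              rw [hK1]; field_simp
          _ ≤ K1 * (Complex.normSq (D k) + Complex.normSq (A k)) := by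
              have : 0 ≤ K1 * (Complex.normSq (D k) + Complex.normSq (A k)) := by positivity
              linarith
      have h11 : 0 ≤ η / 2 * (t * Complex.normSq (F k) + Complex.normSq (A k) / t) := by positivity
      simp only [hDm]
      linarith
  have hae : ∀ᵐ k ∂(volume.restrict JJ), ‖Hh k‖ ≤ Dm k := by
    rw [ae_restrict_iff' measurableSet_JJ]
    have : ∀ᵐ k : ℝ × ℝ ∂volume, k ≠ 0 := by
      rw [ae_iff]
      simp
    filter_upwards [this] with k hk hkJ using hdom k hkJ hk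
  have hle := norm_integral_le_of_norm_le (integrableOn_JJ cDm) hae
  have iF : IntegrableOn (fun k => Complex.normSq (F k)) JJ :=
    integrableOn_JJ (Complex.continuous_normSq.comp cF)
  have iA : IntegrableOn (fun k => Complex.normSq (A k)) JJ :=
    integrableOn_JJ (Complex.continuous_normSq.comp cA)
  have iD : IntegrableOn (fun k => Complex.normSq (D k)) JJ :=
    integrableOn_JJ (Complex.continuous_normSq.comp cD)
  have hDmI : ∫ k in JJ, Dm k = (2 * π) ^ 2 * (η / 2 * (t * ∑ p ∈ s, φ p ^ 2 + (∑ p ∈ s, a p ^ 2) / t) +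
      K1 * (∑ p ∈ s, Dop φ p ^ 2 + ∑ p ∈ s, a p ^ 2)) := by
    have pF := parseval_normSq s φ
    have pA := parseval_normSq s a
    have pD := parseval_normSq s (Dop φ)
    simp only [hDm]
    have k1 : IntegrableOn (fun k => t * Complex.normSq (F k)) JJ := iF.const_mul _
    have k2 : IntegrableOn (fun k => Complex.normSq (A k) / t) JJ := iA.div_const _
    have j1 : IntegrableOn (fun k => t * Complex.normSq (F k) + Complex.normSq (A k) / t) JJ :=
      k1.add k2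
    have j2 : IntegrableOn (fun k => Complex.normSq (D k) + Complex.normSq (A k)) JJ := iD.add iA
    have j3 : IntegrableOn (fun k => η / 2 * (t * Complex.normSq (F k) + Complex.normSq (A k) / t)) JJ :=
      j1.const_mul _
    have j4 : IntegrableOn (fun k => K1 * (Complex.normSq (D k) + Complex.normSq (A k))) JJ :=
      j2.const_mul _
    rw [integral_add j3 j4, integral_const_mul, integral_const_mul, integral_add k1 k2,
      integral_add iD iA, integral_const_mul, integral_div]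
    simp only [hF, hA, hD]
    rw [pF, pA, pD]
    ring
  rw [e3, Real.norm_eq_abs, hDmI] at hle
  set I := ∫ k in BB r, (D k * conj (A k)).re * u k
  set S := ∑ p ∈ s, φ p * a p
  set E := η / 2 * (t * ∑ p ∈ s, φ p ^ 2 + (∑ p ∈ s, a p ^ 2) / t) +
      K1 * (∑ p ∈ s, Dop φ p ^ 2 + ∑ p ∈ s, a p ^ 2) with hE
  have h2π : (0 : ℝ) < (2 * π) ^ 2 := by positivity
  have h12 : |I / (2 * π) ^ 2 - 2 * L / Real.sqrt 3 * S| ≤ E := by
    have e5 : I - 2 * L / Real.sqrt 3 * ((2 * π) ^ 2 * S) =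
        (2 * π) ^ 2 * (I / (2 * π) ^ 2 - 2 * L / Real.sqrt 3 * S) := by field_simp
    rw [e5, abs_mul, abs_of_pos h2π] at hle
    exact le_of_mul_le_mul_left hle h2π
  have h13 : CV V s (Dop φ) s a - 2 * L / Real.sqrt 3 * S =
      (CV V s (Dop φ) s a - I / (2 * π) ^ 2) + (I / (2 * π) ^ 2 - 2 * L / Real.sqrt 3 * S) := by ring
  rw [h13]
  refine (abs_add_le _ _).trans ?_
  rw [hE] at h12
  linarith

end Crest.Agent.R144.Cw643
end
end

-- ▼ part R144/Cw4_643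
section

/-!
# R144 (helper643), CW block, file 4: Cauchy-Schwarz and the a-priori bound

* `CV_cs : CV V s f s g ^ 2 ≤ CV V s f s f * CV V s g s g` for mass-zero weights (`Two V`);
* `apriori`: a constant `K` (depending on `C` of `Spec` only) such that for mass-zero weights with
  `|f p| ≤ ε δ²`, supported in `|p.1|, |p.2| ≤ m`, `m + 1 ≤ R / δ`: `CV V s f s f ≤ K R⁶ ε²`.
-/

set_option autoImplicit false

noncomputable section

namespace Crest.Agent.R144.Cw643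

open Finset Filter Topology MeasureTheory
open Crest.Agent.R144.Tp952
open scoped Real ComplexConjugate

variable {V : ℤ × ℤ → ℝ}

theorem CV_self_nonneg (hV : Two V) {s : Finset (ℤ × ℤ)} {f : ℤ × ℤ → ℝ} (hf : ∑ p ∈ s, f p = 0) :
    0 ≤ CV V s f s f := by
  have := hV.pd s f hf
  unfold CV
  linarith

theorem CV_cs (hV : Two V) {s : Finset (ℤ × ℤ)} {f g : ℤ × ℤ → ℝ} (hf : ∑ p ∈ s, f p = 0)
    (hg : ∑ p ∈ s, g p = 0) : CV V s f s g ^ 2 ≤ CV V s f s f * CV V s g s g := by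
  have h1 : ∀ x : ℝ, 0 ≤ CV V s g s g * (x * x) + 2 * CV V s f s g * x + CV V s f s f := by
    intro x
    have h2 := CV_self_nonneg hV (s := s) (f := fun p => f p + x * g p)
      (by rw [Finset.sum_add_distrib, hf, ← Finset.mul_sum, hg, mul_zero, add_zero])
    have h3 : CV V s (fun p => f p + x * g p) s (fun p => f p + x * g p) =
        CV V s g s g * (x * x) + 2 * CV V s f s g * x + CV V s f s f := by
      rw [CV_add_left, CV_add_right hV.neg, CV_add_right hV.neg, CV_smul_left, CV_smul_left,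
        CV_comm hV.neg s f s (fun p => x * g p), CV_smul_left, CV_comm hV.neg s g s (fun p => x * g p),
        CV_smul_left, CV_comm hV.neg s g s f]
      ring
    rwa [h3] at h2
  have h4 := discrim_le_zero h1
  unfold discrim at h4
  nlinarith

/-- the box of half side `m` -/
def BX (m : ℕ) : Finset (ℤ × ℤ) := Finset.Icc (-(m : ℤ)) m ×ˢ Finset.Icc (-(m : ℤ)) m

theorem mem_BX {m : ℕ} {p : ℤ × ℤ} : p ∈ BX m ↔ |p.1| ≤ m ∧ |p.2| ≤ m := by
  unfold BX
  rw [Finset.mem_product, Finset.mem_Icc, Finset.mem_Icc, abs_le, abs_le]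

theorem card_BX (m : ℕ) : ((BX m).card : ℝ) = (2 * m + 1) ^ 2 := by
  unfold BX
  rw [Finset.card_product, Int.card_Icc]
  have : ((m : ℤ) + 1 - -(m : ℤ)).toNat = 2 * m + 1 := by omega
  rw [this]
  push_cast
  ring

theorem volume_BB_le {d : ℝ} (hd : 0 ≤ d) : (volume (BB d)).toReal ≤ 16 * d ^ 2 := by
  have h1 : BB d ⊆ Set.Icc (-(2 * d)) (2 * d) ×ˢ Set.Icc (-(2 * d)) (2 * d) := by
    intro k hk
    have := abs_le_of_mem_BB hd hk
    exact ⟨abs_le.1 this.1, abs_le.1 this.2⟩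
  have h2 : volume (Set.Icc (-(2 * d)) (2 * d) ×ˢ Set.Icc (-(2 * d)) (2 * d) : Set (ℝ × ℝ)) =
      ENNReal.ofReal (16 * d ^ 2) := by
    rw [Measure.volume_eq_prod, Measure.prod_prod, Real.volume_Icc, ← ENNReal.ofReal_mul (by linarith)]
    congr 1; ring
  have h3 := measure_mono (μ := volume) h1
  rw [h2] at h3
  exact (ENNReal.toReal_mono ENNReal.ofReal_ne_top h3).trans (by rw [ENNReal.toReal_ofReal (by positivity)])

/-- **a-priori bound** -/
theorem apriori {u : ℝ × ℝ → ℝ} {L C : ℝ} (hS : Spec V u L C) {m : ℕ} {f : ℤ × ℤ → ℝ}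
    (hf : ∑ p ∈ BX m, f p = 0) {ε δ R : ℝ} (hδ : 0 < δ) (hδ1 : δ ≤ 1 / 10) (hε : 0 ≤ ε)
    (hm : (2 * m + 1) * δ ≤ R) (hR : 1 ≤ R) (hb : ∀ p ∈ BX m, |f p| ≤ ε * δ ^ 2) :
    CV V (BX m) f (BX m) f ≤ 200 * C * R ^ 6 * ε ^ 2 := by
  have hπ := Real.pi_pos
  have hC := hS.C_pos
  have hm0 : (0 : ℝ) ≤ m := Nat.cast_nonneg m
  have hcard : ((BX m).card : ℝ) * δ ^ 2 ≤ R ^ 2 := by
    rw [card_BX, ← mul_pow]
    exact pow_le_pow_left₀ (by positivity) hm 2
  have hsum : ∑ p ∈ BX m, |f p| ≤ R ^ 2 * ε := by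
    calc ∑ p ∈ BX m, |f p| ≤ ∑ _p ∈ BX m, ε * δ ^ 2 := Finset.sum_le_sum hb
      _ = ((BX m).card * δ ^ 2) * ε := by rw [Finset.sum_const, nsmul_eq_mul]; ring
      _ ≤ R ^ 2 * ε := mul_le_mul_of_nonneg_right hcard hε
  have hsq : ∑ p ∈ BX m, f p ^ 2 ≤ R ^ 2 * ε ^ 2 * δ ^ 2 := by
    calc ∑ p ∈ BX m, f p ^ 2 ≤ ∑ _p ∈ BX m, (ε * δ ^ 2) ^ 2 := by
          refine Finset.sum_le_sum fun p hp => ?_
          rw [← sq_abs]
          exact pow_le_pow_left₀ (abs_nonneg _) (hb p hp) 2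
      _ = ((BX m).card * δ ^ 2) * (ε ^ 2 * δ ^ 2) := by rw [Finset.sum_const, nsmul_eq_mul]; ring
      _ ≤ R ^ 2 * (ε ^ 2 * δ ^ 2) := mul_le_mul_of_nonneg_right hcard (by positivity)
      _ = _ := by ring
  have hmom : mom (BX m) f * δ ≤ R ^ 3 * ε := by
    have h1 : mom (BX m) f ≤ (∑ p ∈ BX m, |f p|) * (2 * m + 1) := by
      unfold mom
      rw [Finset.sum_mul]
      refine Finset.sum_le_sum fun p hp => ?_
      refine mul_le_mul_of_nonneg_left ?_ (abs_nonneg _)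
      obtain ⟨h1, h2⟩ := mem_BX.1 hp
      have h3 : |(p.1 : ℝ)| ≤ m := by exact_mod_cast h1
      have h4 : |(p.2 : ℝ)| ≤ m := by exact_mod_cast h2
      linarith
    calc mom (BX m) f * δ ≤ (∑ p ∈ BX m, |f p|) * (2 * m + 1) * δ := mul_le_mul_of_nonneg_right h1 hδ.le
      _ = (∑ p ∈ BX m, |f p|) * ((2 * m + 1) * δ) := by ring
      _ ≤ (R ^ 2 * ε) * R := mul_le_mul hsum hm (by positivity) (by positivity)
      _ = _ := by ring
  have hsum0 : 0 ≤ ∑ p ∈ BX m, |f p| := Finset.sum_nonneg fun _ _ => abs_nonneg _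
  -- the spectral representation with `r = 1/10`
  obtain ⟨i1, b1⟩ := hS.rep (1 / 10) (BX m) f ((R ^ 2 * ε) ^ 2) (by norm_num) le_rfl hf
    (fun k1 k2 _ _ _ => by
      rw [Complex.normSq_eq_norm_sq]
      exact pow_le_pow_left₀ (norm_nonneg _) ((norm_fh_le_sum _ _ _ _).trans hsum) 2)
  set r : ℝ := 1 / 10 with hr
  set F : ℝ × ℝ → ℂ := fun k => fh (BX m) f k.1 k.2 with hF
  have cF : Continuous fun k => Complex.normSq (F k) :=
    Complex.continuous_normSq.comp (continuous_fh (BX m) f)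
  have hBJ : BB r ⊆ JJ := BB_subset_JJ (by norm_num) (by norm_num)
  have iF : IntegrableOn (fun k => Complex.normSq (F k)) (BB r) := (integrableOn_JJ cF).mono_set hBJ
  have hvol : (volume (BB r)) < ⊤ := volume_BB_lt_top (by norm_num) (by norm_num)
  -- pointwise bound
  have hpt : ∀ k ∈ BB r, k ≠ 0 → Complex.normSq (F k) * u k ≤
      (BB δ).indicator (fun _ => 2 * mom (BX m) f ^ 2 * C) k + C / δ ^ 2 * Complex.normSq (F k) := by
    intro k hk hk0
    have hN := NN_pos hk0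
    have hk1 : NN k.1 k.2 < 1 / 100 := by
      have : NN k.1 k.2 < r ^ 2 := hk
      rw [hr] at this; norm_num at this; linarith
    have hb1 := hS.bound k hk1
    have hu := hS.nonneg k
    have hn := Complex.normSq_nonneg (F k)
    by_cases hc : k ∈ BB δ
    · rw [Set.indicator_of_mem hc]
      have h2 := normSq_fh_le hf k.1 k.2
      have h3 : Complex.normSq (F k) * u k ≤ 2 * mom (BX m) f ^ 2 * NN k.1 k.2 * u k :=
        mul_le_mul_of_nonneg_right h2 hu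
      have h4 : 2 * mom (BX m) f ^ 2 * NN k.1 k.2 * u k ≤ 2 * mom (BX m) f ^ 2 * C := by
        rw [mul_assoc]
        exact mul_le_mul_of_nonneg_left hb1 (by positivity)
      have h5 : 0 ≤ C / δ ^ 2 * Complex.normSq (F k) := by positivity
      linarith
    · rw [Set.indicator_of_notMem hc, zero_add]
      have h2 : δ ^ 2 ≤ NN k.1 k.2 := not_lt.1 hc
      have h3 : u k ≤ C / δ ^ 2 := by
        rw [le_div_iff₀ (by positivity)]
        calc u k * δ ^ 2 ≤ u k * NN k.1 k.2 := mul_le_mul_of_nonneg_left h2 hu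
          _ = NN k.1 k.2 * u k := mul_comm _ _
          _ ≤ C := hb1
      rw [mul_comm]
      exact mul_le_mul_of_nonneg_right h3 hn
  have hδr : BB δ ⊆ BB r := fun k hk => lt_of_lt_of_le hk (pow_le_pow_left₀ hδ.le hδ1 2)
  have iI : IntegrableOn ((BB δ).indicator (fun _ : ℝ × ℝ => 2 * mom (BX m) f ^ 2 * C)) (BB r) := by
    refine (integrable_indicator_iff (measurableSet_BB δ)).2 ?_
    rw [IntegrableOn, Measure.restrict_restrict (measurableSet_BB δ), Set.inter_eq_left.2 hδr]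
    exact integrableOn_const (by
      exact (lt_of_le_of_lt (measure_mono hδr) hvol).ne)
  have i2 : IntegrableOn (fun k => C / δ ^ 2 * Complex.normSq (F k)) (BB r) := iF.const_mul _
  have h6 : ∫ k in BB r, Complex.normSq (F k) * u k ≤
      ∫ k in BB r, ((BB δ).indicator (fun _ => 2 * mom (BX m) f ^ 2 * C) k +
        C / δ ^ 2 * Complex.normSq (F k)) := by
    refine integral_mono_ae i1 (iI.add i2) ?_
    rw [EventuallyLE, ae_restrict_iff' (measurableSet_BB r)]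
    have : ∀ᵐ k : ℝ × ℝ ∂volume, k ≠ 0 := by
      rw [ae_iff]; simp
    filter_upwards [this] with k hk hkB using hpt k hkB hk
  rw [integral_add iI i2, integral_const_mul, setIntegral_indicator (measurableSet_BB δ),
    Set.inter_eq_right.2 hδr, setIntegral_const, smul_eq_mul] at h6
  have h7 : ∫ k in BB r, Complex.normSq (F k) ≤ (2 * π) ^ 2 * ∑ p ∈ BX m, f p ^ 2 := by
    rw [← parseval_normSq]
    exact setIntegral_mono_set (integrableOn_JJ cF) (ae_of_all _ fun k => Complex.normSq_nonneg _)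
      (LE.le.eventuallyLE hBJ)
  have h8 : (volume.real (BB δ)) * (2 * mom (BX m) f ^ 2 * C) ≤ 32 * C * (R ^ 3 * ε) ^ 2 := by
    have h9 : volume.real (BB δ) ≤ 16 * δ ^ 2 := volume_BB_le hδ.le
    calc volume.real (BB δ) * (2 * mom (BX m) f ^ 2 * C) ≤ 16 * δ ^ 2 * (2 * mom (BX m) f ^ 2 * C) :=
          mul_le_mul_of_nonneg_right h9 (by positivity)
      _ = 32 * C * (mom (BX m) f * δ) ^ 2 := by ring
      _ ≤ 32 * C * (R ^ 3 * ε) ^ 2 := by
          refine mul_le_mul_of_nonneg_left ?_ (by positivity)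
          exact pow_le_pow_left₀ (mul_nonneg (mom_nonneg _ _) hδ.le) hmom 2
  have h9 : C / δ ^ 2 * ∫ k in BB r, Complex.normSq (F k) ≤ C * (2 * π) ^ 2 * (R ^ 2 * ε ^ 2) := by
    calc C / δ ^ 2 * ∫ k in BB r, Complex.normSq (F k)
        ≤ C / δ ^ 2 * ((2 * π) ^ 2 * (R ^ 2 * ε ^ 2 * δ ^ 2)) := by
          refine mul_le_mul_of_nonneg_left (h7.trans ?_) (by positivity)
          exact mul_le_mul_of_nonneg_left hsq (by positivity)
      _ = _ := by field_simp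
  have h10 : (∫ k in BB r, Complex.normSq (F k) * u k) / (2 * π) ^ 2 ≤
      C * (R ^ 3 * ε) ^ 2 + C * (R ^ 2 * ε ^ 2) := by
    rw [div_le_iff₀ (by positivity)]
    have h11 : (32 : ℝ) ≤ (2 * π) ^ 2 := by nlinarith [Real.pi_gt_three]
    have h12 : 32 * (C * (R ^ 3 * ε) ^ 2) ≤ (2 * π) ^ 2 * (C * (R ^ 3 * ε) ^ 2) :=
      mul_le_mul_of_nonneg_right h11 (by positivity)
    linarith
  have h13 := (abs_le.1 b1).2
  have h14 : CV V (BX m) f (BX m) f ≤
      (C * (R ^ 3 * ε) ^ 2 + C * (R ^ 2 * ε ^ 2)) + C / r ^ 2 * (R ^ 2 * ε) ^ 2 := by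
    have e : CV V (BX m) f (BX m) f = -(1 / 2) * ∑ p ∈ BX m, ∑ q ∈ BX m, f p * f q * V (p - q) := rfl
    rw [e]
    have h13' : -(1 / 2) * ∑ p ∈ BX m, ∑ q ∈ BX m, f p * f q * V (p - q) -
        (∫ k in BB r, Complex.normSq (F k) * u k) / (2 * π) ^ 2 ≤ C / r ^ 2 * (R ^ 2 * ε) ^ 2 := h13
    linarith
  refine h14.trans ?_
  have hr2 : C / r ^ 2 = 100 * C := by rw [hr]; ring
  rw [hr2]
  have hR2 : R ^ 2 ≤ R ^ 6 := pow_le_pow_right₀ hR (by norm_num)
  have hR4 : R ^ 4 ≤ R ^ 6 := pow_le_pow_right₀ hR (by norm_num)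
  have hCe : 0 ≤ C * ε ^ 2 := by positivity
  have a1 : C * ε ^ 2 * R ^ 2 ≤ C * ε ^ 2 * R ^ 6 := mul_le_mul_of_nonneg_left hR2 hCe
  have a2 : C * ε ^ 2 * R ^ 4 ≤ C * ε ^ 2 * R ^ 6 := mul_le_mul_of_nonneg_left hR4 hCe
  have a3 : 0 ≤ C * ε ^ 2 * R ^ 6 := by positivity
  nlinarith

end Crest.Agent.R144.Cw643
end
end

-- ▼ part R144/Cw5_643
section

/-!
# R144 (helper643), CW block, file 5: boxes, Riemann sums, near families
-/

set_option autoImplicit false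

noncomputable section

namespace Crest.Agent.R144.Cw643

open Finset Filter Topology MeasureTheory
open Crest.Agent.R144.Tp952
open Crest.ProbabilityR.HexHeights (centre)
open Crest.Agent.R144.HexTil353 Crest.Agent.R144.Geo268
open scoped Real ContDiff Laplacian

/-! ### boxes -/

/-- half side of the box containing all sites with centre in the ball of radius `R` -/
def mm (R δ : ℝ) : ℕ := ⌈2 * R / δ⌉₊ + 1

theorem coord_le {δ R : ℝ} (hδ : 0 < δ) {p : ℤ × ℤ} (h : ‖centre δ p‖ ≤ R) :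
    |(p.1 : ℝ)| ≤ 2 * R / δ ∧ |(p.2 : ℝ)| ≤ 2 * R / δ := by
  have hR : 0 ≤ R := (norm_nonneg _).trans h
  have h1 : ‖centre δ p‖ ^ 2 ≤ R ^ 2 := pow_le_pow_left₀ (norm_nonneg _) h 2
  rw [centre_eq, norm_cen_sq] at h1
  have h2 := N_ge (p.1 : ℝ) (p.2 : ℝ)
  have h3 : δ ^ 2 * ((1 / 2) * ((p.1 : ℝ) ^ 2 + (p.2 : ℝ) ^ 2)) ≤ R ^ 2 :=
    (mul_le_mul_of_nonneg_left h2 (sq_nonneg _)).trans h1
  have key : ∀ x : ℝ, δ ^ 2 * (1 / 2 * x ^ 2) ≤ R ^ 2 → |x| ≤ 2 * R / δ := by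
    intro x hx
    rw [le_div_iff₀ hδ]
    apply le_of_sq_le_sq _ (by positivity)
    rw [mul_pow, sq_abs]
    nlinarith
  constructor
  · apply key
    nlinarith [mul_nonneg (sq_nonneg δ) (sq_nonneg (p.2 : ℝ))]
  · apply key
    nlinarith [mul_nonneg (sq_nonneg δ) (sq_nonneg (p.1 : ℝ))]

theorem mem_BX_of_norm {δ R : ℝ} (hδ : 0 < δ) {p : ℤ × ℤ} (h : ‖centre δ p‖ ≤ R) :
    p ∈ BX ⌈2 * R / δ⌉₊ := by
  obtain ⟨h1, h2⟩ := coord_le hδ h
  have h3 := Nat.le_ceil (2 * R / δ)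
  rw [mem_BX]
  constructor
  · have := h1.trans h3
    exact_mod_cast this
  · have := h2.trans h3
    exact_mod_cast this

theorem BX_mono {m n : ℕ} (h : m ≤ n) : BX m ⊆ BX n := by
  intro p hp
  rw [mem_BX] at hp ⊢
  have : (m : ℤ) ≤ n := by exact_mod_cast h
  exact ⟨hp.1.trans this, hp.2.trans this⟩

theorem mem_BX_six {m : ℕ} {p e : ℤ × ℤ} (he : e ∈ six) (h : p - e ∈ BX m) : p ∈ BX (m + 1) := by
  rw [mem_BX] at h ⊢
  obtain ⟨h1, h2⟩ := h
  rw [Prod.fst_sub, abs_le] at h1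
  rw [Prod.snd_sub, abs_le] at h2
  rw [abs_le, abs_le]
  simp only [six, Finset.mem_insert, Finset.mem_singleton] at he
  push_cast
  rcases he with rfl | rfl | rfl | rfl | rfl | rfl <;> simp only at h1 h2 <;>
    refine ⟨⟨?_, ?_⟩, ⟨?_, ?_⟩⟩ <;> omega

theorem sup7_of_norm {δ R : ℝ} (hδ : 0 < δ) {φ : ℤ × ℤ → ℝ} (h : ∀ p, φ p ≠ 0 → ‖centre δ p‖ ≤ R) :
    Sup7 (BX (mm R δ)) φ := by
  constructor
  · intro p hp
    by_contra h1
    exact hp (BX_mono (Nat.le_succ _) (mem_BX_of_norm hδ (h p h1)))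
  · intro e he p hp
    by_contra h1
    exact hp (mem_BX_six he (mem_BX_of_norm hδ (h _ h1)))

theorem mm_le {R δ : ℝ} (hR : 0 ≤ R) (hδ : 0 < δ) (hδ1 : δ ≤ 1) :
    (2 * (mm R δ : ℝ) + 1) * δ ≤ 4 * R + 5 := by
  have h1 := (Nat.ceil_lt_add_one (by positivity : 0 ≤ 2 * R / δ)).le
  unfold mm
  push_cast
  have h2 : 2 * R / δ * δ = 2 * R := by field_simp
  nlinarith

theorem card_mul_le {R δ : ℝ} (hR : 0 ≤ R) (hδ : 0 < δ) (hδ1 : δ ≤ 1) :
    ((BX (mm R δ)).card : ℝ) * δ ^ 2 ≤ (4 * R + 5) ^ 2 := by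
  rw [card_BX, ← mul_pow]
  exact pow_le_pow_left₀ (by positivity) (mm_le hR hδ hδ1) 2

/-! ### Riemann sums -/

/-- unit square at `v` -/
def Sq (v : ℤ × ℤ) : Set (ℝ × ℝ) := Set.Ico (v.1 : ℝ) (v.1 + 1) ×ˢ Set.Ico (v.2 : ℝ) (v.2 + 1)

theorem mem_Sq {v : ℤ × ℤ} {p : ℝ × ℝ} : p ∈ Sq v ↔ v = (⌊p.1⌋, ⌊p.2⌋) := by
  unfold Sq
  rw [Set.mem_prod, Set.mem_Ico, Set.mem_Ico, ← Int.floor_eq_iff, ← Int.floor_eq_iff]
  constructor
  · rintro ⟨h1, h2⟩; exact Prod.ext h1.symm h2.symm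
  · rintro rfl; exact ⟨rfl, rfl⟩

theorem measurableSet_Sq (v : ℤ × ℤ) : MeasurableSet (Sq v) :=
  measurableSet_Ico.prod measurableSet_Ico

theorem volume_Sq (v : ℤ × ℤ) : volume (Sq v) = 1 := by
  unfold Sq
  rw [Measure.volume_eq_prod, Measure.prod_prod, Real.volume_Ico, Real.volume_Ico]
  simp

/-- quantitative Riemann sum -/
theorem riemann {g : ℂ → ℝ} (hg : Continuous g) {δ κ : ℝ} (hδ : 0 < δ)
    (hκ : ∀ z w : ℂ, ‖z - w‖ ≤ 2 * δ → |g z - g w| ≤ κ) {m : ℕ}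
    (hm : ∀ z, g z ≠ 0 → (⌊ca δ z⌋, ⌊cb δ z⌋) ∈ BX m) :
    |(∫ z, g z) - Real.sqrt 3 / 2 * δ ^ 2 * ∑ p ∈ BX m, g (centre δ p)| ≤
      Real.sqrt 3 / 2 * δ ^ 2 * (κ * (2 * m + 1) ^ 2) := by
  have hκ0 : 0 ≤ κ := (abs_nonneg _).trans (hκ 0 0 (by simp; positivity))
  set G : ℝ × ℝ → ℝ := fun p => g (cen δ p.1 p.2) with hG
  have e1 : ∫ z, g z = (Real.sqrt 3 / 2 * δ ^ 2) * ∫ p, G p := by
    rw [integral_cen hδ g, smul_eq_mul]
  set T : ℝ × ℝ → ℝ := fun p => ∑ v ∈ BX m, (Sq v).indicator (fun _ => g (centre δ v)) p with hT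
  have iT : ∀ v ∈ BX m, Integrable ((Sq v).indicator (fun _ : ℝ × ℝ => g (centre δ v))) := by
    intro v _
    rw [integrable_indicator_iff (measurableSet_Sq v)]
    exact integrableOn_const (by rw [volume_Sq]; exact ENNReal.one_ne_top)
  have e2 : ∫ p, T p = ∑ v ∈ BX m, g (centre δ v) := by
    simp only [hT]
    rw [integral_finsetSum _ iT]
    refine Finset.sum_congr rfl fun v _ => ?_
    rw [integral_indicator_const _ (measurableSet_Sq v), Measure.real, volume_Sq]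
    simp
  have iTT : Integrable T := integrable_finsetSum _ iT
  -- the big square
  set Q : Set (ℝ × ℝ) := Set.Ico (-(m : ℝ)) (m + 1) ×ˢ Set.Ico (-(m : ℝ)) (m + 1) with hQ
  have hQm : MeasurableSet Q := measurableSet_Ico.prod measurableSet_Ico
  have hQv : volume Q = ENNReal.ofReal ((2 * m + 1) ^ 2) := by
    rw [hQ, Measure.volume_eq_prod, Measure.prod_prod, Real.volume_Ico,
      ← ENNReal.ofReal_mul (by have : (0 : ℝ) ≤ m := Nat.cast_nonneg m; linarith)]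
    congr 1; ring
  have hQi : ∀ p : ℝ × ℝ, p ∈ Q ↔ (⌊p.1⌋, ⌊p.2⌋) ∈ BX m := by
    intro p
    have key : ∀ x : ℝ, (-(m : ℝ) ≤ x ∧ x < m + 1) ↔ |⌊x⌋| ≤ (m : ℤ) := by
      intro x
      rw [abs_le]
      constructor
      · rintro ⟨h1, h2⟩
        refine ⟨Int.le_floor.2 (by push_cast; exact h1), ?_⟩
        have : ⌊x⌋ < (m : ℤ) + 1 := Int.floor_lt.2 (by push_cast; exact h2)
        omega
      · rintro ⟨h1, h2⟩
        have h3 := Int.le_floor.1 h1
        push_cast at h3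
        have h4 : x < ((m : ℤ) + 1 : ℤ) := Int.floor_lt.1 (by omega)
        push_cast at h4
        exact ⟨h3, h4⟩
    rw [hQ, Set.mem_prod, Set.mem_Ico, Set.mem_Ico, key, key, mem_BX]
  have hdiff : ∀ p, ‖G p - T p‖ ≤ Q.indicator (fun _ => κ) p := by
    intro p
    by_cases hp : (⌊p.1⌋, ⌊p.2⌋) ∈ BX m
    · rw [Set.indicator_of_mem ((hQi p).2 hp)]
      have hTp : T p = g (centre δ (⌊p.1⌋, ⌊p.2⌋)) := by
        simp only [hT]
        rw [Finset.sum_eq_single (⌊p.1⌋, ⌊p.2⌋)]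
        · rw [Set.indicator_of_mem (mem_Sq.2 rfl)]
        · intro v _ hv
          rw [Set.indicator_of_notMem]
          rwa [mem_Sq]
        · exact fun h => absurd hp h
      rw [hTp, Real.norm_eq_abs]
      apply hκ
      rw [centre_eq, cen_sub]
      apply le_of_sq_le_sq _ (by positivity)
      rw [norm_cen_sq, mul_pow]
      have h1 := Int.floor_le p.1
      have h2 := Int.lt_floor_add_one p.1
      have h3 := Int.floor_le p.2
      have h4 := Int.lt_floor_add_one p.2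
      have h5 : N (p.1 - ⌊p.1⌋) (p.2 - ⌊p.2⌋) ≤ 4 := by
        unfold N
        have a1 : 0 ≤ p.1 - ⌊p.1⌋ := by linarith
        have a2 : p.1 - ⌊p.1⌋ ≤ 1 := by linarith
        have a3 : 0 ≤ p.2 - ⌊p.2⌋ := by linarith
        have a4 : p.2 - ⌊p.2⌋ ≤ 1 := by linarith
        nlinarith [mul_nonneg a1 a3, mul_nonneg (sub_nonneg.2 a2) (sub_nonneg.2 a4)]
      nlinarith [sq_nonneg δ]
    · rw [Set.indicator_of_notMem (fun h => hp ((hQi p).1 h))]
      have h1 : G p = 0 := by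
        by_contra h2
        apply hp
        have := hm _ h2
        rwa [ca_cen hδ, cb_cen hδ] at this
      have h2 : T p = 0 := by
        simp only [hT]
        refine Finset.sum_eq_zero fun v hv => ?_
        rw [Set.indicator_of_notMem]
        rw [mem_Sq]
        rintro rfl
        exact hp hv
      rw [h1, h2, sub_zero, norm_zero]
  have iQ : Integrable (Q.indicator (fun _ : ℝ × ℝ => κ)) := by
    rw [integrable_indicator_iff hQm]
    exact integrableOn_const (by rw [hQv]; exact ENNReal.ofReal_ne_top)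
  have iD : Integrable (fun p => G p - T p) := by
    have hGc : Continuous G := by
      have : Continuous (fun p : ℝ × ℝ => cen δ p.1 p.2) := by unfold cen; fun_prop
      exact hg.comp this
    exact iQ.mono' (hGc.aestronglyMeasurable.sub iTT.aestronglyMeasurable) (ae_of_all _ hdiff)
  have iG : Integrable G := by
    have := iD.add iTT
    refine this.congr (ae_of_all _ fun p => ?_)
    simp
  have h1 := norm_integral_le_of_norm_le iQ (ae_of_all _ hdiff)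
  rw [integral_sub iG iTT, e2, integral_indicator_const _ hQm, Measure.real, hQv,
    ENNReal.toReal_ofReal (by positivity), smul_eq_mul, Real.norm_eq_abs] at h1
  rw [e1, ← mul_sub, abs_mul, abs_of_nonneg (by positivity)]
  refine mul_le_mul_of_nonneg_left (h1.trans (le_of_eq (mul_comm _ _))) (by positivity)

end Crest.Agent.R144.Cw643
end
end

-- ▼ part R144/Cw6_643

/-!
# R144 (helper643), CW block, file 6: near families and the limit of the covariances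

`Near δ b g`: the weights `b n` are supported in a bounded region of the plane and
`b n v = (√3/2) δ_n² g(centre v) + o(δ_n²)` uniformly in `v`.

**`cv_tendsto`**: for a variogram `V` with spectral representation `Spec V u L C`, mass-zero families
`Near δ b (-Δψ)`, `Near δ a f` : `CV V (s n) (b n) (t n) (a n) → (2 L/√3) ∫ ψ f`.
-/

set_option autoImplicit false

noncomputable section

namespace Crest.Agent.R144.Cw643

open Finset Filter Topology MeasureTheory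
open Crest.Agent.R144.Tp952
open Crest.ProbabilityR.HexHeights (centre)
open Crest.Agent.R144.HexTil353 Crest.Agent.R144.Geo268
open scoped Real ContDiff Laplacian

/-- near family -/
structure Near (δ : ℕ → ℝ) (b : ℕ → ℤ × ℤ → ℝ) (g : ℂ → ℝ) : Prop where
  supp : ∃ R : ℝ, ∀ᶠ n in atTop, ∀ v, b n v ≠ 0 → ‖centre (δ n) v‖ ≤ R
  near : ∀ ε > 0, ∀ᶠ n in atTop, ∀ v, |b n v - Real.sqrt 3 / 2 * δ n ^ 2 * g (centre (δ n) v)| ≤
    ε * δ n ^ 2

/-- mass-zero weight on `s` -/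
def Wt (s : Finset (ℤ × ℤ)) (b : ℤ × ℤ → ℝ) : Prop := (∀ p, p ∉ s → b p = 0) ∧ ∑ p ∈ s, b p = 0

theorem Wt.sum_eq {s t : Finset (ℤ × ℤ)} {b : ℤ × ℤ → ℝ} (h : Wt s b) (ht : ∀ p, p ∉ t → b p = 0) :
    Wt t b := by
  classical
  refine ⟨ht, ?_⟩
  rw [← h.2]
  have h1 : ∑ p ∈ t, b p = ∑ p ∈ s ∪ t, b p :=
    Finset.sum_subset Finset.subset_union_right fun p _ hp => ht p hp
  have h2 : ∑ p ∈ s, b p = ∑ p ∈ s ∪ t, b p :=
    Finset.sum_subset Finset.subset_union_left fun p _ hp => h.1 p hp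
  rw [h1, h2]

theorem CV_eq_of_supp (V : ℤ × ℤ → ℝ) {s s' t t' : Finset (ℤ × ℤ)} {f g : ℤ × ℤ → ℝ}
    (hs : ∀ p, p ∉ s → f p = 0) (hs' : ∀ p, p ∉ s' → f p = 0)
    (ht : ∀ p, p ∉ t → g p = 0) (ht' : ∀ p, p ∉ t' → g p = 0) :
    CV V s f t g = CV V s' f t' g := by
  classical
  rw [CV_superset V (s' := s ∪ s') (t' := t ∪ t') Finset.subset_union_left Finset.subset_union_left
    hs ht]
  exact (CV_superset V Finset.subset_union_right Finset.subset_union_right hs' ht').symm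

variable {δ : ℕ → ℝ} {b b' : ℕ → ℤ × ℤ → ℝ} {g g' : ℂ → ℝ}

namespace Near

theorem add (h : Near δ b g) (h' : Near δ b' g') :
    Near δ (fun n v => b n v + b' n v) (fun z => g z + g' z) := by
  obtain ⟨R, hR⟩ := h.supp
  obtain ⟨R', hR'⟩ := h'.supp
  refine ⟨⟨max R R', ?_⟩, fun ε hε => ?_⟩
  · filter_upwards [hR, hR'] with n h1 h2 v hv
    by_cases hb : b n v = 0
    · exact (h2 v (by rintro h3; exact hv (by rw [hb, h3, add_zero]))).trans (le_max_right _ _)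
    · exact (h1 v hb).trans (le_max_left _ _)
  · filter_upwards [h.near (ε / 2) (by positivity), h'.near (ε / 2) (by positivity)] with n h1 h2 v
    have e : b n v + b' n v - Real.sqrt 3 / 2 * δ n ^ 2 * (g (centre (δ n) v) + g' (centre (δ n) v)) =
      (b n v - Real.sqrt 3 / 2 * δ n ^ 2 * g (centre (δ n) v)) +
      (b' n v - Real.sqrt 3 / 2 * δ n ^ 2 * g' (centre (δ n) v)) := by ring
    rw [e]
    refine (abs_add_le _ _).trans ?_
    linarith [h1 v, h2 v]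

theorem smul (h : Near δ b g) (c : ℝ) : Near δ (fun n v => c * b n v) (fun z => c * g z) := by
  obtain ⟨R, hR⟩ := h.supp
  refine ⟨⟨R, ?_⟩, fun ε hε => ?_⟩
  · filter_upwards [hR] with n h1 v hv
    exact h1 v (by rintro h3; exact hv (by rw [h3, mul_zero]))
  · filter_upwards [h.near (ε / (|c| + 1)) (by positivity)] with n h1 v
    have e : c * b n v - Real.sqrt 3 / 2 * δ n ^ 2 * (c * g (centre (δ n) v)) =
      c * (b n v - Real.sqrt 3 / 2 * δ n ^ 2 * g (centre (δ n) v)) := by ring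
    rw [e, abs_mul]
    have h2 : |c| * (ε / (|c| + 1) * δ n ^ 2) ≤ ε * δ n ^ 2 := by
      have h3 : |c| * (ε / (|c| + 1)) ≤ ε := by
        rw [mul_div_assoc', div_le_iff₀ (by positivity)]
        nlinarith [abs_nonneg c]
      rw [← mul_assoc]
      exact mul_le_mul_of_nonneg_right h3 (sq_nonneg _)
    exact (mul_le_mul_of_nonneg_left (h1 v) (abs_nonneg _)).trans h2

theorem neg (h : Near δ b g) : Near δ (fun n v => -b n v) (fun z => -g z) := by
  have := h.smul (-1)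
  simpa only [neg_one_mul] using this

theorem sub (h : Near δ b g) (h' : Near δ b' g') :
    Near δ (fun n v => b n v - b' n v) (fun z => g z - g' z) := by
  have := h.add h'.neg
  simpa only [← sub_eq_add_neg] using this

theorem congr (h : Near δ b g) (hg : ∀ z, g z = g' z) : Near δ b g' := by
  have : g = g' := funext hg
  rwa [← this]

theorem congr' (h : Near δ b g) (hb : ∀ᶠ n in atTop, ∀ v, b n v = b' n v) : Near δ b' g := by
  obtain ⟨R, hR⟩ := h.supp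
  refine ⟨⟨R, ?_⟩, fun ε hε => ?_⟩
  · filter_upwards [hR, hb] with n h1 h2 v hv
    exact h1 v (by rwa [h2])
  · filter_upwards [h.near ε hε, hb] with n h1 h2 v
    rw [← h2]
    exact h1 v

/-- uniform bound -/
theorem bdd (h : Near δ b g) {A : ℝ} (hA : ∀ z, |g z| ≤ A) :
    ∀ᶠ n in atTop, ∀ v, |b n v| ≤ (A + 1) * δ n ^ 2 := by
  have hA0 : 0 ≤ A := (abs_nonneg _).trans (hA 0)
  have h31 : Real.sqrt 3 / 2 ≤ 1 := by
    have : Real.sqrt 3 ≤ 2 := by
      rw [Real.sqrt_le_left (by norm_num)]; norm_num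
    linarith
  filter_upwards [h.near 1 one_pos] with n h1 v
  have e : b n v = (b n v - Real.sqrt 3 / 2 * δ n ^ 2 * g (centre (δ n) v)) +
      Real.sqrt 3 / 2 * δ n ^ 2 * g (centre (δ n) v) := by ring
  rw [e]
  refine (abs_add_le _ _).trans ?_
  have h2 : |Real.sqrt 3 / 2 * δ n ^ 2 * g (centre (δ n) v)| ≤ A * δ n ^ 2 := by
    rw [abs_mul, abs_of_nonneg (by positivity)]
    calc Real.sqrt 3 / 2 * δ n ^ 2 * |g (centre (δ n) v)| ≤ 1 * δ n ^ 2 * A := by
          gcongr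
          exact hA _
      _ = _ := by ring
  linarith [h1 v]

/-- transport by maps of the lattice approximating a map of the plane -/
theorem comp (h : Near δ b g) (hg : UniformContinuous g) {σ : ℕ → ℤ × ℤ → ℤ × ℤ} {τ : ℂ → ℂ} {K : ℝ}
    (hK : ∀ z, ‖z‖ ≤ ‖τ z‖ + K)
    (hτ : ∀ ε > 0, ∀ᶠ n in atTop, ∀ v, ‖centre (δ n) (σ n v) - τ (centre (δ n) v)‖ ≤ ε) :
    Near δ (fun n v => b n (σ n v)) (fun z => g (τ z)) := by
  obtain ⟨R, hR⟩ := h.supp
  refine ⟨⟨R + 1 + K, ?_⟩, fun ε hε => ?_⟩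
  · filter_upwards [hR, hτ 1 one_pos] with n h1 h2 v hv
    have h3 := h1 _ hv
    have h4 := h2 v
    have h5 := hK (centre (δ n) v)
    have h6 : ‖τ (centre (δ n) v)‖ ≤ ‖centre (δ n) (σ n v)‖ + 1 := by
      have := norm_sub_norm_le (τ (centre (δ n) v)) (centre (δ n) (σ n v))
      rw [norm_sub_rev] at this
      linarith
    linarith
  · have h31 : Real.sqrt 3 / 2 ≤ 1 := by
      have : Real.sqrt 3 ≤ 2 := by
        rw [Real.sqrt_le_left (by norm_num)]; norm_num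
      linarith
    obtain ⟨η, hη, hη'⟩ := Metric.uniformContinuous_iff.1 hg (ε / 2) (by positivity)
    filter_upwards [h.near (ε / 2) (by positivity), hτ (η / 2) (by positivity)] with n h1 h2 v
    have e : b n (σ n v) - Real.sqrt 3 / 2 * δ n ^ 2 * g (τ (centre (δ n) v)) =
      (b n (σ n v) - Real.sqrt 3 / 2 * δ n ^ 2 * g (centre (δ n) (σ n v))) +
      Real.sqrt 3 / 2 * δ n ^ 2 * (g (centre (δ n) (σ n v)) - g (τ (centre (δ n) v))) := by ring
    rw [e]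
    refine (abs_add_le _ _).trans ?_
    have h3 : |g (centre (δ n) (σ n v)) - g (τ (centre (δ n) v))| ≤ ε / 2 := by
      have h4 : dist (centre (δ n) (σ n v)) (τ (centre (δ n) v)) < η := by
        rw [dist_eq_norm]
        linarith [h2 v]
      have := hη' h4
      rw [Real.dist_eq] at this
      exact this.le
    have h5 : |Real.sqrt 3 / 2 * δ n ^ 2 * (g (centre (δ n) (σ n v)) - g (τ (centre (δ n) v)))| ≤
        ε / 2 * δ n ^ 2 := by
      rw [abs_mul, abs_of_nonneg (by positivity)]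
      calc Real.sqrt 3 / 2 * δ n ^ 2 * |g (centre (δ n) (σ n v)) - g (τ (centre (δ n) v))|
          ≤ 1 * δ n ^ 2 * (ε / 2) := by gcongr
        _ = _ := by ring
    linarith [h1 (σ n v)]

end Near

/-! ### the six neighbours in the plane -/

theorem centre_sub (d : ℝ) (p q : ℤ × ℤ) : centre d (p - q) = centre d p - centre d q := by
  rw [centre_eq, centre_eq, centre_eq, cen_sub]
  push_cast [Prod.fst_sub, Prod.snd_sub]
  rfl

theorem cen_om (d : ℝ) (a b : ℝ) : cen d a b = d * (a + b * om) := by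
  unfold cen om
  rfl

theorem norm_centre_six {d : ℝ} (hd : 0 ≤ d) {e : ℤ × ℤ} (he : e ∈ six) : ‖centre d e‖ ≤ d := by
  apply le_of_sq_le_sq _ hd
  rw [centre_eq, norm_cen_sq]
  simp only [six, Finset.mem_insert, Finset.mem_singleton] at he
  have : N (e.1 : ℝ) (e.2 : ℝ) = 1 := by
    rcases he with rfl | rfl | rfl | rfl | rfl | rfl <;> norm_num [N]
  rw [this, mul_one]

theorem Dop_samp (d : ℝ) (ψ : ℂ → ℝ) (p : ℤ × ℤ) :
    Dop (fun v => ψ (centre d v)) p = -(1 / Real.sqrt 3 * lap7 d ψ (centre d p)) := by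
  unfold Dop lap7
  have e1 : centre d (p - (1, 0)) = centre d p - d * 1 := by
    rw [centre_sub, centre_eq d (1, 0), cen_om]; push_cast; ring_nf
  have e2 : centre d (p - (-1, 0)) = centre d p + d * 1 := by
    rw [centre_sub, centre_eq d (-1, 0), cen_om]; push_cast; ring_nf
  have e3 : centre d (p - (0, 1)) = centre d p - d * om := by
    rw [centre_sub, centre_eq d (0, 1), cen_om]; push_cast; ring_nf
  have e4 : centre d (p - (0, -1)) = centre d p + d * om := by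
    rw [centre_sub, centre_eq d (0, -1), cen_om]; push_cast; ring_nf
  have e5 : centre d (p - (1, -1)) = centre d p + d * (om - 1) := by
    rw [centre_sub, centre_eq d (1, -1), cen_om]; push_cast; ring_nf
  have e6 : centre d (p - (-1, 1)) = centre d p - d * (om - 1) := by
    rw [centre_sub, centre_eq d (-1, 1), cen_om]; push_cast; ring_nf
  beta_reduce
  rw [e1, e2, e3, e4, e5, e6]
  ring

/-- **the lattice Laplacian of a sampled function** -/
theorem near_Dop (hδ : ∀ n, 0 < δ n) (hδ0 : Tendsto δ atTop (𝓝 0)) {ψ : ℂ → ℝ}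
    (hψ : ContDiff ℝ ∞ ψ) (hc : HasCompactSupport ψ) :
    Near δ (fun n => Dop (fun v => ψ (centre (δ n) v))) (fun z => -(Δ ψ) z) := by
  obtain ⟨C, hC0, hC⟩ := lap7_sub_le hψ hc
  obtain ⟨R, hR⟩ := hc.isBounded.exists_norm_le
  have hR' : ∀ z, ψ z ≠ 0 → ‖z‖ ≤ R := fun z hz => hR z (subset_tsupport _ hz)
  refine ⟨⟨R + 1, ?_⟩, fun ε hε => ?_⟩
  · filter_upwards [hδ0.eventually (gt_mem_nhds (show (0 : ℝ) < 1 by norm_num))] with n hn v hv
    by_contra hcon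
    push Not at hcon
    apply hv
    have z0 : ∀ e ∈ six, ψ (centre (δ n) (v - e)) = 0 := by
      intro e he
      by_contra h1
      have h2 := hR' _ h1
      have h3 := norm_centre_six (hδ n).le he
      rw [centre_sub] at h2
      have h4 := norm_sub_norm_le (centre (δ n) v) (centre (δ n) e)
      linarith
    have z1 : ψ (centre (δ n) v) = 0 := by
      by_contra h1
      linarith [hR' _ h1]
    unfold Dop
    beta_reduce
    rw [z1, z0 _ (by decide), z0 _ (by decide), z0 _ (by decide), z0 _ (by decide),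
      z0 _ (by decide), z0 _ (by decide)]
    ring
  · have h3 : (0 : ℝ) < Real.sqrt 3 := by positivity
    have h31 : 1 / Real.sqrt 3 ≤ 1 := by
      rw [div_le_one h3]
      exact Real.one_le_sqrt.2 (by norm_num)
    have hlim : Tendsto (fun n => C * δ n ^ 2) atTop (𝓝 0) := by
      have := (hδ0.pow 2).const_mul C
      simpa using this
    filter_upwards [hlim.eventually (gt_mem_nhds hε)] with n hn v
    rw [Dop_samp]
    have h4 := hC (δ n) (centre (δ n) v) (hδ n).le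
    have e : -(1 / Real.sqrt 3 * lap7 (δ n) ψ (centre (δ n) v)) -
        Real.sqrt 3 / 2 * δ n ^ 2 * -(Δ ψ) (centre (δ n) v) =
        -(1 / Real.sqrt 3) * (lap7 (δ n) ψ (centre (δ n) v) -
          3 / 2 * δ n ^ 2 * (Δ ψ) (centre (δ n) v)) := by
      have h5 : Real.sqrt 3 * Real.sqrt 3 = 3 := Real.mul_self_sqrt (by norm_num)
      have h6 : 1 / Real.sqrt 3 * 3 = Real.sqrt 3 := by
        rw [one_div, inv_mul_eq_div, div_eq_iff h3.ne']; exact h5.symm
      linear_combination (-(δ n ^ 2 * (Δ ψ) (centre (δ n) v)) / 2) * h6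
    rw [e, abs_mul, abs_neg, abs_of_pos (by positivity : 0 < 1 / Real.sqrt 3)]
    calc 1 / Real.sqrt 3 * |lap7 (δ n) ψ (centre (δ n) v) - 3 / 2 * δ n ^ 2 * (Δ ψ) (centre (δ n) v)|
        ≤ 1 * (C * δ n ^ 4) := by gcongr
      _ = (C * δ n ^ 2) * δ n ^ 2 := by ring
      _ ≤ ε * δ n ^ 2 := mul_le_mul_of_nonneg_right hn.le (sq_nonneg _)

end Crest.Agent.R144.Cw643
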