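import Mathlib
import Crest.Agent.R144.Geo1_268
import Crest.Prelude.Def_TriHeights

-- ▼ part R144/Geo2_268
section

/-! R144 (helper268) GEO block, file 2: local structure of a `C¹` regular simple closed curve
(two sides, winding number jumps by `2π`). -/

set_option autoImplicit false

open Set Topology Filter Metric

namespace Crest.Agent.R144.Geo268

/-- regular simple closed `C¹` curve -/
structure Reg (γ : ℝ → ℂ) : Prop where
  cd : ContDiff ℝ 1 γ
  per : Function.Periodic γ (2 * Real.pi)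
  reg : ∀ s, deriv γ s ≠ 0
  inj : InjOn γ (Ico 0 (2 * Real.pi))

theorem Reg.cur {γ : ℝ → ℂ} (h : Reg γ) : Cur γ := ⟨h.cd.continuous, h.per⟩

theorem Reg.diff {γ : ℝ → ℂ} (h : Reg γ) : Differentiable ℝ γ :=
  h.cd.differentiable (by norm_num)

theorem Reg.contDeriv {γ : ℝ → ℂ} (h : Reg γ) : Continuous (deriv γ) :=
  h.cd.continuous_deriv (by norm_num)

theorem two_pi_pos' : (0 : ℝ) < 2 * Real.pi := by positivity

/-- injectivity modulo the period, for any simple closed curve -/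
theorem inj_mod {c : ℝ → ℂ} (hp : Function.Periodic c (2 * Real.pi))
    (hi : InjOn c (Ico 0 (2 * Real.pi))) {s t : ℝ} (h : c s = c t) :
    ∃ k : ℤ, s = t + k * (2 * Real.pi) := by
  have h1 : c (toIcoMod two_pi_pos' 0 s) = c s := by
    rw [toIcoMod]
    exact hp.sub_zsmul_eq _
  have h2 : c (toIcoMod two_pi_pos' 0 t) = c t := by
    rw [toIcoMod]
    exact hp.sub_zsmul_eq _
  have h3 : toIcoMod two_pi_pos' 0 s = toIcoMod two_pi_pos' 0 t := by
    apply hi
    · have := toIcoMod_mem_Ico two_pi_pos' 0 s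
      rwa [zero_add] at this
    · have := toIcoMod_mem_Ico two_pi_pos' 0 t
      rwa [zero_add] at this
    · rw [h1, h2, h]
  refine ⟨toIcoDiv two_pi_pos' 0 s - toIcoDiv two_pi_pos' 0 t, ?_⟩
  have e1 := toIcoMod_add_toIcoDiv_zsmul two_pi_pos' 0 s
  have e2 := toIcoMod_add_toIcoDiv_zsmul two_pi_pos' 0 t
  rw [zsmul_eq_mul] at e1 e2
  push_cast
  linarith

/-- points strictly inside a period interval are different from the end point -/
theorem ne_of_Ioo {c : ℝ → ℂ} (hp : Function.Periodic c (2 * Real.pi))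
    (hi : InjOn c (Ico 0 (2 * Real.pi))) {s t : ℝ} (h1 : t < s) (h2 : s < t + 2 * Real.pi) :
    c s ≠ c t := by
  intro h
  obtain ⟨k, hk⟩ := inj_mod hp hi h
  have hpi := two_pi_pos'
  have h3 : 0 < (k : ℝ) * (2 * Real.pi) := by linarith
  have h4 : (k : ℝ) * (2 * Real.pi) < 1 * (2 * Real.pi) := by linarith
  have h5 : (0 : ℝ) < k := pos_of_mul_pos_left h3 hpi.le
  have h6 : (k : ℝ) < 1 := lt_of_mul_lt_mul_right h4 hpi.le
  have h7 : (0 : ℤ) < k := by exact_mod_cast h5
  have h8 : k < (1 : ℤ) := by exact_mod_cast h6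
  omega

/-- almost isometry near `s0` in the coordinate `(z - γ s0) / γ' s0` -/
theorem Reg.almost {γ : ℝ → ℂ} (h : Reg γ) (s0 : ℝ) : ∃ ε > 0, ε < Real.pi ∧
    (∀ s ∈ Icc (s0 - ε) (s0 + ε), ‖deriv γ s / deriv γ s0 - 1‖ ≤ 1 / 4) ∧
    ∀ s ∈ Icc (s0 - ε) (s0 + ε), ∀ t ∈ Icc (s0 - ε) (s0 + ε),
      ‖(γ s - γ t) / deriv γ s0 - ((s - t : ℝ) : ℂ)‖ ≤ 1 / 4 * |s - t| := by
  have hτ := h.reg s0
  have hc : Continuous fun s => ‖deriv γ s / deriv γ s0 - 1‖ :=
    ((h.contDeriv.div_const _).sub continuous_const).norm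
  have h0 : ‖deriv γ s0 / deriv γ s0 - 1‖ < 1 / 4 := by
    rw [div_self hτ, sub_self, norm_zero]; norm_num
  obtain ⟨ε, hε, h1⟩ := Metric.eventually_nhds_iff.1 (hc.continuousAt.eventually (gt_mem_nhds h0))
  refine ⟨min (ε / 2) 1, by positivity, ?_, ?_, ?_⟩
  · have := Real.pi_gt_three
    have := min_le_right (ε / 2) 1
    linarith
  · intro s hs
    refine (h1 ?_).le
    rw [Real.dist_eq, abs_lt]
    have := min_le_left (ε / 2) 1
    constructor <;> linarith [hs.1, hs.2]
  · intro s hs t ht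
    have hd : ∀ x : ℝ, HasDerivAt (fun s : ℝ => γ s / deriv γ s0 - (s : ℂ))
        (deriv γ x / deriv γ s0 - 1) x := fun x =>
      (((h.diff x).hasDerivAt).div_const _).sub (Complex.ofRealCLM.hasDerivAt)
    have h2 := (convex_Icc (s0 - min (ε / 2) 1) (s0 + min (ε / 2) 1)).norm_image_sub_le_of_norm_hasDerivWithin_le
      (f := fun s : ℝ => γ s / deriv γ s0 - (s : ℂ)) (f' := fun x => deriv γ x / deriv γ s0 - 1)
      (C := 1 / 4) (fun x _ => (hd x).hasDerivWithinAt)
      (fun x hx => by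
        refine (h1 ?_).le
        rw [Real.dist_eq, abs_lt]
        have := min_le_left (ε / 2) 1
        constructor <;> linarith [hx.1, hx.2]) ht hs
    rw [Real.norm_eq_abs] at h2
    refine le_trans (le_of_eq ?_) h2
    congr 1
    push_cast
    ring

/-- the two-sided local structure of a regular simple closed curve -/
structure Loc (γ : ℝ → ℂ) (s0 e : ℝ) where
  B : Set ℂ
  L : Set ℂ
  R : Set ℂ
  δ : ℝ
  v : ℝ
  δpos : 0 < δ
  oB : IsOpen B
  memB : γ s0 ∈ B
  subB : B ⊆ ball (γ s0) e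
  pL : IsPreconnected L
  pR : IsPreconnected R
  LB : L ⊆ B
  RB : R ⊆ B
  cov : ∀ z ∈ B, z ∈ L ∨ z ∈ R ∨ z ∈ range γ
  dL : Disjoint L (range γ)
  dR : Disjoint R (range γ)
  left : ∀ s t : ℝ, |s - s0| < δ → 0 < t → t < δ → γ s + deriv γ s * (t * Complex.I) ∈ L
  right : ∀ s t : ℝ, |s - s0| < δ → 0 < t → t < δ → γ s - deriv γ s * (t * Complex.I) ∈ R
  coneL : ∀ ζ : ℂ, ‖ζ‖ < δ → |ζ.re| < 3 * ζ.im → γ s0 + deriv γ s0 * ζ ∈ L
  coneR : ∀ ζ : ℂ, ‖ζ‖ < δ → |ζ.re| < - (3 * ζ.im) → γ s0 + deriv γ s0 * ζ ∈ R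
  wL : ∀ z ∈ L, wn γ z = v + 2 * Real.pi
  wR : ∀ z ∈ R, wn γ z = v

set_option maxHeartbeats 1600000 in
theorem Reg.exists_loc {γ : ℝ → ℂ} (h : Reg γ) (s0 : ℝ) {e : ℝ} (he : 0 < e) :
    Nonempty (Loc γ s0 e) := by
  have hpi := Real.pi_pos
  have hτ := h.reg s0
  obtain ⟨ε, hε, hεπ, hd, hal⟩ := h.almost s0
  set τ := deriv γ s0 with hτdef
  set p := γ s0 with hp
  set ζ : ℝ → ℂ := fun s => (γ s - p) / τ with hζ
  have hζc : Continuous ζ := (h.cur.cont.sub continuous_const).div_const τ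
  have hζp : Function.Periodic ζ (2 * Real.pi) := fun s => by simp only [hζ, h.per s]
  have hζ0 : ζ s0 = 0 := by simp [hζ, hp]
  have hal' : ∀ s ∈ Icc (s0 - ε) (s0 + ε), ∀ t ∈ Icc (s0 - ε) (s0 + ε),
      ‖ζ s - ζ t - ((s - t : ℝ) : ℂ)‖ ≤ 1 / 4 * |s - t| := fun s hs t ht => by
    have e1 : ζ s - ζ t = (γ s - γ t) / τ := by simp only [hζ]; ring
    rw [e1]
    exact hal s hs t ht
  have hu : ∀ s ∈ Icc (s0 - ε) (s0 + ε), ∀ t ∈ Icc (s0 - ε) (s0 + ε),
      |(ζ s).re - (ζ t).re - (s - t)| ≤ 1 / 4 * |s - t| := fun s hs t ht => by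
    have h1 := (Complex.abs_re_le_norm _).trans (hal' s hs t ht)
    simpa using h1
  have hv : ∀ s ∈ Icc (s0 - ε) (s0 + ε), ∀ t ∈ Icc (s0 - ε) (s0 + ε),
      |(ζ s).im - (ζ t).im| ≤ 1 / 4 * |s - t| := fun s hs t ht => by
    have h1 := (Complex.abs_im_le_norm _).trans (hal' s hs t ht)
    simpa using h1
  have hs0 : s0 ∈ Icc (s0 - ε) (s0 + ε) := ⟨by linarith, by linarith⟩
  -- long arc
  obtain ⟨ρ, hρ, hlong⟩ : ∃ ρ > 0, ∀ s ∈ Icc (s0 + ε) (s0 + 2 * Real.pi - ε), ρ ≤ ‖ζ s‖ := by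
    have h1 : ContinuousOn (fun s => ‖ζ s‖) (Icc (s0 + ε) (s0 + 2 * Real.pi - ε)) :=
      hζc.norm.continuousOn
    obtain ⟨m, hm, hmin⟩ := isCompact_Icc.exists_isMinOn
      (nonempty_Icc.2 (by linarith : s0 + ε ≤ s0 + 2 * Real.pi - ε)) h1
    refine ⟨‖ζ m‖, norm_pos_iff.2 ?_, fun s hs => hmin hs⟩
    have := ne_of_Ioo h.per h.inj (s := m) (t := s0) (by linarith [hm.1]) (by linarith [hm.2])
    exact div_ne_zero (sub_ne_zero.2 this) hτ
  -- size of the box
  obtain ⟨r, hr, hrε, hrρ, hre⟩ : ∃ r > 0, r ≤ ε / 2 ∧ 2 * r ≤ ρ ∧ 2 * r * ‖τ‖ ≤ e := by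
    have hn : 0 < ‖τ‖ := norm_pos_iff.2 hτ
    refine ⟨min (ε / 2) (min (ρ / 2) (e / (2 * ‖τ‖))), by positivity, min_le_left _ _, ?_, ?_⟩
    · have := (min_le_right (ε / 2) (min (ρ / 2) (e / (2 * ‖τ‖)))).trans (min_le_left _ _)
      linarith
    · have := (min_le_right (ε / 2) (min (ρ / 2) (e / (2 * ‖τ‖)))).trans (min_le_right _ _)
      calc _ ≤ 2 * (e / (2 * ‖τ‖)) * ‖τ‖ := by gcongr
        _ = e := by field_simp
  -- the parameter as a function of the first coordinate
  have hex : ∀ u : ℝ, ∃ s : ℝ, u ∈ Icc (-r) r → s ∈ Icc (s0 - ε) (s0 + ε) ∧ (ζ s).re = u := by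
    intro u
    by_cases hur : u ∈ Icc (-r) r
    · have hc : ContinuousOn (fun s => (ζ s).re) (Icc (s0 - ε) (s0 + ε)) :=
        (Complex.continuous_re.comp hζc).continuousOn
      have h1 := hu (s0 - ε) ⟨le_rfl, by linarith⟩ s0 hs0
      have h2 := hu (s0 + ε) ⟨by linarith, le_rfl⟩ s0 hs0
      rw [hζ0, Complex.zero_re, sub_zero] at h1 h2
      have e1 : s0 - ε - s0 = -ε := by ring
      have e2 : s0 + ε - s0 = ε := by ring
      rw [e1, abs_neg, abs_of_pos hε, abs_le] at h1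
      rw [e2, abs_of_pos hε, abs_le] at h2
      obtain ⟨s, hs, hs2⟩ := intermediate_value_Icc (by linarith : s0 - ε ≤ s0 + ε) hc
        (⟨by dsimp only; linarith [hur.1, h1.2], by dsimp only; linarith [hur.2, h2.1]⟩ :
          u ∈ Icc ((fun s => (ζ s).re) (s0 - ε)) ((fun s => (ζ s).re) (s0 + ε)))
      exact ⟨s, fun _ => ⟨hs, hs2⟩⟩
    · exact ⟨0, fun h => absurd h hur⟩
  choose σ hσ using hex
  have hmono : ∀ s ∈ Icc (s0 - ε) (s0 + ε), ∀ t ∈ Icc (s0 - ε) (s0 + ε),
      |s - t| ≤ 4 / 3 * |(ζ s).re - (ζ t).re| := fun s hs t ht => by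
    have h1 := hu s hs t ht
    have h2 : |s - t| ≤ |(ζ s).re - (ζ t).re| + |(ζ s).re - (ζ t).re - (s - t)| := by
      have := abs_sub (( ζ s).re - (ζ t).re) ((ζ s).re - (ζ t).re - (s - t))
      refine le_trans (le_of_eq ?_) this
      congr 1
      ring
    linarith
  set g : ℝ → ℝ := fun u => (ζ (σ u)).im with hg
  have hg1 : ∀ u ∈ Icc (-r) r, ∀ w ∈ Icc (-r) r, |g u - g w| ≤ 1 / 3 * |u - w| := by
    intro u huu w hw
    obtain ⟨a1, a2⟩ := hσ u huu
    obtain ⟨b1, b2⟩ := hσ w hw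
    have h1 := hmono _ a1 _ b1
    have h2 := hv _ a1 _ b1
    rw [a2, b2] at h1
    linarith
  have hg2 : ∀ s ∈ Icc (s0 - ε) (s0 + ε), (ζ s).re ∈ Icc (-r) r → g (ζ s).re = (ζ s).im := by
    intro s hs hr'
    obtain ⟨a1, a2⟩ := hσ _ hr'
    have h1 := hmono _ a1 _ hs
    rw [a2, sub_self, abs_zero, mul_zero] at h1
    have h2 : σ (ζ s).re = s := by
      have := abs_nonpos_iff.1 h1
      linarith
    simp only [hg, h2]
  have h0r : (0 : ℝ) ∈ Icc (-r) r := ⟨by linarith, hr.le⟩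
  have hg0 : g 0 = 0 := by
    have := hg2 s0 hs0 (by rw [hζ0]; exact h0r)
    rwa [hζ0, Complex.zero_re, Complex.zero_im] at this
  have hg3 : ∀ u ∈ Icc (-r) r, |g u| ≤ 1 / 3 * |u| := fun u huu => by
    have := hg1 u huu 0 h0r
    rwa [hg0, sub_zero, sub_zero] at this
  have hgc : ContinuousOn g (Icc (-r) r) := by
    intro u huu
    rw [Metric.continuousWithinAt_iff]
    intro e' he'
    refine ⟨e', he', fun {w} hw hd' => ?_⟩
    rw [Real.dist_eq] at hd' ⊢
    have := hg1 w hw u huu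
    have := abs_nonneg (w - u)
    linarith
  -- the coordinate
  set Z : ℂ → ℂ := fun z => (z - p) / τ with hZ
  have hZc : Continuous Z := (continuous_id.sub continuous_const).div_const τ
  have hZi : ∀ w : ℂ, Z (p + τ * w) = w := fun w => by
    simp only [hZ]
    field_simp
    ring
  have hZi' : ∀ z : ℂ, p + τ * Z z = z := fun z => by
    simp only [hZ]
    field_simp
    ring
  set B : Set ℂ := {z | |(Z z).re| < r ∧ |(Z z).im| < r} with hB
  set L : Set ℂ := {z | z ∈ B ∧ g (Z z).re < (Z z).im} with hL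
  set R : Set ℂ := {z | z ∈ B ∧ (Z z).im < g (Z z).re} with hR
  have hIoo : ∀ {x : ℝ}, |x| < r → x ∈ Icc (-r) r := fun {x} hx => by
    rw [abs_lt] at hx
    exact ⟨hx.1.le, hx.2.le⟩
  have hnorm : ∀ z ∈ B, ‖Z z‖ < 2 * r := fun z hz => by
    have := Complex.norm_le_abs_re_add_abs_im (Z z)
    linarith [hz.1, hz.2]
  have hoff : ∀ z ∈ B, g (Z z).re ≠ (Z z).im → z ∉ range γ := by
    rintro z hz hne ⟨s, rfl⟩
    obtain ⟨y, hy, hxy⟩ := h.per.exists_mem_Ico two_pi_pos' s (s0 - ε)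
    rw [hxy] at hz hne
    have h3 : Z (γ y) = ζ y := rfl
    rcases le_total y (s0 + ε) with h4 | h4
    · apply hne
      rw [h3]
      refine hg2 y ⟨hy.1, h4⟩ ?_
      rw [← h3]
      exact hIoo hz.1
    · have h5 := hlong y ⟨h4, by linarith [hy.2]⟩
      have h6 := hnorm _ hz
      rw [h3] at h6
      linarith
  have hdL : Disjoint L (range γ) := disjoint_left.2 fun z hz => hoff z hz.1 hz.2.ne
  have hdR : Disjoint R (range γ) := disjoint_left.2 fun z hz => hoff z hz.1 hz.2.ne'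
  have hgr : ∀ u ∈ Ioo (-r) r, |g u| < r := fun u huu => by
    have h1 := hg3 u ⟨huu.1.le, huu.2.le⟩
    have h2 : |u| < r := abs_lt.2 ⟨huu.1, huu.2⟩
    have := abs_nonneg u
    linarith
  have hprod : IsPreconnected (Ioo (-r) r ×ˢ Ioo (0 : ℝ) 1) :=
    isPreconnected_Ioo.prod isPreconnected_Ioo
  have hpL : IsPreconnected L := by
    have hΦ : ContinuousOn (fun q : ℝ × ℝ => p + τ * ((q.1 : ℂ) +
        ((g q.1 + q.2 * (r - g q.1) : ℝ) : ℂ) * Complex.I)) (Ioo (-r) r ×ˢ Ioo (0 : ℝ) 1) := by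
      have hg' : ContinuousOn (fun q : ℝ × ℝ => g q.1) (Ioo (-r) r ×ˢ Ioo (0 : ℝ) 1) :=
        hgc.comp continuousOn_fst (fun q hq => Ioo_subset_Icc_self hq.1)
      refine continuousOn_const.add (continuousOn_const.mul (ContinuousOn.add ?_ ?_))
      · exact (Complex.continuous_ofReal.comp continuous_fst).continuousOn
      · refine ContinuousOn.mul ?_ continuousOn_const
        refine Complex.continuous_ofReal.comp_continuousOn ?_
        exact hg'.add (continuousOn_snd.mul (continuousOn_const.sub hg'))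
    have him : L = (fun q : ℝ × ℝ => p + τ * ((q.1 : ℂ) +
        ((g q.1 + q.2 * (r - g q.1) : ℝ) : ℂ) * Complex.I)) '' (Ioo (-r) r ×ˢ Ioo (0 : ℝ) 1) := by
      apply subset_antisymm
      · rintro z ⟨hz, hz2⟩
        have hz1 := abs_lt.1 hz.1
        have hz3 := abs_lt.1 hz.2
        have hgz := abs_lt.1 (hgr (Z z).re hz1)
        have hpos : 0 < r - g (Z z).re := by linarith [hgz.2]
        refine ⟨((Z z).re, ((Z z).im - g (Z z).re) / (r - g (Z z).re)), ⟨hz1, ?_, ?_⟩, ?_⟩
        · exact div_pos (by linarith) hpos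
        · dsimp only
          rw [div_lt_one hpos]
          linarith [hz3.2]
        · dsimp only
          rw [div_mul_cancel₀ _ hpos.ne', add_sub_cancel, Complex.re_add_im]
          exact hZi' z
      · rintro _ ⟨⟨u, θ⟩, ⟨hq1, hq2⟩, rfl⟩
        dsimp only at hq1 hq2 ⊢
        have hgz := abs_lt.1 (hgr u hq1)
        have hpos : 0 < r - g u := by linarith [hgz.2]
        have e1 : Z (p + τ * ((u : ℂ) + ((g u + θ * (r - g u) : ℝ) : ℂ) * Complex.I)) =
          (u : ℂ) + ((g u + θ * (r - g u) : ℝ) : ℂ) * Complex.I := hZi _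
        have e2 : (Z (p + τ * ((u : ℂ) + ((g u + θ * (r - g u) : ℝ) : ℂ) * Complex.I))).re = u := by
          rw [e1]; simp
        have e3 : (Z (p + τ * ((u : ℂ) + ((g u + θ * (r - g u) : ℝ) : ℂ) * Complex.I))).im =
          g u + θ * (r - g u) := by
          rw [e1]; simp
        have h4 : 0 < θ * (r - g u) := mul_pos hq2.1 hpos
        have h5 : θ * (r - g u) < 1 * (r - g u) := by
          apply mul_lt_mul_of_pos_right hq2.2 hpos
        refine ⟨⟨?_, ?_⟩, ?_⟩
        · rw [e2]; exact abs_lt.2 ⟨hq1.1, hq1.2⟩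
        · rw [e3, abs_lt]; constructor <;> linarith [hgz.1]
        · rw [e2, e3]; linarith
    rw [him]
    exact hprod.image _ hΦ
  have hpR : IsPreconnected R := by
    have hΦ : ContinuousOn (fun q : ℝ × ℝ => p + τ * ((q.1 : ℂ) +
        ((g q.1 - q.2 * (r + g q.1) : ℝ) : ℂ) * Complex.I)) (Ioo (-r) r ×ˢ Ioo (0 : ℝ) 1) := by
      have hg' : ContinuousOn (fun q : ℝ × ℝ => g q.1) (Ioo (-r) r ×ˢ Ioo (0 : ℝ) 1) :=
        hgc.comp continuousOn_fst (fun q hq => Ioo_subset_Icc_self hq.1)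
      refine continuousOn_const.add (continuousOn_const.mul (ContinuousOn.add ?_ ?_))
      · exact (Complex.continuous_ofReal.comp continuous_fst).continuousOn
      · refine ContinuousOn.mul ?_ continuousOn_const
        refine Complex.continuous_ofReal.comp_continuousOn ?_
        exact hg'.sub (continuousOn_snd.mul (continuousOn_const.add hg'))
    have him : R = (fun q : ℝ × ℝ => p + τ * ((q.1 : ℂ) +
        ((g q.1 - q.2 * (r + g q.1) : ℝ) : ℂ) * Complex.I)) '' (Ioo (-r) r ×ˢ Ioo (0 : ℝ) 1) := by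
      apply subset_antisymm
      · rintro z ⟨hz, hz2⟩
        have hz1 := abs_lt.1 hz.1
        have hz3 := abs_lt.1 hz.2
        have hgz := abs_lt.1 (hgr (Z z).re hz1)
        have hpos : 0 < r + g (Z z).re := by linarith [hgz.1]
        refine ⟨((Z z).re, (g (Z z).re - (Z z).im) / (r + g (Z z).re)), ⟨hz1, ?_, ?_⟩, ?_⟩
        · exact div_pos (by linarith) hpos
        · dsimp only
          rw [div_lt_one hpos]
          linarith [hz3.1]
        · dsimp only
          rw [div_mul_cancel₀ _ hpos.ne', sub_sub_cancel, Complex.re_add_im]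
          exact hZi' z
      · rintro _ ⟨⟨u, θ⟩, ⟨hq1, hq2⟩, rfl⟩
        dsimp only at hq1 hq2 ⊢
        have hgz := abs_lt.1 (hgr u hq1)
        have hpos : 0 < r + g u := by linarith [hgz.1]
        have e1 : Z (p + τ * ((u : ℂ) + ((g u - θ * (r + g u) : ℝ) : ℂ) * Complex.I)) =
          (u : ℂ) + ((g u - θ * (r + g u) : ℝ) : ℂ) * Complex.I := hZi _
        have e2 : (Z (p + τ * ((u : ℂ) + ((g u - θ * (r + g u) : ℝ) : ℂ) * Complex.I))).re = u := by
          rw [e1]; simp
        have e3 : (Z (p + τ * ((u : ℂ) + ((g u - θ * (r + g u) : ℝ) : ℂ) * Complex.I))).im =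
          g u - θ * (r + g u) := by
          rw [e1]; simp
        have h4 : 0 < θ * (r + g u) := mul_pos hq2.1 hpos
        have h5 : θ * (r + g u) < 1 * (r + g u) := by
          apply mul_lt_mul_of_pos_right hq2.2 hpos
        refine ⟨⟨?_, ?_⟩, ?_⟩
        · rw [e2]; exact abs_lt.2 ⟨hq1.1, hq1.2⟩
        · rw [e3, abs_lt]; constructor <;> linarith [hgz.2]
        · rw [e2, e3]; linarith
    rw [him]
    exact hprod.image _ hΦ
  have hleft : ∀ s t : ℝ, |s - s0| < r / 4 → 0 < t → t < r / 4 →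
      γ s + deriv γ s * (t * Complex.I) ∈ L ∧ γ s - deriv γ s * (t * Complex.I) ∈ R := by
    intro s t hs ht ht'
    have hsI : s ∈ Icc (s0 - ε) (s0 + ε) := by
      have := abs_lt.1 hs
      constructor <;> linarith
    have hη := hd s hsI
    set η := deriv γ s / τ with hηd
    have hη' : deriv γ s = τ * η := by
      rw [hηd]; field_simp
    have hηre := abs_le.1 ((Complex.abs_re_le_norm _).trans hη)
    have hηim := abs_le.1 ((Complex.abs_im_le_norm _).trans hη)
    rw [Complex.sub_re, Complex.one_re] at hηre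
    rw [Complex.sub_im, Complex.one_im, sub_zero] at hηim
    have h1 := hu s hsI s0 hs0
    have h2 := hv s hsI s0 hs0
    rw [hζ0, Complex.zero_re, sub_zero] at h1
    rw [hζ0, Complex.zero_im, sub_zero] at h2
    have h1' := abs_le.1 h1
    have h2' := abs_le.1 h2
    have hs' := abs_lt.1 hs
    have hure : |(ζ s).re| < r := by
      rw [abs_lt]
      constructor <;> linarith
    have hgs := hg2 s hsI (hIoo hure)
    have e1 : Z (γ s + deriv γ s * (t * Complex.I)) = ζ s + η * (t * Complex.I) := by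
      simp only [hZ, hζ, hη']
      field_simp
      ring
    have e2 : Z (γ s - deriv γ s * (t * Complex.I)) = ζ s - η * (t * Complex.I) := by
      simp only [hZ, hζ, hη']
      field_simp
      ring
    have e3 : (ζ s + η * (t * Complex.I)).re = (ζ s).re - t * η.im := by
      simp [Complex.add_re, Complex.mul_re]; ring
    have e4 : (ζ s + η * (t * Complex.I)).im = (ζ s).im + t * η.re := by
      simp [Complex.add_im, Complex.mul_im]; ring
    have e5 : (ζ s - η * (t * Complex.I)).re = (ζ s).re + t * η.im := by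
      simp [Complex.sub_re, Complex.mul_re]; ring
    have e6 : (ζ s - η * (t * Complex.I)).im = (ζ s).im - t * η.re := by
      simp [Complex.sub_im, Complex.mul_im]; ring
    have b1 : t * η.im ≤ 1 / 4 * t := by nlinarith [hηim.2]
    have b2 : -(1 / 4 * t) ≤ t * η.im := by nlinarith [hηim.1]
    have b3 : t * η.re ≤ 5 / 4 * t := by nlinarith [hηre.2]
    have b4 : 3 / 4 * t ≤ t * η.re := by nlinarith [hηre.1]
    have c1 : |(ζ s).re - t * η.im| < r := by rw [abs_lt]; constructor <;> linarith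
    have c2 : |(ζ s).im + t * η.re| < r := by rw [abs_lt]; constructor <;> linarith
    have c3 : |(ζ s).re + t * η.im| < r := by rw [abs_lt]; constructor <;> linarith
    have c4 : |(ζ s).im - t * η.re| < r := by rw [abs_lt]; constructor <;> linarith
    have d1 := hg1 _ (hIoo c1) _ (hIoo hure)
    have d2 := hg1 _ (hIoo c3) _ (hIoo hure)
    have f1 : |(ζ s).re - t * η.im - (ζ s).re| ≤ 1 / 4 * t := by
      rw [abs_le]; constructor <;> linarith
    have f2 : |(ζ s).re + t * η.im - (ζ s).re| ≤ 1 / 4 * t := by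
      rw [abs_le]; constructor <;> linarith
    rw [hgs] at d1 d2
    have g1 := abs_le.1 d1
    have g2 := abs_le.1 d2
    refine ⟨⟨⟨?_, ?_⟩, ?_⟩, ⟨⟨?_, ?_⟩, ?_⟩⟩
    · rw [e1, e3]; exact c1
    · rw [e1, e4]; exact c2
    · rw [e1, e3, e4]; linarith [g1.2]
    · rw [e2, e5]; exact c3
    · rw [e2, e6]; exact c4
    · rw [e2, e5, e6]; linarith [g2.1]
  have hcone : ∀ w : ℂ, ‖w‖ < r / 4 → (|w.re| < 3 * w.im → p + τ * w ∈ L) ∧
      (|w.re| < - (3 * w.im) → p + τ * w ∈ R) := by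
    intro w hw
    have h1 := (Complex.abs_re_le_norm w).trans_lt hw
    have h2 := (Complex.abs_im_le_norm w).trans_lt hw
    have h1' : |w.re| < r := by linarith
    have h2' : |w.im| < r := by linarith
    have h3 := abs_le.1 (hg3 _ (hIoo h1'))
    refine ⟨fun h4 => ⟨⟨?_, ?_⟩, ?_⟩, fun h4 => ⟨⟨?_, ?_⟩, ?_⟩⟩
    · rw [hZi]; exact h1'
    · rw [hZi]; exact h2'
    · rw [hZi]; linarith [h3.2]
    · rw [hZi]; exact h1'
    · rw [hZi]; exact h2'
    · rw [hZi]; linarith [h3.1]
  -- the jump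
  have hjump : wn γ (p + τ * ((r / 8 : ℝ) * Complex.I)) =
      wn γ (p - τ * ((r / 8 : ℝ) * Complex.I)) + 2 * Real.pi := by
    refine wn_jump h.cur hτ (t := r / 8) (a := s0 - r / 16) (b := s0 + r / 16) (by positivity)
      (by linarith) (by linarith) ?_ ?_ ?_ ?_
    · intro s hs
      have hsI : s ∈ Icc (s0 - ε) (s0 + ε) := ⟨by linarith [hs.1], by linarith [hs.2]⟩
      have h1 := hal' s hsI s0 hs0
      rw [hζ0, sub_zero] at h1
      have h2 : |s - s0| ≤ r / 16 := by
        rw [abs_le]; constructor <;> linarith [hs.1, hs.2]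
      have h3 : ‖ζ s‖ ≤ ‖ζ s - ((s - s0 : ℝ) : ℂ)‖ + ‖((s - s0 : ℝ) : ℂ)‖ := norm_le_norm_sub_add _ _
      rw [Complex.norm_real, Real.norm_eq_abs] at h3
      change ‖ζ s‖ < r / 8
      linarith
    · intro s hs v hvr
      change ζ s ≠ _
      intro heq
      have hre0 : (ζ s).re = 0 := by rw [heq]; simp
      have hnm : ‖ζ s‖ ≤ r / 8 := by
        rw [heq, norm_mul, Complex.norm_I, mul_one, Complex.norm_real, Real.norm_eq_abs]
        exact hvr
      rcases le_total s (s0 + ε) with h4 | h4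
      · have hsI : s ∈ Icc (s0 - ε) (s0 + ε) := ⟨by linarith [hs.1], h4⟩
        have h1 := hmono s hsI s0 hs0
        rw [hre0, hζ0, Complex.zero_re, sub_self, abs_zero, mul_zero] at h1
        have := abs_nonpos_iff.1 h1
        linarith [hs.1]
      · rcases le_total s (s0 + 2 * Real.pi - ε) with h5 | h5
        · have := hlong s ⟨h4, h5⟩
          linarith
        · have hsI : s - 2 * Real.pi ∈ Icc (s0 - ε) (s0 + ε) :=
            ⟨by linarith, by linarith [hs.2]⟩
          have h1 := hmono _ hsI s0 hs0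
          have h6 : ζ (s - 2 * Real.pi) = ζ s := hζp.sub_eq s
          rw [h6, hre0, hζ0, Complex.zero_re, sub_self, abs_zero, mul_zero] at h1
          have := abs_nonpos_iff.1 h1
          linarith [hs.2]
    · have hsI : s0 - r / 16 ∈ Icc (s0 - ε) (s0 + ε) := ⟨by linarith, by linarith⟩
      have h1 := hu _ hsI s0 hs0
      have e1 : s0 - r / 16 - s0 = - (r / 16) := by ring
      rw [hζ0, Complex.zero_re, sub_zero, e1, abs_neg, abs_of_pos (by positivity : (0:ℝ) < r / 16), abs_le] at h1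
      change (ζ (s0 - r / 16)).re < 0
      linarith [h1.2]
    · have hsI : s0 + r / 16 ∈ Icc (s0 - ε) (s0 + ε) := ⟨by linarith, by linarith⟩
      have h1 := hu _ hsI s0 hs0
      have e1 : s0 + r / 16 - s0 = r / 16 := by ring
      rw [hζ0, Complex.zero_re, sub_zero, e1, abs_of_pos (by positivity : (0:ℝ) < r / 16), abs_le] at h1
      change 0 < (ζ (s0 + r / 16)).re
      linarith [h1.1]
  have hmem := hleft s0 (r / 8) (by simp; positivity) (by positivity) (by linarith)
  refine ⟨{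
    B := B, L := L, R := R, δ := r / 4, v := wn γ (p - τ * ((r / 8 : ℝ) * Complex.I))
    δpos := by positivity
    oB := ?_, memB := ?_, subB := ?_, pL := hpL, pR := hpR, LB := fun z hz => hz.1
    RB := fun z hz => hz.1, cov := ?_, dL := hdL, dR := hdR
    left := fun s t h1 h2 h3 => (hleft s t h1 h2 h3).1
    right := fun s t h1 h2 h3 => (hleft s t h1 h2 h3).2
    coneL := fun w h1 h2 => (hcone w h1).1 h2
    coneR := fun w h1 h2 => (hcone w h1).2 h2
    wL := ?_, wR := ?_ }⟩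
  · exact (isOpen_lt (continuous_abs.comp (Complex.continuous_re.comp hZc)) continuous_const).inter
      (isOpen_lt (continuous_abs.comp (Complex.continuous_im.comp hZc)) continuous_const)
  · have : Z p = 0 := by simp [hZ]
    exact ⟨by rw [this]; simpa using hr, by rw [this]; simpa using hr⟩
  · intro z hz
    rw [mem_ball, dist_eq_norm]
    have h1 := hnorm z hz
    have h2 : ‖z - p‖ = ‖Z z‖ * ‖τ‖ := by
      simp only [hZ]
      rw [norm_div, div_mul_cancel₀ _ (norm_ne_zero_iff.2 hτ)]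
    rw [h2]
    calc ‖Z z‖ * ‖τ‖ < 2 * r * ‖τ‖ := by
          apply mul_lt_mul_of_pos_right h1 (norm_pos_iff.2 hτ)
      _ ≤ e := hre
  · intro z hz
    rcases lt_trichotomy (g (Z z).re) (Z z).im with h1 | h1 | h1
    · exact Or.inl ⟨hz, h1⟩
    · refine Or.inr (Or.inr ⟨σ (Z z).re, ?_⟩)
      obtain ⟨a1, a2⟩ := hσ _ (hIoo hz.1)
      have h2 : ζ (σ (Z z).re) = Z z := Complex.ext a2 h1
      have h3 : γ (σ (Z z).re) = p + τ * ζ (σ (Z z).re) := by
        simp only [hζ]
        field_simp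
        ring
      rw [h3, h2]
      exact hZi' z
    · exact Or.inr (Or.inl ⟨hz, h1⟩)
  · intro z hz
    rw [← hjump]
    exact wn_const h.cur hpL hdL hz hmem.1
  · intro z hz
    exact wn_const h.cur hpR hdR hz hmem.2

end Crest.Agent.R144.Geo268
end

-- ▼ part R144/Geo3_268

/-! R144 (helper268) GEO block, file 3: winding numbers of the boundary curve of a `C¹` Jordan
domain: `± 2π` (one sign) inside, `0` outside the closure. -/

set_option autoImplicit false

open Set Topology Filter Metric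

namespace Crest.Agent.R144.Geo268

/-- bounded connected open set whose frontier is a regular simple closed curve -/
structure Dom (D : Set ℂ) (γ : ℝ → ℂ) : Prop where
  reg : Reg γ
  op : IsOpen D
  bdd : Bornology.IsBounded D
  conn : IsConnected D
  fr : range γ = frontier D

theorem dom_of_C2 {D : Set ℂ} {γ : ℝ → ℂ} (h : Crest.ProbabilityR.HexHeights.IsC2JordanDomain D γ) :
    Dom D γ :=
  ⟨⟨h.2.2.2.1.of_le (by norm_num), h.2.2.2.2.1, h.2.2.2.2.2.1, h.2.2.2.2.2.2.1⟩, h.1, h.2.1,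
    h.2.2.1, h.2.2.2.2.2.2.2⟩

theorem dom_of_marked {D : Set ℂ} {γ : ℝ → ℂ} {θ : ℝ}
    (h : Crest.ProbabilityR.TriHeights.IsSmoothMarkedDomain D γ θ) : Dom D γ :=
  ⟨⟨h.2.2.2.1.of_le (by exact_mod_cast le_top), h.2.2.2.2.1, h.2.2.2.2.2.1, h.2.2.2.2.2.2.1⟩,
    h.1, h.2.1, h.2.2.1, h.2.2.2.2.2.2.2.1⟩

/-- the right value is the same at all points of the curve -/
theorem Reg.exists_v {γ : ℝ → ℂ} (h : Reg γ) : ∃ v : ℝ, ∀ (s e : ℝ) (l : Loc γ s e), l.v = v := by
  have huniq : ∀ (s e s' e' : ℝ) (l : Loc γ s e) (l' : Loc γ s' e'), |s' - s| < l.δ →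
      l'.v = l.v := by
    intro s e s' e' l l' hs
    set t := min l.δ l'.δ / 2 with ht
    have h0 : 0 < min l.δ l'.δ := lt_min l.δpos l'.δpos
    have h1 : t < l.δ := by
      have := min_le_left l.δ l'.δ
      linarith
    have h2 : t < l'.δ := by
      have := min_le_right l.δ l'.δ
      linarith
    have h3 : 0 < t := by positivity
    have h4 := l.wR _ (l.right s' t hs h3 h1)
    have h5 := l'.wR _ (l'.right s' t (by rw [sub_self, abs_zero]; exact l'.δpos) h3 h2)
    rw [← h4, ← h5]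
  choose l _ using fun s : ℝ => (nonempty_iff_univ_nonempty.1 (h.exists_loc s one_pos))
  have hc : ∀ s : ℝ, (l s).v = (l 0).v := by
    have hloc : IsLocallyConstant fun s : ℝ => (l s).v := by
      rw [IsLocallyConstant.iff_eventually_eq]
      intro s
      filter_upwards [Metric.ball_mem_nhds s (l s).δpos] with s' hs'
      rw [mem_ball, Real.dist_eq] at hs'
      exact huniq _ _ _ _ (l s) (l s') hs'
    exact fun s => hloc.apply_eq_of_isPreconnected isPreconnected_univ (mem_univ _) (mem_univ _)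
  refine ⟨(l 0).v, fun s e l' => ?_⟩
  rw [← hc s]
  exact huniq s 1 s e (l s) l' (by rw [sub_self, abs_zero]; exact (l s).δpos)

namespace Dom

variable {D : Set ℂ} {γ : ℝ → ℂ}

theorem disj (h : Dom D γ) : Disjoint D (range γ) := by
  rw [h.fr, disjoint_iff_inter_eq_empty]
  exact h.op.inter_frontier_eq

theorem ext_disj (h : Dom D γ) : Disjoint (closure D)ᶜ (range γ) := by
  rw [h.fr, disjoint_left]
  intro z hz hz'
  exact hz (frontier_subset_closure hz')

/-- a preconnected set off the curve which meets `D` is inside `D` -/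
theorem sub_of_meets (h : Dom D γ) {S : Set ℂ} (hS : IsPreconnected S) (hd : Disjoint S (range γ))
    {z : ℂ} (hz : z ∈ S) (hzD : z ∈ D) : S ⊆ D := by
  refine hS.subset_left_of_subset_union h.op isClosed_closure.isOpen_compl
    (disjoint_left.2 fun w hw hw' => hw' (subset_closure hw)) (fun w hw => ?_) ⟨z, hz, hzD⟩
  by_cases h1 : w ∈ closure D
  · left
    by_contra h2
    have h3 : w ∈ frontier D := by
      rw [frontier, h.op.interior_eq]
      exact ⟨h1, h2⟩
    rw [← h.fr] at h3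
    exact disjoint_left.1 hd hw h3
  · exact Or.inr h1

/-- `D` meets the box at every boundary point -/
theorem meets (h : Dom D γ) {s e : ℝ} (l : Loc γ s e) : ∃ z ∈ D, z ∈ l.B := by
  have h1 : γ s ∈ closure D := frontier_subset_closure (h.fr ▸ mem_range_self s)
  obtain ⟨z, hz, hz'⟩ := mem_closure_iff.1 h1 l.B l.oB l.memB
  exact ⟨z, hz', hz⟩

/-- `D` contains one side at every boundary point -/
theorem side (h : Dom D γ) {s e : ℝ} (l : Loc γ s e) : l.L ⊆ D ∨ l.R ⊆ D := by
  obtain ⟨z, hz, hzB⟩ := h.meets l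
  rcases l.cov z hzB with h1 | h1 | h1
  · exact Or.inl (h.sub_of_meets l.pL l.dL h1 hz)
  · exact Or.inr (h.sub_of_meets l.pR l.dR h1 hz)
  · exact absurd h1 (disjoint_left.1 h.disj hz)

theorem const_D (h : Dom D γ) {z z' : ℂ} (hz : z ∈ D) (hz' : z' ∈ D) : wn γ z = wn γ z' :=
  wn_const h.reg.cur h.conn.isPreconnected h.disj hz hz'

theorem L_mem {s e : ℝ} (l : Loc γ s e) : γ s + deriv γ s * ((l.δ / 2 : ℝ) * Complex.I) ∈ l.L := by
  have := l.δpos
  exact l.left s (l.δ / 2) (by rw [sub_self, abs_zero]; exact this) (by positivity) (by linarith)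

theorem R_mem {s e : ℝ} (l : Loc γ s e) : γ s - deriv γ s * ((l.δ / 2 : ℝ) * Complex.I) ∈ l.R := by
  have := l.δpos
  exact l.right s (l.δ / 2) (by rw [sub_self, abs_zero]; exact this) (by positivity) (by linarith)

/-- not both sides are inside -/
theorem not_both (h : Dom D γ) {s e : ℝ} (l : Loc γ s e) : ¬ (l.L ⊆ D ∧ l.R ⊆ D) := by
  rintro ⟨h1, h2⟩
  have h3 := h.const_D (h1 (L_mem l)) (h2 (R_mem l))
  rw [l.wL _ (L_mem l), l.wR _ (R_mem l)] at h3
  have := Real.pi_pos
  linarith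

/-- values next to the curve and the value inside -/
theorem main (h : Dom D γ) : ∃ v : ℝ, (∀ (s e : ℝ) (l : Loc γ s e), l.v = v) ∧
    ((v = 0 ∧ ∀ z ∈ D, wn γ z = 2 * Real.pi) ∨
      (v = - (2 * Real.pi) ∧ ∀ z ∈ D, wn γ z = - (2 * Real.pi))) := by
  obtain ⟨v, hv⟩ := h.reg.exists_v
  refine ⟨v, hv, ?_⟩
  -- an extreme point
  obtain ⟨s1, -, hs1⟩ := (isCompact_Icc (a := (0 : ℝ)) (b := 2 * Real.pi)).exists_isMaxOn
    (nonempty_Icc.2 pi2) (Complex.continuous_re.comp h.reg.cur.cont).continuousOn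
  have hmax : ∀ s, (γ s).re ≤ (γ s1).re := fun s => by
    obtain ⟨t, ht, hts⟩ := h.reg.cur.exists_Ico s
    rw [← hts]
    exact hs1 (Ico_subset_Icc_self ht)
  set H : Set ℂ := {z | (γ s1).re < z.re} with hH
  have hHc : IsPreconnected H := (convex_halfSpace_re_gt _).isPreconnected
  have hHd : Disjoint H (range γ) := disjoint_left.2 (by
    rintro _ hz ⟨s, rfl⟩
    exact absurd (hmax s) (not_le.2 hz))
  have hHu : ¬ Bornology.IsBounded H := by
    intro hb
    obtain ⟨M, hM⟩ := hb.exists_norm_le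
    have h1 := hM (((|(γ s1).re| + |M| + 1 : ℝ)) : ℂ) (by
      simp only [hH, mem_ofPred_eq, Complex.ofReal_re]
      have := le_abs_self (γ s1).re
      have := abs_nonneg M
      linarith)
    rw [Complex.norm_real, Real.norm_eq_abs, abs_of_pos (by positivity)] at h1
    have := le_abs_self M
    have := abs_nonneg (γ s1).re
    linarith
  have hHD : ∀ z ∈ H, z ∉ D := fun z hz hzD =>
    hHu (h.bdd.subset (h.sub_of_meets hHc hHd hz hzD))
  obtain ⟨l⟩ := h.reg.exists_loc s1 one_pos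
  -- a point of `H` in the box
  obtain ⟨w, hwH, hwB⟩ : ∃ w ∈ H, w ∈ l.B := by
    obtain ⟨r, hr, hr'⟩ := Metric.isOpen_iff.1 l.oB _ l.memB
    refine ⟨γ s1 + ((r / 2 : ℝ) : ℂ), ?_, hr' ?_⟩
    · simp only [hH, mem_ofPred_eq, Complex.add_re, Complex.ofReal_re]
      linarith
    · rw [mem_ball, dist_eq_norm, add_sub_cancel_left, Complex.norm_real, Real.norm_eq_abs,
        abs_of_pos (by positivity)]
      linarith
  have hw0 : wn γ w = 0 := wn_unbounded h.reg.cur hHc hHd hHu hwH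
  have hpi := Real.pi_pos
  rcases l.cov w hwB with h1 | h1 | h1
  · right
    have h2 := l.wL w h1
    rw [hw0, hv] at h2
    have h3 : v = - (2 * Real.pi) := by linarith
    refine ⟨h3, fun z hz => ?_⟩
    rcases h.side l with h4 | h4
    · exact absurd (h4 h1) (hHD w hwH)
    · rw [h.const_D hz (h4 (R_mem l)), l.wR _ (R_mem l), hv, h3]
  · left
    have h2 := l.wR w h1
    rw [hw0, hv] at h2
    refine ⟨h2.symm, fun z hz => ?_⟩
    rcases h.side l with h4 | h4
    · rw [h.const_D hz (h4 (L_mem l)), l.wL _ (L_mem l), hv, ← h2, zero_add]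
    · exact absurd (h4 h1) (hHD w hwH)
  · exact absurd h1 (disjoint_left.1 hHd hwH)

/-- (W1) -/
theorem wn_inside (h : Dom D γ) : ∃ v : ℝ, (v = 2 * Real.pi ∨ v = - (2 * Real.pi)) ∧
    ∀ z ∈ D, wn γ z = v := by
  obtain ⟨v, -, h1 | h1⟩ := h.main
  · exact ⟨_, Or.inl rfl, h1.2⟩
  · exact ⟨_, Or.inr rfl, h1.2⟩

theorem wn_inside_ne (h : Dom D γ) {z : ℂ} (hz : z ∈ D) : wn γ z ≠ 0 := by
  have := Real.pi_pos
  obtain ⟨v, h1 | h1, h2⟩ := h.wn_inside
  · rw [h2 z hz, h1]; positivity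
  · rw [h2 z hz, h1]; exact neg_ne_zero.2 (by positivity)

/-- (W2) winding number `0` outside the closure -/
theorem wn_outside (h : Dom D γ) {z : ℂ} (hz : z ∉ closure D) : wn γ z = 0 := by
  set E : Set ℂ := (closure D)ᶜ with hE
  have hEo : IsOpen E := isClosed_closure.isOpen_compl
  set Q := connectedComponentIn E z with hQ
  have hzE : z ∈ E := hz
  have hQE : Q ⊆ E := connectedComponentIn_subset E z
  have hQo : IsOpen Q := hEo.connectedComponentIn
  have hQp : IsPreconnected Q := isPreconnected_connectedComponentIn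
  have hzQ : z ∈ Q := mem_connectedComponentIn hzE
  have hQd : Disjoint Q (range γ) := h.ext_disj.mono_left hQE
  by_cases hb : Bornology.IsBounded Q
  swap
  · exact wn_unbounded h.reg.cur hQp hQd hb hzQ
  -- frontier point
  have hfr : (frontier Q).Nonempty := by
    by_contra hf
    rw [not_nonempty_iff_eq_empty, ← isClopen_iff_frontier_eq_empty, isClopen_iff] at hf
    rcases hf with hf | hf
    · rw [hf] at hzQ; exact hzQ
    · rw [hf] at hb
      exact NormedSpace.unbounded_univ ℝ ℂ hb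
  obtain ⟨q, hq⟩ := hfr
  have hqQ : q ∈ closure Q := frontier_subset_closure hq
  have hqn : q ∉ Q := fun hq' => by
    have := hQo.inter_frontier_eq
    rw [← mem_empty_iff_false q, ← this]
    exact ⟨hq', hq⟩
  have hqE : q ∉ E := fun hqE => by
    obtain ⟨w, hw1, hw2⟩ := mem_closure_iff.1 hqQ (connectedComponentIn E q)
      hEo.connectedComponentIn (mem_connectedComponentIn hqE)
    have e1 := connectedComponentIn_eq hw1
    have e2 := connectedComponentIn_eq hw2
    apply hqn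
    rw [hQ, e2, ← e1]
    exact mem_connectedComponentIn hqE
  have hqD : q ∈ closure D := by
    by_contra h1
    exact hqE h1
  have hqD' : q ∉ D := fun h1 => by
    obtain ⟨w, hw1, hw2⟩ := mem_closure_iff.1 hqQ D h.op h1
    exact hQE hw2 (subset_closure hw1)
  have hqf : q ∈ range γ := by
    rw [h.fr, frontier, h.op.interior_eq]
    exact ⟨hqD, hqD'⟩
  obtain ⟨s0, rfl⟩ := hqf
  obtain ⟨l⟩ := h.reg.exists_loc s0 one_pos
  obtain ⟨w, hwB, hwQ⟩ := mem_closure_iff.1 hqQ l.B l.oB l.memB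
  rw [wn_const h.reg.cur hQp hQd hzQ hwQ]
  have hwD : w ∉ D := fun h1 => hQE hwQ (subset_closure h1)
  obtain ⟨v, hv, hm⟩ := h.main
  have hpi := Real.pi_pos
  rcases l.cov w hwB with h1 | h1 | h1
  · rw [l.wL w h1, hv]
    rcases h.side l with h4 | h4
    · exact absurd (h4 h1) hwD
    · rcases hm with ⟨h5, h6⟩ | ⟨h5, h6⟩
      · have h7 := h6 _ (h4 (R_mem l))
        rw [l.wR _ (R_mem l), hv, h5] at h7
        linarith
      · rw [h5]; ring
  · rw [l.wR w h1, hv]
    rcases h.side l with h4 | h4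
    · rcases hm with ⟨h5, h6⟩ | ⟨h5, h6⟩
      · exact h5
      · have h7 := h6 _ (h4 (L_mem l))
        rw [l.wL _ (L_mem l), hv, h5] at h7
        linarith
    · exact absurd (h4 h1) hwD
  · exact absurd h1 (disjoint_left.1 hQd hwQ)

/-- (T1), abstract: if the points outside `P n` (and off `c n`) have winding number `0`, every
compact subset of `D` is eventually inside `P n`. -/
theorem eventually_subset (h : Dom D γ) {c : ℕ → ℝ → ℂ} (hc : ∀ n, Cur (c n))
    (hu : TendstoUniformly c γ atTop) {P : ℕ → Set ℂ}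
    (hP : ∀ n, ∀ z, z ∉ P n → z ∉ range (c n) → wn (c n) z = 0) {K : Set ℂ} (hK : IsCompact K)
    (hKD : K ⊆ D) : ∀ᶠ n in atTop, K ⊆ P n := by
  filter_upwards [wn_stable hc h.reg.cur hu hK (h.disj.mono_left hKD)] with n hn z hz
  by_contra h1
  obtain ⟨h2, h3⟩ := hn z hz
  rw [hP n z h1 h2] at h3
  exact h.wn_inside_ne (hKD hz) h3.symm

/-- (T2), abstract: preconnected sets `P n` off the curves which eventually contain a point of `D`
are eventually in every neighbourhood of `D`. -/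
theorem eventually_near (h : Dom D γ) {c : ℕ → ℝ → ℂ} (hc : ∀ n, Cur (c n))
    (hu : TendstoUniformly c γ atTop) {P : ℕ → Set ℂ} (hPc : ∀ n, IsPreconnected (P n))
    (hPd : ∀ n, Disjoint (P n) (range (c n))) {z0 : ℂ} (hz0 : z0 ∈ D)
    (hz0P : ∀ᶠ n in atTop, z0 ∈ P n) {ε : ℝ} (hε : 0 < ε) :
    ∀ᶠ n in atTop, ∀ z ∈ P n, infDist z D < ε := by
  obtain ⟨M, hM⟩ := h.reg.cur.exists_bound
  set K : Set ℂ := {z | ε ≤ infDist z D} ∩ closedBall 0 (M + 1) with hK
  have hKc : IsCompact K :=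
    (isCompact_closedBall (0 : ℂ) (M + 1)).inter_left
      (isClosed_le continuous_const (continuous_infDist_pt D))
  have hKo : ∀ z, ε ≤ infDist z D → z ∉ closure D := fun z hz h1 => by
    rw [← infDist_closure, infDist_zero_of_mem h1] at hz
    exact absurd hz (not_le.2 hε)
  have hKd : Disjoint K (range γ) := h.ext_disj.mono_left fun z hz => hKo z hz.1
  filter_upwards [wn_stable hc h.reg.cur hu hKc hKd, hz0P,
    wn_stable hc h.reg.cur hu (isCompact_singleton (x := z0))
      (h.disj.mono_left (singleton_subset_iff.2 hz0)),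
    Metric.tendstoUniformly_iff.1 hu 1 one_pos] with n h1 h2 h3 h4 z hz
  by_contra h5
  rw [not_lt] at h5
  have e1 : wn (c n) z = wn (c n) z0 := wn_const (hc n) (hPc n) (hPd n) hz h2
  rw [(h3 z0 rfl).2] at e1
  apply h.wn_inside_ne hz0
  rw [← e1]
  by_cases h6 : ‖z‖ ≤ M + 1
  · rw [(h1 z ⟨h5, by simpa using h6⟩).2]
    exact h.wn_outside (hKo z h5)
  · rw [not_le] at h6
    refine wn_far (hc n) fun s => ?_
    have h7 := h4 s
    rw [dist_comm, dist_eq_norm] at h7
    have h8 : ‖c n s‖ ≤ ‖c n s - γ s‖ + ‖γ s‖ := norm_le_norm_sub_add _ _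
    have := hM s
    linarith

end Dom

end Crest.Agent.R144.Geo268
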