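import Crest.Agent.R144.HexTil_353
import Crest.Prelude.Def_TriHeights
import Mathlib
import Crest.Agent.R144.Geo3_268
import Crest.Agent.R144.It1b_844

-- ▼ part R144/HexDom_353
section

/-!
# R144 / HexDom_353 : a finite set of hexagons bounded by one simple curve (S0195)

If the frontier of `approxDomain δ F` is (pre)connected then `F` and its complement are connected
for `Adj`, `approxDomain δ F` and the complement of its closure are connected, the latter unbounded.
-/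

set_option autoImplicit false

noncomputable section

namespace Crest.Agent.R144.HexDom353

open Set Topology Crest.ProbabilityR.HexHeights Crest.Agent.R144.Til353 Crest.Agent.R144.HexTil353

/-- connectedness for a relation inside a set of sites -/
def Conn {ι : Type*} (R : ι → ι → Prop) (S : Set ι) : Prop :=
  ∀ u ∈ S, ∀ v ∈ S, Relation.ReflTransGen (fun a b => a ∈ S ∧ b ∈ S ∧ R a b) u v

theorem mid_far {u v w : ℤ × ℤ} (h : Adj u v) (hu : w ≠ u) (hv : w ≠ v) :
    3 ≤ (u.1 + v.1 - 2 * w.1) ^ 2 + (u.1 + v.1 - 2 * w.1) * (u.2 + v.2 - 2 * w.2) +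
      (u.2 + v.2 - 2 * w.2) ^ 2 := by
  by_contra hcon
  push Not at hcon
  have hu' : ¬ (w.1 = u.1 ∧ w.2 = u.2) := fun h => hu (Prod.ext h.1 h.2)
  have hv' : ¬ (w.1 = v.1 ∧ w.2 = v.2) := fun h => hv (Prod.ext h.1 h.2)
  have h2 := int_N_small hcon
  unfold Adj at h
  omega

theorem dist_mid_sq (δ : ℝ) (u v w : ℤ × ℤ) :
    dist ((centre δ u + centre δ v) / 2) (centre δ w) ^ 2 =
      δ ^ 2 / 4 * (((u.1 + v.1 - 2 * w.1) ^ 2 + (u.1 + v.1 - 2 * w.1) * (u.2 + v.2 - 2 * w.2) +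
      (u.2 + v.2 - 2 * w.2) ^ 2 : ℤ) : ℝ) := by
  have h1 : (centre δ u + centre δ v) / 2 =
      cen δ (((u.1 : ℝ) + v.1) / 2) (((u.2 : ℝ) + v.2) / 2) := by
    unfold centre cen
    push_cast
    ring
  rw [h1, centre_eq, dist_cen_sq]
  unfold N
  push_cast
  ring

theorem glued_of_adj {δ : ℝ} (hδ : 0 < δ) {u v : ℤ × ℤ} (h : Adj u v) : Glued (cell δ) u v := by
  set m := (centre δ u + centre δ v) / 2 with hm
  have hfar : ∀ w, w ≠ u → w ≠ v → 3 / 4 * δ ≤ dist m (centre δ w) := by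
    intro w hu hv
    have h1 := mid_far h hu hv
    have h2 := dist_mid_sq δ u v w
    have h3 : (3 : ℝ) ≤ (((u.1 + v.1 - 2 * w.1) ^ 2 + (u.1 + v.1 - 2 * w.1) * (u.2 + v.2 - 2 * w.2) +
      (u.2 + v.2 - 2 * w.2) ^ 2 : ℤ) : ℝ) := by exact_mod_cast h1
    refine (abs_le_of_sq_le_sq' ?_ dist_nonneg).2
    rw [h2]
    nlinarith [sq_nonneg δ, mul_le_mul_of_nonneg_left h3 (sq_nonneg δ)]
  have hcl : ∀ w, (w = u ∨ w = v) → dist m (centre δ w) = δ / 2 := by
    intro w hw
    have h2 := dist_mid_sq δ u v w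
    have hadj := (adj_iff u v).1 h
    have h3 : (u.1 + v.1 - 2 * w.1) ^ 2 + (u.1 + v.1 - 2 * w.1) * (u.2 + v.2 - 2 * w.2) +
      (u.2 + v.2 - 2 * w.2) ^ 2 = 1 := by
      rcases hw with rfl | rfl <;> linarith
    rw [h3] at h2
    have h4 : dist m (centre δ w) ^ 2 = (δ / 2) ^ 2 := by
      rw [h2]; push_cast; ring
    exact (pow_left_inj₀ dist_nonneg (by linarith) (by norm_num)).1 h4
  have hmin : ∀ w, δ / 2 ≤ dist m (centre δ w) := by
    intro w
    by_cases hu : w = u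
    · exact (hcl w (Or.inl hu)).ge
    by_cases hv : w = v
    · exact (hcl w (Or.inr hv)).ge
    have := hfar w hu hv
    linarith
  refine ⟨m, fun w => ?_, fun w => ?_, ?_⟩
  · rw [hcl u (Or.inl rfl)]; exact hmin w
  · rw [hcl v (Or.inr rfl)]; exact hmin w
  · refine interior_maximal ?_ Metric.isOpen_ball (Metric.mem_ball_self (ε := δ / 8) (by linarith))
    intro z hz
    rw [Metric.mem_ball] at hz
    have hzf : ∀ w, w ≠ u → w ≠ v → 5 / 8 * δ ≤ dist z (centre δ w) := by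
      intro w hu hv
      have h1 := hfar w hu hv
      have h2 := dist_triangle m z (centre δ w)
      rw [dist_comm m z] at h2
      linarith
    have hzu : dist z (centre δ u) ≤ 5 / 8 * δ := by
      have h2 := dist_triangle z m (centre δ u)
      rw [hcl u (Or.inl rfl)] at h2
      linarith
    have hzv : dist z (centre δ v) ≤ 5 / 8 * δ := by
      have h2 := dist_triangle z m (centre δ v)
      rw [hcl v (Or.inr rfl)] at h2
      linarith
    rcases le_total (dist z (centre δ u)) (dist z (centre δ v)) with hle | hle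
    · left
      intro w
      by_cases hu : w = u
      · rw [hu]
      by_cases hv : w = v
      · rw [hv]; exact hle
      exact hzu.trans (hzf w hu hv)
    · right
      intro w
      by_cases hu : w = u
      · rw [hu]; exact hle
      by_cases hv : w = v
      · rw [hv]
      exact hzv.trans (hzf w hu hv)

theorem adj_of_glued {δ : ℝ} (hδ : 0 < δ) {u v : ℤ × ℤ} (h : Glued (cell δ) u v) :
    u = v ∨ Adj u v := by
  obtain ⟨m, h1, h2, _⟩ := h
  exact touch hδ ⟨m, h1, h2⟩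

theorem approx_eq (δ : ℝ) (F : Finset (ℤ × ℤ)) :
    approxDomain δ F = interior (U (cell δ) (F : Set (ℤ × ℤ))) := by
  unfold approxDomain U
  simp only [Finset.mem_coe]

theorem conn_of_chain {δ : ℝ} (hδ : 0 < δ) {S : Set (ℤ × ℤ)}
    (h : ∀ i ∈ S, ∀ j ∈ S, Tiling.Chain (cell δ) S i j) : Conn Adj S := by
  intro u hu v hv
  have := h u hu v hv
  unfold Tiling.Chain at this
  induction this with
  | refl => exact Relation.ReflTransGen.refl
  | tail _ hs ih =>
    have ih' := ih hs.1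
    rcases adj_of_glued hδ hs.2.2 with h1 | h1
    · rw [← h1]; exact ih'
    · exact ih'.tail ⟨hs.1, hs.2.1, h1⟩

theorem chain_loc {δ : ℝ} (hδ : 0 < δ) (S : Set (ℤ × ℤ)) :
    ∀ i ∈ S, ∀ j ∈ S, (cell δ i ∩ cell δ j).Nonempty → Tiling.Chain (cell δ) S i j := by
  intro i hi j hj hne
  rcases touch hδ hne with rfl | h
  · exact Relation.ReflTransGen.refl
  · exact Relation.ReflTransGen.single ⟨hi, hj, glued_of_adj hδ h⟩

/-- closed region of `F` -/
def P (δ : ℝ) (F : Finset (ℤ × ℤ)) : Set ℂ := ⋃ u ∈ F, cell δ u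

theorem P_eq (δ : ℝ) (F : Finset (ℤ × ℤ)) : P δ F = U (cell δ) (F : Set (ℤ × ℤ)) := by
  unfold P U
  simp only [Finset.mem_coe]


theorem isCompact_cell {δ : ℝ} (hδ : 0 < δ) (u : ℤ × ℤ) : IsCompact (cell δ u) := by
  refine (Metric.isCompact_of_isClosed_isBounded (isClosed_cell δ u) ?_)
  refine Metric.isBounded_closedBall (x := centre δ u) (r := δ) |>.subset fun z hz => ?_
  rw [Metric.mem_closedBall]
  have h1 := dist_le_of_mem_cell hδ hz
  refine (abs_le_of_sq_le_sq' ?_ hδ.le).2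
  nlinarith [sq_nonneg (dist z (centre δ u))]

theorem isCompact_P {δ : ℝ} (hδ : 0 < δ) (F : Finset (ℤ × ℤ)) : IsCompact (P δ F) :=
  F.isCompact_biUnion fun u _ => isCompact_cell hδ u

theorem compl_P {δ : ℝ} (hδ : 0 < δ) (F : Finset (ℤ × ℤ)) :
    (P δ F)ᶜ = interior (U (cell δ) ((F : Set (ℤ × ℤ))ᶜ)) := by
  rw [P_eq, (tiling hδ).compl_U]

theorem not_isBounded_compl {K : Set ℂ} (hK : Bornology.IsBounded K) :
    ¬ Bornology.IsBounded Kᶜ := by
  intro h
  have h1 : Bornology.IsBounded (univ : Set ℂ) := by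
    rw [← union_compl_self K]
    exact hK.union h
  exact (NormedSpace.unbounded_univ ℝ ℂ) h1

/-- **The lattice block for S0195.** -/
theorem hex_domain {δ : ℝ} (hδ : 0 < δ) {F : Finset (ℤ × ℤ)}
    (hJ : IsPreconnected (frontier (approxDomain δ F))) :
    Conn Adj (F : Set (ℤ × ℤ)) ∧ (F.Nonempty → Conn Adj ((F : Set (ℤ × ℤ))ᶜ)) ∧
    IsPreconnected (approxDomain δ F) ∧ (F.Nonempty → IsPreconnected (P δ F)ᶜ) ∧
    ¬ Bornology.IsBounded (P δ F)ᶜ := by
  have hT := tiling hδ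
  rw [approx_eq] at hJ ⊢
  have hcompl : ((F : Set (ℤ × ℤ))ᶜ).Nonempty := by
    obtain ⟨u, hu⟩ := Infinite.exists_notMem_finset F
    exact ⟨u, by simpa using hu⟩
  have h1 := hT.chain_of hcompl hJ (chain_loc hδ _)
  have h2 : F.Nonempty → ∀ i ∈ ((F : Set (ℤ × ℤ))ᶜ), ∀ j ∈ ((F : Set (ℤ × ℤ))ᶜ),
      Tiling.Chain (cell δ) ((F : Set (ℤ × ℤ))ᶜ) i j := by
    intro hF
    refine hT.chain_of (by rw [compl_compl]; exact_mod_cast hF) ?_ (chain_loc hδ _)
    rw [← hT.frontier_eq']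
    exact hJ
  refine ⟨conn_of_chain hδ h1, fun hF => conn_of_chain hδ (h2 hF), hT.preconnected_interior h1,
    fun hF => ?_, not_isBounded_compl (isCompact_P hδ F).isBounded⟩
  rw [compl_P hδ]
  exact hT.preconnected_interior (h2 hF)

end Crest.Agent.R144.HexDom353
end
end

-- ▼ part R144/TriTil_353
section

/-!
# R144 / TriTil_353 : the lattice triangles form a convex tiling
-/

set_option autoImplicit false

noncomputable section

namespace Crest.Agent.R144.TriTil353

open Set Topology Crest.ProbabilityR.HexHeights Crest.ProbabilityR.TriHeights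
open Crest.Agent.R144.Til353 Crest.Agent.R144.HexTil353

theorem ca_add (δ : ℝ) (z w : ℂ) : ca δ (z + w) = ca δ z + ca δ w := by
  unfold ca; simp only [Complex.add_re, Complex.add_im]; ring

theorem cb_add (δ : ℝ) (z w : ℂ) : cb δ (z + w) = cb δ z + cb δ w := by
  unfold cb; simp only [Complex.add_im]; ring

theorem ca_smul (δ t : ℝ) (z : ℂ) : ca δ (t • z) = t * ca δ z := by
  unfold ca; simp only [Complex.smul_re, Complex.smul_im, smul_eq_mul]; ring

theorem cb_smul (δ t : ℝ) (z : ℂ) : cb δ (t • z) = t * cb δ z := by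
  unfold cb; simp only [Complex.smul_im, smul_eq_mul]; ring

theorem continuous_ca (δ : ℝ) : Continuous (ca δ) := by
  unfold ca
  exact (Complex.continuous_re.sub (Complex.continuous_im.div_const _)).div_const _

theorem continuous_cb (δ : ℝ) : Continuous (cb δ) := by
  unfold cb
  exact ((continuous_const.mul Complex.continuous_im).div_const _).div_const _

theorem ca_centre {δ : ℝ} (hδ : 0 < δ) (u : ℤ × ℤ) : ca δ (centre δ u) = u.1 := by
  rw [centre_eq, ca_cen hδ]

theorem cb_centre {δ : ℝ} (hδ : 0 < δ) (u : ℤ × ℤ) : cb δ (centre δ u) = u.2 := by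
  rw [centre_eq, cb_cen hδ]

theorem ext_cab {δ : ℝ} (hδ : 0 < δ) {z w : ℂ} (h1 : ca δ z = ca δ w) (h2 : cb δ z = cb δ w) :
    z = w := by
  rw [← cen_ca_cb hδ z, ← cen_ca_cb hδ w, h1, h2]

/-- half-plane form of a triangle in coordinates -/
def InT (t : Tri) (a b : ℝ) : Prop :=
  if t.2 then (t.1.1 : ℝ) ≤ a ∧ (t.1.2 : ℝ) ≤ b ∧ a + b ≤ t.1.1 + t.1.2 + 1
  else a ≤ t.1.1 + 1 ∧ b ≤ t.1.2 + 1 ∧ (t.1.1 : ℝ) + t.1.2 + 1 ≤ a + b

/-- strict form -/
def InTs (t : Tri) (a b : ℝ) : Prop :=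
  if t.2 then (t.1.1 : ℝ) < a ∧ (t.1.2 : ℝ) < b ∧ a + b < t.1.1 + t.1.2 + 1
  else a < t.1.1 + 1 ∧ b < t.1.2 + 1 ∧ (t.1.1 : ℝ) + t.1.2 + 1 < a + b

theorem InT_up (u : ℤ × ℤ) (a b : ℝ) :
    InT (u, true) a b ↔ (u.1 : ℝ) ≤ a ∧ (u.2 : ℝ) ≤ b ∧ a + b ≤ u.1 + u.2 + 1 := by
  unfold InT; simp

theorem InT_dn (u : ℤ × ℤ) (a b : ℝ) :
    InT (u, false) a b ↔ a ≤ u.1 + 1 ∧ b ≤ u.2 + 1 ∧ (u.1 : ℝ) + u.2 + 1 ≤ a + b := by
  unfold InT; simp

theorem InTs_up (u : ℤ × ℤ) (a b : ℝ) :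
    InTs (u, true) a b ↔ (u.1 : ℝ) < a ∧ (u.2 : ℝ) < b ∧ a + b < u.1 + u.2 + 1 := by
  unfold InTs; simp

theorem InTs_dn (u : ℤ × ℤ) (a b : ℝ) :
    InTs (u, false) a b ↔ a < u.1 + 1 ∧ b < u.2 + 1 ∧ (u.1 : ℝ) + u.2 + 1 < a + b := by
  unfold InTs; simp

theorem corner_up (u : ℤ × ℤ) : corner (u, true) = ![u, (u.1 + 1, u.2), (u.1, u.2 + 1)] := by
  unfold corner; simp

theorem corner_dn (u : ℤ × ℤ) :
    corner (u, false) = ![(u.1 + 1, u.2), (u.1, u.2 + 1), (u.1 + 1, u.2 + 1)] := by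
  unfold corner; simp

theorem mem_corners_up {u s : ℤ × ℤ} :
    s ∈ corners (u, true) ↔ s = u ∨ s = (u.1 + 1, u.2) ∨ s = (u.1, u.2 + 1) := by
  unfold corners
  rw [corner_up]
  simp only [Finset.mem_image, Finset.mem_univ, true_and]
  constructor
  · rintro ⟨k, hk⟩
    fin_cases k <;> simp at hk <;> simp [← hk]
  · rintro (h | h | h)
    · exact ⟨0, by simp [h]⟩
    · exact ⟨1, by simp [h]⟩
    · exact ⟨2, by simp [h]⟩

theorem mem_corners_dn {u s : ℤ × ℤ} :
    s ∈ corners (u, false) ↔ s = (u.1 + 1, u.2) ∨ s = (u.1, u.2 + 1) ∨ s = (u.1 + 1, u.2 + 1) := by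
  unfold corners
  rw [corner_dn]
  simp only [Finset.mem_image, Finset.mem_univ, true_and]
  constructor
  · rintro ⟨k, hk⟩
    fin_cases k <;> simp at hk <;> simp [← hk]
  · rintro (h | h | h)
    · exact ⟨0, by simp [h]⟩
    · exact ⟨1, by simp [h]⟩
    · exact ⟨2, by simp [h]⟩

theorem convex_InT (δ : ℝ) (t : Tri) : Convex ℝ {z : ℂ | InT t (ca δ z) (cb δ z)} := by
  intro x hx y hy p q hp hq hpq
  change InT t (ca δ (p • x + q • y)) (cb δ (p • x + q • y))
  rw [ca_add, cb_add, ca_smul, ca_smul, cb_smul, cb_smul]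
  change InT t (ca δ x) (cb δ x) at hx
  change InT t (ca δ y) (cb δ y) at hy
  have hq' : q = 1 - p := by linarith
  subst hq'
  obtain ⟨u, b⟩ := t
  cases b
  · rw [InT_dn] at hx hy ⊢
    obtain ⟨h1, h2, h3⟩ := hx
    obtain ⟨g1, g2, g3⟩ := hy
    refine ⟨?_, ?_, ?_⟩
    · nlinarith [mul_le_mul_of_nonneg_left h1 hp, mul_le_mul_of_nonneg_left g1 hq]
    · nlinarith [mul_le_mul_of_nonneg_left h2 hp, mul_le_mul_of_nonneg_left g2 hq]
    · nlinarith [mul_le_mul_of_nonneg_left h3 hp, mul_le_mul_of_nonneg_left g3 hq]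
  · rw [InT_up] at hx hy ⊢
    obtain ⟨h1, h2, h3⟩ := hx
    obtain ⟨g1, g2, g3⟩ := hy
    refine ⟨?_, ?_, ?_⟩
    · nlinarith [mul_le_mul_of_nonneg_left h1 hp, mul_le_mul_of_nonneg_left g1 hq]
    · nlinarith [mul_le_mul_of_nonneg_left h2 hp, mul_le_mul_of_nonneg_left g2 hq]
    · nlinarith [mul_le_mul_of_nonneg_left h3 hp, mul_le_mul_of_nonneg_left g3 hq]

theorem comb3 {K : Set ℂ} (hK : Convex ℝ K) {p q r : ℂ} (hp : p ∈ K) (hq : q ∈ K) (hr : r ∈ K)
    {x y z : ℝ} (hx : 0 ≤ x) (hy : 0 ≤ y) (hz : 0 ≤ z) (h : x + y + z = 1) :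
    x • p + y • q + z • r ∈ K := by
  have := hK.sum_mem (t := (Finset.univ : Finset (Fin 3))) (w := ![x, y, z]) (z := ![p, q, r])
    (fun i _ => by fin_cases i <;> simpa) (by simp [Fin.sum_univ_three, h])
    (fun i _ => by fin_cases i <;> simpa)
  simpa [Fin.sum_univ_three] using this

theorem corner_mem_hull (δ : ℝ) (t : Tri) {s : ℤ × ℤ} (hs : s ∈ corners t) :
    centre δ s ∈ triRegion δ t :=
  subset_convexHull ℝ _ ⟨s, by exact_mod_cast hs, rfl⟩

/-- **Half-plane description of the triangles.** -/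
theorem mem_triRegion {δ : ℝ} (hδ : 0 < δ) (t : Tri) (z : ℂ) :
    z ∈ triRegion δ t ↔ InT t (ca δ z) (cb δ z) := by
  constructor
  · intro hz
    refine convexHull_min ?_ (convex_InT δ t) hz
    rintro _ ⟨s, hs, rfl⟩
    change InT t (ca δ (centre δ s)) (cb δ (centre δ s))
    rw [ca_centre hδ, cb_centre hδ]
    obtain ⟨u, b⟩ := t
    cases b
    · rw [InT_dn]
      rcases mem_corners_dn.1 (by exact_mod_cast hs) with rfl | rfl | rfl <;>
        refine ⟨?_, ?_, ?_⟩ <;> push_cast <;> linarith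
    · rw [InT_up]
      rcases mem_corners_up.1 (by exact_mod_cast hs) with rfl | rfl | rfl <;>
        refine ⟨?_, ?_, ?_⟩ <;> push_cast <;> linarith
  · intro hz
    have hK : Convex ℝ (triRegion δ t) := convex_convexHull ℝ _
    obtain ⟨u, b⟩ := t
    cases b
    · rw [InT_dn] at hz
      obtain ⟨h1, h2, h3⟩ := hz
      have := comb3 hK (corner_mem_hull δ (u, false) (s := (u.1 + 1, u.2)) (mem_corners_dn.2 (by tauto)))
        (corner_mem_hull δ (u, false) (s := (u.1, u.2 + 1)) (mem_corners_dn.2 (by tauto)))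
        (corner_mem_hull δ (u, false) (s := (u.1 + 1, u.2 + 1)) (mem_corners_dn.2 (by tauto)))
        (x := 1 - (cb δ z - u.2)) (y := 1 - (ca δ z - u.1)) (z := ca δ z + cb δ z - u.1 - u.2 - 1)
        (by linarith) (by linarith) (by linarith) (by ring)
      convert this using 1
      apply ext_cab hδ
      · simp only [ca_add, ca_smul, ca_centre hδ]; push_cast; ring
      · simp only [cb_add, cb_smul, cb_centre hδ]; push_cast; ring
    · rw [InT_up] at hz
      obtain ⟨h1, h2, h3⟩ := hz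
      have := comb3 hK (corner_mem_hull δ (u, true) (s := u) (mem_corners_up.2 (by tauto)))
        (corner_mem_hull δ (u, true) (s := (u.1 + 1, u.2)) (mem_corners_up.2 (by tauto)))
        (corner_mem_hull δ (u, true) (s := (u.1, u.2 + 1)) (mem_corners_up.2 (by tauto)))
        (x := 1 - (ca δ z - u.1) - (cb δ z - u.2)) (y := ca δ z - u.1) (z := cb δ z - u.2)
        (by linarith) (by linarith) (by linarith) (by ring)
      convert this using 1
      apply ext_cab hδ
      · simp only [ca_add, ca_smul, ca_centre hδ]; push_cast; ring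
      · simp only [cb_add, cb_smul, cb_centre hδ]; push_cast; ring

theorem isClosed_triRegion {δ : ℝ} (hδ : 0 < δ) (t : Tri) : IsClosed (triRegion δ t) := by
  have : triRegion δ t = {z : ℂ | InT t (ca δ z) (cb δ z)} := by
    ext z; exact mem_triRegion hδ t z
  rw [this]
  have h1 := continuous_ca δ
  have h2 := continuous_cb δ
  obtain ⟨u, b⟩ := t
  cases b
  · simp_rw [InT_dn]
    exact (isClosed_le h1 continuous_const).inter ((isClosed_le h2 continuous_const).inter
      (isClosed_le continuous_const (h1.add h2)))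
  · simp_rw [InT_up]
    exact (isClosed_le continuous_const h1).inter ((isClosed_le continuous_const h2).inter
      (isClosed_le (h1.add h2) continuous_const))

theorem isOpen_InTs (δ : ℝ) (t : Tri) : IsOpen {z : ℂ | InTs t (ca δ z) (cb δ z)} := by
  have h1 := continuous_ca δ
  have h2 := continuous_cb δ
  obtain ⟨u, b⟩ := t
  cases b
  · simp_rw [InTs_dn]
    exact (isOpen_lt h1 continuous_const).inter ((isOpen_lt h2 continuous_const).inter
      (isOpen_lt continuous_const (h1.add h2)))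
  · simp_rw [InTs_up]
    exact (isOpen_lt continuous_const h1).inter ((isOpen_lt continuous_const h2).inter
      (isOpen_lt (h1.add h2) continuous_const))

theorem InTs.le {t : Tri} {a b : ℝ} (h : InTs t a b) : InT t a b := by
  obtain ⟨u, c⟩ := t
  cases c
  · rw [InTs_dn] at h; rw [InT_dn]; exact ⟨h.1.le, h.2.1.le, h.2.2.le⟩
  · rw [InTs_up] at h; rw [InT_up]; exact ⟨h.1.le, h.2.1.le, h.2.2.le⟩

theorem norm_cen_le {δ : ℝ} (hδ : 0 < δ) (s t : ℝ) : ‖cen δ s t‖ ≤ δ * (|s| + |t|) := by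
  refine (abs_le_of_sq_le_sq' ?_ (by positivity)).2
  rw [norm_cen_sq, mul_pow]
  refine mul_le_mul_of_nonneg_left ?_ (sq_nonneg δ)
  unfold N
  have h1 : s * t ≤ |s| * |t| := by rw [← abs_mul]; exact le_abs_self _
  have h2 : 0 ≤ |s| * |t| := by positivity
  nlinarith [sq_abs s, sq_abs t]

theorem move {δ : ℝ} (hδ : 0 < δ) {S : Set ℂ} {z : ℂ} (hz : z ∈ interior S) :
    ∃ η : ℝ, 0 < η ∧ ∀ s t : ℝ, |s| ≤ η → |t| ≤ η → z + cen δ s t ∈ S := by
  obtain ⟨ε, hε, hball⟩ := Metric.isOpen_iff.1 isOpen_interior z hz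
  refine ⟨ε / (4 * δ), by positivity, fun s t hs ht => ?_⟩
  apply interior_subset
  apply hball
  rw [Metric.mem_ball, dist_eq_norm, add_sub_cancel_left]
  refine (norm_cen_le hδ s t).trans_lt ?_
  have h1 : |s| + |t| ≤ 2 * (ε / (4 * δ)) := by linarith
  have h2 : δ * (|s| + |t|) ≤ δ * (2 * (ε / (4 * δ))) := mul_le_mul_of_nonneg_left h1 hδ.le
  have h3 : δ * (2 * (ε / (4 * δ))) = ε / 2 := by field_simp; ring
  linarith

theorem interior_triRegion {δ : ℝ} (hδ : 0 < δ) (t : Tri) (z : ℂ) :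
    z ∈ interior (triRegion δ t) ↔ InTs t (ca δ z) (cb δ z) := by
  constructor
  · intro hz
    obtain ⟨η, hη, hm⟩ := move hδ hz
    have hm' : ∀ s t' : ℝ, |s| ≤ η → |t'| ≤ η → InT t (ca δ z + s) (cb δ z + t') := by
      intro s t' hs ht'
      have := (mem_triRegion hδ t _).1 (hm s t' hs ht')
      rwa [ca_add, cb_add, ca_cen hδ, cb_cen hδ] at this
    have a1 := hm' η 0 (by rw [abs_of_pos hη]) (by rw [abs_zero]; exact hη.le)
    have a2 := hm' (-η) 0 (by rw [abs_neg, abs_of_pos hη]) (by rw [abs_zero]; exact hη.le)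
    have a3 := hm' 0 η (by rw [abs_zero]; exact hη.le) (by rw [abs_of_pos hη])
    have a4 := hm' 0 (-η) (by rw [abs_zero]; exact hη.le) (by rw [abs_neg, abs_of_pos hη])
    obtain ⟨u, b⟩ := t
    cases b
    · rw [InT_dn] at a1 a2 a3 a4
      rw [InTs_dn]
      obtain ⟨b1, b2, b3⟩ := a1
      obtain ⟨c1, c2, c3⟩ := a2
      obtain ⟨d1, d2, d3⟩ := a3
      exact ⟨by linarith, by linarith, by linarith⟩
    · rw [InT_up] at a1 a2 a3 a4
      rw [InTs_up]
      obtain ⟨b1, b2, b3⟩ := a1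
      obtain ⟨c1, c2, c3⟩ := a2
      obtain ⟨d1, d2, d3⟩ := a4
      exact ⟨by linarith, by linarith, by linarith⟩
  · intro hz
    refine mem_interior.2 ⟨{z : ℂ | InTs t (ca δ z) (cb δ z)}, ?_, isOpen_InTs δ t, hz⟩
    intro w hw
    exact (mem_triRegion hδ t w).2 (InTs.le hw)

theorem int_ne {δ : ℝ} (hδ : 0 < δ) (t : Tri) : (interior (triRegion δ t)).Nonempty := by
  obtain ⟨u, b⟩ := t
  cases b
  · refine ⟨cen δ (u.1 + 2 / 3) (u.2 + 2 / 3), ?_⟩
    rw [interior_triRegion hδ, ca_cen hδ, cb_cen hδ, InTs_dn]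
    exact ⟨by linarith, by linarith, by linarith⟩
  · refine ⟨cen δ (u.1 + 1 / 3) (u.2 + 1 / 3), ?_⟩
    rw [interior_triRegion hδ, ca_cen hδ, cb_cen hδ, InTs_up]
    exact ⟨by linarith, by linarith, by linarith⟩

theorem strict_unique {t t' : Tri} {a b : ℝ} (h : InTs t a b) (h' : InT t' a b) : t = t' := by
  obtain ⟨u, c⟩ := t
  obtain ⟨v, c'⟩ := t'
  cases c <;> cases c'
  · rw [InTs_dn] at h
    rw [InT_dn] at h'
    obtain ⟨h1, h2, h3⟩ := h
    obtain ⟨g1, g2, g3⟩ := h'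
    have e1 : (u.1 : ℝ) < v.1 + 1 := by linarith
    have e2 : (u.2 : ℝ) < v.2 + 1 := by linarith
    have e3 : (v.1 : ℝ) + v.2 < u.1 + u.2 + 1 := by linarith
    have f1 : u.1 < v.1 + 1 := by exact_mod_cast e1
    have f2 : u.2 < v.2 + 1 := by exact_mod_cast e2
    have f3 : v.1 + v.2 < u.1 + u.2 + 1 := by exact_mod_cast e3
    have : u = v := Prod.ext (by omega) (by omega)
    rw [this]
  · exfalso
    rw [InTs_dn] at h
    rw [InT_up] at h'
    obtain ⟨h1, h2, h3⟩ := h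
    obtain ⟨g1, g2, g3⟩ := h'
    have e1 : (v.1 : ℝ) < u.1 + 1 := by linarith
    have e2 : (v.2 : ℝ) < u.2 + 1 := by linarith
    have e3 : (u.1 : ℝ) + u.2 < v.1 + v.2 := by linarith
    have f1 : v.1 < u.1 + 1 := by exact_mod_cast e1
    have f2 : v.2 < u.2 + 1 := by exact_mod_cast e2
    have f3 : u.1 + u.2 < v.1 + v.2 := by exact_mod_cast e3
    omega
  · exfalso
    rw [InTs_up] at h
    rw [InT_dn] at h'
    obtain ⟨h1, h2, h3⟩ := h
    obtain ⟨g1, g2, g3⟩ := h'
    have e1 : (u.1 : ℝ) < v.1 + 1 := by linarith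
    have e2 : (u.2 : ℝ) < v.2 + 1 := by linarith
    have e3 : (v.1 : ℝ) + v.2 < u.1 + u.2 := by linarith
    have f1 : u.1 < v.1 + 1 := by exact_mod_cast e1
    have f2 : u.2 < v.2 + 1 := by exact_mod_cast e2
    have f3 : v.1 + v.2 < u.1 + u.2 := by exact_mod_cast e3
    omega
  · rw [InTs_up] at h
    rw [InT_up] at h'
    obtain ⟨h1, h2, h3⟩ := h
    obtain ⟨g1, g2, g3⟩ := h'
    have e1 : (v.1 : ℝ) < u.1 + 1 := by linarith
    have e2 : (v.2 : ℝ) < u.2 + 1 := by linarith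
    have e3 : (u.1 : ℝ) + u.2 < v.1 + v.2 + 1 := by linarith
    have f1 : v.1 < u.1 + 1 := by exact_mod_cast e1
    have f2 : v.2 < u.2 + 1 := by exact_mod_cast e2
    have f3 : u.1 + u.2 < v.1 + v.2 + 1 := by exact_mod_cast e3
    have : u = v := Prod.ext (by omega) (by omega)
    rw [this]

theorem exists_tri (a b : ℝ) : ∃ t : Tri, InT t a b ∧ t.1 = (⌊a⌋, ⌊b⌋) := by
  have h1 := Int.floor_le a
  have h2 := Int.lt_floor_add_one a
  have h3 := Int.floor_le b
  have h4 := Int.lt_floor_add_one b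
  rcases le_total (a + b) (⌊a⌋ + ⌊b⌋ + 1) with h | h
  · refine ⟨((⌊a⌋, ⌊b⌋), true), ?_, rfl⟩
    rw [InT_up]
    exact ⟨h1, h3, h⟩
  · refine ⟨((⌊a⌋, ⌊b⌋), false), ?_, rfl⟩
    rw [InT_dn]
    exact ⟨h2.le, h4.le, h⟩

theorem abs_ca_le {δ : ℝ} (hδ : 0 < δ) (z : ℂ) : |ca δ z| ≤ 2 * ‖z‖ / δ := by
  have h3 : (1 : ℝ) ≤ Real.sqrt 3 := by
    rw [show (1 : ℝ) = Real.sqrt 1 by simp]; exact Real.sqrt_le_sqrt (by norm_num)
  unfold ca
  rw [abs_div, abs_of_pos hδ]
  refine div_le_div_of_nonneg_right ?_ hδ.le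
  have h1 := Complex.abs_re_le_norm z
  have h2 := Complex.abs_im_le_norm z
  have h4 : |z.im / Real.sqrt 3| ≤ ‖z‖ := by
    rw [abs_div, abs_of_pos (by positivity : 0 < Real.sqrt 3)]
    exact (div_le_self (abs_nonneg _) h3).trans h2
  exact (abs_sub _ _).trans (by linarith)

theorem abs_cb_le {δ : ℝ} (hδ : 0 < δ) (z : ℂ) : |cb δ z| ≤ 2 * ‖z‖ / δ := by
  have h3 : (1 : ℝ) ≤ Real.sqrt 3 := by
    rw [show (1 : ℝ) = Real.sqrt 1 by simp]; exact Real.sqrt_le_sqrt (by norm_num)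
  unfold cb
  rw [abs_div, abs_of_pos hδ]
  refine div_le_div_of_nonneg_right ?_ hδ.le
  have h2 := Complex.abs_im_le_norm z
  rw [abs_div, abs_of_pos (by positivity : 0 < Real.sqrt 3), abs_mul, abs_two]
  refine (div_le_self (by positivity) h3).trans ?_
  linarith

theorem ca_sub (δ : ℝ) (z w : ℂ) : ca δ (z - w) = ca δ z - ca δ w := by
  unfold ca; simp only [Complex.sub_re, Complex.sub_im]; ring

theorem cb_sub (δ : ℝ) (z w : ℂ) : cb δ (z - w) = cb δ z - cb δ w := by
  unfold cb; simp only [Complex.sub_im]; ring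

/-- coordinates of a point of the triangle are within 1 of the index -/
theorem InT.near {t : Tri} {a b : ℝ} (h : InT t a b) :
    (t.1.1 : ℝ) ≤ a ∧ a ≤ t.1.1 + 1 ∧ (t.1.2 : ℝ) ≤ b ∧ b ≤ t.1.2 + 1 := by
  obtain ⟨u, c⟩ := t
  cases c
  · rw [InT_dn] at h
    obtain ⟨h1, h2, h3⟩ := h
    exact ⟨by simp only; linarith, h1, by simp only; linarith, h2⟩
  · rw [InT_up] at h
    obtain ⟨h1, h2, h3⟩ := h
    exact ⟨h1, by simp only; linarith, h2, by simp only; linarith⟩

theorem locallyFinite_tri {δ : ℝ} (hδ : 0 < δ) : LocallyFinite (triRegion δ) := by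
  intro z
  refine ⟨Metric.ball z 1, Metric.ball_mem_nhds z one_pos, ?_⟩
  obtain ⟨M, hM⟩ := exists_nat_gt (|ca δ z| + |cb δ z| + 2 / δ + 1)
  refine Set.Finite.subset (Set.Finite.prod (Set.Finite.prod (Set.finite_Icc (-(M : ℤ)) M)
    (Set.finite_Icc (-(M : ℤ)) M)) (Set.finite_univ (α := Bool))) ?_
  rintro t ⟨y, hy, hyz⟩
  have h1 := ((mem_triRegion hδ t y).1 hy).near
  rw [Metric.mem_ball, dist_eq_norm] at hyz
  have h2 := abs_ca_le hδ (y - z)
  have h3 := abs_cb_le hδ (y - z)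
  have h4 : 2 * ‖y - z‖ / δ ≤ 2 / δ := by
    refine div_le_div_of_nonneg_right ?_ hδ.le
    linarith
  rw [ca_sub] at h2
  rw [cb_sub] at h3
  have h2' := abs_le.1 (h2.trans h4)
  have h3' := abs_le.1 (h3.trans h4)
  have g1 := neg_abs_le (ca δ z)
  have g2 := le_abs_self (ca δ z)
  have g3 := neg_abs_le (cb δ z)
  have g4 := le_abs_self (cb δ z)
  have g5 := abs_nonneg (ca δ z)
  have g6 := abs_nonneg (cb δ z)
  obtain ⟨k1, k2, k3, k4⟩ := h1
  have p1 : (t.1.1 : ℝ) ≤ (M : ℤ) := by push_cast; linarith [h2'.1, h2'.2]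
  have p2 : (-(M : ℤ) : ℝ) ≤ (t.1.1 : ℝ) := by push_cast; linarith [h2'.1, h2'.2]
  have p3 : (t.1.2 : ℝ) ≤ (M : ℤ) := by push_cast; linarith [h3'.1, h3'.2]
  have p4 : (-(M : ℤ) : ℝ) ≤ (t.1.2 : ℝ) := by push_cast; linarith [h3'.1, h3'.2]
  refine ⟨⟨⟨?_, ?_⟩, ⟨?_, ?_⟩⟩, trivial⟩
  · exact_mod_cast p2
  · exact_mod_cast p1
  · exact_mod_cast p4
  · exact_mod_cast p3

/-- **The triangular tiling.** -/
theorem tiling {δ : ℝ} (hδ : 0 < δ) : Tiling (triRegion δ) where
  convex := fun t => convex_convexHull ℝ _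
  closed := isClosed_triRegion hδ
  int_ne := int_ne hδ
  disj := by
    intro t t' h
    rw [Set.disjoint_left]
    intro z hz hz'
    exact h (strict_unique ((interior_triRegion hδ t z).1 hz) ((mem_triRegion hδ t' z).1 hz'))
  locfin := locallyFinite_tri hδ
  cover := by
    rw [eq_univ_iff_forall]
    intro z
    obtain ⟨t, ht, _⟩ := exists_tri (ca δ z) (cb δ z)
    exact mem_iUnion.2 ⟨t, (mem_triRegion hδ t z).2 ht⟩

end Crest.Agent.R144.TriTil353
end
end

-- ▼ part R144/Triod_353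
section

/-!
# R144 / Triod_353 : a simple closed curve contains no triod
-/

set_option autoImplicit false

noncomputable section

namespace Crest.Agent.R144.Triod353

open Set Topology

/-- three preconnected subsets of `(a, b)`, pairwise disjoint, cannot all accumulate at the ends -/
theorem no_three {a b : ℝ} {K : Fin 3 → Set ℝ} (hK : ∀ i, IsPreconnected (K i))
    (hsub : ∀ i, K i ⊆ Ioo a b) (hend : ∀ i, ∀ η > 0, ∃ s ∈ K i, s < a + η ∨ b - η < s)
    (hdis : ∀ i j, i ≠ j → Disjoint (K i) (K j)) : False := by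
  -- each `K i` accumulates at `a` or at `b`
  have h1 : ∀ i, (∀ η > 0, ∃ s ∈ K i, s < a + η) ∨ (∀ η > 0, ∃ s ∈ K i, b - η < s) := by
    intro i
    by_contra hcon
    push Not at hcon
    obtain ⟨⟨η1, h1, h1'⟩, ⟨η2, h2, h2'⟩⟩ := hcon
    obtain ⟨s, hs, hs'⟩ := hend i (min η1 η2) (lt_min h1 h2)
    have g1 := h1' s hs
    have g2 := h2' s hs
    have g3 := min_le_left η1 η2
    have g4 := min_le_right η1 η2
    rcases hs' with h | h <;> linarith
  have hA : ∀ i j, i ≠ j → ¬ ((∀ η > 0, ∃ s ∈ K i, s < a + η) ∧ (∀ η > 0, ∃ s ∈ K j, s < a + η)) := by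
    have key : ∀ i j, i ≠ j → (∀ η > 0, ∃ s ∈ K i, s < a + η) → (∀ η > 0, ∃ s ∈ K j, s < a + η) →
        ∀ x ∈ K i, ∀ y ∈ K j, x < y → False := by
      intro i j hij hi hj x hx y hy hxy
      obtain ⟨s, hs, hs'⟩ := hj (x - a) (by linarith [(hsub i hx).1])
      have : x ∈ K j := (hK j).ordConnected.out hs hy ⟨by linarith, hxy.le⟩
      exact Set.disjoint_left.1 (hdis i j hij) hx this
    rintro i j hij ⟨hi, hj⟩
    obtain ⟨x, hx, _⟩ := hi 1 one_pos
    obtain ⟨y, hy, _⟩ := hj 1 one_pos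
    rcases lt_trichotomy x y with h | h | h
    · exact key i j hij hi hj x hx y hy h
    · subst h; exact Set.disjoint_left.1 (hdis i j hij) hx hy
    · exact key j i hij.symm hj hi y hy x hx h
  have hB : ∀ i j, i ≠ j → ¬ ((∀ η > 0, ∃ s ∈ K i, b - η < s) ∧ (∀ η > 0, ∃ s ∈ K j, b - η < s)) := by
    have key : ∀ i j, i ≠ j → (∀ η > 0, ∃ s ∈ K i, b - η < s) → (∀ η > 0, ∃ s ∈ K j, b - η < s) →
        ∀ x ∈ K i, ∀ y ∈ K j, x < y → False := by
      intro i j hij hi hj x hx y hy hxy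
      obtain ⟨s, hs, hs'⟩ := hi (b - y) (by linarith [(hsub j hy).2])
      have : y ∈ K i := (hK i).ordConnected.out hx hs ⟨hxy.le, by linarith⟩
      exact Set.disjoint_left.1 (hdis i j hij) this hy
    rintro i j hij ⟨hi, hj⟩
    obtain ⟨x, hx, _⟩ := hi 1 one_pos
    obtain ⟨y, hy, _⟩ := hj 1 one_pos
    rcases lt_trichotomy x y with h | h | h
    · exact key i j hij hi hj x hx y hy h
    · subst h; exact Set.disjoint_left.1 (hdis i j hij) hx hy
    · exact key j i hij.symm hj hi y hy x hx h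
  have a01 := hA 0 1 (by decide)
  have a02 := hA 0 2 (by decide)
  have a12 := hA 1 2 (by decide)
  have b01 := hB 0 1 (by decide)
  have b02 := hB 0 2 (by decide)
  have b12 := hB 1 2 (by decide)
  have c0 := h1 0
  have c1 := h1 1
  have c2 := h1 2
  tauto

/-- **No triod in a simple closed curve.** -/
theorem no_triod {c : ℝ → ℂ} (hc : Continuous c) (hp : Function.Periodic c (2 * Real.pi))
    (hi : InjOn c (Ico 0 (2 * Real.pi))) {p : ℂ} {A : Fin 3 → Set ℂ}
    (hA : ∀ i, IsPreconnected (A i)) (hsub : ∀ i, A i ⊆ range c) (hpn : ∀ i, p ∉ A i)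
    (hcl : ∀ i, p ∈ closure (A i)) (hdis : ∀ i j, i ≠ j → Disjoint (A i) (A j)) : False := by
  have h2pi : (0 : ℝ) < 2 * Real.pi := by positivity
  have : Fact ((0 : ℝ) < 2 * Real.pi) := ⟨h2pi⟩
  -- the circle map
  let f : AddCircle (2 * Real.pi) → ℂ := hp.lift
  have hf : Continuous f := hc.quotient_liftOn' _
  have hfc : ∀ s : ℝ, f (s : AddCircle (2 * Real.pi)) = c s := fun s => hp.lift_coe s
  have hinj : Function.Injective f := by
    intro x y hxy
    obtain ⟨s, hs, rfl⟩ : ∃ s ∈ Ico (0 : ℝ) (2 * Real.pi), (s : AddCircle (2 * Real.pi)) = x := by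
      have := (AddCircle.coe_image_Ico_eq (2 * Real.pi) 0).symm
      have hx : x ∈ ((↑) : ℝ → AddCircle (2 * Real.pi)) '' Ico 0 (0 + 2 * Real.pi) := by
        rw [← this]; trivial
      obtain ⟨s, hs, e⟩ := hx
      exact ⟨s, by simpa using hs, e⟩
    obtain ⟨t, ht, rfl⟩ : ∃ s ∈ Ico (0 : ℝ) (2 * Real.pi), (s : AddCircle (2 * Real.pi)) = y := by
      have := (AddCircle.coe_image_Ico_eq (2 * Real.pi) 0).symm
      have hx : y ∈ ((↑) : ℝ → AddCircle (2 * Real.pi)) '' Ico 0 (0 + 2 * Real.pi) := by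
        rw [← this]; trivial
      obtain ⟨s, hs, e⟩ := hx
      exact ⟨s, by simpa using hs, e⟩
    rw [hfc, hfc] at hxy
    rw [hi hs ht hxy]
  have hemb : IsClosedEmbedding f := hf.isClosedEmbedding hinj
  have hrange : range f = range c := by
    ext z
    constructor
    · rintro ⟨x, rfl⟩
      induction x using QuotientAddGroup.induction_on with
      | H s => exact ⟨s, (hfc s).symm⟩
    · rintro ⟨s, rfl⟩
      exact ⟨s, hfc s⟩
  -- p is on the curve
  have hpr : p ∈ range f := by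
    have h1 : closure (A 0) ⊆ range f :=
      closure_minimal ((hsub 0).trans hrange.symm.subset) hemb.isClosed_range
    exact h1 (hcl 0)
  obtain ⟨x0, hx0⟩ := hpr
  obtain ⟨s0, rfl⟩ : ∃ s0 : ℝ, (s0 : AddCircle (2 * Real.pi)) = x0 :=
    QuotientAddGroup.mk_surjective x0
  -- pull back
  let B : Fin 3 → Set (AddCircle (2 * Real.pi)) := fun i => f ⁻¹' (A i)
  have hB : ∀ i, IsPreconnected (B i) := by
    intro i
    rw [← hemb.isInducing.isPreconnected_image, image_preimage_eq_inter_range,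
      inter_eq_left.2 ((hsub i).trans hrange.symm.subset)]
    exact hA i
  have hBn : ∀ i, (s0 : AddCircle (2 * Real.pi)) ∉ B i := fun i h => hpn i (by
    have : f (s0 : AddCircle (2 * Real.pi)) ∈ A i := h
    rwa [hx0] at this)
  have hBcl : ∀ i, (s0 : AddCircle (2 * Real.pi)) ∈ closure (B i) := by
    intro i
    rw [hemb.isInducing.closure_eq_preimage_closure_image, mem_preimage,
      image_preimage_eq_inter_range, inter_eq_left.2 ((hsub i).trans hrange.symm.subset), hx0]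
    exact hcl i
  have hBd : ∀ i j, i ≠ j → Disjoint (B i) (B j) := fun i j hij => (hdis i j hij).preimage f
  -- to the interval
  let e := AddCircle.openPartialHomeomorphCoe (2 * Real.pi) s0
  have hsrc : e.source = Ioo s0 (s0 + 2 * Real.pi) := rfl
  have htgt : e.target = {(s0 : AddCircle (2 * Real.pi))}ᶜ := rfl
  have hecoe : ∀ s : ℝ, e s = (s : AddCircle (2 * Real.pi)) := fun s => rfl
  have hBt : ∀ i, B i ⊆ e.target := by
    intro i x hx
    rw [htgt]
    intro h
    exact hBn i (by rw [← (mem_singleton_iff.1 h)]; exact hx)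
  refine no_three (a := s0) (b := s0 + 2 * Real.pi) (K := fun i => e.symm '' (B i))
    (fun i => (hB i).image _ (e.continuousOn_symm.mono (hBt i))) ?_ ?_ ?_
  · intro i
    rintro _ ⟨x, hx, rfl⟩
    rw [← hsrc]
    exact e.map_target (hBt i hx)
  · intro i η hη
    by_contra hcon
    push Not at hcon
    -- B i is contained in the compact image of [s0+η, s0+2π-η]
    have h1 : B i ⊆ ((↑) : ℝ → AddCircle (2 * Real.pi)) '' Icc (s0 + η) (s0 + 2 * Real.pi - η) := by
      intro x hx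
      have h2 := hcon (e.symm x) ⟨x, hx, rfl⟩
      refine ⟨e.symm x, ⟨h2.1, h2.2⟩, ?_⟩
      rw [← hecoe]
      exact e.right_inv (hBt i hx)
    have h2 : IsClosed (((↑) : ℝ → AddCircle (2 * Real.pi)) '' Icc (s0 + η) (s0 + 2 * Real.pi - η)) :=
      (isCompact_Icc.image (AddCircle.continuous_mk' _)).isClosed
    have h3 := closure_minimal h1 h2 (hBcl i)
    obtain ⟨s, hs, hs'⟩ := h3
    -- s ≡ s0 mod 2π with s in (s0, s0+2π)
    have h4 : s ∈ e.source := by
      rw [hsrc]; exact ⟨by linarith [hs.1], by linarith [hs.2]⟩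
    have h5 := e.map_source h4
    rw [htgt, hecoe] at h5
    exact h5 hs'
  · intro i j hij
    rw [Set.disjoint_left]
    rintro _ ⟨x, hx, rfl⟩ ⟨y, hy, hxy⟩
    have h1 : e (e.symm y) = e (e.symm x) := by rw [hxy]
    rw [e.right_inv (hBt i hx), e.right_inv (hBt j hy)] at h1
    subst h1
    exact Set.disjoint_left.1 (hBd i j hij) hx hy

end Crest.Agent.R144.Triod353
end
end

-- ▼ part R144/TriDom_353
section

/-!
# R144 / TriDom_353 : triangular-lattice polygons bounded by one simple closed curve (S0196, S0197)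
-/

set_option autoImplicit false

noncomputable section

namespace Crest.Agent.R144.TriDom353

open Set Topology Crest.ProbabilityR.HexHeights Crest.ProbabilityR.TriHeights
open Crest.Agent.R144.Til353 Crest.Agent.R144.HexTil353 Crest.Agent.R144.HexDom353
open Crest.Agent.R144.TriTil353

/-- the down triangles `(w, false)` sharing an edge with the up triangle `(u, true)` -/
def UD (u w : ℤ × ℤ) : Prop := w = u ∨ w = (u.1 - 1, u.2) ∨ w = (u.1, u.2 - 1)

/-- edge adjacency of triangles -/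
def TAdj (t t' : Tri) : Prop :=
  (t.2 = true ∧ t'.2 = false ∧ UD t.1 t'.1) ∨ (t.2 = false ∧ t'.2 = true ∧ UD t'.1 t.1)

theorem TAdj.symm {t t' : Tri} (h : TAdj t t') : TAdj t' t := by
  unfold TAdj at h ⊢; tauto

theorem glued_up {δ : ℝ} (hδ : 0 < δ) {u w : ℤ × ℤ} (h : UD u w) :
    Glued (triRegion δ) (u, true) (w, false) := by
  have hopen : ∀ x y : ℝ, IsOpen {z : ℂ | |ca δ z - x| < 1 / 4 ∧ |cb δ z - y| < 1 / 4} := by
    intro x y
    have h1 := continuous_ca δ
    have h2 := continuous_cb δ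
    exact (isOpen_lt (h1.sub continuous_const).abs continuous_const).inter
      (isOpen_lt (h2.sub continuous_const).abs continuous_const)
  obtain ⟨x, y, g1, g2, g3⟩ : ∃ x y : ℝ, InT (u, true) x y ∧ InT (w, false) x y ∧
      ∀ a b : ℝ, |a - x| < 1 / 4 → |b - y| < 1 / 4 → InT (u, true) a b ∨ InT (w, false) a b := by
    rcases h with rfl | rfl | rfl
    · refine ⟨w.1 + 1 / 2, w.2 + 1 / 2, ?_, ?_, ?_⟩
      · rw [InT_up]; refine ⟨?_, ?_, ?_⟩ <;> linarith
      · rw [InT_dn]; refine ⟨?_, ?_, ?_⟩ <;> linarith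
      · intro a b ha hb
        rw [abs_lt] at ha hb
        rw [InT_up, InT_dn]
        rcases le_total (a + b) (w.1 + w.2 + 1) with h | h
        · left; exact ⟨by linarith, by linarith, h⟩
        · right; exact ⟨by linarith, by linarith, h⟩
    · refine ⟨u.1, u.2 + 1 / 2, ?_, ?_, ?_⟩
      · rw [InT_up]; refine ⟨?_, ?_, ?_⟩ <;> linarith
      · rw [InT_dn]; refine ⟨?_, ?_, ?_⟩ <;> push_cast <;> linarith
      · intro a b ha hb
        rw [abs_lt] at ha hb
        rw [InT_up, InT_dn]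
        push_cast
        rcases le_total a u.1 with h | h
        · right; exact ⟨by linarith, by linarith, by linarith⟩
        · left; exact ⟨by linarith, by linarith, by linarith⟩
    · refine ⟨u.1 + 1 / 2, u.2, ?_, ?_, ?_⟩
      · rw [InT_up]; refine ⟨?_, ?_, ?_⟩ <;> linarith
      · rw [InT_dn]; refine ⟨?_, ?_, ?_⟩ <;> push_cast <;> linarith
      · intro a b ha hb
        rw [abs_lt] at ha hb
        rw [InT_up, InT_dn]
        push_cast
        rcases le_total b u.2 with h | h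
        · right; exact ⟨by linarith, by linarith, by linarith⟩
        · left; exact ⟨by linarith, by linarith, by linarith⟩
  refine ⟨cen δ x y, ?_, ?_, ?_⟩
  · rw [mem_triRegion hδ, ca_cen hδ, cb_cen hδ]; exact g1
  · rw [mem_triRegion hδ, ca_cen hδ, cb_cen hδ]; exact g2
  · refine interior_maximal ?_ (hopen x y) ?_
    · rintro z ⟨hz1, hz2⟩
      rcases g3 _ _ hz1 hz2 with h | h
      · left; exact (mem_triRegion hδ _ _).2 h
      · right; exact (mem_triRegion hδ _ _).2 h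
    · change |ca δ (cen δ x y) - x| < 1 / 4 ∧ |cb δ (cen δ x y) - y| < 1 / 4
      rw [ca_cen hδ, cb_cen hδ, sub_self, sub_self, abs_zero]
      norm_num

theorem glued_of_tadj {δ : ℝ} (hδ : 0 < δ) {t t' : Tri} (h : TAdj t t') :
    Glued (triRegion δ) t t' := by
  obtain ⟨u, b⟩ := t
  obtain ⟨w, b'⟩ := t'
  rcases h with ⟨h1, h2, h3⟩ | ⟨h1, h2, h3⟩
  · simp only at h1 h2 h3
    subst h1; subst h2
    exact glued_up hδ h3
  · simp only at h1 h2 h3
    subst h1; subst h2
    exact Tiling.glued_symm (glued_up hδ h3)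

/-- the six triangles around a site, in cyclic order -/
def star (s : ℤ × ℤ) : Fin 6 → Tri :=
  ![((s.1, s.2), true), ((s.1 - 1, s.2), false), ((s.1 - 1, s.2), true),
    ((s.1 - 1, s.2 - 1), false), ((s.1, s.2 - 1), true), ((s.1, s.2 - 1), false)]

/-- `nb s k` = the neighbour of `s` on the edge between `star s k` and `star s (k+1)` -/
def nb (s : ℤ × ℤ) : Fin 6 → ℤ × ℤ :=
  ![(s.1, s.2 + 1), (s.1 - 1, s.2 + 1), (s.1 - 1, s.2), (s.1, s.2 - 1), (s.1 + 1, s.2 - 1),
    (s.1 + 1, s.2)]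

theorem mem_star {s : ℤ × ℤ} {t : Tri} : s ∈ corners t ↔ ∃ k, t = star s k := by
  obtain ⟨⟨i, j⟩, b⟩ := t
  obtain ⟨p, q⟩ := s
  constructor
  · intro h
    cases b
    · rcases mem_corners_dn.1 h with h | h | h
      · rw [Prod.mk.injEq] at h
        obtain ⟨rfl, rfl⟩ := h
        exact ⟨1, by simp [star]⟩
      · rw [Prod.mk.injEq] at h
        obtain ⟨rfl, rfl⟩ := h
        exact ⟨5, by simp [star]⟩
      · rw [Prod.mk.injEq] at h
        obtain ⟨rfl, rfl⟩ := h
        exact ⟨3, by simp [star]⟩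
    · rcases mem_corners_up.1 h with h | h | h
      · rw [Prod.mk.injEq] at h
        obtain ⟨rfl, rfl⟩ := h
        exact ⟨0, by simp [star]⟩
      · rw [Prod.mk.injEq] at h
        obtain ⟨rfl, rfl⟩ := h
        exact ⟨2, by simp [star]⟩
      · rw [Prod.mk.injEq] at h
        obtain ⟨rfl, rfl⟩ := h
        exact ⟨4, by simp [star]⟩
  · rintro ⟨k, hk⟩
    rw [hk]
    fin_cases k <;> simp [star, mem_corners_up, mem_corners_dn]

theorem star_adj (s : ℤ × ℤ) (k : Fin 6) : TAdj (star s k) (star s (k + 1)) := by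
  fin_cases k <;> simp [star, TAdj, UD]

theorem self_mem_star (s : ℤ × ℤ) (k : Fin 6) : s ∈ corners (star s k) := mem_star.2 ⟨k, rfl⟩

theorem nb_mem_star (s : ℤ × ℤ) (k : Fin 6) : nb s k ∈ corners (star s k) := by
  fin_cases k <;> simp [star, nb, mem_corners_up, mem_corners_dn]

theorem nb_mem_star' (s : ℤ × ℤ) (k : Fin 6) : nb s k ∈ corners (star s (k + 1)) := by
  fin_cases k <;> simp [star, nb, mem_corners_up, mem_corners_dn]

/-- touching triangles share a corner -/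
theorem touch {δ : ℝ} (hδ : 0 < δ) {t t' : Tri} (h : (triRegion δ t ∩ triRegion δ t').Nonempty) :
    ∃ s, s ∈ corners t ∧ s ∈ corners t' := by
  obtain ⟨z, hz, hz'⟩ := h
  rw [mem_triRegion hδ] at hz hz'
  set a := ca δ z
  set b := cb δ z
  obtain ⟨⟨i, j⟩, c⟩ := t
  obtain ⟨⟨p, q⟩, c'⟩ := t'
  cases c <;> cases c'
  · rw [InT_dn] at hz hz'
    obtain ⟨h1, h2, h3⟩ := hz
    obtain ⟨g1, g2, g3⟩ := hz'
    simp only at h1 h2 h3 g1 g2 g3
    have e1 : (i : ℝ) ≤ p + 1 := by linarith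
    have e2 : (p : ℝ) ≤ i + 1 := by linarith
    have e3 : (j : ℝ) ≤ q + 1 := by linarith
    have e4 : (q : ℝ) ≤ j + 1 := by linarith
    have e5 : (i : ℝ) + j ≤ p + q + 1 := by linarith
    have e6 : (p : ℝ) + q ≤ i + j + 1 := by linarith
    have f1 : i ≤ p + 1 := by exact_mod_cast e1
    have f2 : p ≤ i + 1 := by exact_mod_cast e2
    have f3 : j ≤ q + 1 := by exact_mod_cast e3
    have f4 : q ≤ j + 1 := by exact_mod_cast e4
    have f5 : i + j ≤ p + q + 1 := by exact_mod_cast e5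
    have f6 : p + q ≤ i + j + 1 := by exact_mod_cast e6
    simp only [mem_corners_dn]
    by_cases hp1 : p = i + 1 ∧ q = j
    · exact ⟨(i + 1, j + 1), by simp, by
        simp only [Prod.mk.injEq]; omega⟩
    by_cases hp3 : p = i + 1
    · exact ⟨(i + 1, j), by simp, by
        simp only [Prod.mk.injEq]; omega⟩
    by_cases hp2 : p = i - 1
    · exact ⟨(i, j + 1), by simp, by
        simp only [Prod.mk.injEq]; omega⟩
    by_cases hq1 : q = j + 1
    · exact ⟨(i + 1, j + 1), by simp, by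
        simp only [Prod.mk.injEq]; omega⟩
    · exact ⟨(i + 1, j), by simp, by
        simp only [Prod.mk.injEq]; omega⟩
  · rw [InT_dn] at hz
    rw [InT_up] at hz'
    obtain ⟨h1, h2, h3⟩ := hz
    obtain ⟨g1, g2, g3⟩ := hz'
    simp only at h1 h2 h3 g1 g2 g3
    have e1 : (p : ℝ) ≤ i + 1 := by linarith
    have e2 : (q : ℝ) ≤ j + 1 := by linarith
    have e3 : (i : ℝ) + j ≤ p + q := by linarith
    have e4 : (i : ℝ) ≤ p + 1 := by linarith
    have e5 : (j : ℝ) ≤ q + 1 := by linarith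
    have e6 : (p : ℝ) + q ≤ i + j + 2 := by linarith
    have f1 : p ≤ i + 1 := by exact_mod_cast e1
    have f2 : q ≤ j + 1 := by exact_mod_cast e2
    have f3 : i + j ≤ p + q := by exact_mod_cast e3
    have f4 : i ≤ p + 1 := by exact_mod_cast e4
    have f5 : j ≤ q + 1 := by exact_mod_cast e5
    have f6 : p + q ≤ i + j + 2 := by exact_mod_cast e6
    simp only [mem_corners_dn, mem_corners_up]
    by_cases k1 : p = i + 1 ∧ q = j + 1
    · exact ⟨(i + 1, j + 1), by simp, by simp only [Prod.mk.injEq]; omega⟩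
    by_cases k2 : p ≤ i ∧ q ≤ j
    · have : (p = i ∧ q = j) := by omega
      exact ⟨(i + 1, j), by simp, by simp only [Prod.mk.injEq]; omega⟩
    by_cases k3 : p = i + 1
    · exact ⟨(i + 1, j), by simp, by simp only [Prod.mk.injEq]; omega⟩
    · exact ⟨(i, j + 1), by simp, by simp only [Prod.mk.injEq]; omega⟩
  · rw [InT_up] at hz
    rw [InT_dn] at hz'
    obtain ⟨h1, h2, h3⟩ := hz
    obtain ⟨g1, g2, g3⟩ := hz'
    simp only at h1 h2 h3 g1 g2 g3
    have e1 : (i : ℝ) ≤ p + 1 := by linarith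
    have e2 : (j : ℝ) ≤ q + 1 := by linarith
    have e3 : (p : ℝ) + q ≤ i + j := by linarith
    have e4 : (p : ℝ) ≤ i + 1 := by linarith
    have e5 : (q : ℝ) ≤ j + 1 := by linarith
    have e6 : (i : ℝ) + j ≤ p + q + 2 := by linarith
    have f1 : i ≤ p + 1 := by exact_mod_cast e1
    have f2 : j ≤ q + 1 := by exact_mod_cast e2
    have f3 : p + q ≤ i + j := by exact_mod_cast e3
    have f4 : p ≤ i + 1 := by exact_mod_cast e4
    have f5 : q ≤ j + 1 := by exact_mod_cast e5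
    have f6 : i + j ≤ p + q + 2 := by exact_mod_cast e6
    simp only [mem_corners_dn, mem_corners_up]
    by_cases k1 : i = p + 1 ∧ j = q + 1
    · exact ⟨(p + 1, q + 1), by simp only [Prod.mk.injEq]; omega, by simp⟩
    by_cases k2 : i ≤ p ∧ j ≤ q
    · have : (i = p ∧ j = q) := by omega
      exact ⟨(p + 1, q), by simp only [Prod.mk.injEq]; omega, by simp⟩
    by_cases k3 : i = p + 1
    · exact ⟨(p + 1, q), by simp only [Prod.mk.injEq]; omega, by simp⟩
    · exact ⟨(p, q + 1), by simp only [Prod.mk.injEq]; omega, by simp⟩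
  · rw [InT_up] at hz hz'
    obtain ⟨h1, h2, h3⟩ := hz
    obtain ⟨g1, g2, g3⟩ := hz'
    simp only at h1 h2 h3 g1 g2 g3
    have e1 : (i : ℝ) ≤ p + 1 := by linarith
    have e2 : (p : ℝ) ≤ i + 1 := by linarith
    have e3 : (j : ℝ) ≤ q + 1 := by linarith
    have e4 : (q : ℝ) ≤ j + 1 := by linarith
    have e5 : (i : ℝ) + j ≤ p + q + 1 := by linarith
    have e6 : (p : ℝ) + q ≤ i + j + 1 := by linarith
    have f1 : i ≤ p + 1 := by exact_mod_cast e1
    have f2 : p ≤ i + 1 := by exact_mod_cast e2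
    have f3 : j ≤ q + 1 := by exact_mod_cast e3
    have f4 : q ≤ j + 1 := by exact_mod_cast e4
    have f5 : i + j ≤ p + q + 1 := by exact_mod_cast e5
    have f6 : p + q ≤ i + j + 1 := by exact_mod_cast e6
    simp only [mem_corners_up]
    by_cases hp1 : p = i + 1
    · exact ⟨(i + 1, j), by simp, by
        simp only [Prod.mk.injEq]; omega⟩
    by_cases hq1 : q = j + 1
    · exact ⟨(i, j + 1), by simp, by
        simp only [Prod.mk.injEq]; omega⟩
    · exact ⟨(i, j), by simp, by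
        simp only [Prod.mk.injEq]; omega⟩

/-! ### the vertex condition -/

/-- half-open lattice edge -/
def A (δ : ℝ) (s : ℤ × ℤ) (k : Fin 6) : Set ℂ :=
  (fun t : ℝ => centre δ s + t • (centre δ (nb s k) - centre δ s)) '' Ioc 0 1

theorem A_pre (δ : ℝ) (s : ℤ × ℤ) (k : Fin 6) : IsPreconnected (A δ s k) :=
  isPreconnected_Ioc.image _ (by fun_prop)

theorem A_closure (δ : ℝ) (s : ℤ × ℤ) (k : Fin 6) : centre δ s ∈ closure (A δ s k) := by
  have h1 : (0 : ℝ) ∈ closure (Ioc (0 : ℝ) 1) := by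
    rw [closure_Ioc (by norm_num)]; simp
  have h2 : Continuous (fun t : ℝ => centre δ s + t • (centre δ (nb s k) - centre δ s)) := by
    fun_prop
  have h3 := image_closure_subset_closure_image h2 ⟨0, h1, rfl⟩
  simpa [A] using h3

theorem A_sub (δ : ℝ) (s : ℤ × ℤ) (k : Fin 6) {K : Set ℂ} (hK : Convex ℝ K)
    (h1 : centre δ s ∈ K) (h2 : centre δ (nb s k) ∈ K) : A δ s k ⊆ K := by
  rintro _ ⟨t, ht, rfl⟩
  exact hK.add_smul_sub_mem h1 h2 ⟨ht.1.le, ht.2⟩

theorem A_coord {δ : ℝ} (hδ : 0 < δ) {s : ℤ × ℤ} {k : Fin 6} {z : ℂ} (hz : z ∈ A δ s k) :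
    ∃ t : ℝ, 0 < t ∧ ca δ z = s.1 + t * ((nb s k).1 - s.1) ∧ cb δ z = s.2 + t * ((nb s k).2 - s.2) := by
  obtain ⟨t, ht, rfl⟩ := hz
  refine ⟨t, ht.1, ?_, ?_⟩
  · simp only [ca_add, ca_smul, ca_sub, ca_centre hδ]
  · simp only [cb_add, cb_smul, cb_sub, cb_centre hδ]

theorem A_ne {δ : ℝ} (hδ : 0 < δ) (s : ℤ × ℤ) (k : Fin 6) : centre δ s ∉ A δ s k := by
  intro h
  obtain ⟨t, ht, h1, h2⟩ := A_coord hδ h
  rw [ca_centre hδ] at h1
  rw [cb_centre hδ] at h2
  fin_cases k <;> simp [nb] at h1 h2 <;> linarith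

theorem A_disj {δ : ℝ} (hδ : 0 < δ) (s : ℤ × ℤ) (k l : Fin 6) (hkl : k ≠ l) :
    Disjoint (A δ s k) (A δ s l) := by
  rw [Set.disjoint_left]
  intro z hz hz'
  obtain ⟨t, ht, h1, h2⟩ := A_coord hδ hz
  obtain ⟨t', ht', h1', h2'⟩ := A_coord hδ hz'
  rw [h1] at h1'
  rw [h2] at h2'
  clear h1 h2
  fin_cases k <;> fin_cases l <;> first | exact absurd rfl hkl | skip
  all_goals
    simp [nb] at h1' h2'
    linarith

/-- the pattern around `s` changes between `star s k` and `star s (k+1)` -/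
def Chg (S : Set Tri) (s : ℤ × ℤ) (k : Fin 6) : Prop := ¬ (star s k ∈ S ↔ star s (k + 1) ∈ S)

theorem A_frontier {δ : ℝ} (hδ : 0 < δ) {S : Set Tri} {s : ℤ × ℤ} {k : Fin 6} (h : Chg S s k) :
    A δ s k ⊆ frontier (interior (U (triRegion δ) S)) := by
  have h1 : A δ s k ⊆ triRegion δ (star s k) :=
    A_sub δ s k (convex_convexHull ℝ _) (corner_mem_hull δ _ (self_mem_star s k))
      (corner_mem_hull δ _ (nb_mem_star s k))
  have h2 : A δ s k ⊆ triRegion δ (star s (k + 1)) :=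
    A_sub δ s k (convex_convexHull ℝ _) (corner_mem_hull δ _ (self_mem_star s _))
      (corner_mem_hull δ _ (nb_mem_star' s k))
  rw [(TriTil353.tiling hδ).frontier_eq]
  intro z hz
  by_cases h3 : star s k ∈ S
  · have h4 : star s (k + 1) ∉ S := fun h5 => h ⟨fun _ => h5, fun _ => h3⟩
    exact ⟨mem_U.2 ⟨_, h3, h1 hz⟩, mem_U.2 ⟨_, h4, h2 hz⟩⟩
  · have h4 : star s (k + 1) ∈ S := by
      by_contra h5
      exact h ⟨fun h6 => absurd h6 h3, fun h6 => absurd h6 h5⟩
    exact ⟨mem_U.2 ⟨_, h4, h2 hz⟩, mem_U.2 ⟨_, h3, h1 hz⟩⟩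

/-- at most two changes around each site -/
def VC (S : Set Tri) : Prop := ∀ (s : ℤ × ℤ) (k : Fin 3 → Fin 6), Function.Injective k →
  ¬ ∀ i, Chg S s (k i)

theorem vc_of_curve {δ : ℝ} (hδ : 0 < δ) {S : Set Tri} {c : ℝ → ℂ} (hc : Continuous c)
    (hp : Function.Periodic c (2 * Real.pi)) (hi : InjOn c (Ico 0 (2 * Real.pi)))
    (hr : range c = frontier (interior (U (triRegion δ) S))) : VC S := by
  intro s k hk hcon
  refine Triod353.no_triod hc hp hi (p := centre δ s) (A := fun i => A δ s (k i))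
    (fun i => A_pre δ s _) (fun i => ?_) (fun i => A_ne hδ s _) (fun i => A_closure δ s _)
    (fun i j hij => A_disj hδ s _ _ fun h => hij (hk h))
  rw [hr]
  exact A_frontier hδ (hcon i)

theorem VC.compl {S : Set Tri} (h : VC S) : VC Sᶜ := by
  intro s k hk hcon
  refine h s k hk fun i => ?_
  have := hcon i
  unfold Chg at this ⊢
  simp only [mem_compl_iff] at this
  tauto

/-- cyclic index -/
def idx (i : Fin 6) (n : ℕ) : Fin 6 := ⟨(i.1 + n) % 6, Nat.mod_lt _ (by norm_num)⟩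

theorem idx_zero (i : Fin 6) : idx i 0 = i := by
  apply Fin.ext; simp only [idx]; omega

theorem idx_six (i : Fin 6) : idx i 6 = i := by
  apply Fin.ext; simp only [idx]; omega

theorem idx_succ (i : Fin 6) (n : ℕ) : idx i (n + 1) = idx i n + 1 := by
  apply Fin.ext
  rw [Fin.val_add]
  simp only [idx]
  change (i.1 + (n + 1)) % 6 = ((i.1 + n) % 6 + 1) % 6
  omega

theorem idx_inj (i : Fin 6) {m n : ℕ} (hm : m < 6) (hn : n < 6) (h : idx i m = idx i n) : m = n := by
  have := congrArg Fin.val h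
  simp only [idx] at this
  omega

theorem exists_idx (i j : Fin 6) : ∃ n < 6, idx i n = j := by
  refine ⟨(j.1 + 6 - i.1) % 6, Nat.mod_lt _ (by norm_num), ?_⟩
  apply Fin.ext; simp only [idx]; omega

theorem exists_change (g : ℕ → Prop) {x y : ℕ} (h : x ≤ y) (hne : ¬ (g x ↔ g y)) :
    ∃ p, x ≤ p ∧ p < y ∧ ¬ (g p ↔ g (p + 1)) := by
  induction y, h using Nat.le_induction with
  | base => exact absurd Iff.rfl hne
  | succ y hxy ih =>
    by_cases h1 : (g x ↔ g y)
    · exact ⟨y, hxy, Nat.lt_succ_self y, fun h2 => hne (h1.trans h2)⟩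
    · obtain ⟨p, hp1, hp2, hp3⟩ := ih h1
      exact ⟨p, hp1, hp2.trans (Nat.lt_succ_self y), hp3⟩

/-- chained by edge adjacency inside `S` -/
def TCh (S : Set Tri) : Tri → Tri → Prop :=
  Relation.ReflTransGen fun a b => a ∈ S ∧ b ∈ S ∧ TAdj a b

theorem TCh.symm {S : Set Tri} {t t' : Tri} (h : TCh S t t') : TCh S t' t := by
  unfold TCh at h ⊢
  induction h with
  | refl => exact Relation.ReflTransGen.refl
  | tail _ hs ih => exact Relation.ReflTransGen.head ⟨hs.2.1, hs.1, hs.2.2.symm⟩ ih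

theorem chain_arc {S : Set Tri} {s : ℤ × ℤ} {i : Fin 6} {m n : ℕ} (hmn : m ≤ n)
    (h : ∀ l, m ≤ l → l ≤ n → star s (idx i l) ∈ S) :
    TCh S (star s (idx i m)) (star s (idx i n)) := by
  induction n, hmn using Nat.le_induction with
  | base => exact Relation.ReflTransGen.refl
  | succ n hmn ih =>
    refine Relation.ReflTransGen.tail (ih fun l h1 h2 => h l h1 (by omega)) ?_
    refine ⟨h n hmn (by omega), h (n + 1) (by omega) le_rfl, ?_⟩
    rw [idx_succ]
    exact star_adj s _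

theorem chain_star {S : Set Tri} (hV : VC S) (s : ℤ × ℤ) {i j : Fin 6}
    (hi : star s i ∈ S) (hj : star s j ∈ S) : TCh S (star s i) (star s j) := by
  obtain ⟨n, hn, rfl⟩ := exists_idx i j
  by_cases h1 : ∀ l, 0 ≤ l → l ≤ n → star s (idx i l) ∈ S
  · have := chain_arc (m := 0) (Nat.zero_le n) h1
    rwa [idx_zero] at this
  by_cases h2 : ∀ l, n ≤ l → l ≤ 6 → star s (idx i l) ∈ S
  · have := chain_arc (m := n) (n := 6) (by omega) h2
    rw [idx_six] at this
    exact TCh.symm this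
  exfalso
  push Not at h1 h2
  obtain ⟨a, ha0, ha1, ha2⟩ := h1
  obtain ⟨b, hb0, hb1, hb2⟩ := h2
  let g : ℕ → Prop := fun l => star s (idx i l) ∈ S
  have g0 : g 0 := by change star s (idx i 0) ∈ S; rw [idx_zero]; exact hi
  have g6 : g 6 := by change star s (idx i 6) ∈ S; rw [idx_six]; exact hi
  have hb6 : b < 6 := by
    rcases Nat.lt_or_ge b 6 with h | h
    · exact h
    · have : b = 6 := by omega
      subst this
      exact absurd g6 hb2
  obtain ⟨p1, hp1, hp1', hc1⟩ := exists_change g (x := 0) (y := a) ha0 (fun h => ha2 (h.1 g0))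
  obtain ⟨p2, hp2, hp2', hc2⟩ := exists_change g (x := a) (y := n) ha1 (fun h => ha2 (h.2 hj))
  obtain ⟨p3, hp3, hp3', hc3⟩ := exists_change g (x := n) (y := b) hb0 (fun h => hb2 (h.1 hj))
  refine hV s ![idx i p1, idx i p2, idx i p3] ?_ ?_
  · intro x y hxy
    have e1 : idx i p1 ≠ idx i p2 := fun h => by have := idx_inj i (by omega) (by omega) h; omega
    have e2 : idx i p1 ≠ idx i p3 := fun h => by have := idx_inj i (by omega) (by omega) h; omega
    have e3 : idx i p2 ≠ idx i p3 := fun h => by have := idx_inj i (by omega) (by omega) h; omega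
    fin_cases x <;> fin_cases y <;> simp at hxy ⊢ <;>
      first | exact e1 hxy | exact e2 hxy | exact e3 hxy | exact e1 hxy.symm | exact e2 hxy.symm |
        exact e3 hxy.symm
  · intro x
    have k1 : Chg S s (idx i p1) := by unfold Chg; rw [← idx_succ]; exact hc1
    have k2 : Chg S s (idx i p2) := by unfold Chg; rw [← idx_succ]; exact hc2
    have k3 : Chg S s (idx i p3) := by unfold Chg; rw [← idx_succ]; exact hc3
    fin_cases x
    · exact k1
    · exact k2
    · exact k3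

theorem chain_loc {δ : ℝ} (hδ : 0 < δ) {S : Set Tri} (hV : VC S) :
    ∀ t ∈ S, ∀ t' ∈ S, (triRegion δ t ∩ triRegion δ t').Nonempty → TCh S t t' := by
  intro t ht t' ht' hne
  obtain ⟨s, hs, hs'⟩ := touch hδ hne
  obtain ⟨i, rfl⟩ := mem_star.1 hs
  obtain ⟨j, rfl⟩ := mem_star.1 hs'
  exact chain_star hV s ht ht'

/-- boundary edges in terms of the star -/
theorem corners_pair {s : ℤ × ℤ} {k : Fin 6} {t : Tri} :
    (s ∈ corners t ∧ nb s k ∈ corners t) ↔ (t = star s k ∨ t = star s (k + 1)) := by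
  constructor
  · rintro ⟨h1, h2⟩
    obtain ⟨l, rfl⟩ := mem_star.1 h1
    clear h1
    obtain ⟨i, j⟩ := s
    fin_cases k <;> fin_cases l <;> simp [star, nb, mem_corners_up, mem_corners_dn] at h2 ⊢ <;>
      omega
  · rintro (rfl | rfl)
    · exact ⟨self_mem_star _ _, nb_mem_star _ _⟩
    · exact ⟨self_mem_star _ _, nb_mem_star' _ _⟩

theorem star_ne (s : ℤ × ℤ) (k : Fin 6) : star s k ≠ star s (k + 1) := by
  fin_cases k <;> simp [star]

theorem nb_ne (s : ℤ × ℤ) (k : Fin 6) : nb s k ≠ s := by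
  obtain ⟨i, j⟩ := s
  fin_cases k <;> simp [nb]

theorem exists_nb {s w : ℤ × ℤ} {t : Tri} (h1 : s ∈ corners t) (h2 : w ∈ corners t) (hne : s ≠ w) :
    ∃ k, w = nb s k := by
  obtain ⟨l, rfl⟩ := mem_star.1 h1
  obtain ⟨i, j⟩ := s
  obtain ⟨p, q⟩ := w
  fin_cases l <;> simp [star, mem_corners_up, mem_corners_dn] at h2 hne
  · rcases h2 with h | h | h
    · exact absurd h.2.symm (hne h.1.symm)
    · exact ⟨5, by simp [nb, h]⟩
    · exact ⟨0, by simp [nb, h]⟩
  · rcases h2 with h | h | h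
    · exact absurd h.2.symm (hne h.1.symm)
    · exact ⟨1, by simp [nb, h]⟩
    · exact ⟨0, by simp [nb, h]⟩
  · rcases h2 with h | h | h
    · exact ⟨2, by simp [nb, h]⟩
    · exact absurd h.2.symm (hne h.1.symm)
    · exact ⟨1, by simp [nb, h]⟩
  · rcases h2 with h | h | h
    · exact ⟨3, by simp [nb, h]⟩
    · exact ⟨2, by simp [nb, h]⟩
    · exact absurd h.2.symm (hne h.1.symm)
  · rcases h2 with h | h | h
    · exact ⟨3, by simp [nb, h]⟩
    · exact ⟨4, by simp [nb, h]⟩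
    · exact absurd h.2.symm (hne h.1.symm)
  · rcases h2 with h | h | h
    · exact ⟨4, by simp [nb, h]⟩
    · exact absurd h.2.symm (hne h.1.symm)
    · exact ⟨5, by simp [nb, h]⟩

theorem adj_iff_nb (s w : ℤ × ℤ) : Adj s w ↔ ∃ k, w = nb s k := by
  obtain ⟨i, j⟩ := s
  obtain ⟨p, q⟩ := w
  constructor
  · intro h
    unfold Adj at h
    simp only at h
    rcases h with h | h | h | h | h | h
    · exact ⟨5, by simp [nb]; omega⟩
    · exact ⟨2, by simp [nb]; omega⟩
    · exact ⟨0, by simp [nb]; omega⟩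
    · exact ⟨3, by simp [nb]; omega⟩
    · exact ⟨4, by simp [nb]; omega⟩
    · exact ⟨1, by simp [nb]; omega⟩
  · rintro ⟨k, hk⟩
    rw [hk]
    unfold Adj
    fin_cases k <;> simp [nb]

/-- interior vertices of `T`: all six triangles around belong to `T` -/
def Lam (T : Finset Tri) : Finset (ℤ × ℤ) :=
  haveI := Classical.decPred fun v : ℤ × ℤ => ∀ k, star v k ∈ T
  (verts T).filter fun v => ∀ k, star v k ∈ T

theorem mem_verts {T : Finset Tri} {v : ℤ × ℤ} : v ∈ verts T ↔ ∃ k, star v k ∈ T := by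
  unfold verts
  rw [Finset.mem_biUnion]
  constructor
  · rintro ⟨t, ht, hv⟩
    obtain ⟨k, rfl⟩ := mem_star.1 hv
    exact ⟨k, ht⟩
  · rintro ⟨k, hk⟩
    exact ⟨_, hk, self_mem_star v k⟩

theorem mem_Lam {T : Finset Tri} {v : ℤ × ℤ} : v ∈ Lam T ↔ ∀ k, star v k ∈ T := by
  unfold Lam
  simp only [Finset.mem_filter]
  constructor
  · exact fun h => h.2
  · exact fun h => ⟨mem_verts.2 ⟨0, h 0⟩, h⟩

theorem boundaryEdge_nb {T : Finset Tri} {s : ℤ × ℤ} {k : Fin 6} :
    IsBoundaryEdge T (s, nb s k) ↔ Chg (T : Set Tri) s k := by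
  classical
  unfold IsBoundaryEdge Chg
  simp only [Finset.mem_coe]
  have hf : (T.filter fun t => s ∈ corners t ∧ nb s k ∈ corners t) =
      T.filter fun t => t = star s k ∨ t = star s (k + 1) := by
    refine Finset.filter_congr fun t _ => corners_pair
  have hf' : (T.filter fun t => t = star s k ∨ t = star s (k + 1)) =
      ({star s k, star s (k + 1)} : Finset Tri).filter fun t => t ∈ T := by
    ext t
    simp only [Finset.mem_filter, Finset.mem_insert, Finset.mem_singleton]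
    tauto
  have hne := star_ne s k
  constructor
  · rintro ⟨_, h2⟩
    intro hiff
    rw [show (T.filter fun t => s ∈ corners t ∧ nb s k ∈ corners t) =
      ({star s k, star s (k + 1)} : Finset Tri).filter fun t => t ∈ T from hf.trans hf'] at h2
    by_cases h : star s k ∈ T
    · rw [Finset.filter_true_of_mem (by
        intro t ht
        rcases Finset.mem_insert.1 ht with rfl | ht
        · exact h
        · rw [Finset.mem_singleton.1 ht]; exact hiff.1 h), Finset.card_pair hne] at h2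
      omega
    · rw [Finset.filter_false_of_mem (by
        intro t ht
        rcases Finset.mem_insert.1 ht with rfl | ht
        · exact h
        · rw [Finset.mem_singleton.1 ht]; exact fun h' => h (hiff.2 h')), Finset.card_empty] at h2
      omega
  · intro h
    refine ⟨(nb_ne s k).symm, ?_⟩
    rw [show (T.filter fun t => s ∈ corners t ∧ nb s k ∈ corners t) =
      ({star s k, star s (k + 1)} : Finset Tri).filter fun t => t ∈ T from hf.trans hf']
    by_cases h1 : star s k ∈ T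
    · have h2 : star s (k + 1) ∉ T := fun h2 => h ⟨fun _ => h2, fun _ => h1⟩
      rw [Finset.filter_insert, if_pos h1, Finset.filter_singleton, if_neg h2]
      simp
    · have h2 : star s (k + 1) ∈ T := by
        by_contra h2
        exact h ⟨fun h3 => absurd h3 h1, fun h3 => absurd h3 h2⟩
      rw [Finset.filter_insert, if_neg h1, Finset.filter_singleton, if_pos h2]
      simp

/-- a vertex of `T` is interior or a boundary vertex, not both -/
theorem boundaryVertex_iff {T : Finset Tri} {v : ℤ × ℤ} :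
    IsBoundaryVertex T v ↔ v ∈ verts T ∧ v ∉ Lam T := by
  constructor
  · rintro ⟨y, hy⟩
    have h1 : ∃ t ∈ T, v ∈ corners t ∧ y ∈ corners t := by
      have h2 := hy.2
      have : 0 < (T.filter fun t => v ∈ corners t ∧ y ∈ corners t).card := by
        rw [show (T.filter fun t => v ∈ corners t ∧ y ∈ corners t).card = 1 from h2]
        norm_num
      obtain ⟨t, ht⟩ := Finset.card_pos.1 this
      rw [Finset.mem_filter] at ht
      exact ⟨t, ht.1, ht.2⟩
    obtain ⟨t, ht, hvt, hyt⟩ := h1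
    obtain ⟨k, rfl⟩ := exists_nb hvt hyt hy.1
    have hc := boundaryEdge_nb.1 hy
    obtain ⟨l, rfl⟩ := mem_star.1 hvt
    refine ⟨mem_verts.2 ⟨l, ht⟩, fun h => hc ?_⟩
    have := mem_Lam.1 h
    exact ⟨fun _ => this _, fun _ => this _⟩
  · rintro ⟨h1, h2⟩
    obtain ⟨l, hl⟩ := mem_verts.1 h1
    rw [mem_Lam] at h2
    push Not at h2
    obtain ⟨m, hm⟩ := h2
    obtain ⟨n, hn, rfl⟩ := exists_idx l m
    obtain ⟨p, _, _, hp⟩ := exists_change (fun r => star v (idx l r) ∈ T) (x := 0) (y := n)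
      (Nat.zero_le n) (by
        intro h
        rw [idx_zero] at h
        exact hm (h.1 hl))
    refine ⟨nb v (idx l p), boundaryEdge_nb.2 ?_⟩
    unfold Chg
    rw [idx_succ] at hp
    exact hp


/-! ### the polygon -/

theorem polygon_eq (δ : ℝ) (T : Finset Tri) :
    polygon δ T = interior (U (triRegion δ) (T : Set Tri)) := by
  unfold polygon U
  simp only [Finset.mem_coe]

/-- closed region of `T` -/
def Pt (δ : ℝ) (T : Finset Tri) : Set ℂ := ⋃ t ∈ T, triRegion δ t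

theorem Pt_eq (δ : ℝ) (T : Finset Tri) : Pt δ T = U (triRegion δ) (T : Set Tri) := by
  unfold Pt U
  simp only [Finset.mem_coe]

theorem closure_polygon {δ : ℝ} (hδ : 0 < δ) (T : Finset Tri) :
    closure (polygon δ T) = Pt δ T := by
  rw [polygon_eq, Pt_eq, (TriTil353.tiling hδ).closure_interior_U]

theorem isCompact_tri (δ : ℝ) (t : Tri) : IsCompact (triRegion δ t) := by
  unfold triRegion
  exact ((Finset.finite_toSet _).image _).isCompact_convexHull ℝ

theorem isCompact_Pt (δ : ℝ) (T : Finset Tri) : IsCompact (Pt δ T) :=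
  T.isCompact_biUnion fun t _ => isCompact_tri δ t

theorem compl_Pt {δ : ℝ} (hδ : 0 < δ) (T : Finset Tri) :
    (Pt δ T)ᶜ = interior (U (triRegion δ) ((T : Set Tri)ᶜ)) := by
  rw [Pt_eq, (TriTil353.tiling hδ).compl_U]

/-- centres of boundary vertices lie on the frontier -/
theorem centre_mem_frontier {δ : ℝ} (hδ : 0 < δ) {T : Finset Tri} {v : ℤ × ℤ}
    (h : IsBoundaryVertex T v) : centre δ v ∈ frontier (polygon δ T) := by
  obtain ⟨h1, h2⟩ := boundaryVertex_iff.1 h
  obtain ⟨l, hl⟩ := mem_verts.1 h1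
  rw [mem_Lam] at h2
  push Not at h2
  obtain ⟨m, hm⟩ := h2
  rw [polygon_eq, (TriTil353.tiling hδ).frontier_eq]
  exact ⟨mem_U.2 ⟨_, hl, corner_mem_hull δ _ (self_mem_star v l)⟩,
    mem_U.2 ⟨_, hm, corner_mem_hull δ _ (self_mem_star v m)⟩⟩

/-- centres of interior vertices lie in the polygon -/
theorem centre_mem_polygon {δ : ℝ} (hδ : 0 < δ) {T : Finset Tri} {v : ℤ × ℤ}
    (h : v ∈ Lam T) : centre δ v ∈ polygon δ T := by
  have h1 : centre δ v ∈ Pt δ T := by
    rw [Pt_eq]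
    exact mem_U.2 ⟨_, mem_Lam.1 h 0, corner_mem_hull δ _ (self_mem_star v 0)⟩
  rw [polygon_eq]
  by_contra hcon
  have h2 : centre δ v ∈ frontier (interior (U (triRegion δ) (T : Set Tri))) := by
    rw [frontier, interior_interior, (TriTil353.tiling hδ).closure_interior_U, ← Pt_eq]
    exact ⟨h1, hcon⟩
  rw [(TriTil353.tiling hδ).frontier_eq] at h2
  obtain ⟨t, ht, hvt⟩ := mem_U.1 h2.2
  -- the triangle t contains the centre of v, so v is a corner of t
  have h3 : v ∈ corners t := by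
    have := (mem_triRegion hδ t _).1 hvt
    rw [ca_centre hδ, cb_centre hδ] at this
    obtain ⟨⟨i, j⟩, b⟩ := t
    obtain ⟨p, q⟩ := v
    cases b
    · rw [InT_dn] at this
      obtain ⟨g1, g2, g3⟩ := this
      simp only at g1 g2 g3
      have f1 : p ≤ i + 1 := by exact_mod_cast g1
      have f2 : q ≤ j + 1 := by exact_mod_cast g2
      have f3 : i + j + 1 ≤ p + q := by exact_mod_cast g3
      rw [mem_corners_dn]
      simp only [Prod.mk.injEq]
      omega
    · rw [InT_up] at this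
      obtain ⟨g1, g2, g3⟩ := this
      simp only at g1 g2 g3
      have f1 : i ≤ p := by exact_mod_cast g1
      have f2 : j ≤ q := by exact_mod_cast g2
      have f3 : p + q ≤ i + j + 1 := by exact_mod_cast g3
      rw [mem_corners_up]
      simp only [Prod.mk.injEq]
      omega
  obtain ⟨k, rfl⟩ := mem_star.1 h3
  exact ht (mem_Lam.1 h k)

theorem conn_of_vc {δ : ℝ} (hδ : 0 < δ) {S : Set Tri} (hV : VC S) (hS : Sᶜ.Nonempty)
    (hJ : IsPreconnected (frontier (interior (U (triRegion δ) S)))) : Conn TAdj S :=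
  (TriTil353.tiling hδ).rel_of hS hJ (E := TCh S) (fun _ => Relation.ReflTransGen.refl)
    (fun _ _ _ h1 h2 => Relation.ReflTransGen.trans h1 h2) (chain_loc hδ hV)

theorem chain_of_conn {δ : ℝ} (hδ : 0 < δ) {S : Set Tri} (h : Conn TAdj S) :
    ∀ i ∈ S, ∀ j ∈ S, Tiling.Chain (triRegion δ) S i j := by
  intro i hi j hj
  have := h i hi j hj
  unfold Tiling.Chain
  induction this with
  | refl => exact Relation.ReflTransGen.refl
  | tail _ hs ih => exact (ih hs.1).tail ⟨hs.1, hs.2.1, glued_of_tadj hδ hs.2.2⟩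

/-- **The lattice block for S0196 / S0197.** -/
theorem tri_domain {δ : ℝ} (hδ : 0 < δ) {T : Finset Tri} {c : ℝ → ℂ} (hc : Continuous c)
    (hp : Function.Periodic c (2 * Real.pi)) (hi : InjOn c (Ico 0 (2 * Real.pi)))
    (hr : range c = frontier (polygon δ T)) :
    VC (T : Set Tri) ∧ T.Nonempty ∧ Conn TAdj (T : Set Tri) ∧ Conn TAdj ((T : Set Tri)ᶜ) ∧
    IsPreconnected (polygon δ T) ∧ IsPreconnected (Pt δ T)ᶜ ∧ ¬ Bornology.IsBounded (Pt δ T)ᶜ := by
  have hT := TriTil353.tiling hδ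
  rw [polygon_eq] at hr ⊢
  have hV : VC (T : Set Tri) := vc_of_curve hδ hc hp hi hr
  have hJ : IsPreconnected (frontier (interior (U (triRegion δ) (T : Set Tri)))) := by
    rw [← hr]
    exact isPreconnected_range hc
  have hne : T.Nonempty := by
    by_contra h
    rw [Finset.not_nonempty_iff_eq_empty] at h
    subst h
    have h1 : c 0 ∈ frontier (interior (U (triRegion δ) ((∅ : Finset Tri) : Set Tri))) := by
      rw [← hr]; exact mem_range_self 0
    rw [hT.frontier_eq] at h1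
    obtain ⟨t, ht, _⟩ := mem_U.1 h1.1
    simp at ht
  have hcompl : ((T : Set Tri)ᶜ).Nonempty := by
    obtain ⟨u, hu⟩ := Infinite.exists_notMem_finset T
    exact ⟨u, by simpa using hu⟩
  have h1 := conn_of_vc hδ hV hcompl hJ
  have h2 : Conn TAdj ((T : Set Tri)ᶜ) := by
    refine conn_of_vc hδ hV.compl (by rw [compl_compl]; exact_mod_cast hne) ?_
    rw [← hT.frontier_eq']
    exact hJ
  refine ⟨hV, hne, h1, h2, hT.preconnected_interior (chain_of_conn hδ h1), ?_,
    not_isBounded_compl (isCompact_Pt δ T).isBounded⟩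
  rw [compl_Pt hδ]
  exact hT.preconnected_interior (chain_of_conn hδ h2)

end Crest.Agent.R144.TriDom353
end
end

-- ▼ part R144/Cov_353

/-!
# R144 / Cov_353 : covering of compact sets, neighbourhoods, simple connectivity in site form
-/

set_option autoImplicit false

noncomputable section

namespace Crest.Agent.R144.Cov353

open Set Topology Filter Crest.ProbabilityR.HexHeights Crest.ProbabilityR.TriHeights
open Crest.Agent.R144.Til353 Crest.Agent.R144.HexTil353 Crest.Agent.R144.HexDom353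
open Crest.Agent.R144.TriTil353 Crest.Agent.R144.TriDom353 Crest.Agent.R144.Geo268
open Crest.Agent.R144.It844

/-! ### triangles -/

section tri

variable {D : Set ℂ} {γ : ℝ → ℂ} {θ : ℝ} {δ : ℕ → ℝ} {T : ℕ → Finset Tri}
  {ea eb : ℕ → (ℤ × ℤ) × (ℤ × ℤ)} {c : ℕ → ℝ → ℂ}

theorem cur_of (hA : IsMarkedApprox γ θ δ T ea eb c) (n : ℕ) : Cur (c n) :=
  ⟨(hA.2.2.2.1 n).1, (hA.2.2.2.1 n).2.1⟩

theorem dom_of (hA : IsMarkedApprox γ θ δ T ea eb c) (n : ℕ) :
    VC (T n : Set Tri) ∧ (T n).Nonempty ∧ Conn TAdj (T n : Set Tri) ∧ Conn TAdj ((T n : Set Tri)ᶜ) ∧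
    IsPreconnected (polygon (δ n) (T n)) ∧ IsPreconnected (Pt (δ n) (T n))ᶜ ∧
    ¬ Bornology.IsBounded (Pt (δ n) (T n))ᶜ :=
  tri_domain (hA.1 n) (hA.2.2.2.1 n).1 (hA.2.2.2.1 n).2.1 (hA.2.2.2.1 n).2.2.1
    (hA.2.2.2.1 n).2.2.2.1

theorem range_eq (hA : IsMarkedApprox γ θ δ T ea eb c) (n : ℕ) :
    range (c n) = frontier (polygon (δ n) (T n)) := (hA.2.2.2.1 n).2.2.2.1

theorem isOpen_polygon (δ : ℝ) (T : Finset Tri) : IsOpen (polygon δ T) := isOpen_interior

theorem polygon_disj (hA : IsMarkedApprox γ θ δ T ea eb c) (n : ℕ) :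
    Disjoint (polygon (δ n) (T n)) (range (c n)) := by
  rw [range_eq hA n]
  exact Set.disjoint_iff_inter_eq_empty.2 (isOpen_polygon _ _).inter_frontier_eq

theorem compl_disj (hA : IsMarkedApprox γ θ δ T ea eb c) (n : ℕ) :
    Disjoint (Pt (δ n) (T n))ᶜ (range (c n)) := by
  rw [range_eq hA n, Set.disjoint_left]
  intro z hz hz'
  rw [← closure_polygon (hA.1 n)] at hz
  exact hz (frontier_subset_closure hz')

theorem wn_zero (hA : IsMarkedApprox γ θ δ T ea eb c) (n : ℕ) {z : ℂ}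
    (h1 : z ∉ polygon (δ n) (T n)) (h2 : z ∉ range (c n)) : wn (c n) z = 0 := by
  obtain ⟨_, _, _, _, _, h3, h4⟩ := dom_of hA n
  refine wn_unbounded (cur_of hA n) h3 (compl_disj hA n) h4 ?_
  intro h5
  rw [← closure_polygon (hA.1 n)] at h5
  rw [range_eq hA n, frontier, (isOpen_polygon _ _).interior_eq] at h2
  exact h2 ⟨h5, h1⟩

/-- **(T1)** compact subsets of `D` are eventually covered. -/
theorem tri_cover (hD : IsSmoothMarkedDomain D γ θ) (hA : IsMarkedApprox γ θ δ T ea eb c)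
    {K : Set ℂ} (hK : IsCompact K) (hKD : K ⊆ D) :
    ∀ᶠ n in atTop, K ⊆ polygon (δ n) (T n) :=
  (dom_of_marked hD).eventually_subset (cur_of hA) hA.2.2.2.2 (fun n _ h1 h2 => wn_zero hA n h1 h2)
    hK hKD

/-- **(T2)** the polygons are eventually in every neighbourhood of `D`. -/
theorem tri_near (hD : IsSmoothMarkedDomain D γ θ) (hA : IsMarkedApprox γ θ δ T ea eb c)
    {ε : ℝ} (hε : 0 < ε) : ∀ᶠ n in atTop, ∀ z ∈ polygon (δ n) (T n), Metric.infDist z D < ε := by
  obtain ⟨z0, hz0⟩ := hD.2.2.1.nonempty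
  exact (dom_of_marked hD).eventually_near (cur_of hA) hA.2.2.2.2 (fun n => (dom_of hA n).2.2.2.2.1)
    (polygon_disj hA) hz0 ((tri_cover hD hA isCompact_singleton (singleton_subset_iff.2 hz0)).mono
      fun n hn => hn rfl) hε

/-- boundary vertices are eventually near the frontier of `D` -/
theorem tri_boundary_near (hD : IsSmoothMarkedDomain D γ θ) (hA : IsMarkedApprox γ θ δ T ea eb c)
    {ε : ℝ} (hε : 0 < ε) : ∀ᶠ n in atTop, ∀ v, IsBoundaryVertex (T n) v →
      Metric.infDist (centre (δ n) v) (frontier D) < ε := by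
  filter_upwards [Metric.tendstoUniformly_iff.1 hA.2.2.2.2 ε hε] with n hn v hv
  have h1 := centre_mem_frontier (hA.1 n) hv
  rw [← range_eq hA n] at h1
  obtain ⟨s, hs⟩ := h1
  have h2 : γ s ∈ frontier D := by
    rw [← hD.2.2.2.2.2.2.2.1]; exact mem_range_self s
  refine (Metric.infDist_le_dist_of_mem h2).trans_lt ?_
  rw [← hs, dist_comm]
  exact hn s

end tri


/-- a tile whose interior meets the union belongs to the set -/
theorem mem_of_int {ι : Type*} {C : ι → Set ℂ} (h : Tiling C) {S : Set ι} {i : ι}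
    (hi : C i ⊆ U C S) : i ∈ S := by
  by_contra hcon
  obtain ⟨z, hz⟩ := h.int_ne i
  exact Set.disjoint_left.1 (h.int_disj_U (S := S) hcon) hz (hi (interior_subset hz))


/-- compact subset of an open set: a closed neighbourhood is a compact subset too -/
theorem exists_thick {K D : Set ℂ} (hK : IsCompact K) (hD : IsOpen D) (hKD : K ⊆ D) :
    ∃ r > 0, IsCompact (Metric.cthickening r K) ∧ Metric.cthickening r K ⊆ D := by
  obtain ⟨r, hr, h⟩ := hK.exists_cthickening_subset_open hD hKD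
  exact ⟨r, hr, hK.cthickening, h⟩


/-! ### hexagons -/

theorem mem_intF_iff {F : Finset (ℤ × ℤ)} {v : ℤ × ℤ} :
    v ∈ intF F ↔ v ∈ F ∧ ∀ w, Adj v w → w ∈ F := by
  classical
  unfold intF bdryFaces
  rw [Finset.mem_sdiff, Finset.mem_filter]
  constructor
  · rintro ⟨h1, h2⟩
    refine ⟨h1, fun w hw => ?_⟩
    by_contra h3
    exact h2 ⟨h1, w, hw, h3⟩
  · rintro ⟨h1, h2⟩
    refine ⟨h1, ?_⟩
    rintro ⟨_, w, hw, h3⟩
    exact h3 (h2 w hw)

theorem dist_le_cell {δ : ℝ} (hδ : 0 < δ) {u : ℤ × ℤ} {z : ℂ} (hz : z ∈ cell δ u) :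
    dist z (centre δ u) ≤ δ := by
  have h1 := dist_le_of_mem_cell hδ hz
  refine (abs_le_of_sq_le_sq' ?_ hδ.le).2
  nlinarith [sq_nonneg (dist z (centre δ u))]

theorem intF_of_ball {δ : ℝ} (hδ : 0 < δ) {F : Finset (ℤ × ℤ)} {v : ℤ × ℤ}
    (h : Metric.closedBall (centre δ v) (2 * δ) ⊆ approxDomain δ F) : v ∈ intF F := by
  have key : ∀ w, dist (centre δ w) (centre δ v) ≤ δ → w ∈ F := by
    intro w hw
    have h1 : cell δ w ⊆ U (cell δ) (F : Set (ℤ × ℤ)) := by
      intro z hz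
      have h2 := dist_le_cell hδ hz
      have h3 := dist_triangle z (centre δ w) (centre δ v)
      have h4 := h (Metric.mem_closedBall.2 (by linarith))
      rw [approx_eq] at h4
      exact interior_subset h4
    exact_mod_cast mem_of_int (HexTil353.tiling hδ) h1
  rw [mem_intF_iff]
  refine ⟨key v (by rw [dist_self]; exact hδ.le), fun w hw => key w ?_⟩
  have h1 := dist_centre_sq δ v w
  rw [(adj_iff _ _).1 hw] at h1
  rw [dist_comm]
  have h2 : dist (centre δ v) (centre δ w) ^ 2 ≤ δ ^ 2 := by rw [h1]; simp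
  exact (abs_le_of_sq_le_sq' h2 hδ.le).2

/-- **Interior faces**: every face whose centre lies in a compact subset of `D` is interior. -/
theorem hex_sites {D : Set ℂ} {γ : ℝ → ℂ} {δ : ℕ → ℝ} {F : ℕ → Finset (ℤ × ℤ)}
    (hD : IsC2JordanDomain D γ) (hA : IsInsideApprox D γ δ F)
    {K : Set ℂ} (hK : IsCompact K) (hKD : K ⊆ D) :
    ∀ᶠ n in atTop, ∀ v, centre (δ n) v ∈ K → v ∈ intF (F n) := by
  obtain ⟨r, hr, hc, hs⟩ := exists_thick hK hD.1 hKD
  filter_upwards [hA.2.2.2.1 _ hc hs, hA.2.1.eventually (gt_mem_nhds (show 0 < r / 2 by positivity))]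
    with n h1 h2 v hv
  refine intF_of_ball (hA.1 n) fun z hz => h1 ?_
  refine Metric.closedBall_subset_cthickening hv r ?_
  rw [Metric.mem_closedBall] at hz ⊢
  linarith

/-- faces of `F n` have their centre in `D` -/
theorem hex_inside {D : Set ℂ} {γ : ℝ → ℂ} {δ : ℕ → ℝ} {F : ℕ → Finset (ℤ × ℤ)}
    (hA : IsInsideApprox D γ δ F) (n : ℕ) {v : ℤ × ℤ} (hv : v ∈ F n) : centre (δ n) v ∈ D := by
  apply hA.2.2.1 n
  refine interior_mono ?_ (interior_maximal (ball_subset_cell (hA.1 n) v) Metric.isOpen_ball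
    (Metric.mem_ball_self (by have := hA.1 n; linarith)))
  intro z hz
  exact mem_iUnion₂.2 ⟨v, hv, hz⟩

theorem hex_dom {D : Set ℂ} {γ : ℝ → ℂ} {δ : ℕ → ℝ} {F : ℕ → Finset (ℤ × ℤ)}
    (hA : IsInsideApprox D γ δ F) (n : ℕ) :
    (F n).Nonempty ∧ Conn Adj (F n : Set (ℤ × ℤ)) ∧ Conn Adj ((F n : Set (ℤ × ℤ))ᶜ) ∧
    IsPreconnected (approxDomain (δ n) (F n)) ∧ IsPreconnected (P (δ n) (F n))ᶜ ∧
    ¬ Bornology.IsBounded (P (δ n) (F n))ᶜ := by
  obtain ⟨c, hc, _⟩ := hA.2.2.2.2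
  obtain ⟨h1, h2, h3, h4⟩ := hc n
  have hJ : IsPreconnected (frontier (approxDomain (δ n) (F n))) := by
    rw [← h4]; exact isPreconnected_range h1
  have hne : (F n).Nonempty := by
    by_contra h
    rw [Finset.not_nonempty_iff_eq_empty] at h
    have h5 : c n 0 ∈ frontier (approxDomain (δ n) (F n)) := by rw [← h4]; exact mem_range_self 0
    rw [approx_eq, (HexTil353.tiling (hA.1 n)).frontier_eq] at h5
    obtain ⟨t, ht, _⟩ := mem_U.1 h5.1
    rw [h] at ht
    simp at ht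
  obtain ⟨g1, g2, g3, g4, g5⟩ := hex_domain (hA.1 n) hJ
  exact ⟨hne, g1, g2 hne, g3, g4 hne, g5⟩

/-- boundary faces are near the frontier of `D` -/
theorem hex_boundary_near {D : Set ℂ} {γ : ℝ → ℂ} {δ : ℕ → ℝ} {F : ℕ → Finset (ℤ × ℤ)}
    (hD : IsC2JordanDomain D γ) (hA : IsInsideApprox D γ δ F) {ε : ℝ} (hε : 0 < ε) :
    ∀ᶠ n in atTop, ∀ v ∈ F n, v ∉ intF (F n) →
      Metric.infDist (centre (δ n) v) (frontier D) < ε := by
  obtain ⟨c, hc, hu⟩ := hA.2.2.2.2
  filter_upwards [Metric.tendstoUniformly_iff.1 hu (ε / 2) (by positivity),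
    hA.2.1.eventually (gt_mem_nhds (show 0 < ε / 2 by positivity))] with n hn h2 v hv hv'
  rw [mem_intF_iff] at hv'
  push Not at hv'
  obtain ⟨w, hw, hwF⟩ := hv' hv
  -- common point of the two cells
  obtain ⟨m, hm1, hm2, _⟩ := glued_of_adj (hA.1 n) hw
  have h3 : m ∈ frontier (approxDomain (δ n) (F n)) := by
    rw [approx_eq, (HexTil353.tiling (hA.1 n)).frontier_eq]
    exact ⟨mem_U.2 ⟨v, by exact_mod_cast hv, hm1⟩, mem_U.2 ⟨w, by simpa using hwF, hm2⟩⟩
  rw [← (hc n).2.2.2] at h3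
  obtain ⟨s, hs⟩ := h3
  have h4 : γ s ∈ frontier D := by
    rw [← hD.2.2.2.2.2.2.2]; exact mem_range_self s
  refine (Metric.infDist_le_dist_of_mem h4).trans_lt ?_
  have h5 := dist_le_cell (hA.1 n) hm1
  have h6 := hn s
  rw [hs] at h6
  have h7 := dist_triangle (centre (δ n) v) m (γ s)
  rw [dist_comm (centre (δ n) v) m, dist_comm m (γ s)] at h7
  linarith

/-! ### simple connectivity in site form -/

theorem conn_step {S : Set (ℤ × ℤ)} {u v : ℤ × ℤ} (hu : u ∈ S) (hv : v ∈ S) (h : u = v ∨ Adj u v) :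
    Relation.ReflTransGen (fun a b => a ∈ S ∧ b ∈ S ∧ Adj a b) u v := by
  rcases h with rfl | h
  · exact Relation.ReflTransGen.refl
  · exact Relation.ReflTransGen.single ⟨hu, hv, h⟩

theorem conn_mono {S S' : Set (ℤ × ℤ)} (h : S ⊆ S') {u v : ℤ × ℤ}
    (hc : Relation.ReflTransGen (fun a b => a ∈ S ∧ b ∈ S ∧ Adj a b) u v) :
    Relation.ReflTransGen (fun a b => a ∈ S' ∧ b ∈ S' ∧ Adj a b) u v := by
  induction hc with
  | refl => exact Relation.ReflTransGen.refl
  | tail _ hs ih => exact ih.tail ⟨h hs.1, h hs.2.1, hs.2.2⟩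

theorem adj_symm' {u v : ℤ × ℤ} (h : Adj u v) : Adj v u := by
  unfold Adj at h ⊢; omega

/-- **Hexagons**: the complement of the interior faces is connected. -/
theorem hex_compl_conn {F : Finset (ℤ × ℤ)} (h : Conn Adj ((F : Set (ℤ × ℤ))ᶜ)) :
    Conn Adj ((intF F : Set (ℤ × ℤ))ᶜ) := by
  have hsub : ((F : Set (ℤ × ℤ))ᶜ) ⊆ ((intF F : Set (ℤ × ℤ))ᶜ) := by
    intro u hu hu'
    exact hu (by exact_mod_cast (mem_intF_iff.1 (by exact_mod_cast hu')).1)
  -- every site outside is joined to a site outside `F`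
  have key : ∀ u ∈ ((intF F : Set (ℤ × ℤ))ᶜ), ∃ w ∈ ((F : Set (ℤ × ℤ))ᶜ), u = w ∨ Adj u w := by
    intro u hu
    by_cases huF : u ∈ F
    · have h1 : ¬ (u ∈ F ∧ ∀ w, Adj u w → w ∈ F) := fun h2 => hu (by
        exact_mod_cast mem_intF_iff.2 h2)
      push Not at h1
      obtain ⟨w, hw, hwF⟩ := h1 huF
      exact ⟨w, by simpa using hwF, Or.inr hw⟩
    · exact ⟨u, by simpa using huF, Or.inl rfl⟩
  intro u hu v hv
  obtain ⟨u', hu', h1⟩ := key u hu
  obtain ⟨v', hv', h2⟩ := key v hv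
  refine ((conn_step hu (hsub hu') h1).trans (conn_mono hsub (h u' hu' v' hv'))).trans ?_
  refine conn_step (hsub hv') hv ?_
  rcases h2 with h2 | h2
  · exact Or.inl h2.symm
  · exact Or.inr (adj_symm' h2)

theorem corners_adj {t : Tri} {u v : ℤ × ℤ} (hu : u ∈ corners t) (hv : v ∈ corners t) :
    u = v ∨ Adj u v := by
  by_cases h : u = v
  · exact Or.inl h
  · obtain ⟨k, rfl⟩ := exists_nb hu hv h
    exact Or.inr ((adj_iff_nb _ _).2 ⟨k, rfl⟩)

theorem tadj_common {t t' : Tri} (h : TAdj t t') : ∃ s, s ∈ corners t ∧ s ∈ corners t' := by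
  obtain ⟨⟨i, j⟩, b⟩ := t
  obtain ⟨⟨p, q⟩, b'⟩ := t'
  have hud : ∀ (i j p q : ℤ), UD (i, j) (p, q) →
      ∃ s, s ∈ corners ((i, j), true) ∧ s ∈ corners ((p, q), false) := by
    intro i j p q h
    simp only [UD, Prod.mk.injEq] at h
    rcases h with ⟨rfl, rfl⟩ | ⟨rfl, rfl⟩ | ⟨rfl, rfl⟩
    · exact ⟨(p + 1, q), mem_corners_up.2 (by simp), mem_corners_dn.2 (by simp)⟩
    · exact ⟨(i, q), mem_corners_up.2 (by simp), mem_corners_dn.2 (by simp)⟩
    · exact ⟨(p, j), mem_corners_up.2 (by simp), mem_corners_dn.2 (by simp)⟩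
  rcases h with ⟨h1, h2, h3⟩ | ⟨h1, h2, h3⟩
  · simp only at h1 h2 h3
    subst h1; subst h2
    exact hud i j p q h3
  · simp only at h1 h2 h3
    subst h1; subst h2
    obtain ⟨s, hs1, hs2⟩ := hud p q i j h3
    exact ⟨s, hs2, hs1⟩

/-- **Triangles**: the complement of the interior vertices is connected. -/
theorem tri_compl_conn {T : Finset Tri} (h : Conn TAdj ((T : Set Tri)ᶜ)) :
    Conn Adj ((Lam T : Set (ℤ × ℤ))ᶜ) := by
  have hsub : ∀ t ∈ ((T : Set Tri)ᶜ), ∀ s ∈ corners t, s ∈ ((Lam T : Set (ℤ × ℤ))ᶜ) := by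
    intro t ht s hs hs'
    obtain ⟨k, rfl⟩ := mem_star.1 hs
    have h2 : s ∈ Lam T := by exact_mod_cast hs'
    exact ht (by exact_mod_cast mem_Lam.1 h2 k)
  have key : ∀ u ∈ ((Lam T : Set (ℤ × ℤ))ᶜ), ∃ t ∈ ((T : Set Tri)ᶜ), u ∈ corners t := by
    intro u hu
    have h1 : ¬ ∀ k, star u k ∈ T := fun h2 => hu (by exact_mod_cast mem_Lam.2 h2)
    push Not at h1
    obtain ⟨k, hk⟩ := h1
    exact ⟨star u k, by simpa using hk, self_mem_star u k⟩
  -- along a chain of triangles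
  have hch : ∀ t t', Relation.ReflTransGen (fun a b => a ∈ ((T : Set Tri)ᶜ) ∧ b ∈ ((T : Set Tri)ᶜ) ∧
      TAdj a b) t t' → t ∈ ((T : Set Tri)ᶜ) → ∀ u ∈ corners t, ∀ v ∈ corners t',
      Relation.ReflTransGen (fun a b => a ∈ ((Lam T : Set (ℤ × ℤ))ᶜ) ∧
        b ∈ ((Lam T : Set (ℤ × ℤ))ᶜ) ∧ Adj a b) u v := by
    intro t t' hc ht
    induction hc with
    | refl =>
      intro u hu v hv
      exact conn_step (hsub t ht u hu) (hsub t ht v hv) (corners_adj hu hv)
    | tail _ hs ih =>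
      intro u hu v hv
      obtain ⟨s, hs1, hs2⟩ := tadj_common hs.2.2
      exact (ih u hu s hs1).trans (conn_step (hsub _ hs.1 s hs1) (hsub _ hs.2.1 v hv)
        (corners_adj hs2 hv))
  intro u hu v hv
  obtain ⟨t, ht, hut⟩ := key u hu
  obtain ⟨t', ht', hvt'⟩ := key v hv
  exact hch t t' (h t ht t' ht') ht u hut v hvt'

end Crest.Agent.R144.Cov353
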