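import Crest.Agent.R144.Geo3_268

/-!
# R144 (helper549): the segment property of `C¹` Jordan domains

Near every boundary point there is a direction `ν` such that `z + t ν ∈ D` for all `z ∈ closure D` near
the point and all small `t > 0`.
-/

set_option autoImplicit false

open Set Topology Filter Metric

namespace Crest.Agent.R144.Seg549

open Crest.Agent.R144.Geo268

variable {D : Set ℂ} {γ : ℝ → ℂ}





/-- the frontier is a null set -/
theorem volume_frontier (h : Dom D γ) : MeasureTheory.volume (frontier D) = 0 := by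
  rw [← h.fr]
  set G : ℂ → ℂ := fun z => γ z.re with hG
  have h1 : range γ = G '' univ := by
    ext w
    constructor
    · rintro ⟨s, rfl⟩
      exact ⟨(s : ℂ), mem_univ _, by simp [hG]⟩
    · rintro ⟨z, -, rfl⟩
      exact ⟨z.re, rfl⟩
  rw [h1]
  have h2 : ∀ z ∈ (univ : Set ℂ), HasFDerivWithinAt G
      (Complex.reCLM.smulRight (deriv γ z.re) : ℂ →L[ℝ] ℂ) univ z := by
    intro z _
    have h3 : HasDerivAt γ (deriv γ z.re) z.re := (h.reg.diff z.re).hasDerivAt
    have h4 : HasFDerivAt G
        ((ContinuousLinearMap.toSpanSingleton ℝ (deriv γ z.re)).comp Complex.reCLM) z :=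
      h3.hasFDerivAt.comp z Complex.reCLM.hasFDerivAt
    have h5 : ((ContinuousLinearMap.toSpanSingleton ℝ (deriv γ z.re)).comp Complex.reCLM :
        ℂ →L[ℝ] ℂ) = Complex.reCLM.smulRight (deriv γ z.re) := by
      ext v <;> simp
    rw [h5] at h4
    exact h4.hasFDerivWithinAt
  refine MeasureTheory.addHaar_image_eq_zero_of_det_fderivWithin_eq_zero MeasureTheory.volume h2
    fun z _ => ?_
  rw [ContinuousLinearMap.det, ← LinearMap.det_toMatrix Complex.basisOneI, Matrix.det_fin_two]
  simp [LinearMap.toMatrix_apply]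

end Crest.Agent.R144.Seg549
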