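import Mathlib
import Crest.Agent.R144.Geo6_268
import Crest.Agent.R144.Geo5_268
import Crest.Agent.R144.Cov_353
import Crest.Agent.R144.Seg_549

-- ▼ part R144/Geo7_268
section

/-! R144 (helper268) GEO block, file 7: the hexagonal cell in lattice coordinates, its kernel
(mass `1`), partition of unity, `ℓ¹` bounds of the weights. -/

set_option autoImplicit false

noncomputable section

open Set Topology Filter Metric MeasureTheory

namespace Crest.Agent.R144.Geo268

open Crest.ProbabilityR.HexHeights Crest.ProbabilityR.TriHeights Crest.Agent.R144.HexTil353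

/-- the cell in lattice coordinates -/
def hexSet : Set (ℝ × ℝ) := {p | |2 * p.1 + p.2| ≤ 1 ∧ |p.1 + 2 * p.2| ≤ 1 ∧ |p.1 - p.2| ≤ 1}

/-- integer inequality behind the Voronoi cell -/
theorem hex_int (a b : ℤ) {P Q : ℝ} (hP : |P| ≤ 1) (hQ : |Q| ≤ 1) (hPQ : |P - Q| ≤ 1) :
    P * a + Q * b ≤ (a : ℝ) ^ 2 + a * b + b ^ 2 := by
  rw [abs_le] at hP hQ hPQ
  -- `|n| ≤ n²` for integers
  have hsq : ∀ n : ℤ, (n : ℝ) ≤ (n : ℝ) ^ 2 ∧ -(n : ℝ) ≤ (n : ℝ) ^ 2 := by
    intro n
    constructor
    · have : n ≤ n ^ 2 := by nlinarith [sq_nonneg (n - 1), sq_nonneg n, Int.le_self_sq n]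
      exact_mod_cast this
    · have : -n ≤ n ^ 2 := by
        have := Int.le_self_sq (-n)
        nlinarith
      exact_mod_cast this
  rcases le_total 0 a with ha | ha <;> rcases le_total 0 b with hb | hb
  · -- both ≥ 0
    have ha' : (0 : ℝ) ≤ a := by exact_mod_cast ha
    have hb' : (0 : ℝ) ≤ b := by exact_mod_cast hb
    nlinarith [mul_le_mul_of_nonneg_right hP.2 ha', mul_le_mul_of_nonneg_right hQ.2 hb',
      (hsq a).1, (hsq b).1, mul_nonneg ha' hb']
  · -- a ≥ 0 ≥ b
    have ha' : (0 : ℝ) ≤ a := by exact_mod_cast ha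
    have hb' : (0 : ℝ) ≤ -b := by
      have : 0 ≤ -b := by omega
      exact_mod_cast this
    rcases le_total 0 (a + b) with hab | hab
    · have hab' : (0 : ℝ) ≤ (a : ℝ) + b := by exact_mod_cast hab
      -- P a + Q b = P (a + b) + (P - Q) (-b)
      have e1 : P * a + Q * b = P * (a + b) + (P - Q) * (-b) := by ring
      rw [e1]
      have h1 : P * (a + b) ≤ 1 * (a + b) := mul_le_mul_of_nonneg_right hP.2 hab'
      have h2 : (P - Q) * (-b) ≤ 1 * (-b) := mul_le_mul_of_nonneg_right hPQ.2 hb'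
      have h3 : (a : ℤ) ≤ a ^ 2 + a * b + b ^ 2 := by
        rcases eq_or_lt_of_le hab with h4 | h4
        · have h5 : b = -a := by omega
          rw [h5]
          nlinarith [Int.le_self_sq a]
        · nlinarith [mul_nonneg ha (by omega : (0:ℤ) ≤ a + b - 1), sq_nonneg b]
      have h4 : (a : ℝ) ≤ (a : ℝ) ^ 2 + a * b + b ^ 2 := by exact_mod_cast h3
      linarith
    · have hab' : (0 : ℝ) ≤ -((a : ℝ) + b) := by
        have : 0 ≤ -(a + b) := by omega
        exact_mod_cast this
      -- P a + Q b = (P - Q) a + Q (a + b)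
      have e1 : P * a + Q * b = (P - Q) * a + (-Q) * (-((a:ℝ) + b)) := by ring
      rw [e1]
      have h1 : (P - Q) * a ≤ 1 * a := mul_le_mul_of_nonneg_right hPQ.2 ha'
      have h2 : (-Q) * (-((a:ℝ) + b)) ≤ 1 * (-((a:ℝ) + b)) :=
        mul_le_mul_of_nonneg_right (by linarith [hQ.1]) hab'
      have h3 : (-b : ℤ) ≤ a ^ 2 + a * b + b ^ 2 := by
        rcases eq_or_lt_of_le hab with h4 | h4
        · have h5 : b = -a := by omega
          rw [h5]
          nlinarith [Int.le_self_sq a]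
        · nlinarith [mul_nonneg (by omega : (0:ℤ) ≤ -b) (by omega : (0:ℤ) ≤ -(a + b) - 1), sq_nonneg a]
      have h4 : (-b : ℝ) ≤ (a : ℝ) ^ 2 + a * b + b ^ 2 := by exact_mod_cast h3
      linarith
  · -- a ≤ 0 ≤ b
    have ha' : (0 : ℝ) ≤ -a := by
      have : 0 ≤ -a := by omega
      exact_mod_cast this
    have hb' : (0 : ℝ) ≤ b := by exact_mod_cast hb
    rcases le_total 0 (a + b) with hab | hab
    · have hab' : (0 : ℝ) ≤ (a : ℝ) + b := by exact_mod_cast hab
      have e1 : P * a + Q * b = Q * (a + b) + (-(P - Q)) * (-a) := by ring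
      rw [e1]
      have h1 : Q * (a + b) ≤ 1 * (a + b) := mul_le_mul_of_nonneg_right hQ.2 hab'
      have h2 : (-(P - Q)) * (-a) ≤ 1 * (-a) := mul_le_mul_of_nonneg_right (by linarith [hPQ.1]) ha'
      have h3 : (b : ℤ) ≤ a ^ 2 + a * b + b ^ 2 := by
        rcases eq_or_lt_of_le hab with h4 | h4
        · have h5 : b = -a := by omega
          rw [h5]
          nlinarith [Int.le_self_sq (-a)]
        · nlinarith [mul_nonneg hb (by omega : (0:ℤ) ≤ a + b - 1), sq_nonneg a]
      have h4 : (b : ℝ) ≤ (a : ℝ) ^ 2 + a * b + b ^ 2 := by exact_mod_cast h3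
      linarith
    · have hab' : (0 : ℝ) ≤ -((a : ℝ) + b) := by
        have : 0 ≤ -(a + b) := by omega
        exact_mod_cast this
      have e1 : P * a + Q * b = (-P) * (-((a:ℝ) + b)) + (-(P - Q)) * b := by ring
      rw [e1]
      have h1 : (-P) * (-((a:ℝ) + b)) ≤ 1 * (-((a:ℝ) + b)) :=
        mul_le_mul_of_nonneg_right (by linarith [hP.1]) hab'
      have h2 : (-(P - Q)) * b ≤ 1 * b := mul_le_mul_of_nonneg_right (by linarith [hPQ.1]) hb'
      have h3 : (-a : ℤ) ≤ a ^ 2 + a * b + b ^ 2 := by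
        rcases eq_or_lt_of_le hab with h4 | h4
        · have h5 : b = -a := by omega
          rw [h5]
          nlinarith [Int.le_self_sq (-a)]
        · nlinarith [mul_nonneg (by omega : (0:ℤ) ≤ -a) (by omega : (0:ℤ) ≤ -(a + b) - 1), sq_nonneg b]
      have h4 : (-a : ℝ) ≤ (a : ℝ) ^ 2 + a * b + b ^ 2 := by exact_mod_cast h3
      linarith
  · -- both ≤ 0
    have ha' : (0 : ℝ) ≤ -a := by
      have : 0 ≤ -a := by omega
      exact_mod_cast this
    have hb' : (0 : ℝ) ≤ -b := by
      have : 0 ≤ -b := by omega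
      exact_mod_cast this
    have h1 : (-P) * (-a) ≤ 1 * (-a) := mul_le_mul_of_nonneg_right (by linarith [hP.1]) ha'
    have h2 : (-Q) * (-b) ≤ 1 * (-b) := mul_le_mul_of_nonneg_right (by linarith [hQ.1]) hb'
    nlinarith [(hsq a).2, (hsq b).2, mul_nonneg ha' hb']

theorem mem_cell_coord {δ : ℝ} (hδ : 0 < δ) (u : ℤ × ℤ) (z : ℂ) :
    z ∈ cell δ u ↔ (ca δ z - u.1, cb δ z - u.2) ∈ hexSet := by
  set x := ca δ z - u.1 with hx
  set y := cb δ z - u.2 with hy
  have hdist : ∀ v : ℤ × ℤ, dist z (centre δ v) ^ 2 =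
      δ ^ 2 * N (x - (v.1 - u.1)) (y - (v.2 - u.2)) := by
    intro v
    conv_lhs => rw [← cen_ca_cb hδ z, centre_eq]
    rw [dist_cen_sq, hx, hy]
    congr 2 <;> ring
  have h0 : dist z (centre δ u) ^ 2 = δ ^ 2 * N x y := by
    have := hdist u
    simpa using this
  have hle : ∀ v : ℤ × ℤ, dist z (centre δ u) ≤ dist z (centre δ v) ↔
      N x y ≤ N (x - (v.1 - u.1)) (y - (v.2 - u.2)) := by
    intro v
    rw [← sq_le_sq₀ dist_nonneg dist_nonneg, h0, hdist v]
    exact mul_le_mul_iff_right₀ (by positivity)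
  constructor
  · intro hz
    have hN : ∀ a b : ℤ, N x y ≤ N (x - a) (y - b) := by
      intro a b
      have := (hle (u.1 + a, u.2 + b)).1 (hz _)
      simpa using this
    have e1 := hN 1 0
    have e2 := hN (-1) 0
    have e3 := hN 0 1
    have e4 := hN 0 (-1)
    have e5 := hN 1 (-1)
    have e6 := hN (-1) 1
    unfold N at e1 e2 e3 e4 e5 e6
    push_cast at e1 e2 e3 e4 e5 e6
    refine ⟨?_, ?_, ?_⟩ <;> rw [abs_le] <;> constructor <;> nlinarith
  · rintro ⟨h1, h2, h3⟩ v
    rw [hle v]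
    have h4 : |(2 * x + y) - (x + 2 * y)| ≤ 1 := by
      have : (2 * x + y) - (x + 2 * y) = x - y := by ring
      rw [this]; exact h3
    have := hex_int (v.1 - u.1) (v.2 - u.2) h1 h2 h4
    push_cast at this
    unfold N
    nlinarith

theorem isClosed_hexSet : IsClosed hexSet := by
  have h1 : Continuous fun p : ℝ × ℝ => |2 * p.1 + p.2| := by fun_prop
  have h2 : Continuous fun p : ℝ × ℝ => |p.1 + 2 * p.2| := by fun_prop
  have h3 : Continuous fun p : ℝ × ℝ => |p.1 - p.2| := by fun_prop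
  exact (isClosed_le h1 continuous_const).inter
    ((isClosed_le h2 continuous_const).inter (isClosed_le h3 continuous_const))

theorem hex_slice (x : ℝ) :
    (volume : Measure ℝ) (Prod.mk x ⁻¹' hexSet) = ENNReal.ofReal (min 1 (2 - 3 * |x|)) := by
  have h1 : Prod.mk x ⁻¹' hexSet = Icc (-1 - 2 * x) (1 - 2 * x) ∩ Icc ((-1 - x) / 2) ((1 - x) / 2)
      ∩ Icc (x - 1) (x + 1) := by
    ext y
    simp only [hexSet, mem_preimage, mem_ofPred_eq, mem_inter_iff, mem_Icc, abs_le]
    constructor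
    · rintro ⟨⟨a1, a2⟩, ⟨a3, a4⟩, a5, a6⟩
      refine ⟨⟨⟨?_, ?_⟩, ?_, ?_⟩, ?_, ?_⟩ <;> linarith
    · rintro ⟨⟨⟨a1, a2⟩, a3, a4⟩, a5, a6⟩
      refine ⟨⟨?_, ?_⟩, ⟨?_, ?_⟩, ?_, ?_⟩ <;> linarith
  rw [h1, Icc_inter_Icc, Icc_inter_Icc, Real.volume_Icc]
  congr 1
  rcases le_total 0 x with hx | hx
  · rw [abs_of_nonneg hx, sup_eq_right.2 (by linarith : -1 - 2 * x ≤ (-1 - x) / 2)]
    rcases le_total x (1 / 3) with h | h
    · rw [inf_eq_right.2 (by linarith : (1 - x) / 2 ≤ 1 - 2 * x),
        inf_eq_left.2 (by linarith : (1 - x) / 2 ≤ x + 1),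
        sup_eq_left.2 (by linarith : x - 1 ≤ (-1 - x) / 2), min_eq_left (by linarith)]
      ring
    · rw [inf_eq_left.2 (by linarith : 1 - 2 * x ≤ (1 - x) / 2),
        inf_eq_left.2 (by linarith : 1 - 2 * x ≤ x + 1),
        sup_eq_right.2 (by linarith : (-1 - x) / 2 ≤ x - 1), min_eq_right (by linarith)]
      ring
  · rw [abs_of_nonpos hx, inf_eq_right.2 (by linarith : (1 - x) / 2 ≤ 1 - 2 * x)]
    rcases le_total (-(1 / 3)) x with h | h
    · rw [sup_eq_right.2 (by linarith : -1 - 2 * x ≤ (-1 - x) / 2),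
        inf_eq_left.2 (by linarith : (1 - x) / 2 ≤ x + 1),
        sup_eq_left.2 (by linarith : x - 1 ≤ (-1 - x) / 2), min_eq_left (by linarith)]
      ring
    · rw [sup_eq_left.2 (by linarith : (-1 - x) / 2 ≤ -1 - 2 * x),
        inf_eq_right.2 (by linarith : x + 1 ≤ (1 - x) / 2),
        sup_eq_left.2 (by linarith : x - 1 ≤ -1 - 2 * x), min_eq_right (by linarith)]
      ring

/-- region under the profile of slice lengths -/
def profSet : Set (ℝ × ℝ) := {q | 0 ≤ q.2 ∧ q.2 ≤ 1 ∧ q.2 ≤ 2 - 3 * |q.1|}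

theorem isClosed_profSet : IsClosed profSet := by
  unfold profSet
  exact (isClosed_le continuous_const continuous_snd).inter
    ((isClosed_le continuous_snd continuous_const).inter (isClosed_le continuous_snd (by fun_prop)))

theorem volume_hexSet : (volume : Measure (ℝ × ℝ)) hexSet = 1 := by
  have h1 : (volume : Measure (ℝ × ℝ)) hexSet = (volume : Measure (ℝ × ℝ)) profSet := by
    rw [Measure.volume_eq_prod, Measure.prod_apply isClosed_hexSet.measurableSet,
      Measure.prod_apply isClosed_profSet.measurableSet]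
    refine lintegral_congr fun x => ?_
    rw [hex_slice]
    have h2 : Prod.mk x ⁻¹' profSet = Icc 0 (min 1 (2 - 3 * |x|)) := by
      ext s
      simp only [profSet, mem_preimage, mem_ofPred_eq, mem_Icc, le_min_iff]
    rw [h2, Real.volume_Icc, sub_zero]
  rw [h1, Measure.volume_eq_prod, Measure.prod_apply_symm isClosed_profSet.measurableSet]
  have h3 : ∀ s : ℝ, (volume : Measure ℝ) ((fun x => (x, s)) ⁻¹' profSet) =
      (Icc (0 : ℝ) 1).indicator (fun s => ENNReal.ofReal (2 * (2 - s) / 3)) s := by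
    intro s
    by_cases hs : s ∈ Icc (0 : ℝ) 1
    · rw [indicator_of_mem hs]
      have h4 : (fun x => (x, s)) ⁻¹' profSet = Icc (-((2 - s) / 3)) ((2 - s) / 3) := by
        ext x
        simp only [profSet, mem_preimage, mem_ofPred_eq, mem_Icc, ← abs_le]
        constructor
        · rintro ⟨-, -, h⟩; linarith
        · intro h; exact ⟨hs.1, hs.2, by linarith⟩
      rw [h4, Real.volume_Icc]
      congr 1
      ring
    · rw [indicator_of_notMem hs]
      have h4 : (fun x => (x, s)) ⁻¹' profSet = ∅ := by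
        ext x
        simp only [profSet, mem_preimage, mem_ofPred_eq, mem_empty_iff_false, iff_false]
        exact fun h => hs ⟨h.1, h.2.1⟩
      rw [h4, measure_empty]
  simp_rw [h3]
  rw [lintegral_indicator measurableSet_Icc, ← ofReal_integral_eq_lintegral_ofReal]
  · rw [integral_Icc_eq_integral_Ioc, ← intervalIntegral.integral_of_le zero_le_one]
    have : (∫ s in (0 : ℝ)..1, 2 * (2 - s) / 3) = 1 := by
      have h5 : ∀ s : ℝ, 2 * (2 - s) / 3 = 4 / 3 - (2 / 3) * s := fun s => by ring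
      simp_rw [h5]
      rw [intervalIntegral.integral_sub (by simp) (Continuous.intervalIntegrable (by fun_prop) _ _),
        intervalIntegral.integral_const, intervalIntegral.integral_const_mul, integral_id]
      norm_num
    rw [this, ENNReal.ofReal_one]
  · exact (Continuous.integrableOn_Icc (by fun_prop))
  · refine (ae_restrict_iff' measurableSet_Icc).2 (ae_of_all _ fun s hs => ?_)
    have := hs.2
    simp only [Pi.zero_apply]
    linarith

/-- kernel of the hexagonal pairing -/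
def hexK (p : ℝ × ℝ) : ℝ := hexSet.indicator 1 p

theorem hex_bounds {p : ℝ × ℝ} (h : p ∈ hexSet) : |p.1| ≤ 1 ∧ |p.2| ≤ 1 := by
  obtain ⟨h1, h2, h3⟩ := h
  rw [abs_le] at h1 h2 h3
  constructor <;> rw [abs_le] <;> constructor <;> linarith

theorem ker_hex : Ker hexK where
  nonneg := fun p => indicator_nonneg (fun _ _ => zero_le_one) p
  supp := fun p h => by
    apply hex_bounds
    by_contra h1
    exact h (indicator_of_notMem h1 _)
  int := by
    unfold hexK
    refine (integrable_indicator_iff isClosed_hexSet.measurableSet).2 ?_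
    refine integrableOn_const ?_ |>.congr_fun (f := fun _ => (1 : ℝ)) (fun _ _ => rfl) isClosed_hexSet.measurableSet
    rw [volume_hexSet]
    exact ENNReal.one_ne_top
  mass := by
    unfold hexK
    rw [integral_indicator_one isClosed_hexSet.measurableSet, Measure.real, volume_hexSet,
      ENNReal.toReal_one]

/-- weight of the face `u` in the hexagonal pairing -/
theorem cell_integral {δ : ℝ} (hδ : 0 < δ) (f : ℂ → ℝ) (u : ℤ × ℤ) :
    ∫ z in cell δ u, f z = wK hexK δ f u := by
  rw [← integral_indicator (isClosed_cell δ u).measurableSet, integral_cen hδ, smul_eq_mul]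
  unfold wK
  congr 1
  rw [← integral_add_right_eq_self (μ := (volume : Measure (ℝ × ℝ)))
    (fun p : ℝ × ℝ => (cell δ u).indicator f (cen δ p.1 p.2)) ((u.1 : ℝ), (u.2 : ℝ))]
  refine integral_congr_ae (ae_of_all _ fun p => ?_)
  simp only [Prod.fst_add, Prod.snd_add]
  have h1 : cen δ (p.1 + u.1) (p.2 + u.2) ∈ cell δ u ↔ p ∈ hexSet := by
    rw [mem_cell_coord hδ, ca_cen hδ, cb_cen hδ, add_sub_cancel_right, add_sub_cancel_right]
  unfold hexK
  by_cases hp : p ∈ hexSet
  · rw [indicator_of_mem (h1.2 hp), indicator_of_mem hp, Pi.one_apply, mul_one, add_comm p.1,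
      add_comm p.2]
  · rw [indicator_of_notMem (fun h => hp (h1.1 h)), indicator_of_notMem hp, mul_zero]

/-- **hexagonal pairing in plain form** -/
theorem pairing_plain {δ : ℝ} (hδ : 0 < δ) {F : Finset (ℤ × ℤ)} (f : ℂ → ℝ) (h : Height F) :
    pairing δ f h = ∑ u : F, ((h u : ℤ) : ℝ) * wK hexK δ f u := by
  unfold pairing
  exact Finset.sum_congr rfl fun u _ => by rw [cell_integral hδ]

/-! ### `ℓ¹` bound of the weights -/

theorem volume_inter_cell {δ : ℝ} (hδ : 0 < δ) {u v : ℤ × ℤ} (h : u ≠ v) :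
    volume (cell δ u ∩ cell δ v) = 0 := by
  refine measure_mono_null (t := frontier (cell δ u)) ?_
    ((convex_cell δ u).addHaar_frontier volume)
  rintro z ⟨h1, h2⟩
  rw [frontier, (isClosed_cell δ u).closure_eq]
  exact ⟨h1, fun h3 => disjoint_left.1 (cell_disj hδ u v h) h3 h2⟩

theorem sum_setIntegral_cell {δ : ℝ} (hδ : 0 < δ) (S : Finset (ℤ × ℤ)) {g : ℂ → ℝ}
    (hg : Integrable g) : ∑ u ∈ S, ∫ z in cell δ u, g z = ∫ z in ⋃ u ∈ S, cell δ u, g z := by
  classical
  induction S using Finset.induction_on with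
  | empty => simp
  | insert t T ht ih =>
    rw [Finset.sum_insert ht, ih, Finset.set_biUnion_insert]
    have hm : MeasurableSet (⋃ t ∈ T, cell δ t) :=
      Finset.measurableSet_biUnion T fun t _ => (isClosed_cell δ t).measurableSet
    have hd : AEDisjoint volume (cell δ t) (⋃ t ∈ T, cell δ t) := by
      unfold AEDisjoint
      rw [inter_iUnion₂]
      refine (measure_biUnion_null_iff T.countable_toSet).2 fun s hs => ?_
      exact volume_inter_cell hδ (fun h => ht (h ▸ hs))
    rw [setIntegral_union₀ hd hm.nullMeasurableSet hg.integrableOn hg.integrableOn]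






end Crest.Agent.R144.Geo268
end
end

-- ▼ part R144/Geo8_268
section

/-! R144 (helper268) GEO block, file 8: eventual plain forms of the pairings of the three
statements: weights supported well inside, on free sites. -/

set_option autoImplicit false

noncomputable section

open Set Topology Filter Metric MeasureTheory

namespace Crest.Agent.R144.Geo268

open Crest.ProbabilityR.HexHeights Crest.ProbabilityR.TriHeights Crest.Agent.R144.HexTil353

/-- test functions for a domain: what the statements give -/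
structure Tst (D : Set ℂ) (f : ℂ → ℝ) : Prop where
  cont : Continuous f
  cpt : HasCompactSupport f
  sub : tsupport f ⊆ D

theorem Tst.integrable {D : Set ℂ} {f : ℂ → ℝ} (hf : Tst D f) : Integrable f :=
  hf.cont.integrable_of_hasCompactSupport hf.cpt

theorem Tst.bdd {D : Set ℂ} {f : ℂ → ℝ} (hf : Tst D f) : ∃ M, ∀ z, |f z| ≤ M := by
  obtain ⟨M, hM⟩ := hf.cpt.exists_bound_of_continuous hf.cont
  exact ⟨M, fun z => by simpa using hM z⟩

/-- the weights vanish away from the support -/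
theorem w_support {K : ℝ × ℝ → ℝ} (hK : Ker K) {f : ℂ → ℝ} {r : ℝ} {δ : ℝ} (hδ : 0 ≤ δ)
    (hr : 2 * δ ≤ r) {v : ℤ × ℤ} (hv : wK K δ f v ≠ 0) :
    centre δ v ∈ cthickening r (tsupport f) := by
  by_contra hcon
  apply hv
  apply hK.w_eq_zero hδ
  intro z hz
  by_contra h0
  apply hcon
  have h1 : z ∈ tsupport f := subset_tsupport f h0
  refine mem_cthickening_of_dist_le _ z r _ h1 ?_
  rw [dist_comm, dist_eq_norm]
  exact hz.trans hr

/-- a compact neighbourhood of the support inside `D` -/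
theorem Tst.exists_thick {D : Set ℂ} {f : ℂ → ℝ} (hf : Tst D f) (hD : IsOpen D) :
    ∃ r > 0, IsCompact (cthickening r (tsupport f)) ∧ cthickening r (tsupport f) ⊆ D :=
  Crest.Agent.R144.Cov353.exists_thick hf.cpt hD hf.sub

/-- **S0195**: the pairing in plain form; the weights are eventually supported on interior faces -/
theorem hex_eventually {D : Set ℂ} {γ : ℝ → ℂ} {δ : ℕ → ℝ} {F : ℕ → Finset (ℤ × ℤ)}
    (hD : IsC2JordanDomain D γ) (hA : IsInsideApprox D γ δ F) {f : ℂ → ℝ} (hf : Tst D f) :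
    ∀ᶠ n in atTop, (∀ u, wK hexK (δ n) f u ≠ 0 → u ∈ Crest.Agent.R144.It844.intF (F n)) ∧
      ∀ h : Height (F n), pairing (δ n) f h =
        ∑ u ∈ Crest.Agent.R144.It844.intF (F n), ((Crest.Agent.R144.It844.extF h u : ℤ) : ℝ) *
          wK hexK (δ n) f u := by
  obtain ⟨r, hr, hc, hs⟩ := hf.exists_thick hD.1
  filter_upwards [Crest.Agent.R144.Cov353.hex_sites hD hA hc hs,
    hA.2.1.eventually (gt_mem_nhds (show 0 < r / 2 by positivity))] with n h1 h2
  have hδ := hA.1 n
  have h3 : ∀ u, wK hexK (δ n) f u ≠ 0 → u ∈ Crest.Agent.R144.It844.intF (F n) := fun u hu =>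
    h1 u (w_support ker_hex hδ.le (by linarith) hu)
  refine ⟨h3, fun h => ?_⟩
  rw [pairing_plain hδ]
  have h4 : ∑ u : F n, ((h u : ℤ) : ℝ) * wK hexK (δ n) f u =
      ∑ u ∈ F n, ((Crest.Agent.R144.It844.extF h u : ℤ) : ℝ) * wK hexK (δ n) f u := by
    rw [← Finset.sum_coe_sort (F n)]
    refine Finset.sum_congr rfl fun u _ => ?_
    rw [Crest.Agent.R144.It844.extF_coe]
  rw [h4]
  symm
  refine Finset.sum_subset (fun u hu => (Crest.Agent.R144.It844.mem_intF.1 hu).1) fun u _ hu => ?_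
  have : wK hexK (δ n) f u = 0 := by
    by_contra h5
    exact hu (h3 u h5)
  rw [this, mul_zero]

/-- **S0196, S0197**: the affine pairing in plain form; the weights are eventually supported on
free vertices -/
theorem tri_eventually {D : Set ℂ} {γ : ℝ → ℂ} {θ : ℝ} {δ : ℕ → ℝ} {T : ℕ → Finset Tri}
    {ea eb : ℕ → (ℤ × ℤ) × (ℤ × ℤ)} {c : ℕ → ℝ → ℂ}
    (hD : IsSmoothMarkedDomain D γ θ) (hA : IsMarkedApprox γ θ δ T ea eb c)
    {f : ℂ → ℝ} (hf : Tst D f) :
    ∀ᶠ n in atTop,
      (∀ v, wA (δ n) f v ≠ 0 → v ∈ freeVerts (T n) (arcPlus (δ n) (T n) (c n) θ)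
        (arcMinus (δ n) (T n) (c n) θ)) ∧
      ∀ h : ℤ × ℤ → ℝ, affinePairing (δ n) (T n) f h =
        ∑ v ∈ freeVerts (T n) (arcPlus (δ n) (T n) (c n) θ) (arcMinus (δ n) (T n) (c n) θ),
          h v * wA (δ n) f v := by
  obtain ⟨r, hr, hc, hs⟩ := hf.exists_thick hD.1
  filter_upwards [Crest.Agent.R144.Cov353.tri_cover hD hA hc hs,
    hA.2.1.eventually (gt_mem_nhds (show 0 < r / 2 by positivity))] with n h1 h2
  have hδ := hA.1 n
  have h3 : ∀ v, wA (δ n) f v ≠ 0 → v ∈ freeVerts (T n) (arcPlus (δ n) (T n) (c n) θ)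
        (arcMinus (δ n) (T n) (c n) θ) := fun v hv => by
    rw [mem_free_iff hA n v]
    rw [wA_eq hδ] at hv
    exact h1 (w_support ker_tent hδ.le (by linarith) hv)
  refine ⟨h3, fun h => ?_⟩
  rw [affinePairing_eq hδ (T n) hf.integrable]
  · symm
    refine Finset.sum_subset (fun v hv => (Crest.Agent.R144.Ham560.mem_freeVerts'.1 hv).1)
      fun v _ hv => ?_
    have : wA (δ n) f v = 0 := by
      by_contra h5
      exact hv (h3 v h5)
    rw [this, mul_zero]
  · intro z hz
    have h4 : z ∈ cthickening r (tsupport f) :=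
      self_subset_cthickening _ (subset_tsupport f hz)
    exact interior_subset (h1 h4)

end Crest.Agent.R144.Geo268
end
end

-- ▼ part R144/Cnt1_268
section

/-! R144 (helper268) CNT block, file 1: counting lattice points, Riemann sums over the triangular
lattice `centre δ`. -/

set_option autoImplicit false

open Set Topology Filter Metric MeasureTheory

namespace Crest.Agent.R144.Cnt268

open Crest.ProbabilityR.HexHeights Crest.ProbabilityR.TriHeights Crest.Agent.R144.HexTil353
  Crest.Agent.R144.Geo268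

/-- volume of one hexagon at mesh `δ` -/
noncomputable def vc (δ : ℝ) : ℝ := Real.sqrt 3 / 2 * δ ^ 2

theorem vc_pos {δ : ℝ} (hδ : 0 < δ) : 0 < vc δ := by unfold vc; positivity

theorem vc_nonneg (δ : ℝ) : 0 ≤ vc δ := by unfold vc; positivity

theorem cell_volume {δ : ℝ} (hδ : 0 < δ) (u : ℤ × ℤ) : volume.real (cell δ u) = vc δ := by
  have h1 := cell_integral hδ (fun _ => (1 : ℝ)) u
  rw [setIntegral_const, smul_eq_mul, mul_one] at h1
  rw [h1]
  unfold wK vc
  simp only [one_mul]
  rw [ker_hex.mass, mul_one]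

theorem finite_ball {δ : ℝ} (hδ : 0 < δ) (p : ℂ) (r : ℝ) :
    {v : ℤ × ℤ | dist (centre δ v) p ≤ r}.Finite := by
  refine (finite_near hδ p r).subset fun v hv => ?_
  simp only [mem_ofPred_eq] at hv ⊢
  first
    | exact hv
    | (rw [dist_comm]; exact hv)

/-- the lattice points whose centre is within `r` of `p` -/
noncomputable def ballS {δ : ℝ} (hδ : 0 < δ) (p : ℂ) (r : ℝ) : Finset (ℤ × ℤ) :=
  (finite_ball hδ p r).toFinset

theorem mem_ballS {δ : ℝ} {hδ : 0 < δ} {p : ℂ} {r : ℝ} {v : ℤ × ℤ} :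
    v ∈ ballS hδ p r ↔ dist (centre δ v) p ≤ r := by
  unfold ballS
  rw [Set.Finite.mem_toFinset, mem_ofPred_eq]

/-- **counting by area** -/
theorem card_mul_le {δ : ℝ} (hδ : 0 < δ) {S : Finset (ℤ × ℤ)} {A : Set ℂ} (hA : MeasurableSet A)
    (hfin : volume A ≠ ⊤) (h : ∀ v ∈ S, cell δ v ⊆ A) : (S.card : ℝ) * vc δ ≤ volume.real A := by
  have hg : Integrable (A.indicator fun _ => (1 : ℝ)) :=
    (integrable_indicator_iff hA).2 (integrableOn_const hfin)
  have h1 := sum_setIntegral_cell hδ S hg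
  have h2 : ∀ u ∈ S, ∫ z in cell δ u, A.indicator (fun _ => (1 : ℝ)) z = vc δ := by
    intro u hu
    rw [← cell_volume hδ u]
    rw [setIntegral_congr_fun (g := fun _ => (1 : ℝ)) (isClosed_cell δ u).measurableSet
      (fun z hz => indicator_of_mem (h u hu hz) _)]
    rw [setIntegral_const, smul_eq_mul, mul_one]
  rw [Finset.sum_congr rfl h2, Finset.sum_const, nsmul_eq_mul] at h1
  rw [h1]
  calc ∫ z in ⋃ u ∈ S, cell δ u, A.indicator (fun _ => (1 : ℝ)) z
      ≤ ∫ z, A.indicator (fun _ => (1 : ℝ)) z := by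
        refine setIntegral_le_integral hg (ae_of_all _ fun z => ?_)
        exact indicator_nonneg (fun _ _ => zero_le_one) z
    _ = volume.real A := by rw [integral_indicator_const _ hA, smul_eq_mul, mul_one]

theorem cell_subset_ball {δ : ℝ} (hδ : 0 < δ) (v : ℤ × ℤ) :
    cell δ v ⊆ closedBall (centre δ v) δ := fun _ hz =>
  mem_closedBall.2 (Crest.Agent.R144.Cov353.dist_le_cell hδ hz)

theorem volume_real_closedBall (p : ℂ) {r : ℝ} (hr : 0 ≤ r) :
    volume.real (closedBall p r) = Real.pi * r ^ 2 := by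
  rw [Measure.real, Complex.volume_closedBall, ENNReal.toReal_mul, ENNReal.toReal_pow,
    ENNReal.toReal_ofReal hr]
  simp [mul_comm]

/-- **(C6)** number of lattice points in a ball -/
theorem card_ball_le {δ : ℝ} (hδ : 0 < δ) (p : ℂ) {r : ℝ} (hr : 0 ≤ r) {S : Finset (ℤ × ℤ)}
    (hS : ∀ v ∈ S, dist (centre δ v) p ≤ r) : (S.card : ℝ) * vc δ ≤ Real.pi * (r + δ) ^ 2 := by
  rw [← volume_real_closedBall p (by positivity)]
  refine card_mul_le hδ isClosed_closedBall.measurableSet ?_ fun v hv z hz => ?_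
  · exact (isCompact_closedBall p _).measure_lt_top.ne
  · have h1 := mem_closedBall.1 (cell_subset_ball hδ v hz)
    have h2 := dist_triangle z (centre δ v) p
    have h3 := hS v hv
    exact mem_closedBall.2 (by linarith)

theorem card_ballS_le {δ : ℝ} (hδ : 0 < δ) (p : ℂ) {r : ℝ} (hr : 0 ≤ r) :
    ((ballS hδ p r).card : ℝ) * vc δ ≤ Real.pi * (r + δ) ^ 2 :=
  card_ball_le hδ p hr fun _ hv => mem_ballS.1 hv


/-! ### Riemann sums -/

/-- accuracy of the weights under a modulus of continuity -/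
theorem wK_close {K : ℝ × ℝ → ℝ} (hK : Ker K) {δ : ℝ} (hδ : 0 ≤ δ) {f : ℂ → ℝ} (hf : Continuous f)
    (hf' : ∃ M, ∀ z, |f z| ≤ M) {η : ℝ} {v : ℤ × ℤ}
    (hη : ∀ z, ‖z - centre δ v‖ ≤ 2 * δ → |f z - f (centre δ v)| ≤ η) :
    |wK K δ f v - vc δ * f (centre δ v)| ≤ vc δ * η := by
  have hint := hK.integrable hf hf' (δ := δ) v
  have h0 : f (centre δ v) = ∫ p, f (centre δ v) * K p := by
    rw [integral_const_mul, hK.mass, mul_one]
  have h1 : wK K δ f v - vc δ * f (centre δ v) =
      vc δ * ∫ p, (f (cen δ (v.1 + p.1) (v.2 + p.2)) - f (centre δ v)) * K p := by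
    unfold wK vc
    simp only [sub_mul]
    rw [integral_sub hint (hK.int.const_mul _), ← h0]
    ring
  rw [h1, abs_mul, abs_of_nonneg (vc_nonneg δ)]
  have h2 : ‖∫ p, (f (cen δ (v.1 + p.1) (v.2 + p.2)) - f (centre δ v)) * K p‖ ≤
      ∫ p, η * K p := by
    refine norm_integral_le_of_norm_le (hK.int.const_mul _) (ae_of_all _ fun p => ?_)
    rw [norm_mul, Real.norm_eq_abs, Real.norm_eq_abs, abs_of_nonneg (hK.nonneg p)]
    by_cases hp : K p = 0
    · simp [hp]
    · exact mul_le_mul_of_nonneg_right (hη _ (hK.near hδ v hp)) (hK.nonneg p)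
  rw [integral_const_mul, hK.mass, mul_one, Real.norm_eq_abs] at h2
  exact mul_le_mul_of_nonneg_left h2 (vc_nonneg δ)

/-- the sum over the whole lattice -/
noncomputable def lsum (δ : ℝ) (φ : ℂ → ℝ) : ℝ := ∑' v : ℤ × ℤ, φ (centre δ v)

theorem lsum_eq {δ : ℝ} {φ : ℂ → ℝ} {S : Finset (ℤ × ℤ)}
    (hS : ∀ v, v ∉ S → φ (centre δ v) = 0) : lsum δ φ = ∑ v ∈ S, φ (centre δ v) :=
  tsum_eq_sum fun v hv => hS v hv

/-- comparison of the Riemann sum with the integral at fixed mesh -/
theorem lsum_close {δ : ℝ} (hδ : 0 < δ) {φ : ℂ → ℝ} (hφ : Continuous φ) {R : ℝ} (hR : 0 ≤ R)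
    (hsupp : ∀ z, R < ‖z‖ → φ z = 0) {η : ℝ}
    (hη : ∀ z w, ‖z - w‖ ≤ 2 * δ → |φ z - φ w| ≤ η) :
    |vc δ * lsum δ φ - ∫ z, φ z| ≤ Real.pi * (R + 3 * δ) ^ 2 * η := by
  have hbd : ∃ M, ∀ z, |φ z| ≤ M := by
    obtain ⟨M, hM⟩ := (isCompact_closedBall (0 : ℂ) R).exists_bound_of_continuousOn
      hφ.continuousOn
    refine ⟨max M 0, fun z => ?_⟩
    by_cases hz : R < ‖z‖
    · rw [hsupp z hz, abs_zero]; exact le_max_right _ _
    · exact (hM z (by rw [mem_closedBall, dist_zero_right]; exact not_lt.1 hz)).trans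
        (le_max_left _ _)
  have hcs : HasCompactSupport φ := by
    refine HasCompactSupport.of_support_subset_isCompact (isCompact_closedBall (0 : ℂ) R) ?_
    intro z hz
    rw [mem_closedBall, dist_zero_right]
    by_contra h
    exact hz (hsupp z (not_le.1 h))
  have hint : Integrable φ := hφ.integrable_of_hasCompactSupport hcs
  set S := ballS hδ 0 (R + 2 * δ) with hS
  have h1 : lsum δ φ = ∑ v ∈ S, φ (centre δ v) := by
    apply lsum_eq
    intro v hv
    apply hsupp
    rw [hS, mem_ballS, dist_zero_right, not_le] at hv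
    linarith
  have h2 : ∫ z, φ z = ∑ v ∈ S, wK hexK δ φ v := by
    rw [Finset.sum_congr rfl fun v _ => (cell_integral hδ φ v).symm,
      sum_setIntegral_cell hδ S hint]
    symm
    refine setIntegral_eq_integral_of_forall_compl_eq_zero fun z hz => ?_
    by_contra h3
    apply hz
    obtain ⟨u, hu⟩ := exists_cell hδ z
    refine mem_iUnion₂.2 ⟨u, ?_, hu⟩
    rw [hS, mem_ballS]
    have h4 : ‖z‖ ≤ R := by
      by_contra h5
      exact h3 (hsupp z (not_le.1 h5))
    have h5 := mem_closedBall.1 (cell_subset_ball hδ u hu)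
    have h6 := dist_triangle_left (centre δ u) 0 z
    rw [dist_zero_right z] at h6
    linarith
  rw [h1, h2, Finset.mul_sum, ← Finset.sum_sub_distrib]
  have hη0 : 0 ≤ η := (abs_nonneg _).trans (hη 0 0 (by simp; exact hδ.le))
  calc |∑ v ∈ S, (vc δ * φ (centre δ v) - wK hexK δ φ v)|
      ≤ ∑ v ∈ S, |vc δ * φ (centre δ v) - wK hexK δ φ v| := Finset.abs_sum_le_sum_abs _ _
    _ ≤ ∑ _v ∈ S, vc δ * η := by
        refine Finset.sum_le_sum fun v _ => ?_
        rw [abs_sub_comm]
        exact wK_close ker_hex hδ.le hφ hbd fun z hz => hη _ _ hz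
    _ = (S.card * vc δ) * η := by rw [Finset.sum_const, nsmul_eq_mul]; ring
    _ ≤ (Real.pi * (R + 3 * δ) ^ 2) * η := by
        refine mul_le_mul_of_nonneg_right ?_ hη0
        have := card_ballS_le hδ 0 (r := R + 2 * δ) (by positivity)
        calc _ ≤ _ := this
          _ = _ := by ring

/-- **(C1)** Riemann sums over the lattice -/
theorem lsum_tendsto {δ : ℕ → ℝ} (hpos : ∀ n, 0 < δ n) (hlim : Tendsto δ atTop (𝓝 0))
    {φ : ℂ → ℝ} (hφ : Continuous φ) (hcs : HasCompactSupport φ) :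
    Tendsto (fun n => vc (δ n) * lsum (δ n) φ) atTop (𝓝 (∫ z, φ z)) := by
  obtain ⟨R, hR⟩ := hcs.isCompact.isBounded.subset_closedBall (0 : ℂ)
  set R' := max R 0 with hR'
  have hR0 : 0 ≤ R' := le_max_right _ _
  have hsupp : ∀ z, R' < ‖z‖ → φ z = 0 := by
    intro z hz
    by_contra h
    have h1 := hR (subset_tsupport φ h)
    rw [mem_closedBall, dist_zero_right] at h1
    have : R ≤ R' := le_max_left _ _
    linarith
  have huc : UniformContinuous φ := hcs.uniformContinuous_of_continuous hφ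
  rw [Metric.tendsto_atTop']
  intro ε hε
  set C := Real.pi * (R' + 3) ^ 2 + 1 with hC
  have hCpos : 0 < C := by positivity
  obtain ⟨ρ, hρ, huc'⟩ := Metric.uniformContinuous_iff.1 huc (ε / (2 * C)) (by positivity)
  have h1 := hlim.eventually (gt_mem_nhds (show 0 < min 1 (ρ / 4) by positivity))
  obtain ⟨n0, hn0⟩ := eventually_atTop.1 h1
  refine ⟨n0, fun n hn => ?_⟩
  have h2 := hn0 n hn.le
  have h3 : δ n < 1 := h2.trans_le (min_le_left _ _)
  have h4 : δ n < ρ / 4 := h2.trans_le (min_le_right _ _)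
  have hδ := hpos n
  have h5 := lsum_close hδ hφ hR0 hsupp (η := ε / (2 * C)) fun z w hzw => by
    have : dist z w < ρ := by rw [dist_eq_norm]; linarith
    have h6 := huc' this
    rw [Real.dist_eq] at h6
    exact h6.le
  rw [Real.dist_eq]
  refine h5.trans_lt ?_
  have h6 : Real.pi * (R' + 3 * δ n) ^ 2 ≤ C := by
    have : (R' + 3 * δ n) ^ 2 ≤ (R' + 3) ^ 2 := by
      apply pow_le_pow_left₀ (by positivity); linarith
    have h7 := mul_le_mul_of_nonneg_left this Real.pi_pos.le
    linarith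
  calc Real.pi * (R' + 3 * δ n) ^ 2 * (ε / (2 * C)) ≤ C * (ε / (2 * C)) :=
        mul_le_mul_of_nonneg_right h6 (by positivity)
    _ = ε / 2 := by field_simp
    _ < ε := by linarith


end Crest.Agent.R144.Cnt268
end

-- ▼ part R144/Cnt2_268

/-! R144 (helper268) CNT block, file 2: counting in the free sets of the approximating domains. -/

set_option autoImplicit false

open Set Topology Filter Metric MeasureTheory

namespace Crest.Agent.R144.Cnt268

open Crest.ProbabilityR.HexHeights Crest.ProbabilityR.TriHeights Crest.Agent.R144.HexTil353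
  Crest.Agent.R144.Geo268

/-- finite sets of sites approximating a bounded open set with null frontier -/
structure Sites (D : Set ℂ) (δ : ℕ → ℝ) (S : ℕ → Finset (ℤ × ℤ)) : Prop where
  opn : IsOpen D
  bdd : Bornology.IsBounded D
  nul : volume (frontier D) = 0
  pos : ∀ n, 0 < δ n
  lim : Tendsto δ atTop (𝓝 0)
  inn : ∀ K, IsCompact K → K ⊆ D → ∀ᶠ n in atTop, ∀ v, centre (δ n) v ∈ K → v ∈ S n
  out : ∀ ε > 0, ∀ᶠ n in atTop, ∀ v ∈ S n, centre (δ n) v ∈ cthickening ε D

variable {D : Set ℂ} {δ : ℕ → ℝ} {S : ℕ → Finset (ℤ × ℤ)}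

theorem Sites.small (h : Sites D δ S) {ε : ℝ} (hε : 0 < ε) : ∀ᶠ n in atTop, δ n < ε :=
  h.lim.eventually (gt_mem_nhds hε)

theorem Sites.compact_cth (h : Sites D δ S) (ε : ℝ) : IsCompact (cthickening ε D) :=
  isCompact_of_isClosed_isBounded isClosed_cthickening (h.bdd.cthickening)

theorem Sites.volume_ne_top (h : Sites D δ S) : volume D ≠ ⊤ := h.bdd.measure_lt_top.ne

theorem Sites.volume_closure (h : Sites D δ S) : volume (closure D) = volume D := by
  refine le_antisymm ?_ (measure_mono subset_closure)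
  rw [closure_eq_self_union_frontier]
  exact (measure_union_le _ _).trans (by rw [h.nul, add_zero])

/-- the collar is small in area -/
theorem Sites.exists_collar (h : Sites D δ S) {η : ℝ} (hη : 0 < η) :
    ∃ ε > 0, volume.real (cthickening ε D) ≤ volume.real D + η := by
  have h1 : Tendsto (fun r => volume (cthickening r D)) (𝓝 0) (𝓝 (volume (closure D))) :=
    tendsto_measure_cthickening ⟨1, one_pos, (h.compact_cth 1).measure_lt_top.ne⟩
  rw [h.volume_closure] at h1
  have h2 := (ENNReal.tendsto_toReal h.volume_ne_top).comp h1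
  have h3 : ∀ᶠ r in 𝓝 (0 : ℝ), volume.real (cthickening r D) < volume.real D + η :=
    h2.eventually (gt_mem_nhds (show (volume D).toReal < volume.real D + η by
      rw [Measure.real]; linarith))
  obtain ⟨ε, hε, h4⟩ := Metric.eventually_nhds_iff.1 h3
  refine ⟨ε / 2, by positivity, (h4 (y := ε / 2) ?_).le⟩
  rw [Real.dist_eq, sub_zero, abs_of_pos (by positivity)]
  linarith

/-- compact exhaustion in area -/
theorem Sites.exists_compact (h : Sites D δ S) {η : ℝ} (hη : 0 < η) :
    ∃ K, IsCompact K ∧ K ⊆ D ∧ volume.real D ≤ volume.real K + η := by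
  obtain ⟨K, hK, hKc, h1⟩ := h.opn.measurableSet.exists_isCompact_lt_add h.volume_ne_top
    (ENNReal.ofReal_pos.2 hη).ne'
  refine ⟨K, hKc, hK, ?_⟩
  have h2 := ENNReal.toReal_mono (ENNReal.add_ne_top.2 ⟨hKc.measure_lt_top.ne,
    ENNReal.ofReal_ne_top⟩) h1.le
  rw [ENNReal.toReal_add hKc.measure_lt_top.ne ENNReal.ofReal_ne_top,
    ENNReal.toReal_ofReal hη.le] at h2
  exact h2

/-- **layer lemma**: few sites outside a large compact subset of `D` -/
theorem Sites.layer (h : Sites D δ S) {η : ℝ} (hη : 0 < η) :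
    ∃ K, IsCompact K ∧ K ⊆ D ∧ volume.real D ≤ volume.real K + η ∧
      ∀ᶠ n in atTop, ∀ S' ⊆ S n, (∀ v ∈ S', centre (δ n) v ∉ K) →
        (S'.card : ℝ) * vc (δ n) ≤ η := by
  obtain ⟨K0, hK0c, hK0, hv0⟩ := h.exists_compact (show 0 < η / 2 by positivity)
  obtain ⟨ε, hε, hcol⟩ := h.exists_collar (show 0 < η / 2 by positivity)
  obtain ⟨r, hr, hrc, hrs⟩ := Crest.Agent.R144.Cov353.exists_thick hK0c h.opn hK0
  refine ⟨cthickening r K0, hrc, hrs, ?_, ?_⟩
  · have h1 : volume.real K0 ≤ volume.real (cthickening r K0) :=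
      measureReal_mono (self_subset_cthickening K0) hrc.measure_lt_top.ne
    linarith
  · filter_upwards [h.out (ε / 2) (by positivity), h.small (show 0 < min (ε / 2) r by positivity)]
      with n hout hsm S' hS' hK'
    have h1 : δ n < ε / 2 := hsm.trans_le (min_le_left _ _)
    have h2 : δ n < r := hsm.trans_le (min_le_right _ _)
    have h3 : ∀ v ∈ S', cell (δ n) v ⊆ cthickening ε D \ K0 := by
      intro v hv z hz
      have h4 := mem_closedBall.1 (cell_subset_ball (h.pos n) v hz)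
      constructor
      · have h5 := hout v (hS' hv)
        have h6 : z ∈ cthickening (ε / 2 + ε / 2) D := by
          refine cthickening_cthickening_subset (by positivity) (by positivity) D ?_
          exact mem_cthickening_of_dist_le z _ _ _ h5 (by linarith)
        rwa [add_halves] at h6
      · intro h5
        refine hK' v hv (mem_cthickening_of_dist_le _ z r K0 h5 ?_)
        rw [dist_comm]
        linarith
    have h4 := card_mul_le (h.pos n) (isClosed_cthickening.measurableSet.diff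
      hK0c.measurableSet) (ne_top_of_le_ne_top (h.compact_cth ε).measure_lt_top.ne
        (measure_mono sdiff_subset)) h3
    refine h4.trans ?_
    have h5 : K0 ⊆ cthickening ε D := hK0.trans (self_subset_cthickening D)
    rw [measureReal_sdiff h5 hK0c.measurableSet (h.compact_cth ε).measure_lt_top.ne]
    linarith

/-- **(C5)** sites over a compact set have their whole `L`-box in `S n` -/
theorem Sites.box (h : Sites D δ S) {K : Set ℂ} (hK : IsCompact K) (hKD : K ⊆ D) (L : ℕ) :
    ∀ᶠ n in atTop, ∀ v, centre (δ n) v ∈ K → ∀ w : ℤ × ℤ, |w.1 - v.1| ≤ L → |w.2 - v.2| ≤ L →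
      w ∈ S n := by
  obtain ⟨r, hr, hrc, hrs⟩ := Crest.Agent.R144.Cov353.exists_thick hK h.opn hKD
  filter_upwards [h.inn _ hrc hrs, h.small (show 0 < r / (2 * (L + 1)) by positivity)]
    with n h1 h2 v hv w hw1 hw2
  refine h1 w (mem_cthickening_of_dist_le _ _ r K hv ?_)
  have h3 := dist_centre_sq (δ n) w v
  have h4 : (((v.1 - w.1) ^ 2 + (v.1 - w.1) * (v.2 - w.2) + (v.2 - w.2) ^ 2 : ℤ) : ℝ) ≤
      (2 * (L + 1)) ^ 2 := by
    have h5 : |((w.1 - v.1 : ℤ) : ℝ)| ≤ L := by exact_mod_cast hw1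
    have h6 : |((w.2 - v.2 : ℤ) : ℝ)| ≤ L := by exact_mod_cast hw2
    push_cast at h5 h6 ⊢
    rw [abs_le] at h5 h6
    obtain ⟨a1, a2⟩ := h5
    obtain ⟨b1, b2⟩ := h6
    nlinarith [mul_nonneg (sub_nonneg.2 a2) (sub_nonneg.2 b2),
      mul_nonneg (by linarith : (0:ℝ) ≤ w.1 - v.1 + L) (by linarith : (0:ℝ) ≤ w.2 - v.2 + L),
      mul_nonneg (by linarith : (0:ℝ) ≤ w.1 - v.1 + L) (sub_nonneg.2 a2),
      mul_nonneg (by linarith : (0:ℝ) ≤ w.2 - v.2 + L) (sub_nonneg.2 b2),
      mul_nonneg (by linarith : (0:ℝ) ≤ w.1 - v.1 + L) (sub_nonneg.2 b2),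
      mul_nonneg (by linarith : (0:ℝ) ≤ w.2 - v.2 + L) (sub_nonneg.2 a2)]
  have h5 : dist (centre (δ n) w) (centre (δ n) v) ^ 2 ≤ (δ n * (2 * (L + 1))) ^ 2 := by
    rw [h3, mul_pow]
    exact mul_le_mul_of_nonneg_left h4 (by positivity)
  have h6 : dist (centre (δ n) w) (centre (δ n) v) ≤ δ n * (2 * (L + 1)) :=
    le_of_sq_le_sq h5 (by have := h.pos n; positivity)
  refine h6.trans ?_
  rw [lt_div_iff₀ (by positivity)] at h2
  exact h2.le

/-- **(C4)** few sites near the complement -/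
theorem Sites.near (h : Sites D δ S) (L : ℕ) {η : ℝ} (hη : 0 < η) :
    ∀ᶠ n in atTop, ∀ S' ⊆ S n,
      (∀ v ∈ S', ∃ w : ℤ × ℤ, w ∉ S n ∧ |w.1 - v.1| ≤ L ∧ |w.2 - v.2| ≤ L) →
        (S'.card : ℝ) * vc (δ n) ≤ η := by
  obtain ⟨K, hK, hKD, -, h1⟩ := h.layer hη
  filter_upwards [h1, h.box hK hKD L] with n h2 h3 S' hS' hw
  refine h2 S' hS' fun v hv hvK => ?_
  obtain ⟨w, hw1, hw2, hw3⟩ := hw v hv
  exact hw1 (h3 v hvK w hw2 hw3)

/-- **(C2)** Riemann sums over the free set -/
theorem Sites.riemann (h : Sites D δ S) {φ : ℂ → ℝ} (hφ : Continuous φ) :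
    Tendsto (fun n => vc (δ n) * ∑ v ∈ S n, φ (centre (δ n) v)) atTop (𝓝 (∫ z in D, φ z)) := by
  classical
  obtain ⟨M, hM⟩ := (h.compact_cth 1).exists_bound_of_continuousOn hφ.continuousOn
  set M' := max M 0 + 1 with hM'
  have hM0 : 0 < M' := by positivity
  have hMb : ∀ z ∈ cthickening 1 D, |φ z| ≤ M' := fun z hz =>
    ((hM z hz).trans (le_max_left _ _)).trans (by linarith)
  have hDint : IntegrableOn φ D := by
    refine (hφ.continuousOn.integrableOn_compact (h.compact_cth 1)).mono_set ?_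
    exact self_subset_cthickening D
  rw [Metric.tendsto_atTop']
  intro ε hε
  set η := ε / (4 * M') with hη
  have hηpos : 0 < η := by positivity
  obtain ⟨K, hK, hKD, hvol, hlay⟩ := h.layer hηpos
  -- cut-off
  obtain ⟨χ, hχ1, hχ2, hχc, hχs⟩ : ∃ χ : ℂ → ℝ, Continuous χ ∧ HasCompactSupport χ ∧
      (∀ z ∈ K, χ z = 1) ∧ (tsupport χ ⊆ D) ∧ ∀ z, 0 ≤ χ z ∧ χ z ≤ 1 := by
    obtain ⟨r, hr, hrc, hrs⟩ := Crest.Agent.R144.Cov353.exists_thick hK h.opn hKD
    have hd : Disjoint (closure (cthickening r K)ᶜ) K := by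
      have h3 : closure (cthickening r K)ᶜ ⊆ (thickening r K)ᶜ := by
        refine closure_minimal ?_ isOpen_thickening.isClosed_compl
        exact compl_subset_compl.2 (thickening_subset_cthickening r K)
      refine Disjoint.mono_left h3 ?_
      rw [disjoint_compl_left_iff_subset]
      exact self_subset_thickening hr K
    obtain ⟨g, hg0, hg1, hg⟩ := exists_continuous_zero_one_of_isClosed isClosed_closure
      hK.isClosed hd
    have hsup : tsupport g ⊆ cthickening r K := by
      refine closure_minimal ?_ isClosed_cthickening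
      intro z hz
      by_contra h4
      exact hz (hg0 (subset_closure h4))
    refine ⟨g, g.continuous, ?_, fun z hz => hg1 hz, hsup.trans hrs, fun z => hg z⟩
    exact hrc.of_isClosed_subset (isClosed_tsupport _) hsup
  have hχs' := hχs.1
  have hχ01 := hχs.2
  -- the compactly supported part
  have hc1 : Continuous fun z => χ z * φ z := hχ1.mul hφ
  have hc2 : HasCompactSupport fun z => χ z * φ z := hχ2.mul_right
  have hT := lsum_tendsto h.pos h.lim hc1 hc2
  have hT' := (Metric.tendsto_atTop'.1 hT) (ε / 4) (by positivity)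
  have hsub : tsupport (fun z => χ z * φ z) ⊆ D :=
    (tsupport_mul_subset_left (f := χ) (g := φ)).trans hχs'
  have hin := h.inn _ hc2.isCompact hsub
  obtain ⟨n0, hn0⟩ := hT'
  obtain ⟨n1, hn1⟩ := eventually_atTop.1 ((hlay.and hin).and ((h.out 1 one_pos).and
    (eventually_ge_atTop 0)))
  refine ⟨max n0 n1, fun n hn => ?_⟩
  obtain ⟨⟨g1, g2⟩, g3, -⟩ := hn1 n ((le_max_right n0 n1).trans hn.le)
  have g4 := hn0 n ((le_max_left n0 n1).trans_lt hn)
  have hδ := h.pos n
  -- split the sum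
  have h1 : ∑ v ∈ S n, φ (centre (δ n) v) = lsum (δ n) (fun z => χ z * φ z) +
      ∑ v ∈ S n, (1 - χ (centre (δ n) v)) * φ (centre (δ n) v) := by
    rw [lsum_eq (S := S n), ← Finset.sum_add_distrib]
    · exact Finset.sum_congr rfl fun v _ => by ring
    · intro v hv
      by_contra h5
      exact hv (g2 v (subset_tsupport _ h5))
  have h2 : vc (δ n) * |∑ v ∈ S n, (1 - χ (centre (δ n) v)) * φ (centre (δ n) v)| ≤ M' * η := by
    set S' := (S n).filter fun v => centre (δ n) v ∉ K with hS'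
    have h5 : ∑ v ∈ S n, (1 - χ (centre (δ n) v)) * φ (centre (δ n) v) =
        ∑ v ∈ S', (1 - χ (centre (δ n) v)) * φ (centre (δ n) v) := by
      symm
      refine Finset.sum_subset (Finset.filter_subset _ _) fun v hv hv' => ?_
      have : centre (δ n) v ∈ K := by
        by_contra h6
        exact hv' (Finset.mem_filter.2 ⟨hv, h6⟩)
      rw [hχc _ this, sub_self, zero_mul]
    have h6 : |∑ v ∈ S', (1 - χ (centre (δ n) v)) * φ (centre (δ n) v)| ≤ S'.card * M' := by
      refine (Finset.abs_sum_le_sum_abs _ _).trans ?_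
      calc _ ≤ ∑ _v ∈ S', M' := by
            refine Finset.sum_le_sum fun v hv => ?_
            rw [abs_mul]
            have h7 := hχ01 (centre (δ n) v)
            have h8 : |1 - χ (centre (δ n) v)| ≤ 1 := by rw [abs_le]; constructor <;> linarith
            have h9 := hMb _ (g3 v (Finset.mem_filter.1 hv).1)
            calc _ ≤ 1 * M' := mul_le_mul h8 h9 (abs_nonneg _) zero_le_one
              _ = M' := one_mul _
        _ = _ := by rw [Finset.sum_const, nsmul_eq_mul]
    have h7 := g1 S' (Finset.filter_subset _ _) fun v hv => (Finset.mem_filter.1 hv).2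
    rw [h5]
    calc _ ≤ vc (δ n) * (S'.card * M') := mul_le_mul_of_nonneg_left h6 (vc_nonneg _)
      _ = M' * (S'.card * vc (δ n)) := by ring
      _ ≤ M' * η := mul_le_mul_of_nonneg_left h7 hM0.le
  have h3 : |(∫ z, χ z * φ z) - ∫ z in D, φ z| ≤ M' * η := by
    have h5 : ∫ z, χ z * φ z = ∫ z in D, χ z * φ z := by
      symm
      refine setIntegral_eq_integral_of_forall_compl_eq_zero fun z hz => ?_
      by_contra h6
      exact hz (hsub (subset_tsupport _ h6))
    have h6 : IntegrableOn (fun z => χ z * φ z) D :=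
      (hc1.integrable_of_hasCompactSupport hc2).integrableOn
    rw [h5, ← integral_sub h6 hDint]
    have h7 : ∀ z ∈ D, ‖χ z * φ z - φ z‖ ≤ (D \ K).indicator (fun _ => M') z := by
      intro z hz
      by_cases hzK : z ∈ K
      · rw [hχc z hzK, indicator_of_notMem (fun h8 => h8.2 hzK)]; simp
      · rw [indicator_of_mem (show z ∈ D \ K from ⟨hz, hzK⟩)]
        have h8 := hχ01 z
        have h9 : |χ z - 1| ≤ 1 := by rw [abs_le]; constructor <;> linarith
        have h10 := hMb z (self_subset_cthickening D hz)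
        rw [show χ z * φ z - φ z = (χ z - 1) * φ z by ring, norm_mul, Real.norm_eq_abs,
          Real.norm_eq_abs]
        calc _ ≤ 1 * M' := mul_le_mul h9 h10 (abs_nonneg _) zero_le_one
          _ = M' := one_mul _
    have hmD : MeasurableSet (D \ K) := h.opn.measurableSet.diff hK.measurableSet
    have h8 : volume (D \ K) ≠ ⊤ := ne_top_of_le_ne_top h.volume_ne_top (measure_mono sdiff_subset)
    have hgi : Integrable ((D \ K).indicator fun _ => M') :=
      (integrable_indicator_iff hmD).2 (integrableOn_const h8)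
    rw [← Real.norm_eq_abs]
    calc ‖∫ z in D, (χ z * φ z - φ z)‖ ≤ ∫ z in D, (D \ K).indicator (fun _ => M') z := by
          refine norm_integral_le_of_norm_le hgi.integrableOn ?_
          exact (ae_restrict_iff' h.opn.measurableSet).2 (ae_of_all _ h7)
      _ ≤ ∫ z, (D \ K).indicator (fun _ => M') z :=
          setIntegral_le_integral hgi (ae_of_all _ fun z =>
            indicator_nonneg (fun _ _ => hM0.le) z)
      _ = volume.real (D \ K) * M' := by rw [integral_indicator_const _ hmD, smul_eq_mul]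
      _ ≤ η * M' := by
          refine mul_le_mul_of_nonneg_right ?_ hM0.le
          rw [measureReal_sdiff hKD hK.measurableSet h.volume_ne_top]
          linarith
      _ = M' * η := mul_comm _ _
  have h4 : M' * η = ε / 4 := by rw [hη]; field_simp
  rw [h4] at h2 h3
  rw [Real.dist_eq] at g4 ⊢
  rw [h1, mul_add]
  have h5 : vc (δ n) * lsum (δ n) (fun z => χ z * φ z) + vc (δ n) *
      (∑ v ∈ S n, (1 - χ (centre (δ n) v)) * φ (centre (δ n) v)) - ∫ z in D, φ z =
      (vc (δ n) * lsum (δ n) (fun z => χ z * φ z) - ∫ z, χ z * φ z) +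
      ((∫ z, χ z * φ z) - ∫ z in D, φ z) + vc (δ n) *
      (∑ v ∈ S n, (1 - χ (centre (δ n) v)) * φ (centre (δ n) v)) := by ring
  rw [h5]
  have h6 : |vc (δ n) * (∑ v ∈ S n, (1 - χ (centre (δ n) v)) * φ (centre (δ n) v))| ≤ ε / 4 := by
    rw [abs_mul, abs_of_nonneg (vc_nonneg _)]; exact h2
  calc _ ≤ |vc (δ n) * lsum (δ n) (fun z => χ z * φ z) - ∫ z, χ z * φ z| +
        |(∫ z, χ z * φ z) - ∫ z in D, φ z| + |vc (δ n) *
      (∑ v ∈ S n, (1 - χ (centre (δ n) v)) * φ (centre (δ n) v))| := abs_add_three _ _ _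
    _ < ε := by linarith

/-- **(C3)** number of sites -/
theorem Sites.card (h : Sites D δ S) :
    Tendsto (fun n => vc (δ n) * ((S n).card : ℝ)) atTop (𝓝 (volume.real D)) := by
  have h1 := h.riemann (φ := fun _ => (1 : ℝ)) continuous_const
  simp only [Finset.sum_const, nsmul_eq_mul, mul_one, integral_const, smul_eq_mul,
    MeasurableSet.univ, measureReal_restrict_apply, univ_inter] at h1
  exact h1

theorem vc_inv {δ : ℝ} : δ ^ 2 = 2 / Real.sqrt 3 * vc δ := by
  unfold vc
  have : Real.sqrt 3 ≠ 0 := by positivity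
  field_simp

/-- **(C2)** in the form `δ² ∑` -/
theorem Sites.riemann' (h : Sites D δ S) {φ : ℂ → ℝ} (hφ : Continuous φ) :
    Tendsto (fun n => δ n ^ 2 * ∑ v ∈ S n, φ (centre (δ n) v)) atTop
      (𝓝 (2 / Real.sqrt 3 * ∫ z in D, φ z)) := by
  refine ((h.riemann hφ).const_mul (2 / Real.sqrt 3)).congr fun n => ?_
  rw [← mul_assoc, ← vc_inv]

theorem Sites.card' (h : Sites D δ S) :
    Tendsto (fun n => δ n ^ 2 * ((S n).card : ℝ)) atTop
      (𝓝 (2 / Real.sqrt 3 * volume.real D)) := by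
  refine (h.card.const_mul (2 / Real.sqrt 3)).congr fun n => ?_
  rw [← mul_assoc, ← vc_inv]

/-- **(C3)** `δ² #S ≤ C` for every `n` -/
theorem Sites.card_bdd (h : Sites D δ S) : ∃ C > 0, ∀ n, δ n ^ 2 * ((S n).card : ℝ) ≤ C := by
  obtain ⟨C, hC⟩ := h.card'.bddAbove_range
  refine ⟨max C 1, by positivity, fun n => (hC (mem_range_self n)).trans (le_max_left _ _)⟩

/-- **(C4)** in the form `δ² #` -/
theorem Sites.near' (h : Sites D δ S) (L : ℕ) {η : ℝ} (hη : 0 < η) :
    ∀ᶠ n in atTop, ∀ S' ⊆ S n,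
      (∀ v ∈ S', ∃ w : ℤ × ℤ, w ∉ S n ∧ |w.1 - v.1| ≤ L ∧ |w.2 - v.2| ≤ L) →
        δ n ^ 2 * (S'.card : ℝ) ≤ η := by
  have h3 : 0 < Real.sqrt 3 := by positivity
  filter_upwards [h.near L (show 0 < Real.sqrt 3 / 2 * η by positivity)] with n h1 S' hS' hw
  have h2 := h1 S' hS' hw
  rw [vc_inv]
  calc 2 / Real.sqrt 3 * vc (δ n) * (S'.card : ℝ) = 2 / Real.sqrt 3 * (S'.card * vc (δ n)) := by
        ring
    _ ≤ 2 / Real.sqrt 3 * (Real.sqrt 3 / 2 * η) := by gcongr
    _ = η := by field_simp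

/-! ### instances -/

/-- **(C7)** the free vertices of a marked approximation (S0196, S0197) -/
theorem sites_tri {D : Set ℂ} {γ : ℝ → ℂ} {θ : ℝ} {δ : ℕ → ℝ} {T : ℕ → Finset Tri}
    {ea eb : ℕ → (ℤ × ℤ) × (ℤ × ℤ)} {c : ℕ → ℝ → ℂ}
    (hD : IsSmoothMarkedDomain D γ θ) (hA : IsMarkedApprox γ θ δ T ea eb c) :
    Sites D δ fun n => freeVerts (T n) (arcPlus (δ n) (T n) (c n) θ)
      (arcMinus (δ n) (T n) (c n) θ) where
  opn := hD.1
  bdd := hD.2.1
  nul := Crest.Agent.R144.Seg549.volume_frontier (dom_of_marked hD)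
  pos := hA.1
  lim := hA.2.1
  inn := fun K hK hKD => (Crest.Agent.R144.Cov353.tri_cover hD hA hK hKD).mono fun n hn v hv =>
    (mem_free_iff hA n v).2 (hn hv)
  out := fun ε hε => (Crest.Agent.R144.Cov353.tri_near hD hA hε).mono fun n hn v hv => by
    have h1 := hn _ ((mem_free_iff hA n v).1 hv)
    obtain ⟨z0, hz0⟩ := hD.2.2.1.nonempty
    rw [mem_cthickening_iff, ← ENNReal.ofReal_toReal (infEDist_ne_top ⟨z0, hz0⟩)]
    exact ENNReal.ofReal_le_ofReal h1.le

/-- **(C7)** interior faces of an inside approximation (S0195) -/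
theorem sites_hex {D : Set ℂ} {γ : ℝ → ℂ} {δ : ℕ → ℝ} {F : ℕ → Finset (ℤ × ℤ)}
    (hD : IsC2JordanDomain D γ) (hA : IsInsideApprox D γ δ F) :
    Sites D δ fun n => Crest.Agent.R144.It844.intF (F n) where
  opn := hD.1
  bdd := hD.2.1
  nul := Crest.Agent.R144.Seg549.volume_frontier (dom_of_C2 hD)
  pos := hA.1
  lim := hA.2.1
  inn := fun K hK hKD => Crest.Agent.R144.Cov353.hex_sites hD hA hK hKD
  out := fun ε hε => Eventually.of_forall fun n v hv => self_subset_cthickening D
    (Crest.Agent.R144.Cov353.hex_inside hA n (Crest.Agent.R144.It844.mem_intF.1 hv).1)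


end Crest.Agent.R144.Cnt268
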