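import Mathlib
import Crest.Agent.R144.Geo3_268
import Crest.Agent.R144.Cnt2_268
import Crest.Agent.R144.It1b_844
import Crest.Agent.R144.Pst2_967
import Crest.Agent.R144.Zg_349

-- ▼ part R144/Col1_268
section

/-! R144 (helper268) COL block, file 1: `C²` Jordan domains: Taylor bound, chord-arc, uniform
interior and exterior balls. -/

set_option autoImplicit false

open Set Topology Filter Metric

namespace Crest.Agent.R144.Geo268

theorem periodic_deriv {E : Type*} [NormedAddCommGroup E] [NormedSpace ℝ E] {f : ℝ → E} {T : ℝ}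
    (h : Function.Periodic f T) : Function.Periodic (deriv f) T := by
  intro x
  have h1 : (fun y => f (y + T)) = f := funext h
  have h2 := deriv_comp_add_const f T x
  rw [h1] at h2
  exact h2.symm

theorem periodic_bdd {E : Type*} [NormedAddCommGroup E] {f : ℝ → E} (hc : Continuous f)
    (hp : Function.Periodic f (2 * Real.pi)) : ∃ M > 0, ∀ x, ‖f x‖ ≤ M := by
  obtain ⟨M, hM⟩ := (isCompact_Icc (a := (0 : ℝ)) (b := 2 * Real.pi)).exists_bound_of_continuousOn
    hc.continuousOn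
  refine ⟨max M 1, by positivity, fun x => ?_⟩
  obtain ⟨y, hy, hxy⟩ := hp.exists_mem_Ico₀ two_pi_pos' x
  rw [hxy]
  exact (hM y (Ico_subset_Icc_self hy)).trans (le_max_left _ _)

theorem periodic_pos {f : ℝ → ℝ} (hc : Continuous f)
    (hp : Function.Periodic f (2 * Real.pi)) (h0 : ∀ x, 0 < f x) : ∃ m > 0, ∀ x, m ≤ f x := by
  obtain ⟨m, hm, hmin⟩ := (isCompact_Icc (a := (0 : ℝ)) (b := 2 * Real.pi)).exists_isMinOn
    (nonempty_Icc.2 pi2) hc.continuousOn
  refine ⟨f m, h0 m, fun x => ?_⟩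
  obtain ⟨y, hy, hxy⟩ := hp.exists_mem_Ico₀ two_pi_pos' x
  rw [hxy]
  exact hmin (Ico_subset_Icc_self hy)

/-- metric constants of a `C²` regular simple closed curve -/
structure Met (γ : ℝ → ℂ) (m M c : ℝ) : Prop where
  mpos : 0 < m
  Mpos : 0 < M
  cpos : 0 < c
  low : ∀ s, m ≤ ‖deriv γ s‖
  up : ∀ s, ‖deriv γ s‖ ≤ M
  lip : ∀ s t, ‖deriv γ t - deriv γ s‖ ≤ M * |t - s|
  taylor : ∀ s t, ‖γ t - γ s - ((t - s : ℝ) : ℂ) * deriv γ s‖ ≤ M * |t - s| ^ 2
  chord : ∀ s t, |t - s| ≤ Real.pi → c * |t - s| ≤ ‖γ t - γ s‖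

theorem Reg.exists_met {γ : ℝ → ℂ} (h : Reg γ) (h2 : ContDiff ℝ 2 γ) :
    ∃ m M c, Met γ m M c := by
  have hpi := Real.pi_pos
  have hd1 : ContDiff ℝ 1 (deriv γ) := by
    have : ContDiff ℝ (1 + 1) γ := by
      rw [one_add_one_eq_two]; exact h2
    exact (contDiff_succ_iff_deriv.1 this).2.2
  have hc2 : Continuous (deriv (deriv γ)) := hd1.continuous_deriv (by norm_num)
  obtain ⟨m, hm, hlow⟩ := periodic_pos (f := fun s => ‖deriv γ s‖) h.contDeriv.norm
    (fun x => by simp only [periodic_deriv h.per x]) (fun x => norm_pos_iff.2 (h.reg x))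
  obtain ⟨M1, hM1, hup⟩ := periodic_bdd h.contDeriv (periodic_deriv h.per)
  obtain ⟨M2, hM2, hup2⟩ := periodic_bdd hc2 (periodic_deriv (periodic_deriv h.per))
  set M := max M1 M2 with hM
  have hMpos : 0 < M := lt_max_of_lt_left hM1
  have hlip : ∀ s t, ‖deriv γ t - deriv γ s‖ ≤ M * |t - s| := by
    intro s t
    have h3 := (convex_univ (𝕜 := ℝ) (E := ℝ)).norm_image_sub_le_of_norm_deriv_le
      (f := deriv γ) (C := M2) (fun x _ => (hd1.differentiable (by norm_num)) x)
      (fun x _ => hup2 x) (mem_univ s) (mem_univ t)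
    rw [Real.norm_eq_abs] at h3
    exact h3.trans (mul_le_mul_of_nonneg_right (le_max_right _ _) (abs_nonneg _))
  have htaylor : ∀ s t, ‖γ t - γ s - ((t - s : ℝ) : ℂ) * deriv γ s‖ ≤ M * |t - s| ^ 2 := by
    intro s t
    have hdx : ∀ x : ℝ, HasDerivAt (fun x : ℝ => γ x - (x : ℂ) * deriv γ s)
        (deriv γ x - deriv γ s) x := fun x => by
      have h9 := ((h.diff x).hasDerivAt).sub ((Complex.ofRealCLM.hasDerivAt (x := x)).mul_const (deriv γ s))
      exact h9.congr_deriv (by simp)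
    have h3 := (convex_uIcc s t).norm_image_sub_le_of_norm_hasDerivWithin_le
      (f := fun x : ℝ => γ x - (x : ℂ) * deriv γ s) (f' := fun x => deriv γ x - deriv γ s)
      (C := M * |t - s|) (fun x _ => (hdx x).hasDerivWithinAt)
      (fun x hx => by
        refine (hlip s x).trans ?_
        apply mul_le_mul_of_nonneg_left _ hMpos.le
        exact abs_sub_left_of_mem_uIcc hx) left_mem_uIcc right_mem_uIcc
    rw [Real.norm_eq_abs] at h3
    calc _ = ‖(γ t - (t : ℂ) * deriv γ s) - (γ s - (s : ℂ) * deriv γ s)‖ := by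
          congr 1
          push_cast
          ring
      _ ≤ M * |t - s| * |t - s| := h3
      _ = _ := by ring
  -- chord-arc
  set ε := m / (2 * M) with hε
  have hεpos : 0 < ε := by positivity
  obtain ⟨ρ, hρ, hfar⟩ : ∃ ρ > 0, ∀ s t, ε ≤ |t - s| → |t - s| ≤ Real.pi → ρ ≤ ‖γ t - γ s‖ := by
    set K : Set (ℝ × ℝ) := Icc 0 (2 * Real.pi) ×ˢ {r : ℝ | ε ≤ |r| ∧ |r| ≤ Real.pi} with hK
    have hKr : IsCompact {r : ℝ | ε ≤ |r| ∧ |r| ≤ Real.pi} := by
      refine (isCompact_Icc (a := -Real.pi) (b := Real.pi)).of_isClosed_subset ?_ ?_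
      · exact (isClosed_le continuous_const continuous_abs).inter
          (isClosed_le continuous_abs continuous_const)
      · rintro r ⟨-, hr⟩
        exact abs_le.1 hr
    have hKc : IsCompact K := isCompact_Icc.prod hKr
    rcases K.eq_empty_or_nonempty with he | hne
    · refine ⟨1, one_pos, fun s t h3 h4 => ?_⟩
      exfalso
      have : ((0 : ℝ), t - s) ∈ K := ⟨⟨le_rfl, pi2⟩, h3, h4⟩
      rw [he] at this
      exact this
    · have hcont : ContinuousOn (fun q : ℝ × ℝ => ‖γ (q.1 + q.2) - γ q.1‖) K := by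
        have := h.cur.cont
        fun_prop
      obtain ⟨q, hq, hmin⟩ := hKc.exists_isMinOn hne hcont
      refine ⟨‖γ (q.1 + q.2) - γ q.1‖, norm_pos_iff.2 (sub_ne_zero.2 ?_), fun s t h3 h4 => ?_⟩
      · obtain ⟨-, h5, h6⟩ := hq
        rcases le_total 0 q.2 with h7 | h7
        · rw [abs_of_nonneg h7] at h5 h6
          exact ne_of_Ioo h.per h.inj (by linarith) (by linarith)
        · rw [abs_of_nonpos h7] at h5 h6
          exact (ne_of_Ioo h.per h.inj (s := q.1) (t := q.1 + q.2) (by linarith) (by linarith)).symm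
      · obtain ⟨y, hy, hsy⟩ := h.per.exists_mem_Ico₀ two_pi_pos' s
        have h8 : γ s = γ (toIcoMod two_pi_pos' 0 s) := by
          rw [toIcoMod]
          exact (h.per.sub_zsmul_eq _).symm
        have h9 : γ t = γ (toIcoMod two_pi_pos' 0 s + (t - s)) := by
          rw [toIcoMod]
          have : s - toIcoDiv two_pi_pos' 0 s • (2 * Real.pi) + (t - s) =
              t - toIcoDiv two_pi_pos' 0 s • (2 * Real.pi) := by ring
          rw [this]
          exact (h.per.sub_zsmul_eq _).symm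
        have h10 := toIcoMod_mem_Ico two_pi_pos' 0 s
        rw [zero_add] at h10
        have h11 : (toIcoMod two_pi_pos' 0 s, t - s) ∈ K := ⟨Ico_subset_Icc_self h10, h3, h4⟩
        have h12 := hmin h11
        rw [h8, h9]
        exact h12
  refine ⟨m, M, min (m / 2) (ρ / Real.pi), hm, hMpos, by positivity, hlow,
    fun s => (hup s).trans (le_max_left _ _), hlip, htaylor, fun s t hst => ?_⟩
  rcases le_total ε |t - s| with h3 | h3
  · have h4 := hfar s t h3 hst
    calc min (m / 2) (ρ / Real.pi) * |t - s| ≤ (ρ / Real.pi) * Real.pi := by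
          apply mul_le_mul (min_le_right _ _) hst (abs_nonneg _) (by positivity)
      _ = ρ := by field_simp
      _ ≤ _ := h4
  · have h4 := htaylor s t
    have h5 : ‖((t - s : ℝ) : ℂ) * deriv γ s‖ = |t - s| * ‖deriv γ s‖ := by
      rw [norm_mul, Complex.norm_real, Real.norm_eq_abs]
    have h6 : ‖((t - s : ℝ) : ℂ) * deriv γ s‖ ≤
        ‖γ t - γ s - ((t - s : ℝ) : ℂ) * deriv γ s‖ + ‖γ t - γ s‖ := by
      have := norm_sub_le (γ t - γ s) (γ t - γ s - ((t - s : ℝ) : ℂ) * deriv γ s)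
      rw [sub_sub_cancel] at this
      linarith
    have h7 : m * |t - s| ≤ |t - s| * ‖deriv γ s‖ := by
      rw [mul_comm]
      exact mul_le_mul_of_nonneg_left (hlow s) (abs_nonneg _)
    have h8 : M * |t - s| ^ 2 ≤ m / 2 * |t - s| := by
      have : M * |t - s| ≤ m / 2 := by
        calc M * |t - s| ≤ M * ε := mul_le_mul_of_nonneg_left h3 hMpos.le
          _ = m / 2 := by rw [hε]; field_simp
      calc M * |t - s| ^ 2 = (M * |t - s|) * |t - s| := by ring
        _ ≤ _ := mul_le_mul_of_nonneg_right this (abs_nonneg _)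
    have h9 : min (m / 2) (ρ / Real.pi) * |t - s| ≤ m / 2 * |t - s| :=
      mul_le_mul_of_nonneg_right (min_le_left _ _) (abs_nonneg _)
    rw [h5] at h6
    linarith

/-- every point of the curve is `γ t` with `|t - s| ≤ π` -/
theorem exists_near_param {γ : ℝ → ℂ} (hp : Function.Periodic γ (2 * Real.pi)) (s t : ℝ) :
    ∃ t', |t' - s| ≤ Real.pi ∧ γ t' = γ t := by
  obtain ⟨y, hy, hty⟩ := hp.exists_mem_Ico two_pi_pos' t (s - Real.pi)
  refine ⟨y, ?_, hty.symm⟩
  rw [abs_le]
  constructor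
  · linarith [hy.1]
  · linarith [hy.2]

/-- tangent balls on both sides avoid the curve -/
theorem Met.ball_disj {γ : ℝ → ℂ} {m M c : ℝ} (hm : Met γ m M c)
    (hp : Function.Periodic γ (2 * Real.pi)) {s : ℝ} {n : ℂ} (hn : ‖n‖ = 1)
    (hperp : (deriv γ s * (starRingEnd ℂ) n).re = 0) {r : ℝ} (hr : 0 < r)
    (hr' : 2 * M * r ≤ c ^ 2) : Disjoint (ball (γ s + r * n) r) (range γ) := by
  rw [disjoint_left]
  rintro z hz ⟨t, rfl⟩
  obtain ⟨t', ht', htt⟩ := exists_near_param hp s t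
  rw [← htt, mem_ball, dist_eq_norm] at hz
  set w := γ t' - γ s with hw
  have h1 : γ t' - (γ s + r * n) = w - r * n := by rw [hw]; ring
  rw [h1] at hz
  have h2 : ‖w - r * n‖ ^ 2 = ‖w‖ ^ 2 - 2 * r * (w * (starRingEnd ℂ) n).re + r ^ 2 := by
    rw [← Complex.normSq_eq_norm_sq, Complex.normSq_sub, Complex.normSq_eq_norm_sq,
      Complex.normSq_eq_norm_sq, norm_mul, hn, mul_one, Complex.norm_real, Real.norm_eq_abs,
      sq_abs]
    have : (w * (starRingEnd ℂ) (r * n)).re = r * (w * (starRingEnd ℂ) n).re := by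
      rw [map_mul, Complex.conj_ofReal]
      have : w * ((r : ℂ) * (starRingEnd ℂ) n) = (r : ℂ) * (w * (starRingEnd ℂ) n) := by ring
      rw [this, Complex.re_ofReal_mul]
    rw [this]
    ring
  have h3 : ‖w - r * n‖ ^ 2 < r ^ 2 := by
    have := norm_nonneg (w - r * n)
    nlinarith
  have h4 : (w * (starRingEnd ℂ) n).re ≤ M * |t' - s| ^ 2 := by
    have h5 := hm.taylor s t'
    have h6 : (w * (starRingEnd ℂ) n).re =
        ((w - ((t' - s : ℝ) : ℂ) * deriv γ s) * (starRingEnd ℂ) n).re := by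
      conv_rhs => rw [sub_mul, Complex.sub_re, mul_assoc, Complex.re_ofReal_mul, hperp, mul_zero,
        sub_zero]
    rw [h6]
    refine (Complex.re_le_norm _).trans ?_
    rw [norm_mul, RCLike.norm_conj, hn, mul_one]
    exact h5
  have h5 := hm.chord s t' ht'
  have h6 : c ^ 2 * |t' - s| ^ 2 ≤ ‖w‖ ^ 2 := by
    rw [← mul_pow]
    exact pow_le_pow_left₀ (mul_nonneg hm.cpos.le (abs_nonneg _)) h5 2
  have h7 : 2 * r * (w * (starRingEnd ℂ) n).re ≤ c ^ 2 * |t' - s| ^ 2 := by
    calc 2 * r * (w * (starRingEnd ℂ) n).re ≤ 2 * r * (M * |t' - s| ^ 2) :=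
          mul_le_mul_of_nonneg_left h4 (by positivity)
      _ = (2 * M * r) * |t' - s| ^ 2 := by ring
      _ ≤ _ := mul_le_mul_of_nonneg_right hr' (by positivity)
  linarith

end Crest.Agent.R144.Geo268
end

-- ▼ part R144/Set1_268
section

/-! R144 (helper268): the common SETUP of the integer statements S0195, S0196 (block D0): free sites
`Λ n`, boundary data `τ n` in `{-1, 0}`, marks `P`, uniform ball condition, density of boundary
sites. -/

set_option autoImplicit false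

open Set Topology Filter Metric MeasureTheory

namespace Crest.Agent.R144.Set268

open Crest.ProbabilityR.HexHeights Crest.ProbabilityR.TriHeights Crest.Agent.R144.HexTil353
  Crest.Agent.R144.Geo268 Crest.Agent.R144.Cnt268
open Crest.Agent.R144.It844 (intF xi Lip)

/-- boundary sites: not free, adjacent to a free site -/
def Bd (Λ : Finset (ℤ × ℤ)) (v : ℤ × ℤ) : Prop := v ∉ Λ ∧ ∃ w ∈ Λ, Adj w v

/-- the common setting of S0195 and S0196 -/
structure Setup (D : Set ℂ) (γ : ℝ → ℂ) (P : Finset ℂ) (δ : ℕ → ℝ) (Λ : ℕ → Finset (ℤ × ℤ))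
    (τ : ℕ → ℤ × ℤ → ℤ) : Prop where
  dom : Dom D γ
  c2 : ContDiff ℝ 2 γ
  sites : Sites D δ Λ
  compl : ∀ n, Crest.Agent.R144.HexDom353.Conn Adj ((Λ n : Set (ℤ × ℤ))ᶜ)
  data : ∀ n v, τ n v = -1 ∨ τ n v = 0
  marks : ∀ p ∈ P, p ∈ frontier D
  bnd : ∀ ε > 0, ∀ᶠ n in atTop, ∀ v, Bd (Λ n) v → infDist (centre (δ n) v) (frontier D) < ε
  cst : ∀ p ∈ frontier D, p ∉ P → ∃ r > 0, ∃ k : ℤ, (k = -1 ∨ k = 0) ∧
    ∀ᶠ n in atTop, ∀ v, Bd (Λ n) v → dist (centre (δ n) v) p ≤ r → τ n v = k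

/-- **S0195** -/
theorem setup_hex {D : Set ℂ} {γ : ℝ → ℂ} {δ : ℕ → ℝ} {F : ℕ → Finset (ℤ × ℤ)}
    (hD : IsC2JordanDomain D γ) (hA : IsInsideApprox D γ δ F) :
    Setup D γ ∅ δ (fun n => intF (F n)) (fun _ _ => 0) where
  dom := dom_of_C2 hD
  c2 := hD.2.2.2.1
  sites := sites_hex hD hA
  compl := fun n => Crest.Agent.R144.Cov353.hex_compl_conn
    (Crest.Agent.R144.Cov353.hex_dom hA n).2.2.1
  data := fun _ _ => Or.inr rfl
  marks := by simp
  bnd := fun ε hε => (Crest.Agent.R144.Cov353.hex_boundary_near hD hA hε).mono fun n hn v hv => by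
    obtain ⟨h1, w, hw, hwv⟩ := hv
    have h2 := (Crest.Agent.R144.It844.mem_intF.1 hw).2 v hwv
    exact hn v h2 h1
  cst := fun p _ _ => ⟨1, one_pos, 0, Or.inr rfl, Eventually.of_forall fun _ _ _ _ => rfl⟩

/-- a boundary site of the free set is a boundary vertex of the polygon -/
theorem bdv_of_bd {γ : ℝ → ℂ} {θ : ℝ} {δ : ℕ → ℝ} {T : ℕ → Finset Tri}
    {ea eb : ℕ → (ℤ × ℤ) × (ℤ × ℤ)} {c : ℕ → ℝ → ℂ}
    (hA : IsMarkedApprox γ θ δ T ea eb c) {n : ℕ} {v : ℤ × ℤ}
    (hv : Bd (freeVerts (T n) (arcPlus (δ n) (T n) (c n) θ) (arcMinus (δ n) (T n) (c n) θ)) v) :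
    IsBoundaryVertex (T n) v := by
  obtain ⟨h1, w, hw, hwv⟩ := hv
  rw [isBoundaryVertex_iff (hA.1 n)]
  rw [mem_free_iff hA n v] at h1
  rw [mem_free_iff hA n w] at hw
  exact ⟨(Crest.Agent.R144.It844.IsEdge.mem (isEdge_of_adj (hA.1 n) hw hwv)).2, h1⟩

/-- the free vertices are 353's interior vertices -/
theorem free_eq_Lam {γ : ℝ → ℂ} {θ : ℝ} {δ : ℕ → ℝ} {T : ℕ → Finset Tri}
    {ea eb : ℕ → (ℤ × ℤ) × (ℤ × ℤ)} {c : ℕ → ℝ → ℂ}
    (hA : IsMarkedApprox γ θ δ T ea eb c) (n : ℕ) :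
    freeVerts (T n) (arcPlus (δ n) (T n) (c n) θ) (arcMinus (δ n) (T n) (c n) θ) =
      Crest.Agent.R144.TriDom353.Lam (T n) := by
  ext v
  rw [mem_free_iff hA n v, centre_mem_polygon (hA.1 n), Crest.Agent.R144.TriDom353.mem_Lam]
  constructor
  · intro h k
    exact h _ (Crest.Agent.R144.TriDom353.self_mem_star v k)
  · intro h t ht
    obtain ⟨k, rfl⟩ := Crest.Agent.R144.TriDom353.mem_star.1 ht
    exact h k

/-- **S0196** (and the discrete domains of S0197) -/
theorem setup_tri {D : Set ℂ} {γ : ℝ → ℂ} {θ : ℝ} {δ : ℕ → ℝ} {T : ℕ → Finset Tri}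
    {ea eb : ℕ → (ℤ × ℤ) × (ℤ × ℤ)} {c : ℕ → ℝ → ℂ}
    (hD : IsSmoothMarkedDomain D γ θ) (hA : IsMarkedApprox γ θ δ T ea eb c) :
    Setup D γ {γ 0, γ θ} δ
      (fun n => freeVerts (T n) (arcPlus (δ n) (T n) (c n) θ) (arcMinus (δ n) (T n) (c n) θ))
      (fun n => xi (arcMinus (δ n) (T n) (c n) θ)) where
  dom := dom_of_marked hD
  c2 := contDiff_infty.1 hD.2.2.2.1 2
  sites := sites_tri hD hA
  compl := fun n => by
    have h1 := Crest.Agent.R144.Cov353.tri_compl_conn
      (Crest.Agent.R144.Cov353.dom_of hA n).2.2.2.1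
    rw [← free_eq_Lam hA n] at h1
    exact h1
  data := fun n v => Crest.Agent.R144.It844.xi_cases _ v
  marks := by
    intro p hp
    rw [← hD.2.2.2.2.2.2.2.1]
    simp only [Finset.mem_insert, Finset.mem_singleton] at hp
    rcases hp with rfl | rfl <;> exact mem_range_self _
  bnd := fun ε hε => (Crest.Agent.R144.Cov353.tri_boundary_near hD hA hε).mono fun n hn v hv =>
    hn v (bdv_of_bd hA hv)
  cst := by
    intro p hp hpP
    simp only [Finset.mem_insert, Finset.mem_singleton, not_or] at hpP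
    obtain ⟨hp0, hpθ⟩ := hpP
    rw [← hD.2.2.2.2.2.2.2.1] at hp
    obtain ⟨s', rfl⟩ := hp
    have hper := hD.2.2.2.2.1
    have hinj := hD.2.2.2.2.2.2.1
    have hθ0 := hD.2.2.2.2.2.2.2.2.1
    have hθ1 := hD.2.2.2.2.2.2.2.2.2
    have hcont : Continuous γ := hD.2.2.2.1.continuous
    obtain ⟨s, hs, hss⟩ := hper.exists_mem_Ico₀ two_pi_pos' s'
    rw [hss] at hp0 hpθ ⊢
    have hs0 : s ≠ 0 := fun h => hp0 (by rw [h])
    have hsθ : s ≠ θ := fun h => hpθ (by rw [h])
    have hspos : 0 < s := lt_of_le_of_ne hs.1 hs0.symm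
    -- a compact arc not containing the point
    have key : ∀ a b : ℝ, 0 ≤ a → b ≤ 2 * Real.pi → (s < a ∨ b < s) →
        ∃ r > 0, ∀ᶠ n in atTop, ∀ v : ℤ × ℤ, dist (centre (δ n) v) (γ s) ≤ r →
          ∀ t, a < t → t < b → c n t ≠ centre (δ n) v := by
      intro a b ha hb hsab
      have hcpt : IsCompact (γ '' Icc a b) := isCompact_Icc.image hcont
      have hnot : γ s ∉ γ '' Icc a b := by
        rintro ⟨t, ht, hts⟩
        have ht' : t ∈ Icc 0 (2 * Real.pi) := ⟨ha.trans ht.1, ht.2.trans hb⟩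
        rcases eq_or_lt_of_le ht'.2 with h1 | h1
        · have h2 : γ t = γ 0 := by
            have := hper 0
            rw [zero_add] at this
            rw [h1, this]
          exact hp0 (by rw [← hts, h2])
        · have h2 := hinj (⟨ht'.1, h1⟩ : t ∈ Ico 0 (2 * Real.pi)) hs hts
          rcases hsab with h3 | h3
          · linarith [ht.1]
          · linarith [ht.2]
      obtain ⟨r, hr, hr'⟩ : ∃ r > 0, ∀ z ∈ γ '' Icc a b, 3 * r ≤ dist z (γ s) := by
        obtain ⟨r, hr, hr'⟩ := Metric.isOpen_iff.1 hcpt.isClosed.isOpen_compl (γ s) hnot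
        refine ⟨r / 3, by positivity, fun z hz => ?_⟩
        by_contra hcon
        push Not at hcon
        exact hr' (mem_ball.2 (by linarith)) hz
      refine ⟨r, hr, ?_⟩
      filter_upwards [Metric.tendstoUniformly_iff.1 hA.2.2.2.2 r hr] with n hn v hv t hat htb h1
      have h2 := hr' (γ t) ⟨t, ⟨hat.le, htb.le⟩, rfl⟩
      have h3 := hn t
      rw [h1] at h3
      have h4 := dist_triangle (γ t) (centre (δ n) v) (γ s)
      linarith
    rcases lt_or_gt_of_ne hsθ with hlt | hgt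
    · obtain ⟨r, hr, hev⟩ := key θ (2 * Real.pi) hθ0.le le_rfl (Or.inl hlt)
      refine ⟨r, hr, 0, Or.inr rfl, hev.mono fun n hn v _ hvr => ?_⟩
      unfold xi
      rw [if_neg]
      rintro ⟨-, t, ht1, ht2, ht3⟩
      exact hn v hvr t ht1 ht2 ht3
    · obtain ⟨r, hr, hev⟩ := key 0 θ le_rfl hθ1.le (Or.inr hgt)
      refine ⟨r, hr, -1, Or.inl rfl, hev.mono fun n hn v hv hvr => ?_⟩
      unfold xi
      rw [if_pos]
      rcases arcs_cover hA n (bdv_of_bd hA hv) with h1 | h1
      · obtain ⟨-, t, ht1, ht2, ht3⟩ := h1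
        exact absurd ht3 (hn v hvr t ht1 ht2)
      · exact h1

end Crest.Agent.R144.Set268
end

-- ▼ part R144/Set2_268

/-! R144 (helper268): SETUP, file 2: uniform two-sided ball condition, boundary sites are dense along
the frontier, bridges from the literal expectations to `It844.ex`. -/

set_option autoImplicit false

open Set Topology Filter Metric MeasureTheory

namespace Crest.Agent.R144.Set268

open Crest.ProbabilityR.HexHeights Crest.ProbabilityR.TriHeights Crest.Agent.R144.HexTil353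
  Crest.Agent.R144.Geo268 Crest.Agent.R144.Cnt268
open Crest.Agent.R144.It844 (intF xi Lip ex conf extF extT)

/-! ### uniform balls -/

/-- **uniform two-sided ball condition** for a `C²` Jordan domain: at every point of the frontier the
inner normal `n` gives a ball of radius `r` inside `D` and one outside `closure D`, both tangent -/
theorem exists_balls {D : Set ℂ} {γ : ℝ → ℂ} (h : Dom D γ) (h2 : ContDiff ℝ 2 γ) :
    ∃ r0 > 0, ∀ p ∈ frontier D, ∃ n : ℂ, ‖n‖ = 1 ∧ ∀ r : ℝ, 0 < r → r ≤ r0 →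
      ball (p + r * n) r ⊆ D ∧ Disjoint (ball (p - r * n) r) (closure D) := by
  obtain ⟨m, M, c, hm⟩ := h.reg.exists_met h2
  have hM := hm.Mpos
  have hc := hm.cpos
  refine ⟨c ^ 2 / (2 * M), by positivity, fun p hp => ?_⟩
  rw [← h.fr] at hp
  obtain ⟨s, rfl⟩ := hp
  have hd0 : deriv γ s ≠ 0 := h.reg.reg s
  have hdn : (0 : ℝ) < ‖deriv γ s‖ := norm_pos_iff.2 hd0
  set n0 : ℂ := deriv γ s * Complex.I / (‖deriv γ s‖ : ℂ) with hn0
  have hn0n : ‖n0‖ = 1 := by
    rw [hn0, norm_div, norm_mul, Complex.norm_I, mul_one, Complex.norm_real, norm_norm,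
      div_self hdn.ne']
  have hperp : (deriv γ s * (starRingEnd ℂ) n0).re = 0 := by
    rw [hn0, map_div₀, map_mul, Complex.conj_I, Complex.conj_ofReal]
    have : deriv γ s * ((starRingEnd ℂ) (deriv γ s) * -Complex.I / (‖deriv γ s‖ : ℂ)) =
        ((-(‖deriv γ s‖ : ℝ) : ℝ) : ℂ) * Complex.I := by
      have h3 : deriv γ s * (starRingEnd ℂ) (deriv γ s) = (‖deriv γ s‖ : ℂ) ^ 2 :=
        Complex.mul_conj' _
      have h4 : (‖deriv γ s‖ : ℂ) ≠ 0 := by exact_mod_cast hdn.ne'
      push_cast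
      field_simp
      rw [h3]
    rw [this, Complex.re_ofReal_mul, Complex.I_re, mul_zero]
  have hperp' : (deriv γ s * (starRingEnd ℂ) (-n0)).re = 0 := by
    rw [map_neg, mul_neg, Complex.neg_re, hperp, neg_zero]
  obtain ⟨l⟩ := h.reg.exists_loc s one_pos
  -- points of the two sides in the balls
  have hrad : ∀ r : ℝ, 0 < r → r ≤ c ^ 2 / (2 * M) → 2 * M * r ≤ c ^ 2 := by
    intro r _ hr
    rw [le_div_iff₀ (by positivity)] at hr
    linarith
  have hdist : ∀ t r : ℝ, 0 < t → t * ‖deriv γ s‖ < r → |t * ‖deriv γ s‖ - r| < r := by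
    intro t r ht hr
    have : 0 < t * ‖deriv γ s‖ := by positivity
    rw [abs_lt]
    constructor <;> linarith
  have hI : deriv γ s * Complex.I = (‖deriv γ s‖ : ℂ) * n0 := by
    have h4 : (‖deriv γ s‖ : ℂ) ≠ 0 := by exact_mod_cast hdn.ne'
    rw [hn0]
    field_simp
  have hLball : ∀ t r : ℝ, 0 < t → t * ‖deriv γ s‖ < r →
      γ s + deriv γ s * (t * Complex.I) ∈ ball (γ s + r * n0) r := by
    intro t r ht hr
    rw [mem_ball, dist_eq_norm]
    have : γ s + deriv γ s * (t * Complex.I) - (γ s + r * n0) =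
        ((t * ‖deriv γ s‖ - r : ℝ) : ℂ) * n0 := by
      have : deriv γ s * (t * Complex.I) = t * (deriv γ s * Complex.I) := by ring
      rw [this, hI]
      push_cast
      ring
    rw [this, norm_mul, hn0n, mul_one, Complex.norm_real, Real.norm_eq_abs]
    exact hdist t r ht hr
  have hRball : ∀ t r : ℝ, 0 < t → t * ‖deriv γ s‖ < r →
      γ s - deriv γ s * (t * Complex.I) ∈ ball (γ s + r * (-n0)) r := by
    intro t r ht hr
    rw [mem_ball, dist_eq_norm]
    have : γ s - deriv γ s * (t * Complex.I) - (γ s + r * (-n0)) =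
        -(((t * ‖deriv γ s‖ - r : ℝ) : ℂ) * n0) := by
      have : deriv γ s * (t * Complex.I) = t * (deriv γ s * Complex.I) := by ring
      rw [this, hI]
      push_cast
      ring
    rw [this, norm_neg, norm_mul, hn0n, mul_one, Complex.norm_real, Real.norm_eq_abs]
    exact hdist t r ht hr
  -- the generic argument: side `A` inside, side `B` outside
  have key : ∀ (A B : Set ℂ) (n : ℂ), ‖n‖ = 1 → (deriv γ s * (starRingEnd ℂ) n).re = 0 →
      (deriv γ s * (starRingEnd ℂ) (-n)).re = 0 →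
      A ⊆ D → (∀ z ∈ B, z ∉ D) →
      (∀ r : ℝ, 0 < r → ∃ z ∈ A, z ∈ ball (γ s + r * n) r) →
      (∀ r : ℝ, 0 < r → ∃ z ∈ B, z ∈ ball (γ s + r * (-n)) r) →
      ∀ r : ℝ, 0 < r → r ≤ c ^ 2 / (2 * M) →
        ball (γ s + r * n) r ⊆ D ∧ Disjoint (ball (γ s - r * n) r) (closure D) := by
    intro A B n hn h3 h3' hA hB hAb hBb r hr hr'
    have g1 := hm.ball_disj h.reg.per hn h3 hr (hrad r hr hr')
    have g2 := hm.ball_disj h.reg.per (n := -n) (by rw [norm_neg]; exact hn) h3' hr (hrad r hr hr')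
    obtain ⟨z1, hz1, hz1'⟩ := hAb r hr
    obtain ⟨z2, hz2, hz2'⟩ := hBb r hr
    constructor
    · exact h.sub_of_meets (convex_ball _ _).isPreconnected g1 hz1' (hA hz1)
    · have h4 : γ s - r * n = γ s + r * (-n) := by ring
      rw [h4]
      have h5 : Disjoint (ball (γ s + r * (-n)) r) D := by
        rw [disjoint_left]
        intro z hz hzD
        have := h.sub_of_meets (convex_ball _ _).isPreconnected g2 hz hzD
        exact hB z2 hz2 (this hz2')
      exact h5.closure_right isOpen_ball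
  have hexL : ∀ r : ℝ, 0 < r → ∃ z ∈ l.L, z ∈ ball (γ s + r * n0) r := by
    intro r hr
    set t := min (l.δ / 2) (r / (2 * ‖deriv γ s‖)) with ht
    have hδ := l.δpos
    have htpos : 0 < t := by positivity
    have ht1 : t < l.δ := (min_le_left _ _).trans_lt (by linarith)
    have ht2 : t * ‖deriv γ s‖ < r := by
      have : t ≤ r / (2 * ‖deriv γ s‖) := min_le_right _ _
      calc t * ‖deriv γ s‖ ≤ r / (2 * ‖deriv γ s‖) * ‖deriv γ s‖ :=
            mul_le_mul_of_nonneg_right this hdn.le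
        _ = r / 2 := by field_simp
        _ < r := by linarith
    exact ⟨_, l.left s t (by rw [sub_self, abs_zero]; exact hδ) htpos ht1, hLball t r htpos ht2⟩
  have hexR : ∀ r : ℝ, 0 < r → ∃ z ∈ l.R, z ∈ ball (γ s + r * (-n0)) r := by
    intro r hr
    set t := min (l.δ / 2) (r / (2 * ‖deriv γ s‖)) with ht
    have hδ := l.δpos
    have htpos : 0 < t := by positivity
    have ht1 : t < l.δ := (min_le_left _ _).trans_lt (by linarith)
    have ht2 : t * ‖deriv γ s‖ < r := by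
      have : t ≤ r / (2 * ‖deriv γ s‖) := min_le_right _ _
      calc t * ‖deriv γ s‖ ≤ r / (2 * ‖deriv γ s‖) * ‖deriv γ s‖ :=
            mul_le_mul_of_nonneg_right this hdn.le
        _ = r / 2 := by field_simp
        _ < r := by linarith
    exact ⟨_, l.right s t (by rw [sub_self, abs_zero]; exact hδ) htpos ht1, hRball t r htpos ht2⟩
  rcases h.side l with hL | hR
  · refine ⟨n0, hn0n, key l.L l.R n0 hn0n hperp hperp' hL ?_ hexL hexR⟩
    intro z hz hzD
    exact h.not_both l ⟨hL, h.sub_of_meets l.pR l.dR hz hzD⟩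
  · refine ⟨-n0, by rw [norm_neg]; exact hn0n, key l.R l.L (-n0) (by rw [norm_neg]; exact hn0n)
      hperp' (by rw [neg_neg]; exact hperp) hR ?_ hexR (by simpa using hexL)⟩
    intro z hz hzD
    exact h.not_both l ⟨h.sub_of_meets l.pL l.dL hz hzD, hR⟩

end Crest.Agent.R144.Set268
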