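import Mathlib
import Crest.Prelude.Def_HexHeights
import Crest.Prelude.Def_TriHeights
import Crest.Agent.R144.Dpl5_702
import Crest.Agent.R144.It1b_844
import Crest.Agent.R144.HexTil_353
import Crest.Agent.R144.Set3_268
import Crest.Agent.R144.ConS_938
import Crest.Agent.R144.Cw6_643

-- ▼ part R144/Mom_353
section

/-!
# R144 / Mom_353 : moment lift

Law convergence (characteristic functions) to a centred Gaussian together with bounded even moments
gives convergence of all moments; measure version and the finite weighted-sum version used for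
`heightExpect` and `twoArcExpect`.
-/

set_option autoImplicit false

noncomputable section

namespace Crest.Agent.R144.Mom353

open Filter Topology MeasureTheory ProbabilityTheory
open scoped NNReal ENNReal Nat

/-- Gaussian moment value used in the statements. -/
def gm (v : ℝ) (k : ℕ) : ℝ := if Even k then v ^ (k / 2) * ((k - 1).doubleFactorial : ℝ) else 0

theorem integral_even_moment {v : ℝ} (hv : 0 < v) (m : ℕ) :
    ∫ x : ℝ, x ^ (2 * m) * Real.exp (-(1 / (2 * v)) * x ^ 2) =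
      Real.sqrt (2 * Real.pi * v) * (v ^ m * ((2 * m - 1 : ℕ)‼ : ℝ)) := by
  have hb : 0 < 1 / (2 * v) := by positivity
  have h1 : ∀ x : ℝ, x ^ (2 * m) * Real.exp (-(1 / (2 * v)) * x ^ 2) =
      (fun y : ℝ => y ^ (2 * m) * Real.exp (-(1 / (2 * v)) * y ^ 2)) |x| := by
    intro x
    simp only [sq_abs]
    rw [pow_mul, pow_mul, sq_abs]
  rw [integral_congr_ae (ae_of_all _ h1),
    integral_comp_abs (f := fun y : ℝ => y ^ (2 * m) * Real.exp (-(1 / (2 * v)) * y ^ 2))]
  have h2 : ∫ x in Set.Ioi (0 : ℝ), x ^ (2 * m) * Real.exp (-(1 / (2 * v)) * x ^ 2) =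
      ∫ x in Set.Ioi (0 : ℝ), x ^ ((2 * m : ℕ) : ℝ) * Real.exp (-(1 / (2 * v)) * x ^ (2 : ℝ)) := by
    refine setIntegral_congr_fun measurableSet_Ioi fun x _ => ?_
    simp only [Real.rpow_natCast, Real.rpow_two]
  have hq : (-1 : ℝ) < ((2 * m : ℕ) : ℝ) := by
    have : (0 : ℝ) ≤ ((2 * m : ℕ) : ℝ) := Nat.cast_nonneg _
    linarith
  rw [h2, integral_rpow_mul_exp_neg_mul_rpow (by norm_num) hq hb]
  have h3 : (((2 * m : ℕ) : ℝ) + 1) / 2 = (m : ℝ) + 1 / 2 := by
    push_cast; ring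
  have h4 : -(((2 * m : ℕ) : ℝ) + 1) / 2 = -((m : ℝ) + 1 / 2) := by
    push_cast; ring
  rw [h3, h4, Real.Gamma_nat_add_half]
  have h5 : (1 / (2 * v)) ^ (-((m : ℝ) + 1 / 2)) = (2 * v) ^ m * Real.sqrt (2 * v) := by
    rw [one_div, Real.inv_rpow (by positivity), ← Real.rpow_neg (by positivity), neg_neg,
      Real.rpow_add (by positivity), Real.rpow_natCast, ← Real.sqrt_eq_rpow]
  rw [h5, show 2 * Real.pi * v = (2 * v) * Real.pi by ring,
    Real.sqrt_mul (show (0 : ℝ) ≤ 2 * v by positivity) Real.pi]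
  have h6 : (2 : ℝ) ^ m ≠ 0 := by positivity
  rw [mul_pow]
  generalize Real.sqrt (2 * v) = a
  field_simp

theorem gaussian_even_moment {v : ℝ} (hv : 0 ≤ v) (m : ℕ) :
    ∫ x : ℝ, x ^ (2 * m) ∂(gaussianReal 0 v.toNNReal) = v ^ m * ((2 * m - 1 : ℕ)‼ : ℝ) := by
  rcases hv.eq_or_lt with rfl | hv
  · simp only [Real.toNNReal_zero, gaussianReal_zero_var, integral_dirac]
    rcases Nat.eq_zero_or_pos m with rfl | hm
    · simp
    · rw [zero_pow (by omega), zero_pow (by omega), zero_mul]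
  · have hv' : v.toNNReal ≠ 0 := by
      simpa using hv
    rw [integral_gaussianReal_eq_integral_smul hv']
    have h1 : ∀ x : ℝ, gaussianPDFReal 0 v.toNNReal x • x ^ (2 * m) =
        (Real.sqrt (2 * Real.pi * v))⁻¹ * (x ^ (2 * m) * Real.exp (-(1 / (2 * v)) * x ^ 2)) := by
      intro x
      rw [gaussianPDFReal, smul_eq_mul, Real.coe_toNNReal _ hv.le, sub_zero]
      have : -x ^ 2 / (2 * v) = -(1 / (2 * v)) * x ^ 2 := by ring
      rw [this]
      ring
    simp_rw [h1]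
    rw [integral_const_mul, integral_even_moment hv]
    have : Real.sqrt (2 * Real.pi * v) ≠ 0 := by positivity
    field_simp

theorem gaussian_odd_moment (v : ℝ) {k : ℕ} (hk : ¬ Even k) :
    ∫ x : ℝ, x ^ k ∂(gaussianReal 0 v.toNNReal) = 0 := by
  have hmap : (gaussianReal 0 v.toNNReal).map (fun x => -x) = gaussianReal 0 v.toNNReal := by
    have := gaussianReal_map_neg (μ := 0) (v := v.toNNReal)
    simpa using this
  have h1 : ∫ x : ℝ, x ^ k ∂(gaussianReal 0 v.toNNReal) =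
      ∫ x : ℝ, (-x) ^ k ∂(gaussianReal 0 v.toNNReal) := by
    conv_lhs => rw [← hmap]
    rw [integral_map (by fun_prop) (by fun_prop)]
  have h2 : ∀ x : ℝ, (-x) ^ k = -x ^ k := fun x => (Nat.not_even_iff_odd.1 hk).neg_pow x
  simp_rw [h2, integral_neg] at h1
  linarith

theorem gaussian_moment {v : ℝ} (hv : 0 ≤ v) (k : ℕ) :
    ∫ x : ℝ, x ^ k ∂(gaussianReal 0 v.toNNReal) = gm v k := by
  unfold gm
  split_ifs with h
  · obtain ⟨m, rfl⟩ := h
    rw [← two_mul, gaussian_even_moment hv]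
    simp
  · exact gaussian_odd_moment v h

theorem integrable_pow_gaussian (v : ℝ) (k : ℕ) :
    Integrable (fun x : ℝ => x ^ k) (gaussianReal 0 v.toNNReal) := by
  have h := memLp_id_gaussianReal (μ := 0) (v := v.toNNReal) (k : ℝ≥0)
  have h2 := h.integrable_norm_pow'
  refine (h2.mono' (by fun_prop) (ae_of_all _ fun x => ?_))
  simp

/-- truncation at level `R` -/
def tr (R x : ℝ) : ℝ := max (-R) (min R x)

theorem abs_tr_le {R : ℝ} (hR : 0 ≤ R) (x : ℝ) : |tr R x| ≤ R := by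
  unfold tr
  rw [abs_le]
  constructor
  · exact le_max_left _ _
  · exact max_le (by linarith) (min_le_left _ _)

theorem tr_eq {R : ℝ} {x : ℝ} (h : |x| ≤ R) : tr R x = x := by
  unfold tr
  rw [abs_le] at h
  rw [min_eq_right h.2, max_eq_right h.1]

theorem pow_sub_tr_le {R : ℝ} (hR : 0 < R) (k : ℕ) (x : ℝ) :
    |x ^ k - tr R x ^ k| ≤ 2 / R ^ 2 * x ^ (2 * (k + 1)) / R ^ k := by
  by_cases h : |x| ≤ R
  · rw [tr_eq h, sub_self, abs_zero]
    have : 0 ≤ x ^ (2 * (k + 1)) := by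
      rw [pow_mul]; positivity
    positivity
  · push Not at h
    have h1 : |x ^ k - tr R x ^ k| ≤ 2 * |x| ^ k := by
      calc |x ^ k - tr R x ^ k| ≤ |x ^ k| + |tr R x ^ k| := abs_sub _ _
        _ ≤ |x| ^ k + R ^ k := by
            rw [abs_pow, abs_pow]
            have := pow_le_pow_left₀ (abs_nonneg _) (abs_tr_le hR.le x) k
            linarith
        _ ≤ 2 * |x| ^ k := by
            have := pow_le_pow_left₀ hR.le h.le k
            linarith
    refine h1.trans ?_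
    have h2 : x ^ (2 * (k + 1)) = |x| ^ k * |x| ^ (k + 2) := by
      rw [pow_mul, ← sq_abs, ← pow_mul, ← pow_add]
      congr 1
      ring
    rw [h2]
    have h3 : R ^ (k + 2) ≤ |x| ^ (k + 2) := pow_le_pow_left₀ hR.le h.le _
    have h4 : 2 / R ^ 2 * (|x| ^ k * |x| ^ (k + 2)) / R ^ k =
        2 * |x| ^ k * (|x| ^ (k + 2) / R ^ (k + 2)) := by
      rw [pow_add R k 2]
      field_simp
    rw [h4]
    have h5 : 1 ≤ |x| ^ (k + 2) / R ^ (k + 2) := by
      rw [one_le_div (by positivity)]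
      exact h3
    have h6 : 0 ≤ 2 * |x| ^ k := by positivity
    nlinarith

/-- **Moment lift, measure version.** -/
theorem moments_of_charFun {μ : ℕ → ProbabilityMeasure ℝ} {v : ℝ} (hv : 0 ≤ v)
    (hc : ∀ t : ℝ, Tendsto (fun n => charFun (μ n : Measure ℝ) t) atTop
      (𝓝 (Complex.exp (-(v * t ^ 2 / 2 : ℝ)))))
    (hi : ∀ n k, Integrable (fun x : ℝ => x ^ k) (μ n : Measure ℝ))
    (hb : ∀ k : ℕ, ∃ C : ℝ, ∀ᶠ n in atTop, ∫ x : ℝ, x ^ (2 * k) ∂(μ n : Measure ℝ) ≤ C) (k : ℕ) :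
    Tendsto (fun n => ∫ x : ℝ, x ^ k ∂(μ n : Measure ℝ)) atTop (𝓝 (gm v k)) := by
  let μ₀ : ProbabilityMeasure ℝ := ⟨gaussianReal 0 v.toNNReal, inferInstance⟩
  have hw : Tendsto μ atTop (𝓝 μ₀) := by
    refine ProbabilityMeasure.tendsto_of_tendsto_charFun fun t => ?_
    have : charFun (μ₀ : Measure ℝ) t = Complex.exp (-(v * t ^ 2 / 2 : ℝ)) := by
      change charFun (gaussianReal 0 v.toNNReal) t = _
      rw [charFun_gaussianReal, Real.coe_toNNReal _ hv]
      congr 1
      push_cast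
      ring
    rw [this]
    exact hc t
  rw [← gaussian_moment hv k]
  obtain ⟨C, hC⟩ := hb (k + 1)
  set C' : ℝ := max C (∫ x : ℝ, x ^ (2 * (k + 1)) ∂(gaussianReal 0 v.toNNReal)) with hC'
  have hC0 : 0 ≤ C' := le_max_of_le_right (integral_nonneg fun x => by rw [pow_mul]; positivity)
  -- truncation error
  have herr : ∀ (ν : Measure ℝ) [IsProbabilityMeasure ν],
      (∀ j : ℕ, Integrable (fun x : ℝ => x ^ j) ν) →
      ∫ x : ℝ, x ^ (2 * (k + 1)) ∂ν ≤ C' → ∀ R : ℝ, 1 ≤ R →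
      |∫ x : ℝ, x ^ k ∂ν - ∫ x : ℝ, tr R x ^ k ∂ν| ≤ 2 * C' / R ^ 2 := by
    intro ν _ hν hle R hR
    have hR0 : 0 < R := by linarith
    have hit : Integrable (fun x : ℝ => tr R x ^ k) ν := by
      refine (integrable_const (R ^ k)).mono' ?_ (ae_of_all _ fun x => ?_)
      · unfold tr
        fun_prop
      · rw [Real.norm_eq_abs, abs_pow]
        exact pow_le_pow_left₀ (abs_nonneg _) (abs_tr_le hR0.le x) k
    rw [← integral_sub (hν k) hit]
    calc |∫ x : ℝ, (x ^ k - tr R x ^ k) ∂ν| ≤ ∫ x : ℝ, |x ^ k - tr R x ^ k| ∂ν :=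
          abs_integral_le_integral_abs
      _ ≤ ∫ x : ℝ, 2 / R ^ 2 * x ^ (2 * (k + 1)) ∂ν := by
          refine integral_mono ((hν k).sub hit).abs ((hν _).const_mul _) fun x => ?_
          refine (pow_sub_tr_le hR0 k x).trans ?_
          have h1 : 1 ≤ R ^ k := one_le_pow₀ hR
          refine div_le_self ?_ h1
          have : 0 ≤ x ^ (2 * (k + 1)) := by rw [pow_mul]; positivity
          positivity
      _ = 2 / R ^ 2 * ∫ x : ℝ, x ^ (2 * (k + 1)) ∂ν := integral_const_mul _ _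
      _ ≤ 2 / R ^ 2 * C' := by gcongr
      _ = 2 * C' / R ^ 2 := by ring
  rw [Metric.tendsto_atTop]
  intro ε hε
  -- choose R
  obtain ⟨R, hR1, hR⟩ : ∃ R : ℝ, 1 ≤ R ∧ 2 * C' / R ^ 2 < ε / 4 := by
    refine ⟨max 1 (8 * C' / ε + 1), le_max_left _ _, ?_⟩
    set R := max 1 (8 * C' / ε + 1)
    have h1 : 1 ≤ R := le_max_left _ _
    have h2 : 8 * C' / ε + 1 ≤ R := le_max_right _ _
    have h3 : R ≤ R ^ 2 := by nlinarith
    have h4 : 8 * C' / ε < R ^ 2 := by linarith
    rw [div_lt_iff₀ hε] at h4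
    rw [div_lt_iff₀ (by positivity)]
    nlinarith
  have hR0 : 0 < R := by linarith
  let g : BoundedContinuousFunction ℝ ℝ := BoundedContinuousFunction.ofNormedAddCommGroup
    (fun x => tr R x ^ k) (by unfold tr; fun_prop) (R ^ k) (fun x => by
      rw [Real.norm_eq_abs, abs_pow]
      exact pow_le_pow_left₀ (abs_nonneg _) (abs_tr_le hR0.le x) k)
  have hg := (ProbabilityMeasure.tendsto_iff_forall_integral_tendsto.1 hw) g
  rw [Metric.tendsto_atTop] at hg
  obtain ⟨N1, hN1⟩ := hg (ε / 4) (by positivity)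
  rw [eventually_atTop] at hC
  obtain ⟨N2, hN2⟩ := hC
  refine ⟨max N1 N2, fun n hn => ?_⟩
  have e1 := hN1 n (le_trans (le_max_left _ _) hn)
  have e2 := herr (μ n : Measure ℝ) (hi n) ((hN2 n (le_trans (le_max_right _ _) hn)).trans
    (le_max_left _ _)) R hR1
  have e3 := herr (gaussianReal 0 v.toNNReal) (integrable_pow_gaussian v) (le_max_right _ _) R hR1
  rw [Real.dist_eq] at e1 ⊢
  have e1' : |∫ x : ℝ, tr R x ^ k ∂(μ n : Measure ℝ) -
      ∫ x : ℝ, tr R x ^ k ∂(gaussianReal 0 v.toNNReal)| < ε / 4 := e1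
  rw [abs_lt] at e1' ⊢
  rw [abs_le] at e2 e3
  constructor <;> linarith

/-! ### finite weighted sums -/

section finite

variable {ι : ℕ → Type*}

/-- normalised finite weighted law of `X` -/
def law {α : Type*} (s : Finset α) (w : α → ℝ) (X : α → ℝ) : Measure ℝ :=
  ∑ a ∈ s, ENNReal.ofReal (w a / ∑ b ∈ s, w b) • Measure.dirac (X a)

theorem isProb_law {α : Type*} {s : Finset α} {w : α → ℝ} (hw : ∀ a ∈ s, 0 ≤ w a)
    (hs : 0 < ∑ b ∈ s, w b) (X : α → ℝ) : IsProbabilityMeasure (law s w X) := by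
  constructor
  unfold law
  rw [Measure.finsetSum_apply]
  simp only [Measure.smul_apply, smul_eq_mul, measure_univ, mul_one]
  rw [← ENNReal.ofReal_sum_of_nonneg (fun a ha => div_nonneg (hw a ha) hs.le), ← Finset.sum_div,
    div_self hs.ne', ENNReal.ofReal_one]

theorem integral_law {α : Type*} {s : Finset α} {w : α → ℝ} (hw : ∀ a ∈ s, 0 ≤ w a)
    (hs : 0 < ∑ b ∈ s, w b) (X : α → ℝ) {E : Type*} [NormedAddCommGroup E] [NormedSpace ℝ E]
    [CompleteSpace E] (g : ℝ → E) :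
    ∫ x, g x ∂(law s w X) = ∑ a ∈ s, (w a / ∑ b ∈ s, w b) • g (X a) := by
  unfold law
  rw [integral_finsetSum_measure]
  · refine Finset.sum_congr rfl fun a ha => ?_
    rw [integral_smul_measure, integral_dirac, ENNReal.toReal_ofReal (div_nonneg (hw a ha) hs.le)]
  · intro a _
    exact (integrable_dirac (by simp)).smul_measure ENNReal.ofReal_ne_top

theorem integrable_law {α : Type*} {s : Finset α} {w : α → ℝ} (X : α → ℝ)
    {E : Type*} [NormedAddCommGroup E] (g : ℝ → E) :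
    Integrable g (law s w X) := by
  unfold law
  rw [integrable_finsetSum_measure]
  intro a _
  exact (integrable_dirac (by simp)).smul_measure ENNReal.ofReal_ne_top

/-- **Moment lift, finite weighted sums (complex form used in the statements).** -/
theorem moments_of_sum {s : ∀ n, Finset (ι n)} {w : ∀ n, ι n → ℝ} {X : ∀ n, ι n → ℝ}
    (hw : ∀ n, ∀ a ∈ s n, 0 ≤ w n a) (hs : ∀ n, 0 < ∑ b ∈ s n, w n b) {v : ℝ} (hv : 0 ≤ v)
    (hc : ∀ t : ℝ, Tendsto (fun n => (∑ a ∈ s n, (w n a : ℂ) *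
        Complex.exp (Complex.I * (t * X n a : ℝ))) / ∑ a ∈ s n, (w n a : ℂ)) atTop
      (𝓝 (Complex.exp (-(v * t ^ 2 / 2 : ℝ)))))
    (hb : ∀ k : ℕ, ∃ C : ℝ, ∀ᶠ n in atTop,
      (∑ a ∈ s n, w n a * X n a ^ (2 * k)) / (∑ a ∈ s n, w n a) ≤ C) (k : ℕ) :
    Tendsto (fun n => (∑ a ∈ s n, (w n a : ℂ) * ((X n a ^ k : ℝ) : ℂ)) / ∑ a ∈ s n, (w n a : ℂ))
      atTop (𝓝 ((gm v k : ℝ) : ℂ)) := by
  let μ : ℕ → ProbabilityMeasure ℝ := fun n =>
    ⟨law (s n) (w n) (X n), isProb_law (hw n) (hs n) (X n)⟩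
  have hcast : ∀ n, (∑ a ∈ s n, (w n a : ℂ)) = ((∑ a ∈ s n, w n a : ℝ) : ℂ) := by
    intro n; push_cast; rfl
  have hI : ∀ n (g : ℝ → ℂ), ∫ x, g x ∂(μ n : Measure ℝ) =
      (∑ a ∈ s n, (w n a : ℂ) * g (X n a)) / ∑ a ∈ s n, (w n a : ℂ) := by
    intro n g
    change ∫ x, g x ∂(law (s n) (w n) (X n)) = _
    rw [integral_law (hw n) (hs n), Finset.sum_div, hcast]
    refine Finset.sum_congr rfl fun a _ => ?_
    rw [Complex.real_smul]
    push_cast
    ring
  have hR : ∀ n (g : ℝ → ℝ), ∫ x, g x ∂(μ n : Measure ℝ) =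
      (∑ a ∈ s n, w n a * g (X n a)) / ∑ a ∈ s n, w n a := by
    intro n g
    change ∫ x, g x ∂(law (s n) (w n) (X n)) = _
    rw [integral_law (hw n) (hs n), Finset.sum_div]
    refine Finset.sum_congr rfl fun a _ => ?_
    rw [smul_eq_mul]
    ring
  have h := moments_of_charFun (μ := μ) hv (fun t => ?_) (fun n j => integrable_law _ _)
    (fun j => ?_) k
  · have h2 := (Complex.continuous_ofReal.tendsto _).comp h
    refine h2.congr fun n => ?_
    simp only [Function.comp]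
    rw [hR n (fun x => x ^ k), hcast]
    push_cast
    rfl
  · refine (hc t).congr fun n => ?_
    rw [charFun_apply_real, hI n (fun x => Complex.exp (t * x * Complex.I))]
    congr 1
    refine Finset.sum_congr rfl fun a _ => ?_
    congr 2
    push_cast
    ring
  · obtain ⟨C, hC⟩ := hb j
    refine ⟨C, hC.mono fun n hn => ?_⟩
    rw [hR n (fun x => x ^ (2 * j))]
    exact hn

/-- The variance is nonnegative as soon as the characteristic functions converge. -/
theorem nonneg_of_sum {s : ∀ n, Finset (ι n)} {w : ∀ n, ι n → ℝ} {X : ∀ n, ι n → ℝ}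
    (hw : ∀ n, ∀ a ∈ s n, 0 ≤ w n a) (hs : ∀ n, 0 < ∑ b ∈ s n, w n b) {v : ℝ}
    (hc : Tendsto (fun n => (∑ a ∈ s n, (w n a : ℂ) *
        Complex.exp (Complex.I * ((1 : ℝ) * X n a : ℝ))) / ∑ a ∈ s n, (w n a : ℂ)) atTop
      (𝓝 (Complex.exp (-(v * (1 : ℝ) ^ 2 / 2 : ℝ))))) : 0 ≤ v := by
  have h1 := hc.norm
  rw [Complex.norm_exp] at h1
  have h2 : Real.exp ((-(v * (1 : ℝ) ^ 2 / 2 : ℝ) : ℂ).re) ≤ 1 := by
    refine le_of_tendsto' h1 fun n => ?_
    rw [norm_div]
    have h3 : ‖∑ a ∈ s n, (w n a : ℂ)‖ = ∑ a ∈ s n, w n a := by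
      have : (∑ a ∈ s n, (w n a : ℂ)) = ((∑ a ∈ s n, w n a : ℝ) : ℂ) := by push_cast; rfl
      rw [this, Complex.norm_real, Real.norm_of_nonneg (hs n).le]
    rw [h3, div_le_one (hs n)]
    refine (norm_sum_le _ _).trans (Finset.sum_le_sum fun a ha => ?_)
    rw [norm_mul, Complex.norm_real, Real.norm_of_nonneg (hw n a ha), mul_comm Complex.I,
      Complex.norm_exp_ofReal_mul_I, mul_one]
  have h4 : (-(v * (1 : ℝ) ^ 2 / 2 : ℝ) : ℂ).re = -(v / 2) := by
    rw [Complex.neg_re, Complex.ofReal_re]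
    ring
  rw [h4, Real.exp_le_one_iff] at h2
  linarith

end finite

/-! ### literal forms -/

open Crest.ProbabilityR.HexHeights Crest.ProbabilityR.TriHeights



end Crest.Agent.R144.Mom353
end
end

-- ▼ part R144/Dpl6_702
section

/-!
# R144: the moment halves of S0195 and S0196 follow from the characteristic function halves (helper702)

* `bdd_of_mp` : finite weighted laws whose characteristic functions converge to a Gaussian one and which
  have the midpoint property have bounded even moments (no variance input);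
* `height_moments'` : the moment half of `S0195` from its law half, literal form;
* `twoArc_moments'` : the moment half of `S0196` from its law half, given `FreeSet` and a bound of
  `∑ |∫ f bary|`.
-/

set_option autoImplicit false

noncomputable section

namespace Crest.Agent.R144.Dpl702

open Filter Topology MeasureTheory ProbabilityTheory
open Crest.Agent.R144.Mom353 (gm law isProb_law integral_law integrable_law gaussian_moment
  integrable_pow_gaussian moments_of_sum nonneg_of_sum)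

theorem tl_div' {α : Type*} (S : Finset α) (W X : α → ℝ) (Z t : ℝ) :
    tl S (fun a => W a / Z) X t = tl S W X t / Z := by
  unfold tl
  rw [Finset.sum_div]

/-- cut-off square -/
def cs (M x : ℝ) : ℝ := min 1 (x ^ 2 / M ^ 2)

theorem cs_nonneg (M x : ℝ) : 0 ≤ cs M x := le_min zero_le_one (by positivity)
theorem cs_le_one (M x : ℝ) : cs M x ≤ 1 := min_le_left _ _
theorem continuous_cs (M : ℝ) : Continuous (cs M) := by unfold cs; fun_prop

theorem ind_le_cs {M : ℝ} (hM : 0 < M) {x : ℝ} (h : M ≤ |x|) : cs M x = 1 := by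
  unfold cs
  refine min_eq_left ?_
  rw [one_le_div (by positivity), ← sq_abs x]
  exact pow_le_pow_left₀ hM.le h 2

/-- **bounded moments from the midpoint property** -/
theorem bdd_of_mp {ι : ℕ → Type*} {s : ∀ n, Finset (ι n)} {w : ∀ n, ι n → ℝ} {X : ∀ n, ι n → ℝ}
    (hw : ∀ n, ∀ a ∈ s n, 0 ≤ w n a) (hs : ∀ n, 0 < ∑ b ∈ s n, w n b) {v : ℝ} (hv : 0 ≤ v)
    (hc : ∀ t : ℝ, Tendsto (fun n => (∑ a ∈ s n, (w n a : ℂ) *
        Complex.exp (Complex.I * (t * X n a : ℝ))) / ∑ a ∈ s n, (w n a : ℂ)) atTop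
      (𝓝 (Complex.exp (-(v * t ^ 2 / 2 : ℝ)))))
    {L : ℝ} (hL : 0 ≤ L)
    (hmp : ∀ᶠ n in atTop, ∀ a b, tl (s n) (w n) (X n) a * tl (s n) (w n) (X n) b ≤
      tl (s n) (w n) (X n) ((a + b - L) / 2) ^ 2)
    (hmp' : ∀ᶠ n in atTop, ∀ a b, tl (s n) (w n) (fun i => - X n i) a *
      tl (s n) (w n) (fun i => - X n i) b ≤
      tl (s n) (w n) (fun i => - X n i) ((a + b - L) / 2) ^ 2) (k : ℕ) :
    ∃ C : ℝ, ∀ᶠ n in atTop, (∑ a ∈ s n, w n a * X n a ^ (2 * k)) / (∑ a ∈ s n, w n a) ≤ C := by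
  let μ : ℕ → ProbabilityMeasure ℝ := fun n =>
    ⟨law (s n) (w n) (X n), isProb_law (hw n) (hs n) (X n)⟩
  let μ₀ : ProbabilityMeasure ℝ := ⟨gaussianReal 0 v.toNNReal, inferInstance⟩
  have hcast : ∀ n, (∑ a ∈ s n, (w n a : ℂ)) = ((∑ a ∈ s n, w n a : ℝ) : ℂ) := by
    intro n; push_cast; rfl
  have hI : ∀ n (g : ℝ → ℂ), ∫ x, g x ∂(μ n : Measure ℝ) =
      (∑ a ∈ s n, (w n a : ℂ) * g (X n a)) / ∑ a ∈ s n, (w n a : ℂ) := by
    intro n g
    change ∫ x, g x ∂(law (s n) (w n) (X n)) = _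
    rw [integral_law (hw n) (hs n), Finset.sum_div, hcast]
    refine Finset.sum_congr rfl fun a _ => ?_
    rw [Complex.real_smul]
    push_cast
    ring
  have hconv : Tendsto μ atTop (𝓝 μ₀) := by
    refine ProbabilityMeasure.tendsto_of_tendsto_charFun fun t => ?_
    have : charFun (μ₀ : Measure ℝ) t = Complex.exp (-(v * t ^ 2 / 2 : ℝ)) := by
      change charFun (gaussianReal 0 v.toNNReal) t = _
      rw [charFun_gaussianReal, Real.coe_toNNReal _ hv]
      congr 1
      push_cast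
      ring
    rw [this]
    refine (hc t).congr fun n => ?_
    rw [charFun_apply_real, hI n (fun x => Complex.exp (t * x * Complex.I))]
    congr 1
    refine Finset.sum_congr rfl fun a _ => ?_
    congr 2
    push_cast
    ring
  -- the level `M`
  set M : ℝ := Real.sqrt (8 * v) + 1 with hMdef
  have hM : 0 < M := by
    have := Real.sqrt_nonneg (8 * v)
    linarith
  have hM2 : 8 * v ≤ M ^ 2 := by
    have h1 := Real.sqrt_nonneg (8 * v)
    have h2 := Real.sq_sqrt (show 0 ≤ 8 * v by linarith)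
    nlinarith
  let g : BoundedContinuousFunction ℝ ℝ := BoundedContinuousFunction.ofNormedAddCommGroup
    (cs M) (continuous_cs M) 1 (fun x => by
      rw [Real.norm_of_nonneg (cs_nonneg _ _)]; exact cs_le_one _ _)
  have hg := (ProbabilityMeasure.tendsto_iff_forall_integral_tendsto.1 hconv) g
  have h0 : ∫ x, cs M x ∂(μ₀ : Measure ℝ) ≤ 1 / 8 := by
    change ∫ x, cs M x ∂(gaussianReal 0 v.toNNReal) ≤ 1 / 8
    have h1 := gaussian_moment hv 2
    have h2 : gm v 2 = v := by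
      unfold gm
      rw [if_pos (by decide)]
      norm_num [Nat.doubleFactorial]
    rw [h2] at h1
    calc ∫ x, cs M x ∂(gaussianReal 0 v.toNNReal) ≤
          ∫ x, x ^ 2 / M ^ 2 ∂(gaussianReal 0 v.toNNReal) := by
          refine integral_mono ?_ ((integrable_pow_gaussian v 2).div_const _) fun x =>
            min_le_right _ _
          exact g.integrable (gaussianReal 0 v.toNNReal)
      _ = v / M ^ 2 := by rw [integral_div, h1]
      _ ≤ 1 / 8 := by
          rw [div_le_div_iff₀ (by positivity) (by norm_num)]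
          linarith
  have hev : ∀ᶠ n in atTop, ∫ x, cs M x ∂(μ n : Measure ℝ) < 1 / 4 := by
    have : ∫ x, g x ∂(μ₀ : Measure ℝ) < 1 / 4 := lt_of_le_of_lt h0 (by norm_num)
    exact hg.eventually_lt_const this
  refine ⟨2 * Cm (2 * k) * (2 * M + L) ^ (2 * k), ?_⟩
  filter_upwards [hev, hmp, hmp'] with n hn h1 h2
  have hw' : ∀ a ∈ s n, 0 ≤ w n a / ∑ b ∈ s n, w n b := fun a ha => div_nonneg (hw n a ha) (hs n).le
  have hone : ∑ a ∈ s n, w n a / ∑ b ∈ s n, w n b = 1 := by
    rw [← Finset.sum_div]; exact div_self (hs n).ne'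
  have hint : ∫ x, cs M x ∂(μ n : Measure ℝ) =
      ∑ a ∈ s n, (w n a / ∑ b ∈ s n, w n b) * cs M (X n a) := by
    change ∫ x, cs M x ∂(law (s n) (w n) (X n)) = _
    rw [integral_law (hw n) (hs n)]
    rfl
  rw [hint] at hn
  have tail : ∀ Y : ι n → ℝ, (∀ a, |Y a| = |X n a|) →
      tl (s n) (fun a => w n a / ∑ b ∈ s n, w n b) Y M ≤ 1 / 4 := by
    intro Y hY
    refine le_trans ?_ hn.le
    rw [tl_eq]
    refine Finset.sum_le_sum fun a ha => mul_le_mul_of_nonneg_left ?_ (hw' a ha)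
    split_ifs with h
    · rw [ind_le_cs hM (by rw [← hY a]; exact h.trans (le_abs_self _))]
    · exact cs_nonneg _ _
  have mpdiv : ∀ Y : ι n → ℝ, (∀ a b, tl (s n) (w n) Y a * tl (s n) (w n) Y b ≤
      tl (s n) (w n) Y ((a + b - L) / 2) ^ 2) → ∀ a b,
      tl (s n) (fun a => w n a / ∑ b ∈ s n, w n b) Y a *
        tl (s n) (fun a => w n a / ∑ b ∈ s n, w n b) Y b ≤
        tl (s n) (fun a => w n a / ∑ b ∈ s n, w n b) Y ((a + b - L) / 2) ^ 2 := by
    intro Y hY a b
    rw [tl_div', tl_div', tl_div', div_mul_div_comm, div_pow, sq (∑ b ∈ s n, w n b)]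
    exact div_le_div_of_nonneg_right (hY a b) (mul_self_nonneg _)
  have key := two_sided hw' hone hL hM (tail (X n) fun _ => rfl)
    (tail (fun i => - X n i) fun _ => abs_neg _) (mpdiv _ h1) (mpdiv _ h2) (2 * k)
  refine le_trans (le_of_eq ?_) key
  rw [Finset.sum_div]
  refine Finset.sum_congr rfl fun a _ => ?_
  have : |X n a| ^ (2 * k) = X n a ^ (2 * k) := by rw [pow_mul, sq_abs, ← pow_mul]
  rw [this]
  ring

/-- **moments from characteristic functions under the midpoint property** -/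
theorem moments_of_mp {ι : ℕ → Type*} {s : ∀ n, Finset (ι n)} {w : ∀ n, ι n → ℝ} {X : ∀ n, ι n → ℝ}
    (hw : ∀ n, ∀ a ∈ s n, 0 ≤ w n a) (hs : ∀ n, 0 < ∑ b ∈ s n, w n b) {v : ℝ}
    (hc : ∀ t : ℝ, Tendsto (fun n => (∑ a ∈ s n, (w n a : ℂ) *
        Complex.exp (Complex.I * (t * X n a : ℝ))) / ∑ a ∈ s n, (w n a : ℂ)) atTop
      (𝓝 (Complex.exp (-(v * t ^ 2 / 2 : ℝ)))))
    {L : ℝ} (hL : 0 ≤ L)
    (hmp : ∀ᶠ n in atTop, ∀ a b, tl (s n) (w n) (X n) a * tl (s n) (w n) (X n) b ≤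
      tl (s n) (w n) (X n) ((a + b - L) / 2) ^ 2)
    (hmp' : ∀ᶠ n in atTop, ∀ a b, tl (s n) (w n) (fun i => - X n i) a *
      tl (s n) (w n) (fun i => - X n i) b ≤
      tl (s n) (w n) (fun i => - X n i) ((a + b - L) / 2) ^ 2) (k : ℕ) :
    Tendsto (fun n => (∑ a ∈ s n, (w n a : ℂ) * ((X n a ^ k : ℝ) : ℂ)) / ∑ a ∈ s n, (w n a : ℂ))
      atTop (𝓝 ((gm v k : ℝ) : ℂ)) := by
  have hv : 0 ≤ v := nonneg_of_sum hw hs (hc 1)
  exact moments_of_sum hw hs hv hc (fun j => bdd_of_mp hw hs hv hc hL hmp hmp' j) k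

/-! ### the integer models -/

open Crest.Agent.R144.It844

theorem ex_complex (x : ℝ) (Λ : Finset P2) (τ : P2 → ℤ) (g : (P2 → ℤ) → ℂ) :
    ex x Λ τ g = (∑ a ∈ conf Λ τ, (wt x Λ a : ℂ) * g a) / ∑ a ∈ conf Λ τ, (wt x Λ a : ℂ) := by
  unfold ex Z
  rw [Complex.real_smul, Complex.ofReal_inv, Complex.ofReal_sum, div_eq_inv_mul]
  congr 1

/-- **moments of compatible observables of the integer models** -/
theorem ex_moments {x : ℝ} (hx0 : 0 < x) (hx1 : x ≤ 1) {Λ : ℕ → Finset P2} {τ : ℕ → P2 → ℤ}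
    (hτ : ∀ n, Lip (τ n)) {X : ℕ → (P2 → ℤ) → ℝ} {L v : ℝ} (hL : 0 ≤ L)
    (hX : ∀ᶠ n in atTop, MidLin (conf (Λ n) (τ n)) (X n) L)
    (hc : ∀ t : ℝ, Tendsto (fun n => ex x (Λ n) (τ n)
        (fun h => Complex.exp (Complex.I * (t * X n h : ℝ)))) atTop
      (𝓝 (Complex.exp (-(v * t ^ 2 / 2 : ℝ))))) (k : ℕ) :
    Tendsto (fun n => ex x (Λ n) (τ n) (fun h => ((X n h ^ k : ℝ) : ℂ))) atTop
      (𝓝 ((gm v k : ℝ) : ℂ)) := by
  have hx2 : x ^ 2 ≤ 1 := pow_le_one₀ hx0.le hx1
  simp only [ex_complex] at hc ⊢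
  refine moments_of_mp (fun n a _ => wt_nonneg _ _ _) (fun n => Z_pos hx0 (hτ n)) hc hL ?_ ?_ k
  · filter_upwards [hX] with n hn a b
    exact mp_fin (nat2_conf hx2 (Λ n) (τ n)) hn a b
  · filter_upwards [hX] with n hn a b
    exact mp_fin (nat2_conf hx2 (Λ n) (τ n)) hn.neg a b

/-! ### tilings: the sum of the `L¹` norms over tiles -/

section tile
open Crest.Agent.R144.Til353

theorem sum_tile_le {ι : Type*} {C : ι → Set ℂ} (hC : Tiling C) {f : ℂ → ℝ}
    (hf : Integrable f) (s : Finset ι) : ∑ i ∈ s, ∫ z in C i, |f z| ≤ ∫ z, |f z| := by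
  have h1 : ∀ i, ∫ z in C i, |f z| = ∫ z in interior (C i), |f z| := by
    intro i
    refine setIntegral_congr_set ?_
    have h2 : volume (frontier (C i)) = 0 := (hC.convex i).addHaar_frontier volume
    refine Filter.EventuallyEq.symm (ae_eq_set.2 ⟨?_, ?_⟩)
    · rw [Set.sdiff_eq_empty.2 interior_subset, measure_empty]
    · refine measure_mono_null ?_ h2
      rw [frontier]
      exact Set.sdiff_subset_sdiff_left subset_closure
  simp only [h1]
  rw [← integral_biUnion_finset s (fun i _ => isOpen_interior.measurableSet) ?_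
    (fun i _ => hf.abs.integrableOn)]
  · exact setIntegral_le_integral hf.abs (ae_of_all _ fun z => abs_nonneg _)
  · intro i _ j _ hij
    exact (hC.disj i j hij).mono_right interior_subset

theorem sum_abs_tile_le {ι : Type*} {C : ι → Set ℂ} (hC : Tiling C) {f : ℂ → ℝ}
    (hf : Integrable f) (s : Finset ι) : ∑ i ∈ s, |∫ z in C i, f z| ≤ ∫ z, |f z| :=
  (Finset.sum_le_sum fun _ _ => abs_integral_le_integral_abs).trans (sum_tile_le hC hf s)

end tile

/-! ### S0195 -/

section S0195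
open Crest.ProbabilityR.HexHeights (heightExpect pairing cell Height)

/-- **the moment half of S0195 from the law half** -/
theorem height_moments' {x : ℝ} (hx0 : 0 < x) (hx1 : x ≤ 1) {δ : ℕ → ℝ} (hδ : ∀ n, 0 < δ n)
    {F : ℕ → Finset (ℤ × ℤ)} {f : ℂ → ℝ} (hf : Integrable f) (σ : ℝ) {v : ℝ}
    (hc : ∀ t : ℝ, Tendsto (fun n => heightExpect (F n) x
        (fun h => Complex.exp (Complex.I * (t * pairing (δ n) f h / σ : ℝ)))) atTop
      (𝓝 (Complex.exp (-(v * t ^ 2 / 2 : ℝ))))) (k : ℕ) :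
    Tendsto (fun n => heightExpect (F n) x (fun h => ((pairing (δ n) f h / σ) ^ k : ℝ))) atTop
      (𝓝 ((if Even k then v ^ (k / 2) * ((k - 1).doubleFactorial : ℝ) else 0 : ℝ) : ℂ)) := by
  let X : ℕ → (P2 → ℤ) → ℝ := fun n h =>
    σ⁻¹ * ∑ u ∈ F n, (∫ z in cell (δ n) u, f z) * (h u : ℝ)
  have hXe : ∀ n (h : Height (F n)), pairing (δ n) f h / σ = X n (extF h) := by
    intro n h
    rw [pairing_eq, div_eq_inv_mul]
    simp only [X]
    congr 1
    exact Finset.sum_congr rfl fun u _ => mul_comm _ _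
  have hL : ∀ n, MidLin (conf (intF (F n)) (fun _ => 0)) (X n) (|σ⁻¹| * ∫ z, |f z|) := by
    intro n
    refine (midLin_sum _ (F n) _).mul_const σ⁻¹ |>.mono ?_
    exact mul_le_mul_of_nonneg_left
      (sum_abs_tile_le (Crest.Agent.R144.HexTil353.tiling (hδ n)) hf (F n)) (abs_nonneg _)
  have h1 : ∀ t : ℝ, Tendsto (fun n => ex x (intF (F n)) (fun _ => (0 : ℤ))
        (fun h => Complex.exp (Complex.I * (t * X n h : ℝ)))) atTop
      (𝓝 (Complex.exp (-(v * t ^ 2 / 2 : ℝ)))) := by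
    intro t
    refine (hc t).congr fun n => ?_
    refine heightExpect_eq (F n) x _ _ fun h _ => ?_
    rw [← hXe, mul_div_assoc]
  have h2 := ex_moments hx0 hx1 (fun n => lip_const 0)
    (mul_nonneg (abs_nonneg _) (integral_nonneg fun _ => abs_nonneg _))
    (Eventually.of_forall hL) h1 k
  refine h2.congr fun n => ?_
  symm
  exact heightExpect_eq (F n) x _ _ fun h _ => by rw [← hXe]

end S0195

/-! ### S0196 -/

section S0196
open Crest.ProbabilityR.HexHeights (centre)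
open Crest.ProbabilityR.TriHeights (Tri corner corners verts triRegion bary IntHeight IsTwoArcHeight
  twoArcExpect oddHeight affinePairing)
open Crest.Agent.R144.Til353

theorem midLin_sum' {V β : Type*} (S : Finset (V → ℤ)) (s : Finset β) (g : β → V) (f : β → ℝ) :
    MidLin S (fun a => ∑ i ∈ s, f i * (a (g i) : ℝ)) (∑ i ∈ s, |f i|) := by
  intro a ha b hb
  refine ⟨?_, ?_⟩
  · rw [← Finset.sum_add_distrib, ← Finset.sum_add_distrib]
    refine Finset.sum_congr rfl fun v _ => ?_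
    rw [← mul_add, ← mul_add, (midLin_eval S (g v) a ha b hb).1]
  · rw [← Finset.sum_sub_distrib]
    refine (Finset.abs_sum_le_sum_abs _ _).trans (Finset.sum_le_sum fun v _ => ?_)
    rw [← mul_sub, abs_mul]
    have := (midLin_eval S (g v) a ha b hb).2
    have h0 := abs_nonneg (f v)
    nlinarith

/-- barycentric coordinates lie in `[0, 1]` on the triangle -/
theorem bary_mem {p q r z : ℂ} (hz : z ∈ convexHull ℝ ({p, q, r} : Set ℂ)) :
    0 ≤ bary p q r z ∧ bary p q r z ≤ 1 := by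
  rw [convexHull_insert ⟨q, by simp⟩, convexHull_pair] at hz
  simp only [mem_convexJoin, Set.mem_singleton_iff, exists_eq_left] at hz
  obtain ⟨w, hw, hz⟩ := hz
  obtain ⟨a, b, ha, hb, hab, rfl⟩ := hw
  obtain ⟨c, d, hc, hd, hcd, rfl⟩ := hz
  have key : ((starRingEnd ℂ (q - (c • p + d • (a • q + b • r)))) *
      (r - (c • p + d • (a • q + b • r)))).im =
      c * ((starRingEnd ℂ (q - p)) * (r - p)).im := by
    have ea : a = 1 - b := by linarith
    have ec : d = 1 - c := by linarith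
    subst ea ec
    simp only [Complex.mul_im, Complex.conj_re, Complex.conj_im, Complex.sub_re, Complex.sub_im,
      Complex.add_re, Complex.add_im, Complex.real_smul, Complex.mul_re, Complex.ofReal_re,
      Complex.ofReal_im, zero_mul, sub_zero, add_zero]
    ring
  unfold bary
  rw [key]
  by_cases h0 : ((starRingEnd ℂ (q - p)) * (r - p)).im = 0
  · rw [h0, mul_zero, div_zero]
    exact ⟨le_rfl, zero_le_one⟩
  · rw [mul_div_assoc, div_self h0, mul_one]
    exact ⟨hc, by linarith⟩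

theorem corners_eq (t : Tri) (k : Fin 3) :
    (corners t : Set (ℤ × ℤ)) = {corner t k, corner t (k + 1), corner t (k + 2)} := by
  ext v
  simp only [corners, Finset.coe_image, Finset.coe_univ, Set.image_univ, Set.mem_range,
    Set.mem_insert_iff, Set.mem_singleton_iff]
  constructor
  · rintro ⟨j, rfl⟩
    fin_cases k <;> fin_cases j <;> simp
  · rintro (h | h | h)
    · exact ⟨_, h.symm⟩
    · exact ⟨_, h.symm⟩
    · exact ⟨_, h.symm⟩

theorem bary_tri {δ : ℝ} {t : Tri} (k : Fin 3) {z : ℂ} (hz : z ∈ triRegion δ t) :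
    0 ≤ bary (centre δ (corner t k)) (centre δ (corner t (k + 1))) (centre δ (corner t (k + 2))) z ∧
    bary (centre δ (corner t k)) (centre δ (corner t (k + 1))) (centre δ (corner t (k + 2))) z ≤ 1 := by
  refine bary_mem ?_
  unfold triRegion at hz
  rw [corners_eq t k, Set.image_insert_eq, Set.image_insert_eq, Set.image_singleton] at hz
  exact hz

/-- the coefficients of the affine pairing -/
def ac (δ : ℝ) (f : ℂ → ℝ) (t : Tri) (k : Fin 3) : ℝ := ∫ z in triRegion δ t,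
  f z * bary (centre δ (corner t k)) (centre δ (corner t (k + 1))) (centre δ (corner t (k + 2))) z

theorem abs_ac_le {δ : ℝ} {f : ℂ → ℝ} (hf : Integrable f) {t : Tri}
    (ht : MeasurableSet (triRegion δ t)) (k : Fin 3) : |ac δ f t k| ≤ ∫ z in triRegion δ t, |f z| := by
  unfold ac
  refine (abs_integral_le_integral_abs).trans ?_
  refine integral_mono_of_nonneg (ae_of_all _ fun z => abs_nonneg _) hf.abs.integrableOn ?_
  filter_upwards [ae_restrict_mem ht] with z hz
  obtain ⟨h1, h2⟩ := bary_tri k hz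
  rw [abs_mul, abs_of_nonneg h1]
  exact mul_le_of_le_one_right (abs_nonneg _) h2

theorem sum_ac_le {δ : ℝ} (hC : Tiling (triRegion δ)) {f : ℂ → ℝ} (hf : Integrable f)
    (T : Finset Tri) : ∑ t ∈ T, ∑ k : Fin 3, |ac δ f t k| ≤ 3 * ∫ z, |f z| := by
  have h1 : ∑ t ∈ T, ∑ k : Fin 3, |ac δ f t k| ≤ ∑ t ∈ T, 3 * ∫ z in triRegion δ t, |f z| := by
    refine Finset.sum_le_sum fun t _ => ?_
    refine (Finset.sum_le_sum fun k _ => abs_ac_le hf (hC.closed t).measurableSet k).trans ?_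
    rw [Finset.sum_const, Finset.card_univ, Fintype.card_fin, nsmul_eq_mul]
    norm_num
  rw [← Finset.mul_sum] at h1
  exact h1.trans (mul_le_mul_of_nonneg_left (sum_tile_le hC hf T) (by norm_num))

/-- the affine pairing as an affine function of the extended height -/
def apX (δ : ℝ) (T : Finset Tri) (f : ℂ → ℝ) (h : P2 → ℤ) : ℝ :=
  ∑ p ∈ T ×ˢ (Finset.univ : Finset (Fin 3)), (2 * ac δ f p.1 p.2) * (h (corner p.1 p.2) : ℝ) -
    (- ∑ p ∈ T ×ˢ (Finset.univ : Finset (Fin 3)), ac δ f p.1 p.2)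

theorem affinePairing_eq (δ : ℝ) (T : Finset Tri) (f : ℂ → ℝ) (Am : Set P2) (H : IntHeight T) :
    affinePairing δ T f (oddHeight H) = apX δ T f (extT Am H) := by
  unfold affinePairing apX
  rw [sub_neg_eq_add, ← Finset.sum_add_distrib, Finset.sum_product]
  refine Finset.sum_congr rfl fun t ht => Finset.sum_congr rfl fun k _ => ?_
  have hv : corner t k ∈ verts T :=
    Finset.mem_biUnion.2 ⟨t, ht, Finset.mem_image.2 ⟨k, Finset.mem_univ _, rfl⟩⟩
  rw [oddHeight_eq Am H hv]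
  simp only [ac]
  ring

theorem midLin_apX {δ : ℝ} (hC : Tiling (triRegion δ)) {f : ℂ → ℝ} (hf : Integrable f)
    (T : Finset Tri) (S : Finset (P2 → ℤ)) : MidLin S (apX δ T f) (6 * ∫ z, |f z|) := by
  refine ((midLin_sum' S (T ×ˢ (Finset.univ : Finset (Fin 3))) (fun p => corner p.1 p.2)
    (fun p => 2 * ac δ f p.1 p.2)).sub_const _).mono ?_
  have h1 := sum_ac_le hC hf T
  rw [Finset.sum_product]
  simp only [abs_mul, abs_two]
  simp only [← Finset.mul_sum]
  linarith

/-- **the moment half of S0196 from the law half** -/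
theorem twoArc_moments' {δ : ℕ → ℝ} (hC : ∀ n, Tiling (triRegion (δ n))) {T : ℕ → Finset Tri}
    {Ap Am : ℕ → Set (ℤ × ℤ)} {Λ : ℕ → Finset (ℤ × ℤ)}
    (hF : ∀ n, FreeSet (T n) (Ap n) (Am n) (Λ n)) {f : ℂ → ℝ} (hf : Integrable f)
    (m : ℕ → ℝ) (σ : ℝ) {v : ℝ}
    (hc : ∀ t : ℝ, Tendsto (fun n => twoArcExpect (T n) (Ap n) (Am n)
        (fun H => Complex.exp (Complex.I *
          (t * (affinePairing (δ n) (T n) f (oddHeight H) - m n) / σ : ℝ)))) atTop
      (𝓝 (Complex.exp (-(v * t ^ 2 / 2 : ℝ))))) (k : ℕ) :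
    Tendsto (fun n => twoArcExpect (T n) (Ap n) (Am n)
        (fun H => (((affinePairing (δ n) (T n) f (oddHeight H) - m n) / σ) ^ k : ℝ))) atTop
      (𝓝 ((if Even k then v ^ (k / 2) * ((k - 1).doubleFactorial : ℝ) else 0 : ℝ) : ℂ)) := by
  let X : ℕ → (P2 → ℤ) → ℝ := fun n h => σ⁻¹ * (apX (δ n) (T n) f h - m n)
  have hXe : ∀ n (H : IntHeight (T n)),
      (affinePairing (δ n) (T n) f (oddHeight H) - m n) / σ = X n (extT (Am n) H) := by
    intro n H
    rw [affinePairing_eq (δ n) (T n) f (Am n) H, div_eq_inv_mul]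
  have hL : ∀ n, MidLin (conf (Λ n) (xi (Am n))) (X n) (|σ⁻¹| * (6 * ∫ z, |f z|)) := fun n =>
    ((midLin_apX (hC n) hf (T n) _).sub_const (m n)).mul_const σ⁻¹
  have h1 : ∀ t : ℝ, Tendsto (fun n => ex 1 (Λ n) (xi (Am n))
        (fun h => Complex.exp (Complex.I * (t * X n h : ℝ)))) atTop
      (𝓝 (Complex.exp (-(v * t ^ 2 / 2 : ℝ)))) := by
    intro t
    refine (hc t).congr fun n => ?_
    refine twoArcExpect_eq (hF n) _ _ fun H _ => ?_
    rw [← hXe, mul_div_assoc]
  have h2 := ex_moments one_pos le_rfl (fun n => lip_xi (Am n))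
    (mul_nonneg (abs_nonneg _) (mul_nonneg (by norm_num) (integral_nonneg fun _ => abs_nonneg _)))
    (Eventually.of_forall hL) h1 k
  refine h2.congr fun n => ?_
  symm
  exact twoArcExpect_eq (hF n) _ _ fun H _ => by rw [← hXe]

end S0196

end Crest.Agent.R144.Dpl702
end
end

-- ▼ part R144/Fin1_268
section

/-! R144 (helper268) FIN block, file 1: from the law half in terms of `It844.ex` to the literal
statements of S0195 and S0196. -/

set_option autoImplicit false

open Set Topology Filter Metric MeasureTheory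
open scoped ContDiff

namespace Crest.Agent.R144.Fin268

open Crest.ProbabilityR.HexHeights Crest.ProbabilityR.TriHeights Crest.Agent.R144.HexTil353
  Crest.Agent.R144.Geo268 Crest.Agent.R144.Cnt268 Crest.Agent.R144.Set268
open Crest.Agent.R144.It844 (intF xi Lip ex conf extF extT upT)

/-- the linear statistic of a height function with the weights of the kernel `K` -/
noncomputable def LX (K : ℝ × ℝ → ℝ) (δ : ℝ) (Λ : Finset (ℤ × ℤ)) (f : ℂ → ℝ)
    (h : ℤ × ℤ → ℤ) : ℝ := ∑ v ∈ Λ, wK K δ f v * (h v : ℝ)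

/-- its mean -/
noncomputable def mX (x : ℝ) (K : ℝ × ℝ → ℝ) (δ : ℝ) (Λ : Finset (ℤ × ℤ)) (τ : ℤ × ℤ → ℤ)
    (f : ℂ → ℝ) : ℝ := ex x Λ τ (LX K δ Λ f)


/-- **bridge, S0195** -/
theorem hex_bridge {D : Set ℂ} {γ : ℝ → ℂ} {δ : ℕ → ℝ} {F : ℕ → Finset (ℤ × ℤ)} (x : ℝ)
    (hD : IsC2JordanDomain D γ) (hA : IsInsideApprox D γ δ F) {f : ℂ → ℝ} (hf : Tst D f) :
    ∀ᶠ n in atTop, ∀ G : ℝ → ℂ, heightExpect (F n) x (fun h => G (pairing (δ n) f h)) =
      ex x (intF (F n)) (fun _ => 0) (fun h => G (LX hexK (δ n) (intF (F n)) f h)) := by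
  filter_upwards [hex_eventually hD hA hf] with n hn G
  refine Crest.Agent.R144.It844.heightExpect_eq (F n) x _ _ fun h _ => ?_
  rw [hn.2 h]
  unfold LX
  congr 1
  exact Finset.sum_congr rfl fun u _ => mul_comm _ _

/-- **bridge, S0196** -/
theorem tri_bridge {D : Set ℂ} {γ : ℝ → ℂ} {θ : ℝ} {δ : ℕ → ℝ} {T : ℕ → Finset Tri}
    {ea eb : ℕ → (ℤ × ℤ) × (ℤ × ℤ)} {c : ℕ → ℝ → ℂ}
    (hD : IsSmoothMarkedDomain D γ θ) (hA : IsMarkedApprox γ θ δ T ea eb c)
    {f : ℂ → ℝ} (hf : Tst D f) :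
    ∀ᶠ n in atTop, ∀ G : ℝ → ℂ,
      twoArcExpect (T n) (arcPlus (δ n) (T n) (c n) θ) (arcMinus (δ n) (T n) (c n) θ)
        (fun H => G (affinePairing (δ n) (T n) f (oddHeight H))) =
      ex 1 (freeVerts (T n) (arcPlus (δ n) (T n) (c n) θ) (arcMinus (δ n) (T n) (c n) θ))
        (xi (arcMinus (δ n) (T n) (c n) θ))
        (fun h => G (2 * LX (fun p => tent p.1 p.2) (δ n)
          (freeVerts (T n) (arcPlus (δ n) (T n) (c n) θ) (arcMinus (δ n) (T n) (c n) θ)) f h +
          ∑ v ∈ freeVerts (T n) (arcPlus (δ n) (T n) (c n) θ) (arcMinus (δ n) (T n) (c n) θ),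
            wK (fun p => tent p.1 p.2) (δ n) f v)) := by
  filter_upwards [tri_eventually hD hA hf] with n hn G
  refine Crest.Agent.R144.It844.twoArcExpect_eq
    (freeSet hA hD.2.2.2.2.2.2.2.2.1 hD.2.2.2.2.2.2.2.2.2 n) _ _ fun H _ => ?_
  rw [hn.2]
  unfold LX
  congr 1
  rw [Finset.mul_sum, ← Finset.sum_add_distrib]
  refine Finset.sum_congr rfl fun v hv => ?_
  rw [Crest.Agent.R144.It844.oddHeight_eq (arcMinus (δ n) (T n) (c n) θ) H
    (Crest.Agent.R144.Ham560.mem_freeVerts'.1 hv).1, wA_eq (hA.1 n)]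
  ring

/-- the mean vanishes for zero boundary values -/
theorem mX_zero (x : ℝ) (K : ℝ × ℝ → ℝ) (δ : ℝ) (Λ : Finset (ℤ × ℤ)) (f : ℂ → ℝ) :
    mX x K δ Λ (fun _ => 0) f = 0 := by
  unfold mX
  have h1 := Crest.Agent.R144.Pst967.ex_neg0 x Λ (LX K δ Λ f)
  have h2 : (fun h : ℤ × ℤ → ℤ => LX K δ Λ f (fun v => -h v)) = fun h => (-1 : ℝ) • LX K δ Λ f h := by
    funext h
    unfold LX
    rw [smul_eq_mul, Finset.mul_sum]
    refine Finset.sum_congr rfl fun v _ => ?_
    push_cast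
    ring
  rw [h2, Crest.Agent.R144.It844.ex_smul] at h1
  rw [smul_eq_mul] at h1
  linarith



end Crest.Agent.R144.Fin268
end

-- ▼ part R144/EndA_938
section

/-!
# R144, harmonic remainder, part A (helper938): a radial bump and its logarithmic potential
-/

set_option autoImplicit false

open MeasureTheory Metric Set Filter Topology Laplacian InnerProductSpace
open scoped ComplexConjugate ContDiff

namespace Crest.Agent.R144.End938

open Crest.Agent.R144.Con549 Crest.Agent.R161.Green722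

noncomputable section

/-! ### profile -/

/-- profile in `s = |w|²` -/
def X0 (s : ℝ) : ℝ := Real.smoothTransition (2 - 2 * s)

theorem X0_one {s : ℝ} (h : s ≤ 1 / 2) : X0 s = 1 :=
  Real.smoothTransition.one_of_one_le (by linarith)

theorem X0_zero {s : ℝ} (h : 1 ≤ s) : X0 s = 0 :=
  Real.smoothTransition.zero_of_nonpos (by linarith)

theorem X0_nonneg (s : ℝ) : 0 ≤ X0 s := Real.smoothTransition.nonneg _


theorem X0_pos {s : ℝ} (h : s < 1) : 0 < X0 s := Real.smoothTransition.pos_of_pos (by linarith)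

theorem contDiff_X0 : ContDiff ℝ ∞ X0 :=
  Real.smoothTransition.contDiff.comp (contDiff_const.sub (contDiff_const.mul contDiff_id))

/-- primitive -/
def I0 (s : ℝ) : ℝ := ∫ t in (0 : ℝ)..s, X0 t

theorem hasDerivAt_I0 (s : ℝ) : HasDerivAt I0 (X0 s) s :=
  intervalIntegral.integral_hasDerivAt_right (contDiff_X0.continuous.intervalIntegrable _ _)
    (contDiff_X0.continuous.stronglyMeasurableAtFilter _ _) contDiff_X0.continuous.continuousAt

theorem contDiff_I0 : ContDiff ℝ ∞ I0 := by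
  rw [contDiff_infty_iff_deriv]
  refine ⟨fun s => (hasDerivAt_I0 s).differentiableAt, ?_⟩
  have : deriv I0 = X0 := funext fun s => (hasDerivAt_I0 s).deriv
  rw [this]
  exact contDiff_X0

theorem I0_eq {s : ℝ} (h : s ≤ 1 / 2) : I0 s = s := by
  have h1 : I0 s = ∫ t in (0 : ℝ)..s, (1 : ℝ) := by
    refine intervalIntegral.integral_congr fun t ht => ?_
    refine X0_one ?_
    rcases le_total 0 s with h0 | h0
    · rw [uIcc_of_le h0] at ht; exact ht.2.trans h
    · rw [uIcc_of_ge h0] at ht; linarith [ht.2]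
  rw [h1]
  simp

theorem I0_const {s : ℝ} (h : 1 ≤ s) : I0 s = I0 1 := by
  have h1 : I0 s = I0 1 + ∫ t in (1 : ℝ)..s, X0 t :=
    (intervalIntegral.integral_add_adjacent_intervals
      (contDiff_X0.continuous.intervalIntegrable _ _)
      (contDiff_X0.continuous.intervalIntegrable _ _)).symm
  have h2 : ∫ t in (1 : ℝ)..s, X0 t = ∫ t in (1 : ℝ)..s, (0 : ℝ) := by
    refine intervalIntegral.integral_congr fun t ht => ?_
    rw [uIcc_of_le h] at ht
    exact X0_zero ht.1
  rw [h1, h2]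
  simp

/-- `I0 s / s` -/
def q0 (s : ℝ) : ℝ := if s ≤ 1 / 4 then 1 else I0 s / s

theorem q0_mul (s : ℝ) : s * q0 s = I0 s := by
  unfold q0
  split_ifs with h
  · rw [mul_one, I0_eq (by linarith)]
  · rw [mul_div_cancel₀]
    linarith [not_le.1 h]

theorem contDiff_q0 : ContDiff ℝ ∞ q0 := by
  rw [contDiff_iff_contDiffAt]
  intro s
  rcases lt_or_ge s (1 / 4) with h | h
  · have : q0 =ᶠ[𝓝 s] fun _ => (1 : ℝ) := by
      filter_upwards [Iio_mem_nhds h] with t ht
      unfold q0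
      rw [if_pos (le_of_lt ht)]
    exact contDiffAt_const.congr_of_eventuallyEq this
  · have h0 : s ≠ 0 := by linarith
    have : q0 =ᶠ[𝓝 s] fun t => I0 t / t := by
      filter_upwards [Ioi_mem_nhds (show (1 : ℝ) / 8 < s by linarith)] with t ht
      unfold q0
      have ht' : (1 : ℝ) / 8 < t := ht
      split_ifs with h1
      · rw [I0_eq (by linarith), div_self (by linarith)]
      · rfl
    exact (contDiff_I0.contDiffAt.div contDiffAt_id h0).congr_of_eventuallyEq this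

/-- radial potential -/
def G0 (s : ℝ) : ℝ := ∫ t in (1 : ℝ)..s, q0 t / 4

theorem hasDerivAt_G0 (s : ℝ) : HasDerivAt G0 (q0 s / 4) s :=
  intervalIntegral.integral_hasDerivAt_right
    ((contDiff_q0.continuous.div_const 4).intervalIntegrable _ _)
    ((contDiff_q0.continuous.div_const 4).stronglyMeasurableAtFilter _ _)
    (contDiff_q0.continuous.div_const 4).continuousAt

theorem deriv_G0 : deriv G0 = fun s => q0 s / 4 := funext fun s => (hasDerivAt_G0 s).deriv

theorem contDiff_G0 : ContDiff ℝ ∞ G0 := by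
  rw [contDiff_infty_iff_deriv]
  refine ⟨fun s => (hasDerivAt_G0 s).differentiableAt, ?_⟩
  rw [deriv_G0]
  exact contDiff_q0.div_const 4

theorem G0_eq {s : ℝ} (h : 1 ≤ s) : G0 s = I0 1 / 4 * Real.log s := by
  have h1 : G0 s = ∫ t in (1 : ℝ)..s, I0 1 / 4 * t⁻¹ := by
    refine intervalIntegral.integral_congr fun t ht => ?_
    rw [uIcc_of_le h] at ht
    have h2 : ¬ t ≤ 1 / 4 := by linarith [ht.1]
    simp only [q0, if_neg h2]
    rw [I0_const ht.1]
    field_simp
  rw [h1, intervalIntegral.integral_const_mul, integral_inv_of_pos one_pos (by linarith)]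
  simp

theorem deriv2_G0 (s : ℝ) : 4 * (s * deriv (deriv G0) s + deriv G0 s) = X0 s := by
  have h1 : HasDerivAt q0 (deriv q0 s) s :=
    (contDiff_q0.differentiable (by simp) s).hasDerivAt
  have h2 : deriv (deriv G0) s = deriv q0 s / 4 := by
    rw [deriv_G0]; exact (h1.div_const 4).deriv
  have h3 : HasDerivAt (fun s => s * q0 s) (1 * q0 s + s * deriv q0 s) s :=
    (hasDerivAt_id s).mul h1
  have h4 : (fun s => s * q0 s) = I0 := funext q0_mul
  rw [h4] at h3
  have h5 := h3.unique (hasDerivAt_I0 s)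
  rw [h2, deriv_G0]
  simp only
  linarith

/-! ### the bump -/

/-- unnormalised bump -/
def r0 (w : ℂ) : ℝ := X0 (‖w‖ ^ 2)

theorem contDiff_r0 : ContDiff ℝ ∞ r0 := contDiff_X0.comp (contDiff_norm_sq ℝ)

theorem r0_nonneg (w : ℂ) : 0 ≤ r0 w := X0_nonneg _

theorem r0_zero {w : ℂ} (h : 1 ≤ ‖w‖) : r0 w = 0 := X0_zero (by nlinarith [norm_nonneg w])

theorem r0_pos {w : ℂ} (h : ‖w‖ < 1) : 0 < r0 w := X0_pos (by nlinarith [norm_nonneg w])

theorem compact_r0 : HasCompactSupport r0 :=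
  HasCompactSupport.intro (isCompact_closedBall (0 : ℂ) 1) fun w hw => by
    rw [mem_closedBall_zero_iff, not_le] at hw
    exact r0_zero hw.le

/-- mass -/
def M0 : ℝ := ∫ w, r0 w

theorem M0_pos : 0 < M0 := by
  refine contDiff_r0.continuous.integral_pos_of_hasCompactSupport_nonneg_nonzero compact_r0
    (fun w => r0_nonneg w) (x := 0) ?_
  exact (r0_pos (by simp)).ne'

/-- normalised bump -/
def rho (w : ℂ) : ℝ := r0 w / M0

theorem contDiff_rho : ContDiff ℝ ∞ rho := contDiff_r0.div_const _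

theorem rho_nonneg (w : ℂ) : 0 ≤ rho w := div_nonneg (r0_nonneg w) M0_pos.le

theorem rho_zero {w : ℂ} (h : 1 ≤ ‖w‖) : rho w = 0 := by unfold rho; rw [r0_zero h, zero_div]

theorem rho_pos {w : ℂ} (h : ‖w‖ < 1) : 0 < rho w := div_pos (r0_pos h) M0_pos

theorem integral_rho : ∫ w, rho w = 1 := by
  unfold rho
  rw [integral_div]
  exact div_self M0_pos.ne'

theorem rho_norm {w v : ℂ} (h : ‖w‖ = ‖v‖) : rho w = rho v := by unfold rho r0; rw [h]

/-- potential of the bump -/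
def L0 (w : ℂ) : ℝ := G0 (‖w‖ ^ 2) / M0

theorem contDiff_L0 : ContDiff ℝ ∞ L0 := (contDiff_G0.comp (contDiff_norm_sq ℝ)).div_const _

theorem L0_eq {w : ℂ} (h : 1 ≤ ‖w‖) : L0 w = I0 1 / (2 * M0) * Real.log ‖w‖ := by
  unfold L0
  rw [G0_eq (by nlinarith [norm_nonneg w]), Real.log_pow]
  have := M0_pos.ne'
  field_simp
  ring

theorem lap_L0 (w : ℂ) : (Δ L0) w = rho w := by
  have h1 : ContDiffAt ℝ 2 (fun y : ℂ => ‖y‖ ^ 2) w :=
    ((contDiff_norm_sq ℝ (n := ∞)).of_le (by norm_cast)).contDiffAt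
  have h2 : ContDiffAt ℝ 2 (fun s => M0⁻¹ * G0 s) (‖w‖ ^ 2) :=
    ((contDiff_const.mul contDiff_G0).of_le (by norm_cast)).contDiffAt
  have h3 := lapC_comp h2 h1
  have e1 : (fun y : ℂ => M0⁻¹ * G0 (‖y‖ ^ 2)) = L0 := by
    funext y; unfold L0; rw [div_eq_inv_mul]
  rw [e1] at h3
  rw [h3, lapC_normSq]
  have d0 : deriv (fun s => M0⁻¹ * G0 s) = fun s => M0⁻¹ * deriv G0 s := by
    funext s; exact deriv_const_mul _ ((hasDerivAt_G0 s).differentiableAt)
  have d1 : deriv (deriv (fun s => M0⁻¹ * G0 s)) (‖w‖ ^ 2) =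
      M0⁻¹ * deriv (deriv G0) (‖w‖ ^ 2) := by
    rw [d0]
    refine deriv_const_mul _ ?_
    rw [deriv_G0]
    exact (contDiff_q0.differentiable (by simp) _).div_const 4
  have d2 : ‖fderiv ℝ (fun y : ℂ => ‖y‖ ^ 2) w‖ ^ 2 = 4 * ‖w‖ ^ 2 := by
    have h5 : fderiv ℝ (fun y : ℂ => ‖y‖ ^ 2) w = 2 • innerSL ℝ w :=
      (hasStrictFDerivAt_norm_sq w).hasFDerivAt.fderiv
    have h6 : (2 • innerSL ℝ w : ℂ →L[ℝ] ℝ) = (2 : ℝ) • innerSL ℝ w := by
      rw [two_smul, two_smul]
    rw [h5, h6, norm_smul, innerSL_apply_norm, mul_pow]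
    norm_num
  rw [d1, d0, d2]
  have := deriv2_G0 (‖w‖ ^ 2)
  unfold rho r0
  rw [div_eq_inv_mul]
  rw [← this]
  ring

/-! ### scaling -/

/-- bump of radius `r` at `z` -/
def rr (z : ℂ) (r : ℝ) (w : ℂ) : ℝ := (1 / r) ^ 2 * rho ((1 / r) • (w - z))

/-- its potential -/
def Ls (z : ℂ) (r : ℝ) (w : ℂ) : ℝ :=
  L0 ((1 / r) • (w - z)) + I0 1 / (2 * M0) * Real.log r

theorem contDiff_rr (z : ℂ) (r : ℝ) : ContDiff ℝ ∞ (rr z r) :=
  contDiff_const.mul (contDiff_rho.comp ((contDiff_id.sub contDiff_const).const_smul _))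

theorem contDiff_Ls (z : ℂ) (r : ℝ) : ContDiff ℝ ∞ (Ls z r) :=
  (contDiff_L0.comp ((contDiff_id.sub contDiff_const).const_smul _)).add contDiff_const

theorem rr_nonneg (z : ℂ) (r : ℝ) (w : ℂ) : 0 ≤ rr z r w :=
  mul_nonneg (by positivity) (rho_nonneg _)

theorem norm_sc {r : ℝ} (hr : 0 < r) (z w : ℂ) : ‖(1 / r) • (w - z)‖ = dist w z / r := by
  rw [norm_smul, Real.norm_of_nonneg (by positivity), dist_eq_norm]
  ring

theorem rr_zero {r : ℝ} (hr : 0 < r) {z w : ℂ} (h : r ≤ dist w z) : rr z r w = 0 := by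
  unfold rr
  rw [rho_zero, mul_zero]
  rw [norm_sc hr, le_div_iff₀ hr]
  linarith

theorem rr_pos {r : ℝ} (hr : 0 < r) {z w : ℂ} (h : dist w z < r) : 0 < rr z r w := by
  refine mul_pos (by positivity) (rho_pos ?_)
  rw [norm_sc hr, div_lt_one hr]
  exact h

theorem tsupport_rr {r : ℝ} (hr : 0 < r) (z : ℂ) : tsupport (rr z r) ⊆ closedBall z r := by
  refine closure_minimal (fun w hw => ?_) isClosed_closedBall
  rw [mem_closedBall]
  by_contra h
  exact hw (rr_zero hr (le_of_lt (not_le.1 h)))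

theorem isTest_rr {D : Set ℂ} {r : ℝ} (hr : 0 < r) {z : ℂ} (h : closedBall z r ⊆ D) :
    IsTest D (rr z r) :=
  ⟨contDiff_rr z r, HasCompactSupport.of_support_subset_isCompact (isCompact_closedBall z r)
    (subset_closure.trans (tsupport_rr hr z)), (tsupport_rr hr z).trans h⟩

theorem integral_rr {r : ℝ} (hr : 0 < r) (z : ℂ) : ∫ w, rr z r w = 1 := by
  unfold rr
  rw [integral_const_mul]
  have h1 : ∫ w : ℂ, rho ((1 / r) • (w - z)) = ∫ w : ℂ, rho ((1 / r) • w) :=
    integral_sub_right_eq_self (fun w => rho ((1 / r) • w)) z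
  rw [h1, Measure.integral_comp_smul, integral_rho, Complex.finrank_real_complex]
  rw [abs_of_nonneg (by positivity), smul_eq_mul, mul_one]
  field_simp

theorem lap_Ls {r : ℝ} (hr : 0 < r) (z w : ℂ) : (Δ (Ls z r)) w = rr z r w := by
  have h1 : (Δ (fun w => L0 ((1 / r) • (w - z)))) w = rr z r w := by
    have h2 : AnalyticAt ℂ (fun w : ℂ => ((1 / r : ℝ) : ℂ) * (w - z)) w := by fun_prop
    have h3 := lap_comp_holo (u := L0) (h := fun w : ℂ => ((1 / r : ℝ) : ℂ) * (w - z)) (z := w)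
      ((contDiff_L0.of_le (by norm_cast)).contDiffAt) h2
    have e : (fun w : ℂ => L0 ((1 / r) • (w - z))) = fun w => L0 (((1 / r : ℝ) : ℂ) * (w - z)) := by
      funext v; rw [Complex.real_smul]
    rw [e, h3, lap_L0]
    have h4 : deriv (fun w : ℂ => ((1 / r : ℝ) : ℂ) * (w - z)) w = ((1 / r : ℝ) : ℂ) := by
      rw [deriv_const_mul_field]
      simp
    rw [h4, Complex.norm_real, Real.norm_of_nonneg (by positivity)]
    unfold rr
    rw [Complex.real_smul]
    ring
  have h5 : Ls z r = fun w => L0 ((1 / r) • (w - z)) + I0 1 / (2 * M0) * Real.log r := rfl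
  have h6 : ContDiffAt ℝ 2 (fun w : ℂ => L0 ((1 / r) • (w - z))) w :=
    ((contDiff_L0.comp ((contDiff_id.sub contDiff_const).const_smul _)).of_le
      (by norm_cast)).contDiffAt
  have h7 : (Δ ((fun w : ℂ => L0 ((1 / r) • (w - z))) + fun _ : ℂ => I0 1 / (2 * M0) * Real.log r)) w
      = (Δ (fun w => L0 ((1 / r) • (w - z)))) w + (Δ (fun _ : ℂ => I0 1 / (2 * M0) * Real.log r)) w :=
    ContDiffAt.laplacian_add h6 contDiffAt_const
  have h8 : (Δ (fun _ : ℂ => I0 1 / (2 * M0) * Real.log r)) w = 0 := by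
    have : (Δ (fun _ : ℂ => I0 1 / (2 * M0) * Real.log r)) = fun _ => 0 := laplacian_const
    rw [this]
  rw [h5]
  change (Δ ((fun w : ℂ => L0 ((1 / r) • (w - z))) + fun _ : ℂ => I0 1 / (2 * M0) * Real.log r)) w = _
  rw [h7, h8, add_zero, h1]

theorem Ls_out {r : ℝ} (hr : 0 < r) {z w : ℂ} (h : r ≤ dist w z) :
    Ls z r w = I0 1 / (2 * M0) * Real.log (dist w z) := by
  unfold Ls
  have h0 : 0 < dist w z := hr.trans_le h
  rw [L0_eq (by rw [norm_sc hr, le_div_iff₀ hr]; linarith), norm_sc hr,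
    Real.log_div h0.ne' hr.ne']
  ring

/-- difference of the potentials: a test function -/
def uu (z : ℂ) (r s : ℝ) (w : ℂ) : ℝ := Ls z r w + -Ls z s w

theorem uu_zero {r s : ℝ} (hr : 0 < r) (hs : 0 < s) {z w : ℂ} (h1 : r ≤ dist w z)
    (h2 : s ≤ dist w z) : uu z r s w = 0 := by
  unfold uu; rw [Ls_out hr h1, Ls_out hs h2]; ring

theorem isTest_uu {D : Set ℂ} {r s : ℝ} (hr : 0 < r) (hs : 0 < s) {z : ℂ}
    (h : closedBall z (max r s) ⊆ D) : IsTest D (uu z r s) := by
  have h0 : ∀ w, w ∉ closedBall z (max r s) → uu z r s w = 0 := fun w hw => by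
    rw [mem_closedBall, not_le] at hw
    exact uu_zero hr hs ((le_max_left _ _).trans hw.le) ((le_max_right _ _).trans hw.le)
  refine ⟨(contDiff_Ls z r).add (contDiff_Ls z s).neg,
    HasCompactSupport.intro (isCompact_closedBall z (max r s)) h0, ?_⟩
  refine (closure_minimal (fun w hw => ?_) isClosed_closedBall).trans h
  by_contra h1
  exact hw (h0 w h1)

theorem lap_uu {r s : ℝ} (hr : 0 < r) (hs : 0 < s) (z w : ℂ) :
    (Δ (uu z r s)) w = rr z r w + -rr z s w := by
  have h1 : ContDiffAt ℝ 2 (Ls z r) w := ((contDiff_Ls z r).of_le (by norm_cast)).contDiffAt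
  have h2 : ContDiffAt ℝ 2 (-(Ls z s)) w :=
    ((contDiff_Ls z s).neg.of_le (by norm_cast)).contDiffAt
  have e : uu z r s = Ls z r + -(Ls z s) := rfl
  rw [e, ContDiffAt.laplacian_add h1 h2, laplacian_neg]
  simp [lap_Ls hr, lap_Ls hs]

end

end Crest.Agent.R144.End938
end

-- ▼ part R144/EndB_938
section

/-!
# R144, harmonic remainder, part B (helper938): a bounded functional killing Laplacians is zero
-/

set_option autoImplicit false

open MeasureTheory Metric Set Filter Topology Laplacian InnerProductSpace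
open scoped ComplexConjugate ContDiff BoundedContinuousFunction Convolution

namespace Crest.Agent.R144.End938

open Crest.Agent.R144.Con549 Crest.Agent.R161.Green722

noncomputable section

/-! ### preliminaries on the bumps -/

theorem rr_eq (z : ℂ) (r : ℝ) (w : ℂ) : rr z r w = rr 0 r (w - z) := by
  unfold rr; rw [sub_zero]

theorem rr_symm (z : ℂ) (r : ℝ) (w : ℂ) : rr z r w = rr w r z := by
  unfold rr
  congr 1
  apply rho_norm
  rw [norm_smul, norm_smul, norm_sub_rev]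

theorem compact_rr {r : ℝ} (hr : 0 < r) (z : ℂ) : HasCompactSupport (rr z r) :=
  HasCompactSupport.of_support_subset_isCompact (isCompact_closedBall z r)
    (subset_closure.trans (tsupport_rr hr z))

theorem exists_lip_rr {r : ℝ} (hr : 0 < r) : ∃ L : ℝ, 0 ≤ L ∧ ∀ z z' w : ℂ,
    |rr z r w - rr z' r w| ≤ L * dist z z' := by
  obtain ⟨L, hL⟩ := ContDiff.lipschitzWith_of_hasCompactSupport (𝕂 := ℝ) (compact_rr hr 0)
    (contDiff_rr 0 r) (by simp)
  refine ⟨L, L.2, fun z z' w => ?_⟩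
  rw [rr_eq z, rr_eq z']
  have h := hL.dist_le_mul (w - z) (w - z')
  rw [Real.dist_eq] at h
  refine h.trans (le_of_eq ?_)
  congr 1
  rw [dist_sub_left]

theorem cont_mul {D : Set ℂ} (hD : IsOpen D) {f h : ℂ → ℝ} (hf : IsTest D f)
    (hh : ContinuousOn h D) : Continuous fun w => f w * h w := by
  rw [continuous_iff_continuousAt]
  intro w
  by_cases hw : w ∈ D
  · exact hf.smooth.continuous.continuousAt.mul (hh.continuousAt (hD.mem_nhds hw))
  · have h1 : w ∉ tsupport f := fun h => hw (hf.supp h)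
    have h2 : (fun w => f w * h w) =ᶠ[𝓝 w] fun _ => (0 : ℝ) := by
      filter_upwards [(notMem_tsupport_iff_eventuallyEq.1 h1)] with v hv
      rw [hv]; simp
    exact continuousAt_const.congr h2.symm

theorem integrable_mul' {D : Set ℂ} (hD : IsOpen D) {f h : ℂ → ℝ} (hf : IsTest D f)
    (hh : ContinuousOn h D) : Integrable fun w => f w * h w :=
  (cont_mul hD hf hh).integrable_of_hasCompactSupport hf.comp.mul_right

/-! ### functionals -/

/-- a linear functional on test functions, bounded on compacts, killing Laplacians -/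
structure TF (D : Set ℂ) (T : (ℂ → ℝ) → ℝ) : Prop where
  add : ∀ f g, IsTest D f → IsTest D g → T (fun z => f z + g z) = T f + T g
  smul : ∀ (c : ℝ) f, IsTest D f → T (fun z => c * f z) = c * T f
  lap : ∀ u, IsTest D u → T (Δ u) = 0
  bd : ∀ K, IsCompact K → K ⊆ D → ∃ C, 0 ≤ C ∧ ∀ f, IsTest D f → tsupport f ⊆ K →
    ∀ M, (∀ z, |f z| ≤ M) → |T f| ≤ C * M

/-- half the distance to the complement -/
def rad (D : Set ℂ) (z : ℂ) : ℝ := infDist z Dᶜ / 2

theorem compl_nonempty {D : Set ℂ} (hb : Bornology.IsBounded D) : (Dᶜ).Nonempty := by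
  by_contra h
  rw [not_nonempty_iff_eq_empty, compl_empty_iff] at h
  rw [h] at hb
  exact NoncompactSpace.noncompact_univ (X := ℂ)
    (isCompact_of_isClosed_isBounded isClosed_univ hb)

theorem rad_pos {D : Set ℂ} (hD : IsOpen D) (hb : Bornology.IsBounded D) {z : ℂ} (hz : z ∈ D) :
    0 < rad D z := by
  have h := (hD.isClosed_compl.notMem_iff_infDist_pos (compl_nonempty hb)).1
    (show z ∉ Dᶜ from fun h => h hz)
  unfold rad
  linarith

theorem ball_rad {D : Set ℂ} (hD : IsOpen D) (hb : Bornology.IsBounded D) {z : ℂ} (hz : z ∈ D) :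
    closedBall z (rad D z) ⊆ D := by
  have h := rad_pos hD hb hz
  refine (closedBall_subset_ball ?_).trans (ball_infDist_compl_subset (s := D))
  unfold rad at h ⊢
  linarith

/-- the density of a functional -/
def HT (D : Set ℂ) (T : (ℂ → ℝ) → ℝ) (z : ℂ) : ℝ := T (rr z (rad D z))

namespace TF

variable {D : Set ℂ} {T : (ℂ → ℝ) → ℝ}

theorem sub (hT : TF D T) {f g : ℂ → ℝ} (hf : IsTest D f) (hg : IsTest D g) :
    T (fun z => f z + (-1) * g z) = T f - T g := by
  rw [hT.add f _ hf (hg.const_mul (-1)), hT.smul (-1) g hg]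
  ring

theorem T_rr (hT : TF D T) {z : ℂ} {r s : ℝ} (hr : 0 < r) (hs : 0 < s)
    (h1 : closedBall z r ⊆ D) (h2 : closedBall z s ⊆ D) : T (rr z r) = T (rr z s) := by
  have h3 : closedBall z (max r s) ⊆ D := by
    rcases le_total r s with h | h
    · rw [max_eq_right h]; exact h2
    · rw [max_eq_left h]; exact h1
  have h4 := hT.lap _ (isTest_uu hr hs h3)
  have e : (Δ (uu z r s)) = fun w => rr z r w + (-1) * rr z s w := by
    funext w; rw [lap_uu hr hs]; ring
  rw [e, hT.sub (isTest_rr hr h1) (isTest_rr hs h2)] at h4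
  linarith

theorem T_rr' (hD : IsOpen D) (hb : Bornology.IsBounded D) (hT : TF D T) {z : ℂ} {r : ℝ}
    (hr : 0 < r) (h1 : closedBall z r ⊆ D) : T (rr z r) = HT D T z := by
  have hz : z ∈ D := h1 (mem_closedBall_self hr.le)
  exact hT.T_rr hr (rad_pos hD hb hz) h1 (ball_rad hD hb hz)

/-- superposition of translated bumps -/
theorem conv (hT : TF D T) {f : ℂ → ℝ} (hf : IsTest D f) {r : ℝ} (hr : 0 < r)
    (hK : cthickening r (tsupport f) ⊆ D) :
    IsTest D (fun w => ∫ z, f z * rr z r w) ∧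
    tsupport (fun w => ∫ z, f z * rr z r w) ⊆ cthickening r (tsupport f) ∧
    T (fun w => ∫ z, f z * rr z r w) = ∫ z, f z * T (rr z r) := by
  set K := cthickening r (tsupport f) with hKdef
  have hKc : IsCompact K := IsCompact.cthickening hf.comp
  have hKcl : IsClosed K := isClosed_cthickening
  obtain ⟨C, hC0, hC⟩ := hT.bd K hKc hK
  have hsm : ContDiff ℝ ∞ (fun w => ∫ z, f z * rr z r w) := by
    have h1 : ContDiff ℝ ∞ (f ⋆[ContinuousLinearMap.mul ℝ ℝ, volume] (rr 0 r)) :=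
      (compact_rr hr 0).contDiff_convolution_right (n := ⊤) (ContinuousLinearMap.mul ℝ ℝ)
        (hf.smooth.continuous.locallyIntegrable) (contDiff_rr 0 r)
    have h2 : (f ⋆[ContinuousLinearMap.mul ℝ ℝ, volume] (rr 0 r)) =
        fun w => ∫ z, f z * rr z r w := by
      funext w
      unfold MeasureTheory.convolution
      congr 1
      funext z
      rw [rr_eq z]
      rfl
    rwa [h2] at h1
  have hz : ∀ w, w ∉ K → ∀ z, f z * rr z r w = 0 := by
    intro w hw z
    by_cases hfz : f z = 0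
    · rw [hfz, zero_mul]
    · rw [rr_zero hr, mul_zero]
      by_contra h
      rw [not_le] at h
      refine hw (mem_cthickening_of_dist_le w z r (tsupport f) (subset_tsupport f hfz) h.le)
  have hsup : tsupport (fun w => ∫ z, f z * rr z r w) ⊆ K := by
    refine closure_minimal (fun w hw => ?_) hKcl
    by_contra h
    refine hw ?_
    simp only
    rw [integral_congr_ae (Eventually.of_forall (hz w h))]
    simp
  have htest : IsTest D (fun w => ∫ z, f z * rr z r w) :=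
    ⟨hsm, hKc.of_isClosed_subset (isClosed_tsupport _) hsup, hsup.trans hK⟩
  refine ⟨htest, hsup, ?_⟩
  -- the subspace
  let p : Submodule ℝ (ℂ →ᵇ ℝ) :=
    { carrier := {b | ContDiff ℝ ∞ b ∧ tsupport b ⊆ K}
      add_mem' := fun {a b} ha hb => ⟨by
          rw [BoundedContinuousFunction.coe_add]; exact ha.1.add hb.1, by
          rw [BoundedContinuousFunction.coe_add]
          exact (tsupport_add _ _).trans (union_subset ha.2 hb.2)⟩
      zero_mem' := ⟨by rw [BoundedContinuousFunction.coe_zero]; exact contDiff_const, by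
          rw [BoundedContinuousFunction.coe_zero]; simp⟩
      smul_mem' := fun c a ha => ⟨by
          rw [BoundedContinuousFunction.coe_smul]; exact ha.1.const_smul c, by
          rw [BoundedContinuousFunction.coe_smul]
          refine subset_trans (closure_mono ?_) ha.2
          intro z hz hz'
          exact hz (by simp [hz'])⟩ }
  have hp : ∀ b : ℂ →ᵇ ℝ, b ∈ p → IsTest D b := fun b hb =>
    ⟨hb.1, hKc.of_isClosed_subset (isClosed_tsupport _) hb.2, hb.2.trans hK⟩
  let Tp : p →ₗ[ℝ] ℝ :=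
    { toFun := fun b => T (b : ℂ →ᵇ ℝ)
      map_add' := fun a b => hT.add _ _ (hp a a.2) (hp b b.2)
      map_smul' := fun c a => hT.smul c _ (hp a a.2) }
  obtain ⟨Λ, hΛ, -⟩ := exists_extension_norm_eq p (Tp.mkContinuous C fun b => by
    refine hC _ (hp b b.2) b.2.2 ‖b‖ fun z => ?_
    exact (b : ℂ →ᵇ ℝ).norm_coe_le_norm z)
  have hΛ' : ∀ b : ℂ →ᵇ ℝ, b ∈ p → Λ b = T b := fun b hb => hΛ ⟨b, hb⟩
  -- the bumps
  obtain ⟨Cb, hCb⟩ := (contDiff_rr 0 r).continuous.bounded_above_of_compact_support (compact_rr hr 0)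
  let B0 : ℂ →ᵇ ℝ := BoundedContinuousFunction.ofNormedAddCommGroup (rr 0 r)
    (contDiff_rr 0 r).continuous Cb hCb
  let B : ℂ → (ℂ →ᵇ ℝ) := fun z => B0.compContinuous ⟨fun w => w - z, by fun_prop⟩
  have hB : ∀ z, (B z : ℂ → ℝ) = rr z r := fun z => by
    funext w; rw [rr_eq z]; rfl
  obtain ⟨L, hL0, hL⟩ := exists_lip_rr hr
  have hBc : Continuous B := by
    rw [continuous_iff_continuousAt]
    intro z0
    refine continuousAt_of_locally_lipschitz one_pos L fun y _ => ?_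
    rw [BoundedContinuousFunction.dist_le (by positivity)]
    intro w
    rw [Real.dist_eq, hB, hB]
    exact hL y z0 w
  have hΦc : Continuous fun z => f z • B z := hf.smooth.continuous.smul hBc
  have hΦs : HasCompactSupport fun z => f z • B z := hf.comp.smul_right
  have hΦ : Integrable fun z => f z • B z := hΦc.integrable_of_hasCompactSupport hΦs
  have hI : ((∫ z, f z • B z : ℂ →ᵇ ℝ) : ℂ → ℝ) = fun w => ∫ z, f z * rr z r w := by
    funext w
    have h := (BoundedContinuousFunction.evalCLM ℝ w).integral_comp_comm hΦ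
    rw [BoundedContinuousFunction.evalCLM_apply] at h
    rw [← h]
    congr 1
    funext z
    rw [BoundedContinuousFunction.evalCLM_apply, BoundedContinuousFunction.smul_apply, hB]
    rfl
  have hIp : (∫ z, f z • B z : ℂ →ᵇ ℝ) ∈ p := by
    refine ⟨?_, ?_⟩
    · rw [hI]; exact hsm
    · rw [hI]; exact hsup
  have h5 := hΛ' _ hIp
  rw [hI] at h5
  rw [← h5, ← Λ.integral_comp_comm hΦ]
  congr 1
  funext z
  rw [map_smul, smul_eq_mul]
  by_cases hfz : f z = 0
  · rw [hfz]; simp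
  · congr 1
    have hBp : B z ∈ p := by
      refine ⟨?_, ?_⟩
      · rw [hB]; exact contDiff_rr z r
      · rw [hB]
        refine (tsupport_rr hr z).trans fun w hw => ?_
        exact mem_cthickening_of_dist_le w z r (tsupport f) (subset_tsupport f hfz)
          (mem_closedBall.1 hw)
    rw [hΛ' _ hBp, hB]


theorem conv_close {f : ℂ → ℝ} {L r : ℝ} (hr : 0 < r) (hfc : Continuous f)
    (hfs : HasCompactSupport f) (hL : ∀ z w, |f z - f w| ≤ L * dist z w) (hL0 : 0 ≤ L) (w : ℂ) :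
    |(∫ z, f z * rr z r w) + (-1) * f w| ≤ L * r := by
  have hint : ∀ z, Integrable (rr z r) := fun z =>
    (contDiff_rr z r).continuous.integrable_of_hasCompactSupport (compact_rr hr z)
  have e1 : ∫ z, f w * rr z r w = f w := by
    rw [integral_const_mul]
    have : (fun z => rr z r w) = rr w r := funext fun z => rr_symm z r w
    rw [this, integral_rr hr, mul_one]
  have i1 : Integrable fun z => f z * rr z r w := by
    have : (fun z => f z * rr z r w) = fun z => f z * rr w r z :=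
      funext fun z => by rw [rr_symm z r w]
    rw [this]
    exact (hfc.mul (contDiff_rr w r).continuous).integrable_of_hasCompactSupport hfs.mul_right
  have i2 : Integrable fun z => f w * rr z r w := by
    have : (fun z => f w * rr z r w) = fun z => f w * rr w r z :=
      funext fun z => by rw [rr_symm z r w]
    rw [this]
    exact (hint w).const_mul _
  have e2 : (∫ z, f z * rr z r w) + (-1) * f w = ∫ z, (f z * rr z r w - f w * rr z r w) := by
    rw [integral_sub i1 i2, e1]; ring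
  rw [e2]
  have e3 : ∫ z, L * r * rr w r z = L * r := by
    rw [integral_const_mul, integral_rr hr, mul_one]
  rw [← e3, ← Real.norm_eq_abs]
  refine norm_integral_le_of_norm_le ((hint w).const_mul _) (Eventually.of_forall fun z => ?_)
  rw [← sub_mul, norm_mul, Real.norm_eq_abs, Real.norm_of_nonneg (rr_nonneg _ _ _), rr_symm z r w]
  rcases lt_or_ge (dist z w) r with h | h
  · refine mul_le_mul_of_nonneg_right ((hL z w).trans ?_) (rr_nonneg _ _ _)
    exact mul_le_mul_of_nonneg_left h.le hL0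
  · rw [rr_zero hr h]; simp

/-- the functional is given by its density -/
theorem repr (hD : IsOpen D) (hb : Bornology.IsBounded D) (hT : TF D T) {f : ℂ → ℝ}
    (hf : IsTest D f) : T f = ∫ z, f z * HT D T z := by
  obtain ⟨r1, hr1, hsub⟩ :=
    (show IsCompact (tsupport f) from hf.comp).exists_cthickening_subset_open hD hf.supp
  obtain ⟨C, hC0, hC⟩ := hT.bd (cthickening r1 (tsupport f)) (IsCompact.cthickening hf.comp) hsub
  obtain ⟨L, hL⟩ := ContDiff.lipschitzWith_of_hasCompactSupport (𝕂 := ℝ) hf.comp hf.smooth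
    (by simp)
  have hL' : ∀ z w, |f z - f w| ≤ L * dist z w := fun z w => by
    have := hL.dist_le_mul z w
    rwa [Real.dist_eq] at this
  have key : ∀ r, 0 < r → r ≤ r1 → |(∫ z, f z * HT D T z) - T f| ≤ C * (L * r) := by
    intro r hr hrr
    have hsub' : cthickening r (tsupport f) ⊆ cthickening r1 (tsupport f) :=
      cthickening_mono hrr _
    obtain ⟨h1, h2, h3⟩ := hT.conv hf hr (hsub'.trans hsub)
    have h4 : ∫ z, f z * T (rr z r) = ∫ z, f z * HT D T z := by
      congr 1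
      funext z
      by_cases hfz : f z = 0
      · rw [hfz]; simp
      · congr 1
        refine hT.T_rr' hD hb hr ?_
        refine (fun w hw => hsub (hsub' ?_))
        exact mem_cthickening_of_dist_le w z r (tsupport f) (subset_tsupport f hfz)
          (mem_closedBall.1 hw)
    rw [← h4, ← h3, ← hT.sub h1 hf]
    refine hC _ (h1.add (hf.const_mul (-1))) ?_ _ fun w =>
      conv_close hr hf.smooth.continuous hf.comp hL' L.2 w
    refine (tsupport_add _ _).trans (union_subset (h2.trans hsub') ?_)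
    have hmono : tsupport (fun z => -1 * f z) ⊆ tsupport f := by
      refine closure_mono fun z hz hz' => ?_
      exact hz (by simp [hz'])
    exact hmono.trans (self_subset_cthickening (δ := r1) (tsupport f))
  have h0 : |(∫ z, f z * HT D T z) - T f| ≤ 0 := by
    refine le_of_forall_pos_le_add fun ε hε => ?_
    rw [zero_add]
    set r := min r1 (ε / (C * L + 1)) with hr
    have hCL : 0 ≤ C * (L : ℝ) := mul_nonneg hC0 L.2
    have hrp : 0 < r := lt_min hr1 (by positivity)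
    refine (key r hrp (min_le_left _ _)).trans ?_
    calc C * (L * r) = (C * L) * r := by ring
      _ ≤ (C * L) * (ε / (C * L + 1)) := mul_le_mul_of_nonneg_left (min_le_right _ _) hCL
      _ = ε * ((C * L) / (C * L + 1)) := by ring
      _ ≤ ε * 1 := by
        refine mul_le_mul_of_nonneg_left ?_ hε.le
        rw [div_le_one (by positivity)]
        linarith
      _ = ε := mul_one _
  have h1 := abs_nonpos_iff.1 h0
  linarith

theorem continuousOn_HT (hD : IsOpen D) (hb : Bornology.IsBounded D) (hT : TF D T) :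
    ContinuousOn (HT D T) D := by
  intro z0 hz0
  refine ContinuousAt.continuousWithinAt ?_
  obtain ⟨r1, hr1, hsub⟩ := nhds_basis_closedBall.mem_iff.1 (hD.mem_nhds hz0)
  obtain ⟨C, hC0, hC⟩ := hT.bd (closedBall z0 r1) (isCompact_closedBall _ _) hsub
  obtain ⟨L, hL0, hL⟩ := exists_lip_rr (half_pos hr1)
  refine continuousAt_of_locally_lipschitz (half_pos hr1) (C * L) fun z hz => ?_
  have h1 : ∀ y, dist y z0 < r1 / 2 → closedBall y (r1 / 2) ⊆ closedBall z0 r1 := fun y hy =>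
    closedBall_subset_closedBall' (by linarith)
  have h2 := h1 z hz
  have h3 := h1 z0 (by simpa using half_pos hr1)
  rw [Real.dist_eq, ← hT.T_rr' hD hb (half_pos hr1) (h2.trans hsub),
    ← hT.T_rr' hD hb (half_pos hr1) (h3.trans hsub),
    ← hT.sub (isTest_rr (half_pos hr1) (h2.trans hsub)) (isTest_rr (half_pos hr1) (h3.trans hsub)),
    mul_assoc]
  refine hC _ ((isTest_rr (half_pos hr1) (h2.trans hsub)).add
    ((isTest_rr (half_pos hr1) (h3.trans hsub)).const_mul (-1))) ?_ _ fun w => ?_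
  · refine (tsupport_add _ _).trans (union_subset ((tsupport_rr (half_pos hr1) _).trans h2) ?_)
    refine subset_trans (closure_mono ?_) ((tsupport_rr (half_pos hr1) _).trans h3)
    intro z hz hz'
    exact hz (by simp [hz'])
  · have e : rr z (r1 / 2) w + (-1) * rr z0 (r1 / 2) w = rr z (r1 / 2) w - rr z0 (r1 / 2) w := by
      ring
    rw [e]
    exact hL z z0 w

end TF

/-! ### functions with the mean value property -/

/-- continuous with the mean value property with respect to the bumps -/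
structure MV (D : Set ℂ) (h : ℂ → ℝ) : Prop where
  cont : ContinuousOn h D
  mean : ∀ z r, 0 < r → closedBall z r ⊆ D → ∫ w, rr z r w * h w = h z

theorem TF.mv {D : Set ℂ} {T : (ℂ → ℝ) → ℝ} (hD : IsOpen D) (hb : Bornology.IsBounded D)
    (hT : TF D T) : MV D (HT D T) :=
  ⟨hT.continuousOn_HT hD hb, fun z r hr h => by
    rw [← hT.repr hD hb (isTest_rr hr h), hT.T_rr' hD hb hr h]⟩

namespace MV

variable {D : Set ℂ} {f g : ℂ → ℝ}

theorem add (hD : IsOpen D) (hf : MV D f) (hg : MV D g) : MV D (fun z => f z + g z) := by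
  refine ⟨hf.cont.add hg.cont, fun z r hr h => ?_⟩
  have h1 := integrable_mul' hD (isTest_rr hr h) hf.cont
  have h2 := integrable_mul' hD (isTest_rr hr h) hg.cont
  simp only [mul_add]
  rw [integral_add h1 h2, hf.mean z r hr h, hg.mean z r hr h]

theorem const_mul (hf : MV D f) (c : ℝ) : MV D (fun z => c * f z) := by
  refine ⟨continuousOn_const.mul hf.cont, fun z r hr h => ?_⟩
  have e : (fun w => rr z r w * (c * f w)) = fun w => c * (rr z r w * f w) := by
    funext w; ring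
  rw [e, integral_const_mul, hf.mean z r hr h]

theorem const (c : ℝ) : MV D (fun _ => c) :=
  ⟨continuousOn_const, fun z r hr _ => by rw [integral_mul_const, integral_rr hr, one_mul]⟩

theorem sum (hD : IsOpen D) {ι : Type*} (s : Finset ι) {F : ι → ℂ → ℝ}
    (hF : ∀ i ∈ s, MV D (F i)) : MV D (fun z => ∑ i ∈ s, F i z) := by
  classical
  induction s using Finset.induction_on with
  | empty => simpa using const (D := D) 0
  | insert a s ha ih =>
    have h1 := ih fun i hi => hF i (Finset.mem_insert_of_mem hi)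
    have h2 := hF a (Finset.mem_insert_self a s)
    have e : (fun z => ∑ i ∈ insert a s, F i z) = fun z => F a z + ∑ i ∈ s, F i z := by
      funext z; rw [Finset.sum_insert ha]
    rw [e]
    exact add hD h2 h1

/-- maximum principle -/
theorem le_zero (hD : IsOpen D) (hb : Bornology.IsBounded D) (hf : MV D f)
    (hfr : ∀ p ∈ frontier D, ∀ δ > 0, ∃ η > 0, ∀ z ∈ D, dist z p < η → f z ≤ δ) :
    ∀ z ∈ D, f z ≤ 0 := by
  intro z0 hz0
  by_contra hcon
  rw [not_le] at hcon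
  set δ := f z0 / 2 with hδ
  have hδp : 0 < δ := half_pos hcon
  set S : Set ℂ := {z | z ∈ D ∧ δ ≤ f z} with hS
  have hz0S : z0 ∈ S := ⟨hz0, by linarith⟩
  have hScl : IsClosed S := by
    rw [← closure_subset_iff_isClosed]
    intro z hz
    have hzD : z ∈ closure D := closure_mono (fun w hw => hw.1) hz
    by_cases hzin : z ∈ D
    · refine ⟨hzin, ?_⟩
      have h1 : ContinuousAt f z := hf.cont.continuousAt (hD.mem_nhds hzin)
      by_contra h2
      rw [not_le] at h2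
      have h3 : ∀ᶠ w in 𝓝 z, f w < δ := h1.eventually_lt continuousAt_const h2
      obtain ⟨w, hw, hw'⟩ := (mem_closure_iff_frequently.1 hz).and_eventually h3 |>.exists
      linarith [hw.2]
    · exfalso
      have hfr' : z ∈ frontier D := ⟨hzD, by rw [hD.interior_eq]; exact hzin⟩
      obtain ⟨η, hη, h1⟩ := hfr z hfr' (δ / 2) (half_pos hδp)
      obtain ⟨w, hw, hw'⟩ := Metric.mem_closure_iff.1 hz η hη
      have := h1 w hw.1 (by rw [dist_comm]; exact hw')
      linarith [hw.2]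
  have hSc : IsCompact S := isCompact_of_isClosed_isBounded hScl (hb.subset fun w hw => hw.1)
  have hfS : ContinuousOn f S := hf.cont.mono fun w hw => hw.1
  obtain ⟨zM, hzM, hmax⟩ := hSc.exists_isMaxOn ⟨z0, hz0S⟩ hfS
  set M := f zM with hM
  have hle : ∀ w ∈ D, f w ≤ M := by
    intro w hw
    by_cases h : δ ≤ f w
    · exact hmax (show w ∈ S from ⟨hw, h⟩)
    · have := hzM.2
      linarith [not_le.1 h]
  have hS'c : IsCompact {z | z ∈ S ∧ f z = M} := by
    have h1 : IsClosed (S ∩ f ⁻¹' {M}) := hfS.preimage_isClosed_of_isClosed hScl isClosed_singleton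
    exact hSc.of_isClosed_subset h1 inter_subset_left
  have hS'n : {z | z ∈ S ∧ f z = M}.Nonempty := ⟨zM, hzM, rfl⟩
  obtain ⟨z1, ⟨hz1S, hz1M⟩, hz1max⟩ := hS'c.exists_isMaxOn hS'n Complex.continuous_re.continuousOn
  obtain ⟨r, hr, hsub⟩ := nhds_basis_closedBall.mem_iff.1 (hD.mem_nhds hz1S.1)
  have hmv := hf.mean z1 r hr hsub
  have hmM : ∫ w, rr z1 r w * M = M := by rw [integral_mul_const, integral_rr hr, one_mul]
  have i1 := integrable_mul' hD (isTest_rr hr hsub) hf.cont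
  have i2 := integrable_mul' hD (isTest_rr hr hsub) (continuousOn_const (c := M))
  have hzero : ∫ w, rr z1 r w * (M - f w) = 0 := by
    have e : (fun w => rr z1 r w * (M - f w)) = fun w => rr z1 r w * M - rr z1 r w * f w := by
      funext w; ring
    rw [e, integral_sub i2 i1, hmM, hmv, hz1M]
    simp
  have hcont : Continuous fun w => rr z1 r w * (M - f w) :=
    cont_mul hD (isTest_rr hr hsub) (continuousOn_const.sub hf.cont)
  have hcomp : HasCompactSupport fun w => rr z1 r w * (M - f w) := (compact_rr hr z1).mul_right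
  have hnn : 0 ≤ fun w => rr z1 r w * (M - f w) := by
    intro w
    simp only [Pi.zero_apply]
    by_cases hw : dist w z1 < r
    · have : w ∈ D := hsub (mem_closedBall.2 hw.le)
      exact mul_nonneg (rr_nonneg _ _ _) (by linarith [hle w this])
    · rw [rr_zero hr (not_lt.1 hw), zero_mul]
  set w1 : ℂ := z1 + ((r / 2 : ℝ) : ℂ) with hw1
  have hd1 : dist w1 z1 < r := by
    rw [hw1, dist_eq_norm, add_sub_cancel_left, Complex.norm_real, Real.norm_of_nonneg (by linarith)]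
    linarith
  have hw1D : w1 ∈ D := hsub (mem_closedBall.2 hd1.le)
  have hne : f w1 ≠ M := by
    intro h
    have h2 : w1 ∈ S := ⟨hw1D, by rw [h]; exact hzM.2⟩
    have h3 : w1.re ≤ z1.re := hz1max (show w1 ∈ {z | z ∈ S ∧ f z = M} from ⟨h2, h⟩)
    rw [hw1, Complex.add_re, Complex.ofReal_re] at h3
    linarith
  have hpos : 0 < ∫ w, rr z1 r w * (M - f w) :=
    hcont.integral_pos_of_hasCompactSupport_nonneg_nonzero hcomp hnn (x := w1)
    (mul_ne_zero (rr_pos hr hd1).ne' (sub_ne_zero.2 (Ne.symm hne)))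
  exact hpos.ne' hzero

/-- small bumps reproduce continuous functions -/
theorem tendsto_bump (hD : IsOpen D) {ℓ : ℂ → ℝ} (hℓ : ContinuousOn ℓ D) {z : ℂ} (hz : z ∈ D)
    {ε : ℝ} (hε : 0 < ε) : ∃ r > 0, closedBall z r ⊆ D ∧ |(∫ w, rr z r w * ℓ w) - ℓ z| ≤ ε := by
  have hc : ContinuousAt ℓ z := hℓ.continuousAt (hD.mem_nhds hz)
  have h1 : ∀ᶠ w in 𝓝 z, |ℓ w - ℓ z| < ε := by
    have := Metric.continuousAt_iff'.1 hc ε hε
    simpa [Real.dist_eq] using this
  obtain ⟨r, hr, hsub⟩ := nhds_basis_closedBall.mem_iff.1 (Filter.inter_mem h1 (hD.mem_nhds hz))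
  have hsub1 : closedBall z r ⊆ D := hsub.trans inter_subset_right
  refine ⟨r, hr, hsub1, ?_⟩
  have i1 := integrable_mul' hD (isTest_rr hr hsub1) hℓ
  have i2 := integrable_mul' hD (isTest_rr hr hsub1) (continuousOn_const (c := ℓ z))
  have i3 : Integrable (rr z r) :=
    (contDiff_rr z r).continuous.integrable_of_hasCompactSupport (compact_rr hr z)
  have e1 : ∫ w, rr z r w * ℓ z = ℓ z := by rw [integral_mul_const, integral_rr hr, one_mul]
  have e2 : (∫ w, rr z r w * ℓ w) - ℓ z = ∫ w, (rr z r w * ℓ w - rr z r w * ℓ z) := by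
    rw [integral_sub i1 i2, e1]
  have e3 : ∫ w, ε * rr z r w = ε := by rw [integral_const_mul, integral_rr hr, mul_one]
  rw [e2, ← Real.norm_eq_abs]
  refine (norm_integral_le_of_norm_le (i3.const_mul ε) (Eventually.of_forall fun w => ?_)).trans
    (le_of_eq e3)
  rw [← mul_sub, norm_mul, Real.norm_of_nonneg (rr_nonneg _ _ _), Real.norm_eq_abs, mul_comm]
  by_cases hw : dist w z < r
  · exact mul_le_mul_of_nonneg_right (le_of_lt (hsub (mem_closedBall.2 hw.le)).1) (rr_nonneg _ _ _)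
  · rw [rr_zero hr (not_lt.1 hw)]; simp

theorem continuousOn_log {m : ℂ} (hm : m ∉ D) : ContinuousOn (fun w => Real.log ‖m - w‖) D := by
  refine ContinuousOn.log (by fun_prop) fun w hw => ?_
  rw [norm_ne_zero_iff, sub_ne_zero]
  rintro rfl
  exact hm hw

theorem tf_LP (hD : IsOpen D) {m : ℂ} (hm : m ∉ D) : TF D (fun f => LP f m) := by
  have hlog := continuousOn_log (D := D) hm
  refine ⟨fun f g hf hg => ?_, fun c f hf => ?_, fun u hu => ?_, fun K hK hKD => ?_⟩
  · unfold LP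
    have h1 := integrable_mul' hD hf hlog
    have h2 := integrable_mul' hD hg hlog
    have e : (fun w => Real.log ‖m - w‖ * (f w + g w)) =
        fun w => f w * Real.log ‖m - w‖ + g w * Real.log ‖m - w‖ := by funext w; ring
    have e1 : (fun w => Real.log ‖m - w‖ * f w) = fun w => f w * Real.log ‖m - w‖ := by
      funext w; ring
    have e2 : (fun w => Real.log ‖m - w‖ * g w) = fun w => g w * Real.log ‖m - w‖ := by
      funext w; ring
    rw [e, e1, e2, integral_add h1 h2]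
    ring
  · unfold LP
    have e : (fun w => Real.log ‖m - w‖ * (c * f w)) = fun w => c * (Real.log ‖m - w‖ * f w) := by
      funext w; ring
    rw [e, integral_const_mul]
    ring
  · rw [LP_lap hu.smooth hu.comp, hu.eq_zero hm]
  · obtain ⟨B, hB⟩ := hK.exists_bound_of_continuousOn (hlog.mono hKD)
    refine ⟨(1 / (2 * Real.pi)) * (max B 0 * (volume K).toReal), by positivity,
      fun f hf hfK M hM => ?_⟩
    unfold LP
    rw [abs_mul, abs_of_nonneg (by positivity : (0 : ℝ) ≤ 1 / (2 * Real.pi)), mul_assoc]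
    refine mul_le_mul_of_nonneg_left ?_ (by positivity)
    have hM0 : 0 ≤ M := (abs_nonneg _).trans (hM 0)
    have e : ∫ w, Real.log ‖m - w‖ * f w = ∫ w in K, Real.log ‖m - w‖ * f w := by
      symm
      refine setIntegral_eq_integral_of_forall_compl_eq_zero fun w hw => ?_
      have : f w = 0 := image_eq_zero_of_notMem_tsupport fun h => hw (hfK h)
      rw [this, mul_zero]
    rw [e, ← Real.norm_eq_abs]
    refine (norm_setIntegral_le_of_norm_le_const (C := max B 0 * M) hK.measure_lt_top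
      fun w hw => ?_).trans (le_of_eq ?_)
    · rw [norm_mul]
      exact mul_le_mul ((hB w hw).trans (le_max_left _ _)) (hM w) (abs_nonneg _) (le_max_right _ _)
    · rw [Measure.real]; ring

theorem log (hD : IsOpen D) (hb : Bornology.IsBounded D) {m : ℂ} (hm : m ∉ D) :
    MV D (fun w => Real.log ‖m - w‖) := by
  have hlog := continuousOn_log (D := D) hm
  have hT := tf_LP hD hm
  have hmv := hT.mv hD hb
  have key : ∀ z ∈ D, HT D (fun f => LP f m) z = (1 / (2 * Real.pi)) * Real.log ‖m - z‖ := by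
    intro z hz
    have h1 : |HT D (fun f => LP f m) z - (1 / (2 * Real.pi)) * Real.log ‖m - z‖| ≤ 0 := by
      refine le_of_forall_pos_le_add fun ε hε => ?_
      rw [zero_add]
      obtain ⟨r, hr, hsub, hle⟩ := tendsto_bump hD hlog hz
        (show (0 : ℝ) < ε * (2 * Real.pi) by positivity)
      have h2 := hT.T_rr' hD hb hr hsub
      rw [← h2]
      unfold LP
      have e : (fun w => Real.log ‖m - w‖ * rr z r w) = fun w => rr z r w * Real.log ‖m - w‖ := by
        funext w; ring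
      rw [e, ← mul_sub, abs_mul, abs_of_nonneg (by positivity : (0 : ℝ) ≤ 1 / (2 * Real.pi))]
      calc (1 / (2 * Real.pi)) * |(∫ w, rr z r w * Real.log ‖m - w‖) - Real.log ‖m - z‖|
          ≤ (1 / (2 * Real.pi)) * (ε * (2 * Real.pi)) :=
            mul_le_mul_of_nonneg_left hle (by positivity)
        _ = ε := by field_simp
    have := abs_nonpos_iff.1 h1
    linarith
  refine ⟨hlog, fun z r hr h => ?_⟩
  have h1 := hmv.mean z r hr h
  have hz : z ∈ D := h (mem_closedBall_self hr.le)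
  rw [key z hz] at h1
  have e : ∫ w, rr z r w * HT D (fun f => LP f m) w =
      ∫ w, (1 / (2 * Real.pi)) * (rr z r w * Real.log ‖m - w‖) := by
    congr 1
    funext w
    by_cases hw : w ∈ D
    · rw [key w hw]; ring
    · have : rr z r w = 0 := (isTest_rr hr h).eq_zero hw
      rw [this]; ring
  rw [e, integral_const_mul] at h1
  exact mul_left_cancel₀ (by positivity) h1

end MV

/-- **Uniqueness**: a functional on test functions, bounded on compacts, killing Laplacians, whose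
density is bounded and vanishes at the boundary off a finite set, is zero. -/
theorem TF.eq_zero {D : Set ℂ} {T : (ℂ → ℝ) → ℝ} {P : Finset ℂ} (hD : IsOpen D)
    (hb : Bornology.IsBounded D) (hP : ∀ m ∈ P, m ∉ D) (hT : TF D T)
    {C : ℝ} (hC : ∀ z ∈ D, |T (rr z (rad D z))| ≤ C)
    (hfr : ∀ p ∈ frontier D, p ∉ P → ∀ ε > 0, ∃ η > 0, ∀ z ∈ D, dist z p < η →
      |T (rr z (rad D z))| ≤ ε) {f : ℂ → ℝ} (hf : IsTest D f) : T f = 0 := by
  have hmv := hT.mv hD hb
  obtain ⟨R0, hR0⟩ := hb.subset_closedBall 0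
  -- a common radius
  obtain ⟨R, hR1, hR⟩ : ∃ R : ℝ, 1 ≤ R ∧ ∀ m ∈ P, ∀ z ∈ D, ‖m - z‖ ≤ R := by
    refine ⟨max 1 ((∑ m ∈ P, ‖m‖) + |R0|), le_max_left _ _, fun m hm z hz => ?_⟩
    refine le_trans ?_ (le_max_right _ _)
    refine (norm_sub_le _ _).trans (add_le_add ?_ ?_)
    · exact Finset.single_le_sum (f := fun m : ℂ => ‖m‖) (fun _ _ => norm_nonneg _) hm
    · have := hR0 hz
      rw [mem_closedBall_zero_iff] at this
      exact this.trans (le_abs_self _)
  set b : ℂ → ℝ := fun z => ∑ m ∈ P, (Real.log R + (-1) * Real.log ‖m - z‖) with hbdef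
  have hbmv : MV D b := MV.sum hD P fun m hm =>
    MV.add hD (MV.const _) ((MV.log hD hb (hP m hm)).const_mul (-1))
  have hterm : ∀ m ∈ P, ∀ z ∈ D, 0 ≤ Real.log R + (-1) * Real.log ‖m - z‖ := by
    intro m hm z hz
    have h1 : 0 < ‖m - z‖ := by
      rw [norm_pos_iff, sub_ne_zero]; rintro rfl; exact hP m hm hz
    have := Real.log_le_log h1 (hR m hm z hz)
    linarith
  have hb0 : ∀ z ∈ D, 0 ≤ b z := fun z hz => Finset.sum_nonneg fun m hm => hterm m hm z hz
  have main : ∀ s : ℝ, (s = 1 ∨ s = -1) → ∀ z ∈ D, s * HT D T z ≤ 0 := by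
    intro s hs z hz
    have habs : ∀ x : ℝ, s * x ≤ |x| := fun x => by
      rcases hs with rfl | rfl
      · rw [one_mul]; exact le_abs_self x
      · rw [neg_one_mul]; exact neg_le_abs x
    have h1 : ∀ ε > 0, s * HT D T z ≤ ε * b z := by
      intro ε hε
      have hmv2 : MV D (fun z => s * HT D T z + (-ε) * b z) :=
        MV.add hD (hmv.const_mul s) (hbmv.const_mul (-ε))
      have h2 := hmv2.le_zero hD hb ?_ z hz
      · linarith
      intro p hp δ hδ
      by_cases hpP : p ∈ P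
      · -- near a mark
        have hlim : Tendsto (fun z => Real.log ‖p - z‖) (𝓝[≠] p) atBot := by
          have h3 : Tendsto (fun z => ‖p - z‖) (𝓝[≠] p) (𝓝[>] 0) := by
            rw [tendsto_nhdsWithin_iff]
            refine ⟨?_, ?_⟩
            · have : Continuous fun z => ‖p - z‖ := by fun_prop
              have h4 := this.tendsto p
              simp only [sub_self, norm_zero] at h4
              exact h4.mono_left nhdsWithin_le_nhds
            · filter_upwards [self_mem_nhdsWithin] with z hz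
              rw [mem_Ioi, norm_pos_iff, sub_ne_zero]
              exact fun h => hz (by rw [mem_singleton_iff]; exact h.symm)
          exact Real.tendsto_log_nhdsGT_zero.comp h3
        have h5 : ∀ᶠ z in 𝓝[≠] p, Real.log ‖p - z‖ ≤ Real.log R - C / ε :=
          hlim.eventually_le_atBot _
        rw [eventually_nhdsWithin_iff, Metric.eventually_nhds_iff] at h5
        obtain ⟨η, hη, h6⟩ := h5
        refine ⟨η, hη, fun w hw hwp => ?_⟩
        have hwne : w ≠ p := by rintro rfl; exact hP _ hpP hw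
        have h7 := h6 hwp hwne
        have h8 : C / ε ≤ b w := by
          have h9 : Real.log R + (-1) * Real.log ‖p - w‖ ≤ b w :=
            Finset.single_le_sum (f := fun m => Real.log R + (-1) * Real.log ‖m - w‖)
              (fun m hm => hterm m hm w hw) hpP
          linarith
        have h10 : C ≤ ε * b w := by
          rw [div_le_iff₀ hε] at h8; linarith
        have h11 : s * HT D T w ≤ C := (habs _).trans (hC w hw)
        linarith
      · obtain ⟨η, hη, h3⟩ := hfr p hp hpP δ hδ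
        refine ⟨η, hη, fun w hw hwp => ?_⟩
        have h4 := (habs _).trans (h3 w hw hwp)
        have h5 : 0 ≤ ε * b w := mul_nonneg hε.le (hb0 w hw)
        have h6 : s * HT D T w ≤ δ := h4
        linarith
    by_contra hcon
    rw [not_le] at hcon
    have h2 := h1 (s * HT D T z / (2 * (b z + 1)))
      (div_pos hcon (by linarith [hb0 z hz]))
    have h3 : s * HT D T z / (2 * (b z + 1)) * b z ≤ s * HT D T z / 2 := by
      have h4 : 0 < b z + 1 := by linarith [hb0 z hz]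
      rw [div_mul_eq_mul_div, div_le_div_iff₀ (by linarith) (by norm_num)]
      nlinarith [hb0 z hz]
    linarith
  have hzero : ∀ z ∈ D, HT D T z = 0 := by
    intro z hz
    have h1 := main 1 (Or.inl rfl) z hz
    have h2 := main (-1) (Or.inr rfl) z hz
    linarith
  rw [hT.repr hD hb hf]
  rw [integral_eq_zero_of_ae]
  refine Eventually.of_forall fun z => ?_
  simp only [Pi.zero_apply]
  by_cases hz : z ∈ D
  · rw [hzero z hz, mul_zero]
  · rw [hf.eq_zero hz, zero_mul]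

end

end Crest.Agent.R144.End938
end

-- ▼ part R144/EndC_938
section

/-!
# R144, harmonic remainder, part C (helper938): convergence of the covariances
-/

set_option autoImplicit false

open MeasureTheory Metric Set Filter Topology Laplacian InnerProductSpace
open scoped ComplexConjugate ContDiff

namespace Crest.Agent.R144.End938

open Crest.Agent.R144.Con549 Crest.Agent.R161.Green722
open Crest.ProbabilityR.HexHeights (domainGreenForm)

noncomputable section

/-! ### symmetric bilinear forms on test functions -/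

/-- symmetric bilinear form on tests -/
structure SB (D : Set ℂ) (Q : (ℂ → ℝ) → (ℂ → ℝ) → ℝ) : Prop where
  symm : ∀ f g, IsTest D f → IsTest D g → Q f g = Q g f
  add : ∀ f1 f2 g, IsTest D f1 → IsTest D f2 → IsTest D g →
    Q (fun z => f1 z + f2 z) g = Q f1 g + Q f2 g
  smul : ∀ (c : ℝ) f g, IsTest D f → IsTest D g → Q (fun z => c * f z) g = c * Q f g

namespace SB

variable {D : Set ℂ} {Q : (ℂ → ℝ) → (ℂ → ℝ) → ℝ}

theorem add_right (h : SB D Q) {g f1 f2 : ℂ → ℝ} (hg : IsTest D g) (h1 : IsTest D f1)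
    (h2 : IsTest D f2) : Q g (fun z => f1 z + f2 z) = Q g f1 + Q g f2 := by
  rw [h.symm g _ hg (h1.add h2), h.add _ _ _ h1 h2 hg, h.symm f1 g h1 hg, h.symm f2 g h2 hg]

theorem smul_right (h : SB D Q) (c : ℝ) {g f : ℂ → ℝ} (hg : IsTest D g) (hf : IsTest D f) :
    Q g (fun z => c * f z) = c * Q g f := by
  rw [h.symm g _ hg (hf.const_mul c), h.smul c f g hf hg, h.symm f g hf hg]

theorem quad (h : SB D Q) {f g : ℂ → ℝ} (hf : IsTest D f) (hg : IsTest D g) (t : ℝ) :
    Q (fun z => f z + t * g z) (fun z => f z + t * g z) =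
      Q f f + 2 * t * Q f g + t ^ 2 * Q g g := by
  have htg := hg.const_mul t
  rw [h.add _ _ _ hf htg (hf.add htg), h.add_right hf hf htg, h.add_right htg hf htg,
    h.smul_right t hf hg, h.smul t g f hg hf, h.smul t g _ hg htg, h.smul_right t hg hg,
    h.symm g f hg hf]
  ring

theorem cs (h : SB D Q) (hn : ∀ f, IsTest D f → 0 ≤ Q f f) {f g : ℂ → ℝ} (hf : IsTest D f)
    (hg : IsTest D g) : Q f g ^ 2 ≤ Q f f * Q g g := by
  have h1 : ∀ t : ℝ, 0 ≤ Q g g * (t * t) + 2 * Q f g * t + Q f f := by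
    intro t
    have h2 := hn _ (hf.add (hg.const_mul t))
    rw [h.quad hf hg t] at h2
    nlinarith
  have h2 := discrim_le_zero h1
  unfold discrim at h2
  nlinarith

end SB

theorem abs_le_sqrt {x a b A B M : ℝ} (h : x ^ 2 ≤ a * b) (ha : 0 ≤ a) (hb : 0 ≤ b)
    (hA : a ≤ A * M ^ 2) (hB : b ≤ B) (hA0 : 0 ≤ A) (hM : 0 ≤ M) :
    |x| ≤ Real.sqrt (A * B) * M := by
  have hB0 : 0 ≤ B := hb.trans hB
  refine abs_le_of_sq_le_sq ?_ (by positivity)
  rw [mul_pow, Real.sq_sqrt (by positivity)]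
  calc x ^ 2 ≤ a * b := h
    _ ≤ (A * M ^ 2) * B := mul_le_mul hA hB hb (by positivity)
    _ = A * B * M ^ 2 := by ring

theorem lap_add_test {U : Set ℂ} {u v : ℂ → ℝ} (hu : IsTest U u) (hv : IsTest U v) :
    (Δ (fun z => u z + v z)) = fun z => (Δ u) z + (Δ v) z := by
  funext z
  exact ContDiffAt.laplacian_add (hu.smooth.of_le (by norm_cast)).contDiffAt
    (hv.smooth.of_le (by norm_cast)).contDiffAt

/-! ### the Green form of bumps -/

section green

variable {D : Set ℂ} {φ ψ : ℂ → ℂ}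

theorem sb_DG (B : Bih D (ball 0 1) φ ψ) : SB D (DG φ) :=
  ⟨fun _ _ hf hg => DG_symm B hf hg, fun _ _ _ h1 h2 hg => DG_add_left B h1 h2 hg,
    fun c f g _ _ => DG_const_mul_left φ c f g⟩

theorem dg_bump (B : Bih D (ball 0 1) φ ψ) (hb : Bornology.IsBounded D)
    {g : ℂ → ℝ} (hg : IsTest D g) : ∃ L, 0 ≤ L ∧ ∀ z ∈ D, ∀ t, 0 ≤ t →
      (∀ v ∈ closedBall z (rad D z), 1 - ‖φ v‖ ≤ t) → |DG φ (rr z (rad D z)) g| ≤ L * t := by
  have hD := B.oU
  have hG := isTest_td B.symm hg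
  obtain ⟨r, hr, hr1, hT⟩ := isTest_Tst hG
  obtain ⟨L, hL0, -, hL⟩ := exists_lip one_pos hr hr1 hT hG.smooth hG.comp
  refine ⟨L, hL0, fun z hz t ht hv => ?_⟩
  have hrad := rad_pos hD hb hz
  have htest := isTest_rr hrad (ball_rad hD hb hz)
  set F := td (ball 0 1) ψ (rr z (rad D z)) with hF
  have hFt : IsTest (ball (0 : ℂ) 1) F := isTest_td B.symm htest
  have hF0 : ∀ w, 0 ≤ F w := by
    intro w
    by_cases hw : w ∈ ball (0 : ℂ) 1
    · rw [hF, td_mem hw]; exact mul_nonneg (rr_nonneg _ _ _) (by positivity)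
    · rw [hF, td_not hw]
  have hF1 : ∫ w, F w = 1 := by
    rw [hF, integral_td B.symm _ (fun w hw => htest.eq_zero hw), integral_rr hrad]
  have hFi : Integrable F := hFt.smooth.continuous.integrable_of_hasCompactSupport hFt.comp
  rw [DG_eq B htest hg, Gf_eq_U, ← Real.norm_eq_abs]
  have e : ∫ w, (L * t) * F w = L * t := by rw [integral_const_mul, hF1, mul_one]
  rw [← e]
  refine norm_integral_le_of_norm_le (hFi.const_mul _) (Eventually.of_forall fun w => ?_)
  rw [norm_mul, Real.norm_of_nonneg (hF0 w), mul_comm]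
  by_cases hw : w ∈ ball (0 : ℂ) 1
  · by_cases hin : ψ w ∈ closedBall z (rad D z)
    · refine mul_le_mul_of_nonneg_right ?_ (hF0 w)
      have hw1 : ‖w‖ ≤ 1 := (mem_ball_zero_iff.1 hw).le
      rw [U_eq_Ue one_pos hr hr1 hT hw1, Real.norm_eq_abs]
      refine (hL w hw1).trans (mul_le_mul_of_nonneg_left ?_ hL0)
      have := hv _ hin
      rwa [B.hg w hw] at this
    · have : F w = 0 := by
        rw [hF, td_mem hw, rr_zero hrad, zero_mul]
        rw [mem_closedBall, not_le] at hin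
        exact hin.le
      rw [this]; simp
  · have : F w = 0 := by rw [hF, td_not hw]
    rw [this]; simp

theorem rad_le (hD : IsOpen D) {z p : ℂ} (hp : p ∈ frontier D) :
    rad D z ≤ dist z p / 2 := by
  have hpD : p ∈ Dᶜ := fun h => by
    rw [frontier, hD.interior_eq] at hp
    exact hp.2 h
  have := infDist_le_dist_of_mem (x := z) hpD
  unfold rad
  linarith

/-- the Green pairing with small bumps vanishes at the boundary -/
theorem dg_bdry (B : Bih D (ball 0 1) φ ψ) (hb : Bornology.IsBounded D)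
    {g : ℂ → ℝ} (hg : IsTest D g) {p : ℂ} (hp : p ∈ frontier D) {ε : ℝ} (hε : 0 < ε) :
    ∃ η > 0, ∀ z ∈ D, dist z p < η → |DG φ (rr z (rad D z)) g| ≤ ε := by
  have hD := B.oU
  obtain ⟨L, hL0, hL⟩ := dg_bump B hb hg
  set t := ε / (L + 1) with ht
  have htp : 0 < t := by positivity
  set K : Set ℂ := ψ '' closedBall (0 : ℂ) (1 - t) with hK
  have hsub : closedBall (0 : ℂ) (1 - t) ⊆ ball 0 1 := closedBall_subset_ball (by linarith)
  have hKc : IsCompact K := (isCompact_closedBall _ _).image_of_continuousOn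
    (B.dg.continuousOn.mono hsub)
  have hpD : p ∉ D := fun h => by
    rw [frontier, hD.interior_eq] at hp
    exact hp.2 h
  have hpK : p ∉ K := by
    rintro ⟨w, hw, rfl⟩
    exact hpD (B.mg w (hsub hw))
  obtain ⟨η, hη, hdisj⟩ := nhds_basis_ball.mem_iff.1 (hKc.isClosed.isOpen_compl.mem_nhds hpK)
  refine ⟨η / 2, half_pos hη, fun z hz hzp => ?_⟩
  have h1 := hL z hz t htp.le fun v hv => ?_
  · refine h1.trans ?_
    rw [ht, mul_div_assoc', div_le_iff₀ (by linarith)]
    nlinarith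
  · have hvD : v ∈ D := ball_rad hD hb hz hv
    have hvp : dist v p < η := by
      have h2 := rad_le hD (z := z) hp
      have h3 := dist_triangle v z p
      have h4 := mem_closedBall.1 hv
      linarith
    have hvK : v ∉ K := hdisj hvp
    by_contra hcon
    rw [not_le] at hcon
    refine hvK ⟨φ v, ?_, B.gh v hvD⟩
    rw [mem_closedBall_zero_iff]
    linarith

end green

/-! ### the data -/

/-- data of the harmonic remainder theorem -/
structure EndData (D : Set ℂ) (P : Finset ℂ) (kap : ℝ) (Q : ℕ → (ℂ → ℝ) → (ℂ → ℝ) → ℝ) :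
    Prop where
  symm : ∀ n f g, IsTest D f → IsTest D g → Q n f g = Q n g f
  add : ∀ n f1 f2 g, IsTest D f1 → IsTest D f2 → IsTest D g →
    Q n (fun z => f1 z + f2 z) g = Q n f1 g + Q n f2 g
  smul : ∀ n (c : ℝ) f g, IsTest D f → IsTest D g → Q n (fun z => c * f z) g = c * Q n f g
  nonneg : ∀ n f, IsTest D f → 0 ≤ Q n f f
  p1 : ∀ u, IsTest D u → Tendsto (fun n => Q n (Δ u) (Δ u)) atTop
    (𝓝 (kap * ∫ z, ‖fderiv ℝ u z‖ ^ 2))
  bd : ∀ K, IsCompact K → K ⊆ D → ∃ C : ℝ, ∀ f, IsTest D f → tsupport f ⊆ K →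
    ∀ M, (∀ z, |f z| ≤ M) → ∀ᶠ n in atTop, Q n f f ≤ C * M ^ 2
  c1 : ∃ C : ℝ, ∀ z ∈ D, ∀ᶠ n in atTop, Q n (rr z (rad D z)) (rr z (rad D z)) ≤ C
  c2 : ∀ g, IsTest D g → ∀ p ∈ frontier D, p ∉ P → ∀ ε > 0, ∃ η > 0, ∀ z ∈ D, dist z p < η →
    ∀ᶠ n in atTop, |Q n (rr z (rad D z)) g| ≤ ε

namespace EndData

variable {D : Set ℂ} {P : Finset ℂ} {kap : ℝ} {Q : ℕ → (ℂ → ℝ) → (ℂ → ℝ) → ℝ}

theorem sb (H : EndData D P kap Q) (n : ℕ) : SB D (Q n) := ⟨H.symm n, H.add n, H.smul n⟩

theorem diag_bdd (H : EndData D P kap Q) {f : ℂ → ℝ} (hf : IsTest D f) :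
    ∃ A : ℝ, 0 ≤ A ∧ ∀ᶠ n in atTop, Q n f f ≤ A := by
  obtain ⟨C, hC⟩ := H.bd (tsupport f) hf.comp hf.supp
  obtain ⟨M, hM⟩ := hf.smooth.continuous.bounded_above_of_compact_support hf.comp
  refine ⟨max (C * M ^ 2) 0, le_max_right _ _, ?_⟩
  filter_upwards [hC f hf le_rfl M hM] with n hn
  exact hn.trans (le_max_left _ _)

/-- limit form along an ultrafilter -/
def QI (𝒰 : Ultrafilter ℕ) (Q : ℕ → (ℂ → ℝ) → (ℂ → ℝ) → ℝ) (f g : ℂ → ℝ) : ℝ :=
  limUnder (𝒰 : Filter ℕ) fun n => Q n f g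

theorem tendsto_QI (H : EndData D P kap Q) {𝒰 : Ultrafilter ℕ} (hU : (𝒰 : Filter ℕ) ≤ atTop)
    {f g : ℂ → ℝ} (hf : IsTest D f) (hg : IsTest D g) :
    Tendsto (fun n => Q n f g) (𝒰 : Filter ℕ) (𝓝 (QI 𝒰 Q f g)) := by
  obtain ⟨A, hA0, hA⟩ := H.diag_bdd hf
  obtain ⟨B, hB0, hB⟩ := H.diag_bdd hg
  have h1 : ∀ᶠ n in (𝒰 : Filter ℕ), Q n f g ∈ Icc (-(A + B)) (A + B) := by
    filter_upwards [hU hA, hU hB] with n h1 h2
    have h3 := (H.sb n).cs (H.nonneg n) hf hg
    have h4 := H.nonneg n f hf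
    have h5 := H.nonneg n g hg
    rw [mem_Icc, ← abs_le]
    refine abs_le_of_sq_le_sq ?_ (by linarith)
    nlinarith [mul_le_mul h1 h2 h5 hA0, mul_nonneg hA0 hB0]
  obtain ⟨x, -, hx⟩ := (isCompact_Icc (a := -(A + B)) (b := A + B)).ultrafilter_le_nhds
    (𝒰.map fun n => Q n f g) (by
      rw [le_principal_iff, Ultrafilter.coe_map]
      exact h1)
  rw [Ultrafilter.coe_map] at hx
  exact tendsto_nhds_limUnder ⟨x, hx⟩

theorem sb_QI (H : EndData D P kap Q) {𝒰 : Ultrafilter ℕ} (hU : (𝒰 : Filter ℕ) ≤ atTop) :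
    SB D (QI 𝒰 Q) := by
  refine ⟨fun f g hf hg => ?_, fun f1 f2 g h1 h2 hg => ?_, fun c f g hf hg => ?_⟩
  · refine tendsto_nhds_unique (H.tendsto_QI hU hf hg) ((H.tendsto_QI hU hg hf).congr fun n => ?_)
    exact H.symm n g f hg hf
  · refine tendsto_nhds_unique (H.tendsto_QI hU (h1.add h2) hg)
      (((H.tendsto_QI hU h1 hg).add (H.tendsto_QI hU h2 hg)).congr fun n => ?_)
    exact (H.add n f1 f2 g h1 h2 hg).symm
  · refine tendsto_nhds_unique (H.tendsto_QI hU (hf.const_mul c) hg)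
      (((H.tendsto_QI hU hf hg).const_mul c).congr fun n => ?_)
    exact (H.smul n c f g hf hg).symm

theorem QI_nonneg (H : EndData D P kap Q) {𝒰 : Ultrafilter ℕ} (hU : (𝒰 : Filter ℕ) ≤ atTop)
    {f : ℂ → ℝ} (hf : IsTest D f) : 0 ≤ QI 𝒰 Q f f :=
  ge_of_tendsto (H.tendsto_QI hU hf hf) (Eventually.of_forall fun n => H.nonneg n f hf)

theorem QI_le (H : EndData D P kap Q) {𝒰 : Ultrafilter ℕ} (hU : (𝒰 : Filter ℕ) ≤ atTop)
    {f : ℂ → ℝ} (hf : IsTest D f) {A : ℝ} (hA : ∀ᶠ n in atTop, Q n f f ≤ A) :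
    QI 𝒰 Q f f ≤ A :=
  le_of_tendsto (H.tendsto_QI hU hf hf) (hU hA)

theorem QI_lap (H : EndData D P kap Q) {𝒰 : Ultrafilter ℕ} (hU : (𝒰 : Filter ℕ) ≤ atTop)
    {u : ℂ → ℝ} (hu : IsTest D u) :
    QI 𝒰 Q (Δ u) (Δ u) = kap * ∫ z, ‖fderiv ℝ u z‖ ^ 2 :=
  tendsto_nhds_unique (H.tendsto_QI hU hu.lap hu.lap) ((H.p1 u hu).mono_left hU)

/-- the difference -/
def R (𝒰 : Ultrafilter ℕ) (Q : ℕ → (ℂ → ℝ) → (ℂ → ℝ) → ℝ) (kap : ℝ) (φ : ℂ → ℂ)
    (f g : ℂ → ℝ) : ℝ := QI 𝒰 Q f g - kap * DG φ f g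

theorem sb_R (H : EndData D P kap Q) {φ ψ : ℂ → ℂ} (B : Bih D (ball 0 1) φ ψ)
    {𝒰 : Ultrafilter ℕ} (hU : (𝒰 : Filter ℕ) ≤ atTop) : SB D (R 𝒰 Q kap φ) := by
  have h1 := H.sb_QI hU
  have h2 := sb_DG B
  refine ⟨fun f g hf hg => ?_, fun f1 f2 g hf1 hf2 hg => ?_, fun c f g hf hg => ?_⟩
  · unfold R; rw [h1.symm f g hf hg, h2.symm f g hf hg]
  · unfold R; rw [h1.add f1 f2 g hf1 hf2 hg, h2.add f1 f2 g hf1 hf2 hg]; ring
  · unfold R; rw [h1.smul c f g hf hg, h2.smul c f g hf hg]; ring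

theorem DG_lap_lap {φ ψ : ℂ → ℂ} (B : Bih D (ball 0 1) φ ψ) {u : ℂ → ℝ} (hu : IsTest D u) :
    DG φ (Δ u) (Δ u) = ∫ z, ‖fderiv ℝ u z‖ ^ 2 := by
  rw [← greenForm_neg_lap B hu, ← DG_self]
  have e : (fun z => -(Δ u) z) = fun z => (-1) * (Δ u) z := by funext z; ring
  rw [e, DG_const_mul_left, DG_const_mul_right]
  ring

theorem R_lap_lap (H : EndData D P kap Q) {φ ψ : ℂ → ℂ} (B : Bih D (ball 0 1) φ ψ)
    {𝒰 : Ultrafilter ℕ} (hU : (𝒰 : Filter ℕ) ≤ atTop) {u v : ℂ → ℝ} (hu : IsTest D u)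
    (hv : IsTest D v) : R 𝒰 Q kap φ (Δ u) (Δ v) = 0 := by
  have hdiag : ∀ u, IsTest D u → R 𝒰 Q kap φ (Δ u) (Δ u) = 0 := by
    intro u hu
    unfold R
    rw [H.QI_lap hU hu, DG_lap_lap B hu, sub_self]
  have h1 := (H.sb_R B hU).quad hu.lap hv.lap 1
  simp only [one_mul] at h1
  rw [← lap_add_test hu hv, hdiag _ (hu.add hv), hdiag u hu, hdiag v hv] at h1
  linarith

theorem tf_R (H : EndData D P kap Q) (hb : Bornology.IsBounded D) {φ ψ : ℂ → ℂ}
    (B : Bih D (ball 0 1) φ ψ) {𝒰 : Ultrafilter ℕ} (hU : (𝒰 : Filter ℕ) ≤ atTop) {g : ℂ → ℝ}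
    (hg : IsTest D g) (hlap : ∀ u, IsTest D u → R 𝒰 Q kap φ (Δ u) g = 0) :
    TF D (fun f => R 𝒰 Q kap φ f g) := by
  have hsb := H.sb_R B hU
  refine ⟨fun f1 f2 h1 h2 => hsb.add f1 f2 g h1 h2 hg, fun c f hf => hsb.smul c f g hf hg, hlap,
    fun K hK hKD => ?_⟩
  obtain ⟨R0, hR0⟩ := hb.subset_ball 0
  have hR1 : D ⊆ ball 0 (max R0 1) := hR0.trans (ball_subset_ball (le_max_left _ _))
  have hRp : 0 < max R0 1 := lt_max_of_lt_right one_pos
  obtain ⟨C1, hC1⟩ := H.bd K hK hKD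
  obtain ⟨A, hA0, hA⟩ := H.diag_bdd hg
  set C2 := 4 * (max R0 1) ^ 2 * (volume K).toReal with hC2
  have hC20 : 0 ≤ C2 := by positivity
  refine ⟨Real.sqrt (max C1 0 * A) + |kap| * Real.sqrt (C2 * DG φ g g), by positivity,
    fun f hf hfK M hM => ?_⟩
  have hM0 : 0 ≤ M := (abs_nonneg _).trans (hM 0)
  have h1 : |QI 𝒰 Q f g| ≤ Real.sqrt (max C1 0 * A) * M := by
    refine abs_le_sqrt ((H.sb_QI hU).cs (fun f hf => H.QI_nonneg hU hf) hf hg)
      (H.QI_nonneg hU hf) (H.QI_nonneg hU hg) ?_ (H.QI_le hU hg hA) (le_max_right _ _) hM0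
    refine (H.QI_le hU hf (hC1 f hf hfK M hM)).trans ?_
    exact mul_le_mul_of_nonneg_right (le_max_left _ _) (sq_nonneg _)
  have h2 : |DG φ f g| ≤ Real.sqrt (C2 * DG φ g g) * M := by
    refine abs_le_sqrt (DG_cs B hf hg) (DG_nonneg B hf) (DG_nonneg B hg) ?_ le_rfl hC20 hM0
    rw [DG_self]
    refine (ConP938.DG_le_L2 B hRp hR1 hf).trans ?_
    rw [hC2, mul_assoc (4 * (max R0 1) ^ 2)]
    refine mul_le_mul_of_nonneg_left ?_ (by positivity)
    have e : ∫ z, f z ^ 2 = ∫ z in K, f z ^ 2 := by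
      symm
      refine setIntegral_eq_integral_of_forall_compl_eq_zero fun w hw => ?_
      have : f w = 0 := image_eq_zero_of_notMem_tsupport fun h => hw (hfK h)
      rw [this]; simp
    rw [e]
    have h3 : ‖∫ z in K, f z ^ 2‖ ≤ M ^ 2 * (volume K).toReal := by
      refine norm_setIntegral_le_of_norm_le_const hK.measure_lt_top fun w _ => ?_
      rw [norm_pow, Real.norm_eq_abs]
      exact pow_le_pow_left₀ (abs_nonneg _) (hM w) 2
    rw [mul_comm (volume K).toReal]
    exact (le_abs_self _).trans h3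
  show |QI 𝒰 Q f g - kap * DG φ f g| ≤ _
  calc |QI 𝒰 Q f g - kap * DG φ f g| ≤ |QI 𝒰 Q f g| + |kap * DG φ f g| := abs_sub _ _
    _ ≤ Real.sqrt (max C1 0 * A) * M + |kap| * (Real.sqrt (C2 * DG φ g g) * M) := by
      rw [abs_mul]
      exact add_le_add h1 (mul_le_mul_of_nonneg_left h2 (abs_nonneg _))
    _ = _ := by ring

theorem R_zero (H : EndData D P kap Q) (hb : Bornology.IsBounded D) (hP : ∀ m ∈ P, m ∉ D)
    {φ ψ : ℂ → ℂ} (B : Bih D (ball 0 1) φ ψ) {𝒰 : Ultrafilter ℕ}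
    (hU : (𝒰 : Filter ℕ) ≤ atTop) {g : ℂ → ℝ}
    (hg : IsTest D g) (hlap : ∀ u, IsTest D u → R 𝒰 Q kap φ (Δ u) g = 0) {f : ℂ → ℝ}
    (hf : IsTest D f) : R 𝒰 Q kap φ f g = 0 := by
  have hD := B.oU
  have hT := H.tf_R hb B hU hg hlap
  obtain ⟨C, hC⟩ := H.c1
  obtain ⟨A, hA0, hA⟩ := H.diag_bdd hg
  obtain ⟨L, hL0, hL⟩ := dg_bump B hb hg
  refine hT.eq_zero (P := P) hD hb hP (C := Real.sqrt (max C 0 * A) * 1 + |kap| * (L * 1))
    (fun z hz => ?_) (fun p hp hpP ε hε => ?_) hf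
  · have htest := isTest_rr (rad_pos hD hb hz) (ball_rad hD hb hz)
    have h1 : |QI 𝒰 Q (rr z (rad D z)) g| ≤ Real.sqrt (max C 0 * A) * 1 := by
      refine abs_le_sqrt ((H.sb_QI hU).cs (fun f hf => H.QI_nonneg hU hf) htest hg)
        (H.QI_nonneg hU htest) (H.QI_nonneg hU hg) ?_ (H.QI_le hU hg hA) (le_max_right _ _)
        zero_le_one
      refine (H.QI_le hU htest (hC z hz)).trans ?_
      rw [one_pow, mul_one]
      exact le_max_left _ _
    have h2 := hL z hz 1 zero_le_one fun v hv => by linarith [norm_nonneg (φ v)]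
    show |QI 𝒰 Q (rr z (rad D z)) g - kap * DG φ (rr z (rad D z)) g| ≤ _
    refine (abs_sub _ _).trans (add_le_add h1 ?_)
    rw [abs_mul]
    exact mul_le_mul_of_nonneg_left h2 (abs_nonneg _)
  · obtain ⟨η1, hη1, h1⟩ := H.c2 g hg p hp hpP (ε / 2) (half_pos hε)
    obtain ⟨η2, hη2, h2⟩ := dg_bdry B hb hg hp (ε := ε / (2 * (|kap| + 1))) (by positivity)
    refine ⟨min η1 η2, lt_min hη1 hη2, fun z hz hzp => ?_⟩
    have htest := isTest_rr (rad_pos hD hb hz) (ball_rad hD hb hz)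
    have h3 : |QI 𝒰 Q (rr z (rad D z)) g| ≤ ε / 2 :=
      le_of_tendsto (H.tendsto_QI hU htest hg).abs
        (hU (h1 z hz (hzp.trans_le (min_le_left _ _))))
    have h4 := h2 z hz (hzp.trans_le (min_le_right _ _))
    show |QI 𝒰 Q (rr z (rad D z)) g - kap * DG φ (rr z (rad D z)) g| ≤ _
    refine (abs_sub _ _).trans ?_
    rw [abs_mul]
    have h5 : |kap| * |DG φ (rr z (rad D z)) g| ≤ ε / 2 := by
      calc |kap| * |DG φ (rr z (rad D z)) g| ≤ |kap| * (ε / (2 * (|kap| + 1))) :=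
            mul_le_mul_of_nonneg_left h4 (abs_nonneg _)
        _ = (|kap| / (|kap| + 1)) * (ε / 2) := by field_simp
        _ ≤ 1 * (ε / 2) := by
          refine mul_le_mul_of_nonneg_right ?_ (by linarith)
          rw [div_le_one (by positivity)]
          linarith
        _ = ε / 2 := one_mul _
    linarith

/-- **Convergence of the covariances** (bilinear form). -/
theorem end_bil (H : EndData D P kap Q) (hb : Bornology.IsBounded D) (hP : ∀ m ∈ P, m ∉ D)
    {φ ψ : ℂ → ℂ} (B : Bih D (ball 0 1) φ ψ) {f g : ℂ → ℝ} (hf : IsTest D f)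
    (hg : IsTest D g) : Tendsto (fun n => Q n f g) atTop (𝓝 (kap * DG φ f g)) := by
  rw [tendsto_iff_ultrafilter]
  intro 𝒰 hU
  have h1 : ∀ v, IsTest D v → ∀ f, IsTest D f → R 𝒰 Q kap φ f (Δ v) = 0 := fun v hv f hf =>
    H.R_zero hb hP B hU hv.lap (fun u hu => H.R_lap_lap B hU hu hv) hf
  have h2 : R 𝒰 Q kap φ f g = 0 := by
    refine H.R_zero hb hP B hU hg (fun u hu => ?_) hf
    rw [(H.sb_R B hU).symm _ _ hu.lap hg]
    exact h1 u hu g hg
  have h3 : QI 𝒰 Q f g = kap * DG φ f g := by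
    unfold R at h2; linarith
  rw [← h3]
  exact H.tendsto_QI hU hf hg

end EndData

/-- **Convergence of the variances.** -/
theorem end_var {D : Set ℂ} {P : Finset ℂ} {kap : ℝ} {Q : ℕ → (ℂ → ℝ) → (ℂ → ℝ) → ℝ}
    (H : EndData D P kap Q) (hb : Bornology.IsBounded D) (hP : ∀ m ∈ P, m ∉ D)
    {φ ψ : ℂ → ℂ} (B : Bih D (ball 0 1) φ ψ) {f : ℂ → ℝ} (hf : IsTest D f) :
    Tendsto (fun n => Q n f f) atTop (𝓝 (kap * domainGreenForm φ f)) := by
  have := H.end_bil hb hP B hf hf
  rwa [DG_self] at this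

end

end Crest.Agent.R144.End938
end

-- ▼ part R144/EndD_938
section

/-!
# R144, harmonic remainder, part D (helper938): convergence of the characteristic functions
-/

set_option autoImplicit false

open MeasureTheory Metric Set Filter Topology Laplacian InnerProductSpace ProbabilityTheory
open scoped ComplexConjugate ContDiff ENNReal

namespace Crest.Agent.R144.End938

open Crest.Agent.R144.Con549 Crest.Agent.R161.Green722
open Crest.ProbabilityR.HexHeights (domainGreenForm)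

noncomputable section

theorem tendsto_approx {a : ℕ → ℂ} {c : ℂ} (h : ∀ ε > 0, ∃ (b : ℕ → ℂ) (c' : ℂ),
    Tendsto b atTop (𝓝 c') ∧ ‖c' - c‖ ≤ ε ∧ ∀ᶠ n in atTop, ‖a n - b n‖ ≤ ε) :
    Tendsto a atTop (𝓝 c) := by
  rw [Metric.tendsto_atTop']
  intro ε hε
  obtain ⟨b, c', hb, hc, hab⟩ := h (ε / 4) (by positivity)
  have h1 : ∀ᶠ n in atTop, dist (b n) c' < ε / 4 := Metric.tendsto_nhds.1 hb _ (by positivity)
  obtain ⟨N, hN⟩ := eventually_atTop.1 (hab.and h1)
  refine ⟨N, fun n hn => ?_⟩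
  obtain ⟨h2, h3⟩ := hN n hn.le
  rw [dist_eq_norm] at h3 ⊢
  have e : a n - c = (a n - b n) + (b n - c') + (c' - c) := by ring
  rw [e]
  calc ‖(a n - b n) + (b n - c') + (c' - c)‖ ≤ ‖a n - b n‖ + ‖b n - c'‖ + ‖c' - c‖ :=
        (norm_add_le _ _).trans (add_le_add (norm_add_le _ _) le_rfl)
    _ < ε := by linarith

theorem norm_exp_sub_le (a b : ℝ) :
    ‖Complex.exp (Complex.I * (a : ℝ)) - Complex.exp (Complex.I * (b : ℝ))‖ ≤ |a - b| := by
  have h1 : Complex.exp (Complex.I * (a : ℝ)) - Complex.exp (Complex.I * (b : ℝ)) =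
      Complex.exp (Complex.I * (b : ℝ)) * (Complex.exp (Complex.I * ((a - b : ℝ) : ℂ)) - 1) := by
    rw [mul_sub, ← Complex.exp_add, mul_one]
    congr 2
    push_cast
    ring
  rw [h1, norm_mul, Complex.norm_exp_I_mul_ofReal, one_mul]
  exact Real.norm_exp_I_mul_ofReal_sub_one_le

/-- characteristic functions of close variables -/
theorem char_sub_le {Ω : Type*} [MeasurableSpace Ω] {μ : Measure Ω} [IsProbabilityMeasure μ]
    {A B C : Ω → ℝ} (hA : MemLp A 2 μ) (hB : MemLp B 2 μ) (hC : MemLp C 2 μ)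
    (h : A =ᵐ[μ] fun o => B o + C o) (t : ℝ) :
    ‖(∫ o, Complex.exp (Complex.I * (t * A o : ℝ)) ∂μ) -
      ∫ o, Complex.exp (Complex.I * (t * B o : ℝ)) ∂μ‖ ≤
      |t| * Real.sqrt (∫ o, C o * C o ∂μ) := by
  have hint : ∀ V : Ω → ℝ, MemLp V 2 μ →
      Integrable (fun o => Complex.exp (Complex.I * (t * V o : ℝ))) μ := by
    intro V hV
    refine Integrable.of_bound (C := 1) ?_ (Eventually.of_forall fun o => ?_)
    · have h1 : Continuous fun x : ℝ => Complex.exp (Complex.I * (t * x : ℝ)) := by fun_prop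
      exact h1.comp_aestronglyMeasurable hV.aestronglyMeasurable
    · rw [Complex.norm_exp_I_mul_ofReal]
  rw [← integral_sub (hint A hA) (hint B hB)]
  have hCi : Integrable C μ := hC.integrable (by norm_num)
  have h1 : ‖∫ o, (Complex.exp (Complex.I * (t * A o : ℝ)) -
      Complex.exp (Complex.I * (t * B o : ℝ))) ∂μ‖ ≤ ∫ o, |t| * |C o| ∂μ := by
    refine norm_integral_le_of_norm_le (hCi.abs.const_mul _) ?_
    filter_upwards [h] with o ho
    refine (norm_exp_sub_le _ _).trans (le_of_eq ?_)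
    rw [ho, ← abs_mul]
    congr 1
    ring
  refine h1.trans ?_
  rw [integral_const_mul]
  refine mul_le_mul_of_nonneg_left ?_ (abs_nonneg t)
  have hCC : Integrable (fun o => C o * C o) μ := by
    have := hC.integrable_sq
    refine this.congr (Eventually.of_forall fun o => ?_)
    simp only
    ring
  refine Real.le_sqrt_of_sq_le ?_
  set m := ∫ o, |C o| ∂μ with hm
  have h2 : 0 ≤ ∫ o, (|C o| - m) ^ 2 ∂μ := integral_nonneg fun o => sq_nonneg _
  have h3 : ∫ o, (|C o| - m) ^ 2 ∂μ = (∫ o, C o * C o ∂μ) - m ^ 2 := by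
    have e : (fun o => (|C o| - m) ^ 2) = fun o => (C o * C o - 2 * m * |C o|) + m ^ 2 := by
      funext o
      have := abs_mul_abs_self (C o)
      linear_combination this
    have i1 : Integrable (fun o => 2 * m * |C o|) μ := hCi.abs.const_mul _
    have i2 : Integrable (fun o => C o * C o - 2 * m * |C o|) μ := hCC.sub i1
    rw [e, integral_add i2 (integrable_const _), integral_sub hCC i1,
      integral_const_mul, integral_const]
    simp only [probReal_univ, one_smul]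
    ring
  linarith

/-- **End (harmonic remainder), probabilistic form.** -/
theorem end_char {D : Set ℂ} {P : Finset ℂ} {kap : ℝ} (hb : Bornology.IsBounded D)
    (hP : ∀ m ∈ P, m ∉ D) {φ ψ : ℂ → ℂ} (B : Bih D (ball 0 1) φ ψ)
    {Ω : ℕ → Type*} [∀ n, MeasurableSpace (Ω n)] (μ : ∀ n, Measure (Ω n))
    [∀ n, IsProbabilityMeasure (μ n)] (Y : ∀ n, (ℂ → ℝ) → Ω n → ℝ)
    (hL2 : ∀ n f, IsTest D f → MemLp (Y n f) 2 (μ n))
    (hadd : ∀ n f g, IsTest D f → IsTest D g →
      Y n (fun z => f z + g z) =ᵐ[μ n] fun o => Y n f o + Y n g o)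
    (hsmul : ∀ n (c : ℝ) f, IsTest D f → Y n (fun z => c * f z) =ᵐ[μ n] fun o => c * Y n f o)
    (p1 : ∀ u, IsTest D u → Tendsto (fun n => ∫ o, Y n (Δ u) o * Y n (Δ u) o ∂μ n) atTop
      (𝓝 (kap * ∫ z, ‖fderiv ℝ u z‖ ^ 2)))
    (bd : ∀ K, IsCompact K → K ⊆ D → ∃ C : ℝ, ∀ f, IsTest D f → tsupport f ⊆ K →
      ∀ M, (∀ z, |f z| ≤ M) → ∀ᶠ n in atTop, ∫ o, Y n f o * Y n f o ∂μ n ≤ C * M ^ 2)
    (c1 : ∃ C : ℝ, ∀ z ∈ D, ∀ᶠ n in atTop,
      ∫ o, Y n (rr z (rad D z)) o * Y n (rr z (rad D z)) o ∂μ n ≤ C)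
    (c2 : ∀ g, IsTest D g → ∀ p ∈ frontier D, p ∉ P → ∀ ε > 0, ∃ η > 0, ∀ z ∈ D,
      dist z p < η → ∀ᶠ n in atTop, |∫ o, Y n (rr z (rad D z)) o * Y n g o ∂μ n| ≤ ε)
    (hcf : ∀ u, IsTest D u → ∀ t : ℝ, Tendsto
      (fun n => ∫ o, Complex.exp (Complex.I * (t * Y n (fun z => -(Δ u) z) o : ℝ)) ∂μ n) atTop
      (𝓝 (Complex.exp (-(kap * (∫ z, ‖fderiv ℝ u z‖ ^ 2) * t ^ 2 / 2 : ℝ))))) :
    ∀ f, IsTest D f →
      Tendsto (fun n => ∫ o, Y n f o * Y n f o ∂μ n) atTop (𝓝 (kap * domainGreenForm φ f)) ∧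
      ∀ t : ℝ, Tendsto (fun n => ∫ o, Complex.exp (Complex.I * (t * Y n f o : ℝ)) ∂μ n) atTop
        (𝓝 (Complex.exp (-(kap * domainGreenForm φ f * t ^ 2 / 2 : ℝ)))) := by
  have hprod : ∀ n f g, IsTest D f → IsTest D g → Integrable (fun o => Y n f o * Y n g o) (μ n) :=
    fun n f g hf hg => (hL2 n f hf).integrable_mul (hL2 n g hg)
  have H : EndData D P kap (fun n f g => ∫ o, Y n f o * Y n g o ∂μ n) := by
    refine ⟨fun n f g _ _ => ?_, fun n f1 f2 g h1 h2 hg => ?_, fun n c f g hf hg => ?_,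
      fun n f _ => integral_nonneg fun o => mul_self_nonneg _, p1, bd, c1, c2⟩
    · congr 1; funext o; ring
    · rw [← integral_add (hprod n f1 g h1 hg) (hprod n f2 g h2 hg)]
      refine integral_congr_ae ?_
      filter_upwards [hadd n f1 f2 h1 h2] with o ho
      rw [ho]; ring
    · rw [← integral_const_mul]
      refine integral_congr_ae ?_
      filter_upwards [hsmul n c f hf] with o ho
      rw [ho]; ring
  intro f hf
  refine ⟨end_var H hb hP B hf, fun t => ?_⟩
  refine tendsto_approx fun ε hε => ?_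
  -- continuity of the target
  have hcont : Continuous fun x : ℝ => Complex.exp (-(kap * x * t ^ 2 / 2 : ℝ)) := by fun_prop
  obtain ⟨η, hη, hclose⟩ := Metric.continuous_iff.1 hcont (domainGreenForm φ f) ε hε
  set η' := min η ((ε / (|t| + 1)) ^ 2 / (2 * (|kap| + 1))) with hη'
  have hη'p : 0 < η' := lt_min hη (by positivity)
  obtain ⟨u, hu, h1, h2⟩ := exists_approx B hf hη'p
  refine ⟨_, _, hcf u hu t, ?_, ?_⟩
  · have h3 := hclose (∫ z, ‖fderiv ℝ u z‖ ^ 2) (by
      rw [Real.dist_eq, abs_sub_comm]; exact h2.trans_le (min_le_left _ _))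
    rw [dist_eq_norm] at h3
    exact h3.le
  · have hk : IsTest D (fun z => f z + (Δ u) z) := hf.add hu.lap
    have hv := end_var H hb hP B hk
    set G := domainGreenForm φ (fun z => f z + (Δ u) z) with hG
    have hlt : kap * G < (ε / (|t| + 1)) ^ 2 := by
      have h4 : kap * G ≤ |kap| * η' := by
        calc kap * G ≤ |kap * G| := le_abs_self _
          _ = |kap| * |G| := abs_mul _ _
          _ ≤ |kap| * η' := mul_le_mul_of_nonneg_left h1.le (abs_nonneg _)
      have h5 : |kap| * η' ≤ |kap| * ((ε / (|t| + 1)) ^ 2 / (2 * (|kap| + 1))) :=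
        mul_le_mul_of_nonneg_left (min_le_right _ _) (abs_nonneg _)
      have h6 : |kap| * ((ε / (|t| + 1)) ^ 2 / (2 * (|kap| + 1))) ≤ (ε / (|t| + 1)) ^ 2 / 2 := by
        rw [mul_div_assoc', div_le_div_iff₀ (by positivity) (by norm_num)]
        have : 0 < (ε / (|t| + 1)) ^ 2 := by positivity
        nlinarith [abs_nonneg kap]
      have h7 : 0 < (ε / (|t| + 1)) ^ 2 := by positivity
      linarith
    have hev : ∀ᶠ n in atTop, ∫ o, Y n (fun z => f z + (Δ u) z) o *
        Y n (fun z => f z + (Δ u) z) o ∂μ n < (ε / (|t| + 1)) ^ 2 :=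
      hv.eventually_lt_const hlt
    filter_upwards [hev] with n hn
    have hsum : Y n f =ᵐ[μ n] fun o => Y n (fun z => -(Δ u) z) o + Y n (fun z => f z + (Δ u) z) o := by
      have h3 := hadd n (fun z => -(Δ u) z) (fun z => f z + (Δ u) z) hu.lap.neg hk
      have e : (fun z => -(Δ u) z + (f z + (Δ u) z)) = f := by funext z; ring
      rw [e] at h3
      exact h3
    refine (char_sub_le (hL2 n f hf) (hL2 n _ hu.lap.neg) (hL2 n _ hk) hsum t).trans ?_
    have h4 : Real.sqrt (∫ o, Y n (fun z => f z + (Δ u) z) o *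
        Y n (fun z => f z + (Δ u) z) o ∂μ n) ≤ ε / (|t| + 1) := by
      refine Real.sqrt_le_iff.2 ⟨by positivity, hn.le⟩
    calc |t| * Real.sqrt (∫ o, Y n (fun z => f z + (Δ u) z) o *
        Y n (fun z => f z + (Δ u) z) o ∂μ n) ≤ |t| * (ε / (|t| + 1)) :=
          mul_le_mul_of_nonneg_left h4 (abs_nonneg _)
      _ = (|t| / (|t| + 1)) * ε := by ring
      _ ≤ 1 * ε := by
        refine mul_le_mul_of_nonneg_right ?_ hε.le
        rw [div_le_one (by positivity)]
        linarith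
      _ = ε := one_mul _

end

end Crest.Agent.R144.End938
end

-- ▼ part R144/Fin2_268

/-! R144 (helper268) FIN block, file 2: the law half `MainLaw x κ` from four literal lattice inputs
(Gaussianity of lattice Laplacians, bounded variances, boundary bump bound, boundary decay) through
helper938's harmonic remainder theorem. -/

set_option autoImplicit false

open Set Topology Filter Metric MeasureTheory
open scoped ContDiff Laplacian

namespace Crest.Agent.R144.Fin268

open Crest.ProbabilityR.HexHeights Crest.ProbabilityR.TriHeights Crest.Agent.R144.HexTil353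
  Crest.Agent.R144.Geo268 Crest.Agent.R144.Cnt268 Crest.Agent.R144.Set268
open Crest.Agent.R144.It844 (intF xi Lip ex conf extF extT upT mu ex_add ex_smul ex_const ex_congr)
open Crest.Agent.R144.Con549 (IsTest Bih)
open Crest.Agent.R144.Pst967 (integral_mu isProb_mu integrable_mu)
open Crest.Agent.R144.Cw643 (Dop Near six)
open Crest.Agent.R144.End938 (rr rad end_char char_sub_le)

/-- linear statistic with the weights `b` -/
noncomputable def LS (Λ : Finset (ℤ × ℤ)) (b : ℤ × ℤ → ℝ) (h : ℤ × ℤ → ℤ) : ℝ :=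
  ∑ v ∈ Λ, b v * (h v : ℝ)

/-- centred linear statistic -/
noncomputable def cS (x : ℝ) (Λ : Finset (ℤ × ℤ)) (τ : ℤ × ℤ → ℤ) (b : ℤ × ℤ → ℝ)
    (h : ℤ × ℤ → ℤ) : ℝ := LS Λ b h - ex x Λ τ (LS Λ b)

/-- covariance -/
noncomputable def Cv (x : ℝ) (Λ : Finset (ℤ × ℤ)) (τ : ℤ × ℤ → ℤ) (b g : ℤ × ℤ → ℝ) : ℝ :=
  ex x Λ τ (fun h => cS x Λ τ b h * cS x Λ τ g h)

/-- variance -/
noncomputable def Vr (x : ℝ) (Λ : Finset (ℤ × ℤ)) (τ : ℤ × ℤ → ℤ) (b : ℤ × ℤ → ℝ) : ℝ :=
  Cv x Λ τ b b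

/-- bump weights at `z`: nonnegative, supported within `3/4 dist (z, Dᶜ)`, height
`≤ M δ² / dist (z, Dᶜ)²` -/
structure Bump (D : Set ℂ) (δ M : ℝ) (z : ℂ) (b : ℤ × ℤ → ℝ) : Prop where
  nonneg : ∀ v, 0 ≤ b v
  supp : ∀ v, b v ≠ 0 → dist (centre δ v) z ≤ 3 / 4 * infDist z Dᶜ
  le : ∀ v, b v * infDist z Dᶜ ^ 2 ≤ M * δ ^ 2

theorem Bump.mono {D : Set ℂ} {δ M M' : ℝ} {z : ℂ} {b : ℤ × ℤ → ℝ} (h : Bump D δ M z b)
    (hM : M ≤ M') : Bump D δ M' z b :=
  ⟨h.nonneg, h.supp, fun v => (h.le v).trans (mul_le_mul_of_nonneg_right hM (sq_nonneg _))⟩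

/-- weights over the compact set `K` of height `≤ M δ²` -/
structure Over (K : Set ℂ) (δ M : ℝ) (g : ℤ × ℤ → ℝ) : Prop where
  supp : ∀ v, g v ≠ 0 → centre δ v ∈ K
  le : ∀ v, |g v| ≤ M * δ ^ 2

/-- **the four lattice inputs** -/
structure Inputs (x κ : ℝ) (D : Set ℂ) (P : Finset ℂ) (δ : ℕ → ℝ) (Λ : ℕ → Finset (ℤ × ℤ))
    (τ : ℕ → ℤ × ℤ → ℤ) : Prop where
  p1 : ∀ u, IsTest D u → ∀ t : ℝ, Tendsto (fun n => ex x (Λ n) (τ n) (fun h =>
    Complex.exp (Complex.I * (t * cS x (Λ n) (τ n)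
      (Dop (fun v => u (centre (δ n) v))) h : ℝ)))) atTop
    (𝓝 (Complex.exp (-(κ * (∫ z, ‖fderiv ℝ u z‖ ^ 2) * t ^ 2 / 2 : ℝ))))
  bd : ∀ K, IsCompact K → K ⊆ D → ∃ C : ℝ, ∀ᶠ n in atTop, ∀ M g, Over K (δ n) M g →
    Vr x (Λ n) (τ n) g ≤ C * M ^ 2
  c1 : ∀ M : ℝ, ∃ C : ℝ, ∀ z ∈ D, ∀ᶠ n in atTop, ∀ b, Bump D (δ n) M z b →
    Vr x (Λ n) (τ n) b ≤ C
  c2 : ∀ M K, IsCompact K → K ⊆ D → ∀ p ∈ frontier D, p ∉ P → ∀ ε > 0, ∃ η > 0, ∀ z ∈ D,
    dist z p < η → ∀ᶠ n in atTop, ∀ b g, Bump D (δ n) M z b → Over K (δ n) M g →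
      |Cv x (Λ n) (τ n) b g| ≤ ε

/-! ### algebra -/

theorem LS_add (Λ : Finset (ℤ × ℤ)) (b g : ℤ × ℤ → ℝ) (h : ℤ × ℤ → ℤ) :
    LS Λ (fun v => b v + g v) h = LS Λ b h + LS Λ g h := by
  unfold LS
  rw [← Finset.sum_add_distrib]
  exact Finset.sum_congr rfl fun v _ => by ring

theorem LS_smul (Λ : Finset (ℤ × ℤ)) (c : ℝ) (b : ℤ × ℤ → ℝ) (h : ℤ × ℤ → ℤ) :
    LS Λ (fun v => c * b v) h = c * LS Λ b h := by
  unfold LS
  rw [Finset.mul_sum]
  exact Finset.sum_congr rfl fun v _ => by ring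

theorem cS_add (x : ℝ) (Λ : Finset (ℤ × ℤ)) (τ : ℤ × ℤ → ℤ) (b g : ℤ × ℤ → ℝ) (h : ℤ × ℤ → ℤ) :
    cS x Λ τ (fun v => b v + g v) h = cS x Λ τ b h + cS x Λ τ g h := by
  unfold cS
  have h1 : ex x Λ τ (LS Λ fun v => b v + g v) = ex x Λ τ (LS Λ b) + ex x Λ τ (LS Λ g) := by
    rw [← ex_add]
    exact ex_congr fun a _ => LS_add Λ b g a
  rw [h1, LS_add]
  ring

theorem cS_smul (x : ℝ) (Λ : Finset (ℤ × ℤ)) (τ : ℤ × ℤ → ℤ) (c : ℝ) (b : ℤ × ℤ → ℝ)
    (h : ℤ × ℤ → ℤ) : cS x Λ τ (fun v => c * b v) h = c * cS x Λ τ b h := by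
  unfold cS
  have h1 : ex x Λ τ (LS Λ fun v => c * b v) = c * ex x Λ τ (LS Λ b) := by
    have := ex_smul (x := x) (Λ := Λ) (τ := τ) c (LS Λ b)
    simp only [smul_eq_mul] at this
    rw [← this]
    exact ex_congr fun a _ => LS_smul Λ c b a
  rw [h1, LS_smul]
  ring

theorem cS_congr {x : ℝ} {Λ : Finset (ℤ × ℤ)} {τ : ℤ × ℤ → ℤ} {b g : ℤ × ℤ → ℝ}
    (h : ∀ v, b v = g v) : cS x Λ τ b = cS x Λ τ g := by
  rw [funext h]

theorem wK_nonneg {K : ℝ × ℝ → ℝ} (hK : Ker K) (δ : ℝ) {f : ℂ → ℝ} (hf : ∀ z, 0 ≤ f z)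
    (v : ℤ × ℤ) : 0 ≤ wK K δ f v := by
  unfold wK
  exact mul_nonneg (by positivity) (integral_nonneg fun p => mul_nonneg (hf _) (hK.nonneg p))

/-- the weights of a continuous function with compact support form a near family -/
theorem near_wK {K : ℝ × ℝ → ℝ} (hK : Ker K) {δ : ℕ → ℝ} (hδ : ∀ n, 0 < δ n)
    (hδ0 : Tendsto δ atTop (𝓝 0)) {g : ℂ → ℝ} (hg : Continuous g) (hc : HasCompactSupport g) :
    Near δ (fun n => wK K (δ n) g) g := by
  obtain ⟨R, hR⟩ := hc.isBounded.exists_norm_le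
  have hbd : ∃ M, ∀ z, |g z| ≤ M := by
    obtain ⟨M, hM⟩ := hc.exists_bound_of_continuous hg
    exact ⟨M, fun z => by simpa using hM z⟩
  refine ⟨⟨R + 2, ?_⟩, fun ε hε => ?_⟩
  · filter_upwards [hδ0.eventually (gt_mem_nhds one_pos)] with n hn v hv
    by_contra hcon
    push Not at hcon
    apply hv
    refine hK.w_eq_zero (hδ n).le fun z hz => ?_
    by_contra h1
    have h2 := hR z (subset_tsupport _ h1)
    have h3 := norm_sub_norm_le (centre (δ n) v) z
    rw [norm_sub_rev] at hz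
    linarith
  · have huc : UniformContinuous g := hc.uniformContinuous_of_continuous hg
    obtain ⟨ρ, hρ, huc'⟩ := Metric.uniformContinuous_iff.1 huc ε hε
    filter_upwards [hδ0.eventually (gt_mem_nhds (show 0 < ρ / 2 by positivity))] with n hn v
    have h1 := wK_close hK (hδ n).le hg hbd (η := ε) (v := v) fun z hz => by
      have h2 : dist z (centre (δ n) v) < ρ := by rw [dist_eq_norm]; linarith
      have h3 := huc' h2
      rw [Real.dist_eq] at h3
      exact h3.le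
    have h4 : vc (δ n) ≤ δ n ^ 2 := by
      unfold vc
      have h5 : Real.sqrt 3 ≤ 2 := by
        rw [Real.sqrt_le_left (by norm_num)]; norm_num
      nlinarith [sq_nonneg (δ n)]
    refine h1.trans ?_
    rw [mul_comm ε]
    exact mul_le_mul_of_nonneg_right h4 hε.le

theorem lip_of_data {τ : ℤ × ℤ → ℤ} (h : ∀ v, τ v = -1 ∨ τ v = 0) : Lip τ := fun u v _ => by
  rcases h u with h1 | h1 <;> rcases h v with h2 | h2 <;> rw [h1, h2] <;> simp

theorem vc_le (δ : ℝ) : vc δ ≤ δ ^ 2 := by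
  unfold vc
  have h5 : Real.sqrt 3 ≤ 2 := by
    rw [Real.sqrt_le_left (by norm_num)]; norm_num
  nlinarith [sq_nonneg δ]

/-- `ℓ¹` bound of the weights, general kernel -/
theorem sum_wK_le {K : ℝ × ℝ → ℝ} (hK : Ker K) {δ : ℝ} (hδ : 0 < δ) (hδ1 : δ ≤ 1) {f : ℂ → ℝ}
    {R M : ℝ} (hR : 0 ≤ R) (hM : 0 ≤ M) (hf : ∀ z, |f z| ≤ M) (hs : ∀ z, f z ≠ 0 → ‖z‖ ≤ R)
    (Λ : Finset (ℤ × ℤ)) : ∑ v ∈ Λ, |wK K δ f v| ≤ Real.pi * (R + 3) ^ 2 * M := by
  classical
  set S := Λ.filter fun v => dist (centre δ v) 0 ≤ R + 2 * δ with hS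
  have h1 : ∑ v ∈ Λ, |wK K δ f v| = ∑ v ∈ S, |wK K δ f v| := by
    symm
    refine Finset.sum_subset (Finset.filter_subset _ _) fun v hv hv' => ?_
    rw [abs_eq_zero]
    refine hK.w_eq_zero hδ.le fun z hz => ?_
    by_contra h2
    apply hv'
    refine Finset.mem_filter.2 ⟨hv, ?_⟩
    rw [dist_zero_right]
    have h3 := norm_sub_norm_le (centre δ v) z
    rw [norm_sub_rev] at hz
    linarith [hs z h2]
  rw [h1]
  have h2 := card_ball_le hδ 0 (r := R + 2 * δ) (by positivity) (S := S)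
    fun v hv => (Finset.mem_filter.1 hv).2
  calc ∑ v ∈ S, |wK K δ f v| ≤ ∑ _v ∈ S, vc δ * M := by
        refine Finset.sum_le_sum fun v _ => ?_
        exact hK.w_le hf v
    _ = (S.card * vc δ) * M := by rw [Finset.sum_const, nsmul_eq_mul]; ring
    _ ≤ (Real.pi * (R + 2 * δ + δ) ^ 2) * M := mul_le_mul_of_nonneg_right h2 hM
    _ ≤ Real.pi * (R + 3) ^ 2 * M := by
        refine mul_le_mul_of_nonneg_right ?_ hM
        refine mul_le_mul_of_nonneg_left ?_ Real.pi_pos.le
        exact pow_le_pow_left₀ (by positivity) (by linarith) 2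


end Crest.Agent.R144.Fin268
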