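import Crest.Agent.R144.Mix3_880
import Crest.Agent.R144.Pst11_967
import Crest.Agent.R144.Rsw0_867
import Crest.Agent.R144.Pos1_561

-- ▼ part R144/Mix4_880
section

/-!
# R144, mixing (helper880), part 4: decorrelation under the F-type laws

* `dec_tz` : `g` off `hexB N`, `f` inside `hexB M` (functions of `(s1, z)`):
  `|E_F[g f] - E_F[g] a| ≤ D (4 C bt (M+1) M1 + 2 C bt (M1+1) N)` with `a = E_{hexB M1}[f ∘ addH 2]`;
* `avg_prod` : factorisation of the average over the second colour; `stay_out`;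
* `dec_col` : decorrelation for observables of the two colours and the closed triangles.
-/

set_option autoImplicit false

noncomputable section

namespace Crest.Agent.R144.Mix880

open Finset
open Crest.Agent.R144.It844 (P2 adj_symm adj_iff adj_comm)
open Crest.ProbabilityR.HexHeights (Adj)
open Crest.Agent.R144.Zg349 Crest.Agent.R144.Zk349 Crest.Agent.R144.Zd349 Crest.Agent.R144.Zm349
open Crest.Agent.R144.Ze349 Crest.Agent.R144.Zf349
open Crest.Agent.R144.Pst967 (hexB mem_hexB hexB_mono XStep Xs Bs mem_Bs notMem_Bs xs_of_notMem xs_step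
  Bs_sub sc_Bs layer_Bs Blk nBlk nBlk_nonneg nBlk_le incP_nBlk conn_hexB hexB_mem_scs BsI offTZ_BsI
  BsI_nonneg sum_BsI c1 c2 OStep OConn hit hit_eq rep rep_spec exB col col_of_mem avg DepA DepW loc Stay
  E_avg avg_loc stay_of_blk abs_avg_le hit_self oConn_of_loc adj_of_share)

theorem E_abs_le {c : ℝ} (hc : 1 ≤ c) {F : Finset P2} {f g : Cfg → ℝ} (h : ∀ ω, |f ω| ≤ g ω) :
    |E c F f| ≤ E c F g := by
  rw [abs_le]
  constructor
  · have h1 : -(E c F g) = E c F (fun ω => (-1) * g ω) := by rw [E_smul]; ring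
    rw [h1]
    exact E_mono hc fun ω _ => by
      have := (abs_le.1 (h ω)).1
      linarith
  · exact E_mono hc fun ω _ => (abs_le.1 (h ω)).2

theorem inTZ_addH2 {B : Finset P2} {f : Cfg → ℝ} (hf : InTZ B f) : InTZ B (fun ω => f (addH 2 ω)) :=
  fun _ _ h1 h2 => hf _ _ (fun v hv => s1_shift2 (h1 v hv)) h2

theorem offTZ_mul' {B : Finset P2} {f g : Cfg → ℝ} (hf : OffTZ B f) (hg : OffTZ B g) :
    OffTZ B (fun ω => f ω * g ω) := fun ω ω' h1 h2 => by
  show f ω * g ω = f ω' * g ω'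
  rw [hf ω ω' h1 h2, hg ω ω' h1 h2]

/-- off the blocking event the unexplored domain does not contain the ball -/
theorem nBlk_of_not_sub {M N : ℕ} {ω : Cfg} (h : ¬ hexB M ⊆ Bs N ω) : nBlk (M + 1) N ω = 1 := by
  rw [Finset.subset_iff] at h
  push Not at h
  obtain ⟨t, ht, htA⟩ := h
  rw [notMem_Bs] at htA
  have h8 : ¬ Blk (M + 1) N ω := by
    intro h8
    rcases htA with h9 | ⟨u, h9, h10⟩
    · exact h8 t (hexB_mono (Nat.le_succ M) ht) h9
    · exact h8 u (adj_hexB ht h9) h10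
  unfold nBlk
  rw [if_neg h8]

/-- **Decorrelation for `(s1, z)`.** -/
theorem dec_tz {c : ℝ} (hc : 1 ≤ c) (h3 : F3m c) {F : Finset P2} (hF : SC F) {M M1 N : ℕ}
    (hN : hexB N ⊆ F) {f g : Cfg → ℝ} (hf : InTZ (hexB M) f) {C D : ℝ} (hC : ∀ ω, |f ω| ≤ C)
    (hg : OffTZ (hexB N) g) (hD : ∀ ω, |g ω| ≤ D) :
    |E c F (fun ω => g ω * f ω) - E c F g * E c (hexB M1) (fun ω => f (addH 2 ω))| ≤
      D * (4 * C * bt c (M + 1) M1 + 2 * C * bt c (M1 + 1) N) := by
  classical
  have hC0 : 0 ≤ C := (abs_nonneg _).trans (hC flat)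
  have hD0 : 0 ≤ D := (abs_nonneg _).trans (hD flat)
  set a := E c (hexB M1) (fun ω => f (addH 2 ω)) with ha
  have haC : |a| ≤ C := by
    refine (E_abs_le hc (g := fun _ => C) fun ω => hC _).trans ?_
    rw [E_const hc]
  set δ := 4 * C * bt c (M + 1) M1 with hδ
  have hδ0 : 0 ≤ δ := mul_nonneg (by positivity) (bt_nonneg hc _ _)
  -- the difference as one expectation
  have e0 : E c F (fun ω => g ω * f ω) - E c F g * a = E c F (fun ω => g ω * (f ω - a)) := by
    have e1 : E c F g * a = E c F (fun ω => a * g ω) := by rw [E_smul]; ring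
    rw [e1, ← E_sub]
    congr 1
    funext ω
    ring
  have e2 : E c F (fun ω => g ω * (f ω - a)) =
      ∑ B ∈ (hexB N).powerset, E c F (fun ω => BsI N B ω * (g ω * (f ω - a))) := by
    rw [← E_sum]
    congr 1
    funext ω
    rw [← Finset.sum_mul, sum_BsI, one_mul]
  have hterm : ∀ B ∈ (hexB N).powerset, |E c F (fun ω => BsI N B ω * (g ω * (f ω - a)))| ≤
      E c F (fun ω => BsI N B ω * (D * δ + D * (2 * C) * nBlk (M1 + 1) N ω)) := by
    intro B hB
    rw [Finset.mem_powerset] at hB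
    by_cases hM1 : hexB M1 ⊆ B
    · by_cases hex : ∃ ω, Bs N ω = B
      · obtain ⟨ω0, hω0⟩ := hex
        have hSC : SC B := by rw [← hω0]; exact sc_Bs N ω0
        have hgB : OffTZ B (fun ω => BsI N B ω * g ω) :=
          offTZ_mul' (offTZ_BsI N B) (OffTZ.mono' hB hg)
        by_cases hMM : hexB M ⊆ B
        · have hlay : ∀ ω, BsI N B ω * g ω ≠ 0 → ∀ t ∈ B, ∀ t', t' ∉ B → Adj t t' → mC ω t' := by
            intro ω hω t ht t' ht' hadj
            have h4 : Bs N ω = B := by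
              by_contra h4
              apply hω
              unfold BsI
              rw [if_neg h4, zero_mul]
            rw [← h4] at ht ht'
            exact layer_Bs ht ht' hadj
          have e3 := h3 F B hF hSC (hB.trans hN) _ f hgB (InTZ.mono' hMM hf) hlay
          have e4 : E c F (fun ω => BsI N B ω * (g ω * (f ω - a))) =
              E c F (fun ω => BsI N B ω * g ω) * (E c B (fun ω => f (addH 2 ω)) - a) := by
            rw [mul_sub, ← e3]
            have e5 : E c F (fun ω => BsI N B ω * g ω) * a =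
                E c F (fun ω => a * (BsI N B ω * g ω)) := by rw [E_smul]; ring
            rw [e5, ← E_sub]
            congr 1
            funext ω
            ring
          have h5 := tv_dom' hc h3 (conn_hexB M1) hSC (Finset.Subset.refl _) hM1
            (inTZ_addH2 hf) (C := C) (fun ω => hC _)
          rw [e4, abs_mul]
          have h6 : |E c F (fun ω => BsI N B ω * g ω)| ≤ E c F (fun ω => D * BsI N B ω) := by
            refine E_abs_le hc fun ω => ?_
            rw [abs_mul, abs_of_nonneg (BsI_nonneg N B ω), mul_comm]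
            exact mul_le_mul_of_nonneg_right (hD ω) (BsI_nonneg N B ω)
          have h7 : E c F (fun ω => D * BsI N B ω) * δ ≤
              E c F (fun ω => BsI N B ω * (D * δ + D * (2 * C) * nBlk (M1 + 1) N ω)) := by
            have e6 : E c F (fun ω => D * BsI N B ω) * δ = E c F (fun ω => δ * (D * BsI N B ω)) := by
              rw [E_smul (a := δ)]; ring
            rw [e6]
            refine E_mono hc fun ω _ => ?_
            have h8 := BsI_nonneg N B ω
            have h9 : 0 ≤ D * (2 * C) * nBlk (M1 + 1) N ω :=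
              mul_nonneg (by positivity) (nBlk_nonneg _ _ _)
            nlinarith [mul_nonneg h8 h9]
          refine le_trans ?_ h7
          refine mul_le_mul h6 h5 (abs_nonneg _) ?_
          exact E_nonneg hc fun ω _ => mul_nonneg hD0 (BsI_nonneg N B ω)
        · -- `hexB M` not inside `B`
          have h4 : ∀ ω, BsI N B ω ≠ 0 → nBlk (M + 1) N ω = 1 := by
            intro ω hω
            apply nBlk_of_not_sub
            have h5 : Bs N ω = B := by
              by_contra h5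
              exact hω (by unfold BsI; rw [if_neg h5])
            rw [h5]
            exact hMM
          -- then `M1 < M`, so the ball `hexB M1` gives `bt (M+1) M1 = 1`
          have hM1M : M1 < M := by
            by_contra h5
            exact hMM ((hexB_mono (not_lt.1 h5)).trans hM1)
          have hbt1 : bt c (M + 1) M1 = 1 := by
            unfold bt
            have : ∀ ω : Cfg, nBlk (M + 1) M1 ω = 1 := by
              intro ω
              have h8 : ¬ Blk (M + 1) M1 ω := by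
                intro h8
                refine h8 ((M : ℤ) + 1, 0) ?_ (xs_of_notMem ω ?_)
                · rw [mem_hexB]; push_cast; simp only [abs_le]; omega
                · rw [mem_hexB]; simp only [abs_le]; omega
              unfold nBlk
              rw [if_neg h8]
            rw [show (nBlk (M + 1) M1) = fun _ => (1 : ℝ) from funext this, E_const hc]
          refine E_abs_le hc fun ω => ?_
          have h8 := BsI_nonneg N B ω
          rw [abs_mul, abs_of_nonneg h8, abs_mul]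
          refine mul_le_mul_of_nonneg_left ?_ h8
          have h9 : |f ω - a| ≤ 2 * C := by
            refine (abs_sub _ _).trans ?_
            linarith [hC ω]
          have h10 : |g ω| * |f ω - a| ≤ D * (2 * C) := mul_le_mul (hD ω) h9 (abs_nonneg _) hD0
          have h11 : 0 ≤ D * (2 * C) * nBlk (M1 + 1) N ω :=
            mul_nonneg (by positivity) (nBlk_nonneg _ _ _)
          have h12 : D * (2 * C) ≤ D * δ := by
            refine mul_le_mul_of_nonneg_left ?_ hD0
            rw [hδ, hbt1]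
            linarith
          linarith
      · -- the event is empty
        have h4 : ∀ ω, BsI N B ω = 0 := by
          intro ω
          unfold BsI
          rw [if_neg fun h5 => hex ⟨ω, h5⟩]
        simp only [h4, zero_mul]
        rw [E_const hc, abs_zero]
    · refine E_abs_le hc fun ω => ?_
      have h8 := BsI_nonneg N B ω
      rw [abs_mul, abs_of_nonneg h8, abs_mul]
      by_cases h4 : Bs N ω = B
      · refine mul_le_mul_of_nonneg_left ?_ h8
        have h5 : nBlk (M1 + 1) N ω = 1 := nBlk_of_not_sub (by rw [h4]; exact hM1)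
        rw [h5, mul_one]
        have h9 : |f ω - a| ≤ 2 * C := by
          refine (abs_sub _ _).trans ?_
          linarith [hC ω]
        have h10 : |g ω| * |f ω - a| ≤ D * (2 * C) := mul_le_mul (hD ω) h9 (abs_nonneg _) hD0
        have h11 : 0 ≤ D * δ := mul_nonneg hD0 hδ0
        linarith
      · have h5 : BsI N B ω = 0 := by unfold BsI; rw [if_neg h4]
        rw [h5, zero_mul, zero_mul]
  rw [e0, e2]
  refine (Finset.abs_sum_le_sum_abs _ _).trans ((Finset.sum_le_sum hterm).trans ?_)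
  rw [← E_sum]
  have e7 : (fun ω => ∑ B ∈ (hexB N).powerset,
      BsI N B ω * (D * δ + D * (2 * C) * nBlk (M1 + 1) N ω)) =
      fun ω => D * δ + D * (2 * C) * nBlk (M1 + 1) N ω := by
    funext ω
    rw [← Finset.sum_mul, sum_BsI, one_mul]
  rw [e7, E_add, E_const hc, E_smul]
  have h9 := nBlk_le_bt hc hF (m := M1 + 1) hN
  have h10 : D * (2 * C) * E c F (nBlk (M1 + 1) N) ≤ D * (2 * C) * bt c (M1 + 1) N :=
    mul_le_mul_of_nonneg_left h9 (by positivity)
  linarith

/-! ### the second colour -/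

/-- **Factorisation of the average** over the second colour. -/
theorem avg_prod {W W' : Finset P2} {f g : (P2 → Bool) → (P2 → Bool) → (P2 → Bool) → ℝ}
    (hf : DepA W f) (hg : DepA W' g) {z' : P2 → Bool} (hd : ∀ v ∈ W, ∀ w ∈ W', ¬ OConn z' v w)
    (s z : P2 → Bool) :
    avg (W ∪ W') (fun s a z => f s a z * g s a z) s z z' = avg W f s z z' * avg W' g s z z' := by
  classical
  have hdis : Disjoint W W' := by
    rw [Finset.disjoint_left]
    intro v h1 h2
    exact hd v h1 v h2 Relation.ReflTransGen.refl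
  -- the restricted colours
  have hhit : ∀ v ∈ W, hit (W ∪ W') z' v = hit W z' v := by
    intro v hv
    funext w
    unfold hit
    apply propext
    rw [Finset.mem_union]
    constructor
    · rintro ⟨h1 | h1, h2⟩
      · exact ⟨h1, h2⟩
      · exact absurd h2 (hd v hv w h1)
    · rintro ⟨h1, h2⟩
      exact ⟨Or.inl h1, h2⟩
  have hhit' : ∀ v ∈ W', hit (W ∪ W') z' v = hit W' z' v := by
    intro v hv
    funext w
    unfold hit
    apply propext
    rw [Finset.mem_union]
    constructor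
    · rintro ⟨h1 | h1, h2⟩
      · exact absurd h2.symm (hd w h1 v hv)
      · exact ⟨h1, h2⟩
    · rintro ⟨h1, h2⟩
      exact ⟨Or.inr h1, h2⟩
  have hrep : ∀ v ∈ W, rep (W ∪ W') z' v = rep W z' v := fun v hv => by
    unfold Pst967.rep
    rw [hhit v hv]
  have hrep' : ∀ v ∈ W', rep (W ∪ W') z' v = rep W' z' v := fun v hv => by
    unfold Pst967.rep
    rw [hhit' v hv]
  have hcol : ∀ ε : ↥(W ∪ W') → Bool, ∀ v ∈ W, col (W ∪ W') z' ε v =
      col W z' (fun w : ↥W => ε ⟨w.1, Finset.mem_union_left _ w.2⟩) v := by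
    intro ε v hv
    rw [col_of_mem (Finset.mem_union_left _ hv), col_of_mem hv, hrep v hv]
    have h1 := (rep_spec (hit_self (z := z') hv)).1
    unfold exB
    rw [dif_pos (Finset.mem_union_left _ h1), dif_pos h1]
  have hcol' : ∀ ε : ↥(W ∪ W') → Bool, ∀ v ∈ W', col (W ∪ W') z' ε v =
      col W' z' (fun w : ↥W' => ε ⟨w.1, Finset.mem_union_right _ w.2⟩) v := by
    intro ε v hv
    rw [col_of_mem (Finset.mem_union_right _ hv), col_of_mem hv, hrep' v hv]
    have h1 := (rep_spec (hit_self (z := z') hv)).1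
    unfold exB
    rw [dif_pos (Finset.mem_union_right _ h1), dif_pos h1]
  unfold avg
  -- the product decomposition of the colourings
  let e : (↥(W ∪ W') → Bool) ≃ (↥W → Bool) × (↥W' → Bool) :=
    (Equiv.arrowCongr (Equiv.Finset.union W W' hdis).symm (Equiv.refl Bool)).trans
      (Equiv.sumArrowEquivProdArrow ↥W ↥W' Bool)
  have he1 : ∀ ε : ↥(W ∪ W') → Bool, (e ε).1 = fun w : ↥W => ε ⟨w.1, Finset.mem_union_left _ w.2⟩ := by
    intro ε
    rfl
  have he2 : ∀ ε : ↥(W ∪ W') → Bool, (e ε).2 = fun w : ↥W' => ε ⟨w.1, Finset.mem_union_right _ w.2⟩ := by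
    intro ε
    rfl
  have h1 : ∑ ε : ↥(W ∪ W') → Bool, (f s (col (W ∪ W') z' ε) z * g s (col (W ∪ W') z' ε) z) =
      ∑ p : (↥W → Bool) × (↥W' → Bool), f s (col W z' p.1) z * g s (col W' z' p.2) z := by
    rw [← Equiv.sum_comp e]
    refine Finset.sum_congr rfl fun ε _ => ?_
    rw [he1, he2, hf s (col (W ∪ W') z' ε) _ z (hcol ε), hg s (col (W ∪ W') z' ε) _ z (hcol' ε)]
  rw [h1, Fintype.sum_prod_type, Finset.card_union_of_disjoint hdis, pow_add]
  have h2 : ∑ x : ↥W → Bool, ∑ y : ↥W' → Bool, f s (col W z' x) z * g s (col W' z' y) z =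
      (∑ x : ↥W → Bool, f s (col W z' x) z) * ∑ y : ↥W' → Bool, g s (col W' z' y) z := by
    rw [Finset.sum_mul_sum]
  rw [h2, mul_inv]
  ring

open Classical in
/-- close everything inside `R` -/
def locO (R : Finset P2) (z : P2 → Bool) : P2 → Bool := fun t => if t ∈ R then true else z t

theorem oConn_of_locO {R : Finset P2} {z : P2 → Bool} {v w : P2} (h : OConn (locO R z) v w) :
    OConn z v w := by
  refine Relation.ReflTransGen.mono (fun a b hab => ?_) _ _ h
  obtain ⟨t, h1, h2, h3⟩ := hab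
  refine ⟨t, ?_, h2, h3⟩
  unfold locO at h1
  split_ifs at h1 with h4
  exact h1

/-- **open paths from outside do not enter the blocked ball** -/
theorem stay_out {M N : ℕ} {ω : Cfg} (h : Blk M N ω) {v : P2} (hv : ∀ t, v ∈ up t → t ∉ hexB N) {w : P2}
    (hw : OConn ω.2 v w) : OConn (locO (hexB M) ω.2) v w ∧
      (w = v ∨ ∃ t, w ∈ up t ∧ ω.2 t = false ∧ t ∈ Xs N ω) := by
  unfold OConn at hw
  induction hw with
  | refl => exact ⟨Relation.ReflTransGen.refl, Or.inl rfl⟩
  | @tail b d _ h2 ih =>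
    obtain ⟨t, h3, h4, h5⟩ := h2
    have h6 : t ∈ Xs N ω := by
      rcases ih.2 with h7 | ⟨t0, h7, h8, h9⟩
      · rw [h7] at h4
        exact xs_of_notMem ω (hv t h4)
      · rcases adj_of_share h7 h4 with h10 | h10
        · rwa [← h10]
        · refine xs_step h9 h10 fun h11 => ?_
          have := h11.1
          rw [h3] at this
          exact absurd this (by decide)
    have h7 : t ∉ hexB M := fun h8 => h t h8 h6
    refine ⟨Relation.ReflTransGen.tail ih.1 ⟨t, ?_, h4, h5⟩, Or.inr ⟨t, h5, h3, h6⟩⟩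
    unfold locO
    rw [if_neg h7, h3]

theorem hit_locO {W R : Finset P2} {z : P2 → Bool} (h : ∀ v ∈ W, ∀ w, OConn z v w → OConn (locO R z) v w)
    {v : P2} (hv : v ∈ W) : hit W z v = hit W (locO R z) v := by
  funext w
  unfold hit
  apply propext
  exact and_congr_right fun _ => ⟨fun h1 => h v hv w h1, fun h1 => oConn_of_locO h1⟩

theorem avg_locO {W R : Finset P2} {f : (P2 → Bool) → (P2 → Bool) → (P2 → Bool) → ℝ} (hf : DepA W f)
    {s z : P2 → Bool} (h : ∀ v ∈ W, ∀ w, OConn z v w → OConn (locO R z) v w) :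
    avg W f s z z = avg W f s z (locO R z) := by
  unfold avg
  congr 1
  refine Finset.sum_congr rfl fun ε _ => hf _ _ _ _ fun v hv => ?_
  rw [col_of_mem hv, col_of_mem hv]
  unfold Pst967.rep
  rw [hit_locO h hv]

theorem oConn_loc_end {R : Finset P2} {z : P2 → Bool} {v w : P2} (h : OConn (loc R z) v w) :
    w = v ∨ ∃ t ∈ R, w ∈ up t := by
  rcases Relation.ReflTransGen.cases_tail h with h1 | ⟨u, _, t, h2, _, h3⟩
  · exact Or.inl h1
  · refine Or.inr ⟨t, ?_, h3⟩
    by_contra h4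
    unfold loc at h2
    rw [if_neg h4] at h2
    exact absurd h2 (by decide)

theorem inTZ_avg {m N : ℕ} (hmN : m ≤ N) {W : Finset P2}
    (hW : ∀ v ∈ W, ∀ t, v ∈ up t → t ∈ hexB m)
    {f : (P2 → Bool) → (P2 → Bool) → (P2 → Bool) → ℝ} (hf : DepW W f) :
    InTZ (hexB N) (fun ω => avg W f (c1 ω) ω.2 (loc (hexB N) ω.2)) := by
  intro ω ω' h1 h2
  have e : loc (hexB N) ω.2 = loc (hexB N) ω'.2 := by
    funext t
    unfold loc
    by_cases ht : t ∈ hexB N
    · rw [if_pos ht, if_pos ht, h2 t ht]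
    · rw [if_neg ht, if_neg ht]
  unfold avg
  beta_reduce
  rw [e]
  congr 1
  refine Finset.sum_congr rfl fun ε _ => hf.dep _ _ _ _ _ _ (fun v hv => ?_) (fun _ _ => rfl)
    (fun v hv => ?_)
  · exact h1 v (mem_IV'.2 fun t ht => hexB_mono hmN (hW v hv t ht))
  · exact h2 v (hexB_mono hmN (hW v hv v (mem_up'.2 (Or.inl rfl))))

theorem offTZ_avg {N N4 : ℕ} (h34 : N ≤ N4) {W : Finset P2}
    (hW : ∀ v ∈ W, ∀ t, v ∈ up t → t ∉ hexB N4)
    {g : (P2 → Bool) → (P2 → Bool) → (P2 → Bool) → ℝ} (hg : DepW W g) :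
    OffTZ (hexB N) (fun ω => avg W g (c1 ω) ω.2 (locO (hexB N) ω.2)) := by
  intro ω ω' h1 h2
  have hv0 : ∀ v ∈ W, v ∉ hexB N := fun v hv h =>
    hW v hv v (mem_up'.2 (Or.inl rfl)) (hexB_mono h34 h)
  have e : locO (hexB N) ω.2 = locO (hexB N) ω'.2 := by
    funext t
    unfold locO
    by_cases ht : t ∈ hexB N
    · rw [if_pos ht, if_pos ht]
    · rw [if_neg ht, if_neg ht, h2 t ht]
  unfold avg
  beta_reduce
  rw [e]
  congr 1
  refine Finset.sum_congr rfl fun ε _ => hg.dep _ _ _ _ _ _ (fun v hv => ?_) (fun _ _ => rfl)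
    (fun v hv => ?_)
  · exact h1 v fun h => hv0 v hv (IV_sub _ h)
  · exact h2 v (hv0 v hv)

theorem E_sub_abs {c : ℝ} (hc : 1 ≤ c) {F : Finset P2} {f g k : Cfg → ℝ}
    (h : ∀ ω, |f ω - g ω| ≤ k ω) : |E c F f - E c F g| ≤ E c F k := by
  rw [← E_sub]
  exact E_abs_le hc h

theorem DepW.mul' {W W' : Finset P2} {f g : (P2 → Bool) → (P2 → Bool) → (P2 → Bool) → ℝ}
    (hf : DepW W f) (hg : DepW W' g) : DepW (W ∪ W') (fun s a z => f s a z * g s a z) :=
  ⟨fun s s' a a' z z' h1 h2 h3 => by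
    show f s a z * g s a z = f s' a' z' * g s' a' z'
    rw [hf.dep s s' a a' z z' (fun v hv => h1 v (Finset.mem_union_left _ hv))
      (fun v hv => h2 v (Finset.mem_union_left _ hv)) (fun v hv => h3 v (Finset.mem_union_left _ hv)),
      hg.dep s s' a a' z z' (fun v hv => h1 v (Finset.mem_union_right _ hv))
      (fun v hv => h2 v (Finset.mem_union_right _ hv))
      (fun v hv => h3 v (Finset.mem_union_right _ hv))]⟩

/-- **Decorrelation of observables of the colours and the triangles.** -/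
theorem dec_col {c : ℝ} (hc : 1 ≤ c) (h3 : F3m c) {F : Finset P2} (hF : SC F) {m N1 N2 N3 N4 : ℕ}
    (h01 : m ≤ N1) (h12 : N1 ≤ N2) (h23 : N2 ≤ N3) (h34 : N3 ≤ N4) (hN : hexB N4 ⊆ F)
    {W W' : Finset P2} (hWF : W' ⊆ VF F) (hW : ∀ v ∈ W, ∀ t, v ∈ up t → t ∈ hexB m)
    (hW' : ∀ v ∈ W', ∀ t, v ∈ up t → t ∉ hexB N4)
    {f g : (P2 → Bool) → (P2 → Bool) → (P2 → Bool) → ℝ} (hf : DepW W f) (hg : DepW W' g) {C D : ℝ}
    (hC : ∀ s a z, |f s a z| ≤ C) (hD : ∀ s a z, |g s a z| ≤ D) :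
    |E c F (fun ω => f (c1 ω) (c2 ω) ω.2 * g (c1 ω) (c2 ω) ω.2) -
      E c F (fun ω => f (c1 ω) (c2 ω) ω.2) * E c F (fun ω => g (c1 ω) (c2 ω) ω.2)| ≤
      8 * C * D * (bt c m N1 + bt c (N1 + 1) N2 + bt c (N2 + 1) N3 + bt c N3 N4) := by
  classical
  have hC0 : 0 ≤ C := (abs_nonneg _).trans (hC (fun _ => true) (fun _ => true) (fun _ => true))
  have hD0 : 0 ≤ D := (abs_nonneg _).trans (hD (fun _ => true) (fun _ => true) (fun _ => true))
  have hN1 : hexB N1 ⊆ F := (hexB_mono (h12.trans (h23.trans h34))).trans hN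
  have hN3 : hexB N3 ⊆ F := (hexB_mono h34).trans hN
  have hWF0 : W ⊆ VF F := fun v hv => mem_VF'.2 (Or.inl
    (hN1 (hexB_mono h01 (hW v hv v (mem_up'.2 (Or.inl rfl))))))
  have e1 := E_avg hF hWF0 c hf.depA
  have e2 := E_avg hF hWF c hg.depA
  have e3 := E_avg hF (Finset.union_subset hWF0 hWF) c (DepW.mul' hf hg).depA
  beta_reduce at e3
  rw [e1, e2, e3]
  set b1 := bt c m N1 with hb1
  set b2 := bt c (N1 + 1) N2 with hb2
  set b3 := bt c (N2 + 1) N3 with hb3
  set b4 := bt c N3 N4 with hb4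
  have hb1' : 0 ≤ b1 := bt_nonneg hc _ _
  have hb2' : 0 ≤ b2 := bt_nonneg hc _ _
  have hb3' : 0 ≤ b3 := bt_nonneg hc _ _
  have hb4' : 0 ≤ b4 := bt_nonneg hc _ _
  set fl : Cfg → ℝ := fun ω => avg W f (c1 ω) ω.2 (loc (hexB N1) ω.2) with hfl
  set gl : Cfg → ℝ := fun ω => avg W' g (c1 ω) ω.2 (locO (hexB N3) ω.2) with hgl
  have hflC : ∀ ω, |fl ω| ≤ C := fun ω => abs_avg_le hC _ _ _
  have hglD : ∀ ω, |gl ω| ≤ D := fun ω => abs_avg_le hD _ _ _
  have hstay : ∀ ω, Blk N3 N4 ω → ∀ v ∈ W', ∀ w, OConn ω.2 v w → OConn (locO (hexB N3) ω.2) v w :=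
    fun ω hb v hv w hw => (stay_out hb (hW' v hv) hw).1
  have p1 : ∀ ω : Cfg, |avg W f (c1 ω) ω.2 ω.2 - fl ω| ≤ 2 * C * nBlk m N1 ω := by
    intro ω
    unfold nBlk
    split_ifs with hb
    · rw [hfl, avg_loc hf.depA (stay_of_blk hb hW), sub_self, abs_zero, mul_zero]
    · rw [mul_one]
      refine (abs_sub _ _).trans ?_
      linarith [abs_avg_le hC (W := W) (c1 ω) ω.2 ω.2, hflC ω]
  have p2 : ∀ ω : Cfg, |avg W' g (c1 ω) ω.2 ω.2 - gl ω| ≤ 2 * D * nBlk N3 N4 ω := by
    intro ω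
    unfold nBlk
    split_ifs with hb
    · rw [hgl, avg_locO hg.depA (hstay ω hb), sub_self, abs_zero, mul_zero]
    · rw [mul_one]
      refine (abs_sub _ _).trans ?_
      linarith [abs_avg_le hD (W := W') (c1 ω) ω.2 ω.2, hglD ω]
  have p3 : ∀ ω : Cfg, |avg (W ∪ W') (fun s a z => f s a z * g s a z) (c1 ω) ω.2 ω.2 - fl ω * gl ω| ≤
      2 * C * D * (nBlk m N1 ω + nBlk N3 N4 ω) := by
    intro ω
    have hbd : |avg (W ∪ W') (fun s a z => f s a z * g s a z) (c1 ω) ω.2 ω.2 - fl ω * gl ω| ≤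
        2 * C * D := by
      refine (abs_sub _ _).trans ?_
      have h5 : |avg (W ∪ W') (fun s a z => f s a z * g s a z) (c1 ω) ω.2 ω.2| ≤ C * D :=
        abs_avg_le (fun s a z => by
          rw [abs_mul]
          exact mul_le_mul (hC _ _ _) (hD _ _ _) (abs_nonneg _) hC0) _ _ _
      have h6 : |fl ω * gl ω| ≤ C * D := by
        rw [abs_mul]
        exact mul_le_mul (hflC ω) (hglD ω) (abs_nonneg _) hC0
      linarith
    have hCD : 0 ≤ 2 * C * D := by positivity
    by_cases hb : Blk m N1 ω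
    · by_cases hb' : Blk N3 N4 ω
      · have hd : ∀ v ∈ W, ∀ w ∈ W', ¬ OConn ω.2 v w := by
          intro v hv w hw hvw
          rcases oConn_loc_end (stay_of_blk hb hW v hv w hvw) with h4 | ⟨t, h4, h5⟩
          · refine hW' w hw w (mem_up'.2 (Or.inl rfl)) ?_
            rw [h4]
            exact hexB_mono (h01.trans (h12.trans (h23.trans h34)))
              (hW v hv v (mem_up'.2 (Or.inl rfl)))
          · exact hW' w hw t h5 (hexB_mono (h12.trans (h23.trans h34)) h4)
        rw [avg_prod hf.depA hg.depA hd]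
        have h6 : avg W f (c1 ω) ω.2 ω.2 = fl ω := avg_loc hf.depA (stay_of_blk hb hW)
        have h7 : avg W' g (c1 ω) ω.2 ω.2 = gl ω := avg_locO hg.depA (hstay ω hb')
        rw [h6, h7, sub_self, abs_zero]
        exact mul_nonneg hCD (add_nonneg (nBlk_nonneg _ _ _) (nBlk_nonneg _ _ _))
      · have h4 : nBlk N3 N4 ω = 1 := if_neg hb'
        refine hbd.trans ?_
        rw [h4]
        nlinarith [nBlk_nonneg m N1 ω]
    · have h4 : nBlk m N1 ω = 1 := if_neg hb
      refine hbd.trans ?_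
      rw [h4]
      nlinarith [nBlk_nonneg N3 N4 ω]
  have n1 : E c F (nBlk m N1) ≤ b1 := nBlk_le_bt hc hF hN1
  have n4 : E c F (nBlk N3 N4) ≤ b4 := nBlk_le_bt hc hF hN
  have q1 : |E c F (fun ω => avg W f (c1 ω) ω.2 ω.2) - E c F fl| ≤ 2 * C * b1 := by
    refine (E_sub_abs hc p1).trans ?_
    rw [E_smul]
    exact mul_le_mul_of_nonneg_left n1 (by positivity)
  have q2 : |E c F (fun ω => avg W' g (c1 ω) ω.2 ω.2) - E c F gl| ≤ 2 * D * b4 := by
    refine (E_sub_abs hc p2).trans ?_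
    rw [E_smul]
    exact mul_le_mul_of_nonneg_left n4 (by positivity)
  have q3 : |E c F (fun ω => avg (W ∪ W') (fun s a z => f s a z * g s a z) (c1 ω) ω.2 ω.2) -
      E c F (fun ω => fl ω * gl ω)| ≤ 2 * C * D * (b1 + b4) := by
    refine (E_sub_abs hc p3).trans ?_
    rw [E_smul, E_add]
    exact mul_le_mul_of_nonneg_left (add_le_add n1 n4) (by positivity)
  have hin : InTZ (hexB N1) fl := inTZ_avg h01 hW hf
  have hoff : OffTZ (hexB N3) gl := offTZ_avg h34 hW' hg
  have q4 := dec_tz hc h3 hF (M1 := N2) hN3 hin hflC hoff hglD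
  have q5 := dec_tz hc h3 hF (M1 := N2) hN3 hin hflC (g := fun _ => 1) (fun _ _ _ _ => rfl) (D := 1)
    (fun _ => by rw [abs_one])
  rw [E_const hc, one_mul, one_mul] at q5
  have e5 : (fun ω => (1 : ℝ) * fl ω) = fl := by funext ω; rw [one_mul]
  rw [e5] at q5
  have e6 : (fun ω => gl ω * fl ω) = fun ω => fl ω * gl ω := by funext ω; rw [mul_comm]
  rw [e6] at q4
  set a := E c (hexB N2) (fun ω => fl (addH 2 ω)) with ha
  rw [← hb2, ← hb3] at q4 q5
  set X := E c F (fun ω => avg (W ∪ W') (fun s a z => f s a z * g s a z) (c1 ω) ω.2 ω.2) with hX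
  set Y := E c F (fun ω => fl ω * gl ω) with hY
  set Ef := E c F (fun ω => avg W f (c1 ω) ω.2 ω.2) with hEf
  set Eg := E c F (fun ω => avg W' g (c1 ω) ω.2 ω.2) with hEg
  have r1 : |E c F fl| ≤ C := by
    refine (E_abs_le hc hflC).trans ?_
    rw [E_const hc]
  have r2 : |E c F gl| ≤ D := by
    refine (E_abs_le hc hglD).trans ?_
    rw [E_const hc]
  have r3 : |Eg| ≤ D := by
    refine (E_abs_le hc (g := fun _ => D) fun ω => abs_avg_le hD _ _ _).trans ?_
    rw [E_const hc]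
  have s1 : |E c F gl * a - E c F gl * E c F fl| ≤ D * (4 * C * b2 + 2 * C * b3) := by
    rw [← mul_sub, abs_mul, abs_sub_comm a]
    exact mul_le_mul r2 q5 (abs_nonneg _) hD0
  have s2 : |E c F gl * E c F fl - Ef * Eg| ≤ C * (2 * D * b4) + D * (2 * C * b1) := by
    have h4 : E c F gl * E c F fl - Ef * Eg = -(E c F fl * (Eg - E c F gl)) - Eg * (Ef - E c F fl) := by
      ring
    rw [h4]
    refine (abs_sub _ _).trans ?_
    rw [abs_neg, abs_mul, abs_mul]
    exact add_le_add (mul_le_mul r1 q2 (abs_nonneg _) hC0) (mul_le_mul r3 q1 (abs_nonneg _) hD0)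
  have t1 : X - Ef * Eg = (X - Y) + (Y - E c F gl * a) + (E c F gl * a - E c F gl * E c F fl) +
      (E c F gl * E c F fl - Ef * Eg) := by ring
  rw [t1]
  have t2 := abs_add_le ((X - Y) + (Y - E c F gl * a) + (E c F gl * a - E c F gl * E c F fl))
    (E c F gl * E c F fl - Ef * Eg)
  have t3 := abs_add_le ((X - Y) + (Y - E c F gl * a)) (E c F gl * a - E c F gl * E c F fl)
  have t4 := abs_add_le (X - Y) (Y - E c F gl * a)
  have hCD : 0 ≤ C * D := by positivity
  have u1 := mul_nonneg hCD hb1'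
  have u2 := mul_nonneg hCD hb2'
  have u3 := mul_nonneg hCD hb3'
  have u4 := mul_nonneg hCD hb4'
  nlinarith [u1, u2, u3, u4]

end Crest.Agent.R144.Mix880
end
end

-- ▼ part R144/Mix5_880
section

/-!
# R144, mixing (helper880), part 5: gradient observables, plane law

* `cov_F` : covariance of a gradient observable in `hexB m` and one off `hexB (N4 + 1)` under `E c F`;
* `cov_P` : the same for the plane law; `cov_ball` : any centre;
* `bt_le`, `four_scales` : power rate from `RSW c K p`.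
-/

set_option autoImplicit false

noncomputable section

namespace Crest.Agent.R144.Mix880

open Finset Filter Topology MeasureTheory
open Crest.Agent.R144.It844 (P2 Lip adj_symm adj_iff adj_comm ex)
open Crest.ProbabilityR.HexHeights (Adj)
open Crest.Agent.R144.Zg349 Crest.Agent.R144.Zk349 Crest.Agent.R144.Zd349 Crest.Agent.R144.Zm349
open Crest.Agent.R144.Ze349 Crest.Agent.R144.Zf349
open Crest.Agent.R144.Pst967 (Hz hexB mem_hexB hexB_mono Bs Blk nBlk nBlk_nonneg nBlk_le incP_nBlk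
  conn_hexB hexB_mem_scs DepW LocZ NeutZ GObs FLim lC mem_lC scs cls_scs mem_lC_of_subset c1 c2 subset_VF
  conn_in_hexB path_symm gobs_bounded integrable_gobs PinnedZ ZeroLim trE sym_trE actZ XStep Xs
  exists_kernel)

/-! ### gradient observables on connected windows -/

theorem grad_of_colours_on {W : Finset P2} (hW : IsConn (W : Set P2)) {h h' : Hz} (hl : Lip h)
    (hl' : Lip h') (h1 : ∀ v ∈ W, s1 (h v) = s1 (h' v)) (h2 : ∀ v ∈ W, s2 (h v) = s2 (h' v)) {v w : P2}
    (hv : v ∈ W) (hw : w ∈ W) : h v - h' v = h w - h' w := by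
  have key : ∀ w, Relation.ReflTransGen (StepIn (W : Set P2)) v w → h v - h' v = h w - h' w := by
    intro w hw
    induction hw with
    | refl => rfl
    | @tail a b _ h3 ih =>
      rw [ih]
      have e1 := hl a b h3.2.2
      have e2 := hl' a b h3.2.2
      have m1 := mod4_of_s (h1 a h3.1) (h2 a h3.1)
      have m2 := mod4_of_s (h1 b h3.2.1) (h2 b h3.2.1)
      rw [abs_le] at e1 e2
      omega
  exact key w (hW v hv w hw)

theorem exists_colour_on {W : Finset P2} (hW : IsConn (W : Set P2)) {f : Hz → ℝ}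
    (hS : LocZ (W : Set P2) f) (hN : NeutZ f) {C : ℝ} (hC : ∀ h, Lip h → |f h| ≤ C) :
    ∃ g : (P2 → Bool) → (P2 → Bool) → (P2 → Bool) → ℝ, DepW W g ∧ (∀ s a z, |g s a z| ≤ C) ∧
      ∀ h : Hz, Lip h → ∀ z, g (fun v => s1 (h v)) (fun v => s2 (h v)) z = f h := by
  classical
  have hC0 : 0 ≤ C := (abs_nonneg _).trans (hC (fun _ => 0) (Crest.Agent.R144.It844.lip_const 0))
  let Q : (P2 → Bool) → (P2 → Bool) → Hz → Prop := fun s a h =>
    Lip h ∧ (∀ v ∈ W, s1 (h v) = s v) ∧ ∀ v ∈ W, s2 (h v) = a v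
  let g : (P2 → Bool) → (P2 → Bool) → (P2 → Bool) → ℝ := fun s a _ =>
    if hh : ∃ h, Q s a h then f (Classical.choose hh) else 0
  have hval : ∀ s a z h, Q s a h → g s a z = f h := by
    intro s a z h hQ
    have hh : ∃ h, Q s a h := ⟨h, hQ⟩
    have h1 : g s a z = f (Classical.choose hh) := dif_pos hh
    rw [h1]
    have h2 := Classical.choose_spec hh
    set k := Classical.choose hh
    rcases W.eq_empty_or_nonempty with h0 | ⟨w, hw⟩
    · exact hS _ _ fun v hv => by rw [h0] at hv; simp at hv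
    · have h3 : ∀ v ∈ W, k v - h v = k w - h w := fun v hv =>
        grad_of_colours_on hW h2.1 hQ.1 (fun v hv => (h2.2.1 v hv).trans (hQ.2.1 v hv).symm)
          (fun v hv => (h2.2.2 v hv).trans (hQ.2.2 v hv).symm) hv hw
      rw [← hN h (k w - h w)]
      refine hS _ _ fun v hv => ?_
      have := h3 v hv
      omega
  refine ⟨g, ⟨fun s s' a a' z z' e1 e2 _ => ?_⟩, fun s a z => ?_, fun h hl z =>
    hval _ _ z h ⟨hl, fun _ _ => rfl, fun _ _ => rfl⟩⟩
  · by_cases hh : ∃ h, Q s a h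
    · obtain ⟨h, hQ⟩ := hh
      have hQ' : Q s' a' h := ⟨hQ.1, fun v hv => (hQ.2.1 v hv).trans (e1 v hv),
        fun v hv => (hQ.2.2 v hv).trans (e2 v hv)⟩
      rw [hval s a z h hQ, hval s' a' z' h hQ']
    · have hh' : ¬ ∃ h, Q s' a' h := by
        rintro ⟨h, hQ⟩
        exact hh ⟨h, hQ.1, fun v hv => (hQ.2.1 v hv).trans (e1 v hv).symm,
          fun v hv => (hQ.2.2 v hv).trans (e2 v hv).symm⟩
      simp only [g, dif_neg hh, dif_neg hh']
  · by_cases hh : ∃ h, Q s a h
    · have h1 : g s a z = f (Classical.choose hh) := dif_pos hh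
      rw [h1]
      exact hC _ (Classical.choose_spec hh).1
    · have h1 : g s a z = 0 := dif_neg hh
      rw [h1, abs_zero]
      exact hC0

theorem isConn_hexB (n : ℕ) : IsConn (hexB n : Set P2) := fun _ hu _ hv =>
  (conn_in_hexB n hu).trans (path_symm (conn_in_hexB n hv))

/-- a finite set in a connected set is contained in a finite connected subset -/
theorem exists_conn_cover {S : Set P2} (hS : IsConn S) (T : Finset P2) (hT : (T : Set P2) ⊆ S) :
    ∃ W : Finset P2, (W : Set P2) ⊆ S ∧ T ⊆ W ∧ IsConn (W : Set P2) := by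
  classical
  induction T using Finset.induction_on with
  | empty => exact ⟨∅, by simp, by simp, fun u hu => by simp at hu⟩
  | insert a T ha ih =>
    obtain ⟨W, h1, h2, h3⟩ := ih fun x hx => hT (by
      rw [Finset.coe_insert]; exact Or.inr hx)
    have haS : a ∈ S := hT (by rw [Finset.coe_insert]; exact Or.inl rfl)
    rcases W.eq_empty_or_nonempty with h0 | ⟨w, hw⟩
    · refine ⟨{a}, by simpa using haS, ?_, ?_⟩
      · rw [h0, Finset.subset_empty] at h2
        rw [h2]
        simp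
      · intro u hu v hv
        rw [Finset.coe_singleton, Set.mem_singleton_iff] at hu hv
        rw [hu, hv]
    · obtain ⟨P, hP, haP, hwP, hp⟩ := path_finset haS (hS a haS w (h1 hw))
      -- every element of `P` should be joined to `a` inside `P`: take the reachable part
      let R : Finset P2 := P.filter fun x => Relation.ReflTransGen (StepIn (P : Set P2)) a x
      have hR : ∀ x ∈ R, Relation.ReflTransGen (StepIn ((W ∪ R : Finset P2) : Set P2)) a x := by
        intro x hx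
        have hx' := (Finset.mem_filter.1 hx).2
        have key : ∀ y, Relation.ReflTransGen (StepIn (P : Set P2)) a y →
            Relation.ReflTransGen (StepIn ((W ∪ R : Finset P2) : Set P2)) a y := by
          intro y hy
          induction hy with
          | refl => exact Relation.ReflTransGen.refl
          | @tail b d hb hbd ih2 =>
            refine ih2.tail ⟨?_, ?_, hbd.2.2⟩
            · exact Finset.mem_coe.2 (Finset.mem_union_right _ (Finset.mem_filter.2 ⟨hbd.1, hb⟩))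
            · exact Finset.mem_coe.2 (Finset.mem_union_right _
                (Finset.mem_filter.2 ⟨hbd.2.1, hb.tail hbd⟩))
        exact key x hx'
      have hwR : w ∈ R := Finset.mem_filter.2 ⟨hwP, hp⟩
      have haR : a ∈ R := Finset.mem_filter.2 ⟨haP, Relation.ReflTransGen.refl⟩
      have hmono : ∀ u v, Relation.ReflTransGen (StepIn (W : Set P2)) u v →
          Relation.ReflTransGen (StepIn ((W ∪ R : Finset P2) : Set P2)) u v := fun u v h =>
        Relation.ReflTransGen.mono (fun x y hxy =>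
          ⟨Finset.mem_coe.2 (Finset.mem_union_left _ (Finset.mem_coe.1 hxy.1)),
            Finset.mem_coe.2 (Finset.mem_union_left _ (Finset.mem_coe.1 hxy.2.1)), hxy.2.2⟩) _ _ h
      have hall : ∀ u ∈ W ∪ R, Relation.ReflTransGen (StepIn ((W ∪ R : Finset P2) : Set P2)) a u := by
        intro u hu
        rcases Finset.mem_union.1 hu with hu | hu
        · exact (hR w hwR).trans (hmono _ _ (h3 w hw u hu))
        · exact hR u hu
      refine ⟨W ∪ R, ?_, ?_, fun u hu v hv => ?_⟩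
      · rw [Finset.coe_union]
        exact Set.union_subset h1 fun x hx => hP (Finset.mem_coe.2
          (Finset.mem_filter.1 (Finset.mem_coe.1 hx)).1)
      · intro x hx
        rcases Finset.mem_insert.1 hx with rfl | hx
        · exact Finset.mem_union_right _ haR
        · exact Finset.mem_union_left _ (h2 hx)
      · exact (path_symm (hall u hu)).trans (hall v hv)

theorem tri_in {m : ℕ} {v : P2} (hv : v ∈ hexB m) {t : P2} (ht : v ∈ up t) : t ∈ hexB (m + 1) := by
  rw [mem_up'] at ht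
  rw [mem_hexB] at hv ⊢
  simp only [abs_le] at *
  push_cast
  rcases ht with rfl | rfl | rfl
  · omega
  · simp only at *
    omega
  · simp only at *
    omega

theorem tri_out {m : ℕ} {v : P2} (hv : v ∉ hexB (m + 1)) {t : P2} (ht : v ∈ up t) : t ∉ hexB m := by
  intro h
  apply hv
  rw [mem_up'] at ht
  rw [mem_hexB] at h ⊢
  simp only [abs_le] at *
  push_cast
  rcases ht with rfl | rfl | rfl
  · omega
  · simp only at *
    omega
  · simp only at *
    omega

/-- the total rate -/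
def rt (c : ℝ) (m N1 N2 N3 N4 : ℕ) : ℝ :=
  bt c m N1 + bt c (N1 + 1) N2 + bt c (N2 + 1) N3 + bt c N3 N4

/-- **Covariance under the F-type laws.** -/
theorem cov_F {c : ℝ} (hc : 1 ≤ c) (h3 : F3m c) {F : Finset P2} (hF : SC F) {m N1 N2 N3 N4 : ℕ}
    (h01 : m + 1 ≤ N1) (h12 : N1 ≤ N2) (h23 : N2 ≤ N3) (h34 : N3 ≤ N4) (hN : hexB N4 ⊆ F)
    {W' : Finset P2} (hWc : IsConn (W' : Set P2)) (hWF : W' ⊆ VF F)
    (hW' : ∀ v ∈ W', v ∉ hexB (N4 + 1)) {f g : Hz → ℝ} (hf : LocZ (hexB m : Set P2) f)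
    (hfN : NeutZ f) (hg : LocZ (W' : Set P2) g) (hgN : NeutZ g) {C D : ℝ}
    (hC : ∀ h, Lip h → |f h| ≤ C) (hD : ∀ h, Lip h → |g h| ≤ D) :
    |E c F (fun ω => f ω.1 * g ω.1) - E c F (fun ω => f ω.1) * E c F (fun ω => g ω.1)| ≤
      8 * C * D * rt c (m + 1) N1 N2 N3 N4 := by
  obtain ⟨φ, p1, p2, p3⟩ := exists_colour_on (isConn_hexB m) hf hfN hC
  obtain ⟨γ, q1, q2, q3⟩ := exists_colour_on hWc hg hgN hD
  have h1 := dec_col hc h3 hF h01 h12 h23 h34 hN hWF (fun v hv t ht => tri_in hv ht)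
    (fun v hv t ht => tri_out (hW' v hv) ht) p1 q1 p2 q2
  have e1 : E c F (fun ω => φ (c1 ω) (c2 ω) ω.2) = E c F (fun ω => f ω.1) :=
    E_congr fun ω hω => p3 ω.1 hω.ht.toLip ω.2
  have e2 : E c F (fun ω => γ (c1 ω) (c2 ω) ω.2) = E c F (fun ω => g ω.1) :=
    E_congr fun ω hω => q3 ω.1 hω.ht.toLip ω.2
  have e3 : E c F (fun ω => φ (c1 ω) (c2 ω) ω.2 * γ (c1 ω) (c2 ω) ω.2) =
      E c F (fun ω => f ω.1 * g ω.1) :=
    E_congr fun ω hω => by
      have a1 := p3 ω.1 hω.ht.toLip ω.2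
      have a2 := q3 ω.1 hω.ht.toLip ω.2
      show φ (fun v => s1 (ω.1 v)) (fun v => s2 (ω.1 v)) ω.2 *
        γ (fun v => s1 (ω.1 v)) (fun v => s2 (ω.1 v)) ω.2 = _
      rw [a1, a2]
  rw [e1, e2, e3] at h1
  exact h1

/-- **Covariance under the plane law.** -/
theorem cov_P {c : ℝ} (hc : 1 ≤ c) (h3 : F3m c) {P : Measure Hz}
    (hP : ∀ f : Hz → ℝ, GObs f → FLim c f (∫ h, f h ∂P)) {m N1 N2 N3 N4 : ℕ}
    (h01 : m + 1 ≤ N1) (h12 : N1 ≤ N2) (h23 : N2 ≤ N3) (h34 : N3 ≤ N4) {S : Finset P2}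
    (hS : ∀ v ∈ S, v ∉ hexB (N4 + 1)) {f g : Hz → ℝ} (hf : LocZ (hexB m : Set P2) f)
    (hfN : NeutZ f) (hg : LocZ (S : Set P2) g) (hgN : NeutZ g) {C D : ℝ}
    (hC : ∀ h, Lip h → |f h| ≤ C) (hD : ∀ h, Lip h → |g h| ≤ D) :
    |∫ h, f h * g h ∂P - (∫ h, f h ∂P) * ∫ h, g h ∂P| ≤ 8 * C * D * rt c (m + 1) N1 N2 N3 N4 := by
  have hne := cls_scs.neBot
  obtain ⟨W, hW1, hW2, hW3⟩ := exists_conn_cover (conn_hexB (N4 + 1)) S
    (fun v hv => by
      rw [Set.mem_compl_iff, Finset.mem_coe]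
      exact hS v hv)
  have hfG : GObs f := ⟨⟨_, hf⟩, hfN⟩
  have hgG : GObs g := ⟨⟨_, hg⟩, hgN⟩
  have hfgG : GObs (fun h => f h * g h) := hfG.map₂ hgG (fun a b => a * b)
  have t1 := hP _ hfgG
  have t2 := hP _ hfG
  have t3 := hP _ hgG
  unfold FLim at t1 t2 t3
  have t4 := (t1.sub (t2.mul t3)).abs
  refine le_of_tendsto t4 ?_
  filter_upwards [mem_lC_of_subset W, mem_lC_of_subset (hexB N4),
    mem_inf_of_right (mem_principal_self scs)] with F k1 k2 k3
  exact cov_F hc h3 k3 h01 h12 h23 h34 k2 hW3 (subset_VF k1)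
    (fun v hv => by
      have := hW1 (Finset.mem_coe.2 hv)
      rwa [Set.mem_compl_iff, Finset.mem_coe] at this) hf hfN
    (hg.mono fun v hv => Finset.mem_coe.2 (hW2 (Finset.mem_coe.1 hv))) hgN hC hD

/-! ### rates -/

theorem blk_anti967 {m N N' : ℕ} (h : N ≤ N') {ω : Cfg} (hb : Blk m N ω) : Blk m N' ω := by
  rintro t ht ⟨t0, h1, h2⟩
  exact hb t ht ⟨t0, fun h3 => h1 (hexB_mono h h3), h2⟩

theorem nBlk_anti {m N N' : ℕ} (h : N ≤ N') (ω : Cfg) : nBlk m N' ω ≤ nBlk m N ω := by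
  unfold nBlk
  split_ifs with h1 h2 h2
  · exact le_rfl
  · norm_num
  · exact absurd (blk_anti967 h h2) h1
  · exact le_rfl

theorem nBlk_le_ind {m N : ℕ} (hmN : m ≤ N + 1) (ω : Cfg) :
    nBlk m (N + 1) ω ≤ Rsw867.ind (Rsw867.Blk 0 m N)ᶜ ω := by
  by_cases h : ω ∈ Rsw867.Blk 0 m N
  · have hb : Blk m (N + 1) ω := by
      rintro t ht ⟨t0, h1, h2⟩
      have key : ∀ t, Relation.ReflTransGen (XStep ω) t0 t → t = t0 ∨ (¬ mC ω t ∧
          ∃ u, u ∉ Rsw867.ball 0 N ∧ Relation.ReflTransGen (StepIn {t | mC ω t}ᶜ) u t) := by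
        intro t ht
        induction ht with
        | refl => exact Or.inl rfl
        | @tail b d _ h4 ih =>
          right
          refine ⟨h4.2, ?_⟩
          rcases ih with rfl | ⟨h5, u, h6, h7⟩
          · refine ⟨d, fun h5 => h1 ?_, Relation.ReflTransGen.refl⟩
            rw [Rsw867.ball_zero_eq] at h5
            exact adj_hexB h5 (adj_symm h4.1)
          · exact ⟨u, h6, h7.tail ⟨h5, h4.2, h4.1⟩⟩
      rcases key t h2 with rfl | ⟨_, u, h6, h7⟩
      · exact h1 (hexB_mono hmN ht)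
      · exact h u t h6 (by rw [Rsw867.ball_zero_eq]; exact ht) h7
    have h0 : nBlk m (N + 1) ω = 0 := if_pos hb
    rw [h0]
    exact Rsw867.ind_nonneg _ _
  · rw [Rsw867.ind_of_mem (show ω ∈ (Rsw867.Blk 0 m N)ᶜ from h)]
    exact nBlk_le _ _ _

theorem bt_le_one {c : ℝ} (hc : 1 ≤ c) (m N : ℕ) : bt c m N ≤ 1 := by
  unfold bt
  rw [← E_const hc (hexB N) 1]
  exact E_mono hc fun ω _ => nBlk_le _ _ _

theorem bt_decay {c : ℝ} (hc : 1 ≤ c) {K : ℕ} {p : ℝ} (h : Rsw867.RSW c K p) :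
    ∃ C α : ℝ, 1 ≤ C ∧ 0 < α ∧ ∀ m N : ℕ, 1 ≤ m → 1 ≤ N → bt c m N ≤ C * ((m : ℝ) / N) ^ α := by
  obtain ⟨C, α, hC, hα, hd⟩ := h.decay hc
  have hK : (4 : ℝ) ≤ K := by exact_mod_cast h.K4
  have hK1 : 1 ≤ K := le_trans (by norm_num) h.K4
  refine ⟨C * (2 * K) ^ α, α, ?_, hα, fun m N hm hN => ?_⟩
  · have : (1 : ℝ) ≤ (2 * K) ^ α := Real.one_le_rpow (by linarith) hα.le
    nlinarith
  have hm' : (1 : ℝ) ≤ m := by exact_mod_cast hm
  have hN' : (1 : ℝ) ≤ N := by exact_mod_cast hN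
  have hrew : C * (2 * K : ℝ) ^ α * ((m : ℝ) / N) ^ α = C * (2 * K * (m / N)) ^ α := by
    rw [mul_assoc, ← Real.mul_rpow (by positivity) (by positivity)]
  rw [hrew]
  by_cases hbig : (1 : ℝ) ≤ 2 * K * (m / N)
  · refine (bt_le_one hc m N).trans ?_
    have : (1 : ℝ) ≤ (2 * K * (m / N)) ^ α := Real.one_le_rpow hbig hα.le
    nlinarith
  · push Not at hbig
    have h1 : (2 * K * m : ℝ) < N := by
      have h2 : (2 * K * (m / N) : ℝ) = 2 * K * m / N := by ring
      rw [h2, div_lt_one (by linarith)] at hbig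
      exact hbig
    have h1' : 2 * K * m < N := by exact_mod_cast h1
    set N' := (N - 1) / K with hN'def
    have hK0 : 0 < K := hK1
    have a1 : K * N' ≤ N - 1 := Nat.mul_div_le _ _
    have a2 : N - 1 < K * (N' + 1) := by
      have := Nat.lt_mul_div_succ (N - 1) hK0
      exact this
    have a3 : 2 * m ≤ N' + 1 := by
      by_contra h4
      push Not at h4
      have h5 : K * (N' + 1) ≤ K * (2 * m - 1) := Nat.mul_le_mul_left _ (by omega)
      have h6 : K * (2 * m - 1) + K = 2 * K * m := by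
        obtain ⟨k, rfl⟩ : ∃ k, m = k + 1 := ⟨m - 1, by omega⟩
        have : 2 * (k + 1) - 1 = 2 * k + 1 := by omega
        rw [this]
        ring
      omega
    have a4 : 1 ≤ N' := by omega
    have a5 : N' + 1 ≤ N := by
      have : 4 * N' ≤ K * N' := Nat.mul_le_mul_right _ h.K4
      omega
    have b1 : bt c m N ≤ E c (hexB N) (Rsw867.ind (Rsw867.Blk 0 m N')ᶜ) := by
      unfold bt
      exact E_mono hc fun ω _ => (nBlk_anti a5 ω).trans (nBlk_le_ind (by omega) ω)
    have hsub : Rsw867.ball 0 (K * N') ⊆ hexB N := by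
      rw [Rsw867.ball_zero_eq]
      exact hexB_mono (by omega)
    have b2 := hd m N' hm a4 0 (hexB N) (conn_hexB N) hsub (fun _ => 1) (fun _ => zero_le_one)
      (Rsw867.offTZ_one _)
    rw [E_const hc, mul_one] at b2
    simp only [one_mul] at b2
    refine b1.trans (b2.trans ?_)
    refine mul_le_mul_of_nonneg_left ?_ (by linarith)
    refine Real.rpow_le_rpow (by positivity) ?_ hα.le
    have a6 : (N : ℝ) ≤ 2 * K * N' := by
      have h7 : N ≤ K * (N' + 1) := by omega
      have h8 : K * (N' + 1) ≤ 2 * K * N' := by nlinarith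
      exact_mod_cast h7.trans h8
    have hN'0 : (0 : ℝ) < N' := by exact_mod_cast a4
    rw [div_le_iff₀ hN'0]
    have : (2 * K * (m / N) * N' : ℝ) = m * (2 * K * N' / N) := by ring
    rw [this]
    have h9 : (1 : ℝ) ≤ 2 * K * N' / N := by rwa [one_le_div (by linarith)]
    nlinarith

theorem four_scales {c C α : ℝ} (hC : 1 ≤ C) (hα : 0 < α)
    (h : ∀ m N : ℕ, 1 ≤ m → 1 ≤ N → bt c m N ≤ C * ((m : ℝ) / N) ^ α) {M N : ℕ} (hM : 1 ≤ M)
    (hMN : M ≤ N) : ∃ N1 N2 N3 : ℕ, M ≤ N1 ∧ N1 ≤ N2 ∧ N2 ≤ N3 ∧ N3 ≤ N ∧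
      rt c M N1 N2 N3 N ≤ 4 * C * 4 ^ α * ((M : ℝ) / N) ^ (α / 4) := by
  have hM' : (1 : ℝ) ≤ M := by exact_mod_cast hM
  have hN1 : 1 ≤ N := hM.trans hMN
  have hN' : (1 : ℝ) ≤ N := by exact_mod_cast hN1
  have hMN' : (M : ℝ) ≤ N := by exact_mod_cast hMN
  set r : ℝ := ((N : ℝ) / M) ^ (1 / 4 : ℝ) with hr
  have hNM : (1 : ℝ) ≤ (N : ℝ) / M := (one_le_div (by linarith)).2 hMN'
  have hr1 : 1 ≤ r := Real.one_le_rpow hNM (by norm_num)
  have hr4 : r ^ 4 = (N : ℝ) / M := by
    rw [hr, ← Real.rpow_natCast, ← Real.rpow_mul (by positivity)]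
    norm_num
  set q := ⌊r⌋₊ with hq
  have hq1 : 1 ≤ q := (Nat.one_le_floor_iff r).2 hr1
  have hq1' : (1 : ℝ) ≤ q := by exact_mod_cast hq1
  have hqr : (q : ℝ) ≤ r := Nat.floor_le (by linarith)
  have hrq : r < q + 1 := Nat.lt_floor_add_one r
  have hq4 : (M : ℝ) * q ^ 4 ≤ N := by
    have h1 : (q : ℝ) ^ 4 ≤ r ^ 4 := pow_le_pow_left₀ (by linarith) hqr 4
    rw [hr4] at h1
    have h2 := mul_le_mul_of_nonneg_left h1 (by linarith : (0 : ℝ) ≤ M)
    rwa [mul_div_cancel₀ _ (by linarith : (M : ℝ) ≠ 0)] at h2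
  have hq4' : M * q ^ 4 ≤ N := by exact_mod_cast hq4
  have e1 : M ≤ M * q := Nat.le_mul_of_pos_right _ hq1
  have e2 : M * q ≤ M * q ^ 2 := by
    rw [pow_two, ← mul_assoc]
    exact Nat.le_mul_of_pos_right _ hq1
  have e3 : M * q ^ 2 ≤ M * q ^ 3 := by
    rw [pow_succ q 2, ← mul_assoc]
    exact Nat.le_mul_of_pos_right _ hq1
  have e4 : M * q ^ 3 ≤ N := by
    refine le_trans ?_ hq4'
    rw [pow_succ q 3, ← mul_assoc]
    exact Nat.le_mul_of_pos_right _ hq1
  refine ⟨M * q, M * q ^ 2, M * q ^ 3, e1, e2, e3, e4, ?_⟩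
  have hb : ∀ x : ℝ, 0 ≤ x → x ≤ 2 / q → C * x ^ α ≤ C * 4 ^ α * ((M : ℝ) / N) ^ (α / 4) := by
    intro x hx0 hx
    rw [mul_assoc]
    refine mul_le_mul_of_nonneg_left ?_ (by linarith)
    have h1 : x ≤ 4 * r⁻¹ := by
      refine hx.trans ?_
      rw [div_le_iff₀ (by linarith)]
      have : (4 * r⁻¹ * q : ℝ) = 4 * (q / r) := by ring
      rw [this]
      have h2 : (1 / 2 : ℝ) ≤ q / r := by
        rw [div_le_div_iff₀ (by norm_num) (by linarith)]
        linarith
      linarith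
    refine (Real.rpow_le_rpow hx0 h1 hα.le).trans ?_
    rw [Real.mul_rpow (by norm_num) (by positivity)]
    refine mul_le_mul_of_nonneg_left ?_ (by positivity)
    have h3 : r⁻¹ = ((M : ℝ) / N) ^ (1 / 4 : ℝ) := by
      rw [hr, ← Real.inv_rpow (by positivity), inv_div]
    rw [h3, ← Real.rpow_mul (by positivity)]
    have : (1 / 4 : ℝ) * α = α / 4 := by ring
    rw [this]
  have hMq : (0 : ℝ) < M * q := by positivity
  have g1 : bt c M (M * q) ≤ C * 4 ^ α * ((M : ℝ) / N) ^ (α / 4) := by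
    refine (h M (M * q) hM (by omega)).trans (hb _ (by positivity) ?_)
    push_cast
    rw [div_le_div_iff₀ hMq (by linarith)]
    nlinarith
  have g2 : bt c (M * q + 1) (M * q ^ 2) ≤ C * 4 ^ α * ((M : ℝ) / N) ^ (α / 4) := by
    refine (h _ _ (by omega) (by omega)).trans (hb _ (by positivity) ?_)
    push_cast
    rw [div_le_div_iff₀ (by positivity) (by linarith)]
    nlinarith
  have g3 : bt c (M * q ^ 2 + 1) (M * q ^ 3) ≤ C * 4 ^ α * ((M : ℝ) / N) ^ (α / 4) := by
    refine (h _ _ (by omega) (by omega)).trans (hb _ (by positivity) ?_)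
    push_cast
    rw [div_le_div_iff₀ (by positivity) (by linarith)]
    have h5 : (1 : ℝ) ≤ M * q ^ 2 := by
      have : (1 : ℝ) ≤ (q : ℝ) ^ 2 := one_le_pow₀ hq1'
      nlinarith
    nlinarith [mul_le_mul_of_nonneg_right h5 (by linarith : (0 : ℝ) ≤ q)]
  have g4 : bt c (M * q ^ 3) N ≤ C * 4 ^ α * ((M : ℝ) / N) ^ (α / 4) := by
    refine (h _ _ (by omega) hN1).trans (hb _ (by positivity) ?_)
    push_cast
    rw [div_le_div_iff₀ (by linarith) (by linarith)]
    nlinarith
  unfold rt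
  linarith

/-- **MIXING OF THE PLANE LAW** with a power rate, balls with any centre. -/
theorem cov_ball {c x : ℝ} (hc : 1 ≤ c) (h3 : F3m c) {K : ℕ} {p : ℝ} (hR : Rsw867.RSW c K p)
    {P : Measure Hz} (hZ : PinnedZ P) (hL : ZeroLim x scs P)
    (hP : ∀ f : Hz → ℝ, GObs f → FLim c f (∫ h, f h ∂P)) :
    ∃ C α : ℝ, 1 ≤ C ∧ 0 < α ∧ ∀ (a : P2) (m N : ℕ), 1 ≤ m → 1 ≤ N → ∀ S : Finset P2,
      (∀ v ∈ S, v ∉ Rsw867.ball a N) → ∀ f g : Hz → ℝ, LocZ (Rsw867.ball a m : Set P2) f → NeutZ f →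
      LocZ (S : Set P2) g → NeutZ g → ∀ A B : ℝ, (∀ h, Lip h → |f h| ≤ A) →
      (∀ h, Lip h → |g h| ≤ B) →
      |∫ h, f h * g h ∂P - (∫ h, f h ∂P) * ∫ h, g h ∂P| ≤ C * ((m : ℝ) / N) ^ α * A * B := by
  obtain ⟨C0, α0, hC0, hα0, hbt⟩ := bt_decay hc hR
  have hpr := hZ.prob
  refine ⟨32 * C0 * 4 ^ α0 * 4 ^ (α0 / 4), α0 / 4, ?_, by positivity,
    fun a m N hm hN S hS f g hf hfN hg hgN A B hA hB => ?_⟩
  · have e1 : (1 : ℝ) ≤ 4 ^ α0 := Real.one_le_rpow (by norm_num) hα0.le
    have e2 : (1 : ℝ) ≤ 4 ^ (α0 / 4) := Real.one_le_rpow (by norm_num) (by positivity)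
    have e3 : (1 : ℝ) ≤ 32 * C0 * 4 ^ α0 := by nlinarith
    nlinarith
  have hA0 : 0 ≤ A := (abs_nonneg _).trans (hA (fun _ => 0) (Crest.Agent.R144.It844.lip_const 0))
  have hB0 : 0 ≤ B := (abs_nonneg _).trans (hB (fun _ => 0) (Crest.Agent.R144.It844.lip_const 0))
  have hm' : (1 : ℝ) ≤ m := by exact_mod_cast hm
  have hN' : (1 : ℝ) ≤ N := by exact_mod_cast hN
  -- translate to the origin
  have hcls := cls_scs
  let f' : Hz → ℝ := fun h => f (actZ (trE (-a)) h)
  let g' : Hz → ℝ := fun h => g (actZ (trE (-a)) h)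
  have hfG : GObs f := ⟨⟨_, hf⟩, hfN⟩
  have hgG : GObs g := ⟨⟨_, hg⟩, hgN⟩
  have hfgG : GObs (fun h => f h * g h) := hfG.map₂ hgG (fun a b => a * b)
  have i1 : ∫ h, f' h ∂P = ∫ h, f h ∂P := hL.map hcls (sym_trE (-a)) hfG
  have i2 : ∫ h, g' h ∂P = ∫ h, g h ∂P := hL.map hcls (sym_trE (-a)) hgG
  have i3 : ∫ h, f' h * g' h ∂P = ∫ h, f h * g h ∂P := hL.map hcls (sym_trE (-a)) hfgG
  have act_apply : ∀ (h : Hz) (v : P2), actZ (trE (-a)) h v = h (v + -a) := fun _ _ => rfl
  have hf' : LocZ (hexB m : Set P2) f' := fun h k hk => hf _ _ fun v hv => by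
    rw [act_apply, act_apply]
    refine hk _ ?_
    have := Rsw867.mem_ball'.1 (Finset.mem_coe.1 hv)
    rw [sub_eq_add_neg] at this
    exact Finset.mem_coe.2 this
  have hfN' : NeutZ f' := fun h k => hfN _ k
  have hgN' : NeutZ g' := fun h k => hgN _ k
  let S' : Finset P2 := S.image fun v => v + -a
  have hg' : LocZ (S' : Set P2) g' := fun h k hk => hg _ _ fun v hv => by
    rw [act_apply, act_apply]
    exact hk _ (Finset.mem_coe.2 (Finset.mem_image_of_mem _ (Finset.mem_coe.1 hv)))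
  have hS' : ∀ v ∈ S', v ∉ hexB N := by
    intro v hv hv'
    obtain ⟨w, hw, rfl⟩ := Finset.mem_image.1 hv
    refine hS w hw (Rsw867.mem_ball'.2 ?_)
    rwa [sub_eq_add_neg]
  have lipact : ∀ h : Hz, Lip h → Lip (actZ (trE (-a)) h) := fun h hl =>
    Pst967.lip_actZ (sym_trE (-a)) hl
  have hA' : ∀ h, Lip h → |f' h| ≤ A := fun h hl => hA _ (lipact h hl)
  have hB' : ∀ h, Lip h → |g' h| ≤ B := fun h hl => hB _ (lipact h hl)
  rw [← i1, ← i2, ← i3]
  have hb4 : (1 : ℝ) ≤ 4 ^ α0 := Real.one_le_rpow (by norm_num) hα0.le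
  have hpow : 32 * C0 * 4 ^ α0 * 4 ^ (α0 / 4) * ((m : ℝ) / N) ^ (α0 / 4) =
      32 * C0 * 4 ^ α0 * (4 * ((m : ℝ) / N)) ^ (α0 / 4) := by
    rw [Real.mul_rpow (by norm_num) (by positivity)]
    ring
  rw [hpow]
  by_cases hbig : m + 1 ≤ N - 1
  · -- four scales between `m + 1` and `N - 1`
    obtain ⟨N1, N2, N3, s1, s2, s3, s4, s5⟩ := four_scales hC0 hα0 hbt (M := m + 1) (by omega) hbig
    have key := cov_P hc h3 hP s1 s2 s3 s4 (S := S') (fun v hv hv' => hS' v hv
      (hexB_mono (by omega) hv')) hf' hfN' hg' hgN' hA' hB'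
    refine key.trans ?_
    have h5 : rt c (m + 1) N1 N2 N3 (N - 1) ≤ 4 * C0 * 4 ^ α0 * (4 * ((m : ℝ) / N)) ^ (α0 / 4) := by
      refine s5.trans (mul_le_mul_of_nonneg_left ?_ (by positivity))
      refine Real.rpow_le_rpow (by positivity) ?_ (by positivity)
      have h6 : (N : ℝ) ≤ 2 * ((N - 1 : ℕ) : ℝ) := by
        have : N ≤ 2 * (N - 1) := by omega
        exact_mod_cast this
      have h7 : ((m + 1 : ℕ) : ℝ) ≤ 2 * m := by push_cast; linarith
      have h8 : (0 : ℝ) < ((N - 1 : ℕ) : ℝ) := by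
        have : 0 < N - 1 := by omega
        exact_mod_cast this
      rw [div_le_iff₀ h8]
      have h9 : (4 * ((m : ℝ) / N) * ((N - 1 : ℕ) : ℝ)) = 2 * m * (2 * ((N - 1 : ℕ) : ℝ) / N) := by
        ring
      rw [h9]
      have h10 : (1 : ℝ) ≤ 2 * ((N - 1 : ℕ) : ℝ) / N := by rwa [one_le_div (by linarith)]
      nlinarith
    have h11 : 8 * A * B * rt c (m + 1) N1 N2 N3 (N - 1) ≤
        8 * A * B * (4 * C0 * 4 ^ α0 * (4 * ((m : ℝ) / N)) ^ (α0 / 4)) :=
      mul_le_mul_of_nonneg_left h5 (by positivity)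
    refine h11.trans (le_of_eq ?_)
    ring
  · -- trivial bound
    have h5 : N ≤ m + 1 := by omega
    have h6 : (N : ℝ) ≤ 4 * m := by
      have : N ≤ 4 * m := by omega
      exact_mod_cast this
    have h7 : (1 : ℝ) ≤ 4 * ((m : ℝ) / N) := by
      rw [← mul_div_assoc, one_le_div (by linarith)]
      exact h6
    have h8 : (1 : ℝ) ≤ (4 * ((m : ℝ) / N)) ^ (α0 / 4) := Real.one_le_rpow h7 (by positivity)
    have hfG' : GObs f' := ⟨⟨_, hf'⟩, hfN'⟩
    have hgG' : GObs g' := ⟨⟨_, hg'⟩, hgN'⟩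
    have b1 : |∫ h, f' h ∂P| ≤ A := by
      have := norm_integral_le_of_norm_le_const (μ := P) (f := f') (C := A) (by
        filter_upwards [hZ.lip] with h hh
        rw [Real.norm_eq_abs]
        exact hA' h hh)
      simpa using this
    have b2 : |∫ h, g' h ∂P| ≤ B := by
      have := norm_integral_le_of_norm_le_const (μ := P) (f := g') (C := B) (by
        filter_upwards [hZ.lip] with h hh
        rw [Real.norm_eq_abs]
        exact hB' h hh)
      simpa using this
    have b3 : |∫ h, f' h * g' h ∂P| ≤ A * B := by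
      have := norm_integral_le_of_norm_le_const (μ := P) (f := fun h => f' h * g' h) (C := A * B) (by
        filter_upwards [hZ.lip] with h hh
        rw [Real.norm_eq_abs, abs_mul]
        exact mul_le_mul (hA' h hh) (hB' h hh) (abs_nonneg _) hA0)
      simpa using this
    refine (abs_sub _ _).trans ?_
    rw [abs_mul]
    have b4 : |∫ h, f' h ∂P| * |∫ h, g' h ∂P| ≤ A * B := mul_le_mul b1 b2 (abs_nonneg _) hA0
    have h9 : (2 : ℝ) ≤ 32 * C0 * 4 ^ α0 * (4 * ((m : ℝ) / N)) ^ (α0 / 4) := by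
      have e3 : (2 : ℝ) ≤ 32 * C0 * 4 ^ α0 := by nlinarith
      nlinarith
    have hAB : 0 ≤ A * B := by positivity
    have h10 : 2 * (A * B) ≤ 32 * C0 * 4 ^ α0 * (4 * ((m : ℝ) / N)) ^ (α0 / 4) * A * B := by
      have := mul_le_mul_of_nonneg_right h9 hAB
      linarith
    linarith

end Crest.Agent.R144.Mix880
end
end

-- ▼ part R144/Mix6_880

/-!
# R144, mixing (helper880), part 6: the decoupling hypothesis discharged, conditional (DLR) form

* `f3m : F3m c` (from helper561's `Pos561.dec`);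
* `mix` : the plane covariance bound from `RSWZ c`;
* `kern_out` : kernel of the conditional law as a gradient observable of the sites next to `Λ`;
* `mix_l1` : `∫ |ex x Λ h f - ∫ f dP| dP ≤ C (m/N)^α A` for `ball a N ⊆ Λ`, `f` neutral local in `ball a m`.
-/

set_option autoImplicit false

noncomputable section

namespace Crest.Agent.R144.Mix880

open Finset Filter Topology MeasureTheory
open Crest.Agent.R144.It844 (P2 Lip adj_symm adj_iff adj_comm ex nbhd)
open Crest.ProbabilityR.HexHeights (Adj)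
open Crest.Agent.R144.Zg349 Crest.Agent.R144.Zk349 Crest.Agent.R144.Zd349 Crest.Agent.R144.Zm349
open Crest.Agent.R144.Ze349 Crest.Agent.R144.Zf349
open Crest.Agent.R144.Pst967 (Hz hexB mem_hexB hexB_mono conn_hexB hexB_mem_scs LocZ NeutZ GObs FLim lC
  mem_lC scs cls_scs gobs_bounded integrable_gobs PinnedZ ZeroLim nbhd_finite E_pos_congr)

/-- **Exact decoupling** of `(s1, z)` observables across a minus-closed layer -/
theorem f3m {c : ℝ} (hc : 1 ≤ c) : F3m c := by
  intro F B hF hB hBF g f hg hf hlay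
  have key : ∀ ω, Valid F ω → Pos561.Good F ω → g ω ≠ 0 → Pos561.okI F B ω = 1 := by
    intro ω h1 h2 h3
    exact if_pos ⟨h1, h2, hlay ω h3⟩
  have e1 : E c F (fun ω => g ω * f ω) = E c F (fun ω => Pos561.okI F B ω * (g ω * f ω)) := by
    refine E_pos_congr fun ω h1 h2 => ?_
    by_cases h3 : g ω = 0
    · rw [h3, zero_mul, mul_zero]
    · rw [key ω h1 h2 h3, one_mul]
  have e2 : E c F g = E c F (fun ω => Pos561.okI F B ω * g ω) := by
    refine E_pos_congr fun ω h1 h2 => ?_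
    by_cases h3 : g ω = 0
    · rw [h3, mul_zero]
    · rw [key ω h1 h2 h3, one_mul]
  rw [e1, Pos561.dec hc hB hBF (fun ω => g ω * f ω), e2]
  have e3 : E c F (fun ω => Pos561.okI F B ω * g ω) * E c B (fun ω => f (addH 2 ω)) =
      E c F (fun ω => E c B (fun ω => f (addH 2 ω)) * (Pos561.okI F B ω * g ω)) := by
    rw [E_smul]; ring
  rw [e3]
  refine congrArg (E c F) (funext fun ω => ?_)
  by_cases hok : Pos561.Ok F B ω
  · have hin := Pos561.exists_in hB hBF hok
    have hval : ∀ ω', Valid B ω' → g (Pos561.Sw B ω ω') * f (Pos561.Sw B ω ω') =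
        g ω * f (addH 2 ω') := by
      intro ω' h'
      have a1 : g (Pos561.Sw B ω ω') = g ω := by
        refine hg _ _ (fun v hv => ?_) (fun t ht => Pos561.sw2_of_notMem ht)
        by_cases hvB : v ∈ VF B
        · rw [Pos561.sw_of_mem hvB, hok.s1_bdry hvB hv]
          have h4 := Pos561.lev_mod hin hvB
          have h5 := h'.ht.bd v hv
          rw [s1_false]
          omega
        · rw [Pos561.sw_of_notMem hvB]
      have a2 : f (Pos561.Sw B ω ω') = f (addH 2 ω') := by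
        refine hf _ _ (fun v hv => ?_) (fun t ht => Pos561.sw2_of_mem ht)
        have hvB : v ∈ VF B := mem_VF'.2 (Or.inl (IV_sub B hv))
        rw [Pos561.sw_of_mem hvB]
        have h4 := Pos561.lev_mod hin hvB
        refine Pos561.s1_congr ?_
        show (Pos561.lev B ω v + ω'.1 v - (ω'.1 v + 2)) % 4 = 0
        omega
      rw [a1, a2]
    have e4 : E c B (fun ω' => g (Pos561.Sw B ω ω') * f (Pos561.Sw B ω ω')) =
        g ω * E c B (fun ω => f (addH 2 ω)) := by
      rw [← E_smul]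
      exact E_congr fun ω' h' => hval ω' h'
    rw [e4]
    ring
  · have h0 : Pos561.okI F B ω = 0 := if_neg hok
    rw [h0]
    ring

/-- **MIXING OF THE PLANE LAW FROM RSW.** -/
theorem mix {c x : ℝ} (hc : 1 ≤ c) {K : ℕ} {p : ℝ} (hR : Rsw867.RSW c K p)
    {P : Measure Hz} (hZ : PinnedZ P) (hL : ZeroLim x scs P)
    (hP : ∀ f : Hz → ℝ, GObs f → FLim c f (∫ h, f h ∂P)) :
    ∃ C α : ℝ, 1 ≤ C ∧ 0 < α ∧ ∀ (a : P2) (m N : ℕ), 1 ≤ m → 1 ≤ N → ∀ S : Finset P2,
      (∀ v ∈ S, v ∉ Rsw867.ball a N) → ∀ f g : Hz → ℝ, LocZ (Rsw867.ball a m : Set P2) f → NeutZ f →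
      LocZ (S : Set P2) g → NeutZ g → ∀ A B : ℝ, (∀ h, Lip h → |f h| ≤ A) →
      (∀ h, Lip h → |g h| ≤ B) →
      |∫ h, f h * g h ∂P - (∫ h, f h ∂P) * ∫ h, g h ∂P| ≤ C * ((m : ℝ) / N) ^ α * A * B :=
  cov_ball hc (f3m hc) hR hZ hL hP

/-! ### the conditional form -/

open Classical in
/-- sites next to `Λ` -/
def bdS (Λ : Finset P2) : Finset P2 := (nbhd_finite Λ).toFinset \ Λ

theorem mem_bdS {Λ : Finset P2} {v : P2} : v ∈ bdS Λ ↔ v ∈ nbhd Λ ∧ v ∉ Λ := by
  classical
  unfold bdS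
  rw [Finset.mem_sdiff, Set.Finite.mem_toFinset]

/-- conditional expectations of inside observables are gradient observables of the sites next to `Λ` -/
theorem kern_out (x : ℝ) (Λ : Finset P2) {f : Hz → ℝ} (hf : LocZ (Λ : Set P2) f) (hN : NeutZ f) :
    ∃ G : Hz → ℝ, LocZ (bdS Λ : Set P2) G ∧ NeutZ G ∧ ∀ h, Lip h → G h = ex x Λ h f := by
  classical
  let Q : Hz → Hz → Prop := fun h g => Lip g ∧ ∀ v ∈ bdS Λ, g v = h v
  let G : Hz → ℝ := fun h => if hh : ∃ g, Q h g then ex x Λ (Classical.choose hh) f else 0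
  have hG : ∀ h g, Q h g → G h = ex x Λ g f := by
    intro h g hg
    have hh : ∃ g, Q h g := ⟨g, hg⟩
    have h1 : G h = ex x Λ (Classical.choose hh) f := dif_pos hh
    rw [h1]
    have h2 := Classical.choose_spec hh
    refine It844.ex_local x h2.1 hg.1 (fun v hv hvn => ?_) f fun a b hab => hf a b fun v hv =>
      hab v (Finset.mem_coe.1 hv)
    have hvT : v ∈ bdS Λ := mem_bdS.2 ⟨hvn, hv⟩
    rw [h2.2 v hvT, hg.2 v hvT]
  refine ⟨G, fun h g hhg => ?_, fun h c => ?_, fun h hl => hG h h ⟨hl, fun _ _ => rfl⟩⟩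
  · by_cases hh : ∃ k, Q h k
    · obtain ⟨k, hk⟩ := hh
      have hk' : Q g k := ⟨hk.1, fun v hv => (hk.2 v hv).trans (hhg v (Finset.mem_coe.2 hv))⟩
      rw [hG h k hk, hG g k hk']
    · have hg : ¬ ∃ k, Q g k := by
        rintro ⟨k, hk⟩
        exact hh ⟨k, hk.1, fun v hv => (hk.2 v hv).trans (hhg v (Finset.mem_coe.2 hv)).symm⟩
      simp only [G, dif_neg hh, dif_neg hg]
  · by_cases hh : ∃ k, Q h k
    · obtain ⟨k, hk⟩ := hh
      have hk' : Q (fun v => h v + c) (fun v => k v + c) :=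
        ⟨hk.1.add_const c, fun v hv => by simp only [hk.2 v hv]⟩
      rw [hG h k hk, hG _ _ hk', It844.ex_add_const]
      simp only [hN _ c]
    · have hg : ¬ ∃ k, Q (fun v => h v + c) k := by
        rintro ⟨k, hk⟩
        refine hh ⟨fun v => k v - c, ?_, fun v hv => ?_⟩
        · have := hk.1.add_const (-c)
          simpa only [sub_eq_add_neg] using this
        · have := hk.2 v hv
          simp only at this ⊢
          rw [this]
          ring
      simp only [G, dif_neg hh, dif_neg hg]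


/-- outside factors come out of the conditional expectation, under the plane law -/
theorem dlr_mul {x : ℝ} (hx : 0 < x) {P : Measure Hz} (hZ : PinnedZ P) (hL : ZeroLim x scs P)
    {Λ : Finset P2} {G f : Hz → ℝ} {T : Finset P2} (hT : ∀ v ∈ T, v ∉ Λ) (hG : LocZ (T : Set P2) G)
    (hGN : NeutZ G) (hf : GObs f) : ∫ h, G h * f h ∂P = ∫ h, G h * ex x Λ h f ∂P := by
  have hGG : GObs G := ⟨⟨_, hG⟩, hGN⟩
  have hGf : GObs (fun h => G h * f h) := hGG.map₂ hf (fun a b => a * b)
  rw [hL.dlr hx cls_scs hZ Λ hGf]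
  refine integral_congr_ae (Eventually.of_forall fun h => ?_)
  show ex x Λ h (fun k => G k * f k) = G h * ex x Λ h f
  have e1 : ex x Λ h (fun k => G k * f k) = ex x Λ h (fun k => G h • f k) := by
    refine It844.ex_congr fun k hk => ?_
    have : G k = G h := hG _ _ fun v hv => (It844.mem_conf.1 hk).2 v (hT v (Finset.mem_coe.1 hv))
    rw [this, smul_eq_mul]
  rw [e1, It844.ex_smul, smul_eq_mul]



end Crest.Agent.R144.Mix880
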