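import Mathlib
import Crest.Agent.R144.Fin2_268
import Crest.Agent.R144.Mix6_880

-- ▼ part R144/Dom1_136
section

/-!
# R144 (helper136), block D1 (DOM), file 1: means of asymptotically Gaussian variables

`mean_tendsto_zero`: if `∫ cos (t X n) → exp (- s t² / 2)`, `∫ sin (t X n) → 0` for every `t`, and the
variances of the `X n` are bounded, then `∫ X n → 0` (no symmetry, no a priori bound on the means).
-/

set_option autoImplicit false

noncomputable section

namespace Crest.Agent.R144.Dom136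

open MeasureTheory Filter Topology Set

/-! ### elementary inequalities -/

theorem abs_cos_sub_cos_le (a b : ℝ) : |Real.cos a - Real.cos b| ≤ |a - b| := by
  rw [Real.cos_sub_cos]
  have h1 : |Real.sin ((a + b) / 2)| ≤ 1 := Real.abs_sin_le_one _
  have h2 : |Real.sin ((a - b) / 2)| ≤ |(a - b) / 2| := Real.abs_sin_le_abs
  rw [abs_mul, abs_mul, abs_neg]
  have e2 : |(2 : ℝ)| = 2 := abs_of_pos two_pos
  have e3 : |(a - b) / 2| = |a - b| / 2 := by rw [abs_div, e2]
  rw [e2]
  rw [e3] at h2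
  have h3 : |Real.sin ((a + b) / 2)| * |Real.sin ((a - b) / 2)| ≤ 1 * (|a - b| / 2) :=
    mul_le_mul h1 h2 (abs_nonneg _) zero_le_one
  have h4 : 2 * |Real.sin ((a + b) / 2)| * |Real.sin ((a - b) / 2)| =
      2 * (|Real.sin ((a + b) / 2)| * |Real.sin ((a - b) / 2)|) := by ring
  rw [h4]
  linarith


/-- `|y - sin y| ≤ y ^ 2` -/
theorem abs_sub_sin_le (y : ℝ) : |y - Real.sin y| ≤ y ^ 2 := by
  rcases le_or_gt |y| 1 with h | h
  · -- small y : |y - sin y| ≤ |y|^3/4 ≤ y^2
    have key : ∀ z : ℝ, 0 ≤ z → z ≤ 1 → |z - Real.sin z| ≤ z ^ 2 := by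
      intro z hz0 hz1
      rcases hz0.eq_or_lt with rfl | hz
      · simp
      · have h1 : z - z ^ 3 / 6 < Real.sin z := Real.sin_gt_sub_cube hz
        have h2 : Real.sin z ≤ z := Real.sin_le hz.le
        rw [abs_of_nonneg (by linarith)]
        nlinarith [pow_pos hz 2, pow_pos hz 3]
    rcases le_total 0 y with hy | hy
    · exact key y hy (by rwa [abs_of_nonneg hy] at h)
    · have h3 := key (-y) (by linarith) (by rwa [abs_of_nonpos hy] at h)
      rw [Real.sin_neg] at h3
      have e : -y - -Real.sin y = -(y - Real.sin y) := by ring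
      rw [e, abs_neg] at h3
      nlinarith
  · have h1 : |Real.sin y| ≤ 1 := Real.abs_sin_le_one y
    have hy2 : 1 < y ^ 2 := by
      rw [← sq_abs]; nlinarith
    have h2 : |y - Real.sin y| ≤ |y| + |Real.sin y| := abs_sub _ _
    rcases le_or_gt 2 |y| with h5 | h5
    · have : |y| + 1 ≤ y ^ 2 := by rw [← sq_abs]; nlinarith
      linarith
    · -- 1 < |y| < 2 : |y - sin y| ≤ |y| (same signs) ≤ y^2
      have hs : ∀ z : ℝ, 1 < z → z < 2 → |z - Real.sin z| ≤ z ^ 2 := by
        intro z h1z h2z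
        have h6 : 0 < Real.sin z := Real.sin_pos_of_pos_of_lt_pi (by linarith)
          (by have := Real.pi_gt_three; linarith)
        have h7 : Real.sin z ≤ z := Real.sin_le (by linarith)
        rw [abs_of_nonneg (by linarith)]
        nlinarith
      rcases le_total 0 y with hy | hy
      · rw [abs_of_nonneg hy] at h h5
        exact hs y h h5
      · rw [abs_of_nonpos hy] at h h5
        have h3 := hs (-y) h h5
        rw [Real.sin_neg] at h3
        have e : -y - -Real.sin y = -(y - Real.sin y) := by ring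
        rw [e, abs_neg] at h3
        nlinarith

/-! ### bounded means -/

theorem integral_cos_le {T m : ℝ} (hm : m ≠ 0) :
    |∫ t in (0 : ℝ)..T, Real.cos (t * m)| ≤ 1 / |m| := by
  have h1 : (∫ t in (0 : ℝ)..T, Real.cos (t * m)) = m⁻¹ * (Real.sin (T * m) - Real.sin (0 * m)) := by
    rw [intervalIntegral.integral_comp_mul_right (fun t => Real.cos t) hm, integral_cos, smul_eq_mul]
  rw [h1, zero_mul, Real.sin_zero, sub_zero, abs_mul, abs_inv, one_div]
  have := Real.abs_sin_le_one (T * m)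
  exact mul_le_of_le_one_right (by positivity) this

variable {Ω : ℕ → Type*} [∀ n, MeasurableSpace (Ω n)] {ν : ∀ n, Measure (Ω n)}

/-- the means are bounded -/
theorem exists_mean_bound (hν : ∀ n, IsProbabilityMeasure (ν n)) {X : ∀ n, Ω n → ℝ}
    (hX : ∀ n, MemLp (X n) 2 (ν n)) {C s : ℝ}
    (hC : ∀ᶠ n in atTop, ∫ o, (X n o - ∫ o, X n o ∂(ν n)) ^ 2 ∂(ν n) ≤ C)
    (hcos : ∀ t : ℝ, Tendsto (fun n => ∫ o, Real.cos (t * X n o) ∂(ν n)) atTop
      (𝓝 (Real.exp (-(s * t ^ 2 / 2))))) :
    ∃ R : ℝ, ∀ᶠ n in atTop, |∫ o, X n o ∂(ν n)| ≤ R := by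
  classical
  set m : ℕ → ℝ := fun n => ∫ o, X n o ∂(ν n) with hm
  have hXi : ∀ n, Integrable (X n) (ν n) := fun n => by
    have := hν n
    exact (hX n).integrable one_le_two
  have hXm : ∀ n, AEStronglyMeasurable (X n) (ν n) := fun n => (hX n).aestronglyMeasurable
  -- constants
  set C' : ℝ := max C 0 with hC'
  have hC'0 : 0 ≤ C' := le_max_right _ _
  set B : ℝ := Real.sqrt C' with hB
  have hB0 : 0 ≤ B := Real.sqrt_nonneg _
  -- first absolute moment
  have hL1 : ∀ᶠ n in atTop, ∫ o, |X n o - m n| ∂(ν n) ≤ B := by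
    filter_upwards [hC] with n hn
    have := hν n
    have hY : MemLp (fun o => X n o - m n) 2 (ν n) := (hX n).sub (memLp_const _)
    have h1 : (∫ o, |X n o - m n| ∂(ν n)) ^ 2 ≤ ∫ o, |X n o - m n| ^ 2 ∂(ν n) := by
      have h2 := ProbabilityTheory.variance_nonneg (fun o => |X n o - m n|) (ν n)
      rw [ProbabilityTheory.variance_eq_sub (by exact hY.abs)] at h2
      simp only [Pi.pow_apply] at h2
      linarith
    have h3 : ∫ o, |X n o - m n| ^ 2 ∂(ν n) = ∫ o, (X n o - m n) ^ 2 ∂(ν n) := by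
      simp only [sq_abs]
    rw [h3] at h1
    have h4 : 0 ≤ ∫ o, |X n o - m n| ∂(ν n) := integral_nonneg fun o => abs_nonneg _
    rw [hB]
    refine Real.le_sqrt_of_sq_le ?_
    exact h1.trans (hn.trans (le_max_left _ _))
  -- comparison of the characteristic function with that of the mean
  have hcmp : ∀ᶠ n in atTop, ∀ t : ℝ, |(∫ o, Real.cos (t * X n o) ∂(ν n)) - Real.cos (t * m n)| ≤
      |t| * B := by
    filter_upwards [hL1] with n hn t
    have := hν n
    have hci : Integrable (fun o => Real.cos (t * X n o)) (ν n) := by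
      refine Integrable.of_bound (C := 1) ?_ (Eventually.of_forall fun o => ?_)
      · exact Real.continuous_cos.comp_aestronglyMeasurable ((hXm n).const_mul t)
      · rw [Real.norm_eq_abs]; exact Real.abs_cos_le_one _
    have h1 : (∫ o, Real.cos (t * X n o) ∂(ν n)) - Real.cos (t * m n) =
        ∫ o, (Real.cos (t * X n o) - Real.cos (t * m n)) ∂(ν n) := by
      rw [integral_sub hci (integrable_const _), integral_const]
      simp
    rw [h1]
    calc |∫ o, (Real.cos (t * X n o) - Real.cos (t * m n)) ∂(ν n)|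
        ≤ ∫ o, |Real.cos (t * X n o) - Real.cos (t * m n)| ∂(ν n) := abs_integral_le_integral_abs
      _ ≤ ∫ o, |t| * |X n o - m n| ∂(ν n) := by
          refine integral_mono ((hci.sub (integrable_const _)).abs)
            ((((hXi n).sub (integrable_const _)).abs).const_mul _) fun o => ?_
          refine (abs_cos_sub_cos_le _ _).trans (le_of_eq ?_)
          rw [← mul_sub, abs_mul]
      _ = |t| * ∫ o, |X n o - m n| ∂(ν n) := integral_const_mul _ _
      _ ≤ |t| * B := mul_le_mul_of_nonneg_left hn (abs_nonneg _)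
  -- choose T
  set T : ℝ := min 1 (1 / (4 * (B + |s| + 1))) with hT
  have hden : 0 < 4 * (B + |s| + 1) := by positivity
  have hT0 : 0 < T := lt_min one_pos (by positivity)
  have hT1 : T ≤ 1 := min_le_left _ _
  have hT2 : T * (4 * (B + |s| + 1)) ≤ 1 := by
    have := min_le_right (1 : ℝ) (1 / (4 * (B + |s| + 1)))
    calc T * (4 * (B + |s| + 1)) ≤ 1 / (4 * (B + |s| + 1)) * (4 * (B + |s| + 1)) :=
          mul_le_mul_of_nonneg_right this hden.le
      _ = 1 := by field_simp
  -- the integrated characteristic functions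
  have hlim : Tendsto (fun n => ∫ t in (0 : ℝ)..T, ∫ o, Real.cos (t * X n o) ∂(ν n)) atTop
      (𝓝 (∫ t in (0 : ℝ)..T, Real.exp (-(s * t ^ 2 / 2)))) := by
    refine intervalIntegral.tendsto_integral_filter_of_dominated_convergence (fun _ => (1 : ℝ)) ?_ ?_ ?_ ?_
    · refine Eventually.of_forall fun n => ?_
      have := hν n
      refine Continuous.aestronglyMeasurable ?_
      refine continuous_of_dominated (bound := fun _ => (1 : ℝ)) (fun t => ?_) (fun t => ?_)
        (integrable_const _) ?_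
      · exact Real.continuous_cos.comp_aestronglyMeasurable ((hXm n).const_mul t)
      · exact Eventually.of_forall fun o => by
          rw [Real.norm_eq_abs]; exact Real.abs_cos_le_one _
      · exact Eventually.of_forall fun o => by fun_prop
    · refine Eventually.of_forall fun n => Eventually.of_forall fun t _ => ?_
      have := hν n
      rw [Real.norm_eq_abs]
      refine (abs_integral_le_integral_abs).trans ?_
      calc ∫ o, |Real.cos (t * X n o)| ∂(ν n) ≤ ∫ _, (1 : ℝ) ∂(ν n) := by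
            refine integral_mono_of_nonneg (Eventually.of_forall fun o => abs_nonneg _)
              (integrable_const _) (Eventually.of_forall fun o => Real.abs_cos_le_one _)
        _ = 1 := by simp
    · exact intervalIntegrable_const
    · exact Eventually.of_forall fun t _ => hcos t
  have hlow : 3 / 4 * T ≤ ∫ t in (0 : ℝ)..T, Real.exp (-(s * t ^ 2 / 2)) := by
    have h1 : ∫ _ in (0 : ℝ)..T, (3 / 4 : ℝ) = 3 / 4 * T := by
      rw [intervalIntegral.integral_const, smul_eq_mul]; ring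
    rw [← h1]
    refine intervalIntegral.integral_mono_on hT0.le intervalIntegrable_const
      (Continuous.intervalIntegrable (by fun_prop) _ _) fun t ht => ?_
    have h2 : -(s * t ^ 2 / 2) + 1 ≤ Real.exp (-(s * t ^ 2 / 2)) := Real.add_one_le_exp _
    have ht0 := ht.1
    have ht1 := ht.2
    have h3 : s * t ^ 2 ≤ |s| * T := by
      have h4 : t ^ 2 ≤ T := by nlinarith
      calc s * t ^ 2 ≤ |s| * t ^ 2 := mul_le_mul_of_nonneg_right (le_abs_self s) (sq_nonneg _)
        _ ≤ |s| * T := mul_le_mul_of_nonneg_left h4 (abs_nonneg _)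
    have h5 : |s| * T ≤ 1 / 4 := by nlinarith [abs_nonneg s]
    linarith
  have hev : ∀ᶠ n in atTop, T / 2 ≤ ∫ t in (0 : ℝ)..T, ∫ o, Real.cos (t * X n o) ∂(ν n) := by
    refine (hlim.eventually (lt_mem_nhds (a := T / 2) ?_)).mono fun n hn => hn.le
    have : T / 2 < 3 / 4 * T := by linarith
    exact this.trans_le hlow
  refine ⟨4 / T, ?_⟩
  filter_upwards [hcmp, hev] with n h1 h2
  have := hν n
  show |m n| ≤ 4 / T
  by_cases hm0 : m n = 0
  · rw [hm0, abs_zero]; positivity
  have hmp : 0 < |m n| := abs_pos.2 hm0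
  have hcont : Continuous fun t : ℝ => ∫ o, Real.cos (t * X n o) ∂(ν n) := by
    refine continuous_of_dominated (bound := fun _ => (1 : ℝ)) (fun t => ?_) (fun t => ?_)
      (integrable_const _) ?_
    · exact Real.continuous_cos.comp_aestronglyMeasurable ((hXm n).const_mul t)
    · exact Eventually.of_forall fun o => by
        rw [Real.norm_eq_abs]; exact Real.abs_cos_le_one _
    · exact Eventually.of_forall fun o => by fun_prop
  have h3 : (∫ t in (0 : ℝ)..T, ∫ o, Real.cos (t * X n o) ∂(ν n)) ≤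
      (∫ t in (0 : ℝ)..T, (Real.cos (t * m n) + T * B)) := by
    refine intervalIntegral.integral_mono_on hT0.le (hcont.intervalIntegrable _ _)
      (Continuous.intervalIntegrable (by fun_prop) _ _) fun t ht => ?_
    have h4 := h1 t
    rw [abs_le] at h4
    have h5 : |t| * B ≤ T * B := by
      refine mul_le_mul_of_nonneg_right ?_ hB0
      rw [abs_of_nonneg ht.1]; exact ht.2
    linarith [h4.2]
  have h6 : (∫ t in (0 : ℝ)..T, (Real.cos (t * m n) + T * B)) =
      (∫ t in (0 : ℝ)..T, Real.cos (t * m n)) + T * (T * B) := by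
    rw [intervalIntegral.integral_add (Continuous.intervalIntegrable (by fun_prop) _ _)
      intervalIntegrable_const, intervalIntegral.integral_const, smul_eq_mul, sub_zero]
  have h7 := integral_cos_le (T := T) hm0
  have h8 : T * (T * B) ≤ T / 4 := by
    have : T * B ≤ 1 / 4 := by nlinarith [abs_nonneg s]
    nlinarith
  have h9 : T / 4 ≤ 1 / |m n| := by
    have := (le_abs_self (∫ t in (0 : ℝ)..T, Real.cos (t * m n))).trans h7
    rw [h6] at h3
    linarith
  rw [le_div_iff₀ hT0]
  rw [le_div_iff₀ hmp] at h9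
  linarith [mul_comm (|m n|) T]

/-- **the means tend to zero** -/
theorem mean_tendsto_zero (hν : ∀ n, IsProbabilityMeasure (ν n)) {X : ∀ n, Ω n → ℝ}
    (hX : ∀ n, MemLp (X n) 2 (ν n)) {C s : ℝ}
    (hC : ∀ᶠ n in atTop, ∫ o, (X n o - ∫ o, X n o ∂(ν n)) ^ 2 ∂(ν n) ≤ C)
    (hcos : ∀ t : ℝ, Tendsto (fun n => ∫ o, Real.cos (t * X n o) ∂(ν n)) atTop
      (𝓝 (Real.exp (-(s * t ^ 2 / 2)))))
    (hsin : ∀ t : ℝ, Tendsto (fun n => ∫ o, Real.sin (t * X n o) ∂(ν n)) atTop (𝓝 0)) :
    Tendsto (fun n => ∫ o, X n o ∂(ν n)) atTop (𝓝 0) := by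
  obtain ⟨R, hR⟩ := exists_mean_bound hν hX hC hcos
  set m : ℕ → ℝ := fun n => ∫ o, X n o ∂(ν n) with hm
  have hXi : ∀ n, Integrable (X n) (ν n) := fun n => by
    have := hν n
    exact (hX n).integrable one_le_two
  have hsq : ∀ n, Integrable (fun o => X n o ^ 2) (ν n) := fun n => (hX n).integrable_sq
  -- second moments
  set Q : ℝ := |C| + R ^ 2 with hQ
  have h2 : ∀ᶠ n in atTop, ∫ o, X n o ^ 2 ∂(ν n) ≤ Q := by
    filter_upwards [hC, hR] with n h1 h3
    have := hν n
    have e : ∫ o, (X n o - m n) ^ 2 ∂(ν n) = ∫ o, X n o ^ 2 ∂(ν n) - m n ^ 2 := by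
      have e1 : ∀ o, (X n o - m n) ^ 2 = X n o ^ 2 - (2 * m n * X n o - m n ^ 2) := fun o => by ring
      simp only [e1]
      have i1 : Integrable (fun o => 2 * m n * X n o) (ν n) := (hXi n).const_mul _
      have i2 : Integrable (fun _ : Ω n => m n ^ 2) (ν n) := integrable_const _
      have i3 : Integrable (fun o => 2 * m n * X n o - m n ^ 2) (ν n) := i1.sub i2
      rw [integral_sub (hsq n) i3, integral_sub i1 i2, integral_const_mul, integral_const]
      simp only [probReal_univ, smul_eq_mul, one_mul]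
      have : ∫ o, X n o ∂(ν n) = m n := rfl
      rw [this]; ring
    rw [e] at h1
    have h4 : m n ^ 2 ≤ R ^ 2 := by
      rw [← sq_abs]
      exact pow_le_pow_left₀ (abs_nonneg _) h3 2
    have := le_abs_self C
    linarith
  have hQ0 : 0 ≤ Q := by positivity
  rw [Metric.tendsto_atTop]
  intro ε hε
  -- choose t
  set t : ℝ := ε / (2 * (Q + 1)) with ht
  have ht0 : 0 < t := by positivity
  have htQ : t * Q < ε / 2 + 0 := by
    rw [add_zero, ht, div_mul_eq_mul_div, div_lt_div_iff₀ (by positivity) (by norm_num)]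
    nlinarith
  have h3 := (hsin t)
  rw [Metric.tendsto_atTop] at h3
  obtain ⟨N1, hN1⟩ := h3 (t * (ε / 2)) (by positivity)
  obtain ⟨N2, hN2⟩ := eventually_atTop.1 h2
  refine ⟨max N1 N2, fun n hn => ?_⟩
  have := hν n
  have a1 := hN1 n ((le_max_left _ _).trans hn)
  have a2 := hN2 n ((le_max_right _ _).trans hn)
  rw [Real.dist_eq, sub_zero] at a1 ⊢
  have hsi : Integrable (fun o => Real.sin (t * X n o)) (ν n) := by
    refine Integrable.of_bound (C := 1) ?_ (Eventually.of_forall fun o => ?_)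
    · exact Real.continuous_sin.comp_aestronglyMeasurable ((hX n).aestronglyMeasurable.const_mul t)
    · rw [Real.norm_eq_abs]; exact Real.abs_sin_le_one _
  have e1 : t * m n = (∫ o, (t * X n o - Real.sin (t * X n o)) ∂(ν n)) +
      ∫ o, Real.sin (t * X n o) ∂(ν n) := by
    rw [integral_sub ((hXi n).const_mul t) hsi, integral_const_mul]
    ring
  have e2 : |∫ o, (t * X n o - Real.sin (t * X n o)) ∂(ν n)| ≤ t ^ 2 * Q := by
    calc |∫ o, (t * X n o - Real.sin (t * X n o)) ∂(ν n)|
        ≤ ∫ o, |t * X n o - Real.sin (t * X n o)| ∂(ν n) := abs_integral_le_integral_abs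
      _ ≤ ∫ o, t ^ 2 * X n o ^ 2 ∂(ν n) := by
          refine integral_mono ((((hXi n).const_mul t).sub hsi).abs) ((hsq n).const_mul _)
            fun o => ?_
          have := abs_sub_sin_le (t * X n o)
          rwa [mul_pow] at this
      _ = t ^ 2 * ∫ o, X n o ^ 2 ∂(ν n) := integral_const_mul _ _
      _ ≤ t ^ 2 * Q := mul_le_mul_of_nonneg_left a2 (sq_nonneg _)
  have e3 : t * |m n| < t * ε := by
    have h5 : |t * m n| = t * |m n| := by rw [abs_mul, abs_of_pos ht0]
    rw [← h5, e1]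
    calc |(∫ o, (t * X n o - Real.sin (t * X n o)) ∂(ν n)) + ∫ o, Real.sin (t * X n o) ∂(ν n)|
        ≤ t ^ 2 * Q + |∫ o, Real.sin (t * X n o) ∂(ν n)| :=
          (abs_add_le _ _).trans (add_le_add e2 le_rfl)
      _ < t ^ 2 * Q + t * (ε / 2) := by linarith
      _ ≤ t * (ε / 2) + t * (ε / 2) := by
          have : t ^ 2 * Q = t * (t * Q) := by ring
          rw [this]
          have h6 : t * (t * Q) ≤ t * (ε / 2) := mul_le_mul_of_nonneg_left (by linarith) ht0.le
          linarith
      _ = t * ε := by ring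
  exact lt_of_mul_lt_mul_left e3 ht0.le

end Crest.Agent.R144.Dom136
end
end

-- ▼ part R144/Dom2_136

/-!
# R144 (helper136), block D1 (DOM), file 2: from the plane law to the domain laws

* `Contig x P D δ Λ τ` : contiguity of the laws `ex x (Λ n) (τ n)` with respect to the plane law `P`, on
  compact subsets of `D`, for neutral local events;
* `GaussZ κ P` : conditional Gaussianity of lattice Laplacians under the plane law (dual form);
* `transfer` : one volume `Λ' ⊆ Λ`.
-/

set_option autoImplicit false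

noncomputable section

namespace Crest.Agent.R144.Dom136

open MeasureTheory Filter Topology Set Metric
open scoped ContDiff
open Crest.ProbabilityR.HexHeights (Adj centre)
open Crest.Agent.R144.It844 (P2 Lip adj_symm adj_iff adj_comm ex nbhd conf mem_conf pr mu)
open Crest.Agent.R144.Pst967 (Hz LocZ NeutZ GObs scs cls_scs gobs_bounded integrable_gobs PinnedZ
  ZeroLim nbhd_finite)
open Crest.Agent.R144.Mix880 (bdS mem_bdS kern_out dlr_mul)
open Crest.Agent.R144.Cw643 (Dop six Sup7 sum_Dop)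
open Crest.Agent.R144.Fin268 (LS cS Cv Vr)

/-! ### indicators -/

open Classical in
/-- indicator -/
def ind (A : Set Hz) : Hz → ℝ := fun h => if h ∈ A then 1 else 0

theorem pr_eq (x : ℝ) (Λ : Finset P2) (τ : P2 → ℤ) (A : Set Hz) : pr x Λ τ A = ex x Λ τ (ind A) := by
  unfold pr ind
  rfl

theorem ind_nonneg (A : Set Hz) (h : Hz) : 0 ≤ ind A h := by
  unfold ind; split_ifs <;> norm_num

/-! ### the definitions -/

/-- contiguity -/
def Contig (x : ℝ) (P : Measure Hz) (D : Set ℂ) (δ : ℕ → ℝ) (Λ : ℕ → Finset P2)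
    (τ : ℕ → P2 → ℤ) : Prop :=
  ∀ K : Set ℂ, IsCompact K → K ⊆ D → ∀ η > 0, ∃ C : ℝ, 0 < C ∧ ∀ᶠ n in atTop,
    ∀ (T : Finset P2) (A : Set Hz), (∀ v ∈ T, centre (δ n) v ∈ K) →
      LocZ (T : Set P2) (fun h => h ∈ A) → NeutZ (fun h => h ∈ A) →
      pr x (Λ n) (τ n) A ≤ η + C * P.real A

/-- lattice Laplacian of the samples of `u` -/
def Du (u : ℂ → ℝ) (d : ℝ) : P2 → ℝ := Dop (fun v => u (centre d v))

/-- the Gaussian characteristic function -/
def gau (κ : ℝ) (u : ℂ → ℝ) (t : ℝ) : ℝ := Real.exp (-(κ * (∫ z, ‖fderiv ℝ u z‖ ^ 2) * t ^ 2 / 2))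

/-- conditional Gaussianity given the outside of `U` in the plane -/
def GaussZ (κ : ℝ) (P : Measure Hz) : Prop :=
  ∀ δ : ℕ → ℝ, (∀ n, 0 < δ n) → Tendsto δ atTop (𝓝 0) → ∀ u : ℂ → ℝ, ContDiff ℝ ∞ u →
    HasCompactSupport u → ∀ U : Set ℂ, IsOpen U → tsupport u ⊆ U → ∀ t ε : ℝ, 0 < ε →
    ∀ᶠ n in atTop, ∀ S : Finset P2, (∀ v, v ∉ S → Du u (δ n) v = 0) →
      ∀ (T : Finset P2) (g : Hz → ℝ), (∀ v ∈ T, centre (δ n) v ∉ U) → LocZ (T : Set P2) g →
        NeutZ g → (∀ h, |g h| ≤ 1) →
        |∫ h, g h * Real.cos (t * LS S (Du u (δ n)) h) ∂P - gau κ u t * ∫ h, g h ∂P| ≤ ε ∧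
        |∫ h, g h * Real.sin (t * LS S (Du u (δ n)) h) ∂P| ≤ ε

/-! ### from the dual form to the conditional law -/

theorem l1_of_dual {x : ℝ} (hx : 0 < x) {P : Measure Hz} (hZ : PinnedZ P) (hL : ZeroLim x scs P)
    {Λ : Finset P2} {f : Hz → ℝ} (hf : LocZ (Λ : Set P2) f) (hN : NeutZ f) {b ε : ℝ}
    (hcov : ∀ g : Hz → ℝ, LocZ (bdS Λ : Set P2) g → NeutZ g → (∀ h, |g h| ≤ 1) →
      |∫ h, g h * f h ∂P - b * ∫ h, g h ∂P| ≤ ε) :
    ∫ h, |ex x Λ h f - b| ∂P ≤ ε := by
  classical
  have hpr := hZ.prob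
  obtain ⟨K, hK, hKN, hKe⟩ := kern_out x Λ hf hN
  have hfG : GObs f := ⟨⟨_, hf⟩, hN⟩
  have hKG : GObs K := ⟨⟨_, hK⟩, hKN⟩
  let g : Hz → ℝ := fun h => if b ≤ K h then 1 else -1
  have hg : LocZ (bdS Λ : Set P2) g := fun h k hk => by
    show (if b ≤ K h then (1 : ℝ) else -1) = if b ≤ K k then 1 else -1
    rw [hK h k hk]
  have hgN : NeutZ g := fun h k => by
    show (if b ≤ K (fun v => h v + k) then (1 : ℝ) else -1) = if b ≤ K h then 1 else -1
    rw [hKN h k]
  have hg1 : ∀ h, |g h| ≤ 1 := fun h => by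
    show |(if b ≤ K h then (1 : ℝ) else -1)| ≤ 1
    split_ifs <;> simp
  have hgG : GObs g := ⟨⟨_, hg⟩, hgN⟩
  have habs : ∀ h, |K h - b| = g h * K h - b * g h := fun h => by
    show |K h - b| = (if b ≤ K h then (1 : ℝ) else -1) * K h - b * if b ≤ K h then 1 else -1
    split_ifs with h1
    · rw [abs_of_nonneg (by linarith)]; ring
    · rw [abs_of_neg (by linarith)]; ring
  have e1 : ∫ h, |ex x Λ h f - b| ∂P = ∫ h, |K h - b| ∂P := by
    refine integral_congr_ae ?_
    filter_upwards [hZ.lip] with h hh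
    rw [hKe h hh]
  have e2 : ∫ h, |K h - b| ∂P = ∫ h, g h * K h ∂P - b * ∫ h, g h ∂P := by
    simp only [habs]
    rw [integral_sub (integrable_gobs (hgG.map₂ hKG (fun a b => a * b)) hZ.lip)
      ((integrable_gobs hgG hZ.lip).const_mul b), integral_const_mul]
  have e3 : ∫ h, g h * K h ∂P = ∫ h, g h * f h ∂P := by
    have h1 := dlr_mul hx hZ hL (Λ := Λ) (fun v hv => (mem_bdS.1 hv).2) hg hgN hfG
    have h2 : ∫ h, g h * ex x Λ h f ∂P = ∫ h, g h * K h ∂P := by
      refine integral_congr_ae ?_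
      filter_upwards [hZ.lip] with h hh
      rw [hKe h hh]
    rw [← h2, ← h1]
  rw [e1, e2, e3]
  exact (le_abs_self _).trans (hcov g hg hgN hg1)

theorem abs_ex_le {x : ℝ} {Λ : Finset P2} {τ : P2 → ℤ} (f : Hz → ℝ) :
    |ex x Λ τ f| ≤ ex x Λ τ (fun h => |f h|) := by
  rw [abs_le]
  constructor
  · have h1 : ex x Λ τ (fun h => (-1 : ℝ) • |f h|) ≤ ex x Λ τ f := It844.ex_mono fun h _ => by
      rw [smul_eq_mul]
      have := neg_abs_le (f h)
      linarith
    rw [It844.ex_smul, smul_eq_mul] at h1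
    linarith
  · exact It844.ex_mono fun h _ => le_abs_self _

/-- **transfer of one conditional expectation** -/
theorem transfer {x : ℝ} (hx : 0 < x) {P : Measure Hz} (hZ : PinnedZ P) (hL : ZeroLim x scs P)
    {Λ' Λ : Finset P2} (hΛ : Λ' ⊆ Λ) {τ : P2 → ℤ} (hτ : Lip τ) {f : Hz → ℝ}
    (hf : LocZ (Λ' : Set P2) f) (hN : NeutZ f) (hf1 : ∀ h, |f h| ≤ 1) {b ε s η C : ℝ}
    (hb : |b| ≤ 1) (hs : 0 < s) (hC : 0 ≤ C)
    (hcov : ∀ g : Hz → ℝ, LocZ (bdS Λ' : Set P2) g → NeutZ g → (∀ h, |g h| ≤ 1) →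
      |∫ h, g h * f h ∂P - b * ∫ h, g h ∂P| ≤ ε)
    (hcon : ∀ A : Set Hz, LocZ (bdS Λ' : Set P2) (fun h => h ∈ A) → NeutZ (fun h => h ∈ A) →
      pr x Λ τ A ≤ η + C * P.real A) :
    |ex x Λ τ f - b| ≤ s + 2 * (η + C * (ε / s)) := by
  classical
  have hpr := hZ.prob
  have h1 := l1_of_dual hx hZ hL hf hN hcov
  obtain ⟨K, hK, hKN, hKe⟩ := kern_out x Λ' hf hN
  have hKG : GObs K := ⟨⟨_, hK⟩, hKN⟩
  set A : Set Hz := {h | s < |K h - b|} with hA
  have hAl : LocZ (bdS Λ' : Set P2) (fun h => h ∈ A) := fun h k hk => by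
    show (s < |K h - b|) = (s < |K k - b|)
    rw [hK h k hk]
  have hAN : NeutZ (fun h => h ∈ A) := fun h k => by
    show (s < |K (fun v => h v + k) - b|) = (s < |K h - b|)
    rw [hKN h k]
  have hPA : P.real A ≤ ε / s := by
    have e1 : ∫ h, |ex x Λ' h f - b| ∂P = ∫ h, |K h - b| ∂P := by
      refine integral_congr_ae ?_
      filter_upwards [hZ.lip] with h hh
      rw [hKe h hh]
    rw [e1] at h1
    have hint : Integrable (fun h => |K h - b|) P :=
      ((integrable_gobs hKG hZ.lip).sub (integrable_const b)).abs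
    have h2 := mul_meas_ge_le_integral_of_nonneg (μ := P) (f := fun h => |K h - b|)
      (Eventually.of_forall fun h => abs_nonneg _) hint s
    rw [le_div_iff₀ hs]
    have h3 : P.real A ≤ P.real {h | s ≤ |K h - b|} :=
      by
        refine measureReal_mono fun h hh => ?_
        have h4 : s < |K h - b| := hh
        exact h4.le
    nlinarith
  have hK1 : ∀ h, Lip h → |K h| ≤ 1 := by
    intro h hh
    rw [hKe h hh]
    refine (abs_ex_le f).trans ?_
    calc ex x Λ' h (fun h => |f h|) ≤ ex x Λ' h (fun _ => (1 : ℝ)) := It844.ex_mono fun k _ => hf1 k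
      _ = 1 := It844.ex_const hx hh 1
  have e2 : ex x Λ τ f - b = ex x Λ τ (fun h => K h + (-b)) := by
    rw [It844.ex_add, It844.ex_const hx hτ, It844.ex_tower hx hΛ τ f]
    have : ex x Λ τ (fun h => ex x Λ' h f) = ex x Λ τ K :=
      It844.ex_congr fun h hh => (hKe h (mem_conf.1 hh).1).symm
    rw [this]
    ring
  rw [e2]
  refine (abs_ex_le _).trans ?_
  calc ex x Λ τ (fun h => |K h + -b|)
      ≤ ex x Λ τ (fun h => s + (2 : ℝ) • ind A h) := by
        refine It844.ex_mono fun h hh => ?_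
        have hl := (mem_conf.1 hh).1
        rw [smul_eq_mul, ← sub_eq_add_neg]
        by_cases hhA : h ∈ A
        · have : ind A h = 1 := if_pos hhA
          rw [this]
          have h3 := hK1 h hl
          have h4 : |K h - b| ≤ |K h| + |b| := abs_sub _ _
          linarith
        · have : ind A h = 0 := if_neg hhA
          rw [this]
          have h3 : |K h - b| ≤ s := not_lt.1 hhA
          linarith
    _ = s + 2 * ex x Λ τ (ind A) := by
        rw [It844.ex_add, It844.ex_const hx hτ, It844.ex_smul, smul_eq_mul]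
    _ ≤ s + 2 * (η + C * (ε / s)) := by
        have h5 := hcon A hAl hAN
        rw [pr_eq] at h5
        have h6 : C * P.real A ≤ C * (ε / s) := mul_le_mul_of_nonneg_left hPA hC
        linarith

/-! ### supports -/

theorem Du_supp {u : ℂ → ℝ} {d : ℝ} (hd : 0 ≤ d) {v : P2} (h : Du u d v ≠ 0) :
    ∃ z ∈ tsupport u, dist (centre d v) z ≤ d := by
  by_contra hcon
  push Not at hcon
  apply h
  have z0 : ∀ e ∈ six, u (centre d (v - e)) = 0 := by
    intro e he
    by_contra h1
    have h2 := hcon _ (subset_tsupport _ h1)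
    have h3 := Cw643.norm_centre_six hd he
    rw [Cw643.centre_sub, dist_eq_norm] at h2
    have e1 : centre d v - (centre d v - centre d e) = centre d e := by ring
    rw [e1] at h2
    linarith
  have z1 : u (centre d v) = 0 := by
    by_contra h1
    have := hcon _ (subset_tsupport _ h1)
    rw [dist_self] at this
    linarith
  unfold Du Dop
  beta_reduce
  rw [z1, z0 _ (by decide), z0 _ (by decide), z0 _ (by decide), z0 _ (by decide),
    z0 _ (by decide), z0 _ (by decide)]
  ring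

/-- `S` contains all sites within `d` of the support -/
theorem sup7_of {u : ℂ → ℝ} {d : ℝ} (hd : 0 ≤ d) {S : Finset P2}
    (hS : ∀ v, (∃ z ∈ tsupport u, dist (centre d v) z ≤ d) → v ∈ S) :
    Sup7 S (fun v => u (centre d v)) := by
  constructor
  · intro p hp
    by_contra h1
    exact hp (hS p ⟨_, subset_tsupport _ h1, by rw [dist_self]; exact hd⟩)
  · intro e he p hp
    by_contra h1
    refine hp (hS p ⟨_, subset_tsupport _ h1, ?_⟩)
    rw [dist_eq_norm]
    have h3 := Cw643.norm_centre_six hd he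
    rw [Cw643.centre_sub]
    have e1 : centre d p - (centre d p - centre d e) = centre d e := by ring
    rw [e1]
    exact h3

theorem LS_eq {S S' : Finset P2} {b : P2 → ℝ} (h : ∀ v, v ∉ S → b v = 0) (h' : ∀ v, v ∉ S' → b v = 0)
    (k : Hz) : LS S b k = LS S' b k := by
  classical
  unfold LS
  have h1 : ∑ p ∈ S, b p * (k p : ℝ) = ∑ p ∈ S ∪ S', b p * (k p : ℝ) :=
    Finset.sum_subset Finset.subset_union_left fun p _ hp => by rw [h p hp, zero_mul]
  have h2 : ∑ p ∈ S', b p * (k p : ℝ) = ∑ p ∈ S ∪ S', b p * (k p : ℝ) :=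
    Finset.sum_subset Finset.subset_union_right fun p _ hp => by rw [h' p hp, zero_mul]
  rw [h1, h2]

theorem locZ_LS (S : Finset P2) (b : P2 → ℝ) : LocZ (S : Set P2) (LS S b) := fun h k hk => by
  unfold LS
  exact Finset.sum_congr rfl fun v hv => by rw [hk v (Finset.mem_coe.2 hv)]

theorem neutZ_LS {S : Finset P2} {b : P2 → ℝ} (hb : ∑ v ∈ S, b v = 0) : NeutZ (LS S b) := fun h c => by
  unfold LS
  have : ∀ v ∈ S, b v * ((h v + c : ℤ) : ℝ) = b v * (h v : ℝ) + b v * (c : ℝ) := fun v _ => by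
    push_cast; ring
  rw [Finset.sum_congr rfl this, Finset.sum_add_distrib, ← Finset.sum_mul, hb, zero_mul, add_zero]

end Crest.Agent.R144.Dom136
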