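import Crest.Agent.R144.Cw8_643
import Crest.Agent.R144.RegK_136
import Crest.Agent.R144.RegS_136
import Crest.Agent.R144.RegP_136
import Crest.Agent.R144.Tp1_952
import Crest.Agent.R144.Cst1_725
import Crest.Agent.R144.Tp5_952
import Crest.Agent.R144.Ps1_643
import Crest.Agent.R144.Ga2a_617

-- ▼ part R144/Cw9_643
section

/-!
# R144 (helper643), CW block, file 9: `cv_tendsto`, Ward corollary, variances
-/

set_option autoImplicit false

noncomputable section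

namespace Crest.Agent.R144.Cw643

open Finset Filter Topology MeasureTheory
open Crest.Agent.R144.Tp952
open Crest.ProbabilityR.HexHeights (centre)
open Crest.Agent.R144.HexTil353 Crest.Agent.R144.Geo268
open scoped Real ContDiff Laplacian

variable {V : ℤ × ℤ → ℝ} {u : ℝ × ℝ → ℝ} {L C : ℝ} {δ : ℕ → ℝ}

/-- **limit of the covariances** -/
theorem cv_tendsto (hV : Two V) (hS : Spec V u L C) (hδ : ∀ n, 0 < δ n)
    (hδ0 : Tendsto δ atTop (𝓝 0)) {ψ f : ℂ → ℝ} (hψ : ContDiff ℝ ∞ ψ) (hψc : HasCompactSupport ψ)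
    (hf : Continuous f) (hfc : HasCompactSupport f) {b a : ℕ → ℤ × ℤ → ℝ}
    (hb : Near δ b (fun z => -(Δ ψ) z)) (ha : Near δ a f) {s t : ℕ → Finset (ℤ × ℤ)}
    (hs : ∀ᶠ n in atTop, Wt (s n) (b n)) (ht : ∀ᶠ n in atTop, Wt (t n) (a n)) :
    Tendsto (fun n => CV V (s n) (b n) (t n) (a n)) atTop
      (𝓝 (2 * L / Real.sqrt 3 * ∫ z, ψ z * f z)) := by
  have hND := near_Dop hδ hδ0 hψ hψc
  obtain ⟨Rb, hRb⟩ := hb.supp
  obtain ⟨Ra, hRa⟩ := ha.supp
  obtain ⟨RD, hRD⟩ := hND.supp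
  obtain ⟨Rψ, hRψ⟩ := hψc.isBounded.exists_norm_le
  have hRψ' : ∀ z, ψ z ≠ 0 → ‖z‖ ≤ Rψ := fun z hz => hRψ z (subset_tsupport _ hz)
  set R : ℝ := |Rb| + |Ra| + |RD| + |Rψ| with hR
  have hR0 : 0 ≤ R := by positivity
  have r1 : Rb ≤ R := by
    have := le_abs_self Rb; have := abs_nonneg Ra; have := abs_nonneg RD; have := abs_nonneg Rψ
    linarith
  have r2 : Ra ≤ R := by
    have := abs_nonneg Rb; have := le_abs_self Ra; have := abs_nonneg RD; have := abs_nonneg Rψ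
    linarith
  have r3 : RD ≤ R := by
    have := abs_nonneg Rb; have := abs_nonneg Ra; have := le_abs_self RD; have := abs_nonneg Rψ
    linarith
  have r4 : Rψ ≤ R := by
    have := abs_nonneg Rb; have := abs_nonneg Ra; have := abs_nonneg RD; have := le_abs_self Rψ
    linarith
  have hRb' : ∀ᶠ n in atTop, ∀ v, b n v ≠ 0 → ‖centre (δ n) v‖ ≤ R :=
    hRb.mono fun n h v hv => (h v hv).trans r1
  have hRa' : ∀ᶠ n in atTop, ∀ v, a n v ≠ 0 → ‖centre (δ n) v‖ ≤ R :=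
    hRa.mono fun n h v hv => (h v hv).trans r2
  have hRD' : ∀ᶠ n in atTop, ∀ v, Dop (fun v => ψ (centre (δ n) v)) v ≠ 0 → ‖centre (δ n) v‖ ≤ R :=
    hRD.mono fun n h v hv => (h v hv).trans r3
  have hRψ'' : ∀ z, ψ z ≠ 0 → ‖z‖ ≤ R := fun z hz => (hRψ' z hz).trans r4
  have wb : ∀ᶠ n in atTop, Wt (BX (mm R (δ n))) (b n) := by
    filter_upwards [hs, hRb'] with n h1 h2 using h1.sum_eq (sup7_of_norm (hδ n) h2).1
  have wa : ∀ᶠ n in atTop, Wt (BX (mm R (δ n))) (a n) := by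
    filter_upwards [ht, hRa'] with n h1 h2 using h1.sum_eq (sup7_of_norm (hδ n) h2).1
  have wD : ∀ᶠ n in atTop, Wt (BX (mm R (δ n))) (Dop fun v => ψ (centre (δ n) v)) := by
    refine Eventually.of_forall fun n => ?_
    have h7 : Sup7 (BX (mm R (δ n))) (fun v => ψ (centre (δ n) v)) :=
      sup7_of_norm (hδ n) fun p hp => hRψ'' _ hp
    exact ⟨fun p hp => Dop_zero h7 hp, sum_Dop h7⟩
  obtain ⟨A2, hA2⟩ := hf.bounded_above_of_compact_support hfc
  have hA2' : ∀ z, |f z| ≤ A2 := fun z => by rw [← Real.norm_eq_abs]; exact hA2 z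
  have hA20 : 0 ≤ A2 := (norm_nonneg _).trans (hA2 0)
  have hx : Near δ (fun n v => b n v - Dop (fun v => ψ (centre (δ n) v)) v) (fun _ => 0) :=
    (hb.sub hND).congr fun z => sub_self _
  have h1 := cv_tendsto_zero hV hS hδ hδ0 hR0 (x := fun n v => b n v - Dop (fun v => ψ (centre (δ n) v)) v)
    (a := a) (A := A2 + 1) (by linarith)
    (fun ε hε => by
      filter_upwards [hx.near ε hε] with n h v
      have := h v
      rwa [mul_zero, sub_zero] at this)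
    (ha.bdd hA2')
    (by
      filter_upwards [wb, wD] with n h1 h2
      exact ⟨fun p hp => by beta_reduce; rw [h1.1 p hp, h2.1 p hp, sub_zero],
        by rw [Finset.sum_sub_distrib, h1.2, h2.2, sub_zero]⟩) wa
  have h2 := cv_Dop_tendsto hV hS hδ hδ0 hψ hψc hf hfc ha hR0 hRψ'' hRD' hRa' (wa.mono fun n h => h.2)
  have h3 := h1.add h2
  rw [zero_add] at h3
  refine h3.congr' ?_
  filter_upwards [hs, ht, wb, wa] with n h4 h5 h6 h7
  rw [CV_sub_left, sub_add_cancel]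
  exact CV_eq_of_supp V h6.1 h4.1 h7.1 h5.1



end Crest.Agent.R144.Cw643
end
end

-- ▼ part R144/Reg_136
section

/-!
# R144, block REG (helper136): regularised structure functions of a plane variogram

`exists_reg : Two V → ∃ U, Reg V U`, with `U n` the structure function of
`(n + 1) / 2 * exp (- V p / (n + 1)) * (Gr β_n p / Gr β_n 0)`.
-/

set_option autoImplicit false

noncomputable section

namespace Crest.Agent.R144.Reg136

open Finset Filter Topology MeasureTheory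
open Crest.Agent.R144.Tp952 (Two Reg fh sg Frame th sw)

variable {V : ℤ × ℤ → ℝ}

theorem two_nonneg (hV : Two V) (p : ℤ × ℤ) : 0 ≤ V p := by
  by_cases hp : p = 0
  · rw [hp, hV.zero]
  have h := hV.pd {p, 0} (fun q => if q = 0 then -1 else 1) (by
    rw [sum_pair hp]
    simp [hp])
  rw [sum_pair hp, sum_pair hp, sum_pair hp] at h
  simp only [hp, if_false, if_true, sub_self, sub_zero, zero_sub, hV.zero, hV.neg] at h
  linarith

theorem kernel_symm (hV : Two V) (p q : ℤ × ℤ) :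
    V (p.1 - q.1 - q.2, p.2 + q.2) = V (q.1 - p.1 - p.2, q.2 + p.2) := by
  have h1 := hV.theta (p.1 - q.1 - q.2, p.2 + q.2)
  have h2 := hV.neg (th (p.1 - q.1 - q.2, p.2 + q.2))
  rw [← h1, ← h2]
  congr 1
  simp only [th, Prod.neg_mk, Prod.mk.injEq]
  constructor <;> ring

/-- Schoenberg exponential of the reflected kernel -/
theorem pk_exp (hV : Two V) {τ : ℝ} (hτ : 0 ≤ τ) (s : Finset (ℤ × ℤ)) (hs : ∀ p ∈ s, 0 ≤ p.2) :
    PK s fun p q => Real.exp (-(τ * V (p.1 - q.1 - q.2, p.2 + q.2))) := by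
  have h1 := cond_base (fun p q : ℤ × ℤ => V (p.1 - q.1 - q.2, p.2 + q.2)) (fun p => 0 ≤ p.2) (0, 0)
    le_rfl (fun p q => kernel_symm hV p q) (by
      have h := hV.zero
      rw [Prod.zero_eq_mk] at h
      simpa using h) (fun s w hw h0 => by
      have := hV.rp s w hw h0
      refine this.trans_eq ?_
      congr 1
      refine sum_congr rfl fun p _ => sum_congr rfl fun q _ => ?_
      congr 2
      simp only [th]
      ext <;> simp <;> ring) s hs
  exact PK.schoenberg (fun p => V (p.1 - (0, 0).1 - (0, 0).2, p.2 + (0, 0).2)) h1 hτ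

theorem pk_Gr {β : ℝ} (h0 : 0 ≤ β) (h1 : β < 1) (s : Finset (ℤ × ℤ)) (hs : ∀ p ∈ s, 0 ≤ p.2) :
    PK s fun p q => Gr β (p.1 - q.1 - q.2, p.2 + q.2) := by
  refine ⟨fun p q => ?_, fun f => Gr_rp h0 h1 s f hs⟩
  have h2 := (Gr_symm β (p.1 - q.1 - q.2) (p.2 + q.2)).2.1
  have h3 := (Gr_symm β (p.1 - q.1 - q.2 + (p.2 + q.2)) (-(p.2 + q.2))).1
  rw [← h2, ← h3]
  congr 1
  simp only [Prod.mk.injEq]
  constructor <;> ring

/-- the regularised covariance -/
def Creg (V : ℤ × ℤ → ℝ) (c τ β : ℝ) (p : ℤ × ℤ) : ℝ := c * (Real.exp (-(τ * V p)) * Gr β p)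

theorem rc_Creg (hV : Two V) {c τ β : ℝ} (hc : 0 ≤ c) (hτ : 0 ≤ τ) (h0 : 0 ≤ β) (h1 : β < 1) :
    RC (c * (1 - β)⁻¹) (Real.sqrt β) (Creg V c τ β) where
  ρ0 := (rc_Gr h0 h1).ρ0
  ρ1 := (rc_Gr h0 h1).ρ1
  dec p := by
    unfold Creg
    rw [abs_mul, abs_mul, abs_of_nonneg hc, Real.abs_exp, mul_assoc]
    refine mul_le_mul_of_nonneg_left ?_ hc
    have h2 := (rc_Gr h0 h1).dec p
    have h3 : Real.exp (-(τ * V p)) ≤ 1 :=
      Real.exp_le_one_iff.2 (neg_nonpos.2 (mul_nonneg hτ (two_nonneg hV p)))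
    calc Real.exp (-(τ * V p)) * |Gr β p| ≤ 1 * |Gr β p| :=
          mul_le_mul_of_nonneg_right h3 (abs_nonneg _)
      _ = |Gr β p| := one_mul _
      _ ≤ _ := h2
  even x y := by
    have h2 := hV.neg (x, y)
    rw [Prod.neg_mk] at h2
    unfold Creg
    rw [h2, (Gr_symm β x y).1]
  theta x y := by
    have h2 := hV.theta (x, y)
    simp only [th] at h2
    unfold Creg
    rw [h2, (Gr_symm β x y).2.1]
  swap x y := by
    have h2 := hV.swap (x, y)
    simp only [sw] at h2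
    unfold Creg
    rw [h2, (Gr_symm β x y).2.2]
  rp s f hs := by
    have h2 := ((pk_exp hV hτ s hs).mul (pk_Gr h0 h1 s hs)).smul hc
    exact h2.nn f

theorem normSq_fh (s : Finset (ℤ × ℤ)) (f : ℤ × ℤ → ℝ) (k1 k2 : ℝ) :
    Complex.normSq (fh s f k1 k2) = ∑ p ∈ s, ∑ q ∈ s, f p * f q *
      Real.cos (k1 * ((p.1 - q.1 : ℤ) : ℝ) + k2 * ((p.2 - q.2 : ℤ) : ℝ)) := by
  have hterm : ∀ p : ℤ × ℤ, (f p : ℂ) * Complex.exp (Complex.I * ((p.1 : ℝ) * k1 + (p.2 : ℝ) * k2 : ℝ))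
      = ((f p * Real.cos ((p.1 : ℝ) * k1 + (p.2 : ℝ) * k2) : ℝ) : ℂ)
        + ((f p * Real.sin ((p.1 : ℝ) * k1 + (p.2 : ℝ) * k2) : ℝ) : ℂ) * Complex.I := by
    intro p
    rw [mul_comm Complex.I, Complex.exp_mul_I]
    push_cast
    ring
  have hre : (fh s f k1 k2).re = ∑ p ∈ s, f p * Real.cos ((p.1 : ℝ) * k1 + (p.2 : ℝ) * k2) := by
    unfold fh
    rw [Complex.re_sum]
    refine sum_congr rfl fun p _ => ?_
    rw [hterm]
    simp [-Complex.ofReal_mul, -Complex.ofReal_cos, -Complex.ofReal_sin]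
  have him : (fh s f k1 k2).im = ∑ p ∈ s, f p * Real.sin ((p.1 : ℝ) * k1 + (p.2 : ℝ) * k2) := by
    unfold fh
    rw [Complex.im_sum]
    refine sum_congr rfl fun p _ => ?_
    rw [hterm]
    simp [-Complex.ofReal_mul, -Complex.ofReal_cos, -Complex.ofReal_sin]
  rw [Complex.normSq_apply, hre, him, sum_mul_sum, sum_mul_sum, ← sum_add_distrib]
  refine sum_congr rfl fun p _ => ?_
  rw [← sum_add_distrib]
  refine sum_congr rfl fun q _ => ?_
  have e : k1 * ((p.1 - q.1 : ℤ) : ℝ) + k2 * ((p.2 - q.2 : ℤ) : ℝ)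
      = ((p.1 : ℝ) * k1 + (p.2 : ℝ) * k2) - ((q.1 : ℝ) * k1 + (q.2 : ℝ) * k2) := by
    push_cast; ring
  rw [e, Real.cos_sub]
  ring

/-- the box used for the choice of `β_n` -/
def bx (n : ℕ) : Finset (ℤ × ℤ) := Finset.Icc (-(n : ℤ)) n ×ˢ Finset.Icc (-(n : ℤ)) n

theorem exists_bt (n : ℕ) : ∃ β : ℝ, 0 ≤ β ∧ β < 1 ∧
    ∀ p ∈ bx n, |Gr β p / Gr β (0, 0) - 1| ≤ (1 / ((n : ℝ) + 1)) ^ 2 :=
  exists_Kn (bx n) (by positivity)

/-- mass parameter -/
def bt (n : ℕ) : ℝ := (exists_bt n).choose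

theorem bt_spec (n : ℕ) : 0 ≤ bt n ∧ bt n < 1 ∧
    ∀ p ∈ bx n, |Gr (bt n) p / Gr (bt n) (0, 0) - 1| ≤ (1 / ((n : ℝ) + 1)) ^ 2 :=
  (exists_bt n).choose_spec

/-- regularised covariances -/
def Cn (V : ℤ × ℤ → ℝ) (n : ℕ) : ℤ × ℤ → ℝ :=
  Creg V (((n : ℝ) + 1) / 2 / Gr (bt n) (0, 0)) (1 / ((n : ℝ) + 1)) (bt n)

/-- regularised structure functions -/
def Un (V : ℤ × ℤ → ℝ) (n : ℕ) (k1 k2 : ℝ) : ℝ := uC (Cn V n) k1 k2

theorem rc_Cn (hV : Two V) (n : ℕ) : RC ((((n : ℝ) + 1) / 2 / Gr (bt n) (0, 0)) * (1 - bt n)⁻¹)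
    (Real.sqrt (bt n)) (Cn V n) := by
  obtain ⟨h0, h1, -⟩ := bt_spec n
  have hG := Gr_zero_pos h0 h1
  exact rc_Creg hV (by positivity) (by positivity) h0 h1

theorem tendsto_exp_quot (v : ℝ) :
    Tendsto (fun n : ℕ => ((n : ℝ) + 1) / 2 * (Real.exp (-(1 / ((n : ℝ) + 1) * v)) - 1)) atTop
      (𝓝 (-(1 / 2) * v)) := by
  have hx : Tendsto (fun n : ℕ => 1 / ((n : ℝ) + 1)) atTop (𝓝 0) :=
    tendsto_one_div_add_atTop_nhds_zero_nat
  have hd : HasDerivAt (fun x : ℝ => Real.exp (-(x * v))) (-v) 0 := by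
    have h1 : HasDerivAt (fun x : ℝ => -(x * v)) (-(1 * v)) 0 := ((hasDerivAt_id 0).mul_const v).neg
    have h2 := h1.exp
    simpa using h2
  have hs := hd.tendsto_slope_zero
  have hx' : Tendsto (fun n : ℕ => 1 / ((n : ℝ) + 1)) atTop (𝓝[≠] 0) := by
    refine tendsto_nhdsWithin_iff.2 ⟨hx, Eventually.of_forall fun n => ?_⟩
    simp only [Set.mem_compl_iff, Set.mem_singleton_iff]
    positivity
  have h3 := (hs.comp hx').const_mul (1 / 2 : ℝ)
  have e : -(1 / 2) * v = 1 / 2 * -v := by ring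
  rw [e]
  refine h3.congr fun n => ?_
  simp only [Function.comp, zero_add, zero_mul, neg_zero, Real.exp_zero, smul_eq_mul, one_div,
    inv_inv]
  ring

theorem tendsto_Cn (hV : Two V) (p : ℤ × ℤ) :
    Tendsto (fun n : ℕ => Cn V n p - ((n : ℝ) + 1) / 2) atTop (𝓝 (-(1 / 2) * V p)) := by
  have h1 := tendsto_exp_quot (V p)
  have h2 : Tendsto (fun n : ℕ => ((n : ℝ) + 1) / 2 * Real.exp (-(1 / ((n : ℝ) + 1) * V p)) *
      (Gr (bt n) p / Gr (bt n) (0, 0) - 1)) atTop (𝓝 0) := by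
    have hx : Tendsto (fun n : ℕ => 1 / ((n : ℝ) + 1)) atTop (𝓝 0) :=
      tendsto_one_div_add_atTop_nhds_zero_nat
    refine squeeze_zero_norm' ?_ hx
    filter_upwards [eventually_ge_atTop (p.1.natAbs + p.2.natAbs)] with n hn
    have hp : p ∈ bx n := by
      simp only [bx, mem_product, mem_Icc]
      omega
    have h3 := (bt_spec n).2.2 p hp
    have h4 : Real.exp (-(1 / ((n : ℝ) + 1) * V p)) ≤ 1 :=
      Real.exp_le_one_iff.2 (neg_nonpos.2 (mul_nonneg (by positivity) (two_nonneg hV p)))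
    rw [Real.norm_eq_abs, abs_mul, abs_mul, Real.abs_exp, abs_of_nonneg (by positivity)]
    calc ((n : ℝ) + 1) / 2 * Real.exp (-(1 / ((n : ℝ) + 1) * V p)) *
          |Gr (bt n) p / Gr (bt n) (0, 0) - 1|
        ≤ ((n : ℝ) + 1) / 2 * 1 * (1 / ((n : ℝ) + 1)) ^ 2 := by
          refine mul_le_mul (mul_le_mul_of_nonneg_left h4 (by positivity)) h3 (abs_nonneg _)
            (by positivity)
      _ = 1 / 2 * (1 / ((n : ℝ) + 1)) := by field_simp
      _ ≤ 1 / ((n : ℝ) + 1) := by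
          have : (0:ℝ) ≤ 1 / ((n : ℝ) + 1) := by positivity
          linarith
  have h3 := h1.add h2
  rw [add_zero] at h3
  refine h3.congr fun n => ?_
  unfold Cn Creg
  have hG : Gr (bt n) (0, 0) ≠ 0 :=
    (one_pos.trans_le (Gr_zero_pos (bt_spec n).1 (bt_spec n).2.1)).ne'
  field_simp
  ring

theorem Un_lim (hV : Two V) (s : Finset (ℤ × ℤ)) (f : ℤ × ℤ → ℝ) (hf : ∑ p ∈ s, f p = 0) :
    Tendsto (fun n => (∫ k1 in (-Real.pi)..Real.pi, ∫ k2 in (-Real.pi)..Real.pi,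
        Complex.normSq (fh s f k1 k2) * Un V n k1 k2) / (2 * Real.pi) ^ 2) atTop
      (𝓝 (-(1 / 2) * ∑ p ∈ s, ∑ q ∈ s, f p * f q * V (p - q))) := by
  have e1 : ∀ n, (∫ k1 in (-Real.pi)..Real.pi, ∫ k2 in (-Real.pi)..Real.pi,
        Complex.normSq (fh s f k1 k2) * Un V n k1 k2) / (2 * Real.pi) ^ 2
      = ∑ p ∈ s, ∑ q ∈ s, f p * f q * (Cn V n (p - q) - ((n : ℝ) + 1) / 2) := by
    intro n
    simp_rw [normSq_fh]
    unfold Un
    rw [(rc_Cn hV n).plancherel s f]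
    have hpi : (2 * Real.pi) ^ 2 ≠ 0 := by positivity
    rw [mul_div_cancel_left₀ _ hpi]
    have e2 : ∑ p ∈ s, ∑ q ∈ s, f p * f q * (((n : ℝ) + 1) / 2) = 0 := by
      have : ∑ p ∈ s, ∑ q ∈ s, f p * f q * (((n : ℝ) + 1) / 2)
          = (∑ p ∈ s, f p) * (∑ q ∈ s, f q) * (((n : ℝ) + 1) / 2) := by
        rw [sum_mul_sum, sum_mul]
        refine sum_congr rfl fun p _ => ?_
        rw [sum_mul]
      rw [this, hf]
      ring
    have e3 : ∑ p ∈ s, ∑ q ∈ s, f p * f q * (Cn V n (p - q) - ((n : ℝ) + 1) / 2)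
        = ∑ p ∈ s, ∑ q ∈ s, f p * f q * Cn V n (p - q)
          - ∑ p ∈ s, ∑ q ∈ s, f p * f q * (((n : ℝ) + 1) / 2) := by
      rw [← sum_sub_distrib]
      refine sum_congr rfl fun p _ => ?_
      rw [← sum_sub_distrib]
      exact sum_congr rfl fun q _ => by ring
    rw [e3, e2, sub_zero]
  simp_rw [e1]
  have e4 : -(1 / 2) * ∑ p ∈ s, ∑ q ∈ s, f p * f q * V (p - q)
      = ∑ p ∈ s, ∑ q ∈ s, f p * f q * (-(1 / 2) * V (p - q)) := by
    rw [mul_sum]
    refine sum_congr rfl fun p _ => ?_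
    rw [mul_sum]
    exact sum_congr rfl fun q _ => by ring
  rw [e4]
  exact tendsto_finsetSum _ fun p _ => tendsto_finsetSum _ fun q _ =>
    (tendsto_Cn hV (p - q)).const_mul _

/-- **REG**: every plane variogram has a regularisation. -/
theorem reg (hV : Two V) : Reg V (Un V) where
  cont n := (rc_Cn hV n).continuous_uC
  nonneg n k1 k2 := (rc_Cn hV n).uC_nonneg k1 k2
  per1 n k1 k2 := RC.uC_periodic1 _ k1 k2
  per2 n k1 k2 := RC.uC_periodic2 _ k1 k2
  neg n k1 k2 := RC.uC_neg _ k1 k2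
  swap n k1 k2 := (rc_Cn hV n).uC_swap k1 k2
  theta n k1 k2 := (rc_Cn hV n).uC_theta k1 k2
  frame n p := by
    intro φ0 φ1 φ2 h0 h01 h12 h2
    have c1 : Real.cos φ1 ≤ Real.cos φ0 :=
      Real.cos_le_cos_of_nonneg_of_le_pi h0 (h12.trans h2) h01
    have c2 : Real.cos φ2 ≤ Real.cos φ1 :=
      Real.cos_le_cos_of_nonneg_of_le_pi (h0.trans h01) h2 h12
    have h := (rc_Cn hV n).uC_three p c1 c2
    simp only [sg, Un]
    nlinarith [h]
  lim s f hf := Un_lim hV s f hf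




end Crest.Agent.R144.Reg136
end
end

-- ▼ part R144/Cst2_725
section

/-!
# R144, CONST block (helper725), part 2

`SinB U` : the row bound for the regularised densities.
`Reg.const_le` : `L * (2 / π) ≤ V (1, 0)`.
`Reg.exists_spec_const` : 952's spectral representation together with `L * (2 / π) ≤ V (1, 0)`.
-/

set_option autoImplicit false

open Filter Topology MeasureTheory
open scoped Real BigOperators

noncomputable section

namespace Crest.Agent.R144.Tp952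

variable {V : ℤ × ℤ → ℝ} {U : ℕ → ℝ → ℝ → ℝ}

/-- the row bound: `|sin φ| u(κ, φ + κ/2) ≤ (2π)⁻¹ ∫ u(κ, θ) dθ`. -/
def SinB (U : ℕ → ℝ → ℝ → ℝ) : Prop :=
  ∀ (n : ℕ) (κ φ : ℝ), |Real.sin φ| * U n κ (φ + κ / 2) ≤ (∫ θ in (-π)..π, U n κ θ) / (2 * π)

/-- for densities which are structure functions of reflection positive covariances -/
theorem SinB.of_RC (hU : ∀ n, ∃ (M ρ : ℝ) (C : ℤ × ℤ → ℝ), Reg136.RC M ρ C ∧ U n = Reg136.uC C) :
    SinB U := by
  intro n κ φ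
  obtain ⟨M, ρ, C, hC, e⟩ := hU n
  rw [e]
  exact hC.sinB κ φ

namespace Reg

/-- **spectral representation near `0`** (952's `exists_spec`, keeping the subsequence and the
pointwise convergence of the regularised densities). -/
theorem exists_spec_full (h : Reg V U) : ∃ (φ : ℕ → ℕ) (u : ℝ × ℝ → ℝ) (L C : ℝ), StrictMono φ ∧
    (∀ k : ℝ × ℝ, k ≠ 0 → NN k.1 k.2 < 1 / 100 →
      Tendsto (fun n => U (φ n) k.1 k.2) atTop (𝓝 (u k))) ∧
    0 ≤ L ∧ 0 < C ∧ (∀ k, 0 ≤ u k) ∧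
    ContinuousOn u {k | k ≠ 0 ∧ NN k.1 k.2 < 1 / 100} ∧
    (∀ k : ℝ × ℝ, NN k.1 k.2 < 1 / 100 → NN k.1 k.2 * u k ≤ C) ∧
    Tendsto (fun k : ℝ × ℝ => NN k.1 k.2 * u k) (𝓝[≠] 0) (𝓝 L) ∧
    ∀ (r : ℝ) (s : Finset (ℤ × ℤ)) (f : ℤ × ℤ → ℝ) (M : ℝ), 0 < r → r ≤ 1 / 10 →
      ∑ p ∈ s, f p = 0 →
      (∀ k1 k2 : ℝ, |k1| ≤ π → |k2| ≤ π → r ^ 2 ≤ NN k1 k2 → Complex.normSq (fh s f k1 k2) ≤ M) →
      IntegrableOn (fun k : ℝ × ℝ => Complex.normSq (fh s f k.1 k.2) * u k) (BB r) ∧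
      |(-(1 / 2) * ∑ p ∈ s, ∑ q ∈ s, f p * f q * V (p - q))
        - (∫ k in BB r, Complex.normSq (fh s f k.1 k.2) * u k) / (2 * π) ^ 2| ≤ C / r ^ 2 * M := by
  obtain ⟨φ, u, L, C, hφ, hL, hC, hu, hlim, hcont, hIR, hIRn, hT⟩ := h.exists_density
  obtain ⟨CS, hCS, hS1, hS2⟩ := h.exists_S_bound
  refine ⟨φ, u, L, C + 8 * CS, hφ, hlim, hL, by linarith, hu, ?_, ?_, hT, ?_⟩
  · intro k hk
    exact (hcont k hk.1 hk.2).continuousWithinAt
  · intro k hk
    linarith [hIR k hk]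
  intro r s f M hr hr' h0 hM
  have hr1 : r ≤ 1 := by linarith
  have hrr : r ^ 2 ≤ 1 / 100 := by nlinarith
  have hBB : ∀ k ∈ BB r, NN k.1 k.2 < 1 / 100 := fun k hk => lt_of_lt_of_le hk hrr
  set F : ℝ × ℝ → ℝ := fun k => Complex.normSq (fh s f k.1 k.2) with hF
  have hFc : Continuous F := Complex.continuous_normSq.comp (continuous_fh s f)
  have hF0 : ∀ k, 0 ≤ F k := fun k => Complex.normSq_nonneg _
  have hFN : ∀ k : ℝ × ℝ, F k ≤ 2 * mom s f ^ 2 * NN k.1 k.2 := fun k => normSq_fh_le h0 k.1 k.2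
  have hFz : F 0 = 0 := by
    have h1 := hFN 0
    have h2 : NN (0 : ℝ × ℝ).1 (0 : ℝ × ℝ).2 = 0 := by simp [NN]
    rw [h2, mul_zero] at h1
    exact le_antisymm h1 (hF0 0)
  have hM0 : 0 ≤ M := by
    refine le_trans (Complex.normSq_nonneg (fh s f π π)) (hM π π ?_ ?_ ?_)
    · rw [abs_of_pos Real.pi_pos]
    · rw [abs_of_pos Real.pi_pos]
    · unfold NN; nlinarith [Real.pi_gt_three]
  have hGc : ∀ n, Continuous (fun k : ℝ × ℝ => F k * U n k.1 k.2) := fun n => hFc.mul (h.cont n)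
  -- dominated convergence on the disc
  have hfin : volume (BB r) < ⊤ := volume_BB_lt_top hr.le hr1
  have : IsFiniteMeasure (volume.restrict (BB r)) := ⟨by rwa [Measure.restrict_apply_univ]⟩
  have hbd : ∀ n, ∀ k ∈ BB r, ‖F k * U n k.1 k.2‖ ≤ 2 * mom s f ^ 2 * C := by
    intro n k hk
    rw [Real.norm_eq_abs, abs_of_nonneg (mul_nonneg (hF0 k) (h.nonneg _ _ _))]
    calc F k * U n k.1 k.2 ≤ (2 * mom s f ^ 2 * NN k.1 k.2) * U n k.1 k.2 :=
          mul_le_mul_of_nonneg_right (hFN k) (h.nonneg _ _ _)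
      _ = 2 * mom s f ^ 2 * (NN k.1 k.2 * U n k.1 k.2) := by ring
      _ ≤ _ := mul_le_mul_of_nonneg_left (hIRn k (hBB k hk) n) (by positivity)
  have hpt : ∀ k ∈ BB r, Tendsto (fun n => F k * U (φ n) k.1 k.2) atTop (𝓝 (F k * u k)) := by
    intro k hk
    by_cases hk0 : k = 0
    · subst hk0
      simp only [hFz, zero_mul]
      exact tendsto_const_nhds
    · exact (hlim k hk0 (hBB k hk)).const_mul _
  have haem : ∀ n, AEStronglyMeasurable (fun k : ℝ × ℝ => F k * U (φ n) k.1 k.2)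
      (volume.restrict (BB r)) := fun n => (hGc (φ n)).aestronglyMeasurable
  have hdct : Tendsto (fun n => ∫ k in BB r, F k * U (φ n) k.1 k.2) atTop
      (𝓝 (∫ k in BB r, F k * u k)) := by
    refine tendsto_integral_of_dominated_convergence (fun _ => 2 * mom s f ^ 2 * C) haem
      (integrable_const _) ?_ ?_
    · intro n
      filter_upwards [ae_restrict_mem (measurableSet_BB r)] with k hk
      exact hbd (φ n) k hk
    · filter_upwards [ae_restrict_mem (measurableSet_BB r)] with k hk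
      exact hpt k hk
  have hint : IntegrableOn (fun k : ℝ × ℝ => F k * u k) (BB r) := by
    have hae : AEStronglyMeasurable (fun k : ℝ × ℝ => F k * u k) (volume.restrict (BB r)) := by
      refine aestronglyMeasurable_of_tendsto_ae atTop haem ?_
      filter_upwards [ae_restrict_mem (measurableSet_BB r)] with k hk
      exact hpt k hk
    refine Integrable.mono' (integrable_const (2 * mom s f ^ 2 * C)) hae ?_
    filter_upwards [ae_restrict_mem (measurableSet_BB r)] with k hk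
    rw [Real.norm_eq_abs, abs_of_nonneg (mul_nonneg (hF0 k) (hu k))]
    calc F k * u k ≤ (2 * mom s f ^ 2 * NN k.1 k.2) * u k :=
          mul_le_mul_of_nonneg_right (hFN k) (hu _)
      _ = 2 * mom s f ^ 2 * (NN k.1 k.2 * u k) := by ring
      _ ≤ _ := mul_le_mul_of_nonneg_left (hIR k (hBB k hk)) (by positivity)
  refine ⟨hint, ?_⟩
  -- outside
  have hout : ∀ n, |(∫ k in JJ, F k * U n k.1 k.2) - ∫ k in BB r, F k * U n k.1 k.2|
      ≤ M * (4 / r ^ 2) * (2 * CS) := by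
    intro n
    have hsub := BB_subset_JJ hr.le hr1
    have hi := integrableOn_JJ (hGc n)
    have h1 : (∫ k in JJ, F k * U n k.1 k.2) - ∫ k in BB r, F k * U n k.1 k.2
        = ∫ k in JJ \ BB r, F k * U n k.1 k.2 := by
      rw [setIntegral_sdiff (measurableSet_BB r) hi hsub]
    rw [h1]
    have h2 : 0 ≤ ∫ k in JJ \ BB r, F k * U n k.1 k.2 :=
      setIntegral_nonneg (measurableSet_JJ.diff (measurableSet_BB r))
        fun k _ => mul_nonneg (hF0 k) (h.nonneg _ _ _)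
    rw [abs_of_nonneg h2]
    have hcs : Continuous (fun k : ℝ × ℝ => (sg k.1 + sg k.2) * U n k.1 k.2) :=
      ((continuous_sg.comp continuous_fst).add (continuous_sg.comp continuous_snd)).mul (h.cont n)
    have hcs1 : Continuous (fun k : ℝ × ℝ => sg k.1 * U n k.1 k.2) :=
      (continuous_sg.comp continuous_fst).mul (h.cont n)
    have hcs2 : Continuous (fun k : ℝ × ℝ => sg k.2 * U n k.1 k.2) :=
      (continuous_sg.comp continuous_snd).mul (h.cont n)
    have hJ : ∫ k in JJ, (sg k.1 + sg k.2) * U n k.1 k.2 ≤ 2 * CS := by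
      have e1 : ∫ k in JJ, (sg k.1 + sg k.2) * U n k.1 k.2
          = (∫ k in JJ, sg k.1 * U n k.1 k.2) + ∫ k in JJ, sg k.2 * U n k.1 k.2 := by
        rw [← integral_add (integrableOn_JJ hcs1) (integrableOn_JJ hcs2)]
        congr 1; funext k; ring
      rw [e1, ← integral_JJ hcs1, ← integral_JJ hcs2]
      linarith [hS1 n, hS2 n]
    calc ∫ k in JJ \ BB r, F k * U n k.1 k.2
        ≤ ∫ k in JJ \ BB r, M * (4 / r ^ 2) * ((sg k.1 + sg k.2) * U n k.1 k.2) := by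
          refine setIntegral_mono_on (hi.mono_set Set.sdiff_subset)
            (((integrableOn_JJ hcs).mono_set Set.sdiff_subset).const_mul _)
            (measurableSet_JJ.diff (measurableSet_BB r)) ?_
          intro k hk
          have hk1 : |k.1| ≤ π := abs_le.2 ⟨hk.1.1.1.le, hk.1.1.2⟩
          have hk2 : |k.2| ≤ π := abs_le.2 ⟨hk.1.2.1.le, hk.1.2.2⟩
          have hkN : r ^ 2 ≤ NN k.1 k.2 := not_lt.1 hk.2
          have e1 : F k ≤ M := hM _ _ hk1 hk2 hkN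
          have e2 := sg_sum_ge hk1 hk2 hkN
          have e3 : 1 ≤ 4 / r ^ 2 * (sg k.1 + sg k.2) := by
            rw [div_mul_eq_mul_div, le_div_iff₀ (by positivity)]; linarith
          have e4 : 0 ≤ U n k.1 k.2 := h.nonneg _ _ _
          calc F k * U n k.1 k.2 ≤ M * U n k.1 k.2 := mul_le_mul_of_nonneg_right e1 e4
            _ = M * (1 * U n k.1 k.2) := by ring
            _ ≤ M * ((4 / r ^ 2 * (sg k.1 + sg k.2)) * U n k.1 k.2) := by gcongr
            _ = _ := by ring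
      _ = M * (4 / r ^ 2) * ∫ k in JJ \ BB r, (sg k.1 + sg k.2) * U n k.1 k.2 :=
          integral_const_mul _ _
      _ ≤ M * (4 / r ^ 2) * ∫ k in JJ, (sg k.1 + sg k.2) * U n k.1 k.2 := by
          refine mul_le_mul_of_nonneg_left ?_ (by positivity)
          refine setIntegral_mono_set (integrableOn_JJ hcs) ?_ (Filter.Eventually.of_forall Set.sdiff_subset)
          exact Filter.Eventually.of_forall fun k =>
            mul_nonneg (add_nonneg (sg_nonneg _) (sg_nonneg _)) (h.nonneg _ _ _)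
      _ ≤ _ := mul_le_mul_of_nonneg_left hJ (by positivity)
  -- the limit
  have hπ2 : (0 : ℝ) < (2 * π) ^ 2 := by positivity
  have hlim2 := (h.lim s f h0).comp hφ.tendsto_atTop
  have hlim3 : Tendsto (fun n => (∫ k in JJ, F k * U (φ n) k.1 k.2) / (2 * π) ^ 2) atTop
      (𝓝 (-(1 / 2) * ∑ p ∈ s, ∑ q ∈ s, f p * f q * V (p - q))) := by
    refine hlim2.congr fun n => ?_
    simp only [Function.comp_apply]
    rw [← integral_JJ (hGc (φ n))]
  have hlim4 := (hlim3.sub (hdct.div_const ((2 * π) ^ 2))).abs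
  refine le_of_tendsto hlim4 (Filter.Eventually.of_forall fun n => ?_)
  rw [← sub_div, abs_div, abs_of_pos hπ2, div_le_iff₀ hπ2]
  refine (hout (φ n)).trans ?_
  have e5 : M * (4 / r ^ 2) * (2 * CS) = 8 * CS / r ^ 2 * M := by ring
  rw [e5]
  have e6 : 8 * CS / r ^ 2 * M ≤ (C + 8 * CS) / r ^ 2 * M := by
    gcongr; linarith
  have e7 : (1 : ℝ) ≤ (2 * π) ^ 2 := by nlinarith [Real.pi_gt_three]
  have e8 : 0 ≤ (C + 8 * CS) / r ^ 2 * M := by positivity
  nlinarith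


/-- lower bound for the sum rule -/
theorem J_ge (h : Reg V U) (hs : SinB U) (n : ℕ) {x : ℝ} (hx : 0 < x) (hx' : x ≤ π) :
    8 * π * Real.cos (x / 2) * (sg x * U n x 0)
      ≤ ∫ k1 in (-π)..π, ∫ k2 in (-π)..π, sg k1 * U n k1 k2 := by
  have hπ := Real.pi_pos
  set R : ℝ → ℝ := fun k1 => ∫ k2 in (-π)..π, sg k1 * U n k1 k2 with hR
  have hGc : Continuous (fun k : ℝ × ℝ => sg k.1 * U n k.1 k.2) :=
    (continuous_sg.comp continuous_fst).mul (h.cont n)
  have hRc : Continuous R :=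
    intervalIntegral.continuous_parametric_intervalIntegral_of_continuous' hGc _ _
  have hRi : ∀ a b : ℝ, IntervalIntegrable R volume a b := fun a b => hRc.intervalIntegrable a b
  have hR0 : ∀ k, 0 ≤ R k := fun k =>
    intervalIntegral.integral_nonneg (by linarith) fun u _ => mul_nonneg (sg_nonneg _) (h.nonneg _ _ _)
  set c : ℝ := sg x * U n x 0 with hc
  have hc0 : 0 ≤ c := mul_nonneg (sg_nonneg _) (h.nonneg _ _ _)
  -- row bound
  have hrow : ∀ k : ℝ, 2 * π * (|Real.sin (k / 2)| * (sg k * U n k 0)) ≤ R k := by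
    intro k
    have h1 := hs n k (-(k / 2))
    rw [Real.sin_neg, abs_neg, show -(k / 2) + k / 2 = 0 by ring, le_div_iff₀ (by positivity)] at h1
    have h2 : R k = sg k * ∫ θ in (-π)..π, U n k θ := by
      simp only [hR]
      rw [intervalIntegral.integral_const_mul]
    rw [h2]
    have h3 := mul_le_mul_of_nonneg_left h1 (sg_nonneg k)
    calc 2 * π * (|Real.sin (k / 2)| * (sg k * U n k 0))
        = sg k * (|Real.sin (k / 2)| * U n k 0 * (2 * π)) := by ring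
      _ ≤ _ := h3
  -- axis bound
  have haxis : ∀ k, x ≤ k → k ≤ π → c ≤ sg k * U n k 0 := by
    intro k hxk hk
    have hF := h.frame n 0
    have hcont : Continuous (fun φ => U n 0 (φ + 0 / 2)) :=
      (h.cont n).comp (by fun_prop : Continuous fun φ : ℝ => ((0 : ℝ), φ + 0 / 2))
    have := frame_mono hF hcont (fun _ => h.nonneg _ _ _) hx hxk hk
    simp only [zero_div, add_zero] at this
    rw [h.swap n x 0, h.swap n k 0] at this
    exact this
  have hneg : ∀ k, sg (-k) * U n (-k) 0 = sg k * U n k 0 := by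
    intro k
    have h1 := h.neg n k 0
    rw [neg_zero] at h1
    rw [h1]
    simp [sg]
  have hpos_row : ∀ k, x ≤ k → k ≤ π → 2 * π * c * Real.sin (k / 2) ≤ R k := by
    intro k hxk hk
    refine le_trans ?_ (hrow k)
    have h1 : 0 ≤ Real.sin (k / 2) := Real.sin_nonneg_of_nonneg_of_le_pi (by linarith) (by linarith)
    rw [abs_of_nonneg h1]
    have h2 := mul_le_mul_of_nonneg_left (haxis k hxk hk) h1
    nlinarith [mul_le_mul_of_nonneg_left h2 (by positivity : (0:ℝ) ≤ 2 * π)]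
  have hneg_row : ∀ k, -π ≤ k → k ≤ -x → 2 * π * c * Real.sin (-k / 2) ≤ R k := by
    intro k hk hxk
    refine le_trans ?_ (hrow k)
    have h1 : 0 ≤ Real.sin (-k / 2) := Real.sin_nonneg_of_nonneg_of_le_pi (by linarith) (by linarith)
    have h3 : |Real.sin (k / 2)| = Real.sin (-k / 2) := by
      rw [← abs_of_nonneg h1, neg_div, Real.sin_neg, abs_neg]
    rw [h3]
    have h4 := haxis (-k) (by linarith) (by linarith)
    rw [hneg] at h4
    have h2 := mul_le_mul_of_nonneg_left h4 h1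
    nlinarith [mul_le_mul_of_nonneg_left h2 (by positivity : (0:ℝ) ≤ 2 * π)]
  -- split
  have hsplit : ∫ k in (-π)..π, R k = (∫ k in (-π)..(-x), R k) + (∫ k in (-x)..x, R k)
      + ∫ k in x..π, R k := by
    rw [intervalIntegral.integral_add_adjacent_intervals (hRi _ _) (hRi _ _),
      intervalIntegral.integral_add_adjacent_intervals (hRi _ _) (hRi _ _)]
  have hmid : 0 ≤ ∫ k in (-x)..x, R k :=
    intervalIntegral.integral_nonneg (by linarith) fun u _ => hR0 u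
  have hI1 : ∫ k in x..π, 2 * π * c * Real.sin (k / 2) = 4 * π * Real.cos (x / 2) * c := by
    rw [intervalIntegral.integral_const_mul,
      intervalIntegral.integral_comp_div (fun y => Real.sin y) (by norm_num : (2:ℝ) ≠ 0), integral_sin,
      Real.cos_pi_div_two, sub_zero, smul_eq_mul]
    ring
  have hI2 : ∫ k in (-π)..(-x), 2 * π * c * Real.sin (-k / 2) = 4 * π * Real.cos (x / 2) * c := by
    have e := intervalIntegral.integral_comp_neg (a := x) (b := π)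
      (fun k => 2 * π * c * Real.sin (-k / 2))
    rw [← e, ← hI1]
    simp only [neg_neg]
  have h1 : ∫ k in x..π, 2 * π * c * Real.sin (k / 2) ≤ ∫ k in x..π, R k :=
    intervalIntegral.integral_mono_on hx' ((by fun_prop : Continuous fun k : ℝ =>
      2 * π * c * Real.sin (k / 2)).intervalIntegrable _ _) (hRi _ _) fun k hk => hpos_row k hk.1 hk.2
  have h2 : ∫ k in (-π)..(-x), 2 * π * c * Real.sin (-k / 2) ≤ ∫ k in (-π)..(-x), R k :=
    intervalIntegral.integral_mono_on (by linarith) ((by fun_prop : Continuous fun k : ℝ =>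
      2 * π * c * Real.sin (-k / 2)).intervalIntegrable _ _) (hRi _ _) fun k hk => hneg_row k hk.1 hk.2
  show _ ≤ ∫ k in (-π)..π, R k
  rw [hsplit]
  rw [hI1] at h1
  rw [hI2] at h2
  nlinarith

/-- **the constant** : `L * (2 / π) ≤ V (1, 0)`. -/
theorem const_le (h : Reg V U) (hV : Two V) (hs : SinB U) {φ : ℕ → ℕ} (hφ : StrictMono φ)
    {u : ℝ × ℝ → ℝ} {L : ℝ}
    (hlim : ∀ k : ℝ × ℝ, k ≠ 0 → NN k.1 k.2 < 1 / 100 →
      Tendsto (fun n => U (φ n) k.1 k.2) atTop (𝓝 (u k)))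
    (hT : Tendsto (fun k : ℝ × ℝ => NN k.1 k.2 * u k) (𝓝[≠] 0) (𝓝 L)) :
    L * (2 / π) ≤ V (1, 0) := by
  have hπ := Real.pi_pos
  -- the sum rule converges
  have hJ : Tendsto (fun n => (∫ k1 in (-π)..π, ∫ k2 in (-π)..π, sg k1 * U n k1 k2) / (2 * π) ^ 2)
      atTop (𝓝 (V (1, 0))) := by
    have h1 := h.lim {((1, 0) : ℤ × ℤ), 0} (dd (1, 0)) (sum_dd (by decide))
    have e : -(1 / 2) * ∑ p ∈ ({((1, 0) : ℤ × ℤ), 0} : Finset (ℤ × ℤ)),
        ∑ q ∈ ({((1, 0) : ℤ × ℤ), 0} : Finset (ℤ × ℤ)), dd (1, 0) p * dd (1, 0) q * V (p - q)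
        = V (1, 0) := by
      rw [Finset.sum_pair (by decide), Finset.sum_pair (by decide), Finset.sum_pair (by decide)]
      have a1 : dd (1, 0) (1, 0) = 1 := by simp [dd]
      have a2 : dd (1, 0) 0 = -1 := by
        unfold dd; rw [if_neg (by decide)]
      have a3 := hV.neg (1, 0)
      rw [a1, a2, sub_self, sub_zero, sub_self, zero_sub, hV.zero, a3]
      ring
    rw [e] at h1
    refine h1.congr fun n => ?_
    congr 1
    congr 1; funext k1; congr 1; funext k2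
    rw [fh_dd (by decide)]
    have e : (((1, 0) : ℤ × ℤ).1 : ℝ) * k1 + (((1, 0) : ℤ × ℤ).2 : ℝ) * k2 = k1 := by simp
    rw [e, normSq_one_sub_exp]
  have hJφ := hJ.comp hφ.tendsto_atTop
  -- fixed x
  have hx : ∀ x : ℝ, 0 < x → x < 1 / 10 → 2 / π * Real.cos (x / 2) * (sg x * u (x, 0)) ≤ V (1, 0) := by
    intro x hx hx'
    have hne : ((x, 0) : ℝ × ℝ) ≠ 0 := by
      intro e; exact hx.ne' (congrArg Prod.fst e)
    have hN : NN ((x, 0) : ℝ × ℝ).1 ((x, 0) : ℝ × ℝ).2 < 1 / 100 := by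
      simp only [NN]; nlinarith
    have h1 := hlim (x, 0) hne hN
    simp only at h1
    have h2 : Tendsto (fun n => 2 / π * Real.cos (x / 2) * (sg x * U (φ n) x 0)) atTop
        (𝓝 (2 / π * Real.cos (x / 2) * (sg x * u (x, 0)))) :=
      (h1.const_mul (sg x)).const_mul _
    refine le_of_tendsto_of_tendsto' h2 hJφ fun n => ?_
    have h3 := h.J_ge hs (φ n) hx (by linarith [Real.pi_gt_three])
    simp only [Function.comp_apply]
    rw [le_div_iff₀ (by positivity)]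
    refine le_trans (le_of_eq ?_) h3
    field_simp
    ring
  -- x → 0
  have hTx : Tendsto (fun x : ℝ => ((x, 0) : ℝ × ℝ)) (𝓝[>] 0) (𝓝[≠] 0) := by
    refine tendsto_nhdsWithin_iff.2 ⟨?_, ?_⟩
    · have : Tendsto (fun x : ℝ => ((x, 0) : ℝ × ℝ)) (𝓝 0) (𝓝 (0, 0)) :=
        (by fun_prop : Continuous fun x : ℝ => ((x, 0) : ℝ × ℝ)).tendsto 0
      exact this.mono_left nhdsWithin_le_nhds
    · filter_upwards [self_mem_nhdsWithin] with x hx e
      exact (ne_of_gt hx) (congrArg Prod.fst e)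
  have hT1 := hT.comp hTx
  have hT2 : Tendsto (fun x : ℝ => 2 / π * Real.cos (x / 2) * ((1 - x ^ 2) * (x ^ 2 * u (x, 0))))
      (𝓝[>] 0) (𝓝 (2 / π * Real.cos (0 / 2) * ((1 - 0 ^ 2) * L))) := by
    have c1 : Tendsto (fun x : ℝ => 2 / π * Real.cos (x / 2)) (𝓝[>] 0)
        (𝓝 (2 / π * Real.cos (0 / 2))) :=
      ((by fun_prop : Continuous fun x : ℝ => 2 / π * Real.cos (x / 2)).tendsto 0).mono_left
        nhdsWithin_le_nhds
    have c2 : Tendsto (fun x : ℝ => 1 - x ^ 2) (𝓝[>] 0) (𝓝 (1 - 0 ^ 2)) :=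
      ((by fun_prop : Continuous fun x : ℝ => 1 - x ^ 2).tendsto 0).mono_left nhdsWithin_le_nhds
    refine c1.mul (c2.mul (hT1.congr fun x => ?_))
    simp [NN, Function.comp]
  have hfin : 2 / π * Real.cos (0 / 2) * ((1 - 0 ^ 2) * L) ≤ V (1, 0) := by
    refine le_of_tendsto hT2 ?_
    filter_upwards [Ioo_mem_nhdsGT (show (0 : ℝ) < 1 / 10 by norm_num)] with x hx1
    have hu0 : 0 ≤ u (x, 0) := by
      refine ge_of_tendsto' (hlim (x, 0) ?_ ?_) fun n => h.nonneg _ _ _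
      · intro e; exact hx1.1.ne' (congrArg Prod.fst e)
      · simp only [NN]; nlinarith [hx1.1, hx1.2]
    refine le_trans ?_ (hx x hx1.1 hx1.2)
    have h4 : (1 - x ^ 2) * x ^ 2 ≤ sg x := sg_ge_sq (by rw [abs_of_pos hx1.1]; linarith [hx1.2])
    have h5 : 0 ≤ 2 / π * Real.cos (x / 2) := by
      refine mul_nonneg (by positivity) (Real.cos_nonneg_of_mem_Icc ⟨?_, ?_⟩)
      · linarith [hx1.1]
      · linarith [hx1.2, Real.pi_gt_three]
    refine mul_le_mul_of_nonneg_left ?_ h5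
    calc (1 - x ^ 2) * (x ^ 2 * u (x, 0)) = ((1 - x ^ 2) * x ^ 2) * u (x, 0) := by ring
      _ ≤ _ := mul_le_mul_of_nonneg_right h4 hu0
  have e : 2 / π * Real.cos (0 / 2) * ((1 - 0 ^ 2) * L) = L * (2 / π) := by
    rw [zero_div, Real.cos_zero]; ring
  rwa [e] at hfin

/-- 952's spectral representation with the bound on the constant. -/
theorem exists_spec_const (h : Reg V U) (hV : Two V) (hs : SinB U) :
    ∃ (u : ℝ × ℝ → ℝ) (L C : ℝ), L * (2 / π) ≤ V (1, 0) ∧ 0 ≤ L ∧ 0 < C ∧ (∀ k, 0 ≤ u k) ∧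
    ContinuousOn u {k | k ≠ 0 ∧ NN k.1 k.2 < 1 / 100} ∧
    (∀ k : ℝ × ℝ, NN k.1 k.2 < 1 / 100 → NN k.1 k.2 * u k ≤ C) ∧
    Tendsto (fun k : ℝ × ℝ => NN k.1 k.2 * u k) (𝓝[≠] 0) (𝓝 L) ∧
    ∀ (r : ℝ) (s : Finset (ℤ × ℤ)) (f : ℤ × ℤ → ℝ) (M : ℝ), 0 < r → r ≤ 1 / 10 →
      ∑ p ∈ s, f p = 0 →
      (∀ k1 k2 : ℝ, |k1| ≤ π → |k2| ≤ π → r ^ 2 ≤ NN k1 k2 → Complex.normSq (fh s f k1 k2) ≤ M) →
      IntegrableOn (fun k : ℝ × ℝ => Complex.normSq (fh s f k.1 k.2) * u k) (BB r) ∧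
      |(-(1 / 2) * ∑ p ∈ s, ∑ q ∈ s, f p * f q * V (p - q))
        - (∫ k in BB r, Complex.normSq (fh s f k.1 k.2) * u k) / (2 * π) ^ 2| ≤ C / r ^ 2 * M := by
  obtain ⟨φ, u, L, C, hφ, hlim, hL, hC, hu, h1, h2, h3, h4⟩ := h.exists_spec_full
  exact ⟨u, L, C, h.const_le hV hs hφ hlim h3, hL, hC, hu, h1, h2, h3, h4⟩

end Reg

end Crest.Agent.R144.Tp952
end
end

-- ▼ part R144/Cw10_643

/-!
# R144 (helper643), CW block, file 10: variograms and plane states

* `exists_spec : Two V → ∃ u L C, Spec V u L C ∧ L (2/π) ≤ V (1,0)`;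
* `Lim2 V κ`: the limiting covariance functional, `lim2 : Two V → ∃ κ, Lim2 V κ ∧ κ ≤ (π/√3) V (1,0)`,
  with the lower bound of `κ` from a logarithmic lower bound of `V`;
* plane states: `cov_tendsto`, `ward_rfl` (Ward identity for the lattice reflections `rfl6`).
-/

set_option autoImplicit false

noncomputable section

namespace Crest.Agent.R144.Cw643

open Finset Filter Topology MeasureTheory
open Crest.Agent.R144.Tp952
open Crest.ProbabilityR.HexHeights (centre)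
open Crest.Agent.R144.HexTil353 Crest.Agent.R144.Geo268
open Crest.Agent.R144.Ps643 Crest.Agent.R144.Ps643.PlaneState
open Crest.Agent.R144.Ga2617 (rfl6 Dir6 dot stp mem_dir6 rfl6_rfl6 dot_rfl6)
open scoped Real ContDiff Laplacian

variable {V : ℤ × ℤ → ℝ}

/-- the spectral representation of every variogram, with the bound of the constant -/
theorem exists_spec (hV : Two V) : ∃ (u : ℝ × ℝ → ℝ) (L C : ℝ), Spec V u L C ∧ L * (2 / π) ≤ V (1, 0) := by
  have hs : SinB (Reg136.Un V) := SinB.of_RC fun n => ⟨_, _, Reg136.Cn V n, Reg136.rc_Cn hV n, rfl⟩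
  obtain ⟨u, L, C, h0, h1, h2, h3, h4, h5, h6, h7⟩ := (Reg136.reg hV).exists_spec_const hV hs
  exact ⟨u, L, C, ⟨h1, h2, h3, h4, h5, h6, h7⟩, h0⟩

/-- the limiting covariance functional of a variogram -/
structure Lim2 (V : ℤ × ℤ → ℝ) (κ : ℝ) : Prop where
  nonneg : 0 ≤ κ
  lim : ∀ (δ : ℕ → ℝ) (ψ f : ℂ → ℝ) (b a : ℕ → ℤ × ℤ → ℝ) (s t : ℕ → Finset (ℤ × ℤ)),
    (∀ n, 0 < δ n) → Tendsto δ atTop (𝓝 0) → ContDiff ℝ ∞ ψ → HasCompactSupport ψ →
    Continuous f → HasCompactSupport f → Near δ b (fun z => -(Δ ψ) z) → Near δ a f →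
    (∀ᶠ n in atTop, Wt (s n) (b n)) → (∀ᶠ n in atTop, Wt (t n) (a n)) →
    Tendsto (fun n => CV V (s n) (b n) (t n) (a n)) atTop (𝓝 (κ * ∫ z, ψ z * f z))
  sq : ∃ K : ℝ, 0 < K ∧ ∀ (m : ℕ) (s A : ℝ) (g : ℤ × ℤ → ℝ), 1 ≤ s → 1 ≤ A → (m : ℝ) ≤ A * s →
    (∀ p ∈ BX m, |g p| ≤ A / s ^ 2) → ∑ p ∈ BX m, g p = 0 → CV V (BX m) g (BX m) g ≤ K * A ^ 8

theorem sq_of_spec {u : ℝ × ℝ → ℝ} {L C : ℝ} (hS : Spec V u L C) (m : ℕ) (s A : ℝ) (g : ℤ × ℤ → ℝ)
    (hs : 1 ≤ s) (hA : 1 ≤ A) (hm : (m : ℝ) ≤ A * s) (hg : ∀ p ∈ BX m, |g p| ≤ A / s ^ 2)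
    (h0 : ∑ p ∈ BX m, g p = 0) : CV V (BX m) g (BX m) g ≤ (2000000 * C) * A ^ 8 := by
  have h1 := apriori hS h0 (ε := 100 * A) (δ := 1 / (10 * s)) (R := A) (by positivity)
    (by rw [div_le_div_iff₀ (by positivity) (by norm_num)]; linarith) (by positivity)
    (by rw [mul_one_div, div_le_iff₀ (by positivity)]; nlinarith) hA
    (fun p hp => by
      refine (hg p hp).trans (le_of_eq ?_)
      field_simp
      ring)
  refine h1.trans (le_of_eq ?_)
  ring

theorem Lim2.of_spec (hV : Two V) {u : ℝ × ℝ → ℝ} {L C : ℝ} (hS : Spec V u L C) :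
    Lim2 V (2 * L / Real.sqrt 3) where
  nonneg := by have := hS.L_nonneg; positivity
  lim := fun δ ψ f b a s t hδ hδ0 hψ hψc hf hfc hb ha hs ht =>
    cv_tendsto hV hS hδ hδ0 hψ hψc hf hfc hb ha hs ht
  sq := ⟨2000000 * C, by have := hS.C_pos; positivity, sq_of_spec hS⟩

/-- **the two-point theorem** -/
theorem lim2 (hV : Two V) : ∃ κ : ℝ, Lim2 V κ ∧ κ ≤ π / Real.sqrt 3 * V (1, 0) ∧
    ∀ c : ℝ, (∃ᶠ p : ℤ × ℤ in cofinite, c * Real.log (1 + l1 p ^ 2) ≤ V p) → c / Real.sqrt 3 ≤ κ := by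
  obtain ⟨u, L, C, hS, hL⟩ := exists_spec hV
  have h3 : (0 : ℝ) < Real.sqrt 3 := by positivity
  have hπ := Real.pi_pos
  refine ⟨2 * L / Real.sqrt 3, Lim2.of_spec hV hS, ?_, fun c hc => ?_⟩
  · rw [div_mul_eq_mul_div, div_le_div_iff_of_pos_right h3]
    have : L * (2 / π) = 2 * L / π := by ring
    rw [this, div_le_iff₀ hπ] at hL
    linarith
  · have := hS.le_L_of_log hV hc
    rw [div_le_div_iff_of_pos_right h3]
    linarith

end Crest.Agent.R144.Cw643
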