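import Mathlib
import Crest.Agent.R144.Set3_268

/-! R144 (helper268): SETUP, file 4: non-free sites close to every point of the domain (at the
distance of the point from the complement), boundary values near unmarked frontier points. -/

set_option autoImplicit false

open Set Topology Filter Metric MeasureTheory

namespace Crest.Agent.R144.Set268

open Crest.ProbabilityR.HexHeights Crest.ProbabilityR.TriHeights Crest.Agent.R144.HexTil353
  Crest.Agent.R144.Geo268 Crest.Agent.R144.Cnt268
open Crest.Agent.R144.It844 (intF xi Lip ex conf extF extT upT)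

theorem compl_nonempty' {D : Set ℂ} (hb : Bornology.IsBounded D) : (Dᶜ).Nonempty := by
  rw [nonempty_compl]
  rintro rfl
  obtain ⟨R, hR⟩ := hb.exists_norm_le
  have h1 := hR ((|R| + 1 : ℝ) : ℂ) (mem_univ _)
  rw [Complex.norm_real, Real.norm_eq_abs] at h1
  have h2 := le_abs_self (|R| + 1)
  linarith [le_abs_self R]

/-- the nearest point of the complement is a frontier point -/
theorem exists_frontier_near {D : Set ℂ} (hop : IsOpen D) (hb : Bornology.IsBounded D) {z : ℂ}
    (hz : z ∈ D) : ∃ p ∈ frontier D, dist z p = infDist z Dᶜ := by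
  obtain ⟨p, hp, hd⟩ := hop.isClosed_compl.exists_infDist_eq_dist (compl_nonempty' hb) z
  have hpos : 0 < infDist z Dᶜ :=
    (hop.isClosed_compl.notMem_iff_infDist_pos (compl_nonempty' hb)).1 fun h => h hz
  refine ⟨p, ⟨?_, ?_⟩, hd.symm⟩
  · have h1 : p ∈ closure (ball z (infDist z Dᶜ)) := by
      rw [closure_ball z hpos.ne', mem_closedBall, dist_comm, hd]
    exact closure_mono ball_infDist_compl_subset h1
  · rw [hop.interior_eq]
    exact hp

variable {D : Set ℂ} {γ : ℝ → ℂ} {P : Finset ℂ} {δ : ℕ → ℝ} {Λ : ℕ → Finset (ℤ × ℤ)}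
  {τ : ℕ → ℤ × ℤ → ℤ}


/-- eventually every site over a compact subset of the domain is free -/
theorem Setup.free (h : Setup D γ P δ Λ τ) {K : Set ℂ} (hK : IsCompact K) (hKD : K ⊆ D) :
    ∀ᶠ n in atTop, ∀ v, centre (δ n) v ∈ K → v ∈ Λ n := h.sites.inn K hK hKD


end Crest.Agent.R144.Set268
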