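import Crest.Agent.R144.Hf10_702
import Crest.Agent.R144.Cw11_643
import Crest.Agent.R144.Pst11_967
import Crest.Agent.R144.Env1_702
import Crest.Agent.R144.Fin2_268
import Crest.Agent.R144.Set4_268

-- ▼ part R144/Hf11_702
section

/-!
# R144 HALF (helper702), file 11: the plane state input `PSq` from helper643's `Lim2`
-/

set_option autoImplicit false

noncomputable section

namespace Crest.Agent.R144.Hf702

open Finset MeasureTheory Filter Topology
open Crest.Agent.R144.It844 (P2)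
open Crest.Agent.R144.Pst967 (Hz toR measurable_toR hexB mem_hexB)
open Crest.Agent.R144.Rsw867 (ball mem_ball)
open Crest.Agent.R144.Ps643 (Ht lin measurable_lin PlaneState)
open Crest.Agent.R144.Ps643.PlaneState (vg)
open Crest.Agent.R144.Cw643 (CV BX mem_BX cov_CV Lim2)

theorem sum_shift {V : Finset P2} {a : P2} {m : ℕ} (hV : ∀ v ∈ V, v - a ∈ BX m) (u : P2 → ℝ) :
    ∑ p ∈ BX m, (if p + a ∈ V then u (p + a) else 0) = ∑ v ∈ V, u v := by
  rw [← Finset.sum_filter]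
  refine Finset.sum_bij (fun p _ => p + a) ?_ ?_ ?_ ?_
  · intro p hp
    exact (Finset.mem_filter.1 hp).2
  · intro p _ q _ h
    exact add_right_cancel h
  · intro v hv
    exact ⟨v - a, Finset.mem_filter.2 ⟨hV v hv, by simpa using hv⟩, by simp⟩
  · intro p _
    rfl

theorem CV_shift (W : P2 → ℝ) {V : Finset P2} {a : P2} {m : ℕ} (hV : ∀ v ∈ V, v - a ∈ BX m)
    (h : P2 → ℝ) :
    CV W (BX m) (fun p => if p + a ∈ V then h (p + a) else 0) (BX m)
      (fun p => if p + a ∈ V then h (p + a) else 0) = CV W V h V h := by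
  unfold CV
  congr 1
  rw [← sum_shift hV]
  refine Finset.sum_congr rfl fun p _ => ?_
  by_cases hp : p + a ∈ V
  · rw [if_pos hp, ← sum_shift hV]
    refine Finset.sum_congr rfl fun q _ => ?_
    beta_reduce
    by_cases hq : q + a ∈ V
    · rw [if_pos hp, if_pos hq, if_pos hq, add_sub_add_right_eq_sub]
    · rw [if_neg hq, if_neg hq]; ring
  · rw [if_neg hp]
    refine Finset.sum_eq_zero fun q _ => ?_
    beta_reduce
    rw [if_neg hp]
    ring

/-- **the plane state input** -/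
theorem psq_of {P : Measure Hz} (hP : PlaneState (P.map toR)) {κ : ℝ}
    (hκ : Lim2 (vg (P.map toR)) κ) : PSq P := by
  obtain ⟨K, hK, hsq⟩ := hκ.sq
  intro A
  refine ⟨K * ((A : ℝ) + 1) ^ 8, fun s hs a V h hV hA h0 => ?_⟩
  have hsR : (1 : ℝ) ≤ s := by exact_mod_cast hs
  have hVB : ∀ v ∈ V, v - a ∈ BX (A * s) := by
    intro v hv
    have := mem_ball.1 (hV hv)
    rw [mem_BX]
    exact ⟨this.1, this.2.1⟩
  have e1 : ∫ ω, Ln V h ω ^ 2 ∂P = ∫ ω, lin V h ω * lin V h ω ∂(P.map toR) := by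
    have hm : Measurable fun ω : Ht => lin V h ω * lin V h ω :=
      (measurable_lin V h).mul (measurable_lin V h)
    rw [integral_map measurable_toR.aemeasurable hm.aestronglyMeasurable]
    refine integral_congr_ae (Eventually.of_forall fun ω => ?_)
    show Ln V h ω ^ 2 = lin V h (toR ω) * lin V h (toR ω)
    rw [sq]
    rfl
  rw [e1, cov_CV hP h0 h0, ← CV_shift _ hVB]
  have hA0 : (0 : ℝ) ≤ A := Nat.cast_nonneg A
  refine hsq (A * s) s (A + 1) _ hsR (by linarith) ?_ ?_ ?_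
  · push_cast
    nlinarith
  · intro p _
    split_ifs with hp
    · refine (hA _ hp).trans ?_
      exact div_le_div_of_nonneg_right (by linarith) (by positivity)
    · rw [abs_zero]; positivity
  · rw [sum_shift hVB h]
    exact h0

end Crest.Agent.R144.Hf702
end
end

-- ▼ part R144/Hf12_702

/-!
# R144 HALF (helper702), file 12: the inputs `bd` and `c1` of helper268's `Inputs`
-/

set_option autoImplicit false

noncomputable section

open Set Topology Filter Metric MeasureTheory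

namespace Crest.Agent.R144.Hf702

open Crest.ProbabilityR.HexHeights (Adj centre cell)
open Crest.Agent.R144.It844 (P2 ex Lip upT ex_const ex_add ex_smul ex_congr ex_mono)
open Crest.Agent.R144.Pst967 (Hz hexB mem_hexB GObs FLim)
open Crest.Agent.R144.Zg349 (SC)
open Crest.Agent.R144.HexTil353
open Crest.Agent.R144.Fin268 (LS cS Cv Vr Bump Over lip_of_data)
open Crest.Agent.R144.Set268 (Setup)
open Crest.Agent.R144.Env702 (Env)

variable {x : ℝ} {Λ : Finset P2} {τ : P2 → ℤ}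

/-- hexagonal distance from euclidean distance of the centres -/
theorem mem_hball {δ : ℝ} (hδ : 0 < δ) {u v : P2} {r : ℝ} {N : ℕ}
    (h : dist (centre δ u) (centre δ v) ≤ r) (hN : 4 * r / δ ≤ N) : u ∈ Rsw867.ball v N := by
  have h1 : ‖centre δ u - centre δ v‖ ≤ r := by rw [← dist_eq_norm]; exact h
  have ea : ca δ (centre δ u - centre δ v) = (u.1 : ℝ) - v.1 := by
    rw [TriTil353.ca_sub, Geo268.ca_centre hδ, Geo268.ca_centre hδ]
  have eb : cb δ (centre δ u - centre δ v) = (u.2 : ℝ) - v.2 := by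
    rw [TriTil353.cb_sub, Geo268.cb_centre hδ, Geo268.cb_centre hδ]
  have ha := TriTil353.abs_ca_le hδ (centre δ u - centre δ v)
  have hb := TriTil353.abs_cb_le hδ (centre δ u - centre δ v)
  rw [ea] at ha
  rw [eb] at hb
  have h2 : 2 * ‖centre δ u - centre δ v‖ / δ ≤ 2 * r / δ :=
    div_le_div_of_nonneg_right (by linarith) hδ.le
  have h3 : 2 * r / δ + 2 * r / δ = 4 * r / δ := by ring
  have h4 : (0 : ℝ) ≤ 2 * r / δ :=
    div_nonneg (by linarith [norm_nonneg (centre δ u - centre δ v)]) hδ.le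
  rw [Rsw867.mem_ball]
  refine ⟨?_, ?_, ?_⟩
  · have : |((u.1 - v.1 : ℤ) : ℝ)| ≤ (N : ℝ) := by push_cast; linarith
    exact_mod_cast this
  · have : |((u.2 - v.2 : ℤ) : ℝ)| ≤ (N : ℝ) := by push_cast; linarith
    exact_mod_cast this
  · have : |((u.1 - v.1 + (u.2 - v.2) : ℤ) : ℝ)| ≤ (N : ℝ) := by
      push_cast
      exact (abs_add_le _ _).trans (by linarith)
    exact_mod_cast this

/-- every point is within `δ` of a centre -/
theorem exists_centre {δ : ℝ} (hδ : 0 < δ) (z : ℂ) : ∃ u : P2, dist z (centre δ u) ≤ δ := by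
  obtain ⟨u, hu⟩ := exists_cell hδ z
  exact ⟨u, Cov353.dist_le_cell hδ hu⟩

/-- adjacent sites are at distance `δ` -/
theorem dist_adj {δ : ℝ} (hδ : 0 < δ) {u v : P2} (h : u = v ∨ Adj u v) :
    dist (centre δ u) (centre δ v) ≤ δ := by
  rcases h with h | h
  · rw [h, dist_self]; exact hδ.le
  · have h1 := dist_centre_sq δ u v
    rw [(HexTil353.adj_iff _ _).1 h] at h1
    have h2 : dist (centre δ u) (centre δ v) ^ 2 ≤ δ ^ 2 := by rw [h1]; simp
    exact (abs_le_of_sq_le_sq' h2 hδ.le).2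

theorem LS_eq_Ln (b : P2 → ℝ) (h : Hz) : LS Λ b h = Ln (Λ.filter fun v => b v ≠ 0) b h := by
  unfold LS Ln
  rw [Finset.sum_filter]
  refine Finset.sum_congr rfl fun v _ => ?_
  by_cases hb : b v = 0
  · simp [hb]
  · simp [hb]

/-- variance below the second moment -/
theorem Vr_le (hx : 0 < x) (hτ : Lip τ) (b : P2 → ℝ) :
    Vr x Λ τ b ≤ ex x Λ τ (fun h => Ln (Λ.filter fun v => b v ≠ 0) b h ^ 2) := by
  set m := ex x Λ τ (LS Λ b) with hm
  have e : Vr x Λ τ b = ex x Λ τ (fun h => LS Λ b h ^ 2) - m ^ 2 := by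
    unfold Vr Cv cS
    rw [← hm]
    have h1 : ex x Λ τ (fun h => (LS Λ b h - m) * (LS Λ b h - m)) =
        ex x Λ τ (fun h => LS Λ b h ^ 2 + ((-(2 * m)) • LS Λ b h + m ^ 2)) :=
      ex_congr fun h _ => by rw [smul_eq_mul]; ring
    rw [h1, ex_add, ex_add, ex_smul, ex_const hx hτ, ← hm, smul_eq_mul]
    ring
  rw [e]
  have h2 : ex x Λ τ (fun h => LS Λ b h ^ 2) =
      ex x Λ τ (fun h => Ln (Λ.filter fun v => b v ≠ 0) b h ^ 2) :=
    ex_congr fun h _ => by rw [LS_eq_Ln]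
  rw [h2]
  linarith [sq_nonneg m]

/-- the hypotheses common to the two inputs -/
structure Hyp (x : ℝ) : Prop where
  pos : 0 < x
  le : x ≤ 1
  ex : ∃ (K : ℕ) (p : ℝ) (P : Measure Hz), Rsw867.RSW ((x ^ 2)⁻¹) K p ∧ PSq P ∧
    ∀ f : Hz → ℝ, GObs f → FLim ((x ^ 2)⁻¹) f (∫ h, f h ∂P)

/-- **core**: weights supported in a euclidean ball of radius `r` around the centre of a triangle
off `F` -/
theorem core (hH : Hyp x) (A : ℕ) : ∃ C : ℝ, 0 ≤ C ∧ ∀ (δ r : ℝ) (Λ F : Finset P2) (τ : P2 → ℤ) (b : P2)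
    (w : P2 → ℝ), 0 < δ → δ ≤ r → SC F → upT Λ ⊆ F → b ∉ F → (∀ v, τ v = -1 ∨ τ v = 0) →
      (∀ v ∈ Λ, w v ≠ 0 → dist (centre δ v) (centre δ b) ≤ r) → (∀ v, |w v| * r ^ 2 ≤ A * δ ^ 2) →
      Vr x Λ τ w ≤ C := by
  obtain ⟨K, p, P, hR, hPS, hFL⟩ := hH.ex
  obtain ⟨C, hC, h⟩ := hf_ex hH.pos hH.le hR hPS hFL (121 * A)
  refine ⟨C, hC, fun δ r Λ F τ b w hδ hδr hF hΛ hb hτ hs hw => ?_⟩
  have hr : 0 < r := hδ.trans_le hδr
  set N : ℕ := ⌈4 * (r + δ) / δ⌉₊ with hN
  have hN1 : 4 * (r + δ) / δ ≤ N := Nat.le_ceil _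
  have hN2 : (N : ℝ) < 4 * (r + δ) / δ + 1 := Nat.ceil_lt_add_one (by positivity)
  have hrd : 1 ≤ r / δ := by rw [le_div_iff₀ hδ]; linarith
  have hN3 : ((N + 1 : ℕ) : ℝ) ≤ 11 * (r / δ) := by
    have e : 4 * (r + δ) / δ = 4 * (r / δ) + 4 := by field_simp
    rw [e] at hN2
    push_cast
    linarith
  refine (Vr_le hH.pos (lip_of_data hτ) w).trans
    (h (N + 1) (by omega) b Λ F hF hΛ hb τ hτ _ w (Finset.filter_subset _ _) ?_ ?_)
  · -- triangles at the support
    intro v hv t ht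
    obtain ⟨hvΛ, hw0⟩ := Finset.mem_filter.1 hv
    have h1 : dist (centre δ t) (centre δ v) ≤ δ := dist_adj hδ (Env702.adj_of_up (t := t)
      (by simp [Zg349.mem_up]) ht)
    have h2 := hs v hvΛ hw0
    have h3 := dist_triangle (centre δ t) (centre δ v) (centre δ b)
    rw [Nat.add_sub_cancel]
    exact mem_hball hδ (r := r + δ) (by linarith) hN1
  · intro v _
    have h1 := hw v
    have hNpos : (0 : ℝ) < ((N + 1 : ℕ) : ℝ) := by positivity
    rw [le_div_iff₀ (by positivity)]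
    have h2 : (((N + 1 : ℕ) : ℝ)) ^ 2 ≤ 121 * (r / δ) ^ 2 := by
      have := pow_le_pow_left₀ hNpos.le hN3 2
      linarith [this, mul_pow (11 : ℝ) (r / δ) 2]
    have h3 : |w v| * (121 * (r / δ) ^ 2) ≤ 121 * A := by
      have e : |w v| * (121 * (r / δ) ^ 2) = 121 * (|w v| * r ^ 2 / δ ^ 2) := by
        rw [div_pow]; ring
      rw [e]
      refine mul_le_mul_of_nonneg_left ?_ (by norm_num)
      rw [div_le_iff₀ (by positivity)]
      exact h1
    calc |w v| * (((N + 1 : ℕ) : ℝ)) ^ 2 ≤ |w v| * (121 * (r / δ) ^ 2) :=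
          mul_le_mul_of_nonneg_left h2 (abs_nonneg _)
      _ ≤ 121 * A := h3
      _ = ((121 * A : ℕ) : ℝ) := by push_cast; ring

/-! ### geometry -/

variable {D : Set ℂ} {γ : ℝ → ℂ} {P : Finset ℂ} {δ : ℕ → ℝ} {Λn : ℕ → Finset P2} {τn : ℕ → P2 → ℤ}

/-- a triangle off `F n` within `ε` of a frontier point -/
theorem exists_off (h : Setup D γ P δ Λn τn) {F : ℕ → Finset P2}
    (hF : ∀ ε > 0, ∀ᶠ n in atTop, ∀ t ∈ F n, centre (δ n) t ∈ cthickening ε D) {ε : ℝ} (hε : 0 < ε) :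
    ∀ᶠ n in atTop, ∀ p ∈ frontier D, ∃ b, b ∉ F n ∧ dist (centre (δ n) b) p ≤ ε := by
  obtain ⟨r0, hr0, hball⟩ := Set268.exists_balls h.dom h.c2
  set ρ := min r0 (ε / 2) with hρ
  have hρ0 : 0 < ρ := lt_min hr0 (by positivity)
  have hρε : ρ ≤ ε / 2 := min_le_right _ _
  filter_upwards [hF (ρ / 2) (by positivity), h.sites.small (show 0 < ρ / 4 by positivity)]
    with n hn hδ p hp
  obtain ⟨m, hm, hb⟩ := hball p hp
  obtain ⟨-, hdisj⟩ := hb ρ hρ0 (min_le_left _ _)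
  obtain ⟨b, hbd⟩ := exists_centre (h.sites.pos n) (p - ρ * m)
  have hqp : dist (p - ρ * m) p = ρ := by
    rw [dist_eq_norm, sub_sub_cancel_left, norm_neg, norm_mul, hm, mul_one, Complex.norm_real,
      Real.norm_eq_abs, abs_of_pos hρ0]
  have hδ0 := h.sites.pos n
  refine ⟨b, fun hbF => ?_, ?_⟩
  · have h1 := hn b hbF
    have h2 : infDist (centre (δ n) b) D ≤ ρ / 2 := by
      rw [mem_cthickening_iff] at h1
      rw [infDist]
      exact ENNReal.toReal_le_of_le_ofReal (by positivity) h1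
    have hne : D.Nonempty := h.dom.conn.nonempty
    obtain ⟨z, hz, hzd⟩ := (infDist_lt_iff hne).1 (lt_of_le_of_lt h2 (show ρ / 2 < 3 * ρ / 4 by linarith))
    have hzb : z ∈ ball (p - ρ * m) ρ := by
      rw [mem_ball]
      have h3 := dist_triangle z (centre (δ n) b) (p - ρ * m)
      rw [dist_comm z (centre (δ n) b), dist_comm (centre (δ n) b) (p - ρ * m)] at h3
      linarith
    exact Set.disjoint_left.1 hdisj hzb (subset_closure hz)
  · have h3 := dist_triangle (centre (δ n) b) (p - ρ * m) p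
    rw [dist_comm (centre (δ n) b) (p - ρ * m)] at h3
    linarith

/-- **(c1)** -/
theorem c1_of (hH : Hyp x) (h : Setup D γ P δ Λn τn) (hE : Env D δ Λn) (M : ℝ) :
    ∃ C : ℝ, ∀ z ∈ D, ∀ᶠ n in atTop, ∀ b, Bump D (δ n) M z b → Vr x (Λn n) (τn n) b ≤ C := by
  obtain ⟨F, hSC, hup, hF⟩ := hE
  obtain ⟨C, hC, hcore⟩ := core hH (4 * ⌈|M|⌉₊)
  refine ⟨C, fun z hz => ?_⟩
  have hne := Set268.compl_nonempty' h.dom.bdd
  obtain ⟨p, hp, hd⟩ := Set268.exists_frontier_near h.dom.op h.dom.bdd hz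
  set r := infDist z Dᶜ with hr
  have hr0 : 0 < r := (h.dom.op.isClosed_compl.notMem_iff_infDist_pos hne).1 fun h => h hz
  filter_upwards [exists_off h hF (show 0 < r / 8 by positivity), h.sites.small (show 0 < r by positivity)]
    with n hn hδ b hb
  obtain ⟨b0, hb0, hb1⟩ := hn p hp
  refine hcore (δ n) (2 * r) (Λn n) (F n) (τn n) b0 b (h.sites.pos n) (by linarith) (hSC n) (hup n) hb0
    (h.data n) ?_ ?_
  · intro v _ hv
    have h1 := hb.supp v hv
    have h2 := dist_triangle4 (centre (δ n) v) z p (centre (δ n) b0)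
    rw [dist_comm p] at h2
    linarith
  · intro v
    have h1 := hb.le v
    rw [abs_of_nonneg (hb.nonneg v)]
    have h2 : M ≤ (⌈|M|⌉₊ : ℝ) := (le_abs_self M).trans (Nat.le_ceil _)
    have h3 : M * δ n ^ 2 ≤ (⌈|M|⌉₊ : ℝ) * δ n ^ 2 := mul_le_mul_of_nonneg_right h2 (sq_nonneg _)
    push_cast
    have e : b v * (2 * r) ^ 2 = 4 * (b v * r ^ 2) := by ring
    rw [e]
    linarith

theorem Vr_smul (c : ℝ) (b : P2 → ℝ) : Vr x Λ τ (fun v => c * b v) = c ^ 2 * Vr x Λ τ b := by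
  unfold Vr Cv
  have h1 : ex x Λ τ (fun h => cS x Λ τ (fun v => c * b v) h * cS x Λ τ (fun v => c * b v) h) =
      ex x Λ τ (fun h => (c ^ 2) • (cS x Λ τ b h * cS x Λ τ b h)) :=
    ex_congr fun h _ => by rw [Fin268.cS_smul, smul_eq_mul]; ring
  rw [h1, ex_smul, smul_eq_mul]

/-- **(bd)** -/
theorem bd_of (hH : Hyp x) (h : Setup D γ P δ Λn τn) (hE : Env D δ Λn) {K : Set ℂ}
    (hK : IsCompact K) (_hKD : K ⊆ D) :
    ∃ C : ℝ, ∀ᶠ n in atTop, ∀ M g, Over K (δ n) M g → Vr x (Λn n) (τn n) g ≤ C * M ^ 2 := by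
  obtain ⟨F, hSC, hup, hF⟩ := hE
  obtain ⟨z0, hz0⟩ := h.dom.conn.nonempty
  obtain ⟨p, hp, -⟩ := Set268.exists_frontier_near h.dom.op h.dom.bdd hz0
  obtain ⟨R0, hR0⟩ := hK.isBounded.subset_closedBall p
  set R := |R0| + 2 with hR
  have hRpos : 0 < R := by positivity
  obtain ⟨C, hC, hcore⟩ := core hH ⌈R ^ 2⌉₊
  refine ⟨C, ?_⟩
  filter_upwards [exists_off h hF one_pos, h.sites.small one_pos] with n hn hδ M g hg
  obtain ⟨b0, hb0, hb1⟩ := hn p hp
  have hδ0 := h.sites.pos n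
  rcases le_or_gt M 0 with hM | hM
  · have h0 : ∀ v, g v = 0 := fun v => by
      have h1 := hg.le v
      have h2 : M * δ n ^ 2 ≤ 0 := mul_nonpos_of_nonpos_of_nonneg hM (sq_nonneg _)
      exact abs_eq_zero.1 (le_antisymm (h1.trans h2) (abs_nonneg _))
    have h1 : Vr x (Λn n) (τn n) g = 0 := by
      have e : g = fun v => (0 : ℝ) * g v := funext fun v => by rw [h0 v, mul_zero]
      rw [e, Vr_smul]
      ring
    rw [h1]
    positivity
  · have h1 := hcore (δ n) R (Λn n) (F n) (τn n) b0 (fun v => M⁻¹ * g v) hδ0 (by linarith [abs_nonneg R0])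
      (hSC n) (hup n) hb0 (h.data n) ?_ ?_
    · rw [Vr_smul] at h1
      have h2 : Vr x (Λn n) (τn n) g = M ^ 2 * ((M⁻¹) ^ 2 * Vr x (Λn n) (τn n) g) := by
        rw [← mul_assoc, ← mul_pow, mul_inv_cancel₀ hM.ne', one_pow, one_mul]
      rw [h2, mul_comm C]
      exact mul_le_mul_of_nonneg_left h1 (sq_nonneg _)
    · intro v _ hv
      have h2 : g v ≠ 0 := fun h3 => hv (by rw [h3, mul_zero])
      have h3 := hR0 (hg.supp v h2)
      rw [mem_closedBall] at h3
      have h4 := dist_triangle (centre (δ n) v) p (centre (δ n) b0)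
      rw [dist_comm p] at h4
      linarith [le_abs_self R0]
    · intro v
      have h2 := hg.le v
      have h3 : R ^ 2 ≤ (⌈R ^ 2⌉₊ : ℝ) := Nat.le_ceil _
      rw [abs_mul, abs_inv, abs_of_pos hM]
      have h4 : M⁻¹ * |g v| ≤ δ n ^ 2 := by
        rw [inv_mul_le_iff₀ hM]
        exact h2
      calc M⁻¹ * |g v| * R ^ 2 ≤ δ n ^ 2 * R ^ 2 := mul_le_mul_of_nonneg_right h4 (sq_nonneg _)
        _ ≤ δ n ^ 2 * (⌈R ^ 2⌉₊ : ℝ) := mul_le_mul_of_nonneg_left h3 (sq_nonneg _)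
        _ = (⌈R ^ 2⌉₊ : ℝ) * δ n ^ 2 := mul_comm _ _

end Crest.Agent.R144.Hf702
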