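import Mathlib
import Crest.Prelude.Def_HexHeights
import Crest.Agent.R144.Tp1_952
import Crest.Agent.R144.Ham5_560

-- ▼ part R144/TorA_95
section

/-!
R144 (S0197), helper95: abstract site reflection positivity for densities on `Q → ℝ`,
`Q` finite with an involution `θ`.

* `rp_abs`: if `w` depends on the fixed sites only and `G` on the sites of the half `S`
  (`S ∪ θ S = univ`, `S ∩ θ S = Fix θ`), then `0 ≤ ∫ w h * (G h * G (h ∘ θ))`.
-/

set_option autoImplicit false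

open MeasureTheory Set Function

namespace Crest.Agent.R144.Tor95

section rp

variable {Q : Type*}

open Classical in
/-- Forward map of the decomposition. -/
noncomputable def splitFun (θ : Q → Q) (hθ : ∀ q, θ (θ q) = q) (S : Set Q)
    (h1 : ∀ q, q ∈ S ∨ θ q ∈ S) (q : Q) :
    {q // θ q = q} ⊕ ({q // q ∈ S ∧ θ q ≠ q} ⊕ {q // q ∈ S ∧ θ q ≠ q}) :=
  if hf : θ q = q then Sum.inl ⟨q, hf⟩
  else if hs : q ∈ S then Sum.inr (Sum.inl ⟨q, hs, hf⟩)
  else Sum.inr (Sum.inr ⟨θ q, (h1 q).resolve_left hs, fun h => hf (by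
    rw [hθ] at h; exact h.symm)⟩)

theorem splitFun_fix (θ : Q → Q) (hθ : ∀ q, θ (θ q) = q) (S : Set Q)
    (h1 : ∀ q, q ∈ S ∨ θ q ∈ S) (q : Q) (hf : θ q = q) :
    splitFun θ hθ S h1 q = Sum.inl ⟨q, hf⟩ := by
  simp [splitFun, hf]

theorem splitFun_up (θ : Q → Q) (hθ : ∀ q, θ (θ q) = q) (S : Set Q)
    (h1 : ∀ q, q ∈ S ∨ θ q ∈ S) (q : Q) (hs : q ∈ S) (hf : θ q ≠ q) :
    splitFun θ hθ S h1 q = Sum.inr (Sum.inl ⟨q, hs, hf⟩) := by
  simp [splitFun, hf, hs]

theorem splitFun_down (θ : Q → Q) (hθ : ∀ q, θ (θ q) = q) (S : Set Q)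
    (h1 : ∀ q, q ∈ S ∨ θ q ∈ S) (h2 : ∀ q, q ∈ S → θ q ∈ S → θ q = q) (q : Q) (hs : q ∈ S)
    (hf : θ q ≠ q) :
    splitFun θ hθ S h1 (θ q) = Sum.inr (Sum.inr ⟨q, hs, hf⟩) := by
  have e2 : θ q ∉ S := fun h => hf (h2 q hs h)
  simp [splitFun, hf.symm, e2, hθ]

/-- The decomposition `Q ≃ Fix θ ⊕ (U ⊕ U)`, `U = S \ Fix θ`. -/
noncomputable def splitEquiv (θ : Q → Q) (hθ : ∀ q, θ (θ q) = q) (S : Set Q)
    (h1 : ∀ q, q ∈ S ∨ θ q ∈ S) (h2 : ∀ q, q ∈ S → θ q ∈ S → θ q = q) :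
    Q ≃ {q // θ q = q} ⊕ ({q // q ∈ S ∧ θ q ≠ q} ⊕ {q // q ∈ S ∧ θ q ≠ q}) where
  toFun := splitFun θ hθ S h1
  invFun := Sum.elim (fun q => q.1) (Sum.elim (fun q => q.1) (fun q => θ q.1))
  left_inv := by
    intro q
    by_cases hf : θ q = q
    · rw [splitFun_fix θ hθ S h1 q hf]; rfl
    · by_cases hs : q ∈ S
      · rw [splitFun_up θ hθ S h1 q hs hf]; rfl
      · simp [splitFun, hf, hs, hθ]
  right_inv := by
    rintro (⟨q, hq⟩ | ⟨q, hq, hq'⟩ | ⟨q, hq, hq'⟩)
    · exact splitFun_fix θ hθ S h1 q hq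
    · exact splitFun_up θ hθ S h1 q hq hq'
    · exact splitFun_down θ hθ S h1 h2 q hq hq'

theorem splitEquiv_fix (θ : Q → Q) (hθ : ∀ q, θ (θ q) = q) (S : Set Q)
    (h1 : ∀ q, q ∈ S ∨ θ q ∈ S) (h2 : ∀ q, q ∈ S → θ q ∈ S → θ q = q) (q : Q) (hf : θ q = q) :
    splitEquiv θ hθ S h1 h2 q = Sum.inl ⟨q, hf⟩ :=
  splitFun_fix θ hθ S h1 q hf

theorem splitEquiv_up (θ : Q → Q) (hθ : ∀ q, θ (θ q) = q) (S : Set Q)
    (h1 : ∀ q, q ∈ S ∨ θ q ∈ S) (h2 : ∀ q, q ∈ S → θ q ∈ S → θ q = q) (q : Q) (hs : q ∈ S)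
    (hf : θ q ≠ q) :
    splitEquiv θ hθ S h1 h2 q = Sum.inr (Sum.inl ⟨q, hs, hf⟩) :=
  splitFun_up θ hθ S h1 q hs hf

theorem splitEquiv_down (θ : Q → Q) (hθ : ∀ q, θ (θ q) = q) (S : Set Q)
    (h1 : ∀ q, q ∈ S ∨ θ q ∈ S) (h2 : ∀ q, q ∈ S → θ q ∈ S → θ q = q) (q : Q) (hs : q ∈ S)
    (hf : θ q ≠ q) :
    splitEquiv θ hθ S h1 h2 (θ q) = Sum.inr (Sum.inr ⟨q, hs, hf⟩) :=
  splitFun_down θ hθ S h1 h2 q hs hf

/-- Gluing of the values on the fixed sites and on the two halves. -/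
noncomputable def glue (θ : Q → Q) (hθ : ∀ q, θ (θ q) = q) (S : Set Q)
    (h1 : ∀ q, q ∈ S ∨ θ q ∈ S) (h2 : ∀ q, q ∈ S → θ q ∈ S → θ q = q)
    (z : ({q // θ q = q} → ℝ) × (({q // q ∈ S ∧ θ q ≠ q} → ℝ) × ({q // q ∈ S ∧ θ q ≠ q} → ℝ))) :
    Q → ℝ :=
  fun q => Sum.elim z.1 (Sum.elim z.2.1 z.2.2) (splitEquiv θ hθ S h1 h2 q)

variable [Fintype Q]

/-- `glue` as a measurable equivalence. -/
noncomputable def glueE (θ : Q → Q) (hθ : ∀ q, θ (θ q) = q) (S : Set Q)
    (h1 : ∀ q, q ∈ S ∨ θ q ∈ S) (h2 : ∀ q, q ∈ S → θ q ∈ S → θ q = q) :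
    (({q // θ q = q} → ℝ) × (({q // q ∈ S ∧ θ q ≠ q} → ℝ) × ({q // q ∈ S ∧ θ q ≠ q} → ℝ))) ≃ᵐ
      (Q → ℝ) :=
  ((MeasurableEquiv.prodCongr (MeasurableEquiv.refl _)
      (MeasurableEquiv.sumPiEquivProdPi
        (fun _ : {q // q ∈ S ∧ θ q ≠ q} ⊕ {q // q ∈ S ∧ θ q ≠ q} => ℝ)).symm).trans
    (MeasurableEquiv.sumPiEquivProdPi
      (fun _ : {q // θ q = q} ⊕ ({q // q ∈ S ∧ θ q ≠ q} ⊕ {q // q ∈ S ∧ θ q ≠ q}) => ℝ)).symm).trans
    (MeasurableEquiv.piCongrLeft (fun _ : Q => ℝ) (splitEquiv θ hθ S h1 h2).symm)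

omit [Fintype Q] in
theorem glueE_apply (θ : Q → Q) (hθ : ∀ q, θ (θ q) = q) (S : Set Q)
    (h1 : ∀ q, q ∈ S ∨ θ q ∈ S) (h2 : ∀ q, q ∈ S → θ q ∈ S → θ q = q)
    (z : ({q // θ q = q} → ℝ) × (({q // q ∈ S ∧ θ q ≠ q} → ℝ) × ({q // q ∈ S ∧ θ q ≠ q} → ℝ))) :
    glueE θ hθ S h1 h2 z = glue θ hθ S h1 h2 z := by
  funext q
  obtain ⟨s, rfl⟩ := (splitEquiv θ hθ S h1 h2).symm.surjective q
  simp only [glueE, MeasurableEquiv.coe_trans, Function.comp_apply, glue, Equiv.apply_symm_apply]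
  rw [MeasurableEquiv.piCongrLeft, ]
  simp only [MeasurableEquiv.coe_mk, Equiv.piCongrLeft_apply_apply]
  rcases s with s | s | s <;> rfl

open Classical in
theorem glueE_measurePreserving (θ : Q → Q) (hθ : ∀ q, θ (θ q) = q) (S : Set Q)
    (h1 : ∀ q, q ∈ S ∨ θ q ∈ S) (h2 : ∀ q, q ∈ S → θ q ∈ S → θ q = q) :
    MeasurePreserving (glueE θ hθ S h1 h2) (volume : Measure (({q // θ q = q} → ℝ) ×
      (({q // q ∈ S ∧ θ q ≠ q} → ℝ) × ({q // q ∈ S ∧ θ q ≠ q} → ℝ))))
      (volume : Measure (Q → ℝ)) := by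
  classical
  have a1 := volume_measurePreserving_piCongrLeft (fun _ : Q => ℝ) (splitEquiv θ hθ S h1 h2).symm
  have a2 := volume_measurePreserving_sumPiEquivProdPi_symm
    (fun _ : {q // θ q = q} ⊕ ({q // q ∈ S ∧ θ q ≠ q} ⊕ {q // q ∈ S ∧ θ q ≠ q}) => ℝ)
  have a3 := volume_measurePreserving_sumPiEquivProdPi_symm
    (fun _ : {q // q ∈ S ∧ θ q ≠ q} ⊕ {q // q ∈ S ∧ θ q ≠ q} => ℝ)
  have a4 := (MeasurePreserving.id (volume : Measure ({q // θ q = q} → ℝ))).prod a3
  exact (a1.comp a2).comp a4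

/-- **Abstract site reflection positivity.** -/
theorem rp_abs (θ : Q → Q) (hθ : ∀ q, θ (θ q) = q) (S : Set Q)
    (h1 : ∀ q, q ∈ S ∨ θ q ∈ S) (h2 : ∀ q, q ∈ S → θ q ∈ S → θ q = q)
    (w G : (Q → ℝ) → ℝ) (hw0 : ∀ h, 0 ≤ w h) (hw : DependsOn w {q | θ q = q})
    (hG : DependsOn G S) (hint : Integrable (fun h : Q → ℝ => w h * (G h * G (h ∘ θ)))) :
    0 ≤ ∫ h : Q → ℝ, w h * (G h * G (h ∘ θ)) := by
  classical
  have hmp := glueE_measurePreserving θ hθ S h1 h2
  rw [← hmp.integral_comp (glueE θ hθ S h1 h2).measurableEmbedding]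
  have hint' : Integrable (fun z => w (glueE θ hθ S h1 h2 z) * (G (glueE θ hθ S h1 h2 z) *
      G (glueE θ hθ S h1 h2 z ∘ θ))) :=
    (hmp.integrable_comp_emb (glueE θ hθ S h1 h2).measurableEmbedding).2 hint
  have e1 : ∀ z, w (glueE θ hθ S h1 h2 z) = w (glue θ hθ S h1 h2 (z.1, 0, 0)) := by
    intro z
    rw [glueE_apply]
    refine hw fun q hq => ?_
    simp only [glue]
    rw [splitEquiv_fix θ hθ S h1 h2 q hq]
    rfl
  have e2 : ∀ z, G (glueE θ hθ S h1 h2 z) = G (glue θ hθ S h1 h2 (z.1, z.2.1, 0)) := by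
    intro z
    rw [glueE_apply]
    refine hG fun q hq => ?_
    simp only [glue]
    by_cases hf : θ q = q
    · rw [splitEquiv_fix θ hθ S h1 h2 q hf]; rfl
    · rw [splitEquiv_up θ hθ S h1 h2 q hq hf]; rfl
  have e3 : ∀ z, G (glueE θ hθ S h1 h2 z ∘ θ) = G (glue θ hθ S h1 h2 (z.1, z.2.2, 0)) := by
    intro z
    rw [glueE_apply]
    refine hG fun q hq => ?_
    simp only [glue, Function.comp_apply]
    by_cases hf : θ q = q
    · rw [hf, splitEquiv_fix θ hθ S h1 h2 q hf]; rfl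
    · rw [splitEquiv_up θ hθ S h1 h2 q hq hf, splitEquiv_down θ hθ S h1 h2 q hq hf]; rfl
  simp only [e1, e2, e3] at hint' ⊢
  rw [show (volume : Measure (({q // θ q = q} → ℝ) × (({q // q ∈ S ∧ θ q ≠ q} → ℝ) ×
    ({q // q ∈ S ∧ θ q ≠ q} → ℝ)))) = (volume : Measure ({q // θ q = q} → ℝ)).prod volume from rfl]
    at hint' ⊢
  rw [integral_prod _ hint']
  refine integral_nonneg fun b => ?_
  simp only [Pi.zero_apply]
  rw [integral_const_mul]
  refine mul_nonneg (hw0 _) ?_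
  rw [show (volume : Measure (({q // q ∈ S ∧ θ q ≠ q} → ℝ) ×
    ({q // q ∈ S ∧ θ q ≠ q} → ℝ))) = (volume : Measure ({q // q ∈ S ∧ θ q ≠ q} → ℝ)).prod volume
    from rfl]
  rw [integral_prod_mul (fun u : {q // q ∈ S ∧ θ q ≠ q} → ℝ => G (glue θ hθ S h1 h2 (b, u, 0)))
    (fun u : {q // q ∈ S ∧ θ q ≠ q} → ℝ => G (glue θ hθ S h1 h2 (b, u, 0)))]
  exact mul_self_nonneg _

end rp

end Crest.Agent.R144.Tor95
end

-- ▼ part R144/TorB_95
section

/-!
R144 (S0197), helper95: the hammock gradient law on a finite connected graph, free gauge.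

`Q` finite type, `R` relation (adjacency), `lip R` = heights with steps `≤ 1`, `gauge o` =
`|h o| ≤ 1/2`, `nu R o` = volume restricted to `lip R ∩ gauge o`.  For shift invariant `F` the
integral `∫ F ∂(nu R o)` does not depend on `o` (`gauge_change`), and it is invariant under graph
isomorphisms (`relabel`).  `var2 R o p q` = normalised `E (h p - h q)^2`.
-/

set_option autoImplicit false

open MeasureTheory Set Function
open scoped ENNReal

namespace Crest.Agent.R144.Tor95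

section basic

variable {Q : Type*}

/-- Heights with steps at most `1` along the relation `R`. -/
def lip (R : Q → Q → Prop) : Set (Q → ℝ) := {h | ∀ p q, R p q → |h p - h q| ≤ 1}

/-- The gauge window at `o`. -/
def gauge (o : Q) : Set (Q → ℝ) := {h | |h o| ≤ 1 / 2}

theorem isClosed_lip (R : Q → Q → Prop) : IsClosed (lip R) := by
  have e : lip R = ⋂ p : Q, ⋂ q : Q, ⋂ _ : R p q, {h : Q → ℝ | |h p - h q| ≤ 1} := by
    ext h; simp [lip]
  rw [e]
  refine isClosed_iInter fun p => isClosed_iInter fun q => isClosed_iInter fun _ => ?_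
  exact isClosed_le (by fun_prop) continuous_const

theorem isClosed_gauge (o : Q) : IsClosed (gauge o) :=
  isClosed_le (by fun_prop) continuous_const

theorem convex_lip (R : Q → Q → Prop) : Convex ℝ (lip R) := by
  intro x hx y hy a b ha hb hab p q hpq
  have h1 := hx p q hpq
  have h2 := hy p q hpq
  simp only [Pi.add_apply, Pi.smul_apply, smul_eq_mul]
  rw [abs_le] at h1 h2 ⊢
  constructor <;> nlinarith

theorem convex_gauge (o : Q) : Convex ℝ (gauge o) := by
  intro x hx y hy a b ha hb hab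
  have h1 : |x o| ≤ 1 / 2 := hx
  have h2 : |y o| ≤ 1 / 2 := hy
  change |(a • x + b • y) o| ≤ 1 / 2
  simp only [Pi.add_apply, Pi.smul_apply, smul_eq_mul]
  rw [abs_le] at h1 h2 ⊢
  constructor <;> nlinarith

theorem neg_mem_lip {R : Q → Q → Prop} {h : Q → ℝ} (hh : h ∈ lip R) : -h ∈ lip R := by
  intro p q hpq
  have := hh p q hpq
  simp only [Pi.neg_apply]
  rwa [show -h p - -h q = -(h p - h q) by ring, abs_neg]

theorem neg_mem_gauge {o : Q} {h : Q → ℝ} (hh : h ∈ gauge o) : -h ∈ gauge o := by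
  change |(-h) o| ≤ 1 / 2
  rw [Pi.neg_apply, abs_neg]
  exact hh

/-- `Q` is connected from `o` along `R`. -/
def Conn (R : Q → Q → Prop) (o : Q) : Prop := ∀ q, Relation.ReflTransGen R o q

theorem lip_bound_aux {R : Q → Q → Prop} {o q : Q} (hc : Relation.ReflTransGen R o q) :
    ∃ C : ℝ, 0 ≤ C ∧ ∀ h ∈ lip R, |h q - h o| ≤ C := by
  induction hc with
  | refl => exact ⟨0, le_rfl, fun h _ => by simp⟩
  | tail _ hbc ih =>
    obtain ⟨C, hC, hb⟩ := ih
    refine ⟨C + 1, by linarith, fun h hh => ?_⟩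
    have h1 := hb h hh
    have h2 := hh _ _ hbc
    rw [abs_le] at h1 h2 ⊢
    constructor <;> linarith

variable [Fintype Q]

theorem lip_bound {R : Q → Q → Prop} {o : Q} (hc : Conn R o) :
    ∃ C : ℝ, 0 ≤ C ∧ ∀ h ∈ lip R, ∀ q, |h q - h o| ≤ C := by
  choose C hC hb using fun q => lip_bound_aux (R := R) (hc q)
  refine ⟨∑ q, C q, Finset.sum_nonneg fun q _ => hC q, fun h hh q => (hb q h hh).trans ?_⟩
  exact Finset.single_le_sum (fun q _ => hC q) (Finset.mem_univ q)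

theorem isCompact_lip_gauge {R : Q → Q → Prop} {o : Q} (hc : Conn R o) :
    IsCompact (lip R ∩ gauge o) := by
  obtain ⟨C, hC, hb⟩ := lip_bound hc
  refine Metric.isCompact_of_isClosed_isBounded ((isClosed_lip R).inter (isClosed_gauge o)) ?_
  refine (Metric.isBounded_closedBall (x := (0 : Q → ℝ)) (r := C + 1 / 2)).subset ?_
  rintro h ⟨h1, h2⟩
  rw [mem_closedBall_zero_iff, pi_norm_le_iff_of_nonneg (by positivity)]
  intro q
  have h3 := hb h h1 q
  have h4 : |h o| ≤ 1 / 2 := h2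
  rw [Real.norm_eq_abs]
  rw [abs_le] at h3 h4 ⊢
  constructor <;> linarith

/-- The unnormalised gradient law. -/
noncomputable def nu (R : Q → Q → Prop) (o : Q) : Measure (Q → ℝ) :=
  volume.restrict (lip R ∩ gauge o)

theorem nu_univ (R : Q → Q → Prop) (o : Q) : nu R o univ = volume (lip R ∩ gauge o) := by
  simp [nu]

theorem nu_lt_top {R : Q → Q → Prop} {o : Q} (hc : Conn R o) : nu R o univ < ∞ := by
  rw [nu_univ]; exact (isCompact_lip_gauge hc).measure_lt_top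


theorem one_le_nu (R : Q → Q → Prop) (o : Q) : 1 ≤ nu R o univ := by
  rw [nu_univ]
  have h1 : (Set.univ.pi fun _ : Q => Set.Icc (-(1 / 2) : ℝ) (1 / 2)) ⊆ lip R ∩ gauge o := by
    intro h hh
    have hb : ∀ q, |h q| ≤ 1 / 2 := fun q => abs_le.2 (hh q (mem_univ q))
    refine ⟨fun p q _ => ?_, hb o⟩
    have h1 := hb p
    have h2 := hb q
    rw [abs_le] at h1 h2 ⊢
    constructor <;> linarith
  refine le_trans ?_ (measure_mono h1)
  rw [volume_pi_pi]
  simp only [Real.volume_Icc]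
  norm_num

theorem nu_pos (R : Q → Q → Prop) (o : Q) : 0 < nu R o univ :=
  lt_of_lt_of_le one_pos (one_le_nu R o)

theorem nu_real_pos {R : Q → Q → Prop} {o : Q} (hc : Conn R o) : 0 < (nu R o).real univ :=
  ENNReal.toReal_pos (nu_pos R o).ne' (nu_lt_top hc).ne

theorem integrable_of_cont {R : Q → Q → Prop} {o : Q} (hc : Conn R o) {F : (Q → ℝ) → ℝ}
    (hF : Continuous F) : Integrable F (nu R o) :=
  hF.continuousOn.integrableOn_compact (isCompact_lip_gauge hc)

/-- Shift invariance of an observable. -/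
def ShiftInv (F : (Q → ℝ) → ℝ) : Prop := ∀ (h : Q → ℝ) (c : ℝ), F (fun q => h q + c) = F h

omit [Fintype Q] in
theorem lip_shift (R : Q → Q → Prop) (h : Q → ℝ) (c : ℝ) :
    (fun q => h q + c) ∈ lip R ↔ h ∈ lip R := by
  simp [lip]

theorem volume_shift (c : ℝ) :
    MeasurePreserving (fun h : Q → ℝ => fun q => h q + c) volume volume := by
  have := measurePreserving_add_right (volume : Measure (Q → ℝ)) (fun _ => c)
  exact this

/-- Change of gauge: the integral of a shift invariant observable does not depend on the base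
point. -/
theorem gauge_change {R : Q → Q → Prop} {o o' : Q} (hc : Conn R o)
    {F : (Q → ℝ) → ℝ} (hF : Continuous F) (hs : ShiftInv F) :
    ∫ h, F h ∂(nu R o) = ∫ h, F h ∂(nu R o') := by
  classical
  set K := lip R with hK
  have hKm : MeasurableSet K := (isClosed_lip R).measurableSet
  -- both sides as integrals against the product with the gauge variable
  have hone : ∀ a : ℝ, ∫ c : ℝ, (Set.Icc (-(1/2) : ℝ) (1/2)).indicator (fun _ => (1:ℝ)) (a + c) = 1 := by
    intro a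
    rw [integral_add_left_eq_self (fun c => (Set.Icc (-(1/2) : ℝ) (1/2)).indicator (fun _ => (1:ℝ)) c) a]
    rw [integral_indicator measurableSet_Icc]
    simp
    norm_num
  set ρ : ℝ → ℝ := (Set.Icc (-(1/2) : ℝ) (1/2)).indicator (fun _ => (1:ℝ)) with hρ
  have hρm : Measurable ρ := measurable_const.indicator measurableSet_Icc
  have hmem : ∀ (p : Q) (h : Q → ℝ), ρ (h p) = (gauge p).indicator (fun _ => (1:ℝ)) h := by
    intro p h
    simp only [hρ, Set.indicator_apply, gauge, Set.mem_Icc, Set.mem_ofPred_eq, abs_le]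
  have hform : ∀ p : Q, ∫ h, F h ∂(nu R p) = ∫ h, K.indicator F h * ρ (h p) := by
    intro p
    rw [nu, ← integral_indicator (hKm.inter (isClosed_gauge p).measurableSet)]
    refine integral_congr_ae (Filter.Eventually.of_forall fun h => ?_)
    simp only [hmem, Set.indicator_apply]
    by_cases h1 : h ∈ K <;> by_cases h2 : h ∈ gauge p <;> simp [h1, h2]
  rw [hform, hform]
  set Φ : (Q → ℝ) × ℝ → ℝ := fun z => K.indicator F z.1 * ρ (z.1 o) * ρ (z.1 o' + z.2) with hΦ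
  have hint : Integrable Φ ((volume : Measure (Q → ℝ)).prod volume) := by
    obtain ⟨C, hC, hb⟩ := lip_bound hc
    have hcomp : IsCompact ((K ∩ gauge o) ×ˢ Set.Icc (-(C + 1)) (C + 1)) :=
      (isCompact_lip_gauge hc).prod isCompact_Icc
    obtain ⟨B, hB⟩ := hcomp.exists_bound_of_continuousOn (f := fun z : (Q → ℝ) × ℝ => F z.1)
      (hF.comp continuous_fst).continuousOn
    have hΦm : Measurable Φ := by
      refine Measurable.mul (Measurable.mul ?_ ?_) ?_
      · exact (hF.measurable.indicator hKm).comp measurable_fst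
      · exact hρm.comp ((measurable_pi_apply o).comp measurable_fst)
      · exact hρm.comp (((measurable_pi_apply o').comp measurable_fst).add measurable_snd)
    have hsupp : ∀ z, z ∉ (K ∩ gauge o) ×ˢ Set.Icc (-(C + 1)) (C + 1) → Φ z = 0 := by
      intro z hz
      simp only [hΦ]
      by_cases h1 : z.1 ∈ K
      · by_cases h2 : z.1 ∈ gauge o
        · have h3 : z.2 ∉ Set.Icc (-(C + 1)) (C + 1) := fun h3 => hz ⟨⟨h1, h2⟩, h3⟩
          have h4 : ρ (z.1 o' + z.2) = 0 := by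
            simp only [hρ]
            refine Set.indicator_of_notMem (fun h5 => h3 ?_) _
            have h6 := hb z.1 h1 o'
            have h7 : |z.1 o| ≤ 1 / 2 := h2
            rw [Set.mem_Icc] at h5 ⊢
            rw [abs_le] at h6 h7
            constructor <;> linarith [h5.1, h5.2, h6.1, h6.2, h7.1, h7.2]
          rw [h4, mul_zero]
        · rw [hmem o, Set.indicator_of_notMem h2]; ring
      · rw [Set.indicator_of_notMem h1]; ring
    have hbound : ∀ z, ‖Φ z‖ ≤ ((K ∩ gauge o) ×ˢ Set.Icc (-(C + 1)) (C + 1)).indicator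
        (fun _ => B) z := by
      intro z
      by_cases hz : z ∈ (K ∩ gauge o) ×ˢ Set.Icc (-(C + 1)) (C + 1)
      · rw [Set.indicator_of_mem hz]
        have hFb := hB z hz
        have hr1 : ∀ t, ‖ρ t‖ ≤ 1 := by
          intro t; simp only [hρ, Set.indicator_apply]; split_ifs <;> simp
        have hB0 : 0 ≤ B := le_trans (norm_nonneg _) hFb
        have hK1 : ‖K.indicator F z.1‖ ≤ B := by
          rw [Set.indicator_of_mem hz.1.1]; exact hFb
        calc ‖Φ z‖ = ‖K.indicator F z.1‖ * ‖ρ (z.1 o)‖ * ‖ρ (z.1 o' + z.2)‖ := by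
              simp only [hΦ, norm_mul]
          _ ≤ B * 1 * 1 := by
              gcongr
              · exact hr1 _
              · exact hr1 _
          _ = B := by ring
      · rw [hsupp z hz, Set.indicator_of_notMem hz, norm_zero]
    refine Integrable.mono' ?_ hΦm.aestronglyMeasurable (Filter.Eventually.of_forall hbound)
    refine (integrable_indicator_iff hcomp.measurableSet).2 ?_
    exact integrableOn_const (hcomp.measure_lt_top).ne
  have e1 : ∫ h, K.indicator F h * ρ (h o) = ∫ z, Φ z ∂((volume : Measure (Q → ℝ)).prod volume) := by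
    rw [integral_prod _ hint]
    refine integral_congr_ae (Filter.Eventually.of_forall fun h => ?_)
    simp only [hΦ]
    rw [integral_const_mul, hone, mul_one]
  have e2 : ∫ z, Φ z ∂((volume : Measure (Q → ℝ)).prod volume) =
      ∫ c : ℝ, ∫ h : Q → ℝ, Φ (h, c) := by
    rw [integral_prod_symm _ hint]
  have e3 : ∀ c : ℝ, ∫ h : Q → ℝ, Φ (h, c) = ∫ h : Q → ℝ, K.indicator F h * ρ (h o - c) * ρ (h o') := by
    intro c
    rw [← (volume_shift (Q := Q) (-c)).integral_comp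
      (MeasurableEquiv.addRight (fun _ : Q => -c)).measurableEmbedding]
    refine integral_congr_ae (Filter.Eventually.of_forall fun h => ?_)
    simp only [hΦ]
    have e4 : K.indicator F (fun q => h q + -c) = K.indicator F h := by
      simp only [Set.indicator_apply]
      rw [hK, lip_shift R h (-c), hs h (-c)]
    rw [e4]
    congr 2
    ring
  have hint2 : Integrable (fun z : (Q → ℝ) × ℝ => K.indicator F z.1 * ρ (z.1 o - z.2) * ρ (z.1 o'))
      ((volume : Measure (Q → ℝ)).prod volume) := by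
    -- shear of `Φ`
    have hsh : MeasurePreserving (fun z : (Q → ℝ) × ℝ => ((fun q => z.1 q + -z.2 : Q → ℝ), z.2))
        ((volume : Measure (Q → ℝ)).prod volume) ((volume : Measure (Q → ℝ)).prod volume) := by
      have a1 : MeasurePreserving (fun z : ℝ × (Q → ℝ) => (z.1, (fun q => z.2 q + -z.1 : Q → ℝ)))
          ((volume : Measure ℝ).prod (volume : Measure (Q → ℝ)))
          ((volume : Measure ℝ).prod (volume : Measure (Q → ℝ))) := by
        refine MeasurePreserving.skew_product (g := fun c (h : Q → ℝ) => (fun q => h q + -c))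
          (MeasurePreserving.id _) ?_ (Filter.Eventually.of_forall fun c => ?_)
        · refine measurable_pi_iff.2 fun q => ?_
          exact ((measurable_pi_apply q).comp measurable_snd).add measurable_fst.neg
        · exact (volume_shift (Q := Q) (-c)).map_eq
      exact (Measure.measurePreserving_swap.comp a1).comp Measure.measurePreserving_swap
    have hemb : MeasurableEmbedding
        (fun z : (Q → ℝ) × ℝ => ((fun q => z.1 q + -z.2 : Q → ℝ), z.2)) := by
      let ee : ((Q → ℝ) × ℝ) ≃ᵐ ((Q → ℝ) × ℝ) :=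
        { toFun := fun z => ((fun q => z.1 q + -z.2 : Q → ℝ), z.2)
          invFun := fun z => ((fun q => z.1 q + z.2 : Q → ℝ), z.2)
          left_inv := fun z => by ext <;> simp
          right_inv := fun z => by ext <;> simp
          measurable_toFun := by
            refine Measurable.prodMk (measurable_pi_iff.2 fun q => ?_) measurable_snd
            exact ((measurable_pi_apply q).comp measurable_fst).add measurable_snd.neg
          measurable_invFun := by
            refine Measurable.prodMk (measurable_pi_iff.2 fun q => ?_) measurable_snd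
            exact ((measurable_pi_apply q).comp measurable_fst).add measurable_snd }
      exact ee.measurableEmbedding
    have := (hsh.integrable_comp_emb hemb (g := Φ)).2 hint
    refine this.congr (Filter.Eventually.of_forall fun z => ?_)
    simp only [hΦ, Function.comp_apply]
    have e4 : K.indicator F (fun q => z.1 q + -z.2) = K.indicator F z.1 := by
      simp only [Set.indicator_apply]
      rw [hK, lip_shift R z.1 (-z.2), hs z.1 (-z.2)]
    rw [e4]
    congr 2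
    ring
  have e5 : ∫ c : ℝ, ∫ h : Q → ℝ, K.indicator F h * ρ (h o - c) * ρ (h o') =
      ∫ h : Q → ℝ, K.indicator F h * ρ (h o') := by
    rw [← integral_prod_symm _ hint2, integral_prod _ hint2]
    refine integral_congr_ae (Filter.Eventually.of_forall fun h => ?_)
    simp only
    rw [show (fun c : ℝ => K.indicator F h * ρ (h o - c) * ρ (h o')) =
      fun c : ℝ => (K.indicator F h * ρ (h o')) * ρ (h o - c) by funext c; ring]
    rw [integral_const_mul, integral_sub_left_eq_self (fun c => ρ c) volume (h o)]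
    have := hone 0
    simp only [zero_add] at this
    rw [this, mul_one]
  rw [e1, e2]
  simp_rw [e3]
  exact e5

/-- Relabelling by a graph isomorphism. -/
theorem relabel {Q' : Type*} [Fintype Q'] {R : Q → Q → Prop} {R' : Q' → Q' → Prop} (σ : Q ≃ Q')
    (hR : ∀ p q, R p q ↔ R' (σ p) (σ q)) (o : Q) (F : (Q → ℝ) → ℝ) :
    ∫ h, F (h ∘ σ) ∂(nu R' (σ o)) = ∫ h, F h ∂(nu R o) := by
  have hmp := volume_measurePreserving_piCongrLeft (fun _ : Q' => ℝ) σ
  set E := MeasurableEquiv.piCongrLeft (fun _ : Q' => ℝ) σ with hE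
  have hEa : ∀ (g : Q → ℝ) (q : Q), E g (σ q) = g q := by
    intro g q
    exact Equiv.piCongrLeft_apply_apply (fun _ : Q' => ℝ) σ g q
  have hcomp : ∀ g : Q → ℝ, E g ∘ σ = g := fun g => funext fun q => hEa g q
  have hpre : E ⁻¹' (lip R' ∩ gauge (σ o)) = lip R ∩ gauge o := by
    ext g
    simp only [Set.mem_preimage, Set.mem_inter_iff]
    refine and_congr ⟨fun h p q hpq => ?_, fun h p q hpq => ?_⟩ ?_
    · have := h (σ p) (σ q) ((hR p q).1 hpq)
      rwa [hEa, hEa] at this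
    · obtain ⟨p, rfl⟩ := σ.surjective p
      obtain ⟨q, rfl⟩ := σ.surjective q
      rw [hEa, hEa]
      exact h p q ((hR p q).2 hpq)
    · change |E g (σ o)| ≤ 1 / 2 ↔ |g o| ≤ 1 / 2
      rw [hEa]
  rw [nu, nu, ← hpre]
  have hm := (hmp.restrict_preimage_emb E.measurableEmbedding (lip R' ∩ gauge (σ o)))
  rw [← hm.integral_comp E.measurableEmbedding]
  refine integral_congr_ae (Filter.Eventually.of_forall fun g => ?_)
  simp only [hcomp]

/-- Normalised second moment of a height difference. -/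
noncomputable def var2 (R : Q → Q → Prop) (o p q : Q) : ℝ :=
  (∫ h, (h p - h q) ^ 2 ∂(nu R o)) / (nu R o).real univ

/-- Normalised expectation. -/
noncomputable def ex (R : Q → Q → Prop) (o : Q) (F : (Q → ℝ) → ℝ) : ℝ :=
  (∫ h, F h ∂(nu R o)) / (nu R o).real univ


theorem mass_gauge {R : Q → Q → Prop} {o o' : Q} (hc : Conn R o) :
    (nu R o).real univ = (nu R o').real univ := by
  have := gauge_change (o' := o') hc (F := fun _ => (1 : ℝ)) continuous_const (fun _ _ => rfl)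
  simpa using this

theorem ex_gauge {R : Q → Q → Prop} {o o' : Q} (hc : Conn R o) {F : (Q → ℝ) → ℝ}
    (hF : Continuous F) (hs : ShiftInv F) : ex R o F = ex R o' F := by
  rw [ex, ex, gauge_change (o' := o') hc hF hs, mass_gauge (o' := o') hc]

theorem ex_relabel {Q' : Type*} [Fintype Q'] {R : Q → Q → Prop} {R' : Q' → Q' → Prop} (σ : Q ≃ Q')
    (hR : ∀ p q, R p q ↔ R' (σ p) (σ q)) (o : Q) (F : (Q → ℝ) → ℝ) :
    ex R' (σ o) (fun h => F (h ∘ σ)) = ex R o F := by
  have h1 : (nu R' (σ o)).real univ = (nu R o).real univ := by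
    have := relabel σ hR o (fun _ => (1 : ℝ))
    simpa using this
  rw [ex, ex, relabel σ hR o F, h1]

theorem var2_eq_ex (R : Q → Q → Prop) (o p q : Q) :
    var2 R o p q = ex R o (fun h => (h p - h q) ^ 2) := rfl



theorem var2_symm (R : Q → Q → Prop) (o p q : Q) : var2 R o p q = var2 R o q p := by
  rw [var2, var2]
  congr 1
  refine integral_congr_ae (Filter.Eventually.of_forall fun h => ?_)
  simp only
  ring

theorem var2_self (R : Q → Q → Prop) (o p : Q) : var2 R o p p = 0 := by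
  simp [var2]


/-- Polarisation: for mean zero coefficients. -/
theorem pair_identity (f g : Q → ℝ) (hf : ∑ p, f p = 0) (hg : ∑ p, g p = 0) (h : Q → ℝ) :
    (∑ p, f p * h p) * (∑ q, g q * h q) = -(1 / 2) * ∑ p, ∑ q, f p * g q * (h p - h q) ^ 2 := by
  have e1 : ∑ p, ∑ q, f p * g q * (h p - h q) ^ 2 =
      (∑ p, f p * h p ^ 2) * (∑ q, g q) + (∑ p, f p) * (∑ q, g q * h q ^ 2) -
        2 * ((∑ p, f p * h p) * (∑ q, g q * h q)) := by
    rw [Finset.sum_mul_sum, Finset.sum_mul_sum, Finset.sum_mul_sum, Finset.mul_sum,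
      ← Finset.sum_add_distrib, ← Finset.sum_sub_distrib]
    refine Finset.sum_congr rfl fun p _ => ?_
    rw [Finset.mul_sum, ← Finset.sum_add_distrib, ← Finset.sum_sub_distrib]
    refine Finset.sum_congr rfl fun q _ => ?_
    ring
  rw [e1, hf, hg]
  ring

theorem ex_pair {R : Q → Q → Prop} {o : Q} (hc : Conn R o) (f g : Q → ℝ) (hf : ∑ p, f p = 0)
    (hg : ∑ p, g p = 0) :
    ex R o (fun h => (∑ p, f p * h p) * (∑ q, g q * h q)) =
      -(1 / 2) * ∑ p, ∑ q, f p * g q * var2 R o p q := by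
  rw [ex]
  simp_rw [pair_identity f g hf hg]
  rw [integral_const_mul, integral_finsetSum]
  · rw [mul_div_assoc, Finset.sum_div]
    congr 1
    refine Finset.sum_congr rfl fun p _ => ?_
    rw [integral_finsetSum]
    · rw [Finset.sum_div]
      refine Finset.sum_congr rfl fun q _ => ?_
      rw [integral_const_mul, var2, mul_div_assoc]
    · intro q _
      exact integrable_of_cont hc (by fun_prop)
  · intro p _
    exact integrable_of_cont hc (by fun_prop)

/-- Positive definiteness. -/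
theorem pd {R : Q → Q → Prop} {o : Q} (hc : Conn R o) (f : Q → ℝ) (hf : ∑ p, f p = 0) :
    0 ≤ -(1 / 2) * ∑ p, ∑ q, f p * f q * var2 R o p q := by
  rw [← ex_pair hc f f hf hf, ex]
  exact div_nonneg (integral_nonneg fun h => mul_self_nonneg _) ENNReal.toReal_nonneg

/-- **Site reflection positivity** of the hammock law. -/
theorem rp {R : Q → Q → Prop} {o : Q} (hc : Conn R o) (θ : Q → Q) (hθ : ∀ q, θ (θ q) = q)
    (S : Set Q) (h1 : ∀ q, q ∈ S ∨ θ q ∈ S) (h2 : ∀ q, q ∈ S → θ q ∈ S → θ q = q)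
    (hR : ∀ p q, R p q → R (θ p) (θ q))
    (hS : ∀ p q, R p q → (p ∈ S ∧ q ∈ S) ∨ (θ p ∈ S ∧ θ q ∈ S)) (ho : θ o = o)
    (F : (Q → ℝ) → ℝ) (hF : Continuous F) (hFS : DependsOn F S) :
    0 ≤ ∫ h, F h * F (h ∘ θ) ∂(nu R o) := by
  classical
  set P : Set (Q → ℝ) := {h | ∀ p q, p ∈ S → q ∈ S → R p q → |h p - h q| ≤ 1} with hP
  have hdec : ∀ h : Q → ℝ, h ∈ lip R ↔ h ∈ P ∧ h ∘ θ ∈ P := by
    intro h
    constructor
    · intro hh
      exact ⟨fun p q _ _ hpq => hh p q hpq, fun p q _ _ hpq => hh _ _ (hR p q hpq)⟩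
    · rintro ⟨ha, hb⟩ p q hpq
      rcases hS p q hpq with ⟨hp, hq⟩ | ⟨hp, hq⟩
      · exact ha p q hp hq hpq
      · have := hb (θ p) (θ q) hp hq (hR p q hpq)
        simpa [hθ] using this
  have hoS : o ∈ S := by
    rcases h1 o with h | h
    · exact h
    · rwa [ho] at h
  set G : (Q → ℝ) → ℝ := fun h => P.indicator F h with hG
  set w : (Q → ℝ) → ℝ := fun h => (gauge o).indicator (fun _ => (1 : ℝ)) h with hw
  have key := rp_abs θ hθ S h1 h2 w G (fun h => by
      simp only [hw, Set.indicator_apply]; split_ifs <;> norm_num)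
    (by
      intro x y hxy
      have : x o = y o := hxy o ho
      simp only [hw, Set.indicator_apply, gauge, Set.mem_ofPred_eq, this])
    (by
      intro x y hxy
      have hFe : F x = F y := hFS hxy
      have hPe : x ∈ P ↔ y ∈ P := by
        simp only [hP, Set.mem_ofPred_eq]
        refine forall_congr' fun p => forall_congr' fun q => ?_
        refine imp_congr_right fun hp => imp_congr_right fun hq => imp_congr_right fun _ => ?_
        rw [hxy p hp, hxy q hq]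
      simp only [hG, Set.indicator_apply, hFe]
      by_cases hx : x ∈ P
      · rw [if_pos hx, if_pos (hPe.1 hx)]
      · rw [if_neg hx, if_neg (fun h => hx (hPe.2 h))])
  have hcontθ : Continuous fun h : Q → ℝ => h ∘ θ := by
    refine continuous_pi fun q => ?_
    exact continuous_apply (θ q)
  have hprod : ∀ h : Q → ℝ, w h * (G h * G (h ∘ θ)) =
      (lip R ∩ gauge o).indicator (fun h => F h * F (h ∘ θ)) h := by
    intro h
    simp only [hw, hG, Set.indicator_apply, Set.mem_inter_iff, hdec h]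
    by_cases a : h ∈ P <;> by_cases b : h ∘ θ ∈ P <;> by_cases c : h ∈ gauge o <;>
      simp [a, b, c]
  have hmeas : MeasurableSet (lip R ∩ gauge o) :=
    ((isClosed_lip R).inter (isClosed_gauge o)).measurableSet
  have hcontF : Continuous fun h : Q → ℝ => F h * F (h ∘ θ) := hF.mul (hF.comp hcontθ)
  have hint : Integrable (fun h : Q → ℝ => w h * (G h * G (h ∘ θ))) := by
    simp_rw [hprod]
    exact (integrable_indicator_iff hmeas).2
      (hcontF.continuousOn.integrableOn_compact (isCompact_lip_gauge hc))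
  have := key hint
  simp_rw [hprod] at this
  rwa [integral_indicator hmeas] at this

/-- Reflection positivity for the variogram. -/
theorem rp_var {R : Q → Q → Prop} {o : Q} (hc : Conn R o) (θ : Q → Q) (hθ : ∀ q, θ (θ q) = q)
    (S : Set Q) (h1 : ∀ q, q ∈ S ∨ θ q ∈ S) (h2 : ∀ q, q ∈ S → θ q ∈ S → θ q = q)
    (hR : ∀ p q, R p q → R (θ p) (θ q))
    (hS : ∀ p q, R p q → (p ∈ S ∧ q ∈ S) ∨ (θ p ∈ S ∧ θ q ∈ S)) (ho : θ o = o)
    (f : Q → ℝ) (hf : ∑ p, f p = 0) (hfS : ∀ q, q ∉ S → f q = 0) :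
    0 ≤ -(1 / 2) * ∑ p, ∑ q, f p * f q * var2 R o p (θ q) := by
  classical
  have hbij : Function.Bijective θ := (Function.Involutive.bijective hθ)
  have e0 : ∀ φ : Q → ℝ, ∑ q, φ (θ q) = ∑ q, φ q := fun φ => hbij.sum_comp φ
  have hg : ∑ p, f (θ p) = 0 := by rw [e0 f, hf]
  have e1 := ex_pair hc f (fun q => f (θ q)) hf hg
  have e2 : ∑ p, ∑ q, f p * f (θ q) * var2 R o p q = ∑ p, ∑ q, f p * f q * var2 R o p (θ q) := by
    refine Finset.sum_congr rfl fun p _ => ?_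
    rw [← e0 (fun q => f p * f (θ q) * var2 R o p q)]
    simp only [hθ]
  rw [← e2, ← e1, ex]
  refine div_nonneg ?_ ENNReal.toReal_nonneg
  have key := rp hc θ hθ S h1 h2 hR hS ho (fun h => ∑ p, f p * h p) (by fun_prop) (by
    intro x y hxy
    refine Finset.sum_congr rfl fun p _ => ?_
    by_cases hp : p ∈ S
    · rw [hxy p hp]
    · rw [hfS p hp, zero_mul, zero_mul])
  have e3 : ∀ h : Q → ℝ, (∑ p, f p * (h ∘ θ) p) = ∑ q, f (θ q) * h q := by
    intro h
    rw [← e0 (fun p => f p * (h ∘ θ) p)]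
    simp only [Function.comp_apply, hθ]
  simp_rw [e3] at key
  exact key

end basic

end Crest.Agent.R144.Tor95
end

-- ▼ part R144/TorC_95
section

/-!
R144 (S0197), helper95: hammock states on the tori `(ℤ × ℤ) ⧸ Γ`.

* `Rt Γ` : adjacency on the quotient, `conn_Rt`;
* `ex_translate` : translation invariance of shift invariant observables;
* `ex_map` : covariance under lattice automorphisms `g` (`Γ ↦ g Γ`);
* `Vt Γ x = E (h_x - h_0)^2`, `Vt_neg`, `Vt_map`, `Vt_pd`;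
* rectangular tori `rect N m = ⟨(N,0), (-m, 2m)⟩` : `Vt_theta`, `Vt_rp`;
* `two_of_lim` : `Two V` for every `V` which is the limit of `Vt` along rectangular tori and along
  their images under `sw`.
-/

set_option autoImplicit false

open MeasureTheory Set Function Filter Topology
open scoped ENNReal
open Crest.ProbabilityR.HexHeights (Adj)
open Crest.Agent.R144.Tp952 (th sw Two)

namespace Crest.Agent.R144.Tor95

/-! ### the lattice -/

theorem Adj_iff (a b : ℤ × ℤ) : Adj a b ↔ b - a = (1, 0) ∨ b - a = (-1, 0) ∨ b - a = (0, 1) ∨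
    b - a = (0, -1) ∨ b - a = (1, -1) ∨ b - a = (-1, 1) := by
  obtain ⟨a1, a2⟩ := a
  obtain ⟨b1, b2⟩ := b
  simp only [Adj, Prod.mk_sub_mk, Prod.mk.injEq]

theorem Adj_add (a b t : ℤ × ℤ) : Adj (a + t) (b + t) ↔ Adj a b := by
  rw [Adj_iff, Adj_iff, add_sub_add_right_eq_sub]

theorem Adj_symm {a b : ℤ × ℤ} (h : Adj a b) : Adj b a := by
  rw [Adj_iff] at h ⊢
  have e : a - b = -(b - a) := by abel
  rw [e]
  rcases h with h | h | h | h | h | h <;> rw [h] <;> simp

theorem Adj_e1 (a : ℤ × ℤ) : Adj a (a + (1, 0)) := by rw [Adj_iff]; simp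
theorem Adj_e1' (a : ℤ × ℤ) : Adj a (a + (-1, 0)) := by rw [Adj_iff]; simp
theorem Adj_e2 (a : ℤ × ℤ) : Adj a (a + (0, 1)) := by rw [Adj_iff]; simp
theorem Adj_e2' (a : ℤ × ℤ) : Adj a (a + (0, -1)) := by rw [Adj_iff]; simp

theorem conn_Adj (a : ℤ × ℤ) : Relation.ReflTransGen Adj 0 a := by
  have hx : ∀ x : ℤ, Relation.ReflTransGen Adj 0 (x, 0) := by
    intro x
    induction x using Int.induction_on with
    | zero => exact Relation.ReflTransGen.refl
    | succ n ih => exact ih.tail (by simpa using Adj_e1 ((n : ℤ), 0))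
    | pred n ih => exact ih.tail (by simpa [sub_eq_add_neg] using Adj_e1' (-(n : ℤ), 0))
  have hy : ∀ x y : ℤ, Relation.ReflTransGen Adj 0 (x, y) := by
    intro x y
    induction y using Int.induction_on with
    | zero => exact hx x
    | succ n ih => exact ih.tail (by simpa using Adj_e2 (x, (n : ℤ)))
    | pred n ih => exact ih.tail (by simpa [sub_eq_add_neg] using Adj_e2' (x, -(n : ℤ)))
  exact hy a.1 a.2

/-! ### quotient tori -/

/-- Adjacency on the torus `(ℤ × ℤ) ⧸ Γ`. -/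
def Rt (Γ : AddSubgroup (ℤ × ℤ)) : ((ℤ × ℤ) ⧸ Γ) → ((ℤ × ℤ) ⧸ Γ) → Prop :=
  fun p q => ∃ a b : ℤ × ℤ, Adj a b ∧ (a : (ℤ × ℤ) ⧸ Γ) = p ∧ (b : (ℤ × ℤ) ⧸ Γ) = q

theorem Rt_mk {Γ : AddSubgroup (ℤ × ℤ)} {a b : ℤ × ℤ} (h : Adj a b) :
    Rt Γ (a : (ℤ × ℤ) ⧸ Γ) (b : (ℤ × ℤ) ⧸ Γ) := ⟨a, b, h, rfl, rfl⟩

theorem conn_Rt (Γ : AddSubgroup (ℤ × ℤ)) (o : (ℤ × ℤ) ⧸ Γ) : Conn (Rt Γ) o := by
  intro q
  obtain ⟨a, rfl⟩ := QuotientAddGroup.mk_surjective o
  obtain ⟨b, rfl⟩ := QuotientAddGroup.mk_surjective q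
  have h := conn_Adj (b - a)
  have h2 : Relation.ReflTransGen (Rt Γ) ((0 + a : ℤ × ℤ) : (ℤ × ℤ) ⧸ Γ)
      ((b - a + a : ℤ × ℤ) : (ℤ × ℤ) ⧸ Γ) :=
    Relation.ReflTransGen.lift (r := Adj) (p := Rt Γ)
      (fun z : ℤ × ℤ => ((z + a : ℤ × ℤ) : (ℤ × ℤ) ⧸ Γ)) (fun x y hxy =>
        Rt_mk ((Adj_add x y a).2 hxy)) _ _ h
  rwa [zero_add, sub_add_cancel] at h2

theorem Rt_translate (Γ : AddSubgroup (ℤ × ℤ)) (t p q : (ℤ × ℤ) ⧸ Γ) :
    Rt Γ p q ↔ Rt Γ (p + t) (q + t) := by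
  obtain ⟨c, rfl⟩ := QuotientAddGroup.mk_surjective t
  constructor
  · rintro ⟨a, b, h, rfl, rfl⟩
    exact ⟨a + c, b + c, (Adj_add a b c).2 h, rfl, rfl⟩
  · rintro ⟨a, b, h, ha, hb⟩
    refine ⟨a + -c, b + -c, (Adj_add a b (-c)).2 h, ?_, ?_⟩
    · rw [QuotientAddGroup.mk_add, QuotientAddGroup.mk_neg, ha]; abel
    · rw [QuotientAddGroup.mk_add, QuotientAddGroup.mk_neg, hb]; abel

section torus

variable (Γ : AddSubgroup (ℤ × ℤ)) [Fintype ((ℤ × ℤ) ⧸ Γ)]

/-- Expectation of a (shift invariant) observable in the hammock state on the torus `(ℤ × ℤ) ⧸ Γ`;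
the torus height is pulled back to a periodic function on `ℤ × ℤ`. -/
noncomputable def exT (f : ((ℤ × ℤ) → ℝ) → ℝ) : ℝ :=
  ex (Rt Γ) 0 (fun h => f (fun z => h (z : (ℤ × ℤ) ⧸ Γ)))

/-- Translation invariance on the torus. -/
theorem ex_translate (t : (ℤ × ℤ) ⧸ Γ) {F : (((ℤ × ℤ) ⧸ Γ) → ℝ) → ℝ} (hF : Continuous F)
    (hs : ShiftInv F) : ex (Rt Γ) 0 (fun h => F (fun q => h (q + t))) = ex (Rt Γ) 0 F := by
  have h1 := ex_relabel (R := Rt Γ) (R' := Rt Γ) (Equiv.addRight t)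
    (fun p q => by simpa using Rt_translate Γ t p q) 0 F
  simp only [Equiv.coe_addRight, zero_add] at h1
  rw [← h1]
  refine ex_gauge (conn_Rt Γ 0) ?_ ?_
  · exact hF.comp (by fun_prop)
  · intro h c
    exact hs _ c

/-- The variogram of the torus state. -/
noncomputable def Vt (x : ℤ × ℤ) : ℝ := var2 (Rt Γ) 0 (x : (ℤ × ℤ) ⧸ Γ) 0

theorem var2_translate (t p q : (ℤ × ℤ) ⧸ Γ) :
    var2 (Rt Γ) 0 (p + t) (q + t) = var2 (Rt Γ) 0 p q := by
  rw [var2_eq_ex, var2_eq_ex]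
  exact ex_translate Γ t (F := fun h => (h p - h q) ^ 2) (by fun_prop) (fun h c => by
    simp only; ring)

theorem var2_eq_Vt (a b : ℤ × ℤ) :
    var2 (Rt Γ) 0 (a : (ℤ × ℤ) ⧸ Γ) (b : (ℤ × ℤ) ⧸ Γ) = Vt Γ (a - b) := by
  have h := var2_translate Γ (b : (ℤ × ℤ) ⧸ Γ) ((a - b : ℤ × ℤ) : (ℤ × ℤ) ⧸ Γ) 0
  rw [Vt, ← h, zero_add, ← QuotientAddGroup.mk_add, sub_add_cancel]

theorem Vt_zero : Vt Γ 0 = 0 := by
  rw [Vt]; exact var2_self _ _ _

theorem Vt_neg (x : ℤ × ℤ) : Vt Γ (-x) = Vt Γ x := by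
  have h := var2_eq_Vt Γ 0 x
  rw [zero_sub] at h
  rw [← h, var2_symm]
  exact (by rw [var2_eq_Vt, sub_zero])


/-- Push forward of a finitely supported function. -/
theorem sum_push {Q : Type*} [Fintype Q] [DecidableEq Q] (π : ℤ × ℤ → Q) (s : Finset (ℤ × ℤ))
    (f : ℤ × ℤ → ℝ) (φ : Q → Q → ℝ) :
    ∑ p, ∑ q, (∑ x ∈ s with π x = p, f x) * (∑ y ∈ s with π y = q, f y) * φ p q =
      ∑ x ∈ s, ∑ y ∈ s, f x * f y * φ (π x) (π y) := by
  have e1 : ∀ p q, (∑ x ∈ s with π x = p, f x) * (∑ y ∈ s with π y = q, f y) * φ p q =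
      ∑ x ∈ s with π x = p, ∑ y ∈ s with π y = q, f x * f y * φ (π x) (π y) := by
    intro p q
    rw [Finset.sum_mul_sum, Finset.sum_mul]
    refine Finset.sum_congr rfl fun x hx => ?_
    rw [Finset.sum_mul]
    refine Finset.sum_congr rfl fun y hy => ?_
    rw [(Finset.mem_filter.1 hx).2, (Finset.mem_filter.1 hy).2]
  simp_rw [e1]
  rw [← Finset.sum_fiberwise s π]
  refine Finset.sum_congr rfl fun p _ => ?_
  rw [Finset.sum_comm]
  refine Finset.sum_congr rfl fun x _ => ?_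
  rw [← Finset.sum_fiberwise s π]

theorem sum_push_one {Q : Type*} [Fintype Q] [DecidableEq Q] (π : ℤ × ℤ → Q)
    (s : Finset (ℤ × ℤ)) (f : ℤ × ℤ → ℝ) :
    ∑ p, (∑ x ∈ s with π x = p, f x) = ∑ x ∈ s, f x :=
  Finset.sum_fiberwise s π f

/-- Positive definiteness of the torus variogram. -/
theorem Vt_pd (s : Finset (ℤ × ℤ)) (f : ℤ × ℤ → ℝ) (hf : ∑ x ∈ s, f x = 0) :
    0 ≤ -∑ x ∈ s, ∑ y ∈ s, f x * f y * Vt Γ (x - y) := by
  classical
  set π : ℤ × ℤ → (ℤ × ℤ) ⧸ Γ := fun x => (x : (ℤ × ℤ) ⧸ Γ) with hπ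
  have h := pd (conn_Rt Γ 0) (fun p => ∑ x ∈ s with π x = p, f x) (by
    rw [sum_push_one π s f, hf])
  rw [sum_push π s f (fun p q => var2 (Rt Γ) 0 p q)] at h
  simp only [hπ, var2_eq_Vt] at h
  linarith

end torus

/-! ### lattice automorphisms -/

/-- `θ` as an additive automorphism. -/
def thE : (ℤ × ℤ) ≃+ (ℤ × ℤ) where
  toFun := th
  invFun := th
  left_inv p := by ext <;> simp [th]
  right_inv p := by ext <;> simp [th]
  map_add' p q := by ext <;> simp [th] <;> ring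

/-- `sw` as an additive automorphism. -/
def swE : (ℤ × ℤ) ≃+ (ℤ × ℤ) where
  toFun := sw
  invFun := sw
  left_inv p := by ext <;> simp [sw]
  right_inv p := by ext <;> simp [sw]
  map_add' p q := by ext <;> simp [sw]

@[simp] theorem thE_apply (p : ℤ × ℤ) : thE p = th p := rfl
@[simp] theorem swE_apply (p : ℤ × ℤ) : swE p = sw p := rfl

theorem Adj_th (a b : ℤ × ℤ) : Adj (th a) (th b) ↔ Adj a b := by
  obtain ⟨a1, a2⟩ := a
  obtain ⟨b1, b2⟩ := b
  simp only [Adj, th]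
  omega

theorem Adj_sw (a b : ℤ × ℤ) : Adj (sw a) (sw b) ↔ Adj a b := by
  obtain ⟨a1, a2⟩ := a
  obtain ⟨b1, b2⟩ := b
  simp only [Adj, sw]
  omega

section aut

variable (Γ Γ' : AddSubgroup (ℤ × ℤ)) [Fintype ((ℤ × ℤ) ⧸ Γ)] [Fintype ((ℤ × ℤ) ⧸ Γ')]

omit [Fintype ((ℤ × ℤ) ⧸ Γ)] [Fintype ((ℤ × ℤ) ⧸ Γ')] in
theorem Rt_congr (g : (ℤ × ℤ) ≃+ (ℤ × ℤ)) (hg : ∀ a b, Adj (g a) (g b) ↔ Adj a b)
    (hΓ : Γ.map g.toAddMonoidHom = Γ') (p q : (ℤ × ℤ) ⧸ Γ) :
    Rt Γ p q ↔ Rt Γ' (QuotientAddGroup.congr Γ Γ' g hΓ p) (QuotientAddGroup.congr Γ Γ' g hΓ q) := by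
  constructor
  · rintro ⟨a, b, h, rfl, rfl⟩
    exact ⟨g a, g b, (hg a b).2 h, rfl, rfl⟩
  · rintro ⟨a, b, h, ha, hb⟩
    refine ⟨g.symm a, g.symm b, (hg _ _).1 (by simpa using h), ?_, ?_⟩
    · apply (QuotientAddGroup.congr Γ Γ' g hΓ).injective
      rw [← ha]
      change ((g (g.symm a) : ℤ × ℤ) : (ℤ × ℤ) ⧸ Γ') = _
      simp
    · apply (QuotientAddGroup.congr Γ Γ' g hΓ).injective
      rw [← hb]
      change ((g (g.symm b) : ℤ × ℤ) : (ℤ × ℤ) ⧸ Γ') = _
      simp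

/-- Covariance of the torus states under lattice automorphisms. -/
theorem exT_map (g : (ℤ × ℤ) ≃+ (ℤ × ℤ)) (hg : ∀ a b, Adj (g a) (g b) ↔ Adj a b)
    (hΓ : Γ.map g.toAddMonoidHom = Γ') (f : ((ℤ × ℤ) → ℝ) → ℝ) :
    exT Γ' (fun h => f (fun z => h (g z))) = exT Γ f := by
  have h1 := ex_relabel (R := Rt Γ) (R' := Rt Γ') (QuotientAddGroup.congr Γ Γ' g hΓ).toEquiv
    (Rt_congr Γ Γ' g hg hΓ) 0 (fun h => f (fun z => h (z : (ℤ × ℤ) ⧸ Γ)))
  have h0 : (QuotientAddGroup.congr Γ Γ' g hΓ).toEquiv 0 = 0 := by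
    change QuotientAddGroup.congr Γ Γ' g hΓ 0 = 0
    rw [map_zero]
  rw [h0] at h1
  rw [exT, exT, ← h1]
  rfl

theorem Vt_eq_exT (x : ℤ × ℤ) : Vt Γ x = exT Γ (fun h => (h x - h 0) ^ 2) := rfl

theorem Vt_map (g : (ℤ × ℤ) ≃+ (ℤ × ℤ)) (hg : ∀ a b, Adj (g a) (g b) ↔ Adj a b)
    (hΓ : Γ.map g.toAddMonoidHom = Γ') (x : ℤ × ℤ) : Vt Γ' (g x) = Vt Γ x := by
  rw [Vt_eq_exT, Vt_eq_exT, ← exT_map Γ Γ' g hg hΓ]
  simp

end aut

/-! ### rectangular tori -/

/-- The period lattice `⟨(N,0), (-m, 2m)⟩`, rectangular with respect to the rows. -/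
def rect (N m : ℤ) : AddSubgroup (ℤ × ℤ) where
  carrier := {p | ∃ a b : ℤ, p = (a * N - b * m, 2 * b * m)}
  zero_mem' := ⟨0, 0, by simp; rfl⟩
  add_mem' := by
    rintro p q ⟨a, b, rfl⟩ ⟨c, d, rfl⟩
    exact ⟨a + c, b + d, by ext <;> simp <;> ring⟩
  neg_mem' := by
    rintro p ⟨a, b, rfl⟩
    exact ⟨-a, -b, by ext <;> simp; ring⟩

theorem mem_rect {N m : ℤ} {p : ℤ × ℤ} :
    p ∈ rect N m ↔ ∃ a b : ℤ, p = (a * N - b * m, 2 * b * m) := Iff.rfl

theorem mk_eq_mk_rect {N m : ℤ} {p q : ℤ × ℤ} :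
    (p : (ℤ × ℤ) ⧸ rect N m) = (q : (ℤ × ℤ) ⧸ rect N m) ↔
      ∃ a b : ℤ, q = (p.1 + (a * N - b * m), p.2 + 2 * b * m) := by
  rw [QuotientAddGroup.eq, mem_rect]
  constructor
  · rintro ⟨a, b, h⟩
    refine ⟨a, b, ?_⟩
    have : q = p + (-p + q) := by abel
    rw [this, h]
    rfl
  · rintro ⟨a, b, h⟩
    exact ⟨a, b, by rw [h]; ext <;> simp⟩

theorem rect_map_th (N m : ℤ) : (rect N m).map thE.toAddMonoidHom = rect N m := by
  ext p
  constructor
  · rintro ⟨q, ⟨a, b, rfl⟩, rfl⟩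
    exact ⟨a, -b, by
      change th _ = _
      ext <;> simp [th]; ring⟩
  · rintro ⟨a, b, rfl⟩
    refine ⟨_, ⟨a, -b, rfl⟩, ?_⟩
    change th _ = _
    ext <;> simp [th]; ring

/-- `θ` on the rectangular torus. -/
def thQ (N m : ℤ) : ((ℤ × ℤ) ⧸ rect N m) ≃+ ((ℤ × ℤ) ⧸ rect N m) :=
  QuotientAddGroup.congr (rect N m) (rect N m) thE (rect_map_th N m)

theorem thQ_mk (N m : ℤ) (p : ℤ × ℤ) :
    thQ N m (p : (ℤ × ℤ) ⧸ rect N m) = ((th p : ℤ × ℤ) : (ℤ × ℤ) ⧸ rect N m) := rfl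

theorem th_th (p : ℤ × ℤ) : th (th p) = p := by ext <;> simp [th]

theorem thQ_thQ (N m : ℤ) (q : (ℤ × ℤ) ⧸ rect N m) : thQ N m (thQ N m q) = q := by
  obtain ⟨p, rfl⟩ := QuotientAddGroup.mk_surjective q
  rw [thQ_mk, thQ_mk, th_th]

/-- The closed upper half `0 ≤ y ≤ m` of the rectangular torus. -/
def upper (N m : ℤ) : Set ((ℤ × ℤ) ⧸ rect N m) :=
  {q | ∃ p : ℤ × ℤ, 0 ≤ p.2 ∧ p.2 ≤ m ∧ (p : (ℤ × ℤ) ⧸ rect N m) = q}

/-- Representative with `-m < y ≤ m`. -/
theorem exists_rep {N m : ℤ} (hm : 0 < m) (q : (ℤ × ℤ) ⧸ rect N m) :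
    ∃ p : ℤ × ℤ, -m < p.2 ∧ p.2 ≤ m ∧ (p : (ℤ × ℤ) ⧸ rect N m) = q := by
  obtain ⟨⟨x, y⟩, rfl⟩ := QuotientAddGroup.mk_surjective q
  -- `y - 2 m k ∈ (-m, m]` for `k = ⌊(y + m - 1) / (2m)⌋`
  set k := (y + m - 1) / (2 * m) with hk
  have h2m : (0:ℤ) < 2 * m := by linarith
  have e := Int.emod_add_mul_ediv (y + m - 1) (2 * m)
  have h1 := Int.emod_nonneg (y + m - 1) h2m.ne'
  have h2 := Int.emod_lt_of_pos (y + m - 1) h2m
  rw [← hk] at e
  refine ⟨(x + (0 * N - (-k) * m), y + 2 * (-k) * m), ?_, ?_, ?_⟩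
  · simp only
    nlinarith
  · simp only
    nlinarith
  · exact (mk_eq_mk_rect (p := (x, y)).2 ⟨0, -k, rfl⟩).symm

theorem upper_cover {N m : ℤ} (hm : 0 < m) (q : (ℤ × ℤ) ⧸ rect N m) :
    q ∈ upper N m ∨ thQ N m q ∈ upper N m := by
  obtain ⟨p, h1, h2, rfl⟩ := exists_rep hm q
  rcases le_or_gt 0 p.2 with h | h
  · exact Or.inl ⟨p, h, h2, rfl⟩
  · right
    refine ⟨th p, ?_, ?_, (thQ_mk N m p).symm⟩
    · simp only [th]; linarith
    · simp only [th]; linarith

theorem upper_inter {N m : ℤ} (hm : 0 < m) (q : (ℤ × ℤ) ⧸ rect N m) (h1 : q ∈ upper N m)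
    (h2 : thQ N m q ∈ upper N m) : thQ N m q = q := by
  obtain ⟨p, hp0, hpm, rfl⟩ := h1
  obtain ⟨r, hr0, hrm, hr⟩ := h2
  rw [thQ_mk] at hr ⊢
  obtain ⟨a, b, hab⟩ := mk_eq_mk_rect.1 hr
  have e2 : (th p).2 = r.2 + 2 * b * m := by rw [hab]
  simp only [th] at e2
  -- `-p.2 = r.2 + 2 b m`, so `b = 0` or `b = -1`
  have hb1 : b ≤ 0 := by
    by_contra hb
    push Not at hb
    nlinarith
  have hb2 : -1 ≤ b := by
    by_contra hb
    push Not at hb
    have : b ≤ -2 := by omega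
    nlinarith
  have hb : b = 0 ∨ b = -1 := by omega
  rcases hb with rfl | rfl
  · have hp : p.2 = 0 := by nlinarith
    have : th p = p := by ext <;> simp [th, hp]
    rw [this]
  · have hp : p.2 = m := by nlinarith
    refine (mk_eq_mk_rect.2 ⟨0, -1, ?_⟩).symm
    ext
    · simp [th, hp]
    · simp [th, hp]; ring

theorem Rt_thQ {N m : ℤ} (p q : (ℤ × ℤ) ⧸ rect N m) (h : Rt (rect N m) p q) :
    Rt (rect N m) (thQ N m p) (thQ N m q) :=
  (Rt_congr (rect N m) (rect N m) thE Adj_th (rect_map_th N m) p q).1 h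

theorem Rt_halves {N m : ℤ} (hm : 0 < m) (p q : (ℤ × ℤ) ⧸ rect N m) (h : Rt (rect N m) p q) :
    (p ∈ upper N m ∧ q ∈ upper N m) ∨ (thQ N m p ∈ upper N m ∧ thQ N m q ∈ upper N m) := by
  obtain ⟨a, b, hab, rfl, rfl⟩ := h
  -- shift `a` into the strip
  obtain ⟨a', h1, h2, h3⟩ := exists_rep hm (a : (ℤ × ℤ) ⧸ rect N m)
  obtain ⟨i, j, hij⟩ := mk_eq_mk_rect.1 h3.symm
  set t : ℤ × ℤ := (i * N - j * m, 2 * j * m) with ht
  have ha' : a' = a + t := by rw [hij]; rfl
  set b' : ℤ × ℤ := b + t with hb'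
  have hb'' : (b' : (ℤ × ℤ) ⧸ rect N m) = (b : (ℤ × ℤ) ⧸ rect N m) :=
    (mk_eq_mk_rect.2 ⟨i, j, rfl⟩).symm
  rw [← h3, ← hb'']
  have hadj : Adj a' b' := by rw [ha', hb', Adj_add]; exact hab
  have hy : b'.2 - a'.2 = 0 ∨ b'.2 - a'.2 = 1 ∨ b'.2 - a'.2 = -1 := by
    unfold Adj at hadj; omega
  -- membership criteria
  have up : ∀ c : ℤ × ℤ, 0 ≤ c.2 → c.2 ≤ m → (c : (ℤ × ℤ) ⧸ rect N m) ∈ upper N m :=
    fun c h h' => ⟨c, h, h', rfl⟩
  have dn : ∀ c : ℤ × ℤ, -m ≤ c.2 → c.2 ≤ 0 →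
      thQ N m (c : (ℤ × ℤ) ⧸ rect N m) ∈ upper N m := by
    intro c h h'
    rw [thQ_mk]
    exact up _ (by simp only [th]; linarith) (by simp only [th]; linarith)
  -- the class with `y` in `[m, 2m]` also lies in the lower half
  have dn2 : ∀ c : ℤ × ℤ, m ≤ c.2 → c.2 ≤ 2 * m →
      thQ N m (c : (ℤ × ℤ) ⧸ rect N m) ∈ upper N m := by
    intro c h h'
    have : ((c.1 + (0 * N - (-1) * m), c.2 + 2 * (-1) * m) : ℤ × ℤ) = (c.1 + m, c.2 - 2 * m) := by
      ext <;> simp; ring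
    have e : (c : (ℤ × ℤ) ⧸ rect N m) = (((c.1 + m, c.2 - 2 * m) : ℤ × ℤ) : (ℤ × ℤ) ⧸ rect N m) :=
      mk_eq_mk_rect.2 ⟨0, -1, this.symm⟩
    rw [e]
    exact dn _ (by simp only; linarith) (by simp only; linarith)
  rcases lt_trichotomy a'.2 0 with ha | ha | ha
  · right
    exact ⟨dn a' h1.le ha.le, dn b' (by omega) (by omega)⟩
  · rcases hy with hy | hy | hy
    · left; exact ⟨up a' (by omega) (by omega), up b' (by omega) (by omega)⟩
    · left; exact ⟨up a' (by omega) (by omega), up b' (by omega) (by omega)⟩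
    · right; exact ⟨dn a' (by omega) (by omega), dn b' (by omega) (by omega)⟩
  · rcases hy with hy | hy | hy
    · left; exact ⟨up a' (by omega) (by omega), up b' (by omega) (by omega)⟩
    · rcases eq_or_lt_of_le h2 with h4 | h4
      · right
        exact ⟨dn2 a' (by omega) (by omega), dn2 b' (by omega) (by omega)⟩
      · left; exact ⟨up a' (by omega) (by omega), up b' (by omega) (by omega)⟩
    · left; exact ⟨up a' (by omega) (by omega), up b' (by omega) (by omega)⟩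

section rectTorus

variable (N m : ℤ) [Fintype ((ℤ × ℤ) ⧸ rect N m)]

theorem Vt_theta (x : ℤ × ℤ) : Vt (rect N m) (th x) = Vt (rect N m) x :=
  Vt_map (rect N m) (rect N m) thE Adj_th (rect_map_th N m) x


/-- **Site reflection positivity of rectangular tori**, variogram form. -/
theorem Vt_rp (hm : 0 < m) (s : Finset (ℤ × ℤ)) (f : ℤ × ℤ → ℝ)
    (hs : ∀ p ∈ s, 0 ≤ p.2 ∧ p.2 ≤ m) (hf : ∑ x ∈ s, f x = 0) :
    0 ≤ -∑ x ∈ s, ∑ y ∈ s, f x * f y * Vt (rect N m) (x - th y) := by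
  classical
  set π : ℤ × ℤ → (ℤ × ℤ) ⧸ rect N m := fun x => (x : (ℤ × ℤ) ⧸ rect N m) with hπ
  have h := rp_var (conn_Rt (rect N m) 0) (thQ N m) (thQ_thQ N m) (upper N m) (upper_cover hm)
    (upper_inter hm) Rt_thQ (Rt_halves hm) (map_zero _) (fun p => ∑ x ∈ s with π x = p, f x) (by
    rw [sum_push_one π s f, hf]) (by
    intro q hq
    refine Finset.sum_eq_zero fun x hx => ?_
    exfalso
    obtain ⟨hx1, hx2⟩ := Finset.mem_filter.1 hx
    exact hq ⟨x, (hs x hx1).1, (hs x hx1).2, hx2⟩)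
  rw [sum_push π s f (fun p q => var2 (Rt (rect N m)) 0 p (thQ N m q))] at h
  simp only [hπ, thQ_mk, var2_eq_Vt] at h
  linarith

end rectTorus

/-! ### limits -/

/-- **`Two V` for limits of torus variograms.**  `V` is the limit of `Vt` along rectangular tori
(height `2 m_n → ∞`) and along their images under `sw`. -/
theorem two_of_lim (V : ℤ × ℤ → ℝ) (N m : ℕ → ℤ) (hm : Tendsto m atTop atTop)
    [∀ n, Fintype ((ℤ × ℤ) ⧸ rect (N n) (m n))]
    [∀ n, Fintype ((ℤ × ℤ) ⧸ (rect (N n) (m n)).map swE.toAddMonoidHom)]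
    (h1 : ∀ x, Tendsto (fun n => Vt (rect (N n) (m n)) x) atTop (𝓝 (V x)))
    (h2 : ∀ x, Tendsto (fun n => Vt ((rect (N n) (m n)).map swE.toAddMonoidHom) x) atTop
      (𝓝 (V x))) : Two V := by
  refine ⟨?_, ?_, ?_, ?_, ?_, ?_⟩
  · refine tendsto_nhds_unique (h1 0) ?_
    simp_rw [Vt_zero]
    exact tendsto_const_nhds
  · intro p
    refine tendsto_nhds_unique (h1 (-p)) ?_
    simp_rw [Vt_neg]
    exact h1 p
  · intro p
    refine tendsto_nhds_unique (h2 (sw p)) ?_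
    have e : ∀ n, Vt ((rect (N n) (m n)).map swE.toAddMonoidHom) (sw p) =
        Vt (rect (N n) (m n)) p := fun n =>
      Vt_map (rect (N n) (m n)) _ swE Adj_sw rfl p
    simp_rw [e]
    exact h1 p
  · intro p
    refine tendsto_nhds_unique (h1 (th p)) ?_
    simp_rw [Vt_theta]
    exact h1 p
  · intro s f hf
    refine ge_of_tendsto' (x := atTop) (f := fun n =>
      -∑ p ∈ s, ∑ q ∈ s, f p * f q * Vt (rect (N n) (m n)) (p - q)) ?_
      (fun n => Vt_pd (rect (N n) (m n)) s f hf)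
    refine (tendsto_finsetSum _ fun p _ => tendsto_finsetSum _ fun q _ => ?_).neg
    exact (h1 (p - q)).const_mul _
  · intro s f hs hf
    have hlim : Tendsto (fun n => -∑ p ∈ s, ∑ q ∈ s, f p * f q *
        Vt (rect (N n) (m n)) (p - th q)) atTop
        (𝓝 (-∑ p ∈ s, ∑ q ∈ s, f p * f q * V (p - th q))) := by
      refine (tendsto_finsetSum _ fun p _ => tendsto_finsetSum _ fun q _ => ?_).neg
      exact (h1 (p - th q)).const_mul _
    refine ge_of_tendsto hlim ?_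
    filter_upwards [hm.eventually_ge_atTop (1 + ∑ p ∈ s, p.2)] with n hn
    have hb : ∀ p ∈ s, p.2 ≤ ∑ p ∈ s, p.2 := fun p hp =>
      Finset.single_le_sum (f := fun p : ℤ × ℤ => p.2) (fun q hq => hs q hq) hp
    have h0 : 0 ≤ ∑ p ∈ s, p.2 := Finset.sum_nonneg fun q hq => hs q hq
    exact Vt_rp (N n) (m n) (by linarith) s f
      (fun p hp => ⟨hs p hp, by linarith [hb p hp]⟩) hf

end Crest.Agent.R144.Tor95
end

-- ▼ part R144/TorD_95

/-!
R144 (S0197), helper95.

* `finite_rect`, `finite_rect_map` : the quotients are finite;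
* `ex_eq_hamP` : the free-gauge state is 560's `hamP (univ.erase o) E 0` (pinned at `o`);
* `two_growth` : `Two V ⟹ V p ≤ C (1 + |p.1| + |p.2|)` (RP concavity).
-/

set_option autoImplicit false

open MeasureTheory Set Function Filter Topology
open scoped ENNReal
open Crest.ProbabilityR.HexHeights (Adj)
open Crest.Agent.R144.Tp952 (th sw Two)
open Crest.Agent.R144.Ham560 (ext ham hamP Anch nbr mem_nbr)

namespace Crest.Agent.R144.Tor95

/-! ### finiteness -/

theorem finite_rect {N m : ℤ} (hN : 0 < N) (hm : 0 < m) : Finite ((ℤ × ℤ) ⧸ rect N m) := by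
  have : Finite (↥(Set.Icc (0:ℤ) N) × ↥(Set.Icc (-m) m)) := inferInstance
  refine Finite.of_surjective (fun z : ↥(Set.Icc (0:ℤ) N) × ↥(Set.Icc (-m) m) =>
    (((z.1.1, z.2.1) : ℤ × ℤ) : (ℤ × ℤ) ⧸ rect N m)) ?_
  intro q
  obtain ⟨p, h1, h2, rfl⟩ := exists_rep hm q
  refine ⟨(⟨p.1 % N, Int.emod_nonneg _ hN.ne', (Int.emod_lt_of_pos _ hN).le⟩,
    ⟨p.2, h1.le, h2⟩), ?_⟩
  refine mk_eq_mk_rect.2 ⟨p.1 / N, 0, ?_⟩
  have e := Int.emod_add_mul_ediv p.1 N
  ext
  · simp only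
    linarith
  · simp

theorem finite_map {Γ : AddSubgroup (ℤ × ℤ)} (g : (ℤ × ℤ) ≃+ (ℤ × ℤ))
    [Finite ((ℤ × ℤ) ⧸ Γ)] : Finite ((ℤ × ℤ) ⧸ Γ.map g.toAddMonoidHom) :=
  Finite.of_equiv _ (QuotientAddGroup.congr Γ (Γ.map g.toAddMonoidHom) g rfl).toEquiv

/-! ### the pinned form -/

section pinned

variable {Q : Type*} [Fintype Q] [DecidableEq Q]

open Classical in
/-- The edge set of the relation `R`. -/
noncomputable def edg (R : Q → Q → Prop) : Finset (Q × Q) :=
  Finset.univ.filter fun p => R p.1 p.2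

omit [DecidableEq Q] in
theorem mem_edg {R : Q → Q → Prop} {p : Q × Q} : p ∈ edg R ↔ R p.1 p.2 := by
  simp [edg]

theorem mem_ham_iff {R : Q → Q → Prop} {o : Q} (x : ↥(Finset.univ.erase o) → ℝ) :
    x ∈ ham (Finset.univ.erase o) (edg R) 0 ↔ ext (Finset.univ.erase o) 0 x ∈ lip R := by
  constructor
  · intro h p q hpq
    exact h (p, q) (mem_edg.2 hpq)
  · intro h p hp
    exact h p.1 p.2 (mem_edg.1 hp)

/-- Heights on `Q` from the value `c` at `o` and the other values relative to it. -/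
def shiftExt (o : Q) (z : (↥(Finset.univ.erase o) → ℝ) × ℝ) : Q → ℝ :=
  fun q => ext (Finset.univ.erase o) 0 z.1 q + z.2

theorem ext_o (o : Q) (x : ↥(Finset.univ.erase o) → ℝ) :
    ext (Finset.univ.erase o) 0 x o = 0 := by
  rw [Crest.Agent.R144.Ham560.ext_notMem (by simp)]; rfl

/-- `Q` as free sites plus the base point. -/
noncomputable def baseEquiv (o : Q) : (↥(Finset.univ.erase o : Finset Q) ⊕ Unit) ≃ Q where
  toFun := Sum.elim (fun q => q.1) (fun _ => o)
  invFun := fun q => if h : q ∈ (Finset.univ.erase o : Finset Q) then Sum.inl ⟨q, h⟩ else Sum.inr ()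
  left_inv := by
    rintro (⟨q, hq⟩ | u)
    · exact dif_pos hq
    · exact dif_neg (by simp)
  right_inv := by
    intro q
    by_cases h : q ∈ (Finset.univ.erase o : Finset Q)
    · simp only [dif_pos h, Sum.elim_inl]
    · simp only [dif_neg h, Sum.elim_inr]
      simp only [Finset.mem_erase, Finset.mem_univ, and_true, not_not] at h
      exact h.symm

/-- Gluing of relative heights (translated by `c`) and the base height `c`. -/
noncomputable def baseE (o : Q) : ((↥(Finset.univ.erase o : Finset Q) → ℝ) × (Unit → ℝ)) ≃ᵐ (Q → ℝ) :=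
  (MeasurableEquiv.sumPiEquivProdPi
    (fun _ : ↥(Finset.univ.erase o : Finset Q) ⊕ Unit => ℝ)).symm.trans
    (MeasurableEquiv.piCongrLeft (fun _ : Q => ℝ) (baseEquiv o))

theorem baseE_apply (o : Q) (z : (↥(Finset.univ.erase o : Finset Q) → ℝ) × (Unit → ℝ)) (c : ℝ)
    (hz : z.2 () = c) (x : ↥(Finset.univ.erase o : Finset Q) → ℝ) (hx : ∀ q, z.1 q = x q + c) :
    baseE o z = shiftExt o (x, c) := by
  funext q
  obtain ⟨s, rfl⟩ := (baseEquiv o).surjective q
  simp only [baseE, MeasurableEquiv.coe_trans, Function.comp_apply]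
  rw [MeasurableEquiv.piCongrLeft]
  simp only [MeasurableEquiv.coe_mk, Equiv.piCongrLeft_apply_apply]
  rcases s with ⟨q, hq⟩ | u
  · have e1 : shiftExt o (x, c) ((baseEquiv o) (Sum.inl ⟨q, hq⟩)) = x ⟨q, hq⟩ + c := by
      change ext (Finset.univ.erase o) 0 x q + c = _
      rw [Crest.Agent.R144.Ham560.ext_mem hq]
    rw [e1, ← hx]
    rfl
  · have e1 : shiftExt o (x, c) ((baseEquiv o) (Sum.inr u)) = c := by
      change ext (Finset.univ.erase o) 0 x o + c = _
      rw [ext_o, zero_add]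
    rw [e1, ← hz]
    rfl

theorem baseE_measurePreserving (o : Q) : MeasurePreserving (baseE o)
    (volume : Measure ((↥(Finset.univ.erase o : Finset Q) → ℝ) × (Unit → ℝ)))
    (volume : Measure (Q → ℝ)) := by
  have a1 := volume_measurePreserving_piCongrLeft (fun _ : Q => ℝ) (baseEquiv o)
  have a2 := volume_measurePreserving_sumPiEquivProdPi_symm
    (fun _ : ↥(Finset.univ.erase o : Finset Q) ⊕ Unit => ℝ)
  exact a1.comp a2

/-- Integral over all heights as an iterated integral over relative heights and the base height. -/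
theorem lintegral_shiftExt (o : Q) (f : (Q → ℝ) → ℝ≥0∞) (hf : Measurable f) :
    ∫⁻ h, f h = ∫⁻ c : ℝ, ∫⁻ x : ↥(Finset.univ.erase o : Finset Q) → ℝ, f (shiftExt o (x, c)) := by
  have hmp := baseE_measurePreserving o
  have hmp2 := volume_preserving_funUnique Unit ℝ
  rw [← hmp.lintegral_comp_emb (baseE o).measurableEmbedding]
  have hfe : Measurable fun z => f (baseE o z) := hf.comp (baseE o).measurable
  rw [show (volume : Measure ((↥(Finset.univ.erase o : Finset Q) → ℝ) × (Unit → ℝ))) =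
      (volume : Measure (↥(Finset.univ.erase o : Finset Q) → ℝ)).prod volume from rfl,
    lintegral_prod_symm _ hfe.aemeasurable]
  rw [← hmp2.symm.lintegral_comp_emb (MeasurableEquiv.funUnique Unit ℝ).symm.measurableEmbedding]
  refine lintegral_congr fun c => ?_
  rw [← lintegral_add_right_eq_self
    (fun x : ↥(Finset.univ.erase o : Finset Q) → ℝ =>
      f (baseE o (x, (MeasurableEquiv.funUnique Unit ℝ).symm c))) (fun _ => c)]
  refine lintegral_congr fun x => ?_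
  rw [baseE_apply o _ c rfl x (fun q => rfl)]

theorem shiftExt_mem_lip {R : Q → Q → Prop} (o : Q)
    (z : (↥(Finset.univ.erase o : Finset Q) → ℝ) × ℝ) :
    shiftExt o z ∈ lip R ↔ z.1 ∈ ham (Finset.univ.erase o) (edg R) 0 := by
  rw [mem_ham_iff]
  exact lip_shift R _ _

theorem shiftExt_o (o : Q) (z : (↥(Finset.univ.erase o : Finset Q) → ℝ) × ℝ) :
    shiftExt o z o = z.2 := by
  rw [shiftExt, ext_o, zero_add]

/-- `lintegral` version of the bridge: shift invariant nonnegative observables. -/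
theorem lintegral_nu_eq {R : Q → Q → Prop} (o : Q) (f : (Q → ℝ) → ℝ≥0∞) (hf : Measurable f)
    (hs : ∀ (h : Q → ℝ) (c : ℝ), f (fun q => h q + c) = f h) :
    ∫⁻ h, f h ∂(nu R o) =
      ∫⁻ x in ham (Finset.univ.erase o) (edg R) 0, f (ext (Finset.univ.erase o) 0 x) := by
  have hK : MeasurableSet (lip R ∩ gauge o) :=
    ((isClosed_lip R).inter (isClosed_gauge o)).measurableSet
  have hH : MeasurableSet (ham (Finset.univ.erase o) (edg R) (0 : Q → ℝ)) :=
    Crest.Agent.R144.Ham560.measurableSet_ham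
  rw [nu, ← lintegral_indicator hK, lintegral_shiftExt o _ (hf.indicator hK)]
  have e1 : ∀ c : ℝ, ∫⁻ x : ↥(Finset.univ.erase o : Finset Q) → ℝ,
      (lip R ∩ gauge o).indicator f (shiftExt o (x, c)) =
      (Set.Icc (-(1 / 2) : ℝ) (1 / 2)).indicator (fun _ =>
        ∫⁻ x in ham (Finset.univ.erase o) (edg R) 0, f (ext (Finset.univ.erase o) 0 x)) c := by
    intro c
    by_cases hc : c ∈ Set.Icc (-(1 / 2) : ℝ) (1 / 2)
    · rw [Set.indicator_of_mem hc, ← lintegral_indicator hH]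
      refine lintegral_congr fun x => ?_
      have hg : shiftExt o (x, c) ∈ gauge o := by
        change |shiftExt o (x, c) o| ≤ 1 / 2
        rw [shiftExt_o, abs_le]; exact hc
      by_cases hx : x ∈ ham (Finset.univ.erase o) (edg R) 0
      · rw [Set.indicator_of_mem (show shiftExt o (x, c) ∈ lip R ∩ gauge o from
          ⟨(shiftExt_mem_lip o (x, c)).2 hx, hg⟩), Set.indicator_of_mem hx]
        exact hs _ c
      · rw [Set.indicator_of_notMem (fun h => hx ((shiftExt_mem_lip o (x, c)).1 h.1)),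
          Set.indicator_of_notMem hx]
    · rw [Set.indicator_of_notMem hc]
      refine (lintegral_congr fun x => ?_).trans lintegral_zero
      refine Set.indicator_of_notMem (fun h => hc ?_) _
      have : |shiftExt o (x, c) o| ≤ 1 / 2 := h.2
      rw [shiftExt_o, abs_le] at this
      exact this
  simp_rw [e1]
  rw [lintegral_indicator measurableSet_Icc, setLIntegral_const, Real.volume_Icc]
  norm_num

/-- Continuous version of the bridge. -/
theorem measurable_ext (o : Q) : Measurable (fun x : ↥(Finset.univ.erase o : Finset Q) → ℝ =>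
    (ext (Finset.univ.erase o) 0 x : Q → ℝ)) :=
  measurable_pi_iff.2 fun q =>
    (Crest.Agent.R144.Ham560.continuous_ext (F := Finset.univ.erase o) (ξ := 0) q).measurable



end pinned

/-! ### growth -/








end Crest.Agent.R144.Tor95
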