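import Mathlib
import Crest.Agent.R144.Fin2_268
import Crest.Agent.R144.Env1_702
import Crest.Agent.R144.Lc1_830
import Crest.Agent.R144.Pst3_967
import Crest.Agent.R144.Ps1_643
import Crest.Agent.R144.TorD_95
import Crest.Agent.R144.Pst12_967
import Crest.Agent.R144.Cw10_643
import Crest.Agent.R144.Hf12_702

-- ▼ part R144/Fin3_830
section

/-! R144 (helper830): helper268's FIN block (files Fin1, Fin2) with the extended setup
`Setup + Env (702) + LC (830)`: literal S0195 / S0196 from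
`Setup → Env → LC → Inputs`. The proofs are helper268's, verbatim up to the two extra hypotheses. -/

set_option autoImplicit false

open Set Topology Filter Metric MeasureTheory
open scoped ContDiff Laplacian

namespace Crest.Agent.R144.Fin830

open Crest.ProbabilityR.HexHeights Crest.ProbabilityR.TriHeights Crest.Agent.R144.HexTil353
  Crest.Agent.R144.Geo268 Crest.Agent.R144.Cnt268 Crest.Agent.R144.Set268 Crest.Agent.R144.Fin268
open Crest.Agent.R144.It844 (intF xi Lip ex conf extF extT upT mu ex_add ex_smul ex_const ex_congr)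
open Crest.Agent.R144.Con549 (IsTest Bih)
open Crest.Agent.R144.Pst967 (integral_mu isProb_mu integrable_mu)
open Crest.Agent.R144.Cw643 (Dop Near six)
open Crest.Agent.R144.End938 (rr rad end_char char_sub_le)
open Crest.Agent.R144.Env702 (Env env_hex env_tri)
open Crest.Agent.R144.Lc830 (LC lc_hex lc_tri)

/-- the law half for the extended setup -/
def MainLawE (x κ : ℝ) : Prop :=
  ∀ (D : Set ℂ) (γ : ℝ → ℂ) (P : Finset ℂ) (δ : ℕ → ℝ) (Λ : ℕ → Finset (ℤ × ℤ))
    (τ : ℕ → ℤ × ℤ → ℤ), Setup D γ P δ Λ τ → Env D δ Λ → LC D δ Λ →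
    ∀ φ : ℂ → ℂ, DifferentiableOn ℂ φ D →
    BijOn φ D (ball (0 : ℂ) 1) → ∀ K : ℝ × ℝ → ℝ, Ker K →
    ∀ f : ℂ → ℝ, ContDiff ℝ ∞ f → HasCompactSupport f → tsupport f ⊆ D → ∀ t : ℝ,
    Tendsto (fun n => ex x (Λ n) (τ n) (fun h => Complex.exp (Complex.I *
      (t * (LX K (δ n) (Λ n) f h - mX x K (δ n) (Λ n) (τ n) f) : ℝ)))) atTop
      (𝓝 (Complex.exp (-(κ * domainGreenForm φ f * t ^ 2 / 2 : ℝ))))

/-- **S0195 from the law half (extended setup)** -/
theorem fin195E {x κ : ℝ} (hx0 : 0 < x) (hx1 : x ≤ 1) (hκ : 0 < κ) (hM : MainLawE x κ) :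
    ∃ σ : ℝ, 0 < σ ∧ ∀ (D : Set ℂ) (γ : ℝ → ℂ) (φ : ℂ → ℂ),
      IsC2JordanDomain D γ → DifferentiableOn ℂ φ D →
      Set.BijOn φ D (Metric.ball (0 : ℂ) 1) →
      ∀ (δ : ℕ → ℝ) (F : ℕ → Finset (ℤ × ℤ)),
        IsInsideApprox D γ δ F →
      ∀ f : ℂ → ℝ, ContDiff ℝ ∞ f → HasCompactSupport f → tsupport f ⊆ D →
        (∀ t : ℝ, Filter.Tendsto (fun n : ℕ => heightExpect (F n) x
            (fun h => Complex.exp (Complex.I *
              (t * pairing (δ n) f h / σ : ℝ))))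
          Filter.atTop
          (nhds (Complex.exp
            (-(domainGreenForm φ f * t ^ 2 / 2 : ℝ))))) ∧
        ∀ k : ℕ, Filter.Tendsto (fun n : ℕ => heightExpect (F n) x
            (fun h => ((pairing (δ n) f h / σ) ^ k : ℝ)))
          Filter.atTop
          (nhds ((if Even k then domainGreenForm φ f ^ (k / 2) *
              ((k - 1).doubleFactorial : ℝ) else 0 : ℝ) : ℂ)) := by
  refine ⟨Real.sqrt κ, Real.sqrt_pos.2 hκ, fun D γ φ hD hφ hb δ F hA f hf hfc hfs => ?_⟩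
  have hT : Tst D f := ⟨hf.continuous, hfc, hfs⟩
  have hs := Real.sqrt_pos.2 hκ
  have hlaw : ∀ t : ℝ, Tendsto (fun n : ℕ => heightExpect (F n) x
      (fun h => Complex.exp (Complex.I * (t * pairing (δ n) f h / Real.sqrt κ : ℝ)))) atTop
      (𝓝 (Complex.exp (-(domainGreenForm φ f * t ^ 2 / 2 : ℝ)))) := by
    intro t
    have h1 := hM D γ ∅ δ (fun n => intF (F n)) (fun _ _ => 0) (setup_hex hD hA) (env_hex hD hA) (lc_hex hD hA) φ hφ hb hexK ker_hex
      f hf hfc hfs (t / Real.sqrt κ)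
    have h2 : κ * domainGreenForm φ f * (t / Real.sqrt κ) ^ 2 / 2 =
        domainGreenForm φ f * t ^ 2 / 2 := by
      rw [div_pow, Real.sq_sqrt hκ.le]
      field_simp
    rw [h2] at h1
    refine h1.congr' ?_
    filter_upwards [hex_bridge x hD hA hT] with n hn
    have h3 := hn (fun r => Complex.exp (Complex.I * (t * r / Real.sqrt κ : ℝ)))
    rw [h3]
    refine Crest.Agent.R144.It844.ex_congr fun h _ => ?_
    rw [mX_zero, sub_zero]
    congr 3
    ring
  refine ⟨hlaw, fun k => ?_⟩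
  exact Crest.Agent.R144.Dpl702.height_moments' hx0 hx1 hA.1 hT.integrable _ hlaw k

/-- **S0196 from the law half (extended setup)** -/
theorem fin196E {κ : ℝ} (hκ : 0 < κ) (hM : MainLawE 1 κ) :
    ∃ σ : ℝ, 0 < σ ∧ ∀ (D : Set ℂ) (γ : ℝ → ℂ) (θ : ℝ) (φ : ℂ → ℂ),
      IsSmoothMarkedDomain D γ θ → DifferentiableOn ℂ φ D →
      Set.BijOn φ D (Metric.ball (0 : ℂ) 1) →
      ∀ (δ : ℕ → ℝ) (T : ℕ → Finset Tri) (ea eb : ℕ → (ℤ × ℤ) × (ℤ × ℤ)) (c : ℕ → ℝ → ℂ),
        IsMarkedApprox γ θ δ T ea eb c →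
      ∀ f : ℂ → ℝ, ContDiff ℝ ∞ f → HasCompactSupport f → tsupport f ⊆ D →
        (∀ t : ℝ, Filter.Tendsto (fun n : ℕ => twoArcExpect (T n) (arcPlus (δ n) (T n) (c n) θ) (arcMinus (δ n) (T n) (c n) θ)
            (fun H => Complex.exp (Complex.I *
              (t * (affinePairing (δ n) (T n) f (oddHeight H) -
              (twoArcExpect (T n) (arcPlus (δ n) (T n) (c n) θ) (arcMinus (δ n) (T n) (c n) θ) (fun H' => (affinePairing (δ n) (T n) f (oddHeight H') : ℂ))).re) / σ : ℝ))))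
          Filter.atTop
          (nhds (Complex.exp (-(domainGreenForm φ f * t ^ 2 / 2 : ℝ))))) ∧
        ∀ k : ℕ, Filter.Tendsto (fun n : ℕ => twoArcExpect (T n) (arcPlus (δ n) (T n) (c n) θ) (arcMinus (δ n) (T n) (c n) θ)
            (fun H => (((affinePairing (δ n) (T n) f (oddHeight H) -
              (twoArcExpect (T n) (arcPlus (δ n) (T n) (c n) θ) (arcMinus (δ n) (T n) (c n) θ) (fun H' => (affinePairing (δ n) (T n) f (oddHeight H') : ℂ))).re) / σ) ^ k : ℝ)))
          Filter.atTop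
          (nhds ((if Even k then domainGreenForm φ f ^ (k / 2) *
              ((k - 1).doubleFactorial : ℝ) else 0 : ℝ) : ℂ)) := by
  have hs := Real.sqrt_pos.2 hκ
  refine ⟨2 * Real.sqrt κ, by positivity, fun D γ θ φ hD hφ hb δ T ea eb c hA f hf hfc hfs => ?_⟩
  have hT : Tst D f := ⟨hf.continuous, hfc, hfs⟩
  set K : ℝ × ℝ → ℝ := fun p => tent p.1 p.2 with hK
  set Λ : ℕ → Finset (ℤ × ℤ) := fun n =>
    freeVerts (T n) (arcPlus (δ n) (T n) (c n) θ) (arcMinus (δ n) (T n) (c n) θ) with hΛ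
  set τ : ℕ → ℤ × ℤ → ℤ := fun n => xi (arcMinus (δ n) (T n) (c n) θ) with hτ
  have hbr := tri_bridge hD hA hT
  -- the mean
  have hmean : ∀ᶠ n in atTop,
      (twoArcExpect (T n) (arcPlus (δ n) (T n) (c n) θ) (arcMinus (δ n) (T n) (c n) θ)
        (fun H' => (affinePairing (δ n) (T n) f (oddHeight H') : ℂ))).re =
      2 * mX 1 K (δ n) (Λ n) (τ n) f + ∑ v ∈ Λ n, wK K (δ n) f v := by
    filter_upwards [hbr] with n hn
    rw [hn (fun r => (r : ℂ))]
    have hL : Lip (τ n) := Crest.Agent.R144.It844.lip_xi _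
    have e1 : ex 1 (Λ n) (τ n) (fun h => ((2 * LX K (δ n) (Λ n) f h +
        ∑ v ∈ Λ n, wK K (δ n) f v : ℝ) : ℂ)) =
        ((2 * mX 1 K (δ n) (Λ n) (τ n) f + ∑ v ∈ Λ n, wK K (δ n) f v : ℝ) : ℂ) := by
      rw [← Crest.Agent.R144.Pst967.integral_mu one_pos hL, integral_complex_ofReal,
        Crest.Agent.R144.Pst967.integral_mu one_pos hL]
      congr 1
      rw [Crest.Agent.R144.It844.ex_add, Crest.Agent.R144.It844.ex_const one_pos hL]
      congr 1
      have := Crest.Agent.R144.It844.ex_smul (x := 1) (Λ := Λ n) (τ := τ n) (2 : ℝ)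
        (LX K (δ n) (Λ n) f)
      simp only [smul_eq_mul] at this
      exact this
    rw [e1, Complex.ofReal_re]
  have hlaw : ∀ t : ℝ, Tendsto (fun n : ℕ => twoArcExpect (T n) (arcPlus (δ n) (T n) (c n) θ)
      (arcMinus (δ n) (T n) (c n) θ) (fun H => Complex.exp (Complex.I *
        (t * (affinePairing (δ n) (T n) f (oddHeight H) -
          (twoArcExpect (T n) (arcPlus (δ n) (T n) (c n) θ) (arcMinus (δ n) (T n) (c n) θ)
            (fun H' => (affinePairing (δ n) (T n) f (oddHeight H') : ℂ))).re) /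
          (2 * Real.sqrt κ) : ℝ)))) atTop
      (𝓝 (Complex.exp (-(domainGreenForm φ f * t ^ 2 / 2 : ℝ)))) := by
    intro t
    have h1 := hM D γ {γ 0, γ θ} δ Λ τ (setup_tri hD hA) (env_tri hD hA) (lc_tri hD hA) φ hφ hb K ker_tent f hf hfc hfs
      (t / Real.sqrt κ)
    have h2 : κ * domainGreenForm φ f * (t / Real.sqrt κ) ^ 2 / 2 =
        domainGreenForm φ f * t ^ 2 / 2 := by
      rw [div_pow, Real.sq_sqrt hκ.le]
      field_simp
    rw [h2] at h1
    refine h1.congr' ?_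
    filter_upwards [hbr, hmean] with n hn hm
    rw [hm]
    have h3 := hn (fun r => Complex.exp (Complex.I * (t * (r - (2 * mX 1 K (δ n) (Λ n) (τ n) f +
      ∑ v ∈ Λ n, wK K (δ n) f v)) / (2 * Real.sqrt κ) : ℝ)))
    rw [h3]
    refine Crest.Agent.R144.It844.ex_congr fun h _ => ?_
    congr 3
    field_simp
    ring
  refine ⟨hlaw, fun k => ?_⟩
  exact Crest.Agent.R144.Dpl702.twoArc_moments'
    (fun n => Crest.Agent.R144.TriTil353.tiling (hA.1 n))
    (fun n => freeSet hA hD.2.2.2.2.2.2.2.2.1 hD.2.2.2.2.2.2.2.2.2 n) hT.integrable _ _ hlaw k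

/-- **the law half from the lattice inputs** -/
theorem main_of_inputsE {x κ : ℝ} (hx0 : 0 < x) (hx1 : x ≤ 1)
    (H : ∀ (D : Set ℂ) (γ : ℝ → ℂ) (P : Finset ℂ) (δ : ℕ → ℝ) (Λ : ℕ → Finset (ℤ × ℤ))
      (τ : ℕ → ℤ × ℤ → ℤ), Setup D γ P δ Λ τ → Env D δ Λ → LC D δ Λ → Inputs x κ D P δ Λ τ) : MainLawE x κ := by
  intro D γ P δ Λ τ hS hEnv hLC φ hφ hb K hK f hf hfc hfs t
  have hI := H D γ P δ Λ τ hS hEnv hLC
  have hop := hS.dom.op
  have hδ := hS.sites.pos
  have hδ0 := hS.sites.lim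
  have hτ : ∀ n, Lip (τ n) := fun n => lip_of_data (hS.data n)
  obtain ⟨ψ, B⟩ := Crest.Agent.R144.Con549.exists_bih hop hφ hb
  have : ∀ n, IsProbabilityMeasure (mu x (Λ n) (τ n)) := fun n => isProb_mu hx0 (hτ n)
  set Y : ∀ n : ℕ, (ℂ → ℝ) → (ℤ × ℤ → ℤ) → ℝ := fun n g => cS x (Λ n) (τ n) (wK K (δ n) g) with hY
  have hP : ∀ m ∈ P, m ∉ D := by
    intro m hm hmD
    have h1 := hS.marks m hm
    rw [frontier, hop.interior_eq] at h1
    exact h1.2 hmD
  have hbdd : ∀ g, IsTest D g → ∃ M, ∀ z, |g z| ≤ M := by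
    intro g hg
    obtain ⟨M, hM⟩ := hg.comp.exists_bound_of_continuous hg.smooth.continuous
    exact ⟨M, fun z => by simpa using hM z⟩
  have hLp : ∀ n b, MemLp (cS x (Λ n) (τ n) b) 2 (mu x (Λ n) (τ n)) := by
    intro n b
    have h1 := integrable_mu x (Λ n) (τ n) (cS x (Λ n) (τ n) b)
    refine (memLp_two_iff_integrable_sq h1.aestronglyMeasurable).2 ?_
    exact integrable_mu x (Λ n) (τ n) _
  have hwadd : ∀ n f g, IsTest D f → IsTest D g →
      ∀ v, wK K (δ n) (fun z => f z + g z) v = wK K (δ n) f v + wK K (δ n) g v := by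
    intro n f g hf hg v
    exact wK_add (δ n) v (hK.integrable hf.smooth.continuous (hbdd f hf) v)
      (hK.integrable hg.smooth.continuous (hbdd g hg) v)
  have hadd : ∀ n f g, IsTest D f → IsTest D g →
      Y n (fun z => f z + g z) =ᵐ[mu x (Λ n) (τ n)] fun o => Y n f o + Y n g o := by
    intro n f g hf hg
    refine Eventually.of_forall fun o => ?_
    simp only [hY]
    rw [cS_congr (hwadd n f g hf hg), cS_add]
  have hsmul : ∀ n (c : ℝ) f, IsTest D f →
      Y n (fun z => c * f z) =ᵐ[mu x (Λ n) (τ n)] fun o => c * Y n f o := by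
    intro n c f _
    refine Eventually.of_forall fun o => ?_
    simp only [hY]
    rw [cS_congr (fun v => wK_smul (δ n) c f v), cS_smul]
  -- integrals are expectations
  have hcv : ∀ n b g, ∫ o, cS x (Λ n) (τ n) b o * cS x (Λ n) (τ n) g o ∂(mu x (Λ n) (τ n)) =
      Cv x (Λ n) (τ n) b g := fun n b g => integral_mu hx0 (hτ n) _
  -- supports
  have hsup : ∀ r > 0, ∀ g, IsTest D g → ∀ᶠ n in atTop, ∀ v, wK K (δ n) g v ≠ 0 →
      centre (δ n) v ∈ cthickening r (tsupport g) := by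
    intro r hr g _
    filter_upwards [hS.sites.small (show 0 < r / 2 by positivity)] with n hn v hv
    exact w_support hK (hδ n).le (by linarith) hv
  have hover : ∀ K0, IsCompact K0 → K0 ⊆ D → ∃ K1, IsCompact K1 ∧ K1 ⊆ D ∧ ∀ g, IsTest D g →
      tsupport g ⊆ K0 → ∀ M, (∀ z, |g z| ≤ M) → ∀ᶠ n in atTop, Over K1 (δ n) M (wK K (δ n) g) := by
    intro K0 hK0 hK0D
    obtain ⟨r, hr, hrc, hrs⟩ := Crest.Agent.R144.Cov353.exists_thick hK0 hop hK0D
    refine ⟨_, hrc, hrs, fun g hg hgK M hM => ?_⟩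
    filter_upwards [hsup r hr g hg] with n hn
    refine ⟨fun v hv => cthickening_subset_of_subset r hgK (hn v hv), fun v => ?_⟩
    have h1 : |wK K (δ n) g v| ≤ vc (δ n) * M := hK.w_le hM v
    have hM0 : 0 ≤ M := (abs_nonneg _).trans (hM 0)
    refine h1.trans ?_
    rw [mul_comm M]
    exact mul_le_mul_of_nonneg_right (vc_le _) hM0
  -- the characteristic functions of Laplacians
  have hcf : ∀ u, IsTest D u → ∀ t : ℝ, Tendsto
      (fun n => ∫ o, Complex.exp (Complex.I * (t * Y n (fun z => -(Δ u) z) o : ℝ))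
        ∂(mu x (Λ n) (τ n))) atTop
      (𝓝 (Complex.exp (-(κ * (∫ z, ‖fderiv ℝ u z‖ ^ 2) * t ^ 2 / 2 : ℝ)))) := by
    intro u hu t
    have h1 := hI.p1 u hu t
    set g : ℂ → ℝ := fun z => -(Δ u) z with hg
    have hgT : IsTest D g := hu.lap.neg
    set dd : ℕ → ℤ × ℤ → ℝ := fun n => Dop (fun v => u (centre (δ n) v)) with hdd
    set cc : ℕ → ℤ × ℤ → ℝ := fun n v => wK K (δ n) g v - dd n v with hcc
    have hnear : Near δ cc (fun z => g z - g z) :=
      (near_wK hK hδ hδ0 hgT.smooth.continuous hgT.comp).sub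
        (Crest.Agent.R144.Cw643.near_Dop hδ hδ0 hu.smooth hu.comp)
    -- a compact set containing the supports
    obtain ⟨r, hr, hrc, hrs⟩ := Crest.Agent.R144.Cov353.exists_thick hu.comp.isCompact hop hu.supp
    have hsupc : ∀ᶠ n in atTop, ∀ v, cc n v ≠ 0 →
        centre (δ n) v ∈ cthickening r (tsupport u) := by
      filter_upwards [hsup r hr g hgT, hS.sites.small (show 0 < r by positivity)] with n h2 h3 v hv
      by_cases h4 : wK K (δ n) g v = 0
      · have h5 : dd n v ≠ 0 := by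
          intro h6
          apply hv
          simp only [hcc, h4, h6, sub_zero]
        by_contra hcon
        apply h5
        have z1 : u (centre (δ n) v) = 0 := by
          by_contra h7
          exact hcon (self_subset_cthickening _ (subset_tsupport _ h7))
        have z0 : ∀ e ∈ six, u (centre (δ n) (v - e)) = 0 := by
          intro e he
          by_contra h7
          apply hcon
          refine mem_cthickening_of_dist_le _ _ r _ (subset_tsupport _ h7) ?_
          rw [dist_eq_norm, Crest.Agent.R144.Cw643.centre_sub, sub_sub_cancel]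
          exact (Crest.Agent.R144.Cw643.norm_centre_six (hδ n).le he).trans h3.le
        simp only [hdd]
        unfold Dop
        beta_reduce
        rw [z1, z0 _ (by decide), z0 _ (by decide), z0 _ (by decide), z0 _ (by decide),
          z0 _ (by decide), z0 _ (by decide)]
        ring
      · refine cthickening_subset_of_subset r ?_ (h2 v h4)
        exact (closure_mono (by
          intro z hz
          simp only [hg, Function.mem_support, ne_eq, neg_eq_zero] at hz ⊢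
          exact hz)).trans (Crest.Agent.R161.Green722.tsupport_lapC u)
    obtain ⟨C, hC⟩ := hI.bd _ hrc hrs
    have hdiff : ∀ ε > 0, ∀ᶠ n in atTop, Vr x (Λ n) (τ n) (cc n) ≤ C * ε ^ 2 := by
      intro ε hε
      filter_upwards [hnear.near ε hε, hsupc, hC] with n h2 h3 h4
      refine h4 ε (cc n) ⟨h3, fun v => ?_⟩
      have h5 := h2 v
      simpa using h5
    have hev : Tendsto (fun n => (∫ o, Complex.exp (Complex.I * (t * Y n g o : ℝ))
        ∂(mu x (Λ n) (τ n))) - ex x (Λ n) (τ n) (fun h => Complex.exp (Complex.I *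
          (t * cS x (Λ n) (τ n) (dd n) h : ℝ)))) atTop (𝓝 0) := by
      rw [Metric.tendsto_nhds]
      intro ε hε
      set ε' := ε / ((|t| + 1) * (Real.sqrt |C| + 1)) with hε'
      have hε'p : 0 < ε' := by positivity
      filter_upwards [hdiff ε' hε'p] with n hn
      rw [dist_zero_right, ← integral_mu hx0 (hτ n)]
      have hsum : Y n g =ᵐ[mu x (Λ n) (τ n)] fun o =>
          cS x (Λ n) (τ n) (dd n) o + cS x (Λ n) (τ n) (cc n) o := by
        refine Eventually.of_forall fun o => ?_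
        simp only [hY]
        rw [← cS_add]
        congr 1
        funext v
        simp only [hcc]
        ring
      refine (char_sub_le (hLp n _) (hLp n _) (hLp n _) hsum t).trans_lt ?_
      rw [hcv]
      have h5 : Real.sqrt (Cv x (Λ n) (τ n) (cc n) (cc n)) ≤ Real.sqrt |C| * ε' := by
        refine Real.sqrt_le_iff.2 ⟨by positivity, ?_⟩
        rw [mul_pow, Real.sq_sqrt (abs_nonneg C)]
        exact hn.trans (mul_le_mul_of_nonneg_right (le_abs_self C) (by positivity))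
      calc |t| * Real.sqrt (Cv x (Λ n) (τ n) (cc n) (cc n)) ≤ |t| * (Real.sqrt |C| * ε') :=
            mul_le_mul_of_nonneg_left h5 (abs_nonneg _)
        _ < (|t| + 1) * ((Real.sqrt |C| + 1) * ε') := by
            have h6 : 0 < (Real.sqrt |C| + 1) * ε' := by positivity
            have h7 : Real.sqrt |C| * ε' ≤ (Real.sqrt |C| + 1) * ε' := by nlinarith
            have h8 := mul_le_mul_of_nonneg_left h7 (abs_nonneg t)
            nlinarith
        _ = ε := by rw [hε']; field_simp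
    have h9 := hev.add h1
    rw [zero_add] at h9
    exact h9.congr fun n => by ring
  -- the variances of Laplacians
  have hp1 : ∀ u, IsTest D u → Tendsto (fun n => ∫ o, Y n (Δ u) o * Y n (Δ u) o
      ∂(mu x (Λ n) (τ n))) atTop (𝓝 (κ * ∫ z, ‖fderiv ℝ u z‖ ^ 2)) := by
    intro u hu
    set g : ℂ → ℝ := fun z => -(Δ u) z with hg
    have hgT : IsTest D g := hu.lap.neg
    obtain ⟨M, hM⟩ := hbdd g hgT
    obtain ⟨R, hR⟩ := hgT.comp.isBounded.exists_norm_le
    have hM0 : 0 ≤ M := (abs_nonneg _).trans (hM 0)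
    have hmid : ∀ᶠ n in atTop, Crest.Agent.R144.Dpl702.MidLin (conf (Λ n) (τ n)) (Y n g)
        (Real.pi * (max R 0 + 3) ^ 2 * M) := by
      filter_upwards [hS.sites.small one_pos] with n hn
      refine ((Crest.Agent.R144.Dpl702.midLin_sum (conf (Λ n) (τ n)) (Λ n)
        (wK K (δ n) g)).mono ?_).sub_const _
      exact sum_wK_le hK (hδ n) hn.le (le_max_right _ _) hM0 hM
        (fun z hz => (hR z (subset_tsupport _ hz)).trans (le_max_left _ _)) _
    have h1 := Crest.Agent.R144.Dpl702.ex_moments hx0 hx1 hτ (v := κ * ∫ z, ‖fderiv ℝ u z‖ ^ 2)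
      (X := fun n => Y n g) (by positivity) hmid (fun t => by
        have := hcf u hu t
        refine this.congr fun n => ?_
        exact integral_mu hx0 (hτ n) _) 2
    have h2 : Crest.Agent.R144.Mom353.gm (κ * ∫ z, ‖fderiv ℝ u z‖ ^ 2) 2 =
        κ * ∫ z, ‖fderiv ℝ u z‖ ^ 2 := by
      unfold Crest.Agent.R144.Mom353.gm
      simp [Nat.doubleFactorial]
    rw [h2] at h1
    have h3 : ∀ n, ex x (Λ n) (τ n) (fun h => ((Y n g h ^ 2 : ℝ) : ℂ)) =
        ((∫ o, Y n (Δ u) o * Y n (Δ u) o ∂(mu x (Λ n) (τ n)) : ℝ) : ℂ) := by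
      intro n
      rw [← integral_mu hx0 (hτ n), integral_complex_ofReal]
      congr 1
      refine integral_congr_ae (Eventually.of_forall fun o => ?_)
      have h4 : Y n g o = -1 * Y n (Δ u) o := by
        simp only [hY]
        rw [← cS_smul]
        congr 1
        funext v
        rw [← wK_smul]
        congr 1
        funext z
        simp only [hg]
        ring
      simp only [h4]
      ring
    simp only [h3] at h1
    have h5 := (Complex.continuous_re.tendsto _).comp h1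
    simpa only [Function.comp_def, Complex.ofReal_re] using h5
  -- bumps
  obtain ⟨M0, hM0⟩ : ∃ M, ∀ w, Crest.Agent.R144.End938.rho w ≤ M := by
    have hc : HasCompactSupport Crest.Agent.R144.End938.rho := by
      refine HasCompactSupport.of_support_subset_isCompact (isCompact_closedBall (0 : ℂ) 1) ?_
      intro w hw
      rw [mem_closedBall, dist_zero_right]
      by_contra hcon
      push Not at hcon
      exact hw (Crest.Agent.R144.End938.rho_zero hcon.le)
    obtain ⟨M, hM⟩ := hc.exists_bound_of_continuous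
      Crest.Agent.R144.End938.contDiff_rho.continuous
    exact ⟨M, fun w => (le_abs_self _).trans (by simpa using hM w)⟩
  have hM00 : 0 ≤ M0 := (Crest.Agent.R144.End938.rho_nonneg 0).trans (hM0 0)
  have hbump : ∀ z ∈ D, ∀ᶠ n in atTop, Bump D (δ n) (4 * M0) z (wK K (δ n) (rr z (rad D z))) := by
    intro z hz
    have hr := Crest.Agent.R144.End938.rad_pos hop hS.dom.bdd hz
    have hrad : infDist z Dᶜ = 2 * rad D z := by
      unfold Crest.Agent.R144.End938.rad
      ring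
    filter_upwards [hS.sites.small (show 0 < rad D z / 4 by positivity)] with n hn
    refine ⟨fun v => wK_nonneg hK _ (Crest.Agent.R144.End938.rr_nonneg z _) v, fun v hv => ?_,
      fun v => ?_⟩
    · by_contra hcon
      push Not at hcon
      apply hv
      refine hK.w_eq_zero (hδ n).le fun w hw => ?_
      refine Crest.Agent.R144.End938.rr_zero hr ?_
      have h1 := dist_triangle_left (centre (δ n) v) z w
      rw [← dist_eq_norm] at hw
      rw [hrad] at hcon
      linarith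
    · have h1 : ∀ w, |rr z (rad D z) w| ≤ (1 / rad D z) ^ 2 * M0 := by
        intro w
        rw [abs_of_nonneg (Crest.Agent.R144.End938.rr_nonneg z _ w)]
        unfold Crest.Agent.R144.End938.rr
        exact mul_le_mul_of_nonneg_left (hM0 _) (by positivity)
      have h2 : |wK K (δ n) (rr z (rad D z)) v| ≤ vc (δ n) * ((1 / rad D z) ^ 2 * M0) :=
        hK.w_le h1 v
      have h3 := (le_abs_self _).trans h2
      calc wK K (δ n) (rr z (rad D z)) v * infDist z Dᶜ ^ 2
          ≤ vc (δ n) * ((1 / rad D z) ^ 2 * M0) * infDist z Dᶜ ^ 2 :=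
            mul_le_mul_of_nonneg_right h3 (by positivity)
        _ = 4 * M0 * vc (δ n) := by
            rw [hrad]
            field_simp
            ring
        _ ≤ 4 * M0 * δ n ^ 2 := mul_le_mul_of_nonneg_left (vc_le _) (by positivity)
  -- the conclusion
  have hend := end_char hS.dom.bdd hP B (fun n => mu x (Λ n) (τ n)) Y
    (fun n f _ => hLp n _) hadd hsmul hp1 ?_ ?_ ?_ hcf f ⟨hf, hfc, hfs⟩
  · refine (hend.2 t).congr fun n => ?_
    exact integral_mu hx0 (hτ n) _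
  · -- bd
    intro K0 hK0 hK0D
    obtain ⟨K1, hK1, hK1D, hov⟩ := hover K0 hK0 hK0D
    obtain ⟨C, hC⟩ := hI.bd K1 hK1 hK1D
    refine ⟨C, fun g hg hgK M hM => ?_⟩
    filter_upwards [hov g hg hgK M hM, hC] with n h1 h2
    rw [hcv]
    exact h2 M _ h1
  · -- c1
    obtain ⟨C, hC⟩ := hI.c1 (4 * M0)
    refine ⟨C, fun z hz => ?_⟩
    filter_upwards [hC z hz, hbump z hz] with n h1 h2
    rw [hcv]
    exact h1 _ h2
  · -- c2
    intro g hg p hp hpP ε hε
    obtain ⟨K1, hK1, hK1D, hov⟩ := hover (tsupport g) hg.comp.isCompact hg.supp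
    obtain ⟨Mg, hMg⟩ := hbdd g hg
    obtain ⟨η, hη, hev⟩ := hI.c2 (max (4 * M0) Mg) K1 hK1 hK1D p hp hpP ε hε
    refine ⟨η, hη, fun z hz hzp => ?_⟩
    filter_upwards [hev z hz hzp, hbump z hz, hov g hg subset_rfl (max (4 * M0) Mg)
      (fun z => (hMg z).trans (le_max_right _ _))] with n h1 h2 h3
    rw [hcv]
    exact h1 _ _ (h2.mono (le_max_left _ _)) h3

/-- **S0195 (literal conclusion) from the four lattice inputs over the extended setup** -/
theorem s0195_of_inputs {x κ : ℝ} (hx0 : 0 < x) (hx1 : x ≤ 1) (hκ : 0 < κ)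
    (H : ∀ (D : Set ℂ) (γ : ℝ → ℂ) (P : Finset ℂ) (δ : ℕ → ℝ) (Λ : ℕ → Finset (ℤ × ℤ))
      (τ : ℕ → ℤ × ℤ → ℤ), Setup D γ P δ Λ τ → Env D δ Λ → LC D δ Λ →
      Inputs x κ D P δ Λ τ) :
    ∃ σ : ℝ, 0 < σ ∧ ∀ (D : Set ℂ) (γ : ℝ → ℂ) (φ : ℂ → ℂ),
      Crest.ProbabilityR.HexHeights.IsC2JordanDomain D γ → DifferentiableOn ℂ φ D →
      Set.BijOn φ D (Metric.ball (0 : ℂ) 1) →
      ∀ (δ : ℕ → ℝ) (F : ℕ → Finset (ℤ × ℤ)),
        Crest.ProbabilityR.HexHeights.IsInsideApprox D γ δ F →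
      ∀ f : ℂ → ℝ, ContDiff ℝ ∞ f → HasCompactSupport f → tsupport f ⊆ D →
        (∀ t : ℝ, Filter.Tendsto (fun n : ℕ => Crest.ProbabilityR.HexHeights.heightExpect (F n) x
            (fun h => Complex.exp (Complex.I *
              (t * Crest.ProbabilityR.HexHeights.pairing (δ n) f h / σ : ℝ))))
          Filter.atTop
          (nhds (Complex.exp
            (-(Crest.ProbabilityR.HexHeights.domainGreenForm φ f * t ^ 2 / 2 : ℝ))))) ∧
        ∀ k : ℕ, Filter.Tendsto (fun n : ℕ => Crest.ProbabilityR.HexHeights.heightExpect (F n) x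
            (fun h => ((Crest.ProbabilityR.HexHeights.pairing (δ n) f h / σ) ^ k : ℝ)))
          Filter.atTop
          (nhds ((if Even k then Crest.ProbabilityR.HexHeights.domainGreenForm φ f ^ (k / 2) *
              ((k - 1).doubleFactorial : ℝ) else 0 : ℝ) : ℂ)) :=
  fin195E hx0 hx1 hκ (main_of_inputsE hx0 hx1 H)

/-- **S0196 (literal statement) from the four lattice inputs over the extended setup** -/
theorem s0196_of_inputs {κ : ℝ} (hκ : 0 < κ)
    (H : ∀ (D : Set ℂ) (γ : ℝ → ℂ) (P : Finset ℂ) (δ : ℕ → ℝ) (Λ : ℕ → Finset (ℤ × ℤ))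
      (τ : ℕ → ℤ × ℤ → ℤ), Setup D γ P δ Λ τ → Env D δ Λ → LC D δ Λ →
      Inputs 1 κ D P δ Λ τ) :
    ∃ σ : ℝ, 0 < σ ∧ ∀ (D : Set ℂ) (γ : ℝ → ℂ) (θ : ℝ) (φ : ℂ → ℂ),
      Crest.ProbabilityR.TriHeights.IsSmoothMarkedDomain D γ θ → DifferentiableOn ℂ φ D →
      Set.BijOn φ D (Metric.ball (0 : ℂ) 1) →
      ∀ (δ : ℕ → ℝ) (T : ℕ → Finset Crest.ProbabilityR.TriHeights.Tri) (ea eb : ℕ → (ℤ × ℤ) × (ℤ × ℤ)) (c : ℕ → ℝ → ℂ),
        Crest.ProbabilityR.TriHeights.IsMarkedApprox γ θ δ T ea eb c →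
      ∀ f : ℂ → ℝ, ContDiff ℝ ∞ f → HasCompactSupport f → tsupport f ⊆ D →
        (∀ t : ℝ, Filter.Tendsto (fun n : ℕ => Crest.ProbabilityR.TriHeights.twoArcExpect (T n) (Crest.ProbabilityR.TriHeights.arcPlus (δ n) (T n) (c n) θ) (Crest.ProbabilityR.TriHeights.arcMinus (δ n) (T n) (c n) θ)
            (fun H => Complex.exp (Complex.I *
              (t * (Crest.ProbabilityR.TriHeights.affinePairing (δ n) (T n) f (Crest.ProbabilityR.TriHeights.oddHeight H) -
              (Crest.ProbabilityR.TriHeights.twoArcExpect (T n) (Crest.ProbabilityR.TriHeights.arcPlus (δ n) (T n) (c n) θ) (Crest.ProbabilityR.TriHeights.arcMinus (δ n) (T n) (c n) θ) (fun H' => (Crest.ProbabilityR.TriHeights.affinePairing (δ n) (T n) f (Crest.ProbabilityR.TriHeights.oddHeight H') : ℂ))).re) / σ : ℝ))))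
          Filter.atTop
          (nhds (Complex.exp (-(Crest.ProbabilityR.HexHeights.domainGreenForm φ f * t ^ 2 / 2 : ℝ))))) ∧
        ∀ k : ℕ, Filter.Tendsto (fun n : ℕ => Crest.ProbabilityR.TriHeights.twoArcExpect (T n) (Crest.ProbabilityR.TriHeights.arcPlus (δ n) (T n) (c n) θ) (Crest.ProbabilityR.TriHeights.arcMinus (δ n) (T n) (c n) θ)
            (fun H => (((Crest.ProbabilityR.TriHeights.affinePairing (δ n) (T n) f (Crest.ProbabilityR.TriHeights.oddHeight H) -
              (Crest.ProbabilityR.TriHeights.twoArcExpect (T n) (Crest.ProbabilityR.TriHeights.arcPlus (δ n) (T n) (c n) θ) (Crest.ProbabilityR.TriHeights.arcMinus (δ n) (T n) (c n) θ) (fun H' => (Crest.ProbabilityR.TriHeights.affinePairing (δ n) (T n) f (Crest.ProbabilityR.TriHeights.oddHeight H') : ℂ))).re) / σ) ^ k : ℝ)))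
          Filter.atTop
          (nhds ((if Even k then Crest.ProbabilityR.HexHeights.domainGreenForm φ f ^ (k / 2) *
              ((k - 1).doubleFactorial : ℝ) else 0 : ℝ) : ℂ)) :=
  fin196E hκ (main_of_inputsE one_pos le_rfl H)

end Crest.Agent.R144.Fin830
end

-- ▼ part R144/Fin4_830

/-! R144 (helper830): top wiring of S0195 / S0196.

`Plane x P κ` = the plane layer (plane state `P` of the weight `x`, stiffness `κ > 0`),
`exists_plane` : it follows from `RSWZ (x²)⁻¹`; `hyp` : helper702's `Hyp x`.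
`s0195_of_top`, `s0196_of_top` : the literal statements from
* `R : ∀ c, 1 ≤ c → c ≤ 2 → RSWZ c`  (RSW block),
* `P1 x` (interior Gaussianity under the domain law, field `p1` of `Inputs`),
* `C2 x` (boundary decay, field `c2` of `Inputs`). -/

set_option autoImplicit false

open Set Topology Filter Metric MeasureTheory
open scoped ContDiff Laplacian

namespace Crest.Agent.R144.Fin830

open Crest.ProbabilityR.HexHeights Crest.ProbabilityR.TriHeights
open Crest.Agent.R144.Set268 Crest.Agent.R144.Fin268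
open Crest.Agent.R144.It844 (P2 ex)
open Crest.Agent.R144.Con549 (IsTest)
open Crest.Agent.R144.Cw643 (Dop Lim2 lim2)
open Crest.Agent.R144.Env702 (Env)
open Crest.Agent.R144.Lc830 (LC)
open Crest.Agent.R144.Pst967 (Hz toR PinnedZ ZeroLim scs GObs FLim plane_of_rswz')
open Crest.Agent.R144.Ps643 (PlaneState)
open Crest.Agent.R144.Ps643.PlaneState (vg)
open Crest.Agent.R144.Rsw867 (RSWZ)

/-- the plane layer of the weight `x`: the infinite volume state `P` and its stiffness `κ` -/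
structure Plane (x : ℝ) (P : Measure Hz) (κ : ℝ) : Prop where
  x0 : 0 < x
  x1 : x ≤ 1
  rsw : RSWZ ((x ^ 2)⁻¹)
  pin : PinnedZ P
  zlim : ZeroLim x scs P
  st : PlaneState (P.map toR)
  flim : ∀ f : Hz → ℝ, GObs f → FLim ((x ^ 2)⁻¹) f (∫ h, f h ∂P)
  kpos : 0 < κ
  lim2 : Lim2 (vg (P.map toR)) κ

/-- **the plane layer from RSW** -/
theorem exists_plane {x : ℝ} (hx0 : 0 < x) (hx1 : x ≤ 1) (hR : RSWZ ((x ^ 2)⁻¹)) :
    ∃ (P : Measure Hz) (κ : ℝ), Plane x P κ := by
  obtain ⟨P, hpin, hz, hst, hF⟩ := plane_of_rswz' hx0 hx1 hR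
  have hc := Pst967.one_le_c hx0 hx1
  obtain ⟨c', hc', hlog⟩ := Pos561.eventually_log_lower hc hR hpin hF
  obtain ⟨κ, hκ, -, hk⟩ := lim2 hst.two_of_plane
  have h1 := hk c' hlog.frequently
  exact ⟨P, κ, hx0, hx1, hR, hpin, hz, hst, hF, lt_of_lt_of_le (by positivity) h1, hκ⟩

/-- helper702's hypotheses -/
theorem Plane.hyp {x : ℝ} {P : Measure Hz} {κ : ℝ} (h : Plane x P κ) : Hf702.Hyp x := by
  obtain ⟨K, p, hR⟩ := h.rsw.rsw (Pst967.one_le_c h.x0 h.x1)
  exact ⟨h.x0, h.x1, K, p, P, hR, Hf702.psq_of h.st h.lim2, h.flim⟩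

/-- interior Gaussianity under the domain laws (field `p1` of `Inputs`) -/
def P1 (x : ℝ) : Prop :=
  ∀ (P : Measure Hz) (κ : ℝ), Plane x P κ →
  ∀ (D : Set ℂ) (γ : ℝ → ℂ) (Q : Finset ℂ) (δ : ℕ → ℝ) (Λ : ℕ → Finset (ℤ × ℤ))
    (τ : ℕ → ℤ × ℤ → ℤ), Setup D γ Q δ Λ τ → Env D δ Λ → LC D δ Λ →
    ∀ u, IsTest D u → ∀ t : ℝ, Tendsto (fun n => ex x (Λ n) (τ n) (fun h =>
      Complex.exp (Complex.I * (t * cS x (Λ n) (τ n)
        (Dop (fun v => u (centre (δ n) v))) h : ℝ)))) atTop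
      (𝓝 (Complex.exp (-(κ * (∫ z, ‖fderiv ℝ u z‖ ^ 2) * t ^ 2 / 2 : ℝ))))

/-- boundary decay (field `c2` of `Inputs`) -/
def C2 (x : ℝ) : Prop :=
  ∀ (P : Measure Hz) (κ : ℝ), Plane x P κ →
  ∀ (D : Set ℂ) (γ : ℝ → ℂ) (Q : Finset ℂ) (δ : ℕ → ℝ) (Λ : ℕ → Finset (ℤ × ℤ))
    (τ : ℕ → ℤ × ℤ → ℤ), Setup D γ Q δ Λ τ → Env D δ Λ → LC D δ Λ →
    ∀ M K, IsCompact K → K ⊆ D → ∀ p ∈ frontier D, p ∉ Q → ∀ ε > 0, ∃ η > 0, ∀ z ∈ D,
      dist z p < η → ∀ᶠ n in atTop, ∀ b g, Bump D (δ n) M z b → Over K (δ n) M g →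
        |Cv x (Λ n) (τ n) b g| ≤ ε

/-- the four inputs -/
theorem inputs_of {x κ : ℝ} {P : Measure Hz} (hP : Plane x P κ) (h1 : P1 x) (h2 : C2 x)
    (D : Set ℂ) (γ : ℝ → ℂ) (Q : Finset ℂ) (δ : ℕ → ℝ) (Λ : ℕ → Finset (ℤ × ℤ))
    (τ : ℕ → ℤ × ℤ → ℤ) (hS : Setup D γ Q δ Λ τ) (hE : Env D δ Λ) (hL : LC D δ Λ) :
    Inputs x κ D Q δ Λ τ where
  p1 := h1 P κ hP D γ Q δ Λ τ hS hE hL
  bd := fun _ hK hKD => Hf702.bd_of hP.hyp hS hE hK hKD
  c1 := fun M => Hf702.c1_of hP.hyp hS hE M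
  c2 := h2 P κ hP D γ Q δ Λ τ hS hE hL

theorem c_range {x : ℝ} (hx : 1 / Real.sqrt 2 ≤ x) (hx1 : x ≤ 1) :
    0 < x ∧ 1 ≤ (x ^ 2)⁻¹ ∧ (x ^ 2)⁻¹ ≤ 2 := by
  have h2 : (0 : ℝ) < Real.sqrt 2 := by positivity
  have hx0 : 0 < x := lt_of_lt_of_le (by positivity) hx
  refine ⟨hx0, Pst967.one_le_c hx0 hx1, ?_⟩
  have h3 : (1 / Real.sqrt 2) ^ 2 ≤ x ^ 2 := pow_le_pow_left₀ (by positivity) hx 2
  rw [div_pow, one_pow, Real.sq_sqrt (by norm_num)] at h3
  rw [inv_le_comm₀ (by positivity) (by norm_num)]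
  linarith

/-- **S0195 from the three top blocks** -/
theorem s0195_of_top (R : ∀ c : ℝ, 1 ≤ c → c ≤ 2 → RSWZ c) {x : ℝ} (hx : 1 / Real.sqrt 2 ≤ x)
    (hx1 : x ≤ 1) (h1 : P1 x) (h2 : C2 x) :
    ∃ σ : ℝ, 0 < σ ∧ ∀ (D : Set ℂ) (γ : ℝ → ℂ) (φ : ℂ → ℂ),
      Crest.ProbabilityR.HexHeights.IsC2JordanDomain D γ → DifferentiableOn ℂ φ D →
      Set.BijOn φ D (Metric.ball (0 : ℂ) 1) →
      ∀ (δ : ℕ → ℝ) (F : ℕ → Finset (ℤ × ℤ)),
        Crest.ProbabilityR.HexHeights.IsInsideApprox D γ δ F →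
      ∀ f : ℂ → ℝ, ContDiff ℝ ∞ f → HasCompactSupport f → tsupport f ⊆ D →
        (∀ t : ℝ, Filter.Tendsto (fun n : ℕ => Crest.ProbabilityR.HexHeights.heightExpect (F n) x
            (fun h => Complex.exp (Complex.I *
              (t * Crest.ProbabilityR.HexHeights.pairing (δ n) f h / σ : ℝ))))
          Filter.atTop
          (nhds (Complex.exp
            (-(Crest.ProbabilityR.HexHeights.domainGreenForm φ f * t ^ 2 / 2 : ℝ))))) ∧
        ∀ k : ℕ, Filter.Tendsto (fun n : ℕ => Crest.ProbabilityR.HexHeights.heightExpect (F n) x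
            (fun h => ((Crest.ProbabilityR.HexHeights.pairing (δ n) f h / σ) ^ k : ℝ)))
          Filter.atTop
          (nhds ((if Even k then Crest.ProbabilityR.HexHeights.domainGreenForm φ f ^ (k / 2) *
              ((k - 1).doubleFactorial : ℝ) else 0 : ℝ) : ℂ)) := by
  obtain ⟨hx0, hc1, hc2⟩ := c_range hx hx1
  obtain ⟨P, κ, hP⟩ := exists_plane hx0 hx1 (R _ hc1 hc2)
  exact s0195_of_inputs hx0 hx1 hP.kpos (inputs_of hP h1 h2)

/-- **S0196 (literal) from the three top blocks** -/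
theorem s0196_of_top (R : ∀ c : ℝ, 1 ≤ c → c ≤ 2 → RSWZ c) (h1 : P1 1) (h2 : C2 1) :
    ∃ σ : ℝ, 0 < σ ∧ ∀ (D : Set ℂ) (γ : ℝ → ℂ) (θ : ℝ) (φ : ℂ → ℂ),
      Crest.ProbabilityR.TriHeights.IsSmoothMarkedDomain D γ θ → DifferentiableOn ℂ φ D →
      Set.BijOn φ D (Metric.ball (0 : ℂ) 1) →
      ∀ (δ : ℕ → ℝ) (T : ℕ → Finset Crest.ProbabilityR.TriHeights.Tri) (ea eb : ℕ → (ℤ × ℤ) × (ℤ × ℤ)) (c : ℕ → ℝ → ℂ),
        Crest.ProbabilityR.TriHeights.IsMarkedApprox γ θ δ T ea eb c →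
      ∀ f : ℂ → ℝ, ContDiff ℝ ∞ f → HasCompactSupport f → tsupport f ⊆ D →
        (∀ t : ℝ, Filter.Tendsto (fun n : ℕ => Crest.ProbabilityR.TriHeights.twoArcExpect (T n) (Crest.ProbabilityR.TriHeights.arcPlus (δ n) (T n) (c n) θ) (Crest.ProbabilityR.TriHeights.arcMinus (δ n) (T n) (c n) θ)
            (fun H => Complex.exp (Complex.I *
              (t * (Crest.ProbabilityR.TriHeights.affinePairing (δ n) (T n) f (Crest.ProbabilityR.TriHeights.oddHeight H) -
              (Crest.ProbabilityR.TriHeights.twoArcExpect (T n) (Crest.ProbabilityR.TriHeights.arcPlus (δ n) (T n) (c n) θ) (Crest.ProbabilityR.TriHeights.arcMinus (δ n) (T n) (c n) θ) (fun H' => (Crest.ProbabilityR.TriHeights.affinePairing (δ n) (T n) f (Crest.ProbabilityR.TriHeights.oddHeight H') : ℂ))).re) / σ : ℝ))))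
          Filter.atTop
          (nhds (Complex.exp (-(Crest.ProbabilityR.HexHeights.domainGreenForm φ f * t ^ 2 / 2 : ℝ))))) ∧
        ∀ k : ℕ, Filter.Tendsto (fun n : ℕ => Crest.ProbabilityR.TriHeights.twoArcExpect (T n) (Crest.ProbabilityR.TriHeights.arcPlus (δ n) (T n) (c n) θ) (Crest.ProbabilityR.TriHeights.arcMinus (δ n) (T n) (c n) θ)
            (fun H => (((Crest.ProbabilityR.TriHeights.affinePairing (δ n) (T n) f (Crest.ProbabilityR.TriHeights.oddHeight H) -
              (Crest.ProbabilityR.TriHeights.twoArcExpect (T n) (Crest.ProbabilityR.TriHeights.arcPlus (δ n) (T n) (c n) θ) (Crest.ProbabilityR.TriHeights.arcMinus (δ n) (T n) (c n) θ) (fun H' => (Crest.ProbabilityR.TriHeights.affinePairing (δ n) (T n) f (Crest.ProbabilityR.TriHeights.oddHeight H') : ℂ))).re) / σ) ^ k : ℝ)))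
          Filter.atTop
          (nhds ((if Even k then Crest.ProbabilityR.HexHeights.domainGreenForm φ f ^ (k / 2) *
              ((k - 1).doubleFactorial : ℝ) else 0 : ℝ) : ℂ)) := by
  obtain ⟨P, κ, hP⟩ := exists_plane one_pos le_rfl (R _ (Pst967.one_le_c one_pos le_rfl)
    (by norm_num))
  exact s0196_of_inputs hP.kpos (inputs_of hP h1 h2)

end Crest.Agent.R144.Fin830
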