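import Crest.Agent.R161.Green4_722
import Crest.Agent.Lib.InjHolo
import Crest.Prelude.Def_HexHeights

-- ▼ part R144/Con1_549
section

/-!
# R144, continuum side, part 1 (helper549)

Conformal transfer of Laplacians, Dirichlet forms and Green forms along a holomorphic bijection
`φ : D → disc`.
-/

set_option autoImplicit false

open MeasureTheory Metric Set Filter Topology Laplacian InnerProductSpace
open scoped ComplexConjugate ContDiff

namespace Crest.Agent.R144.Con549

open Crest.Agent.R161.Green722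

noncomputable section

/-! ### Laplacian of `u ∘ h`, `h` holomorphic -/

theorem lap_eq_dir {F : ℂ → ℝ} {z : ℂ} (hF : ContDiffAt ℝ 2 F z) :
    (Δ F) z = fderiv ℝ (fun w => fderiv ℝ F w 1) z 1 +
      fderiv ℝ (fun w => fderiv ℝ F w Complex.I) z Complex.I := by
  have h1 : DifferentiableAt ℝ (fderiv ℝ F) z :=
    (hF.fderiv_right (m := 1) (by norm_num)).differentiableAt (by norm_num)
  have h2 : ∀ e : ℂ, fderiv ℝ (fun w => fderiv ℝ F w e) z = (fderiv ℝ (fderiv ℝ F) z).flip e := by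
    intro e
    ext v
    have := (h1.hasFDerivAt.clm_apply (hasFDerivAt_const e z)).fderiv
    rw [this]
    simp
  rw [laplacian_eq_iteratedFDeriv_complexPlane]
  simp only [iteratedFDeriv_two_apply, h2]
  simp

theorem lap_comp_holo {u : ℂ → ℝ} {h : ℂ → ℂ} {z : ℂ} (hu : ContDiffAt ℝ 2 u (h z))
    (hh : AnalyticAt ℂ h z) :
    (Δ (fun w => u (h w))) z = (Δ u) (h z) * ‖deriv h z‖ ^ 2 := by
  have hhc : ContDiffAt ℝ 2 h z := (hh.contDiffAt (n := 2)).restrict_scalars ℝ
  have hcomp : ContDiffAt ℝ 2 (fun w => u (h w)) z := hu.comp z hhc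
  rw [lap_eq_dir hcomp]
  have hnear : ∀ᶠ w in 𝓝 z, ∀ e : ℂ, fderiv ℝ (fun w => u (h w)) w e
      = fderiv ℝ u (h w) (deriv h w * e) := by
    have h1 : ∀ᶠ w in 𝓝 z, AnalyticAt ℂ h w := hh.eventually_analyticAt
    have h2 : ∀ᶠ w in 𝓝 z, ContDiffAt ℝ 2 u (h w) :=
      hh.continuousAt.eventually (hu.eventually (by simp))
    filter_upwards [h1, h2] with w hw1 hw2 e
    have d1 : HasFDerivAt h ((ContinuousLinearMap.toSpanSingleton ℂ (deriv h w)).restrictScalars ℝ) w :=
      (hw1.differentiableAt.hasDerivAt.hasFDerivAt).restrictScalars ℝ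
    have d2 : HasFDerivAt u (fderiv ℝ u (h w)) (h w) :=
      (hw2.differentiableAt (by norm_num)).hasFDerivAt
    have d3 := d2.comp w d1
    have d4 : fderiv ℝ (fun w => u (h w)) w = (fderiv ℝ u (h w)).comp
      ((ContinuousLinearMap.toSpanSingleton ℂ (deriv h w)).restrictScalars ℝ) := d3.fderiv
    rw [d4]
    simp [mul_comm]
  have key : ∀ e : ℂ, fderiv ℝ (fun w => fderiv ℝ (fun w => u (h w)) w e) z e =
      fderiv ℝ (fderiv ℝ u) (h z) (deriv h z * e) (deriv h z * e) +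
        fderiv ℝ u (h z) (deriv (deriv h) z * (e * e)) := by
    intro e
    have h1 : (fun w => fderiv ℝ (fun w => u (h w)) w e) =ᶠ[𝓝 z]
        fun w => fderiv ℝ u (h w) (deriv h w * e) := hnear.mono fun w hw => hw e
    rw [h1.fderiv_eq]
    have d1 : HasFDerivAt h ((ContinuousLinearMap.toSpanSingleton ℂ (deriv h z)).restrictScalars ℝ) z :=
      (hh.differentiableAt.hasDerivAt.hasFDerivAt).restrictScalars ℝ
    have d3 : HasFDerivAt (fderiv ℝ u) (fderiv ℝ (fderiv ℝ u) (h z)) (h z) :=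
      ((hu.fderiv_right (m := 1) (by norm_num)).differentiableAt (by norm_num)).hasFDerivAt
    have d4 := d3.comp z d1
    have d5 : HasFDerivAt (fun w => deriv h w * e)
        ((ContinuousLinearMap.toSpanSingleton ℂ (deriv (deriv h) z * e)).restrictScalars ℝ) z :=
      ((hh.deriv.differentiableAt.hasDerivAt.mul_const e).hasFDerivAt).restrictScalars ℝ
    have d6 := (d4.clm_apply d5).fderiv
    have d7 : fderiv ℝ (fun w => fderiv ℝ u (h w) (deriv h w * e)) z = _ := d6
    rw [d7]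
    simp only [Function.comp_apply, add_apply, ContinuousLinearMap.comp_apply,
      ContinuousLinearMap.flip_apply, ContinuousLinearMap.coe_restrictScalars',
      ContinuousLinearMap.toSpanSingleton_apply, smul_eq_mul]
    rw [add_comm, mul_comm e (deriv h z)]
    congr 2
    ring
  rw [key, key]
  have e1 : fderiv ℝ u (h z) (deriv (deriv h) z * (1 * 1)) +
      fderiv ℝ u (h z) (deriv (deriv h) z * (Complex.I * Complex.I)) = 0 := by
    rw [← map_add, ← mul_add]
    simp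
  set B := fderiv ℝ (fderiv ℝ u) (h z) with hB
  set p := deriv h z with hp
  have e2 : p * 1 = (p.re : ℝ) • (1 : ℂ) + (p.im : ℝ) • Complex.I := by
    apply Complex.ext <;> simp
  have e3 : p * Complex.I = (-p.im : ℝ) • (1 : ℂ) + (p.re : ℝ) • Complex.I := by
    apply Complex.ext <;> simp
  have e4 : (Δ u) (h z) = B 1 1 + B Complex.I Complex.I := by
    rw [laplacian_eq_iteratedFDeriv_complexPlane]
    simp only [iteratedFDeriv_two_apply]
    simp [hB]
  have e5 : ‖p‖ ^ 2 = p.re * p.re + p.im * p.im := by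
    rw [← Complex.normSq_eq_norm_sq, Complex.normSq_apply]
  rw [e4, e5, e2, e3]
  simp only [map_add, map_smul, add_apply, smul_apply,
    smul_eq_mul] at *
  linear_combination e1

/-! ### gradient of `u ∘ h` -/

theorem fderiv_comp_holo {u : ℂ → ℝ} {h : ℂ → ℂ} {z : ℂ} (hu : DifferentiableAt ℝ u (h z))
    (hh : DifferentiableAt ℂ h z) (e : ℂ) :
    fderiv ℝ (fun w => u (h w)) z e = fderiv ℝ u (h z) (deriv h z * e) := by
  have d1 : HasFDerivAt h ((ContinuousLinearMap.toSpanSingleton ℂ (deriv h z)).restrictScalars ℝ) z :=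
    (hh.hasDerivAt.hasFDerivAt).restrictScalars ℝ
  have d3 := hu.hasFDerivAt.comp z d1
  have d4 : fderiv ℝ (fun w => u (h w)) z = (fderiv ℝ u (h z)).comp
    ((ContinuousLinearMap.toSpanSingleton ℂ (deriv h z)).restrictScalars ℝ) := d3.fderiv
  rw [d4]
  simp [mul_comm]

theorem norm_fderiv_comp_holo_le {u : ℂ → ℝ} {h : ℂ → ℂ} {z : ℂ} (hu : DifferentiableAt ℝ u (h z))
    (hh : DifferentiableAt ℂ h z) :
    ‖fderiv ℝ (fun w => u (h w)) z‖ ≤ ‖fderiv ℝ u (h z)‖ * ‖deriv h z‖ := by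
  refine ContinuousLinearMap.opNorm_le_bound _ (by positivity) fun e => ?_
  rw [fderiv_comp_holo hu hh]
  calc ‖fderiv ℝ u (h z) (deriv h z * e)‖ ≤ ‖fderiv ℝ u (h z)‖ * ‖deriv h z * e‖ :=
        (fderiv ℝ u (h z)).le_opNorm _
    _ = ‖fderiv ℝ u (h z)‖ * ‖deriv h z‖ * ‖e‖ := by rw [norm_mul]; ring

theorem norm_fderiv_comp_holo {u : ℂ → ℝ} {h : ℂ → ℂ} {z : ℂ} (hu : DifferentiableAt ℝ u (h z))
    (hh : DifferentiableAt ℂ h z) :
    ‖fderiv ℝ (fun w => u (h w)) z‖ = ‖fderiv ℝ u (h z)‖ * ‖deriv h z‖ := by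
  refine le_antisymm (norm_fderiv_comp_holo_le hu hh) ?_
  by_cases h0 : deriv h z = 0
  · rw [h0, norm_zero, mul_zero]
    exact norm_nonneg _
  have hp : 0 < ‖deriv h z‖ := norm_pos_iff.2 h0
  rw [← le_div_iff₀ hp]
  refine ContinuousLinearMap.opNorm_le_bound _ (by positivity) fun e => ?_
  have h1 : fderiv ℝ u (h z) e = fderiv ℝ (fun w => u (h w)) z ((deriv h z)⁻¹ * e) := by
    rw [fderiv_comp_holo hu hh, ← mul_assoc, mul_inv_cancel₀ h0, one_mul]
  rw [h1]
  calc ‖fderiv ℝ (fun w => u (h w)) z ((deriv h z)⁻¹ * e)‖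
      ≤ ‖fderiv ℝ (fun w => u (h w)) z‖ * ‖(deriv h z)⁻¹ * e‖ := ContinuousLinearMap.le_opNorm _ _
    _ = ‖fderiv ℝ (fun w => u (h w)) z‖ / ‖deriv h z‖ * ‖e‖ := by
        rw [norm_mul, norm_inv]; ring

/-- determinant of multiplication by `p` -/
theorem det_mul (p : ℂ) :
    ((ContinuousLinearMap.toSpanSingleton ℂ p).restrictScalars ℝ : ℂ →L[ℝ] ℂ).det = ‖p‖ ^ 2 := by
  have e1 : (((ContinuousLinearMap.toSpanSingleton ℂ p).restrictScalars ℝ :
      ℂ →L[ℝ] ℂ) : ℂ →ₗ[ℝ] ℂ) = LinearMap.mulLeft ℝ p := by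
    ext <;> simp [mul_comm]
  rw [ContinuousLinearMap.det, e1]
  rw [← LinearMap.det_toMatrix Complex.basisOneI]
  rw [Matrix.det_fin_two]
  simp only [LinearMap.toMatrix_apply, Complex.coe_basisOneI, LinearMap.mulLeft_apply,
    Complex.coe_basisOneI_repr, Matrix.cons_val_zero, Matrix.cons_val_one, mul_one]
  rw [← Complex.normSq_eq_norm_sq, Complex.normSq_apply]
  simp

/-! ### biholomorphic pairs -/

/-- `h : U → V` and `g : V → U` are mutually inverse holomorphic maps of open sets. -/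
structure Bih (U V : Set ℂ) (h g : ℂ → ℂ) : Prop where
  oU : IsOpen U
  oV : IsOpen V
  dh : DifferentiableOn ℂ h U
  dg : DifferentiableOn ℂ g V
  mh : ∀ z ∈ U, h z ∈ V
  mg : ∀ w ∈ V, g w ∈ U
  gh : ∀ z ∈ U, g (h z) = z
  hg : ∀ w ∈ V, h (g w) = w

namespace Bih

variable {U V : Set ℂ} {h g : ℂ → ℂ}

theorem symm (B : Bih U V h g) : Bih V U g h :=
  ⟨B.oV, B.oU, B.dg, B.dh, B.mg, B.mh, B.hg, B.gh⟩

theorem injOn (B : Bih U V h g) : InjOn h U := fun a ha b hb hab => by
  rw [← B.gh a ha, ← B.gh b hb, hab]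

theorem image (B : Bih U V h g) : h '' U = V := by
  ext w
  constructor
  · rintro ⟨z, hz, rfl⟩
    exact B.mh z hz
  · intro hw
    exact ⟨g w, B.mg w hw, B.hg w hw⟩

theorem dhAt (B : Bih U V h g) {z : ℂ} (hz : z ∈ U) : DifferentiableAt ℂ h z :=
  (B.dh z hz).differentiableAt (B.oU.mem_nhds hz)

theorem anAt (B : Bih U V h g) {z : ℂ} (hz : z ∈ U) : AnalyticAt ℂ h z :=
  B.dh.analyticAt (B.oU.mem_nhds hz)

theorem deriv_mul (B : Bih U V h g) {z : ℂ} (hz : z ∈ U) : deriv g (h z) * deriv h z = 1 := by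
  have h1 : HasDerivAt g (deriv g (h z)) (h z) := (B.symm.dhAt (B.mh z hz)).hasDerivAt
  have h2 : HasDerivAt h (deriv h z) z := (B.dhAt hz).hasDerivAt
  have h3 : HasDerivAt (fun w => g (h w)) (deriv g (h z) * deriv h z) z := h1.comp z h2
  have h4 : (fun w => g (h w)) =ᶠ[𝓝 z] fun w => w := by
    filter_upwards [B.oU.mem_nhds hz] with w hw
    exact B.gh w hw
  have h5 : HasDerivAt (fun w => g (h w)) 1 z := (hasDerivAt_id z).congr_of_eventuallyEq h4
  exact h3.unique h5


theorem norm_deriv_mul (B : Bih U V h g) {z : ℂ} (hz : z ∈ U) :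
    ‖deriv g (h z)‖ * ‖deriv h z‖ = 1 := by
  rw [← norm_mul, B.deriv_mul hz, norm_one]

/-- change of variables -/
theorem integral_comp (B : Bih U V h g) (F : ℂ → ℝ) :
    ∫ z in U, F (h z) * ‖deriv h z‖ ^ 2 = ∫ w in V, F w := by
  have h1 := integral_image_eq_integral_abs_det_fderiv_smul (volume : Measure ℂ)
    B.oU.measurableSet (f := h)
    (f' := fun z => (ContinuousLinearMap.toSpanSingleton ℂ (deriv h z)).restrictScalars ℝ)
    (fun z hz => ((B.dhAt hz).hasDerivAt.hasFDerivAt.restrictScalars ℝ).hasFDerivWithinAt)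
    B.injOn F
  rw [B.image] at h1
  rw [h1]
  refine setIntegral_congr_fun B.oU.measurableSet fun z _ => ?_
  simp only [det_mul, smul_eq_mul, abs_of_nonneg (sq_nonneg ‖deriv h z‖)]
  ring

end Bih

/-- a holomorphic bijection onto the disc gives a biholomorphic pair -/
theorem exists_bih {D : Set ℂ} {φ : ℂ → ℂ} (hD : IsOpen D) (hd : DifferentiableOn ℂ φ D)
    (hb : BijOn φ D (ball 0 1)) : ∃ ψ : ℂ → ℂ, Bih D (ball 0 1) φ ψ := by
  obtain ⟨g, h1, h2, h3, h4, h5⟩ :=
    Crest.Agent.Lib.exists_holomorphic_inverse hD hd hb.injOn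
  rw [hb.image_eq] at h1 h2 h3 h5
  refine ⟨g, hD, isOpen_ball, hd, h1, fun z hz => hb.mapsTo hz, fun w hw => ?_, h4, h5⟩
  rw [← h3]
  exact mem_image_of_mem g hw

end

end Crest.Agent.R144.Con549
end

-- ▼ part R144/Con2_549
section

/-!
# R144, continuum side, part 2 (helper549)

Transfer of test functions along a biholomorphic pair; Green form of a domain.
-/

set_option autoImplicit false

open MeasureTheory Metric Set Filter Topology Laplacian InnerProductSpace
open scoped ComplexConjugate ContDiff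

namespace Crest.Agent.R144.Con549

open Crest.Agent.R161.Green722
open Crest.ProbabilityR.HexHeights (domainGreenForm)
open Crest.ProbabilityR.DiscGreen (discGreen discGreenForm)

noncomputable section

/-- smooth functions with compact support inside `U` -/
structure IsTest (U : Set ℂ) (u : ℂ → ℝ) : Prop where
  smooth : ContDiff ℝ ∞ u
  comp : HasCompactSupport u
  supp : tsupport u ⊆ U

namespace IsTest

variable {U : Set ℂ} {u v : ℂ → ℝ}

theorem eq_zero (hu : IsTest U u) {z : ℂ} (hz : z ∉ U) : u z = 0 :=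
  image_eq_zero_of_notMem_tsupport fun h => hz (hu.supp h)

theorem lap_eq_zero (hu : IsTest U u) {z : ℂ} (hz : z ∉ U) : (Δ u) z = 0 :=
  lapC_eq_zero fun h => hz (hu.supp h)

theorem mono (hu : IsTest U u) {V : Set ℂ} (h : U ⊆ V) : IsTest V u :=
  ⟨hu.smooth, hu.comp, hu.supp.trans h⟩

theorem add (hu : IsTest U u) (hv : IsTest U v) : IsTest U (fun z => u z + v z) :=
  ⟨hu.smooth.add hv.smooth, hu.comp.add hv.comp,
    (tsupport_add u v).trans (union_subset hu.supp hv.supp)⟩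

theorem neg (hu : IsTest U u) : IsTest U (fun z => -u z) := by
  have h : (fun z => -u z) = -u := rfl
  refine ⟨hu.smooth.neg, h ▸ hu.comp.neg, ?_⟩
  rw [h, tsupport, Function.support_neg]
  exact hu.supp

theorem const_mul (hu : IsTest U u) (c : ℝ) : IsTest U (fun z => c * u z) := by
  refine ⟨contDiff_const.mul hu.smooth, hu.comp.mul_left, ?_⟩
  refine subset_trans (closure_mono ?_) hu.supp
  intro z hz hz'
  exact hz (by simp [hz'])

theorem contDiff_lap (hu : IsTest U u) : ContDiff ℝ ∞ (Δ u) := by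
  have h1 : (Δ u) = fun z => fderiv ℝ (fun w => fderiv ℝ u w 1) z 1 +
      fderiv ℝ (fun w => fderiv ℝ u w Complex.I) z Complex.I :=
    funext fun z => lap_eq_dir (hu.smooth.of_le (by norm_cast)).contDiffAt
  rw [h1]
  have h2 : ∀ e : ℂ, ContDiff ℝ ∞ (fun w => fderiv ℝ u w e) := fun e =>
    ((contDiff_infty_iff_fderiv.1 hu.smooth).2).clm_apply contDiff_const
  exact (((contDiff_infty_iff_fderiv.1 (h2 1)).2).clm_apply contDiff_const).add
    (((contDiff_infty_iff_fderiv.1 (h2 Complex.I)).2).clm_apply contDiff_const)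

theorem lap (hu : IsTest U u) : IsTest U (Δ u) :=
  ⟨hu.contDiff_lap, hasCompactSupport_lapC hu.comp, (tsupport_lapC u).trans hu.supp⟩

end IsTest

/-- transfer of functions -/
def tr (U : Set ℂ) (h : ℂ → ℂ) (u : ℂ → ℝ) : ℂ → ℝ := U.indicator fun z => u (h z)

/-- transfer of densities -/
def td (U : Set ℂ) (h : ℂ → ℂ) (u : ℂ → ℝ) : ℂ → ℝ :=
  U.indicator fun z => u (h z) * ‖deriv h z‖ ^ 2

theorem tr_mem {U : Set ℂ} {h : ℂ → ℂ} {u : ℂ → ℝ} {z : ℂ} (hz : z ∈ U) : tr U h u z = u (h z) :=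
  indicator_of_mem hz _

theorem tr_not {U : Set ℂ} {h : ℂ → ℂ} {u : ℂ → ℝ} {z : ℂ} (hz : z ∉ U) : tr U h u z = 0 :=
  indicator_of_notMem hz _

theorem td_mem {U : Set ℂ} {h : ℂ → ℂ} {u : ℂ → ℝ} {z : ℂ} (hz : z ∈ U) :
    td U h u z = u (h z) * ‖deriv h z‖ ^ 2 :=
  indicator_of_mem hz _

theorem td_not {U : Set ℂ} {h : ℂ → ℂ} {u : ℂ → ℝ} {z : ℂ} (hz : z ∉ U) : td U h u z = 0 :=
  indicator_of_notMem hz _

section transfer

variable {U V : Set ℂ} {h g : ℂ → ℂ} {u : ℂ → ℝ}

theorem isCompact_K (B : Bih U V h g) (hu : IsTest V u) : IsCompact (g '' tsupport u) :=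
  hu.comp.isCompact.image_of_continuousOn (B.dg.continuousOn.mono hu.supp)

theorem K_sub (B : Bih U V h g) (hu : IsTest V u) : g '' tsupport u ⊆ U := by
  rintro _ ⟨w, hw, rfl⟩
  exact B.mg w (hu.supp hw)

theorem u_eq_zero_off (B : Bih U V h g) {z : ℂ} (hz : z ∈ U) (hK : z ∉ g '' tsupport u) :
    u (h z) = 0 :=
  image_eq_zero_of_notMem_tsupport fun hh => hK ⟨h z, hh, B.gh z hz⟩

theorem isTest_indicator (B : Bih U V h g) (hu : IsTest V u) {F : ℂ → ℝ}
    (hF : ∀ z ∈ U, ContDiffAt ℝ ∞ F z) (hF0 : ∀ z ∈ U, u (h z) = 0 → F z = 0) :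
    IsTest U (U.indicator F) := by
  have hzero : ∀ z, z ∉ g '' tsupport u → U.indicator F z = 0 := by
    intro z hz
    by_cases hzU : z ∈ U
    · rw [indicator_of_mem hzU]
      exact hF0 z hzU (u_eq_zero_off B hzU hz)
    · exact indicator_of_notMem hzU _
  have hK := isCompact_K B hu
  refine ⟨?_, HasCompactSupport.intro hK fun z hz => hzero z hz, ?_⟩
  · rw [contDiff_iff_contDiffAt]
    intro z
    by_cases hzU : z ∈ U
    · refine (hF z hzU).congr_of_eventuallyEq ?_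
      filter_upwards [B.oU.mem_nhds hzU] with w hw
      exact indicator_of_mem hw _
    · have hz : z ∉ g '' tsupport u := fun h' => hzU (K_sub B hu h')
      have : U.indicator F =ᶠ[𝓝 z] fun _ => (0 : ℝ) := by
        filter_upwards [hK.isClosed.isOpen_compl.mem_nhds hz] with w hw
        exact hzero w hw
      exact contDiffAt_const.congr_of_eventuallyEq this
  · refine (closure_minimal ?_ hK.isClosed).trans (K_sub B hu)
    intro z hz
    by_contra hz'
    exact hz (hzero z hz')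

theorem contDiffAt_h (B : Bih U V h g) {z : ℂ} (hz : z ∈ U) : ContDiffAt ℝ ∞ h z :=
  ((B.anAt hz).contDiffAt (n := ∞)).restrict_scalars ℝ

theorem contDiffAt_normsq (B : Bih U V h g) {z : ℂ} (hz : z ∈ U) :
    ContDiffAt ℝ ∞ (fun w => ‖deriv h w‖ ^ 2) z :=
  (((B.anAt hz).deriv.contDiffAt (n := ∞)).restrict_scalars ℝ).norm_sq ℝ

theorem isTest_tr (B : Bih U V h g) (hu : IsTest V u) : IsTest U (tr U h u) :=
  isTest_indicator B hu
    (fun z hz => (hu.smooth.contDiffAt (x := h z)).comp z (contDiffAt_h B hz)) fun _ _ h0 => h0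

theorem isTest_td (B : Bih U V h g) (hu : IsTest V u) : IsTest U (td U h u) :=
  isTest_indicator B hu
    (fun z hz => ((hu.smooth.contDiffAt (x := h z)).comp z (contDiffAt_h B hz)).mul
      (contDiffAt_normsq B hz)) fun _ _ h0 => by rw [h0, zero_mul]

theorem lap_tr (B : Bih U V h g) (hu : IsTest V u) : (Δ (tr U h u)) = td U h (Δ u) := by
  funext z
  by_cases hz : z ∈ U
  · have h1 : tr U h u =ᶠ[𝓝 z] fun w => u (h w) := by
      filter_upwards [B.oU.mem_nhds hz] with w hw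
      exact tr_mem hw
    rw [(laplacian_congr_nhds h1).eq_of_nhds, td_mem hz]
    exact lap_comp_holo (hu.smooth.of_le (by norm_cast)).contDiffAt (B.anAt hz)
  · rw [td_not hz]
    exact (isTest_tr B hu).lap_eq_zero hz



theorem td_td (B : Bih U V h g) (hu : IsTest U u) : td U h (td V g u) = u := by
  funext z
  by_cases hz : z ∈ U
  · rw [td_mem hz, td_mem (B.mh z hz), B.gh z hz, mul_assoc, ← mul_pow, B.norm_deriv_mul hz]
    ring
  · rw [td_not hz, hu.eq_zero hz]

theorem td_add (U : Set ℂ) (h : ℂ → ℂ) (u v : ℂ → ℝ) :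
    td U h (fun z => u z + v z) = fun z => td U h u z + td U h v z := by
  funext z
  by_cases hz : z ∈ U
  · simp only [td_mem hz]; ring
  · simp only [td_not hz, add_zero]

/-- pairing -/
theorem integral_tr_td (B : Bih U V h g) (a b : ℂ → ℝ) (hb : ∀ w, w ∉ V → b w = 0) :
    ∫ z, tr U h a z * td U h b z = ∫ w, a w * b w := by
  have h1 : ∫ z, tr U h a z * td U h b z = ∫ z in U, (a (h z) * b (h z)) * ‖deriv h z‖ ^ 2 := by
    rw [← integral_indicator B.oU.measurableSet]
    congr 1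
    funext z
    by_cases hz : z ∈ U
    · rw [tr_mem hz, td_mem hz, indicator_of_mem hz]; ring
    · rw [tr_not hz, indicator_of_notMem hz, zero_mul]
  rw [h1, B.integral_comp (fun w => a w * b w)]
  refine setIntegral_eq_integral_of_forall_compl_eq_zero fun w hw => ?_
  rw [hb w hw, mul_zero]

theorem integral_td (B : Bih U V h g) (b : ℂ → ℝ) (hb : ∀ w, w ∉ V → b w = 0) :
    ∫ z, td U h b z = ∫ w, b w := by
  have h1 := integral_tr_td B (fun _ => 1) b hb
  simp only [one_mul] at h1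
  rw [← h1]
  congr 1
  funext z
  by_cases hz : z ∈ U
  · rw [tr_mem hz, one_mul]
  · rw [tr_not hz, td_not hz, zero_mul]

end transfer

/-! ### Green form of a domain -/

/-- bilinear Green form in the chart `φ` -/
def DG (φ : ℂ → ℂ) (f g : ℂ → ℝ) : ℝ := ∫ z : ℂ, ∫ w : ℂ, f z * discGreen (φ z) (φ w) * g w

theorem DG_self (φ : ℂ → ℂ) (f : ℂ → ℝ) : DG φ f f = domainGreenForm φ f := rfl

theorem DG_td {D : Set ℂ} {φ ψ : ℂ → ℂ} (B : Bih D (ball 0 1) φ ψ) (a b : ℂ → ℝ)
    (ha : ∀ w, w ∉ ball (0 : ℂ) 1 → a w = 0) (hb : ∀ w, w ∉ ball (0 : ℂ) 1 → b w = 0) :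
    DG φ (td D φ a) (td D φ b) = Gf 1 a b := by
  have h1 : ∀ z, ∫ w : ℂ, td D φ a z * discGreen (φ z) (φ w) * td D φ b w =
      td D φ (fun ζ => ∫ y, a ζ * discGreen ζ y * b y) z := by
    intro z
    by_cases hz : z ∈ D
    · have h2 := integral_td B (fun y => discGreen (φ z) y * b y)
        (fun w hw => by rw [hb w hw, mul_zero])
      have h3 : ∀ w, td D φ a z * discGreen (φ z) (φ w) * td D φ b w =
          td D φ a z * td D φ (fun y => discGreen (φ z) y * b y) w := by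
        intro w
        by_cases hw : w ∈ D
        · rw [td_mem hw, td_mem hw]; ring
        · rw [td_not hw, td_not hw, mul_zero, mul_zero]
      simp only [h3]
      rw [integral_const_mul, h2, td_mem hz, td_mem hz]
      have h4 : ∀ y, a (φ z) * discGreen (φ z) y * b y = a (φ z) * (discGreen (φ z) y * b y) :=
        fun y => by ring
      simp only [h4]
      rw [integral_const_mul]
      ring
    · rw [td_not hz, td_not hz]
      simp
  unfold DG
  simp only [h1]
  rw [integral_td B _ (fun w hw => by simp [ha w hw])]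
  unfold Gf
  simp only [G_one]

theorem DG_eq {D : Set ℂ} {φ ψ : ℂ → ℂ} (B : Bih D (ball 0 1) φ ψ) {f g : ℂ → ℝ}
    (hf : IsTest D f) (hg : IsTest D g) :
    DG φ f g = Gf 1 (td (ball 0 1) ψ f) (td (ball 0 1) ψ g) := by
  have h1 := DG_td B (td (ball 0 1) ψ f) (td (ball 0 1) ψ g) (fun w hw => td_not hw)
    (fun w hw => td_not hw)
  rw [td_td B hf, td_td B hg] at h1
  exact h1

end

end Crest.Agent.R144.Con549
end

-- ▼ part R144/Con3_549

/-!
# R144, continuum side, part 3 (helper549)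

Green representation, Dirichlet energy, approximation of test functions by Laplacians of test
functions in the Green norm (C1), (C2).
-/

set_option autoImplicit false

open MeasureTheory Metric Set Filter Topology Laplacian InnerProductSpace
open scoped ComplexConjugate ContDiff

namespace Crest.Agent.R144.Con549

open Crest.Agent.R161.Green722
open Crest.ProbabilityR.HexHeights (domainGreenForm)

noncomputable section

/-! ### Dirichlet energy -/

theorem integral_lap {U : Set ℂ} {u : ℂ → ℝ} (hu : IsTest U u) : ∫ z, (Δ u) z = 0 := by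
  have h := green_onC (U := univ) (v := fun _ => (1 : ℝ)) isOpen_univ contDiffOn_const hu.smooth
    hu.comp (subset_univ _)
  have h1 : (Δ (fun _ : ℂ => (1 : ℝ))) = fun _ => 0 := laplacian_const
  rw [h1] at h
  simpa using h

theorem lap_sq {u : ℂ → ℝ} {z : ℂ} (hu : ContDiffAt ℝ 2 u z) :
    (Δ (fun w => u w ^ 2)) z = 2 * ‖fderiv ℝ u z‖ ^ 2 + 2 * (u z * (Δ u) z) := by
  have h1 := lapC_comp (φ := fun t : ℝ => t ^ 2) (q := u) (z := z) (by fun_prop) hu
  rw [h1]
  have h2 : deriv (fun t : ℝ => t ^ 2) = fun t => 2 * t := by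
    funext t
    simp
  have h3 : deriv (fun t : ℝ => 2 * t) = fun _ => 2 := by
    funext t
    have := (hasDerivAt_id t).const_mul (2 : ℝ)
    simpa using this.deriv
  rw [h2, h3]
  ring

theorem continuous_fderiv_norm_sq {U : Set ℂ} {u : ℂ → ℝ} (hu : IsTest U u) :
    Continuous fun z => ‖fderiv ℝ u z‖ ^ 2 :=
  ((hu.smooth.continuous_fderiv (by simp)).norm).pow 2

theorem fderiv_eq_zero' {U : Set ℂ} {u : ℂ → ℝ} (_hu : IsTest U u) {z : ℂ} (hz : z ∉ tsupport u) :
    fderiv ℝ u z = 0 := by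
  have h1 : u =ᶠ[𝓝 z] fun _ => (0 : ℝ) := by
    filter_upwards [(isClosed_tsupport u).isOpen_compl.mem_nhds hz] with y hy
    exact image_eq_zero_of_notMem_tsupport hy
  rw [h1.fderiv_eq]
  simp

theorem integrable_of_continuous_comp {F : ℂ → ℝ} {K : Set ℂ} (hF : Continuous F)
    (hK : IsCompact K) (h0 : ∀ z, z ∉ K → F z = 0) : Integrable F :=
  hF.integrable_of_hasCompactSupport (HasCompactSupport.intro hK h0)

theorem integrable_energy {U : Set ℂ} {u : ℂ → ℝ} (hu : IsTest U u) :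
    Integrable fun z => ‖fderiv ℝ u z‖ ^ 2 :=
  integrable_of_continuous_comp (continuous_fderiv_norm_sq hu) hu.comp.isCompact
    fun z hz => by rw [fderiv_eq_zero' hu hz]; simp

theorem integrable_mul {U : Set ℂ} {u f : ℂ → ℝ} (hu : IsTest U u) (hf : Continuous f) :
    Integrable fun z => u z * f z :=
  integrable_of_continuous_comp (hu.smooth.continuous.mul hf) hu.comp.isCompact
    fun z hz => by rw [image_eq_zero_of_notMem_tsupport hz, zero_mul]

/-- `∫ u (-Δ u) = ∫ |∇u|²` -/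
theorem energy_eq {U : Set ℂ} {u : ℂ → ℝ} (hu : IsTest U u) :
    ∫ z, u z * (-(Δ u) z) = ∫ z, ‖fderiv ℝ u z‖ ^ 2 := by
  have hsq : IsTest U (fun z => u z ^ 2) := by
    refine ⟨hu.smooth.pow 2, ?_, ?_⟩
    · exact hu.comp.comp_left (g := fun t : ℝ => t ^ 2) (by simp)
    · refine (closure_mono ?_).trans hu.supp
      intro z hz hz'
      exact hz (by simp [hz'])
  have h1 := integral_lap hsq
  have h2 : ∀ z, (Δ (fun w => u w ^ 2)) z = 2 * ‖fderiv ℝ u z‖ ^ 2 + 2 * (u z * (Δ u) z) :=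
    fun z => lap_sq (hu.smooth.of_le (by norm_cast)).contDiffAt
  simp only [h2] at h1
  rw [integral_add ((integrable_energy hu).const_mul 2)
    ((integrable_mul hu hu.lap.smooth.continuous).const_mul 2), integral_const_mul,
    integral_const_mul] at h1
  have h3 : ∫ z, u z * (-(Δ u) z) = -∫ z, u z * (Δ u) z := by
    rw [← integral_neg]
    congr 1
    funext z
    ring
  rw [h3]
  linarith


/-! ### Green representation in the disc -/

theorem isTest_Tst {g : ℂ → ℝ} (hg : IsTest (ball (0 : ℂ) 1) g) :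
    ∃ r, 0 ≤ r ∧ r < 1 ∧ Tst r g := exists_Tst one_pos hg.smooth.continuous hg.comp hg.supp

theorem Gf_neg_lap {u g : ℂ → ℝ} (hu : IsTest (ball (0 : ℂ) 1) u)
    (hg : IsTest (ball (0 : ℂ) 1) g) : Gf 1 (fun w => -(Δ u) w) g = ∫ w, u w * g w := by
  obtain ⟨r, hr, hr1, hT⟩ := isTest_Tst hg
  rw [Gf_eq_U]
  have h1 : ∀ w, -(Δ u) w * U 1 g w = -(Ue 1 g w * (Δ u) w) := by
    intro w
    by_cases hw : w ∈ ball (0 : ℂ) 1
    · rw [U_eq_Ue one_pos hr hr1 hT (mem_ball_zero_iff.1 hw).le]; ring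
    · rw [hu.lap_eq_zero hw]; ring
  simp only [h1]
  rw [integral_neg]
  have h2 : ContDiffOn ℝ 2 (Ue 1 g) (Dm 1 r) := fun w hw =>
    ((contDiffAt_Ue hr hT hg.smooth hg.comp hw).of_le (by norm_cast)).contDiffWithinAt
  have h3 : tsupport u ⊆ Dm 1 r := fun w hw =>
    mem_Dm one_pos hr hr1 (mem_ball_zero_iff.1 (hu.supp hw)).le
  rw [green_onC (isOpen_Dm 1 r) h2 hu.smooth hu.comp h3, ← integral_neg]
  congr 1
  funext w
  by_cases hw : w ∈ ball (0 : ℂ) 1
  · rw [lap_Ue hr hT hg.smooth hg.comp (mem_Dm one_pos hr hr1 (mem_ball_zero_iff.1 hw).le)]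
    ring
  · rw [hu.eq_zero hw]; ring

theorem Gf_symm' {f g : ℂ → ℝ} (hf : IsTest (ball (0 : ℂ) 1) f) (hg : IsTest (ball (0 : ℂ) 1) g) :
    Gf 1 f g = Gf 1 g f := by
  obtain ⟨r, hr, hr1, hT⟩ := isTest_Tst hf
  obtain ⟨r', hr', hr1', hT'⟩ := isTest_Tst hg
  exact Gf_symm one_pos (r := max r r') (max_lt hr1 hr1') (hT.mono (le_max_left _ _))
    (hT'.mono (le_max_right _ _))

theorem Gf_add_left' {f1 f2 g : ℂ → ℝ} (hf1 : IsTest (ball (0 : ℂ) 1) f1)
    (hf2 : IsTest (ball (0 : ℂ) 1) f2) (hg : IsTest (ball (0 : ℂ) 1) g) :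
    Gf 1 (fun z => f1 z + f2 z) g = Gf 1 f1 g + Gf 1 f2 g := by
  obtain ⟨r, hr, hr1, hT⟩ := isTest_Tst hf1
  obtain ⟨r', hr', hr1', hT'⟩ := isTest_Tst hf2
  obtain ⟨r2, hr2, hr12, hT2⟩ := isTest_Tst hg
  exact Gf_add_left one_pos (r := max (max r r') r2) (max_lt (max_lt hr1 hr1') hr12)
    (hT.mono (le_max_of_le_left (le_max_left _ _)))
    (hT'.mono (le_max_of_le_left (le_max_right _ _))) (hT2.mono (le_max_right _ _))

theorem Gf_add_right' {g f1 f2 : ℂ → ℝ} (hg : IsTest (ball (0 : ℂ) 1) g)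
    (hf1 : IsTest (ball (0 : ℂ) 1) f1) (hf2 : IsTest (ball (0 : ℂ) 1) f2) :
    Gf 1 g (fun z => f1 z + f2 z) = Gf 1 g f1 + Gf 1 g f2 := by
  rw [Gf_symm' hg (hf1.add hf2), Gf_add_left' hf1 hf2 hg, Gf_symm' hf1 hg, Gf_symm' hf2 hg]

/-! ### the Green form of a domain on test functions -/

section domain

variable {D : Set ℂ} {φ ψ : ℂ → ℂ}

theorem DG_symm (B : Bih D (ball 0 1) φ ψ) {f g : ℂ → ℝ} (hf : IsTest D f) (hg : IsTest D g) :
    DG φ f g = DG φ g f := by
  rw [DG_eq B hf hg, DG_eq B hg hf, Gf_symm' (isTest_td B.symm hf) (isTest_td B.symm hg)]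

theorem DG_add_left (B : Bih D (ball 0 1) φ ψ) {f1 f2 g : ℂ → ℝ} (hf1 : IsTest D f1)
    (hf2 : IsTest D f2) (hg : IsTest D g) :
    DG φ (fun z => f1 z + f2 z) g = DG φ f1 g + DG φ f2 g := by
  rw [DG_eq B (hf1.add hf2) hg, DG_eq B hf1 hg, DG_eq B hf2 hg, td_add,
    Gf_add_left' (isTest_td B.symm hf1) (isTest_td B.symm hf2) (isTest_td B.symm hg)]

theorem DG_add_right (B : Bih D (ball 0 1) φ ψ) {g f1 f2 : ℂ → ℝ} (hg : IsTest D g)
    (hf1 : IsTest D f1) (hf2 : IsTest D f2) :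
    DG φ g (fun z => f1 z + f2 z) = DG φ g f1 + DG φ g f2 := by
  rw [DG_symm B hg (hf1.add hf2), DG_add_left B hf1 hf2 hg, DG_symm B hf1 hg, DG_symm B hf2 hg]

theorem DG_const_mul_left (φ : ℂ → ℂ) (c : ℝ) (f g : ℂ → ℝ) :
    DG φ (fun z => c * f z) g = c * DG φ f g := by
  unfold DG
  rw [← integral_const_mul]
  congr 1
  funext z
  rw [← integral_const_mul]
  congr 1
  funext w
  ring

theorem DG_const_mul_right (φ : ℂ → ℂ) (c : ℝ) (f g : ℂ → ℝ) :
    DG φ f (fun z => c * g z) = c * DG φ f g := by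
  unfold DG
  rw [← integral_const_mul]
  congr 1
  funext z
  rw [← integral_const_mul]
  congr 1
  funext w
  ring

/-- Green representation: `G(-Δu, f) = ∫ u f` -/
theorem DG_neg_lap (B : Bih D (ball 0 1) φ ψ) {u f : ℂ → ℝ} (hu : IsTest D u) (hf : IsTest D f) :
    DG φ (fun z => -(Δ u) z) f = ∫ z, u z * f z := by
  have hl : IsTest D (fun z => -(Δ u) z) := hu.lap.neg
  rw [DG_eq B hl hf]
  have h1 : td (ball 0 1) ψ (fun z => -(Δ u) z) = fun w => -(Δ (tr (ball 0 1) ψ u)) w := by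
    rw [lap_tr B.symm hu]
    funext w
    by_cases hw : w ∈ ball (0 : ℂ) 1
    · rw [td_mem hw, td_mem hw]; ring
    · rw [td_not hw, td_not hw, neg_zero]
  rw [h1, Gf_neg_lap (isTest_tr B.symm hu) (isTest_td B.symm hf),
    integral_tr_td B.symm u f (fun w hw => hf.eq_zero hw)]

/-- (C1): `domainGreenForm φ (-Δu) = ∫ |∇u|²` -/
theorem greenForm_neg_lap (B : Bih D (ball 0 1) φ ψ) {u : ℂ → ℝ} (hu : IsTest D u) :
    domainGreenForm φ (fun z => -(Δ u) z) = ∫ z, ‖fderiv ℝ u z‖ ^ 2 := by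
  rw [← DG_self, DG_neg_lap B hu hu.lap.neg, energy_eq hu]

/-- (C2): approximation -/
theorem exists_approx (B : Bih D (ball 0 1) φ ψ) {f : ℂ → ℝ} (hf : IsTest D f) {ε : ℝ}
    (hε : 0 < ε) : ∃ u : ℂ → ℝ, IsTest D u ∧ |domainGreenForm φ (fun z => f z + (Δ u) z)| < ε ∧
      |domainGreenForm φ f - ∫ z, ‖fderiv ℝ u z‖ ^ 2| < ε := by
  have hg := isTest_td B.symm hf
  set g := td (ball 0 1) ψ f with hgdef
  obtain ⟨C, η0, hC, hη0, H⟩ := dirichlet_approx one_pos hg.smooth hg.comp hg.supp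
  obtain ⟨η, hη, hη1, hη2⟩ : ∃ η : ℝ, 0 < η ∧ η < η0 ∧ 3 * (C * η) < ε := by
    refine ⟨min (η0 / 2) (ε / (6 * (C + 1))), lt_min (by linarith) (by positivity),
      (min_le_left _ _).trans_lt (by linarith), ?_⟩
    have h1 : min (η0 / 2) (ε / (6 * (C + 1))) ≤ ε / (6 * (C + 1)) := min_le_right _ _
    calc 3 * (C * min (η0 / 2) (ε / (6 * (C + 1)))) ≤ 3 * (C * (ε / (6 * (C + 1)))) := by gcongr
      _ = (C / (C + 1)) * (ε / 2) := by field_simp; ring
      _ ≤ 1 * (ε / 2) := by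
          gcongr
          rw [div_le_one (by linarith)]
          linarith
      _ < ε := by linarith
  obtain ⟨v, hv1, hv2, hv3, _, _, _, hv7, hv8⟩ := H η hη hη1
  have hv : IsTest (ball (0 : ℂ) 1) v := by
    refine ⟨hv1, hv2, ?_⟩
    have h1 : tsupport v ⊆ closedBall 0 (1 - η) := by
      refine closure_minimal (fun z hz => ?_) isClosed_closedBall
      rw [mem_closedBall_zero_iff]
      by_contra h
      exact hz (hv3 z (not_le.1 h).le)
    exact h1.trans (closedBall_subset_ball (by linarith))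
  have hvl := hv.lap
  have e1 : Gf 1 (Δ v) g = -∫ w, v w * g w := by
    have := Gf_neg_lap hv hg
    rw [← this]
    have h1 : (Δ v) = fun w => (-1 : ℝ) * (-(Δ v) w) := by funext w; ring
    conv_lhs => rw [h1]
    rw [Gf_const_mul_left]
    ring
  have e2 : Gf 1 (Δ v) (Δ v) = -∫ w, v w * (Δ v) w := by
    have := Gf_neg_lap hv hvl
    rw [← this]
    have h1 : (Δ v) = fun w => (-1 : ℝ) * (-(Δ v) w) := by funext w; ring
    conv_lhs => rw [h1]
    rw [Gf_const_mul_left]
    rw [← h1]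
    ring
  have e3 : Gf 1 (fun w => g w + (Δ v) w) (fun w => g w + (Δ v) w) =
      (Gf 1 g g - ∫ w, v w * (-(Δ v) w)) - 2 * ∫ w, v w * (g w + (Δ v) w) := by
    rw [Gf_add_left' hg hvl (hg.add hvl), Gf_add_right' hg hg hvl, Gf_add_right' hvl hg hvl,
      Gf_symm' hg hvl, e1, e2]
    have i1 : ∫ w, v w * (g w + (Δ v) w) = (∫ w, v w * g w) + ∫ w, v w * (Δ v) w := by
      rw [← integral_add (integrable_mul hv hg.smooth.continuous)
        (integrable_mul hv hvl.smooth.continuous)]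
      congr 1
      funext w
      ring
    have i2 : ∫ w, v w * (-(Δ v) w) = -∫ w, v w * (Δ v) w := by
      rw [← integral_neg]
      congr 1
      funext w
      ring
    rw [i1, i2]
    ring
  have hu := isTest_tr B hv
  refine ⟨tr D φ v, hu, ?_, ?_⟩
  · have h1 : (fun z => f z + (Δ (tr D φ v)) z) = td D φ (fun w => g w + (Δ v) w) := by
      rw [td_add, lap_tr B hv, hgdef, td_td B hf]
    rw [h1, ← DG_self, DG_td B _ _ (fun w hw => (hg.add hvl).eq_zero hw)
      (fun w hw => (hg.add hvl).eq_zero hw), e3]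
    have hv8' : |Gf 1 g g - ∫ w, v w * (-(Δ v) w)| ≤ C * η := by rw [abs_sub_comm]; exact hv8
    calc |(Gf 1 g g - ∫ w, v w * (-(Δ v) w)) - 2 * ∫ w, v w * (g w + (Δ v) w)|
        ≤ |Gf 1 g g - ∫ w, v w * (-(Δ v) w)| + |2 * ∫ w, v w * (g w + (Δ v) w)| := abs_sub _ _
      _ ≤ C * η + 2 * (C * η) := by
          rw [abs_mul, abs_two]
          gcongr
      _ < ε := by linarith
  · have h1 : ∫ z, ‖fderiv ℝ (tr D φ v) z‖ ^ 2 = ∫ w, v w * (-(Δ v) w) := by
      rw [← energy_eq hu]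
      have h2 : ∀ z, tr D φ v z * (-(Δ (tr D φ v)) z) = tr D φ v z * td D φ (fun w => -(Δ v) w) z := by
        intro z
        rw [lap_tr B hv]
        by_cases hz : z ∈ D
        · rw [td_mem hz, td_mem hz]; ring
        · rw [tr_not hz]; ring
      simp only [h2]
      exact integral_tr_td B v _ (fun w hw => by rw [hv.lap_eq_zero hw, neg_zero])
    rw [h1, ← DG_self, DG_eq B hf hf, ← hgdef, abs_sub_comm]
    have := mul_nonneg hC hη.le
    linarith

end domain

end

end Crest.Agent.R144.Con549
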