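import Crest.Agent.R144.Cov_356

/-!
# R144, S5 (contiguity), leaf COV (helper792): a cover of the middle of a collar by small balls

`nb S r = ⋃_{v ∈ S} ball v r`.  For `s` large, `s ≤ w d`, `r + d ≤ R s`, `K0 ⊆ ball a (R s)` there are `n ≥ 1` and at
most `J(R, K, w)` centres `y` with `ball y (K n + 2) ⊆ nb K0 (r + d) \ nb K0 r` such that, if `S'` blocks each
annulus `(y; n, 2 n)`, then `S'` blocks the collar.
-/

set_option autoImplicit false

namespace Crest.Agent.R144.Cov792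

open Crest.Agent.R144.It844 (P2 adj_iff adj_symm)
open Crest.Agent.R144.Zg349 (StepIn)
open Crest.Agent.R144.Rsw867
open Crest.Agent.R144.Cov356
open Crest.ProbabilityR.HexHeights (Adj)

/-- neighbourhood of a finite set -/
noncomputable def nb (S : Finset P2) (r : ℕ) : Finset P2 := S.biUnion fun v => ball v r

theorem mem_nb {S : Finset P2} {r : ℕ} {v : P2} : v ∈ nb S r ↔ ∃ k ∈ S, v ∈ ball k r := by
  unfold nb; rw [Finset.mem_biUnion]

theorem nb_mono {S : Finset P2} {r t : ℕ} (h : r ≤ t) : nb S r ⊆ nb S t := fun v hv => by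
  rw [mem_nb] at *
  obtain ⟨k, hk, h1⟩ := hv
  exact ⟨k, hk, ball_mono k h h1⟩

theorem ball_trans {a b v : P2} {r t u : ℕ} (h1 : b ∈ ball a r) (h2 : v ∈ ball b t) (h : r + t ≤ u) :
    v ∈ ball a u := by
  rw [mem_ball] at *
  simp only [abs_le] at *
  omega

theorem ball_symm {a b : P2} {r : ℕ} (h : b ∈ ball a r) : a ∈ ball b r := by
  rw [mem_ball] at *
  simp only [abs_le] at *
  omega

theorem nb_ball {S : Finset P2} {r t u : ℕ} {b v : P2} (h1 : b ∈ nb S r) (h2 : v ∈ ball b t)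
    (h : r + t ≤ u) : v ∈ nb S u := by
  rw [mem_nb] at *
  obtain ⟨k, hk, h3⟩ := h1
  exact ⟨k, hk, ball_trans h3 h2 h⟩

theorem adj_nb {S : Finset P2} {r : ℕ} {b v : P2} (h1 : b ∈ nb S r) (h2 : Adj b v) : v ∈ nb S (r + 1) := by
  rw [mem_nb] at *
  obtain ⟨k, hk, h3⟩ := h1
  exact ⟨k, hk, adj_ball h3 h2⟩

theorem self_ball (a : P2) (r : ℕ) : a ∈ ball a r := by
  rw [mem_ball]; simp

/-- first exit of a set along a path -/
theorem first_exit {T A : Set P2} {u v : P2} (p : Relation.ReflTransGen (StepIn T) u v) (hu : u ∈ A)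
    (hv : v ∉ A) : ∃ b c, b ∈ A ∧ c ∉ A ∧ Adj b c ∧ Relation.ReflTransGen (StepIn T) u c := by
  induction p with
  | refl => exact absurd hu hv
  | @tail b c hp hbc ih =>
    by_cases hb : b ∈ A
    · exact ⟨b, c, hb, hv, hbc.2.2, hp.tail hbc⟩
    · exact ih hb


end Crest.Agent.R144.Cov792
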