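import Crest.Agent.R144.Pst12_967
import Crest.Agent.R144.Cc9_169
import Crest.Agent.R144.Cge4_311

-- ▼ part R144/Ph1_311
section

/-!
# R144 (CCW): the phase modulo 4 is uniform under the F-type laws (helper311)

For a local function `f` of the heights with `f (h + 4) = f h`, the F-type expectations converge along `lC scs` to
`∫ (1/4) * ∑ j < 4, f (h + j) dP` (`ph`).  Proof: `conv_mod4` gives a limit `Φ f`; the zero boundary laws give
`Φ (f ∘ neg) = Φ f` (helper967's argument `conv_zero`, here `conv_zero4`); the F-type laws are invariant under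
`h ↦ 1 - h`; hence `Φ (f (· + 1)) = Φ f`, and the mean over `j` is a gradient observable.
-/

set_option autoImplicit false

noncomputable section

namespace Crest.Agent.R144.Ph311

open Finset Filter Topology MeasureTheory
open Crest.Agent.R144.It844 (P2 Lip adj_symm adj_iff adj_comm ex)
open Crest.ProbabilityR.HexHeights (Adj)
open Crest.Agent.R144.Zg349 Crest.Agent.R144.Zk349 Crest.Agent.R144.Zd349 Crest.Agent.R144.Zm349
open Crest.Agent.R144.Ze349
open Crest.Agent.R144.Pst967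

/-- local and `4`-periodic -/
structure Per4 (f : Hz → ℝ) : Prop where
  loc : ∃ S : Finset P2, LocZ (S : Set P2) f
  per : ∀ h, f (fun v => h v + 4) = f h

theorem Per4.z {f : Hz → ℝ} (hf : Per4 f) (h : Hz) (k : ℤ) : f (fun v => h v + 4 * k) = f h := by
  induction k using Int.induction_on with
  | zero => simp
  | succ i ih =>
    rw [← ih, ← hf.per (fun v => h v + 4 * (i : ℤ))]
    congr 1
    funext v
    ring
  | pred i ih =>
    rw [← ih, ← hf.per (fun v => h v + 4 * (-(i : ℤ) - 1))]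
    congr 1
    funext v
    ring

/-- shifts -/
theorem Per4.add {f : Hz → ℝ} (hf : Per4 f) (j : ℤ) : Per4 (fun h => f (fun v => h v + j)) := by
  obtain ⟨⟨S, hS⟩, hp⟩ := hf
  refine ⟨⟨S, fun h g hg => hS _ _ fun v hv => by rw [hg v hv]⟩, fun h => ?_⟩
  rw [← hp (fun v => h v + j)]
  congr 1
  funext v
  ring

theorem Per4.neg {f : Hz → ℝ} (hf : Per4 f) : Per4 (fun h => f (fun v => -h v)) := by
  obtain ⟨S, hS⟩ := hf.loc
  refine ⟨⟨S, fun h g hg => hS _ _ fun v hv => by rw [hg v hv]⟩, fun h => ?_⟩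
  have := hf.z (fun v => -h v) (-1)
  rw [← this]
  congr 1
  funext v
  ring

/-- bounded on Lipschitz heights -/
theorem Per4.bdd {f : Hz → ℝ} (hf : Per4 f) : ∃ C, ∀ h, Lip h → |f h| ≤ C := by
  classical
  obtain ⟨S, hS⟩ := hf.loc
  have hG : ∀ j : ℤ, GObs (fun h : Hz => f (fun v => h v - h 0 + j)) := by
    intro j
    refine ⟨⟨insert 0 S, fun h g hg => hS _ _ fun v hv => ?_⟩, fun h c => ?_⟩
    · have h0 : h 0 = g 0 := hg 0 (by simp)
      have h1 : h v = g v := hg v (by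
        rw [Finset.mem_coe] at *
        exact Finset.mem_insert_of_mem hv)
      simp only [h0, h1]
    · simp only [add_sub_add_right_eq_sub]
  choose C hC using fun j : ℤ => gobs_bounded (hG j)
  refine ⟨max (max (C 0) (C 1)) (max (C 2) (C 3)), fun h hl => ?_⟩
  have e : f h = f (fun v => h v - h 0 + (h 0 % 4)) := by
    rw [← hf.z (fun v => h v - h 0 + (h 0 % 4)) (h 0 / 4)]
    congr 1
    funext v
    have := Int.mul_ediv_add_emod (h 0) 4
    omega
  rw [e]
  have h1 := hC (h 0 % 4) h hl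
  refine h1.trans ?_
  have h2 : h 0 % 4 = 0 ∨ h 0 % 4 = 1 ∨ h 0 % 4 = 2 ∨ h 0 % 4 = 3 := by omega
  rcases h2 with h2 | h2 | h2 | h2 <;> rw [h2]
  · exact (le_max_left _ _).trans (le_max_left _ _)
  · exact (le_max_right _ _).trans (le_max_left _ _)
  · exact (le_max_left _ _).trans (le_max_right _ _)
  · exact (le_max_right _ _).trans (le_max_right _ _)

/-- **local `4`-periodic observables are local functions of the two colours** -/
theorem exists_colour4 {f : Hz → ℝ} (hf : Per4 f) :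
    ∃ (W : Finset P2) (g : (P2 → Bool) → (P2 → Bool) → (P2 → Bool) → ℝ) (C : ℝ), DepW W g ∧
      (∀ s a z, |g s a z| ≤ C) ∧
      ∀ h : Hz, Lip h → ∀ z, g (fun v => s1 (h v)) (fun v => s2 (h v)) z = f h := by
  classical
  obtain ⟨C, hC⟩ := hf.bdd
  have hC0 : 0 ≤ C := (abs_nonneg _).trans (hC (fun _ => 0) (Crest.Agent.R144.It844.lip_const 0))
  obtain ⟨S, hS⟩ := hf.loc
  obtain ⟨n, hn⟩ := subset_hexB S
  have h0n : (0 : P2) ∈ hexB n := by
    rw [mem_hexB]
    simp
  let Q : (P2 → Bool) → (P2 → Bool) → Hz → Prop := fun s a h =>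
    Lip h ∧ (∀ v ∈ hexB n, s1 (h v) = s v) ∧ ∀ v ∈ hexB n, s2 (h v) = a v
  let g : (P2 → Bool) → (P2 → Bool) → (P2 → Bool) → ℝ := fun s a _ =>
    if hh : ∃ h, Q s a h then f (Classical.choose hh) else 0
  have hval : ∀ s a z h, Q s a h → g s a z = f h := by
    intro s a z h hQ
    have hh : ∃ h, Q s a h := ⟨h, hQ⟩
    have h1 : g s a z = f (Classical.choose hh) := dif_pos hh
    rw [h1]
    have h2 := Classical.choose_spec hh
    set k := Classical.choose hh
    have h3 : ∀ v ∈ hexB n, k v - h v = k 0 - h 0 := fun v hv =>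
      grad_of_colours h2.1 hQ.1 (fun v hv => (h2.2.1 v hv).trans (hQ.2.1 v hv).symm)
        (fun v hv => (h2.2.2 v hv).trans (hQ.2.2 v hv).symm) hv
    have h5 := mod4_of_s ((h2.2.1 0 h0n).trans (hQ.2.1 0 h0n).symm)
      ((h2.2.2 0 h0n).trans (hQ.2.2 0 h0n).symm)
    obtain ⟨q, hq⟩ : ∃ q : ℤ, k 0 - h 0 = 4 * q := ⟨(k 0 - h 0) / 4, by omega⟩
    rw [← hf.z h q]
    refine hS _ _ fun v hv => ?_
    have := h3 v (hn hv)
    omega
  refine ⟨hexB n, g, C, ⟨fun s s' a a' z z' e1 e2 _ => ?_⟩, fun s a z => ?_, fun h hl z =>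
    hval _ _ z h ⟨hl, fun _ _ => rfl, fun _ _ => rfl⟩⟩
  · by_cases hh : ∃ h, Q s a h
    · obtain ⟨h, hQ⟩ := hh
      have hQ' : Q s' a' h := ⟨hQ.1, fun v hv => (hQ.2.1 v hv).trans (e1 v hv),
        fun v hv => (hQ.2.2 v hv).trans (e2 v hv)⟩
      rw [hval s a z h hQ, hval s' a' z' h hQ']
    · have hh' : ¬ ∃ h, Q s' a' h := by
        rintro ⟨h, hQ⟩
        exact hh ⟨h, hQ.1, fun v hv => (hQ.2.1 v hv).trans (e1 v hv).symm,
          fun v hv => (hQ.2.2 v hv).trans (e2 v hv).symm⟩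
      simp only [g, dif_neg hh, dif_neg hh']
  · by_cases hh : ∃ h, Q s a h
    · have h1 : g s a z = f (Classical.choose hh) := dif_pos hh
      rw [h1]
      exact hC _ (Classical.choose_spec hh).1
    · have h1 : g s a z = 0 := dif_neg hh
      rw [h1, abs_zero]
      exact hC0

/-- **convergence** of `4`-periodic local functions under the F-type laws -/
theorem conv4 {c : ℝ} (hc : 1 ≤ c) (hB : BLOCK c) {f : Hz → ℝ} (hf : Per4 f) : ∃ a, FLim c f a := by
  obtain ⟨W, g, C, h1, h2, h3⟩ := exists_colour4 hf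
  obtain ⟨a, ha⟩ := conv_mod4 hc hB h1 h2
  refine ⟨a, ha.congr fun F => ?_⟩
  exact E_congr fun ω hω => h3 ω.1 hω.ht.toLip ω.2

/-- **Passage to the zero boundary laws**, `4`-periodic local functions (helper967's `conv_zero`). -/
theorem conv_zero4 {c x : ℝ} (hc : 1 ≤ c) (hB : BLOCK c)
    (hZ : ∀ᶠ Λ in lC scs, ∃ E0 : (Cfg → ℝ) → ℝ, ZL c x Λ E0) {f : Hz → ℝ} (hf : Per4 f) {a : ℝ}
    (ha : FLim c (fun h => f (fun v => h v + 2)) a) :
    Tendsto (fun Λ : Finset P2 => ex x Λ (fun _ => 0) f) (lC scs) (𝓝 a) := by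
  classical
  obtain ⟨W, φ, C, hφ, hC, hfφ⟩ := exists_colour4 hf
  have hC0 : 0 ≤ C := (abs_nonneg _).trans (hC (fun _ => true) (fun _ => true) (fun _ => true))
  rw [Metric.tendsto_nhds]
  intro ε hε
  -- all large domains are good for the F-type laws
  have ha' := (Metric.tendsto_nhds.1 ha) (ε / 4) (by positivity)
  obtain ⟨S, hS⟩ := mem_lC.1 ha'
  obtain ⟨M, hM⟩ := subset_hexB (S ∪ W ∪ (S ∪ W).biUnion fun v => {v, (v.1 - 1, v.2), (v.1, v.2 - 1)})
  have hWIV : ∀ B : Finset P2, hexB M ⊆ B → W ⊆ IV B := by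
    intro B hMB v hv
    rw [mem_IV']
    intro t ht
    refine hMB (hM (Finset.mem_union_right _ (Finset.mem_biUnion.2
      ⟨v, Finset.mem_union_right _ hv, ?_⟩)))
    rw [mem_up'] at ht
    simp only [Finset.mem_insert, Finset.mem_singleton]
    exact ht
  have hSB : ∀ B : Finset P2, hexB M ⊆ B → S ⊆ B := fun B hMB v hv =>
    hMB (hM (Finset.mem_union_left _ (Finset.mem_union_left _ hv)))
  obtain ⟨N, hMN, hN⟩ := hB (M + 2) (ε / (8 * (C + |a| + 1))) (by positivity)
  obtain ⟨S', hS'⟩ := mem_lC.1 hN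
  obtain ⟨K, hK⟩ := subset_hexB (S' ∪ hexB (N + 2))
  have hK1 : S' ⊆ hexB K := fun v hv => hK (Finset.mem_union_left _ hv)
  have hK2 : hexB (N + 2) ⊆ hexB K := fun v hv => hK (Finset.mem_union_right _ hv)
  have hNIV : hexB N ⊆ IV (hexB K) := by
    intro v hv
    rw [mem_IV']
    intro t ht
    refine hK2 ?_
    rw [mem_up'] at ht
    rw [mem_hexB] at hv ⊢
    simp only [abs_le] at *
    push_cast
    rcases ht with rfl | rfl | rfl
    · omega
    · simp only at *
      omega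
    · simp only at *
      omega
  filter_upwards [hZ, mem_lC_of_subset (hexB (K + 2))] with Λ ⟨E0, h0⟩ hΛ
  have hKΛ : hexB K ⊆ Λ := (hexB_mono (by omega)).trans hΛ
  -- blocking under the zero law
  have hblk : E0 (nBlk (M + 2) N) ≤ ε / (8 * (C + |a| + 1)) :=
    (h0.upper (hexB K) (hexB_mem_scs K) hKΛ _ (incP_nBlk _ _) (inTZ_nBlk hNIV)).trans
      (hS' (hexB K) (hexB_mem_scs K) hK1)
  -- decomposition
  have hdec : ∀ B ∈ (hexB N).powerset, hexB M ⊆ B → B ∈ scs →
      |E0 (fun ω => BsI N B ω * (φ (c1 ω) (c2 ω) ω.2 - a))| ≤ ε / 4 * E0 (BsI N B) := by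
    intro B hBN hMB hBs
    rw [Finset.mem_powerset] at hBN
    have h1 : E0 (fun ω => BsI N B ω * (φ (c1 ω) (c2 ω) ω.2 - a)) =
        E0 (BsI N B) * (E c B (fun ω => f (fun v => ω.1 v + 2)) - a) := by
      have e1 : (fun ω => BsI N B ω * (φ (c1 ω) (c2 ω) ω.2 - a)) =
          fun ω => BsI N B ω * φ (c1 ω) (c2 ω) ω.2 - a * BsI N B ω := by
        funext ω; ring
      rw [e1, h0.sub, h0.smul]
      rw [h0.dec B hBs (fun t ht t' ha => by
        have h2 := hBN ht
        have h3 : t' ∈ hexB (N + 2) := by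
          rw [mem_hexB] at h2 ⊢
          simp only [abs_le] at *
          unfold Adj at ha
          push_cast
          omega
        exact hKΛ (hK2 h3)) (BsI N B) (offTZ_BsI N B) (BsI_nonneg N B) (fun ω hω => by
          have : Bs N ω = B := by
            by_contra h4
            exact hω (if_neg h4)
          rw [← this]
          exact mLay_Bs N ω) W (hWIV B hMB) φ hφ]
      have e2 : E c B (fun ω => φ (c1 (addH 2 ω)) (c2 (addH 2 ω)) ω.2) =
          E c B (fun ω => f (fun v => ω.1 v + 2)) := by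
        refine E_congr fun ω hω => ?_
        exact hfφ (addH 2 ω).1 (hω.ht.toLip.add_const 2) ω.2
      rw [e2]
      ring
    have h2 : dist (E c B (fun ω => f (fun v => ω.1 v + 2))) a < ε / 4 := hS B hBs (hSB B hMB)
    rw [Real.dist_eq] at h2
    have h3 : 0 ≤ E0 (BsI N B) := h0.nonneg _ fun ω _ => BsI_nonneg N B ω
    rw [h1, abs_mul, abs_of_nonneg h3, mul_comm]
    exact mul_le_mul_of_nonneg_right h2.le h3
  -- the total
  have htot : ex x Λ (fun _ => 0) f - a = E0 (fun ω => φ (c1 ω) (c2 ω) ω.2 - a) := by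
    rw [← h0.ht f]
    have e3 : E0 (fun ω => φ (c1 ω) (c2 ω) ω.2 - a) = E0 (fun ω => f ω.1 - a * 1) :=
      h0.congr fun ω hω => by rw [mul_one, ← hfφ ω.1 hω ω.2]; rfl
    rw [e3, h0.sub, h0.smul, h0.one, mul_one]
  have hsplit : E0 (fun ω => φ (c1 ω) (c2 ω) ω.2 - a) =
      ∑ B ∈ (hexB N).powerset, E0 (fun ω => BsI N B ω * (φ (c1 ω) (c2 ω) ω.2 - a)) := by
    rw [← h0.sum]
    refine h0.congr fun ω _ => ?_
    rw [← Finset.sum_mul, sum_BsI, one_mul]
  -- bad domains
  have hbad : ∀ B ∈ (hexB N).powerset, ¬ (hexB M ⊆ B ∧ B ∈ scs) →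
      |E0 (fun ω => BsI N B ω * (φ (c1 ω) (c2 ω) ω.2 - a))| ≤
        (C + |a|) * E0 (fun ω => BsI N B ω * nBlk (M + 2) N ω) := by
    intro B _ hnot
    have h1 : ∀ ω : Cfg, |BsI N B ω * (φ (c1 ω) (c2 ω) ω.2 - a)| ≤
        (C + |a|) * (BsI N B ω * nBlk (M + 2) N ω) := by
      intro ω
      unfold BsI
      split_ifs with h
      · have h2 : ¬ Blk (M + 2) N ω := by
          intro hb
          refine hnot ⟨?_, ?_⟩
          · rw [← h]; exact hexB_sub_Bs hb
          · rw [← h]; exact sc_Bs N ω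
        unfold nBlk
        rw [if_neg h2, one_mul, one_mul, mul_one]
        refine (abs_sub _ _).trans (add_le_add (hC _ _ _) le_rfl)
      · rw [zero_mul, abs_zero, zero_mul, mul_zero]
    rw [abs_le]
    constructor
    · rw [← h0.smul, neg_le_iff_add_nonneg, ← h0.add]
      exact h0.nonneg _ fun ω _ => by have := (abs_le.1 (h1 ω)).1; linarith
    · rw [← h0.smul]
      exact h0.mono fun ω _ => (abs_le.1 (h1 ω)).2
  have hfin : |∑ B ∈ (hexB N).powerset, E0 (fun ω => BsI N B ω * (φ (c1 ω) (c2 ω) ω.2 - a))| ≤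
      ∑ B ∈ (hexB N).powerset, (ε / 4 * E0 (BsI N B) +
        (C + |a|) * E0 (fun ω => BsI N B ω * nBlk (M + 2) N ω)) := by
    refine (Finset.abs_sum_le_sum_abs _ _).trans (Finset.sum_le_sum fun B hBN => ?_)
    have p1 : 0 ≤ ε / 4 * E0 (BsI N B) :=
      mul_nonneg (by positivity) (h0.nonneg _ fun ω _ => BsI_nonneg N B ω)
    have p2 : 0 ≤ (C + |a|) * E0 (fun ω => BsI N B ω * nBlk (M + 2) N ω) :=
      mul_nonneg (by positivity) (h0.nonneg _ fun ω _ => mul_nonneg (BsI_nonneg N B ω) (nBlk_nonneg _ _ _))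
    by_cases hgood : hexB M ⊆ B ∧ B ∈ scs
    · exact (hdec B hBN hgood.1 hgood.2).trans (by linarith)
    · exact (hbad B hBN hgood).trans (by linarith)
  have hsum : ∑ B ∈ (hexB N).powerset, (ε / 4 * E0 (BsI N B) +
        (C + |a|) * E0 (fun ω => BsI N B ω * nBlk (M + 2) N ω)) =
      ε / 4 + (C + |a|) * E0 (nBlk (M + 2) N) := by
    rw [Finset.sum_add_distrib, ← Finset.mul_sum, ← Finset.mul_sum, ← h0.sum, ← h0.sum]
    have e4 : (fun ω => ∑ i ∈ (hexB N).powerset, BsI N i ω) = fun _ => (1 : ℝ) := by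
      funext ω; exact sum_BsI N ω
    have e5 : (fun ω => ∑ i ∈ (hexB N).powerset, BsI N i ω * nBlk (M + 2) N ω) = nBlk (M + 2) N := by
      funext ω
      rw [← Finset.sum_mul, sum_BsI, one_mul]
    rw [e4, e5, h0.one, mul_one]
  rw [Real.dist_eq, htot, hsplit]
  refine lt_of_le_of_lt (hfin.trans hsum.le) ?_
  have h9 : 0 ≤ E0 (nBlk (M + 2) N) := h0.nonneg _ fun ω _ => nBlk_nonneg _ _ _
  have h10 : (C + |a|) * E0 (nBlk (M + 2) N) ≤ ε / 8 := by
    have hp : 0 < C + |a| + 1 := by positivity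
    calc (C + |a|) * E0 (nBlk (M + 2) N) ≤ (C + |a| + 1) * E0 (nBlk (M + 2) N) := by nlinarith
      _ ≤ (C + |a| + 1) * (ε / (8 * (C + |a| + 1))) := mul_le_mul_of_nonneg_left hblk hp.le
      _ = ε / 8 := by field_simp
  linarith


/-! ### symmetries of the limit -/

section
variable {c x : ℝ} {f : Hz → ℝ} {a : ℝ}

/-- invariance under `h ↦ -h` -/
theorem flim_neg (hc : 1 ≤ c) (hcx : c * x ^ 2 = 1) (hB : BLOCK c) (hf : Per4 f) (ha : FLim c f a) :
    FLim c (fun h => f (fun v => -h v)) a := by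
  have hne := cls_scs.neBot
  have hZ := eventually_zl (x := x) hc hcx
  set g : Hz → ℝ := fun h => f (fun v => h v + 2) with hg
  have hg4 : Per4 g := hf.add 2
  have e1 : (fun h : Hz => g (fun v => h v + 2)) = f := by
    funext h
    rw [hg, ← hf.per h]
    simp only
    congr 1
    funext v
    ring
  have t1 : Tendsto (fun Λ : Finset P2 => ex x Λ (fun _ => 0) g) (lC scs) (𝓝 a) :=
    conv_zero4 hc hB hZ hg4 (by rw [e1]; exact ha)
  obtain ⟨a', ha'⟩ := conv4 hc hB (hg4.neg.add 2)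
  have t2 := conv_zero4 hc hB hZ hg4.neg ha'
  have t3 : Tendsto (fun Λ : Finset P2 => ex x Λ (fun _ => 0) (fun h => g (fun v => -h v))) (lC scs)
      (𝓝 a) := t1.congr fun Λ => (ex_neg0 x Λ g).symm
  have e2 : a' = a := tendsto_nhds_unique t2 t3
  rw [← e2]
  have e3 : (fun h : Hz => f (fun v => -h v)) =
      fun h : Hz => (fun h => g (fun v => -h v)) (fun v => h v + 2) := by
    funext h
    simp only [hg]
    congr 1
    funext v
    ring
  rw [e3]
  exact ha'

/-- invariance under `h ↦ 1 - h` -/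
theorem flim_refl (hf : Per4 f) (ha : FLim c f a) : FLim c (fun h => f (fun v => 1 - h v)) a := by
  obtain ⟨S, hS⟩ := hf.loc
  refine Tendsto.congr' ?_ ha
  filter_upwards [mem_lC_of_subset (𝓒 := scs) S] with F hF
  rw [← Pos561.E_rf c F (fun ω => f ω.1)]
  refine E_congr fun ω _ => hS _ _ fun v hv => ?_
  exact Pos561.rf_of_mem (subset_VF hF hv)

/-- invariance under `h ↦ h + 1` -/
theorem flim_one (hc : 1 ≤ c) (hcx : c * x ^ 2 = 1) (hB : BLOCK c) (hf : Per4 f) (ha : FLim c f a) :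
    FLim c (fun h => f (fun v => h v + 1)) a := by
  have h1 := flim_refl hf ha
  have hp : Per4 (fun h : Hz => f (fun v => 1 - h v)) := by
    have h2 := (hf.add 1).neg
    have e : (fun h : Hz => f (fun v => 1 - h v)) = fun h => f (fun v => -h v + 1) := by
      funext h
      congr 1
      funext v
      ring
    rw [e]
    exact h2
  have h2 := flim_neg hc hcx hB hp h1
  have e : (fun h : Hz => f (fun v => h v + 1)) =
      fun h : Hz => (fun h => f (fun v => 1 - h v)) (fun v => -h v) := by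
    funext h
    simp only
    congr 1
    funext v
    ring
  rw [e]
  exact h2

theorem flim_add (hc : 1 ≤ c) (hcx : c * x ^ 2 = 1) (hB : BLOCK c) (hf : Per4 f) (ha : FLim c f a)
    (j : ℕ) : FLim c (fun h => f (fun v => h v + j)) a := by
  induction j with
  | zero =>
    simp only [Nat.cast_zero, add_zero]
    exact ha
  | succ j ih =>
    have h1 := flim_one hc hcx hB (hf.add j) ih
    have e : (fun h : Hz => f (fun v => h v + ((j + 1 : ℕ) : ℤ))) =
        fun h : Hz => f (fun v => h v + 1 + (j : ℤ)) := by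
      funext h
      congr 1
      funext v
      push_cast
      ring
    rw [e]
    exact h1

/-- the mean over the four phases -/
def mean4 (f : Hz → ℝ) (h : Hz) : ℝ := (1 / 4) * ∑ j ∈ Finset.range 4, f (fun v => h v + j)

theorem mean4_one (hf : Per4 f) (h : Hz) : mean4 f (fun v => h v + 1) = mean4 f h := by
  unfold mean4
  congr 1
  simp only [Finset.sum_range_succ, Finset.sum_range_zero, zero_add]
  have e0 : f (fun v => h v + 1 + ((0 : ℕ) : ℤ)) = f (fun v => h v + ((1 : ℕ) : ℤ)) := by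
    congr 1; funext v; push_cast; ring
  have e1 : f (fun v => h v + 1 + ((1 : ℕ) : ℤ)) = f (fun v => h v + ((2 : ℕ) : ℤ)) := by
    congr 1; funext v; push_cast; ring
  have e2 : f (fun v => h v + 1 + ((2 : ℕ) : ℤ)) = f (fun v => h v + ((3 : ℕ) : ℤ)) := by
    congr 1; funext v; push_cast; ring
  have e3 : f (fun v => h v + 1 + ((3 : ℕ) : ℤ)) = f (fun v => h v + ((0 : ℕ) : ℤ)) := by
    rw [← hf.per (fun v => h v + ((0 : ℕ) : ℤ))]
    congr 1; funext v; push_cast; ring
  rw [e0, e1, e2, e3]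
  ring

theorem gobs_mean4 (hf : Per4 f) : GObs (mean4 f) := by
  obtain ⟨S, hS⟩ := hf.loc
  refine ⟨⟨S, fun h g hg => ?_⟩, fun h c => ?_⟩
  · unfold mean4
    congr 1
    refine Finset.sum_congr rfl fun j _ => hS _ _ fun v hv => ?_
    rw [hg v hv]
  · induction c using Int.induction_on with
    | zero => simp
    | succ i ih =>
      rw [← ih, ← mean4_one hf (fun v => h v + (i : ℤ))]
      congr 1
      funext v
      ring
    | pred i ih =>
      rw [← ih, ← mean4_one hf (fun v => h v + (-(i : ℤ) - 1))]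
      congr 1
      funext v
      ring

/-- **(PH)** the phase modulo `4` is uniform and independent of the gradient in the limit of the F-type laws. -/
theorem ph_per4 (hc : 1 ≤ c) (hcx : c * x ^ 2 = 1) (hB : BLOCK c) {P : Measure Hz}
    (hF : ∀ f : Hz → ℝ, GObs f → FLim c f (∫ h, f h ∂P)) (hf : Per4 f) :
    FLim c f (∫ h, mean4 f h ∂P) := by
  have hne := cls_scs.neBot
  obtain ⟨a, ha⟩ := conv4 hc hB hf
  have h1 : FLim c (mean4 f) a := by
    have h2 : Tendsto (fun F : Finset P2 => (1 / 4 : ℝ) * ∑ j ∈ Finset.range 4,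
        E c F (fun ω => f (fun v => ω.1 v + j))) (lC scs)
        (𝓝 ((1 / 4 : ℝ) * ∑ _j ∈ Finset.range 4, a)) :=
      (tendsto_finsetSum _ fun j _ => flim_add hc hcx hB hf ha j).const_mul _
    have e : (1 / 4 : ℝ) * ∑ _j ∈ Finset.range 4, a = a := by
      rw [Finset.sum_const, Finset.card_range]
      simp only [nsmul_eq_mul]
      push_cast
      ring
    rw [e] at h2
    refine h2.congr fun F => ?_
    rw [← E_sum, ← E_smul]
    rfl
  have h2 := tendsto_nhds_unique h1 (hF _ (gobs_mean4 hf))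
  rw [← h2]
  exact ha

end


end Crest.Agent.R144.Ph311
end
end

-- ▼ part R144/Cpl_311

/-!
# R144 (CCW, step B), plane form (helper311)

* `uni_ph` : for `f` local neutral and a finite set `W`, `E_F (f Yb) - ∫ f mean4 Yb dP → 0` uniformly over the
  `4`-periodic functions `Yb` of the heights on `W` bounded by `1`;
* `planeB` : helper169's `stepB` for the plane state.
-/

set_option autoImplicit false

noncomputable section

namespace Crest.Agent.R144.Cpl311

open Finset Filter Topology MeasureTheory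
open Crest.Agent.R144.It844 (P2 Lip adj_symm adj_iff)
open Crest.ProbabilityR.HexHeights (Adj)
open Crest.Agent.R144.Zg349 Crest.Agent.R144.Zk349 Crest.Agent.R144.Zd349 Crest.Agent.R144.Zm349
open Crest.Agent.R144.Ze349
open Crest.Agent.R144.Pst967 (Hz LocZ NeutZ GObs PinnedZ FLim lC scs BLOCK cls_scs mem_lC mem_lC_of_subset
  integrable_gobs nrm lip_bound)
open Crest.Agent.R144.Ph311
open Crest.Agent.R144.Cgeo311
open Crest.Agent.R144.Rsw867 (RSW)

/-! ### patterns modulo 4 -/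

open Classical in
/-- heights on `W`, normalised modulo a multiple of `4` -/
def nm (W : Finset P2) (h : Hz) : Hz := fun v => if v ∈ W then h v - 4 * (h 0 / 4) else 0

theorem nm_mem {W : Finset P2} {h : Hz} {v : P2} (hv : v ∈ W) : nm W h v = h v - 4 * (h 0 / 4) := if_pos hv

theorem nm_loc (W : Finset P2) : LocZ ((insert 0 W : Finset P2) : Set P2) (nm W) := by
  intro h g hg
  funext v
  unfold nm
  have h0 : h 0 = g 0 := hg 0 (by simp)
  by_cases hv : v ∈ W
  · rw [if_pos hv, if_pos hv, h0, hg v (by simp [hv])]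
  · rw [if_neg hv, if_neg hv]

theorem nm_four (W : Finset P2) (h : Hz) : nm W (fun v => h v + 4) = nm W h := by
  funext v
  unfold nm
  by_cases hv : v ∈ W
  · rw [if_pos hv, if_pos hv]
    simp only
    omega
  · rw [if_neg hv, if_neg hv]

/-- a `4`-periodic function of the heights on `W` is a function of `nm` -/
theorem eq_nm {W : Finset P2} {Y : Hz → ℝ} (hl : LocZ (W : Set P2) Y)
    (h4 : ∀ (h : Hz) (k : ℤ), Y (fun v => h v + 4 * k) = Y h) (h : Hz) : Y (nm W h) = Y h := by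
  rw [← h4 h (-(h 0 / 4))]
  refine hl _ _ fun v hv => ?_
  rw [nm_mem hv]
  ring

/-- finitely many patterns -/
theorem finite_nm (W : Finset P2) : ∃ T : Finset Hz, ∀ h : Hz, Lip h → nm W h ∈ T := by
  classical
  set D : ℤ := ((∑ v ∈ W, nrm v : ℕ) : ℤ) with hD
  refine ⟨(W.pi fun _ => Finset.Icc (-D) (D + 3)).image
    fun p v => if hv : v ∈ W then p v hv else 0, fun h hl => ?_⟩
  rw [Finset.mem_image]
  refine ⟨fun v _ => h v - 4 * (h 0 / 4), ?_, ?_⟩
  · rw [Finset.mem_pi]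
    intro v hv
    have h1 := abs_le.1 (lip_bound hl v)
    have h2 : (nrm v : ℤ) ≤ D := by
      rw [hD]
      exact_mod_cast Finset.single_le_sum (f := fun v => nrm v) (fun _ _ => Nat.zero_le _) hv
    rw [Finset.mem_Icc]
    omega
  · funext v
    unfold nm
    by_cases hv : v ∈ W
    · rw [dif_pos hv, if_pos hv]
    · rw [dif_neg hv, if_neg hv]

/-! ### the mean over the phases -/

theorem mean4_mul {f Y : Hz → ℝ} (hf : NeutZ f) (h : Hz) :
    mean4 (fun h => f h * Y h) h = f h * mean4 Y h := by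
  unfold mean4
  have e : ∀ j ∈ Finset.range 4, f (fun v => h v + (j : ℤ)) * Y (fun v => h v + (j : ℤ)) =
      f h * Y (fun v => h v + (j : ℤ)) := fun j _ => by rw [hf]
  rw [Finset.sum_congr rfl e, ← Finset.mul_sum]
  ring

theorem mean4_abs {Y : Hz → ℝ} (hY : ∀ h, |Y h| ≤ 1) (h : Hz) : |mean4 Y h| ≤ 1 := by
  unfold mean4
  rw [abs_mul, abs_of_nonneg (by norm_num : (0 : ℝ) ≤ 1 / 4)]
  have h1 : |∑ j ∈ Finset.range 4, Y (fun v => h v + (j : ℤ))| ≤ ∑ _j ∈ Finset.range 4, (1 : ℝ) :=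
    (Finset.abs_sum_le_sum_abs _ _).trans (Finset.sum_le_sum fun j _ => hY _)
  simp only [Finset.sum_const, Finset.card_range, nsmul_eq_mul] at h1
  push_cast at h1
  linarith

theorem mean4_loc {S : Set P2} {Y : Hz → ℝ} (hY : LocZ S Y) : LocZ S (mean4 Y) := by
  intro h g hg
  unfold mean4
  congr 1
  refine Finset.sum_congr rfl fun j _ => hY _ _ fun v hv => ?_
  rw [hg v hv]

theorem mean4_sum {ι : Type*} (T : Finset ι) (a : ι → ℝ) (F : ι → Hz → ℝ) {Y : Hz → ℝ}
    (hY : ∀ h, Lip h → Y h = ∑ q ∈ T, a q * F q h) {h : Hz} (hl : Lip h) :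
    mean4 Y h = ∑ q ∈ T, a q * mean4 (F q) h := by
  unfold mean4
  have e : ∀ j ∈ Finset.range 4, Y (fun v => h v + (j : ℤ)) =
      ∑ q ∈ T, a q * F q (fun v => h v + (j : ℤ)) := fun j _ => hY _ (hl.add_const _)
  rw [Finset.sum_congr rfl e, Finset.sum_comm, Finset.mul_sum]
  refine Finset.sum_congr rfl fun q _ => ?_
  rw [← Finset.mul_sum]
  ring

/-- **uniform convergence** -/
theorem uni_ph {c x : ℝ} (hc : 1 ≤ c) (hcx : c * x ^ 2 = 1) (hB : BLOCK c) {P : Measure Hz}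
    (hP : PinnedZ P) (hF : ∀ f : Hz → ℝ, GObs f → FLim c f (∫ h, f h ∂P)) {f : Hz → ℝ} (hf : GObs f)
    (W : Finset P2) {ε : ℝ} (hε : 0 < ε) :
    ∀ᶠ F in lC scs, ∀ Y : Hz → ℝ, LocZ (W : Set P2) Y →
      (∀ (h : Hz) (k : ℤ), Y (fun v => h v + 4 * k) = Y h) → (∀ h, |Y h| ≤ 1) →
      |E c F (fun ω => f ω.1 * Y ω.1) - ∫ h, f h * mean4 Y h ∂P| ≤ ε := by
  classical
  have := hP.prob
  obtain ⟨T, hT⟩ := finite_nm W
  obtain ⟨⟨S, hS⟩, hN⟩ := hf
  set G : Hz → Hz → ℝ := fun q h => (if nm W h = q then 1 else 0) * f h with hG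
  have hG4 : ∀ q, Per4 (G q) := by
    intro q
    refine ⟨⟨insert 0 (W ∪ S), fun h g hg => ?_⟩, fun h => ?_⟩
    · simp only [hG]
      rw [nm_loc W h g fun v hv => hg v (by
        simp only [Finset.coe_insert, Set.mem_insert_iff, Finset.mem_coe, Finset.mem_union] at *
        tauto), hS h g fun v hv => hg v (by
        simp only [Finset.coe_insert, Set.mem_insert_iff, Finset.mem_coe, Finset.mem_union] at *
        tauto)]
    · simp only [hG]
      rw [nm_four, hN]
  have hlim : ∀ q, FLim c (G q) (∫ h, mean4 (G q) h ∂P) := fun q => ph_per4 hc hcx hB hF (hG4 q)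
  have hsum : Tendsto (fun F : Finset P2 => ∑ q ∈ T, |E c F (fun ω => G q ω.1) - ∫ h, mean4 (G q) h ∂P|)
      (lC scs) (𝓝 0) := by
    have h1 : Tendsto (fun F : Finset P2 => ∑ q ∈ T, |E c F (fun ω => G q ω.1) -
        ∫ h, mean4 (G q) h ∂P|) (lC scs) (𝓝 (∑ _q ∈ T, (0 : ℝ))) := by
      refine tendsto_finsetSum _ fun q _ => ?_
      have h2 := (hlim q).sub_const (∫ h, mean4 (G q) h ∂P)
      rw [sub_self] at h2
      have h3 := h2.abs
      rwa [abs_zero] at h3
    rwa [Finset.sum_const_zero] at h1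
  filter_upwards [hsum.eventually_le_const hε] with F hFε Y hl h4 hY1
  have hdec : ∀ h : Hz, Lip h → f h * Y h = ∑ q ∈ T, Y q * G q h := by
    intro h hh
    have e : ∀ q ∈ T, Y q * G q h = if nm W h = q then Y q * f h else 0 := by
      intro q _
      simp only [hG]
      split_ifs <;> ring
    rw [Finset.sum_congr rfl e, Finset.sum_ite_eq, if_pos (hT h hh), eq_nm hl h4]
    ring
  have e1 : E c F (fun ω => f ω.1 * Y ω.1) = ∑ q ∈ T, Y q * E c F (fun ω => G q ω.1) := by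
    rw [E_congr (g := fun ω => ∑ q ∈ T, Y q * G q ω.1) fun ω hω => hdec ω.1 hω.ht.toLip, E_sum]
    exact Finset.sum_congr rfl fun q _ => E_smul _ _ _ _
  have e2 : ∫ h, f h * mean4 Y h ∂P = ∑ q ∈ T, Y q * ∫ h, mean4 (G q) h ∂P := by
    have e3 : ∫ h, f h * mean4 Y h ∂P = ∫ h, ∑ q ∈ T, Y q * mean4 (G q) h ∂P := by
      refine integral_congr_ae ?_
      filter_upwards [hP.lip] with h hh
      rw [← mean4_mul hN]
      exact mean4_sum T (fun q => Y q) G hdec hh
    rw [e3, integral_finsetSum _ fun q _ => (integrable_gobs (gobs_mean4 (hG4 q)) hP.lip).const_mul _]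
    exact Finset.sum_congr rfl fun q _ => integral_const_mul _ _
  rw [e1, e2, ← Finset.sum_sub_distrib]
  refine le_trans ((Finset.abs_sum_le_sum_abs _ _).trans (Finset.sum_le_sum fun q _ => ?_)) hFε
  rw [← mul_sub, abs_mul]
  exact mul_le_of_le_one_left (abs_nonneg _) (hY1 q)

/-- all large simply connected domains are good -/
theorem eventually_inF (g : GP) : ∀ᶠ F in lC scs, SC F ∧ g.InF F := by
  classical
  refine mem_lC.2 ⟨g.SL ∪ g.SL.biUnion fun t =>
    {(t.1 + 1, t.2), (t.1 - 1, t.2), (t.1, t.2 + 1), (t.1, t.2 - 1), (t.1 + 1, t.2 - 1),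
      (t.1 - 1, t.2 + 1)}, fun F hF hs => ⟨hF, ⟨fun t ht => hs (Finset.mem_union_left _ ht),
      fun t ht t' ha => hs (Finset.mem_union_right _ (Finset.mem_biUnion.2 ⟨t, ht, ?_⟩))⟩⟩⟩
  rcases adj_iff.1 ha with h | h | h | h | h | h <;> rw [h] <;> simp

/-- **Step B for the plane state.** -/
theorem planeB {c x : ℝ} {K : ℕ} {p : ℝ} (_hx : 0 < x) (hc : 1 ≤ c) (hcx : c * x ^ 2 = 1) (hR : RSW c K p)
    (hB : BLOCK c) {P : Measure Hz} (hP : PinnedZ P)
    (hF : ∀ f : Hz → ℝ, GObs f → FLim c f (∫ h, f h ∂P)) (hh : ℕ) :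
    ∃ (L : ℕ) (C α : ℝ), 1 ≤ L ∧ 0 < C ∧ 0 < α ∧ ∀ g : GP, g.K = K → g.h = hh → g.L = L →
      ∀ f : Hz → ℝ, LocZ (VF g.V0 : Set P2) f → NeutZ f →
      ∀ Y : Hz → ℝ, GObs Y → LocZ {v : P2 | v ∉ VF g.SL} Y → (∀ h, |Y h| ≤ 1) →
      ∀ ε : ℝ, (∀ Y' : Hz → ℝ, NeutZ Y' → LocZ (VF g.Lay : Set P2) Y' → (∀ h, |Y' h| ≤ 1) →
        |∫ h, f h * Y' h ∂P| ≤ ε) → ∀ t : ℝ, 0 < t →
      |∫ h, f h * Y h ∂P| ≤ ε + t * (C * Real.exp (-(α * g.m))) + t⁻¹ * ∫ h, f h ^ 2 ∂P := by
  obtain ⟨L, C, α, hL, hC, hα, key⟩ := E2_le hc hR hh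
  refine ⟨L, C, α, hL, hC, hα, fun g hgK hgh hgL f hfl hfn Y hYg hYl hY1 ε hε t ht => ?_⟩
  have hne := cls_scs.neBot
  have hfG : GObs f := ⟨⟨VF g.V0, hfl⟩, hfn⟩
  have hq0 : 0 < p ^ g.nstk := pow_pos hR.p0 _
  have hq1 : p ^ g.nstk ≤ 1 := pow_le_one₀ hR.p0.le (by linarith [hR.p1])
  have hV0SL : g.V0 ⊆ g.SL := by
    have h1 := GP.H_ge (g := g)
    have h2 := g.w_pos
    have h3 := g.W_le (Nat.zero_le g.m)
    have h4 : g.W 0 = g.w0 * g.w := by unfold GP.W GP.Wn; push_cast; ring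
    exact Box_mono le_rfl (by omega) (by omega) (by omega)
  have hVL : Disjoint g.V0 g.Lay := by
    rw [Finset.disjoint_left]
    intro v hv hv'
    unfold GP.V0 at hv
    rw [mem_Box] at hv
    have := (GP.mem_Lay.1 hv').2
    omega
  refine le_of_forall_pos_le_add fun η hη => ?_
  set η' : ℝ := η / (2 + t⁻¹) with hη'
  have ht' : 0 < t⁻¹ := inv_pos.2 ht
  have hη'0 : 0 < η' := by positivity
  have a1 := (Metric.tendsto_nhds.1 (hF _ (hfG.map₂ hYg fun a b => a * b))) η' hη'0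
  have a2 := (Metric.tendsto_nhds.1 (hF _ (hfG.comp fun a => a ^ 2))) η' hη'0
  have a3 := uni_ph hc hcx hB hP hF hfG (VF g.Lay) hη'0
  obtain ⟨F, ⟨hSC, hInF⟩, b1, b2, b3⟩ := ((eventually_inF g).and (a1.and (a2.and a3))).exists
  set s := g.st F hInF with hs
  obtain ⟨Yb, c1, c2, c3, c4⟩ := Crest.Agent.R144.Cc169.St.stepB (s := s) hc hq0 hq1
    (GP.chain0 (g := g) (F := F) (hF := hInF) hc hR) hV0SL hVL (f := f) hfl
    (fun h k => hfn h (4 * k)) (Y := Y) hYl hY1
  have d1 := c4 t ht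
  have d2 := key g hgK hgh hgL F hInF hSC
  have d3 := b3 Yb c1 c3 c2
  have d4 := hε (mean4 Yb) (gobs_mean4 (f := Yb) ⟨⟨VF g.Lay, c1⟩, fun h => by
    have := c3 h 1
    rwa [mul_one] at this⟩).neut (mean4_loc c1) (mean4_abs c2)
  rw [Real.dist_eq] at b1 b2
  have e1 : s.F = F := rfl
  rw [e1] at d1
  have f1 : t * s.E2 c (fun ω ω' => s.Kp (p ^ g.nstk) g.bk g.m ω ω' ^ 2) ≤
      t * (C * Real.exp (-(α * g.m))) := mul_le_mul_of_nonneg_left d2 ht.le
  have f2 : t⁻¹ * E c F (fun ω => f ω.1 ^ 2) ≤ t⁻¹ * (∫ h, f h ^ 2 ∂P + η') :=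
    mul_le_mul_of_nonneg_left (by have := (abs_lt.1 b2).2; linarith) ht'.le
  have f3 : (2 + t⁻¹) * η' = η := by
    rw [hη']
    field_simp
  have g1 := abs_lt.1 b1
  have g2 := abs_le.1 d1
  have g3 := abs_le.1 d3
  have g4 := abs_le.1 d4
  rw [abs_le]
  constructor
  · nlinarith
  · nlinarith

end Crest.Agent.R144.Cpl311
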