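import Crest.Agent.R144.Cw6_643

-- ▼ part R144/Cw7_643
section

/-!
# R144 (helper643), CW block, file 7: the limit theorem

* `sum_tendsto`: `∑ ψ(centre v) a n v → ∫ ψ f` for `Near δ a f`;
* `tv_tendsto`: the total variation of a near family tends to `0`;
* **`cv_tendsto`**: `CV V (s n) (b n) (t n) (a n) → (2 L/√3) ∫ ψ f`;
* **`ward_tendsto`**: `CV V (b n) (a n) → 0` when the profiles `-Δψ`, `f` satisfy `ψ f = 0`.
-/

set_option autoImplicit false

noncomputable section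

namespace Crest.Agent.R144.Cw643

open Finset Filter Topology MeasureTheory
open Crest.Agent.R144.Tp952
open Crest.ProbabilityR.HexHeights (centre)
open Crest.Agent.R144.HexTil353 Crest.Agent.R144.Geo268
open scoped Real ContDiff Laplacian

theorem sqrt3_half_le : Real.sqrt 3 / 2 ≤ 1 := by
  have : Real.sqrt 3 ≤ 2 := by
    rw [Real.sqrt_le_left (by norm_num)]; norm_num
  linarith

/-- modulus of continuity -/
theorem exists_mod {g : ℂ → ℝ} (hg : UniformContinuous g) {δ : ℕ → ℝ} (hδ0 : Tendsto δ atTop (𝓝 0))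
    {ε : ℝ} (hε : 0 < ε) : ∀ᶠ n in atTop, ∀ z w : ℂ, ‖z - w‖ ≤ 2 * δ n → |g z - g w| ≤ ε := by
  obtain ⟨η, hη, hη'⟩ := Metric.uniformContinuous_iff.1 hg ε hε
  filter_upwards [hδ0.eventually (gt_mem_nhds (show (0 : ℝ) < η / 2 by positivity))] with n hn z w hzw
  have h1 : dist z w < η := by
    rw [dist_eq_norm]; linarith
  have := hη' h1
  rw [Real.dist_eq] at this
  exact this.le

/-- floor coordinates of a point of the ball -/
theorem floor_mem {d R : ℝ} (hd : 0 < d) {z : ℂ} (hz : ‖z‖ ≤ R) :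
    (⌊ca d z⌋, ⌊cb d z⌋) ∈ BX (mm R d) := by
  have hR : 0 ≤ R := (norm_nonneg _).trans hz
  have h1 : ‖z‖ ^ 2 ≤ R ^ 2 := pow_le_pow_left₀ (norm_nonneg _) hz 2
  rw [← cen_ca_cb hd z, norm_cen_sq] at h1
  have h2 := N_ge (ca d z) (cb d z)
  have h3 : d ^ 2 * ((1 / 2) * (ca d z ^ 2 + cb d z ^ 2)) ≤ R ^ 2 :=
    (mul_le_mul_of_nonneg_left h2 (sq_nonneg _)).trans h1
  have key : ∀ x : ℝ, d ^ 2 * (1 / 2 * x ^ 2) ≤ R ^ 2 → |⌊x⌋| ≤ (mm R d : ℤ) := by
    intro x hx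
    have h4 : |x| ≤ 2 * R / d := by
      rw [le_div_iff₀ hd]
      apply le_of_sq_le_sq _ (by positivity)
      rw [mul_pow, sq_abs]
      nlinarith
    have h5 := h4.trans (Nat.le_ceil (2 * R / d))
    obtain ⟨h6, h7⟩ := abs_le.1 h5
    unfold mm
    rw [abs_le]
    push_cast
    constructor
    · refine Int.le_floor.2 ?_
      push_cast
      linarith
    · have : (⌊x⌋ : ℝ) ≤ x := Int.floor_le x
      have h8 : (⌊x⌋ : ℝ) ≤ ((⌈2 * R / d⌉₊ : ℤ) + 1 : ℤ) := by push_cast; linarith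
      exact_mod_cast h8
  rw [mem_BX]
  constructor
  · apply key
    nlinarith [mul_nonneg (sq_nonneg d) (sq_nonneg (cb d z))]
  · apply key
    nlinarith [mul_nonneg (sq_nonneg d) (sq_nonneg (ca d z))]

/-- Riemann sums of continuous functions with compact support -/
theorem riemann_tendsto {g : ℂ → ℝ} (hg : Continuous g) (hc : HasCompactSupport g) {δ : ℕ → ℝ}
    (hδ : ∀ n, 0 < δ n) (hδ0 : Tendsto δ atTop (𝓝 0)) {R : ℝ} (hR : ∀ z, g z ≠ 0 → ‖z‖ ≤ R)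
    (hR0 : 0 ≤ R) :
    Tendsto (fun n => Real.sqrt 3 / 2 * δ n ^ 2 * ∑ p ∈ BX (mm R (δ n)), g (centre (δ n) p)) atTop
      (𝓝 (∫ z, g z)) := by
  have hu := hc.uniformContinuous_of_continuous hg
  rw [Metric.tendsto_nhds]
  intro ε hε
  set K := (4 * R + 5) ^ 2 with hK
  have hKp : 0 < K := by positivity
  filter_upwards [exists_mod hu hδ0 (show 0 < ε / (2 * K) by positivity),
    hδ0.eventually (gt_mem_nhds (show (0 : ℝ) < 1 by norm_num))] with n h1 h2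
  have h3 := riemann hg (hδ n) h1 (m := mm R (δ n)) (fun z hz => floor_mem (hδ n) (hR z hz))
  rw [Real.dist_eq, abs_sub_comm]
  refine lt_of_le_of_lt h3 ?_
  have h4 := card_mul_le hR0 (hδ n) h2.le
  rw [card_BX] at h4
  calc Real.sqrt 3 / 2 * δ n ^ 2 * (ε / (2 * K) * (2 * (mm R (δ n) : ℝ) + 1) ^ 2)
      = Real.sqrt 3 / 2 * (ε / (2 * K)) * ((2 * (mm R (δ n) : ℝ) + 1) ^ 2 * δ n ^ 2) := by ring
    _ ≤ 1 * (ε / (2 * K)) * K := by
        gcongr
        exact sqrt3_half_le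
    _ = ε / 2 := by field_simp
    _ < ε := by linarith

/-- `∑ ψ(centre v) a n v → ∫ ψ f` -/
theorem sum_tendsto {δ : ℕ → ℝ} (hδ : ∀ n, 0 < δ n) (hδ0 : Tendsto δ atTop (𝓝 0))
    {ψ f : ℂ → ℝ} (hψ : Continuous ψ) (hψc : HasCompactSupport ψ) (hf : Continuous f)
    {a : ℕ → ℤ × ℤ → ℝ} (ha : Near δ a f) {R : ℝ} (hR0 : 0 ≤ R) (hR : ∀ z, ψ z ≠ 0 → ‖z‖ ≤ R) :
    Tendsto (fun n => ∑ p ∈ BX (mm R (δ n)), ψ (centre (δ n) p) * a n p) atTop
      (𝓝 (∫ z, ψ z * f z)) := by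
  obtain ⟨A, hA⟩ := hψ.bounded_above_of_compact_support hψc
  have hA0 : 0 ≤ A := (norm_nonneg _).trans (hA 0)
  have h1 : Tendsto (fun n => Real.sqrt 3 / 2 * δ n ^ 2 * ∑ p ∈ BX (mm R (δ n)),
      ψ (centre (δ n) p) * f (centre (δ n) p)) atTop (𝓝 (∫ z, ψ z * f z)) :=
    riemann_tendsto (hψ.mul hf) hψc.mul_right hδ hδ0
      (fun z hz => hR z (left_ne_zero_of_mul hz)) hR0
  have h2 : Tendsto (fun n => (∑ p ∈ BX (mm R (δ n)), ψ (centre (δ n) p) * a n p) -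
      Real.sqrt 3 / 2 * δ n ^ 2 * ∑ p ∈ BX (mm R (δ n)), ψ (centre (δ n) p) * f (centre (δ n) p))
      atTop (𝓝 0) := by
    rw [Metric.tendsto_nhds]
    intro ε hε
    set K := (4 * R + 5) ^ 2 with hK
    have hKp : 0 < K := by positivity
    filter_upwards [ha.near (ε / (2 * K * (A + 1))) (by positivity),
      hδ0.eventually (gt_mem_nhds (show (0 : ℝ) < 1 by norm_num))] with n h3 h4
    rw [Real.dist_eq, sub_zero]
    have e : (∑ p ∈ BX (mm R (δ n)), ψ (centre (δ n) p) * a n p) -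
      Real.sqrt 3 / 2 * δ n ^ 2 * ∑ p ∈ BX (mm R (δ n)), ψ (centre (δ n) p) * f (centre (δ n) p) =
      ∑ p ∈ BX (mm R (δ n)), ψ (centre (δ n) p) *
        (a n p - Real.sqrt 3 / 2 * δ n ^ 2 * f (centre (δ n) p)) := by
      rw [Finset.mul_sum, ← Finset.sum_sub_distrib]
      refine Finset.sum_congr rfl fun p _ => by ring
    rw [e]
    have h5 : ∀ p ∈ BX (mm R (δ n)), |ψ (centre (δ n) p) *
        (a n p - Real.sqrt 3 / 2 * δ n ^ 2 * f (centre (δ n) p))| ≤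
        (A + 1) * (ε / (2 * K * (A + 1)) * δ n ^ 2) := by
      intro p _
      rw [abs_mul]
      have := hA (centre (δ n) p)
      rw [Real.norm_eq_abs] at this
      exact mul_le_mul (by linarith) (h3 p) (abs_nonneg _) (by linarith)
    refine lt_of_le_of_lt ((Finset.abs_sum_le_sum_abs _ _).trans (Finset.sum_le_sum h5)) ?_
    rw [Finset.sum_const, nsmul_eq_mul]
    have h6 := card_mul_le hR0 (hδ n) h4.le
    calc ((BX (mm R (δ n))).card : ℝ) * ((A + 1) * (ε / (2 * K * (A + 1)) * δ n ^ 2))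
        = (((BX (mm R (δ n))).card : ℝ) * δ n ^ 2) * (ε / (2 * K)) := by field_simp
      _ ≤ K * (ε / (2 * K)) := mul_le_mul_of_nonneg_right h6 (by positivity)
      _ = ε / 2 := by field_simp
      _ < ε := by linarith
  have := h2.add h1
  rw [zero_add] at this
  refine this.congr fun n => by ring

/-- the total variation tends to `0` -/
theorem tv_tendsto {δ : ℕ → ℝ} (hδ : ∀ n, 0 < δ n) (hδ0 : Tendsto δ atTop (𝓝 0))
    {f : ℂ → ℝ} (hf : UniformContinuous f) {a : ℕ → ℤ × ℤ → ℝ} (ha : Near δ a f) {R : ℝ} (hR0 : 0 ≤ R) :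
    Tendsto (fun n => tv (BX (mm R (δ n))) (a n)) atTop (𝓝 0) := by
  rw [Metric.tendsto_nhds]
  intro ε hε
  set K := (4 * R + 5) ^ 2 with hK
  have hKp : 0 < K := by positivity
  filter_upwards [ha.near (ε / (12 * K)) (by positivity),
    exists_mod hf hδ0 (show 0 < ε / (12 * K) by positivity),
    hδ0.eventually (gt_mem_nhds (show (0 : ℝ) < 1 by norm_num))] with n h1 h2 h3
  rw [Real.dist_eq, sub_zero, abs_of_nonneg (tv_nonneg _ _)]
  have key : ∀ e ∈ six, ∀ p, |a n (p - e) - a n p| ≤ 3 * (ε / (12 * K)) * δ n ^ 2 := by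
    intro e he p
    have h4 : |f (centre (δ n) (p - e)) - f (centre (δ n) p)| ≤ ε / (12 * K) := by
      apply h2
      rw [centre_sub]
      have := norm_centre_six (hδ n).le he
      rw [show centre (δ n) p - centre (δ n) e - centre (δ n) p = -centre (δ n) e by ring, norm_neg]
      linarith [hδ n]
    have e1 : a n (p - e) - a n p =
        (a n (p - e) - Real.sqrt 3 / 2 * δ n ^ 2 * f (centre (δ n) (p - e))) -
        (a n p - Real.sqrt 3 / 2 * δ n ^ 2 * f (centre (δ n) p)) +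
        Real.sqrt 3 / 2 * δ n ^ 2 * (f (centre (δ n) (p - e)) - f (centre (δ n) p)) := by ring
    rw [e1]
    refine (abs_add_le _ _).trans ?_
    have h5 := abs_sub (a n (p - e) - Real.sqrt 3 / 2 * δ n ^ 2 * f (centre (δ n) (p - e)))
      (a n p - Real.sqrt 3 / 2 * δ n ^ 2 * f (centre (δ n) p))
    have h6 : |Real.sqrt 3 / 2 * δ n ^ 2 * (f (centre (δ n) (p - e)) - f (centre (δ n) p))| ≤
        ε / (12 * K) * δ n ^ 2 := by
      rw [abs_mul, abs_of_nonneg (by positivity)]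
      calc Real.sqrt 3 / 2 * δ n ^ 2 * |f (centre (δ n) (p - e)) - f (centre (δ n) p)|
          ≤ 1 * δ n ^ 2 * (ε / (12 * K)) := by
            gcongr
            exact sqrt3_half_le
        _ = _ := by ring
    linarith [h1 (p - e), h1 p]
  have h7 : tv (BX (mm R (δ n))) (a n) ≤ ∑ _p ∈ BX (mm R (δ n)), 6 * (ε / (12 * K)) * δ n ^ 2 := by
    unfold tv
    refine Finset.sum_le_sum fun p _ => ?_
    have h8 := key (1, 0) (by decide) p
    have h9 := key (0, 1) (by decide) p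
    linarith
  refine lt_of_le_of_lt h7 ?_
  rw [Finset.sum_const, nsmul_eq_mul]
  have h6 := card_mul_le hR0 (hδ n) h3.le
  calc ((BX (mm R (δ n))).card : ℝ) * (6 * (ε / (12 * K)) * δ n ^ 2)
      = (((BX (mm R (δ n))).card : ℝ) * δ n ^ 2) * (ε / (2 * K)) := by field_simp; ring
    _ ≤ K * (ε / (2 * K)) := mul_le_mul_of_nonneg_right h6 (by positivity)
    _ = ε / 2 := by field_simp
    _ < ε := by linarith

end Crest.Agent.R144.Cw643
end
end

-- ▼ part R144/Cw8_643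

/-!
# R144 (helper643), CW block, file 8: the limit theorem for the covariances

**`cv_tendsto`**: `Two V`, `Spec V u L C`, `Near δ b (-Δψ)`, `Near δ a f`, mass zero
⟹ `CV V (s n) (b n) (t n) (a n) → (2 L/√3) ∫ ψ f`.
-/

set_option autoImplicit false

noncomputable section

namespace Crest.Agent.R144.Cw643

open Finset Filter Topology MeasureTheory
open Crest.Agent.R144.Tp952
open Crest.ProbabilityR.HexHeights (centre)
open Crest.Agent.R144.HexTil353 Crest.Agent.R144.Geo268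
open scoped Real ContDiff Laplacian

variable {V : ℤ × ℤ → ℝ} {u : ℝ × ℝ → ℝ} {L C : ℝ} {δ : ℕ → ℝ}

/-- a-priori bound for near families -/
theorem cv_self_le (hS : Spec V u L C) (hδ : ∀ n, 0 < δ n) (hδ0 : Tendsto δ atTop (𝓝 0))
    {R : ℝ} (hR0 : 0 ≤ R) {a : ℕ → ℤ × ℤ → ℝ} {A : ℝ} (hA : 0 ≤ A)
    (ha : ∀ᶠ n in atTop, ∀ v, |a n v| ≤ A * δ n ^ 2)
    (ha0 : ∀ᶠ n in atTop, Wt (BX (mm R (δ n))) (a n)) :
    ∀ᶠ n in atTop, CV V (BX (mm R (δ n))) (a n) (BX (mm R (δ n))) (a n) ≤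
      200 * C * (4 * R + 5) ^ 6 * A ^ 2 := by
  filter_upwards [ha, ha0, hδ0.eventually (gt_mem_nhds (show (0 : ℝ) < 1 / 10 by norm_num))]
    with n h1 h2 h3
  exact apriori hS h2.2 (hδ n) h3.le hA (mm_le hR0 (hδ n) (by linarith)) (by linarith)
    fun p _ => h1 p

/-- covariance with a negligible family -/
theorem cv_tendsto_zero (hV : Two V) (hS : Spec V u L C) (hδ : ∀ n, 0 < δ n)
    (hδ0 : Tendsto δ atTop (𝓝 0)) {R : ℝ} (hR0 : 0 ≤ R) {x a : ℕ → ℤ × ℤ → ℝ} {A : ℝ} (hA : 0 ≤ A)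
    (hx : ∀ ε > 0, ∀ᶠ n in atTop, ∀ v, |x n v| ≤ ε * δ n ^ 2)
    (ha : ∀ᶠ n in atTop, ∀ v, |a n v| ≤ A * δ n ^ 2)
    (hx0 : ∀ᶠ n in atTop, Wt (BX (mm R (δ n))) (x n))
    (ha0 : ∀ᶠ n in atTop, Wt (BX (mm R (δ n))) (a n)) :
    Tendsto (fun n => CV V (BX (mm R (δ n))) (x n) (BX (mm R (δ n))) (a n)) atTop (𝓝 0) := by
  have hC := hS.C_pos
  rw [Metric.tendsto_nhds]
  intro ε hε
  set K : ℝ := 200 * C * (4 * R + 5) ^ 6 with hK
  have hKp : 0 < K := by positivity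
  set η : ℝ := ε / (2 * K * (A + 1)) with hη
  have hηp : 0 < η := by positivity
  filter_upwards [cv_self_le hS hδ hδ0 hR0 hA ha ha0, cv_self_le hS hδ hδ0 hR0 hηp.le (hx η hηp) hx0,
    hx0, ha0] with n h1 h2 h3 h4
  have h5 := CV_cs hV h3.2 h4.2
  have h6 := CV_self_nonneg hV h4.2
  rw [Real.dist_eq, sub_zero]
  have h7 : CV V (BX (mm R (δ n))) (x n) (BX (mm R (δ n))) (a n) ^ 2 ≤ (K * η * A) ^ 2 := by
    calc _ ≤ _ := h5
      _ ≤ (K * η ^ 2) * (K * A ^ 2) := mul_le_mul h2 h1 h6 (by positivity)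
      _ = _ := by ring
  have h8 : |CV V (BX (mm R (δ n))) (x n) (BX (mm R (δ n))) (a n)| ≤ K * η * A :=
    abs_le_of_sq_le_sq h7 (by positivity)
  refine lt_of_le_of_lt h8 ?_
  have h9 : K * η * (A + 1) = ε / 2 := by rw [hη]; field_simp
  have h10 : K * η * A ≤ K * η * (A + 1) := mul_le_mul_of_nonneg_left (by linarith) (by positivity)
  linarith

theorem Dop_zero {s : Finset (ℤ × ℤ)} {φ : ℤ × ℤ → ℝ} (h : Sup7 s φ) {p : ℤ × ℤ} (hp : p ∉ s) :
    Dop φ p = 0 := by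
  unfold Dop
  rw [h.1 p hp, h.2 (1, 0) (by decide) p hp, h.2 (-1, 0) (by decide) p hp, h.2 (0, 1) (by decide) p hp,
    h.2 (0, -1) (by decide) p hp, h.2 (1, -1) (by decide) p hp, h.2 (-1, 1) (by decide) p hp]
  ring

theorem sum_sq_le {s : Finset (ℤ × ℤ)} {f : ℤ × ℤ → ℝ} {A : ℝ} (h : ∀ p, |f p| ≤ A) :
    ∑ p ∈ s, f p ^ 2 ≤ s.card * A ^ 2 := by
  rw [← nsmul_eq_mul, ← Finset.sum_const]
  refine Finset.sum_le_sum fun p _ => ?_
  rw [← sq_abs]
  exact pow_le_pow_left₀ (abs_nonneg _) (h p) 2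

theorem continuous_dirD {ψ : ℂ → ℝ} (hψ : ContDiff ℝ ∞ ψ) (e : ℂ) : Continuous (dirD 2 ψ e) := by
  have h1 : Continuous (iteratedFDeriv ℝ 2 ψ) := hψ.continuous_iteratedFDeriv (m := 2)
    (WithTop.coe_le_coe.2 (le_top : ((2 : ℕ) : ℕ∞) ≤ ⊤))
  exact (ContinuousMultilinearMap.apply ℝ (fun _ : Fin 2 => ℂ) ℝ (fun _ => e)).continuous.comp h1

theorem continuous_lap {ψ : ℂ → ℝ} (hψ : ContDiff ℝ ∞ ψ) : Continuous (Δ ψ) := by
  have : (Δ ψ) = fun z => dirD 2 ψ 1 z + dirD 2 ψ Complex.I z := funext fun z => laplacian_eq ψ z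
  rw [this]
  exact (continuous_dirD hψ _).add (continuous_dirD hψ _)

theorem hasCompactSupport_lap {ψ : ℂ → ℝ} (hc : HasCompactSupport ψ) : HasCompactSupport (Δ ψ) := by
  have : (Δ ψ) = fun z => dirD 2 ψ 1 z + dirD 2 ψ Complex.I z := funext fun z => laplacian_eq ψ z
  rw [this]
  have h1 : HasCompactSupport (iteratedFDeriv ℝ 2 ψ) := hc.iteratedFDeriv 2
  have h2 : ∀ e : ℂ, HasCompactSupport (dirD 2 ψ e) := fun e =>
    h1.comp_left (g := fun (M : ContinuousMultilinearMap ℝ (fun _ : Fin 2 => ℂ) ℝ) => M (fun _ => e)) rfl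
  exact (h2 _).add (h2 _)

set_option maxHeartbeats 1600000 in
/-- the limit for the lattice Laplacian of a sampled function -/
theorem cv_Dop_tendsto (hV : Two V) (hS : Spec V u L C) (hδ : ∀ n, 0 < δ n)
    (hδ0 : Tendsto δ atTop (𝓝 0)) {ψ f : ℂ → ℝ} (hψ : ContDiff ℝ ∞ ψ) (hψc : HasCompactSupport ψ)
    (hf : Continuous f) (hfc : HasCompactSupport f) {a : ℕ → ℤ × ℤ → ℝ} (ha : Near δ a f)
    {R : ℝ} (hR0 : 0 ≤ R) (hRψ : ∀ z, ψ z ≠ 0 → ‖z‖ ≤ R)
    (hRD : ∀ᶠ n in atTop, ∀ v, Dop (fun v => ψ (centre (δ n) v)) v ≠ 0 → ‖centre (δ n) v‖ ≤ R)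
    (hRa : ∀ᶠ n in atTop, ∀ v, a n v ≠ 0 → ‖centre (δ n) v‖ ≤ R)
    (ha0 : ∀ᶠ n in atTop, ∑ p ∈ BX (mm R (δ n)), a n p = 0) :
    Tendsto (fun n => CV V (BX (mm R (δ n))) (Dop fun v => ψ (centre (δ n) v)) (BX (mm R (δ n))) (a n))
      atTop (𝓝 (2 * L / Real.sqrt 3 * ∫ z, ψ z * f z)) := by
  have hC := hS.C_pos
  have hL := hS.L_nonneg
  have hπ := Real.pi_pos
  have hsum := sum_tendsto hδ hδ0 hψ.continuous hψc hf ha hR0 hRψ
  have hmain : Tendsto (fun n => CV V (BX (mm R (δ n))) (Dop fun v => ψ (centre (δ n) v))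
      (BX (mm R (δ n))) (a n) - 2 * L / Real.sqrt 3 *
        ∑ p ∈ BX (mm R (δ n)), ψ (centre (δ n) p) * a n p) atTop (𝓝 0) := by
    obtain ⟨A1, hA1⟩ := hψ.continuous.bounded_above_of_compact_support hψc
    have hA1' : ∀ z, |ψ z| ≤ A1 := fun z => by rw [← Real.norm_eq_abs]; exact hA1 z
    have hA10 : 0 ≤ A1 := (norm_nonneg _).trans (hA1 0)
    obtain ⟨A2, hA2⟩ := hf.bounded_above_of_compact_support hfc
    have hA2' : ∀ z, |f z| ≤ A2 := fun z => by rw [← Real.norm_eq_abs]; exact hA2 z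
    have hA20 : 0 ≤ A2 := (norm_nonneg _).trans (hA2 0)
    have hND := near_Dop hδ hδ0 hψ hψc
    have hΔc : Continuous (fun z => -(Δ ψ) z) := (continuous_lap hψ).neg
    have hΔs : HasCompactSupport (fun z => -(Δ ψ) z) := (hasCompactSupport_lap hψc).neg
    obtain ⟨A3, hA3⟩ := hΔc.bounded_above_of_compact_support hΔs
    have hA3' : ∀ z, |(-(Δ ψ) z)| ≤ A3 := fun z => by rw [← Real.norm_eq_abs]; exact hA3 z
    have hA30 : 0 ≤ A3 := (norm_nonneg _).trans (hA3 0)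
    have hUf := hfc.uniformContinuous_of_continuous hf
    have hUΔ := hΔs.uniformContinuous_of_continuous hΔc
    have htv1 := tv_tendsto hδ hδ0 hUf ha hR0
    have htv2 := tv_tendsto hδ hδ0 hUΔ hND hR0
    rw [Metric.tendsto_nhds]
    intro ε hε
    set K := (4 * R + 5) ^ 2 with hK
    have hKp : 0 < K := by positivity
    -- parameters
    set Q1 : ℝ := K * (A1 ^ 2 + (A2 + 1) ^ 2) + 1 with hQ1
    set Q2 : ℝ := π ^ 2 * (C + L) * (K * ((A3 + 1) ^ 2 + (A2 + 1) ^ 2)) with hQ2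
    have hQ1p : 0 < Q1 := by positivity
    have hQ2p : 0 ≤ Q2 := by positivity
    set η : ℝ := ε / (2 * Q1) with hη
    have hηp : 0 < η := by positivity
    obtain ⟨Λ, hΛ1, hΛ2⟩ : ∃ Λ : ℝ, 0 < Λ ∧ Q2 / Λ ^ 2 ≤ ε / 4 := by
      refine ⟨Real.sqrt (4 * (Q2 + 1) / ε), by positivity, ?_⟩
      rw [Real.sq_sqrt (by positivity), div_div_eq_mul_div, div_le_iff₀ (by positivity)]
      nlinarith
    set κ : ℝ := 3 * π ^ 2 / (4 * (1 / 10) ^ 2) with hκ
    have hκp : 0 < κ := by positivity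
    have hE := tendsto_Es_mul hS.nonneg hS.bound hS.lim
    rw [Metric.tendsto_nhds] at hE
    have hE1 := hE η hηp
    rw [eventually_nhdsWithin_iff, Metric.eventually_nhds_iff] at hE1
    obtain ⟨d, hd, hd'⟩ := hE1
    have htv : Tendsto (fun n => 2 * C / (1 / 10) ^ 2 *
        (κ * (tv (BX (mm R (δ n))) (a n) + tv (BX (mm R (δ n))) (Dop fun v => ψ (centre (δ n) v))) ^ 2))
        atTop (𝓝 0) := by
      have := (((htv1.add htv2).pow 2).const_mul κ).const_mul (2 * C / (1 / 10) ^ 2)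
      simpa using this
    filter_upwards [htv.eventually (gt_mem_nhds (show (0 : ℝ) < ε / 4 by positivity)),
      hδ0.eventually (gt_mem_nhds (show (0 : ℝ) < 1 by norm_num)),
      hδ0.eventually (gt_mem_nhds (show (0 : ℝ) < 1 / (10 * Λ) by positivity)),
      hδ0.eventually (gt_mem_nhds (show (0 : ℝ) < d / (4 * Λ) by positivity)),
      hRD, hRa, ha0, ha.bdd hA2', hND.bdd hA3'] with n e1 e2 e3 e4 e5 e6 e7 e8 e9
    rw [Real.dist_eq, sub_zero]
    have hδn := hδ n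
    set S := BX (mm R (δ n)) with hSd
    have hS7 : Sup7 S (fun v => ψ (centre (δ n) v)) := sup7_of_norm hδn fun p hp => hRψ _ hp
    have hS7a : Sup7 S (a n) := sup7_of_norm hδn e6
    have hS7D : Sup7 S (Dop fun v => ψ (centre (δ n) v)) := sup7_of_norm hδn e5
    have htva := tv_nonneg S (a n)
    have htvD := tv_nonneg S (Dop fun v => ψ (centre (δ n) v))
    have hρ : Λ * δ n ≤ 1 / 10 := by
      rw [lt_div_iff₀ (by positivity)] at e3
      nlinarith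
    have h1 := main_est hS hV.neg hS7 e7 (r := 1 / 10) (ρ := Λ * δ n) (η := η) (t := δ n ^ 2)
      (M := κ * (tv S (a n) + tv S (Dop fun v => ψ (centre (δ n) v))) ^ 2)
      (by norm_num) le_rfl (by positivity) hρ hηp.le (by positivity)
      (fun k1 k2 a1 a2 a3 => (outer_le hS7D a1 a2 (by norm_num) a3).trans
        (mul_le_mul_of_nonneg_left (pow_le_pow_left₀ htvD (by linarith) 2) hκp.le))
      (fun k1 k2 a1 a2 a3 => (outer_le hS7a a1 a2 (by norm_num) a3).trans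
        (mul_le_mul_of_nonneg_left (pow_le_pow_left₀ htva (by linarith) 2) hκp.le))
      (by
        intro k hk0 hk
        have h2 := abs_le_of_mem_BB (r := Λ * δ n) (by positivity) hk
        have h3 : dist k 0 < d := by
          rw [dist_zero_right, Prod.norm_def, max_lt_iff, Real.norm_eq_abs, Real.norm_eq_abs]
          have h4 : 2 * (Λ * δ n) < d := by
            rw [lt_div_iff₀ (by positivity)] at e4
            nlinarith
          exact ⟨lt_of_le_of_lt h2.1 h4, lt_of_le_of_lt h2.2 h4⟩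
        have h5 := hd' h3 hk0
        rw [Real.dist_eq] at h5
        exact h5.le)
    refine lt_of_le_of_lt h1 ?_
    have hcard := card_mul_le hR0 hδn e2.le
    rw [← hSd] at hcard
    have s1 : δ n ^ 2 * ∑ p ∈ S, ψ (centre (δ n) p) ^ 2 ≤ K * A1 ^ 2 := by
      calc δ n ^ 2 * ∑ p ∈ S, ψ (centre (δ n) p) ^ 2 ≤ δ n ^ 2 * (S.card * A1 ^ 2) :=
            mul_le_mul_of_nonneg_left (sum_sq_le fun p => hA1' _) (sq_nonneg _)
        _ = (S.card * δ n ^ 2) * A1 ^ 2 := by ring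
        _ ≤ K * A1 ^ 2 := mul_le_mul_of_nonneg_right hcard (sq_nonneg _)
    have s2 : ∑ p ∈ S, a n p ^ 2 ≤ K * (A2 + 1) ^ 2 * δ n ^ 2 := by
      calc ∑ p ∈ S, a n p ^ 2 ≤ S.card * ((A2 + 1) * δ n ^ 2) ^ 2 := sum_sq_le e8
        _ = (S.card * δ n ^ 2) * ((A2 + 1) ^ 2 * δ n ^ 2) := by ring
        _ ≤ K * ((A2 + 1) ^ 2 * δ n ^ 2) := mul_le_mul_of_nonneg_right hcard (by positivity)
        _ = _ := by ring
    have s3 : ∑ p ∈ S, Dop (fun v => ψ (centre (δ n) v)) p ^ 2 ≤ K * (A3 + 1) ^ 2 * δ n ^ 2 := by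
      calc ∑ p ∈ S, Dop (fun v => ψ (centre (δ n) v)) p ^ 2 ≤ S.card * ((A3 + 1) * δ n ^ 2) ^ 2 :=
            sum_sq_le e9
        _ = (S.card * δ n ^ 2) * ((A3 + 1) ^ 2 * δ n ^ 2) := by ring
        _ ≤ K * ((A3 + 1) ^ 2 * δ n ^ 2) := mul_le_mul_of_nonneg_right hcard (by positivity)
        _ = _ := by ring
    have s4 : η / 2 * (δ n ^ 2 * ∑ p ∈ S, ψ (centre (δ n) p) ^ 2 + (∑ p ∈ S, a n p ^ 2) / δ n ^ 2) ≤
        ε / 4 := by
      have s5 : (∑ p ∈ S, a n p ^ 2) / δ n ^ 2 ≤ K * (A2 + 1) ^ 2 := by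
        rw [div_le_iff₀ (by positivity)]; exact s2
      calc _ ≤ η / 2 * (K * A1 ^ 2 + K * (A2 + 1) ^ 2) :=
            mul_le_mul_of_nonneg_left (add_le_add s1 s5) (by positivity)
        _ ≤ η / 2 * Q1 := mul_le_mul_of_nonneg_left (by rw [hQ1]; linarith) (by positivity)
        _ = ε / 4 := by rw [hη]; field_simp; norm_num
    have s6 : π ^ 2 * (C + L) / (Λ * δ n) ^ 2 *
        (∑ p ∈ S, Dop (fun v => ψ (centre (δ n) v)) p ^ 2 + ∑ p ∈ S, a n p ^ 2) ≤ ε / 4 := by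
      calc _ ≤ π ^ 2 * (C + L) / (Λ * δ n) ^ 2 *
            (K * (A3 + 1) ^ 2 * δ n ^ 2 + K * (A2 + 1) ^ 2 * δ n ^ 2) :=
            mul_le_mul_of_nonneg_left (add_le_add s3 s2) (by positivity)
        _ = Q2 / Λ ^ 2 := by rw [hQ2]; field_simp
        _ ≤ ε / 4 := hΛ2
    linarith
  have := hmain.add (hsum.const_mul (2 * L / Real.sqrt 3))
  rw [zero_add] at this
  refine this.congr fun n => by ring

end Crest.Agent.R144.Cw643
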