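import Crest.Agent.R144.Cmp1_880
import Crest.Agent.R144.CuP_880
import Crest.Agent.R144.Cov_356

-- ▼ part R144/Cmp2_880
section

/-!
# R144, contiguity (helper880), part 2: deterministic lemmas

* `lay_lemma` : a `{h ≤ 0}`-blocking collar and a `{1 ≤ h}`-blocking collar give a plus-closed layer;
* `fl F₁ S` : filling of a finite set inside `F₁`;
* `LvI_of`, `In_of` : a plus-closed layer gives the exploration events of part 1;
* `rsw_layer` : a plus-closed layer between `A` and `A'` has probability at least `p ^ (number of balls)`.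
-/

set_option autoImplicit false

noncomputable section

namespace Crest.Agent.R144.Cmp880

open Finset
open Crest.Agent.R144.It844 (P2 Lip adj_iff adj_symm upT)
open Crest.Agent.R144.Zg349 Crest.Agent.R144.Zd349 Crest.Agent.R144.Zm349 Crest.Agent.R144.Ze349
open Crest.Agent.R144.Zf349 Crest.Agent.R144.Zs349 Crest.Agent.R144.Zo349
open Crest.Agent.R144.Pst967 (path_symm)
open Crest.Agent.R144.Rsw867
open Crest.Agent.R144.Rw146 (adj_iff_share)
open Crest.Agent.R144.Tvp643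
open Crest.Agent.R144.CuP880
open Crest.Agent.R144.Hf702 (Xg Bg mem_Bg notMem_Bg layer_Bg Bg_sub sc_Bg PB PBI PLay PBI_nonneg
  pLay_PB pLay_of_PBI offTZ_PBI sum_PBI xg_of_notMem xg_step)
open Crest.ProbabilityR.HexHeights (Adj)

/-! ### level loops are plus-closed layers -/

/-- open triangles have constant `s2` -/
def OpC (ω : Cfg) : Prop := ∀ t, ω.2 t = false → C2 ω.1 t

theorem opC_of_wt {c : ℝ} {F : Finset P2} {ω : Cfg} (hz : ∀ t, t ∉ F → ω.2 t = true)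
    (hw : wt c F ω ≠ 0) : OpC ω := by
  intro t ht
  by_cases htF : t ∈ F
  · have h1 : ew c ω t ≠ 0 := fun h => hw (Finset.prod_eq_zero htF h)
    by_contra h2
    apply h1
    unfold ew
    rw [if_neg (by rw [ht]; decide), if_neg h2]
  · rw [hz t htF] at ht
    exact absurd ht (by decide)

def Lo (h : P2 → ℤ) (t : P2) : Prop := ∀ v ∈ up t, h v ≤ 0
def Hi (h : P2 → ℤ) (t : P2) : Prop := ∀ v ∈ up t, 1 ≤ h v

theorem lo_or_hi {ω : Cfg} (hl : Lip ω.1) (hO : OpC ω) {t : P2} (ht : ¬ pC ω t) :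
    Lo ω.1 t ∨ Hi ω.1 t := by
  by_contra hh
  unfold Lo Hi at hh
  push Not at hh
  obtain ⟨⟨v, hv, hv1⟩, ⟨w, hw, hw1⟩⟩ := hh
  obtain ⟨i, rfl⟩ := mem_up_iff.1 hv
  obtain ⟨j, rfl⟩ := mem_up_iff.1 hw
  have hij := abs_le.1 (lip_cr hl t i j)
  have e1 : ω.1 (cr t i) = 1 := by omega
  have e2 : ω.1 (cr t j) = 0 := by omega
  have h0 := abs_le.1 (lip_cr hl t 0 i)
  have h0' := abs_le.1 (lip_cr hl t 0 j)
  have e0 : ω.1 t = 0 ∨ ω.1 t = 1 := by
    have : cr t 0 = t := rfl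
    rw [this] at h0 h0'
    omega
  have hs : s1 (ω.1 t) = true := by
    rcases e0 with e | e <;> rw [e] <;> decide
  apply ht
  refine ⟨?_, hs⟩
  by_contra hz
  have hz' : ω.2 t = false := by simpa using hz
  obtain ⟨a, b⟩ := hO t hz'
  have key : ∀ k : Fin 3, s2 (ω.1 (cr t 0)) = s2 (ω.1 (cr t k)) := by
    intro k
    fin_cases k
    · rfl
    · exact a
    · exact b
  have h3 := key i
  rw [key j, e1, e2] at h3
  exact absurd h3 (by decide)

theorem base_adj {t w : P2} (hw : w ∈ up t) : w = t ∨ Adj t w := by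
  rw [mem_up] at hw
  rcases hw with h | h | h
  · exact Or.inl h
  · exact Or.inr (adj_iff.2 (Or.inl h))
  · exact Or.inr (adj_iff.2 (Or.inr (Or.inr (Or.inl h))))

theorem step_two {S : Set P2} {b w d : P2} (hb : b ∈ S) (hw : w ∈ S) (hd : d ∈ S) (h1 : w ∈ up b)
    (h2 : w ∈ up d) : Relation.ReflTransGen (StepIn S) b d := by
  have p1 : Relation.ReflTransGen (StepIn S) b w := by
    rcases base_adj h1 with rfl | h
    · exact Relation.ReflTransGen.refl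
    · exact Relation.ReflTransGen.single ⟨hb, hw, h⟩
  rcases base_adj h2 with rfl | h
  · exact p1
  · exact p1.tail ⟨hw, hd, adj_symm h⟩

theorem path_lo {ω : Cfg} (hl : Lip ω.1) (hO : OpC ω) {u v : P2}
    (p : Relation.ReflTransGen (StepIn {t | pC ω t}ᶜ) u v) (hu : Lo ω.1 u) :
    Lo ω.1 v ∧ Relation.ReflTransGen (StepIn {w | ω.1 w ≤ 0}) u v := by
  induction p with
  | refl => exact ⟨hu, Relation.ReflTransGen.refl⟩
  | @tail b d _ hbd ih =>
    obtain ⟨h1, h2⟩ := ih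
    obtain ⟨_, w, hwb, hwd⟩ := adj_iff_share.1 hbd.2.2
    have h3 : Lo ω.1 d := by
      rcases lo_or_hi hl hO hbd.2.1 with h | h
      · exact h
      · have := h1 w hwb
        have := h w hwd
        omega
    exact ⟨h3, h2.trans (step_two (h1 b (base_mem_up b)) (h1 w hwb) (h3 d (base_mem_up d)) hwb hwd)⟩

theorem path_hi {ω : Cfg} (hl : Lip ω.1) (hO : OpC ω) {u v : P2}
    (p : Relation.ReflTransGen (StepIn {t | pC ω t}ᶜ) u v) (hu : Hi ω.1 u) :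
    Hi ω.1 v ∧ Relation.ReflTransGen (StepIn {w | 1 ≤ ω.1 w}) u v := by
  induction p with
  | refl => exact ⟨hu, Relation.ReflTransGen.refl⟩
  | @tail b d _ hbd ih =>
    obtain ⟨h1, h2⟩ := ih
    obtain ⟨_, w, hwb, hwd⟩ := adj_iff_share.1 hbd.2.2
    have h3 : Hi ω.1 d := by
      rcases lo_or_hi hl hO hbd.2.1 with h | h
      · have := h1 w hwb
        have := h w hwd
        omega
      · exact h
    exact ⟨h3, h2.trans (step_two (h1 b (base_mem_up b)) (h1 w hwb) (h3 d (base_mem_up d)) hwb hwd)⟩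

/-- the plus-closed layer event -/
def LayE (A A' : Finset P2) : Set Cfg := {ω | NoP {t | pC ω t}ᶜ A A'}

/-- **Lay lemma.** -/
theorem lay_lemma {ω : Cfg} (hl : Lip ω.1) (hO : OpC ω) {X Y Z : Finset P2} (hXY : X ⊆ Y)
    (hYZ : Y ⊆ Z) (h1 : NoP {v | ω.1 v ≤ 0} X Y) (h2 : NoP {v | 1 ≤ ω.1 v} Y Z) :
    ω ∈ LayE X Z := by
  intro u v hu hv p
  have hun : ¬ pC ω u := by
    rcases Relation.ReflTransGen.cases_head p with h | ⟨w, h, _⟩
    · exact absurd (hYZ (hXY (h ▸ hv))) hu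
    · exact h.1
  rcases lo_or_hi hl hO hun with h | h
  · exact h1 u v (fun h' => hu (hYZ h')) hv (path_lo hl hO p h).2
  · exact h2 u v hu (hXY hv) (path_hi hl hO p h).2

theorem LayE.mono {A A' B B' : Finset P2} (hA : B ⊆ A) (hA' : A' ⊆ B') {ω : Cfg}
    (h : ω ∈ LayE A A') : ω ∈ LayE B B' := fun u v hu hv => h u v (fun h' => hu (hA' h')) (hA hv)


/-! ### filling -/

open Classical in
/-- filling of `S` inside `F₁` -/
def fl (F₁ S : Finset P2) : Finset P2 := F₁.filter fun t => t ∈ fil F₁ (S : Set P2)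

theorem coe_fl {F₁ S : Finset P2} : ((fl F₁ S : Finset P2) : Set P2) = fil F₁ (S : Set P2) := by
  classical
  ext t
  rw [fl, Finset.mem_coe, Finset.mem_filter, and_iff_right_iff_imp]
  exact fun h => h.1

theorem mem_fl {F₁ S : Finset P2} {t : P2} : t ∈ fl F₁ S ↔ t ∈ fil F₁ (S : Set P2) := by
  rw [← coe_fl, Finset.mem_coe]

theorem notMem_fl {F₁ S : Finset P2} {t : P2} :
    t ∉ fl F₁ S ↔ ∃ u, u ∉ F₁ ∧ Relation.ReflTransGen (StepIn (S : Set P2)ᶜ) t u := by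
  rw [mem_fl, not_fil_iff]

theorem fl_sub (F₁ S : Finset P2) : fl F₁ S ⊆ F₁ := fun _ ht => (mem_fl.1 ht).1

theorem sub_fl {F₁ S : Finset P2} (hS : S ⊆ F₁) : S ⊆ fl F₁ S := fun _ ht =>
  mem_fl.2 (sub_fil (Finset.coe_subset.2 hS) (Finset.mem_coe.2 ht))

theorem sc_fl {F₁ S : Finset P2} (hF : SC F₁) (hS : S ⊆ F₁) : SC (fl F₁ S) := by
  unfold SC
  rw [coe_fl]
  exact conn_fil_compl hF (Finset.coe_subset.2 hS)

theorem fl_mono {F₁ S S' : Finset P2} (h : S ⊆ S') : fl F₁ S ⊆ fl F₁ S' := by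
  intro t ht
  by_contra h1
  obtain ⟨u, hu, p⟩ := notMem_fl.1 h1
  exact notMem_fl.2 ⟨u, hu, path_mono (Set.compl_subset_compl.2 (Finset.coe_subset.2 h)) p⟩ ht

/-! ### exploration events -/

theorem xg_cases {S : Set P2} {t0 t : P2} (p : Relation.ReflTransGen (fun a b => Adj a b ∧ b ∉ S) t0 t) :
    t = t0 ∨ ∃ u, Adj t0 u ∧ u ∉ S ∧ t ∉ S ∧ Relation.ReflTransGen (StepIn Sᶜ) u t := by
  induction p with
  | refl => exact Or.inl rfl
  | @tail b d _ hbd ih =>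
    right
    rcases ih with rfl | ⟨u, h1, h2, h3, h4⟩
    · exact ⟨d, hbd.1, hbd.2, hbd.2, Relation.ReflTransGen.refl⟩
    · exact ⟨u, h1, h2, hbd.2, h4.tail ⟨h3, hbd.2, hbd.1⟩⟩

/-- a blocking layer between `A` and `A'` leaves the filling of `A0` unexplored -/
theorem sub_Bg_of {S : Set P2} {F₁ A0 A A' A'' : Finset P2} (h0 : A0 ⊆ A)
    (h0' : ∀ t ∈ A0, ∀ u, Adj t u → u ∈ A) (hAA : A ⊆ A') (hA' : A' ⊆ A'')
    (hA'' : ∀ t ∈ A', ∀ u, Adj t u → u ∈ A'') (hF : A'' ⊆ F₁) (h : NoP Sᶜ A A') :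
    fl F₁ A0 ⊆ Bg S (fl F₁ A'') := by
  have hns : ∀ t0, t0 ∉ fl F₁ A'' → t0 ∉ A'' := fun t0 h1 h2 => h1 (sub_fl hF h2)
  -- no point of `A` is reached
  have cB : ∀ t0, t0 ∉ fl F₁ A'' → ∀ z ∈ A,
      ¬ Relation.ReflTransGen (fun a b => Adj a b ∧ b ∉ S) t0 z := by
    intro t0 ht0 z hz p
    have ht0' := hns t0 ht0
    rcases xg_cases p with rfl | ⟨u, h1, _, _, h4⟩
    · exact ht0' (hA' (hAA hz))
    · refine h u z (fun hu => ht0' (hA'' u hu t0 (adj_symm h1))) hz h4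
  -- reached points are joined to the outside of `F₁` off `A0`
  have cA : ∀ t0, t0 ∉ fl F₁ A'' → ∀ y, Relation.ReflTransGen (fun a b => Adj a b ∧ b ∉ S) t0 y →
      ∃ u, u ∉ F₁ ∧ Relation.ReflTransGen (StepIn (A0 : Set P2)ᶜ) y u := by
    intro t0 ht0 y p
    induction p with
    | refl =>
      obtain ⟨u, hu, q⟩ := notMem_fl.1 ht0
      exact ⟨u, hu, path_mono (Set.compl_subset_compl.2
        (Finset.coe_subset.2 (h0.trans (hAA.trans hA')))) q⟩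
    | @tail b d hb hbd ih =>
      obtain ⟨u, hu, q⟩ := ih
      have h1 : b ∉ A0 := fun h2 => cB t0 ht0 b (h0 h2) hb
      have h3 : d ∉ A0 := fun h2 => cB t0 ht0 d (h0 h2) (hb.tail hbd)
      exact ⟨u, hu, Relation.ReflTransGen.head ⟨h3, h1, adj_symm hbd.1⟩ q⟩
  intro t ht
  rw [mem_Bg]
  constructor
  · rintro ⟨t0, ht0, p⟩
    exact notMem_fl.2 (cA t0 ht0 t p) ht
  · rintro x hx ⟨t0, ht0, p⟩
    obtain ⟨u, hu, q⟩ := cA t0 ht0 x p
    have h1 : x ∉ A := fun h2 => cB t0 ht0 x h2 p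
    have h2 : t ∉ A0 := fun h3 => h1 (h0' t h3 x hx)
    exact notMem_fl.2 ⟨u, hu, Relation.ReflTransGen.head ⟨h2, fun h3 => h1 (h0 h3), hx⟩ q⟩ ht

theorem LvI_of {F₁ A0 A A' A'' : Finset P2} (h0 : A0 ⊆ A)
    (h0' : ∀ t ∈ A0, ∀ u, Adj t u → u ∈ A) (hAA : A ⊆ A') (hA' : A' ⊆ A'')
    (hA'' : ∀ t ∈ A', ∀ u, Adj t u → u ∈ A'') (hF : A'' ⊆ F₁) {ω : Cfg} (h : ω ∈ LayE A A') :
    LvI (fl F₁ A0) (fl F₁ A'') ω = 1 := by
  unfold LvI
  rw [if_pos]
  exact sub_Bg_of h0 h0' hAA hA' hA'' hF h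

/-- the inner cluster stays in `A'` -/
theorem Xi_sub_of_lay {B0 A A' : Finset P2} (hB : B0 ⊆ A') (h0 : ∀ t ∈ B0, ∀ u, Adj t u → u ∈ A)
    {ω : Cfg} (h : ω ∈ LayE A A') : Xi B0 ω ⊆ (A' : Set P2) := by
  rintro t ⟨v, hv, p⟩
  by_contra ht
  have key : ∀ b, Relation.ReflTransGen (StepIn ({t | ¬ pC ω t} ∪ (B0 : Set P2))) v b →
      b ∈ B0 ∨ ∃ w ∈ A, Relation.ReflTransGen (StepIn {t | pC ω t}ᶜ) w b := by
    intro b hb
    induction hb with
    | refl => exact Or.inl hv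
    | @tail b d _ hbd ih =>
      by_cases hd : d ∈ B0
      · exact Or.inl hd
      · have hd' : ¬ pC ω d := by
          rcases hbd.2.1 with h1 | h1
          · exact h1
          · exact absurd h1 hd
        rcases ih with h1 | ⟨w, hw, h1⟩
        · exact Or.inr ⟨d, h0 b h1 d hbd.2.2, Relation.ReflTransGen.refl⟩
        · rcases hbd.1 with h2 | h2
          · exact Or.inr ⟨w, hw, h1.tail ⟨h2, hd', hbd.2.2⟩⟩
          · exact Or.inr ⟨d, h0 b h2 d hbd.2.2, Relation.ReflTransGen.refl⟩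
  rcases key t p with h1 | ⟨w, hw, h1⟩
  · exact ht (hB h1)
  · exact h t w ht hw (path_symm h1)

theorem In_of {F₁ B0 A A' : Finset P2} (hB : B0 ⊆ A') (h0 : ∀ t ∈ B0, ∀ u, Adj t u → u ∈ A)
    (hF : A' ⊆ F₁) {ω : Cfg} (h : ω ∈ LayE A A') : ω ∈ In (fl F₁ A') B0 :=
  (Xi_sub_of_lay hB h0 h).trans (Finset.coe_subset.2 (sub_fl hF))

/-! ### probability of a layer -/

theorem fkg_prod {c : ℝ} (hc : 1 ≤ c) {K : ℕ} {p : ℝ} (h : RSW c K p) {F : Finset P2} (hF : SC F)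
    {m : ℕ} (hm : 1 ≤ m) (Z : Finset P2) :
    p ^ Z.card ≤ E c F (fun ω => ∏ z ∈ Z, ind (BlkP z m (2 * m)) ω) := by
  classical
  have hp0 := h.p0
  induction Z using Finset.induction_on with
  | empty => simp [E_const hc]
  | @insert z Z hz ih =>
    rw [Finset.card_insert_of_notMem hz, pow_succ']
    have hI : IncP (fun ω => ∏ z ∈ Z, ind (BlkP z m (2 * m)) ω) := fun ω ω' hle =>
      Finset.prod_le_prod (fun z _ => ind_nonneg _ _) fun z _ => incP_blkP z m (2 * m) ω ω' hle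
    have h1 := assoc hc hF (incP_blkP z m (2 * m)) hI
    have h2 := h.plus m hm z F hF (fun _ => 1) (fun _ => zero_le_one) (offTZ_one _)
    rw [E_const hc, mul_one] at h2
    have e : (fun ω => (1 : ℝ) * ind (BlkP z m (2 * m)) ω) = ind (BlkP z m (2 * m)) := by
      funext ω; rw [one_mul]
    rw [e] at h2
    have e2 : (fun ω => ∏ z ∈ insert z Z, ind (BlkP z m (2 * m)) ω) =
        fun ω => ind (BlkP z m (2 * m)) ω * ∏ z ∈ Z, ind (BlkP z m (2 * m)) ω := by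
      funext ω; rw [Finset.prod_insert hz]
    rw [e2]
    refine le_trans ?_ h1
    exact mul_le_mul h2 ih (by positivity) (E_nonneg hc fun ω _ => ind_nonneg _ _)

/-- **A plus-closed layer between `A` and `A'`.** -/
theorem rsw_layer {c : ℝ} (hc : 1 ≤ c) {K : ℕ} {p : ℝ} (h : RSW c K p) {F : Finset P2} (hF : SC F)
    {m : ℕ} (hm : 1 ≤ m) {Z A A' : Finset P2} (hZ : A ⊆ Z.biUnion fun z => ball z m)
    (hfar : ∀ v ∈ A, ∀ u, u ∉ A' → ∀ z, v ∈ ball z m → u ∉ ball z (2 * m)) :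
    p ^ Z.card ≤ E c F (ind (LayE A A')) := by
  refine (fkg_prod hc h hF hm Z).trans (E_mono hc fun ω _ => ?_)
  by_cases h1 : ∀ z ∈ Z, ω ∈ BlkP z m (2 * m)
  · have h2 : ω ∈ LayE A A' := by
      intro u v hu hv p
      obtain ⟨z, hz, hvz⟩ := Finset.mem_biUnion.1 (hZ hv)
      exact h1 z hz u v (hfar v hv u hu z hvz) hvz p
    rw [ind_of_mem h2]
    exact Finset.prod_le_one (fun z _ => ind_nonneg _ _) fun z _ => ind_le_one _ _
  · push Not at h1
    obtain ⟨z, hz, h2⟩ := h1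
    rw [Finset.prod_eq_zero hz (ind_of_not_mem h2)]
    exact ind_nonneg _ _

/-! ### neighbourhoods -/

theorem mem_nb {K : Finset P2} {r : ℕ} {v : P2} : v ∈ nb K r ↔ ∃ w ∈ K, v ∈ ball w r := by
  unfold nb; rw [Finset.mem_biUnion]

theorem nb_mono_r {K : Finset P2} {r r' : ℕ} (h : r ≤ r') : nb K r ⊆ nb K r' := fun v hv => by
  obtain ⟨w, hw, h1⟩ := mem_nb.1 hv
  exact mem_nb.2 ⟨w, hw, ball_mono w h h1⟩

theorem sub_nb (K : Finset P2) (r : ℕ) : K ⊆ nb K r := fun v hv => mem_nb.2 ⟨v, hv, by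
  rw [mem_ball]; simp⟩

theorem adj_nb {K : Finset P2} {r r' : ℕ} (h : r + 1 ≤ r') {t u : P2} (ht : t ∈ nb K r)
    (ha : Adj t u) : u ∈ nb K r' := by
  obtain ⟨w, hw, h1⟩ := mem_nb.1 ht
  exact mem_nb.2 ⟨w, hw, ball_mono w h (adj_ball h1 ha)⟩

theorem ball_add {a b v : P2} {r r' : ℕ} (h1 : b ∈ ball a r) (h2 : v ∈ ball b r') :
    v ∈ ball a (r + r') := by
  rw [mem_ball] at *
  simp only [abs_le] at *
  push_cast
  refine ⟨⟨?_, ?_⟩, ⟨?_, ?_⟩, ⟨?_, ?_⟩⟩ <;> linarith [h1.1.1, h1.1.2, h1.2.1.1, h1.2.1.2, h1.2.2.1,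
    h1.2.2.2, h2.1.1, h2.1.2, h2.2.1.1, h2.2.1.2, h2.2.2.1, h2.2.2.2]

theorem ball_symm {a b : P2} {r : ℕ} (h : b ∈ ball a r) : a ∈ ball b r := by
  rw [mem_ball] at *
  simp only [abs_le] at *
  refine ⟨⟨?_, ?_⟩, ⟨?_, ?_⟩, ⟨?_, ?_⟩⟩ <;> linarith [h.1.1, h.1.2, h.2.1.1, h.2.1.2, h.2.2.1, h.2.2.2]

theorem nb_nb {K : Finset P2} {r r' : ℕ} {v w : P2} (hw : w ∈ nb K r) (hv : v ∈ ball w r') :
    v ∈ nb K (r + r') := by
  obtain ⟨k, hk, h1⟩ := mem_nb.1 hw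
  exact mem_nb.2 ⟨k, hk, ball_add h1 hv⟩

theorem nb_sub_ball {K : Finset P2} {a : P2} {r r' : ℕ} (h : K ⊆ ball a r) : nb K r' ⊆ ball a (r + r') :=
  fun v hv => by
    obtain ⟨w, hw, h1⟩ := mem_nb.1 hv
    exact ball_add (h hw) h1

/-- the layer between `nb K r` and `nb K (r + 3 m)` -/
theorem rsw_layer_nb {c : ℝ} (hc : 1 ≤ c) {K : ℕ} {p : ℝ} (h : RSW c K p) {F : Finset P2} (hF : SC F)
    {m : ℕ} (hm : 1 ≤ m) {a : P2} {R : ℕ} {K0 : Finset P2} {r : ℕ} (hK : nb K0 r ⊆ ball a R) :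
    p ^ ((2 * ((R + m / 2) / (2 * (m / 2) + 1)) + 1) ^ 2) ≤
      E c F (ind (LayE (nb K0 r) (nb K0 (r + 3 * m)))) := by
  obtain ⟨Z, hZ, -, hcov⟩ := Cov356.cov a R m
  refine le_trans ?_ (rsw_layer hc h hF hm (Z := Z) (hK.trans hcov) fun v hv u hu z hvz huz => ?_)
  · exact pow_le_pow_of_le_one h.p0.le (by linarith [h.p1]) hZ
  · refine hu (nb_nb (r' := 3 * m) hv ?_)
    have := ball_add (ball_symm hvz) huz
    exact ball_mono v (by omega) this

end Crest.Agent.R144.Cmp880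
end
end

-- ▼ part R144/Den0_435

/-!
# R144, two-patch density (helper435), part 0: the interface `LAYF`

`LAYF c` : for the maximal laws `E c F`, `F` large, and every `0 ≤ f ≤ 1` which does not see the collar
`nb K0 (2 s) \ nb K0 s`, `E f ≤ η + C E (f 1{plus-closed layer in the collar})`.
-/

set_option autoImplicit false

noncomputable section

namespace Crest.Agent.R144.Den435

open Crest.Agent.R144.It844 (P2)
open Crest.Agent.R144.Zg349 Crest.Agent.R144.Zd349 Crest.Agent.R144.Zm349 Crest.Agent.R144.Ze349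
open Crest.Agent.R144.Rsw867
open Crest.Agent.R144.CuP880 (nb)
open Crest.Agent.R144.Cmp880 (LayE)

/-- `f` does not see the heights in `Q` nor `z` on the triangles touching `Q` -/
def OffC (Q : Finset P2) (f : Cfg → ℝ) : Prop :=
  ∀ ω ω' : Cfg, (∀ v, v ∉ Q → ω.1 v = ω'.1 v) → (∀ t, (∀ v ∈ up t, v ∉ Q) → ω.2 t = ω'.2 t) →
    f ω = f ω'

/-- layers in one collar, uniformly -/
def LAYF (c : ℝ) : Prop := ∀ (R : ℕ) (η : ℝ), 0 < η → ∃ (C : ℝ) (R' s0 : ℕ), 0 < C ∧ ∀ s ≥ s0,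
  ∀ (a : P2) (K0 : Finset P2), K0.Nonempty → K0 ⊆ ball a (R * s) → ∀ F : Finset P2, SC F →
    ball a (R' * s) ⊆ F → ∀ f : Cfg → ℝ, (∀ ω, 0 ≤ f ω) → (∀ ω, f ω ≤ 1) →
      OffC (nb K0 (2 * s) \ nb K0 s) f →
        E c F f ≤ η + C * E c F (fun ω => f ω * ind (LayE (nb K0 s) (nb K0 (2 * s))) ω)

end Crest.Agent.R144.Den435
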