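import Crest.Agent.R144.Hf7_702
import Crest.Agent.R144.Pst11_967

-- ▼ part R144/Hf8_702
section

/-!
# R144, block HALF (helper702), part 8: growth of the second moments in balls

`PSq P` : smeared heights of mass zero have bounded second moments in the plane.
`growth` : `E_{ball a (2 (K+1)^k n + 1)}[Y²] ≤ C (k + 3)²` for windows at scale `n` around `a`.
-/

set_option autoImplicit false
set_option linter.unusedVariables false

noncomputable section

namespace Crest.Agent.R144.Hf702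

open Finset Filter Topology MeasureTheory
open Crest.Agent.R144.It844 (P2 adj_symm adj_iff)
open Crest.Agent.R144.Zg349 Crest.Agent.R144.Zk349 Crest.Agent.R144.Zd349 Crest.Agent.R144.Zm349
open Crest.Agent.R144.Ze349
open Crest.Agent.R144.Pst967
open Crest.Agent.R144.Rsw867 hiding ball_zero_eq
open Crest.ProbabilityR.HexHeights (Adj)

/-- second moments of mass-zero smeared heights of the plane state -/
def PSq (P : Measure Hz) : Prop :=
  ∀ A : ℕ, ∃ C : ℝ, ∀ s : ℕ, 1 ≤ s → ∀ (a : P2) (V : Finset P2) (h : P2 → ℝ),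
    V ⊆ ball a (A * s) → (∀ v ∈ V, |h v| ≤ A / (s : ℝ) ^ 2) → ∑ v ∈ V, h v = 0 →
      ∫ ω, Ln V h ω ^ 2 ∂P ≤ C

theorem gobs_Ln_sq {V : Finset P2} {h : P2 → ℝ} (h0 : ∑ v ∈ V, h v = 0) :
    GObs fun ω : Hz => Ln V h ω ^ 2 := by
  refine ⟨⟨V, fun ω ω' e => ?_⟩, fun ω c => ?_⟩
  · have : Ln V h ω = Ln V h ω' := by
      unfold Ln
      exact Finset.sum_congr rfl fun v hv => by rw [e v (by simpa using hv)]
    show Ln V h ω ^ 2 = Ln V h ω' ^ 2
    rw [this]
  · have : Ln V h (fun v => ω v + c) = Ln V h ω := by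
      unfold Ln
      have e : ∀ v ∈ V, h v * (((ω v + c : ℤ)) : ℝ) = h v * (ω v : ℝ) + h v * c := fun v _ => by
        push_cast; ring
      rw [Finset.sum_congr rfl e, Finset.sum_add_distrib, ← Finset.sum_mul, h0, zero_mul, add_zero]
    show Ln V h (fun v => ω v + c) ^ 2 = Ln V h ω ^ 2
    rw [this]

/-- square window -/
def Qw (a : P2) (n : ℕ) : Finset P2 :=
  Finset.Ico a.1 (a.1 + n) ×ˢ Finset.Ico a.2 (a.2 + n)

theorem mem_Qw {a v : P2} {n : ℕ} :
    v ∈ Qw a n ↔ (a.1 ≤ v.1 ∧ v.1 < a.1 + n) ∧ (a.2 ≤ v.2 ∧ v.2 < a.2 + n) := by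
  unfold Qw
  rw [Finset.mem_product, Finset.mem_Ico, Finset.mem_Ico]

theorem card_Qw (a : P2) (n : ℕ) : ((Qw a n).card : ℝ) = (n : ℝ) ^ 2 := by
  unfold Qw
  rw [Finset.card_product, Int.card_Ico, Int.card_Ico,
    show (a.1 + n - a.1).toNat = n by omega, show (a.2 + n - a.2).toNat = n by omega]
  push_cast
  ring

theorem Qw_sub (a : P2) (n : ℕ) : Qw a n ⊆ ball a (2 * n) := by
  intro v hv
  rw [mem_Qw] at hv
  rw [mem_ball]
  simp only [abs_le]
  push_cast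
  omega

theorem vf_ball (a : P2) (n : ℕ) : VF (ball a n) ⊆ ball a (n + 1) := by
  intro v hv
  obtain ⟨t, ht, hvt⟩ := mem_VF.1 hv
  rw [mem_up] at hvt
  rcases hvt with rfl | rfl | rfl
  · exact ball_mono a (Nat.le_succ n) ht
  · refine adj_ball ht ?_
    rw [adj_iff]; left; rfl
  · refine adj_ball ht ?_
    rw [adj_iff]; right; right; left; rfl

theorem InB.sub {b : P2} {r : ℕ} {S : Finset P2} (h : InB b r S) : S ⊆ ball b r := fun v hv =>
  h v hv v (base_mem_up v)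

theorem card_ball_le (a : P2) (n : ℕ) : ((ball a n).card : ℝ) ≤ (2 * n + 1) ^ 2 := by
  have h1 : ball a n ⊆ Finset.Icc (a.1 - n) (a.1 + n) ×ˢ Finset.Icc (a.2 - n) (a.2 + n) := by
    intro v hv
    rw [mem_ball] at hv
    simp only [abs_le] at hv
    rw [Finset.mem_product, Finset.mem_Icc, Finset.mem_Icc]
    omega
  have h2 := Finset.card_le_card h1
  rw [Finset.card_product, Int.card_Icc, Int.card_Icc,
    show (a.1 + n + 1 - (a.1 - n)).toNat = 2 * n + 1 by omega,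
    show (a.2 + n + 1 - (a.2 - n)).toNat = 2 * n + 1 by omega] at h2
  have h3 : ((ball a n).card : ℝ) ≤ (((2 * n + 1) * (2 * n + 1) : ℕ) : ℝ) := by exact_mod_cast h2
  refine h3.trans (le_of_eq ?_)
  push_cast
  ring

/-- difference of two linear statistics -/
theorem Ln_sub (S S' : Finset P2) (w w' : P2 → ℝ) (h : P2 → ℤ) :
    Ln S w h - Ln S' w' h =
      Ln (S ∪ S') (fun v => (if v ∈ S then w v else 0) - (if v ∈ S' then w' v else 0)) h := by
  unfold Ln
  have e1 : ∑ v ∈ S, w v * (h v : ℝ) = ∑ v ∈ S ∪ S', (if v ∈ S then w v else 0) * (h v : ℝ) := by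
    rw [← Finset.sum_subset (Finset.subset_union_left (s₁ := S) (s₂ := S'))]
    · exact Finset.sum_congr rfl fun v hv => by rw [if_pos hv]
    · intro v _ hv; rw [if_neg hv, zero_mul]
  have e2 : ∑ v ∈ S', w' v * (h v : ℝ) = ∑ v ∈ S ∪ S', (if v ∈ S' then w' v else 0) * (h v : ℝ) := by
    rw [← Finset.sum_subset (Finset.subset_union_right (s₁ := S) (s₂ := S'))]
    · exact Finset.sum_congr rfl fun v hv => by rw [if_pos hv]
    · intro v _ hv; rw [if_neg hv, zero_mul]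
  rw [e1, e2, ← Finset.sum_sub_distrib]
  exact Finset.sum_congr rfl fun v _ => by ring

theorem sum_diff (S S' : Finset P2) (w w' : P2 → ℝ) :
    ∑ v ∈ S ∪ S', ((if v ∈ S then w v else 0) - (if v ∈ S' then w' v else 0)) =
      ∑ v ∈ S, w v - ∑ v ∈ S', w' v := by
  rw [Finset.sum_sub_distrib]
  congr 1
  · rw [Finset.sum_ite_mem, Finset.inter_eq_right.2 Finset.subset_union_left]
  · rw [Finset.sum_ite_mem, Finset.inter_eq_right.2 Finset.subset_union_right]

/-- windows with equal masses at comparable scales -/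
theorem win_diff {P : Measure Hz} {A : ℕ} {C : ℝ}
    (hC : ∀ s : ℕ, 1 ≤ s → ∀ (a : P2) (V : Finset P2) (h : P2 → ℝ),
      V ⊆ ball a (A * s) → (∀ v ∈ V, |h v| ≤ A / (s : ℝ) ^ 2) → ∑ v ∈ V, h v = 0 →
        ∫ ω, Ln V h ω ^ 2 ∂P ≤ C) {s : ℕ} (hs : 1 ≤ s) {a : P2} {S S' : Finset P2}
    {w w' : P2 → ℝ} (hS : S ⊆ ball a (A * s)) (hS' : S' ⊆ ball a (A * s))
    (hm : ∑ v ∈ S, w v = ∑ v ∈ S', w' v) {α α' : ℝ} (hα : 0 ≤ α) (hα' : 0 ≤ α') (hαA : α + α' ≤ A)
    (hw : ∀ v ∈ S, |w v| ≤ α / (s : ℝ) ^ 2) (hw' : ∀ v ∈ S', |w' v| ≤ α' / (s : ℝ) ^ 2) :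
    (∫ ω, (Ln S w ω - Ln S' w' ω) ^ 2 ∂P ≤ C) ∧
      GObs fun ω : Hz => (Ln S w ω - Ln S' w' ω) ^ 2 := by
  have h0 : ∑ v ∈ S ∪ S', ((if v ∈ S then w v else 0) - (if v ∈ S' then w' v else 0)) = 0 := by
    rw [sum_diff, hm, sub_self]
  have hs0 : (0 : ℝ) < (s : ℝ) ^ 2 := by positivity
  constructor
  · simp only [Ln_sub]
    refine hC s hs a _ _ (Finset.union_subset hS hS') (fun v _ => ?_) h0
    have b1 : |if v ∈ S then w v else 0| ≤ α / (s : ℝ) ^ 2 := by
      split_ifs with h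
      · exact hw v h
      · rw [abs_zero]; positivity
    have b2 : |if v ∈ S' then w' v else 0| ≤ α' / (s : ℝ) ^ 2 := by
      split_ifs with h
      · exact hw' v h
      · rw [abs_zero]; positivity
    calc _ ≤ |if v ∈ S then w v else 0| + |if v ∈ S' then w' v else 0| := abs_sub _ _
      _ ≤ α / (s : ℝ) ^ 2 + α' / (s : ℝ) ^ 2 := add_le_add b1 b2
      _ = (α + α') / (s : ℝ) ^ 2 := by ring
      _ ≤ _ := div_le_div_of_nonneg_right hαA hs0.le
  · simp only [Ln_sub]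
    exact gobs_Ln_sq h0

theorem sq_sum_le (m : ℕ) (f : ℕ → ℝ) :
    (∑ i ∈ Finset.range m, f i) ^ 2 ≤ m * ∑ i ∈ Finset.range m, f i ^ 2 := by
  have := sq_sum_le_card_mul_sum_sq (s := Finset.range m) (f := f)
  simpa using this

/-- **Growth of the second moments in balls.** -/
theorem growth {x : ℝ} (hx0 : 0 < x) (hx1 : x ≤ 1) {K : ℕ} {p : ℝ} (hR : RSW ((x ^ 2)⁻¹) K p)
    {P : Measure Hz} (hPS : PSq P)
    (hFL : ∀ f : Hz → ℝ, GObs f → FLim ((x ^ 2)⁻¹) f (∫ h, f h ∂P)) (A : ℕ) :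
    ∃ C : ℝ, 0 ≤ C ∧ ∀ n : ℕ, 1 ≤ n → ∀ (a : P2) (S : Finset P2) (w : P2 → ℝ), InB a (n - 1) S →
      (∀ v, 0 ≤ w v) → (∀ v ∈ S, w v ≤ A / (n : ℝ) ^ 2) → ∀ k : ℕ,
        EH x (ball a (2 * ((K + 1) ^ k * n) + 1)) (fun h => Yn S w h ^ 2) ≤
          C * ((k : ℝ) + 3) ^ 2 := by
  classical
  have hx2 : 0 < x ^ 2 := by positivity
  have hc : 1 ≤ (x ^ 2)⁻¹ := (one_le_inv₀ hx2).2 (pow_le_one₀ hx0.le hx1)
  set c := (x ^ 2)⁻¹ with hcdef
  have hp := hR.p0
  have hK4 := hR.K4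
  obtain ⟨C0, hC0⟩ := hPS (8 * (K + 1) + 20 * A + 1)
  refine ⟨(|C0| + 1) / p, by positivity, fun n hn a S w hS hw0 hwA k => ?_⟩
  set A1 : ℕ := 8 * (K + 1) + 20 * A + 1 with hA1
  have hA1R : (A1 : ℝ) = 8 * (K + 1) + 20 * A + 1 := by rw [hA1]; push_cast; ring
  have hnR : (1 : ℝ) ≤ n := by exact_mod_cast hn
  -- scales
  set L : ℕ → ℕ := fun i => (K + 1) ^ i * n with hL
  have hL1 : ∀ i, 1 ≤ L i := fun i => Nat.mul_pos (by positivity) hn
  have hLs : ∀ i, L (i + 1) = (K + 1) * L i := fun i => by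
    simp only [hL, pow_succ]; ring
  have hL0 : L 0 = n := by simp [hL]
  -- mass
  set W : ℝ := ∑ v ∈ S, w v with hW
  have hW0 : 0 ≤ W := Finset.sum_nonneg fun v _ => hw0 v
  have hWA : W ≤ 9 * A := by
    have h1 : W ≤ S.card • ((A : ℝ) / (n : ℝ) ^ 2) := Finset.sum_le_card_nsmul _ _ _ hwA
    have h2 : (S.card : ℝ) ≤ (2 * n + 1) ^ 2 := by
      have h3 : S ⊆ ball a n := hS.sub.trans (ball_mono a (Nat.sub_le n 1))
      exact le_trans (by exact_mod_cast Finset.card_le_card h3) (card_ball_le a n)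
    rw [nsmul_eq_mul] at h1
    have h4 : (2 * (n : ℝ) + 1) ^ 2 ≤ 9 * (n : ℝ) ^ 2 := by nlinarith
    have h5 : (S.card : ℝ) * (A / (n : ℝ) ^ 2) ≤ (9 * (n : ℝ) ^ 2) * (A / (n : ℝ) ^ 2) :=
      mul_le_mul_of_nonneg_right (h2.trans h4) (by positivity)
    have h6 : (9 * (n : ℝ) ^ 2) * (A / (n : ℝ) ^ 2) = 9 * A := by field_simp
    linarith
  -- windows
  set a' : P2 := (a.1 + 4 * (L (k + 1) : ℤ), a.2) with ha'
  set T : ℕ → Finset P2 := fun i =>
    if i = 0 then S else if i ≤ k + 2 then Qw a (L (i - 1)) else Qw a' (L (k + 1)) with hT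
  set f : ℕ → P2 → ℝ := fun i =>
    if i = 0 then w else if i ≤ k + 2 then fun _ => W / (L (i - 1) : ℝ) ^ 2 else
      fun _ => W / (L (k + 1) : ℝ) ^ 2 with hf
  have T0 : T 0 = S := by simp [hT]
  have f0 : f 0 = w := by simp [hf]
  have Ti : ∀ i, i ≤ k + 1 → T (i + 1) = Qw a (L i) := by
    intro i hi
    simp only [hT, Nat.add_eq_zero_iff, one_ne_zero, and_false, if_false, Nat.add_sub_cancel]
    rw [if_pos (by omega)]
  have fi : ∀ i, i ≤ k + 1 → f (i + 1) = fun _ => W / (L i : ℝ) ^ 2 := by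
    intro i hi
    simp only [hf, Nat.add_eq_zero_iff, one_ne_zero, and_false, if_false, Nat.add_sub_cancel]
    rw [if_pos (by omega)]
  have Tk : T (k + 3) = Qw a' (L (k + 1)) := by
    simp only [hT]
    rw [if_neg (by omega), if_neg (by omega)]
  have fk : f (k + 3) = fun _ => W / (L (k + 1) : ℝ) ^ 2 := by
    simp only [hf]
    rw [if_neg (by omega), if_neg (by omega)]
  -- masses of the square windows
  have massQ : ∀ (b : P2) (i : ℕ), ∑ v ∈ Qw b (L i), (fun _ : P2 => W / (L i : ℝ) ^ 2) v = W := by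
    intro b i
    have hLi : (0 : ℝ) < (L i : ℝ) := by exact_mod_cast hL1 i
    rw [Finset.sum_const, nsmul_eq_mul, card_Qw]
    field_simp
  -- the differences
  have diff : ∀ i ∈ Finset.range (k + 3),
      (∫ ω, (Ln (T i) (f i) ω - Ln (T (i + 1)) (f (i + 1)) ω) ^ 2 ∂P ≤ C0) ∧
        GObs fun ω : Hz => (Ln (T i) (f i) ω - Ln (T (i + 1)) (f (i + 1)) ω) ^ 2 := by
    intro i hi
    rw [Finset.mem_range] at hi
    rcases Nat.eq_zero_or_pos i with rfl | hipos
    · -- `w` against the window at scale `n`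
      rw [T0, f0, Ti 0 (by omega), fi 0 (by omega), hL0]
      refine win_diff hC0 hn (a := a) (α := A) (α' := 9 * A) ?_ ?_ ?_ (by positivity)
        (by positivity) ?_ ?_ ?_
      · refine (hS.sub.trans (ball_mono a (Nat.sub_le n 1))).trans (ball_mono a ?_)
        exact Nat.le_mul_of_pos_left n (by omega)
      · refine (Qw_sub a n).trans (ball_mono a ?_)
        exact Nat.mul_le_mul_right n (by omega)
      · have := massQ a 0
        rw [hL0] at this
        rw [this]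
      · rw [hA1R]
        have : (0 : ℝ) ≤ K := Nat.cast_nonneg K
        have h2 : (0 : ℝ) ≤ A := Nat.cast_nonneg A
        linarith
      · intro v hv
        rw [abs_of_nonneg (hw0 v)]
        exact hwA v hv
      · intro v _
        rw [abs_of_nonneg (by positivity)]
        exact div_le_div_of_nonneg_right hWA (by positivity)
    · obtain ⟨j, rfl⟩ : ∃ j, i = j + 1 := ⟨i - 1, by omega⟩
      by_cases hj : j ≤ k
      · -- consecutive scales
        rw [Ti j (by omega), fi j (by omega), Ti (j + 1) (by omega), fi (j + 1) (by omega)]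
        have hLjp : (0 : ℝ) < (L j : ℝ) := by exact_mod_cast hL1 j
        refine win_diff hC0 (hL1 j) (a := a) (α := 9 * A) (α' := 9 * A) ?_ ?_ ?_ (by positivity)
          (by positivity) ?_ ?_ ?_
        · refine (Qw_sub a _).trans (ball_mono a ?_)
          exact Nat.mul_le_mul_right _ (by omega)
        · refine (Qw_sub a _).trans (ball_mono a ?_)
          rw [hLs, ← mul_assoc]
          exact Nat.mul_le_mul_right _ (by omega)
        · rw [massQ, massQ]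
        · rw [hA1R]
          have : (0 : ℝ) ≤ K := Nat.cast_nonneg K
          have h2 : (0 : ℝ) ≤ A := Nat.cast_nonneg A
          linarith
        · intro v _
          rw [abs_of_nonneg (by positivity)]
          exact div_le_div_of_nonneg_right hWA (by positivity)
        · intro v _
          rw [abs_of_nonneg (by positivity)]
          refine div_le_div₀ (by positivity) hWA (by positivity) ?_
          have : (L j : ℝ) ≤ L (j + 1) := by
            rw [hLs]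
            push_cast
            nlinarith [Nat.cast_nonneg (α := ℝ) K]
          exact pow_le_pow_left₀ hLjp.le this 2
      · -- the displaced window
        have hjk : j = k + 1 := by omega
        subst hjk
        rw [Ti (k + 1) le_rfl, fi (k + 1) le_rfl]
        rw [show k + 1 + 1 + 1 = k + 3 by ring, Tk, fk]
        refine win_diff hC0 (hL1 (k + 1)) (a := a) (α := 9 * A) (α' := 9 * A) ?_ ?_ ?_
          (by positivity) (by positivity) ?_ ?_ ?_
        · refine (Qw_sub a _).trans (ball_mono a ?_)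
          exact Nat.mul_le_mul_right _ (by omega)
        · intro v hv
          have h1 := Qw_sub a' _ hv
          rw [mem_ball] at h1 ⊢
          simp only [ha', abs_le] at h1 ⊢
          have h3 : (8 : ℤ) * (L (k + 1) : ℤ) ≤ (((A1 * L (k + 1) : ℕ)) : ℤ) := by
            have : 8 * L (k + 1) ≤ A1 * L (k + 1) := Nat.mul_le_mul_right _ (by omega)
            exact_mod_cast this
          push_cast at h1 h3 ⊢
          omega
        · rw [massQ, massQ]
        · rw [hA1R]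
          have : (0 : ℝ) ≤ K := Nat.cast_nonneg K
          have h2 : (0 : ℝ) ≤ A := Nat.cast_nonneg A
          linarith
        · intro v _
          rw [abs_of_nonneg (by positivity)]
          exact div_le_div_of_nonneg_right hWA (by positivity)
        · intro v _
          rw [abs_of_nonneg (by positivity)]
          exact div_le_div_of_nonneg_right hWA (by positivity)
  -- choose a big domain
  have hne := cls_scs.neBot
  have ev1 : ∀ᶠ F in lC scs, ∀ i ∈ Finset.range (k + 3),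
      E c F (fun ω => (Ln (T i) (f i) ω.1 - Ln (T (i + 1)) (f (i + 1)) ω.1) ^ 2) ≤ |C0| + 1 := by
    rw [Filter.eventually_all_finset]
    intro i hi
    obtain ⟨h1, h2⟩ := diff i hi
    have h3 : ∫ ω, (Ln (T i) (f i) ω - Ln (T (i + 1)) (f (i + 1)) ω) ^ 2 ∂P < |C0| + 1 := by
      have := le_abs_self C0
      linarith
    exact ((hFL _ h2).eventually_lt_const h3).mono fun F hF => hF.le
  have ev2 : ∀ᶠ F in lC scs, ball a (2 * L (k + 1) + 1) ⊆ F := mem_lC_of_subset _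
  have ev3 : ∀ᶠ F in lC scs, F ∈ scs := mem_lC.2 ⟨∅, fun F hF _ => hF⟩
  obtain ⟨F, ⟨hF1, hF2⟩, hF3⟩ := ((ev1.and ev2).and ev3).exists
  have hF : SC F := hF3
  -- probability of the layer
  have hPr : p ≤ Pr c F (BlkP a (L (k + 1)) (2 * L (k + 1))) := by
    have := hR.plus (L (k + 1)) (hL1 (k + 1)) a F hF (fun _ => 1) (fun _ => zero_le_one)
      (fun _ _ _ _ => rfl)
    simp only [one_mul] at this
    rw [E_const hc, mul_one] at this
    exact this
  -- the inequality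
  have key := inner_le hx0 hx1 hF (a := a) (r := 2 * L k + 1) (m := L (k + 1)) (N := 2 * L (k + 1))
    (by
      have h1 := hL1 k
      rw [hLs]
      nlinarith) (by omega) hF2 (S := S) (S' := Qw a' (L (k + 1))) (w := w)
    (w' := fun _ => W / (L (k + 1) : ℝ) ^ 2) hw0
    (hS.vf.trans (VF_mono (ball_mono a (by
      have h1 : n ≤ L k := Nat.le_mul_of_pos_left n (by positivity)
      omega))))
    (by
      intro v hv hv'
      have h1 := vf_ball a _ hv'
      rw [mem_Qw] at hv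
      rw [mem_ball] at h1
      simp only [ha', abs_le] at hv h1
      have h2 := hL1 k
      have h3 := hLs k
      have h4 : 5 ≤ L (k + 1) := by
        rw [h3]; nlinarith
      push_cast at h1 hv
      omega)
  have tele : ∀ ω : Cfg, Ln S w ω.1 - Ln (Qw a' (L (k + 1))) (fun _ => W / (L (k + 1) : ℝ) ^ 2) ω.1 =
      ∑ i ∈ Finset.range (k + 3), (Ln (T i) (f i) ω.1 - Ln (T (i + 1)) (f (i + 1)) ω.1) := by
    intro ω
    rw [Finset.sum_range_sub' (fun i => Ln (T i) (f i) ω.1), T0, f0, Tk, fk]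
  have hup : E c F (fun ω => (Ln S w ω.1 -
      Ln (Qw a' (L (k + 1))) (fun _ => W / (L (k + 1) : ℝ) ^ 2) ω.1) ^ 2) ≤
      ((k : ℝ) + 3) ^ 2 * (|C0| + 1) := by
    calc _ ≤ E c F (fun ω => ((k + 3 : ℕ) : ℝ) * ∑ i ∈ Finset.range (k + 3),
          (Ln (T i) (f i) ω.1 - Ln (T (i + 1)) (f (i + 1)) ω.1) ^ 2) := by
          refine E_mono hc fun ω _ => ?_
          rw [tele]
          exact sq_sum_le (k + 3) _
      _ = ((k + 3 : ℕ) : ℝ) * ∑ i ∈ Finset.range (k + 3),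
          E c F (fun ω => (Ln (T i) (f i) ω.1 - Ln (T (i + 1)) (f (i + 1)) ω.1) ^ 2) := by
          rw [E_smul, E_sum]
      _ ≤ ((k + 3 : ℕ) : ℝ) * ∑ i ∈ Finset.range (k + 3), (|C0| + 1) :=
          mul_le_mul_of_nonneg_left (Finset.sum_le_sum hF1) (Nat.cast_nonneg _)
      _ = _ := by
          rw [Finset.sum_const, Finset.card_range, nsmul_eq_mul]
          push_cast
          ring
  have e0 : 0 ≤ EH x (ball a (2 * L k + 1)) (fun h => Yn S w h ^ 2) :=
    EH_nonneg_of fun h _ => sq_nonneg _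
  have hfin : EH x (ball a (2 * L k + 1)) (fun h => Yn S w h ^ 2) * p ≤
      ((k : ℝ) + 3) ^ 2 * (|C0| + 1) :=
    (mul_le_mul_of_nonneg_left hPr e0).trans (key.trans hup)
  rw [div_mul_eq_mul_div, le_div_iff₀ hp]
  linarith

end Crest.Agent.R144.Hf702
end
end

-- ▼ part R144/Hf9_702
section

/-!
# R144, block HALF (helper702), part 9: uniform second moments near the boundary, F-type laws

`fvar` : for every `A` there is `C` such that for `n ≥ 1`, `F` simply connected, `b ∉ F`, windows `S` with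
`InB b (n - 1) S` and weights `|w v| ≤ A / n²` : `E_F[(∑ w (h - 1/2))²] ≤ C`.
-/

set_option autoImplicit false
set_option linter.unusedVariables false

noncomputable section

namespace Crest.Agent.R144.Hf702

open Finset Filter Topology MeasureTheory
open Crest.Agent.R144.It844 (P2 adj_symm adj_iff)
open Crest.Agent.R144.Dpl702 (Cm cm_nonneg)
open Crest.Agent.R144.Zg349 Crest.Agent.R144.Zk349 Crest.Agent.R144.Zd349 Crest.Agent.R144.Zm349
open Crest.Agent.R144.Ze349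
open Crest.Agent.R144.Pst967
open Crest.Agent.R144.Rsw867 hiding ball_zero_eq
open Crest.ProbabilityR.HexHeights (Adj)

/-- Cauchy–Schwarz for the F-type law -/
theorem E_cs {c : ℝ} (hc : 1 ≤ c) (F : Finset P2) (f g : Cfg → ℝ) :
    E c F (fun ω => f ω * g ω) ^ 2 ≤ E c F (fun ω => f ω ^ 2) * E c F (fun ω => g ω ^ 2) := by
  have key := Finset.sum_mul_sq_le_sq_mul_sq (Zm349.conf F)
    (fun ω => Real.sqrt (pr c F ω) * f ω) (fun ω => Real.sqrt (pr c F ω) * g ω)
  have hs : ∀ ω : Cfg, Real.sqrt (pr c F ω) * Real.sqrt (pr c F ω) = pr c F ω := fun ω =>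
    Real.mul_self_sqrt (pr_nonneg hc F ω)
  have e1 : ∀ ω : Cfg, Real.sqrt (pr c F ω) * f ω * (Real.sqrt (pr c F ω) * g ω) =
      pr c F ω * (f ω * g ω) := fun ω => by rw [mul_mul_mul_comm, hs]
  have e2 : ∀ (u : Cfg → ℝ) (ω : Cfg), (Real.sqrt (pr c F ω) * u ω) ^ 2 =
      pr c F ω * u ω ^ 2 := fun u ω => by
    rw [mul_pow, sq (Real.sqrt _), hs]
  simp only [e1, e2] at key
  exact key

/-- the polynomial times geometric series -/
def SP (q : ℝ) : ℝ := ∑' i : ℕ, ((i : ℝ) + 4) ^ 2 * q ^ i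

theorem summable_sp {q : ℝ} (h0 : 0 ≤ q) (h1 : q < 1) :
    Summable fun i : ℕ => ((i : ℝ) + 4) ^ 2 * q ^ i := by
  have hq : ‖q‖ < 1 := by rwa [Real.norm_of_nonneg h0]
  have s2 := summable_pow_mul_geometric_of_norm_lt_one 2 hq
  have s1 := summable_pow_mul_geometric_of_norm_lt_one 1 hq
  have s0 := summable_pow_mul_geometric_of_norm_lt_one 0 hq
  refine ((s2.add (s1.mul_left 8)).add (s0.mul_left 16)).congr fun i => ?_
  ring

theorem sp_nonneg {q : ℝ} (h0 : 0 ≤ q) : 0 ≤ SP q := tsum_nonneg fun i => by positivity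

theorem sum_le_sp {q : ℝ} (h0 : 0 ≤ q) (h1 : q < 1) (k : ℕ) :
    ∑ i ∈ Finset.range k, ((i : ℝ) + 4) ^ 2 * q ^ i ≤ SP q :=
  (summable_sp h0 h1).sum_le_tsum (Finset.range k) fun i _ => by positivity

/-- **Uniform second moments near the boundary**, nonnegative weights. -/
theorem fvar_pos {x : ℝ} (hx0 : 0 < x) (hx1 : x ≤ 1) {K : ℕ} {p : ℝ} (hR : RSW ((x ^ 2)⁻¹) K p)
    {P : Measure Hz} (hPS : PSq P)
    (hFL : ∀ f : Hz → ℝ, GObs f → FLim ((x ^ 2)⁻¹) f (∫ h, f h ∂P)) (A : ℕ) :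
    ∃ C : ℝ, 0 ≤ C ∧ ∀ n : ℕ, 1 ≤ n → ∀ (b : P2) (S : Finset P2) (w : P2 → ℝ), InB b (n - 1) S →
      (∀ v, 0 ≤ w v) → (∀ v ∈ S, w v ≤ A / (n : ℝ) ^ 2) → ∀ F : Finset P2, SC F → b ∉ F →
        E ((x ^ 2)⁻¹) F (fun ω => Yn S w ω.1 ^ 2) ≤ C := by
  classical
  have hx2 : 0 < x ^ 2 := by positivity
  have hc : 1 ≤ (x ^ 2)⁻¹ := (one_le_inv₀ hx2).2 (pow_le_one₀ hx0.le hx1)
  set c := (x ^ 2)⁻¹ with hcdef
  have hp0 := hR.p0
  have hp1 := hR.p1
  obtain ⟨C1, hC1, hG⟩ := growth hx0 hx1 hR hPS hFL A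
  set q : ℝ := Real.sqrt (1 - p) with hq
  have hq0 : 0 ≤ q := Real.sqrt_nonneg _
  have hq1 : q < 1 := by
    rw [hq, Real.sqrt_lt' one_pos]; linarith
  have hqq : q ^ 2 = 1 - p := Real.sq_sqrt (by linarith)
  have hCm := cm_nonneg 4
  set G : ℝ := 8 * Real.sqrt C1 + 37 * A with hGdef
  have hG0 : 0 ≤ G := by positivity
  set D : ℝ := Real.sqrt (2 * Cm 4) * G ^ 2 with hD
  have hD0 : 0 ≤ D := by positivity
  have hsC1 : Real.sqrt C1 ^ 2 = C1 := Real.sq_sqrt hC1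
  have hsC0 := Real.sqrt_nonneg C1
  have hA0 : (0 : ℝ) ≤ A := Nat.cast_nonneg A
  refine ⟨(18 * C1 + 41 * (A : ℝ) ^ 2) + D * SP q, by have := sp_nonneg hq0; positivity,
    fun n hn b S w hS hw0 hwA F hF hb => ?_⟩
  have hnR : (1 : ℝ) ≤ n := by exact_mod_cast hn
  -- mass
  have hW0 : 0 ≤ ∑ v ∈ S, w v := Finset.sum_nonneg fun v _ => hw0 v
  have hWA : ∑ v ∈ S, w v ≤ 9 * A := by
    have h1 : ∑ v ∈ S, w v ≤ S.card • ((A : ℝ) / (n : ℝ) ^ 2) :=
      Finset.sum_le_card_nsmul _ _ _ hwA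
    have h2 : (S.card : ℝ) ≤ (2 * n + 1) ^ 2 := by
      have h3 : S ⊆ ball b n := hS.sub.trans (ball_mono b (Nat.sub_le n 1))
      exact le_trans (by exact_mod_cast Finset.card_le_card h3) (card_ball_le b n)
    rw [nsmul_eq_mul] at h1
    have h4 : (2 * (n : ℝ) + 1) ^ 2 ≤ 9 * (n : ℝ) ^ 2 := by nlinarith
    have h5 : (S.card : ℝ) * (A / (n : ℝ) ^ 2) ≤ (9 * (n : ℝ) ^ 2) * (A / (n : ℝ) ^ 2) :=
      mul_le_mul_of_nonneg_right (h2.trans h4) (by positivity)
    have h6 : (9 * (n : ℝ) ^ 2) * (A / (n : ℝ) ^ 2) = 9 * A := by field_simp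
    linarith
  have hrad : ∀ k : ℕ, n - 1 ≤ 2 * ((K + 1) ^ k * n) + 1 := fun k => by
    have : n ≤ (K + 1) ^ k * n := Nat.le_mul_of_pos_left n (by positivity)
    omega
  -- a priori bound in a ball
  have ap : ∀ (k : ℕ) (U : Finset P2), SC U → U ⊆ ball b (2 * ((K + 1) ^ k * n) + 1) →
      EH x U (fun h => Yn (S ∩ VF U) w h ^ 2) ≤ C1 * ((k : ℝ) + 3) ^ 2 := by
    intro k U hU hUk
    have h1 : EH x U (fun h => Yn (S ∩ VF U) w h ^ 2) ≤
        EH x (ball b (2 * ((K + 1) ^ k * n) + 1)) (fun h => Yn (S ∩ VF U) w h ^ 2) :=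
      EH_mono hx0.le hx1 hUk (Yn_sq_inc Finset.inter_subset_right hw0)
    refine h1.trans (hG n hn b (S ∩ VF U) w (fun v hv => hS v (Finset.mem_inter.1 hv).1) hw0
      (fun v hv => hwA v (Finset.mem_inter.1 hv).1) k)
  -- the part of the window off the domain
  have off : ∀ (U : Finset P2) (h : P2 → ℤ), HV U h →
      Yn S w h = Yn (S ∩ VF U) w h - (∑ v ∈ S \ VF U, w v) / 2 := by
    intro U h hh
    unfold Yn
    rw [← Finset.sum_inter_add_sum_sdiff S (VF U)]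
    have : ∑ v ∈ S \ VF U, w v * ((h v : ℝ) - 1 / 2) = -(∑ v ∈ S \ VF U, w v) / 2 := by
      rw [neg_div, Finset.sum_div, ← Finset.sum_neg_distrib]
      refine Finset.sum_congr rfl fun v hv => ?_
      rw [hh.off v (Finset.mem_sdiff.1 hv).2]
      push_cast
      ring
    rw [this]
    ring
  -- second moments
  have sec : ∀ (k : ℕ) (U : Finset P2), SC U → U ⊆ ball b (2 * ((K + 1) ^ k * n) + 1) →
      EH x U (fun h => Yn S w h ^ 2) ≤ 2 * (C1 * ((k : ℝ) + 3) ^ 2) + 81 * (A : ℝ) ^ 2 / 2 := by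
    intro k U hU hUk
    have h1 := ap k U hU hUk
    have h2 : 0 ≤ ∑ v ∈ S \ VF U, w v := Finset.sum_nonneg fun v _ => hw0 v
    have h3 : ∑ v ∈ S \ VF U, w v ≤ 9 * A :=
      (Finset.sum_le_sum_of_subset_of_nonneg Finset.sdiff_subset fun v _ _ => hw0 v).trans hWA
    calc EH x U (fun h => Yn S w h ^ 2)
        ≤ EH x U (fun h => 2 * Yn (S ∩ VF U) w h ^ 2 + 81 * (A : ℝ) ^ 2 / 2) := by
          refine EH_le fun h hh => ?_
          rw [off U h hh]
          nlinarith [sq_nonneg (Yn (S ∩ VF U) w h + (∑ v ∈ S \ VF U, w v) / 2)]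
      _ = 2 * EH x U (fun h => Yn (S ∩ VF U) w h ^ 2) + 81 * (A : ℝ) ^ 2 / 2 := by
          rw [EH_add, EH_smul, EH_const]
      _ ≤ _ := by linarith
  -- fourth moments
  have four : ∀ (k : ℕ) (U : Finset P2), SC U → U ⊆ ball b (2 * ((K + 1) ^ k * n) + 1) →
      E c U (fun ω => (Yn S w ω.1 ^ 2) ^ 2) ≤ 2 * Cm 4 * (G * ((k : ℝ) + 3)) ^ 4 := by
    intro k U hU hUk
    have h1 := sec k U hU hUk
    set σ : ℝ := (2 * Real.sqrt C1 + 7 * A) * ((k : ℝ) + 3) with hσ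
    have hσ0 : 0 ≤ σ := by positivity
    have hk3 : (3 : ℝ) ≤ (k : ℝ) + 3 := by
      have : (0 : ℝ) ≤ k := Nat.cast_nonneg k
      linarith
    have hσ2 : 2 * (C1 * ((k : ℝ) + 3) ^ 2) + 81 * (A : ℝ) ^ 2 / 2 ≤ σ ^ 2 := by
      rw [hσ, mul_pow]
      have h2 : (9 : ℝ) ≤ ((k : ℝ) + 3) ^ 2 := by nlinarith
      have h3 : 4 * C1 + 49 * (A : ℝ) ^ 2 ≤ (2 * Real.sqrt C1 + 7 * A) ^ 2 := by
        have e : (2 * Real.sqrt C1 + 7 * A) ^ 2 =
            4 * Real.sqrt C1 ^ 2 + 49 * (A : ℝ) ^ 2 + 28 * (Real.sqrt C1 * A) := by ring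
        rw [e, hsC1]
        have : 0 ≤ Real.sqrt C1 * A := mul_nonneg hsC0 hA0
        linarith
      have h4 : (4 * C1 + 49 * (A : ℝ) ^ 2) * ((k : ℝ) + 3) ^ 2 ≤
          (2 * Real.sqrt C1 + 7 * A) ^ 2 * ((k : ℝ) + 3) ^ 2 :=
        mul_le_mul_of_nonneg_right h3 (sq_nonneg _)
      have h5 : 0 ≤ C1 * ((k : ℝ) + 3) ^ 2 := by positivity
      have h6 : (A : ℝ) ^ 2 * 9 ≤ (A : ℝ) ^ 2 * ((k : ℝ) + 3) ^ 2 :=
        mul_le_mul_of_nonneg_left h2 (sq_nonneg _)
      nlinarith [sq_nonneg (A : ℝ)]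
    have h2 := EI_abs_moment_linear hx0.le hx1 U (IV U) S w (σ := σ) hσ0 (by
      rw [EI_self]
      exact h1.trans hσ2) 4
    have h3 : E c U (fun ω => (Yn S w ω.1 ^ 2) ^ 2) =
        EI x U (IV U) (fun h => |∑ v ∈ S, w v * ((h v : ℝ) - 1 / 2)| ^ 4) := by
      rw [EI_self, ← E_eq_EH hx0.ne']
      refine E_congr fun ω _ => ?_
      show (Yn S w ω.1 ^ 2) ^ 2 = |Yn S w ω.1| ^ 4
      rw [← pow_mul]
      exact (Even.pow_abs (by decide) _).symm
    rw [h3]
    refine h2.trans (mul_le_mul_of_nonneg_left ?_ (by positivity))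
    have h4 : ∑ v ∈ S, |w v| ≤ 9 * A := by
      refine le_trans (le_of_eq ?_) hWA
      exact Finset.sum_congr rfl fun v _ => abs_of_nonneg (hw0 v)
    have h5 : 0 ≤ ∑ v ∈ S, |w v| := Finset.sum_nonneg fun _ _ => abs_nonneg _
    refine pow_le_pow_left₀ (by positivity) ?_ 4
    rw [hσ, hGdef]
    nlinarith
  -- the recursion
  have rcs : ∀ (k : ℕ) (U : Finset P2), SC U → U ⊆ ball b (2 * ((K + 1) ^ k * n) + 1) → b ∉ U →
      E c U (fun ω => Yn S w ω.1 ^ 2) ≤ (18 * C1 + 41 * (A : ℝ) ^ 2) +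
        D * ∑ i ∈ Finset.range k, ((i : ℝ) + 4) ^ 2 * q ^ i := by
    intro k
    induction k with
    | zero =>
      intro U hU hUk _
      have h1 := sec 0 U hU hUk
      rw [← E_eq_EH hx0.ne'] at h1
      refine h1.trans ?_
      simp only [Nat.cast_zero, Finset.range_zero, Finset.sum_empty, mul_zero, add_zero, zero_add]
      nlinarith [sq_nonneg (A : ℝ)]
    | succ k ih =>
      intro U hU hUk hbU
      set M : ℝ := (18 * C1 + 41 * (A : ℝ) ^ 2) +
        D * ∑ i ∈ Finset.range k, ((i : ℝ) + 4) ^ 2 * q ^ i with hM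
      have hM0 : 0 ≤ M := by positivity
      have h1 := rec_step hc hU hbU (r := n - 1) (m := n) (N := 2 * ((K + 1) ^ k * n)) (by omega)
        (by
          have : n ≤ (K + 1) ^ k * n := Nat.le_mul_of_pos_left n (by positivity)
          omega) hS (w := w) hM0 ih
      have h2 := E_cs hc U (fun ω => Yn S w ω.1 ^ 2) (ind (BlkP b n (2 * ((K + 1) ^ k * n)))ᶜ)
      have h3 := four (k + 1) U hU hUk
      have h4 : E c U (fun ω => ind (BlkP b n (2 * ((K + 1) ^ k * n)))ᶜ ω ^ 2) ≤ (1 - p) ^ (k + 1) := by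
        have h5 := hR.iterP hc hU k hn (a := b) (g := fun _ => 1) (fun _ => zero_le_one)
          (fun _ _ _ _ => rfl)
        simp only [one_mul] at h5
        rw [E_const hc, mul_one] at h5
        refine le_trans (le_of_eq ?_) h5
        refine E_congr fun ω _ => ?_
        by_cases hω : ω ∈ (BlkP b n (2 * ((K + 1) ^ k * n)))ᶜ
        · rw [ind_of_mem hω]; norm_num
        · rw [ind_of_not_mem hω]; norm_num
      have h6 : E c U (fun ω => Yn S w ω.1 ^ 2 * ind (BlkP b n (2 * ((K + 1) ^ k * n)))ᶜ ω) ≤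
          D * (((k : ℝ) + 4) ^ 2 * q ^ k) := by
        set T : ℝ := E c U (fun ω => Yn S w ω.1 ^ 2 * ind (BlkP b n (2 * ((K + 1) ^ k * n)))ᶜ ω)
        have hT : T ^ 2 ≤ (D * (((k : ℝ) + 4) ^ 2 * q ^ (k + 1))) ^ 2 := by
          refine h2.trans ((mul_le_mul h3 h4 (E_nonneg hc fun ω _ => sq_nonneg _)
            (by positivity)).trans (le_of_eq ?_))
          rw [← hqq, hD]
          have hs : Real.sqrt (2 * Cm 4) ^ 2 = 2 * Cm 4 := Real.sq_sqrt (by positivity)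
          have e : (Real.sqrt (2 * Cm 4) * G ^ 2 * (((k : ℝ) + 4) ^ 2 * q ^ (k + 1))) ^ 2 =
              Real.sqrt (2 * Cm 4) ^ 2 * (G * ((k : ℝ) + 4)) ^ 4 * (q ^ 2) ^ (k + 1) := by ring
          rw [e, hs]
          push_cast
          ring
        have h7 : T ≤ D * (((k : ℝ) + 4) ^ 2 * q ^ (k + 1)) :=
          le_of_sq_le_sq hT (by positivity)
        refine h7.trans (mul_le_mul_of_nonneg_left (mul_le_mul_of_nonneg_left ?_ (sq_nonneg _)) hD0)
        exact pow_le_pow_of_le_one hq0 hq1.le (Nat.le_succ k)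
      rw [Finset.sum_range_succ, mul_add]
      linarith
  -- every domain is in some ball
  obtain ⟨k, hk⟩ : ∃ k : ℕ, F ⊆ ball b (2 * ((K + 1) ^ k * n) + 1) := by
    obtain ⟨m, hm⟩ := subset_hexB (F.image fun v => v - b)
    refine ⟨m, fun v hv => ?_⟩
    have h1 : v - b ∈ hexB m := hm (Finset.mem_image_of_mem _ hv)
    refine ball_mono b ?_ (mem_ball'.2 h1)
    have h2 : m ≤ (K + 1) ^ m := (Nat.lt_pow_self (by have := hR.K4; omega)).le
    have h3 : (K + 1) ^ m ≤ (K + 1) ^ m * n := Nat.le_mul_of_pos_right _ hn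
    omega
  refine (rcs k F hF hk hb).trans ?_
  have := mul_le_mul_of_nonneg_left (sum_le_sp hq0 hq1 k) hD0
  linarith

end Crest.Agent.R144.Hf702
end
end

-- ▼ part R144/Hf10_702

/-!
# R144, block HALF (helper702), part 10: from the F-type laws to the laws with data in `{-1, 0}`

* `ex_le_EI` : `ex x Λ 0 f ≤ EI x F Λ f` for increasing `f`, `upT Λ ⊆ F`;
* `ex_sq_le` : `E^ξ[X²] ≤ 4 E_F[Y²] + 5 (∑ w)²`, `ξ ∈ {-1, 0}`, `w ≥ 0`;
* `hf_ex` : **uniform second moments near the boundary for `ex x Λ ξ`**.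
-/

set_option autoImplicit false
set_option linter.unusedVariables false

noncomputable section

namespace Crest.Agent.R144.Hf702

open Finset Filter Topology MeasureTheory
open Crest.Agent.R144.It844 (P2 Lip Cst tw E3 E3_eq_tw lsm_E3 upT mem_upT ex wt Z conf mem_conf
  ex_mono_bc ex_neg ex_add_const holley lip_const ex_congr ex_mono ex_add ex_smul ex_const ex_nonneg)
open Crest.Agent.R161.Lsm375 (LSM)
open Crest.Agent.R144.Zg349 Crest.Agent.R144.Zk349 Crest.Agent.R144.Zd349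
open Crest.Agent.R144.Zm349 hiding conf mem_conf wt Z
open Crest.Agent.R144.Pst967
open Crest.Agent.R144.Rsw867 hiding ball_zero_eq

theorem iv_of_upT {Λ F : Finset P2} (h : upT Λ ⊆ F) : Λ ⊆ IV F := by
  intro v hv
  rw [mem_IV']
  intro t ht
  apply h
  rw [mem_upT]
  rw [Zg349.mem_up] at ht
  rcases ht with rfl | rfl | rfl
  · exact Or.inl hv
  · exact Or.inr (Or.inl hv)
  · exact Or.inr (Or.inr hv)

/-- **Upper comparison**: zero data against data free in `{0, 1}`. -/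
theorem ex_le_EI {x : ℝ} (hx0 : 0 < x) (hx1 : x ≤ 1) {Λ F : Finset P2} (hΛ : upT Λ ⊆ F)
    {f : (P2 → ℤ) → ℝ} (hf : ∀ a b : P2 → ℤ, a ≤ b → f a ≤ f b) :
    ex x Λ (fun _ => 0) f ≤ EI x F Λ f := by
  classical
  set μ : (P2 → ℤ) → ℝ := fun h => ∏ t ∈ F, E3 x h t with hμ
  have hμl : LSM μ := LSM.prod _ fun _ _ => lsm_E3 hx0.le hx1 _
  have e1 : ∀ h ∈ conf Λ (fun _ => 0), μ h = wt x Λ h := by
    intro h hh
    rw [mem_conf] at hh
    simp only [hμ, wt]
    rw [← Finset.prod_sdiff hΛ]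
    have h1 : ∏ t ∈ F \ upT Λ, E3 x h t = 1 := by
      refine Finset.prod_eq_one fun t ht => ?_
      have ht' := (Finset.mem_sdiff.1 ht).2
      rw [mem_upT] at ht'
      push Not at ht'
      rw [E3_eq_tw x hh.1]
      unfold tw
      rw [if_pos]
      exact ⟨by rw [hh.2 _ ht'.1, hh.2 _ ht'.2.1], by rw [hh.2 _ ht'.1, hh.2 _ ht'.2.2]⟩
    rw [h1, one_mul]
    exact Finset.prod_congr rfl fun t _ => E3_eq_tw x hh.1 t
  have e2 : ∀ h ∈ htsI F Λ, μ h = ∏ t ∈ F, tw x h t := fun h hh =>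
    Finset.prod_congr rfl fun t _ => E3_eq_tw x (mem_htsI.1 hh).1.toLip t
  have z1 : ∑ h ∈ conf Λ (fun _ => 0), μ h = Z x Λ (fun _ => 0) := Finset.sum_congr rfl e1
  have z2 : ∑ h ∈ htsI F Λ, μ h = SI x F Λ fun _ => 1 := by
    unfold SI
    exact Finset.sum_congr rfl fun h hh => by rw [e2 h hh, mul_one]
  have hl0 : Lip (fun _ : P2 => (0 : ℤ)) := lip_const 0
  have p1 := Crest.Agent.R144.It844.Z_pos hx0 hl0 (Λ := Λ)
  have key := holley hμl (conf Λ (fun _ => 0)) (htsI F Λ) (by rw [z1]; exact p1)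
    (by rw [z2]; exact SI_one_pos x F Λ) (fun a ha b hb => ?_) (f := f) (fun a _ b _ h => hf a b h)
  · have l1 : ex x Λ (fun _ => 0) f =
        (∑ a ∈ conf Λ (fun _ => 0), μ a * f a) / ∑ a ∈ conf Λ (fun _ => 0), μ a := by
      unfold ex
      rw [smul_eq_mul, inv_mul_eq_div, z1]
      congr 1
      exact Finset.sum_congr rfl fun h hh => by rw [e1 h hh, smul_eq_mul]
    have l2 : EI x F Λ f = (∑ b ∈ htsI F Λ, μ b * f b) / ∑ b ∈ htsI F Λ, μ b := by
      unfold EI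
      rw [z2]
      congr 1
      unfold SI
      exact Finset.sum_congr rfl fun h hh => by rw [e2 h hh]
    rw [l1, l2]
    exact key
  · rw [mem_conf] at ha
    rw [mem_htsI] at hb
    have hbL := hb.1.toLip
    refine ⟨mem_conf.2 ⟨ha.1.inf hbL, fun v hv => ?_⟩, mem_htsI.2 ⟨⟨fun t _ i j => ?_, fun v hv => ?_,
      fun v hv => ?_⟩, fun v hv => ?_⟩⟩
    · simp only [Pi.inf_apply, ha.2 v hv]
      rcases hb.2 v hv with h | h <;> rw [h] <;> decide
    · have hsup := ha.1.sup hbL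
      rw [Crest.Agent.R144.It844.lip_iff] at hsup
      obtain ⟨h1, h2, h3⟩ := hsup t
      fin_cases i <;> fin_cases j <;>
        simp only [Fin.zero_eta, Fin.mk_one, Fin.reduceFinMk, cr0, cr1, cr2, sub_self, abs_zero,
          zero_le_one] <;> first | assumption | (rw [abs_sub_comm]; assumption)
    · have hv' : v ∉ Λ := fun h => hv (iv_of_upT hΛ h)
      simp only [Pi.sup_apply, ha.2 v hv']
      rcases hb.2 v hv' with h | h <;> rw [h] <;> decide
    · have hv' : v ∉ Λ := fun h => hv (IV_sub_VF F (iv_of_upT hΛ h))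
      simp only [Pi.sup_apply, ha.2 v hv', hb.1.off v hv]
      decide
    · simp only [Pi.sup_apply, ha.2 v hv]
      rcases hb.2 v hv with h | h <;> rw [h] <;> decide

theorem Ln_mono {S : Finset P2} {w : P2 → ℝ} (hw : ∀ v, 0 ≤ w v) {a b : P2 → ℤ} (h : a ≤ b) :
    Ln S w a ≤ Ln S w b :=
  Finset.sum_le_sum fun v _ => mul_le_mul_of_nonneg_left (by exact_mod_cast h v) (hw v)

/-- **Second moments for data in `{-1, 0}`.** -/
theorem ex_sq_le {x : ℝ} (hx0 : 0 < x) (hx1 : x ≤ 1) {Λ F : Finset P2} (hΛ : upT Λ ⊆ F)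
    {ξ : P2 → ℤ} (hξ : ∀ v, ξ v = -1 ∨ ξ v = 0) {S : Finset P2} {w : P2 → ℝ} (hw : ∀ v, 0 ≤ w v) :
    ex x Λ ξ (fun h => Ln S w h ^ 2) ≤
      4 * EI x F Λ (fun h => Yn S w h ^ 2) + 5 * (∑ v ∈ S, w v) ^ 2 := by
  set W := ∑ v ∈ S, w v with hW
  have hW0 : 0 ≤ W := Finset.sum_nonneg fun v _ => hw v
  have hl0 : Lip (fun _ : P2 => (0 : ℤ)) := lip_const 0
  have hl1 : Lip (fun _ : P2 => (-1 : ℤ)) := lip_const (-1)
  have hlξ : Lip ξ := by
    intro u v _
    rcases hξ u with h | h <;> rcases hξ v with h' | h' <;> rw [h, h'] <;> decide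
  set pp : ℝ → ℝ := fun t => max t 0 ^ 2 with hpp
  have ppm : ∀ s t : ℝ, s ≤ t → pp s ≤ pp t := fun s t hst =>
    pow_le_pow_left₀ (le_max_right _ _) (max_le_max_right 0 hst) 2
  have ppl : ∀ t : ℝ, pp t ≤ t ^ 2 := fun t => by
    simp only [hpp]
    rcases le_total t 0 with h | h
    · rw [max_eq_right h]; nlinarith [sq_nonneg t]
    · rw [max_eq_left h]
  have split : ∀ t : ℝ, t ^ 2 = pp t + pp (-t) := fun t => by
    simp only [hpp]
    rcases le_total t 0 with h | h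
    · rw [max_eq_right h, max_eq_left (by linarith)]; ring
    · rw [max_eq_left h, max_eq_right (by linarith)]; ring
  -- upper part
  have u1 : ex x Λ ξ (fun h => pp (Ln S w h)) ≤ ex x Λ (fun _ => 0) (fun h => pp (Ln S w h)) :=
    ex_mono_bc hx0 hx1 hlξ hl0 (fun v _ => by rcases hξ v with h | h <;> rw [h] <;> decide)
      fun a _ b _ hab => ppm _ _ (Ln_mono hw hab)
  -- lower part
  have l1 : ex x Λ ξ (fun h => pp (-Ln S w h)) ≤ ex x Λ (fun _ => -1) (fun h => pp (-Ln S w h)) := by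
    have := ex_mono_bc hx0 hx1 hl1 hlξ (Λ := Λ) (f := fun h => -pp (-Ln S w h))
      (fun v _ => by rcases hξ v with h | h <;> rw [h] <;> decide)
      (fun a _ b _ hab => neg_le_neg (ppm _ _ (neg_le_neg (Ln_mono hw hab))))
    have e : ∀ τ : P2 → ℤ, ex x Λ τ (fun h => -pp (-Ln S w h)) = -ex x Λ τ (fun h => pp (-Ln S w h)) := by
      intro τ
      have := ex_smul (x := x) (Λ := Λ) (τ := τ) (-1 : ℝ) (fun h => pp (-Ln S w h))
      simp only [smul_eq_mul, neg_one_mul] at this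
      exact this
    rw [e, e] at this
    linarith
  have l2 : ex x Λ (fun _ => -1) (fun h => pp (-Ln S w h)) =
      ex x Λ (fun _ => 0) (fun h => pp (Ln S w h + W)) := by
    have h1 := ex_add_const x Λ (fun _ => (0 : ℤ)) (-1) (fun h => pp (-Ln S w h))
    simp only [zero_add] at h1
    rw [h1]
    have h2 := ex_neg x Λ (fun _ => (0 : ℤ)) (fun h => pp (-Ln S w (fun v => h v + -1)))
    simp only [neg_zero] at h2
    rw [h2]
    refine ex_congr fun h _ => ?_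
    show pp (-Ln S w (fun v => -h v + -1)) = pp (Ln S w h + W)
    congr 1
    unfold Ln
    rw [hW, ← Finset.sum_neg_distrib, ← Finset.sum_add_distrib]
    refine Finset.sum_congr rfl fun v _ => ?_
    push_cast
    ring
  have k1 := ex_le_EI hx0 hx1 hΛ (f := fun h => pp (Ln S w h)) fun a b hab => ppm _ _ (Ln_mono hw hab)
  have k2 := ex_le_EI hx0 hx1 hΛ (f := fun h => pp (Ln S w h + W)) fun a b hab =>
    ppm _ _ (by have := Ln_mono (S := S) hw hab; linarith)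
  have s1 : ex x Λ ξ (fun h => Ln S w h ^ 2) =
      ex x Λ ξ (fun h => pp (Ln S w h)) + ex x Λ ξ (fun h => pp (-Ln S w h)) := by
    rw [← ex_add]
    exact ex_congr fun h _ => split _
  have f1 : EI x F Λ (fun h => pp (Ln S w h)) + EI x F Λ (fun h => pp (Ln S w h + W)) ≤
      4 * EI x F Λ (fun h => Yn S w h ^ 2) + 5 * W ^ 2 := by
    rw [← EI_add, ← EI_smul, ← EI_const x F Λ (5 * W ^ 2), ← EI_add]
    refine EI_le fun h _ => ?_
    have hy := Yn_eq S w h
    rw [← hW] at hy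
    have a1 := ppl (Ln S w h)
    have a2 := ppl (Ln S w h + W)
    rw [hy]
    nlinarith [sq_nonneg (Ln S w h - W / 2 - W / 2), sq_nonneg (Ln S w h - W / 2 - 3 * W / 2)]
  rw [s1]
  linarith

/-- **(V), nonnegative weights, data in `{-1, 0}`.** -/
theorem hf_ex_pos {x : ℝ} (hx0 : 0 < x) (hx1 : x ≤ 1) {K : ℕ} {p : ℝ} (hR : RSW ((x ^ 2)⁻¹) K p)
    {P : Measure Hz} (hPS : PSq P)
    (hFL : ∀ f : Hz → ℝ, GObs f → FLim ((x ^ 2)⁻¹) f (∫ h, f h ∂P)) (A : ℕ) :
    ∃ C : ℝ, 0 ≤ C ∧ ∀ n : ℕ, 1 ≤ n → ∀ (b : P2) (Λ F : Finset P2), SC F → upT Λ ⊆ F → b ∉ F →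
      ∀ ξ : P2 → ℤ, (∀ v, ξ v = -1 ∨ ξ v = 0) → ∀ (S : Finset P2) (w : P2 → ℝ), S ⊆ Λ →
      InB b (n - 1) S → (∀ v, 0 ≤ w v) → (∀ v ∈ S, w v ≤ A / (n : ℝ) ^ 2) →
        ex x Λ ξ (fun h => Ln S w h ^ 2) ≤ C := by
  obtain ⟨C, hC, h⟩ := fvar_pos hx0 hx1 hR hPS hFL A
  refine ⟨4 * C + 5 * (9 * A) ^ 2, by positivity, fun n hn b Λ F hF hΛ hb ξ hξ S w hSΛ hS hw hwA => ?_⟩
  have hnR : (1 : ℝ) ≤ n := by exact_mod_cast hn
  have hW0 : 0 ≤ ∑ v ∈ S, w v := Finset.sum_nonneg fun v _ => hw v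
  have hWA : ∑ v ∈ S, w v ≤ 9 * A := by
    have h1 : ∑ v ∈ S, w v ≤ S.card • ((A : ℝ) / (n : ℝ) ^ 2) :=
      Finset.sum_le_card_nsmul _ _ _ hwA
    have h2 : (S.card : ℝ) ≤ (2 * n + 1) ^ 2 := by
      have h3 : S ⊆ ball b n := hS.sub.trans (ball_mono b (Nat.sub_le n 1))
      exact le_trans (by exact_mod_cast Finset.card_le_card h3) (card_ball_le b n)
    rw [nsmul_eq_mul] at h1
    have h4 : (2 * (n : ℝ) + 1) ^ 2 ≤ 9 * (n : ℝ) ^ 2 := by nlinarith
    have h5 : (S.card : ℝ) * (A / (n : ℝ) ^ 2) ≤ (9 * (n : ℝ) ^ 2) * (A / (n : ℝ) ^ 2) :=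
      mul_le_mul_of_nonneg_right (h2.trans h4) (by positivity)
    have h6 : (9 * (n : ℝ) ^ 2) * (A / (n : ℝ) ^ 2) = 9 * A := by field_simp
    linarith
  have hI := iv_of_upT hΛ
  have h1 := ex_sq_le hx0 hx1 hΛ hξ (S := S) hw
  have h2 : EI x F Λ (fun h => Yn S w h ^ 2) ≤ EI x F (IV F) (fun h => Yn S w h ^ 2) :=
    EI_mono hx0.le hx1 (Finset.Subset.refl F) hI (Finset.Subset.refl _) hI
      (Yn_sq_inc ((hSΛ.trans hI).trans (IV_sub_VF F)) hw)
  have h3 : EI x F (IV F) (fun h => Yn S w h ^ 2) ≤ C := by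
    rw [EI_self, ← E_eq_EH hx0.ne']
    exact h n hn b S w hS hw hwA F hF hb
  have h4 : (∑ v ∈ S, w v) ^ 2 ≤ (9 * (A : ℝ)) ^ 2 := pow_le_pow_left₀ hW0 hWA 2
  linarith

/-- **(V): uniform second moments near the boundary, data in `{-1, 0}`, signed weights.** -/
theorem hf_ex {x : ℝ} (hx0 : 0 < x) (hx1 : x ≤ 1) {K : ℕ} {p : ℝ} (hR : RSW ((x ^ 2)⁻¹) K p)
    {P : Measure Hz} (hPS : PSq P)
    (hFL : ∀ f : Hz → ℝ, GObs f → FLim ((x ^ 2)⁻¹) f (∫ h, f h ∂P)) (A : ℕ) :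
    ∃ C : ℝ, 0 ≤ C ∧ ∀ n : ℕ, 1 ≤ n → ∀ (b : P2) (Λ F : Finset P2), SC F → upT Λ ⊆ F → b ∉ F →
      ∀ ξ : P2 → ℤ, (∀ v, ξ v = -1 ∨ ξ v = 0) → ∀ (S : Finset P2) (w : P2 → ℝ), S ⊆ Λ →
      InB b (n - 1) S → (∀ v ∈ S, |w v| ≤ A / (n : ℝ) ^ 2) →
        ex x Λ ξ (fun h => Ln S w h ^ 2) ≤ C := by
  obtain ⟨C, hC, h⟩ := hf_ex_pos hx0 hx1 hR hPS hFL A
  refine ⟨4 * C, by positivity, fun n hn b Λ F hF hΛ hb ξ hξ S w hSΛ hS hwA => ?_⟩
  have hA : (0 : ℝ) ≤ A / (n : ℝ) ^ 2 := by positivity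
  have h1 := h n hn b Λ F hF hΛ hb ξ hξ S (fun v => max (w v) 0) hSΛ hS (fun v => le_max_right _ _)
    fun v hv => max_le ((le_abs_self _).trans (hwA v hv)) hA
  have h2 := h n hn b Λ F hF hΛ hb ξ hξ S (fun v => max (-w v) 0) hSΛ hS (fun v => le_max_right _ _)
    fun v hv => max_le ((neg_le_abs _).trans (hwA v hv)) hA
  have e : ∀ h : P2 → ℤ, Ln S w h =
      Ln S (fun v => max (w v) 0) h - Ln S (fun v => max (-w v) 0) h := by
    intro h
    unfold Ln
    rw [← Finset.sum_sub_distrib]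
    refine Finset.sum_congr rfl fun v _ => ?_
    have : w v = max (w v) 0 - max (-w v) 0 := by
      rcases le_total (w v) 0 with h | h
      · rw [max_eq_right h, max_eq_left (by linarith)]; ring
      · rw [max_eq_left h, max_eq_right (by linarith)]; ring
    rw [← sub_mul, ← this]
  calc ex x Λ ξ (fun h => Ln S w h ^ 2)
      ≤ ex x Λ ξ (fun h => (2 : ℝ) • (Ln S (fun v => max (w v) 0) h ^ 2) +
          (2 : ℝ) • (Ln S (fun v => max (-w v) 0) h ^ 2)) := by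
        refine ex_mono fun g _ => ?_
        rw [e g]
        simp only [smul_eq_mul]
        nlinarith [sq_nonneg (Ln S (fun v => max (w v) 0) g + Ln S (fun v => max (-w v) 0) g)]
    _ = 2 * ex x Λ ξ (fun h => Ln S (fun v => max (w v) 0) h ^ 2) +
          2 * ex x Λ ξ (fun h => Ln S (fun v => max (-w v) 0) h ^ 2) := by
        rw [ex_add, ex_smul, ex_smul, smul_eq_mul, smul_eq_mul]
    _ ≤ _ := by linarith

end Crest.Agent.R144.Hf702
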