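import Crest.Agent.R161.AtFkA_729
import Mathlib
import Crest.Agent.R144.Zg_349

-- ▼ part R144/HyA_349
section

/-!
# R144 (integer heights): FK-type representation with TRIPLE hyperedges (helper349)

Abstract part, finite sets.  `ε` = hyperedges (up triangles), `dn e : Fin 3 → β` the three dual vertices of
`e` (down triangles adjacent to the up triangle `e`).  A hyperedge is *hard* (`hd`: the signs at its three
dual vertices agree) or *soft* (`sf c e = 4 hd + (c - 1)`, `c = x⁻² ≥ 1`).

* `psi c D C` : partition function with hard hyperedges `D`, soft hyperedges `C`;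
* `psi_super` : supermodularity (GKS2); `psi_mono_soft`; `sum_psi` : expansion of the soft hyperedges.

Adapted from R161/AtFkA_729 (edges there, triples here).
-/

set_option autoImplicit false

set_option linter.unusedSectionVars false
set_option linter.unusedSimpArgs false

namespace Crest.Agent.R144.HyA349

open Finset Crest.Agent.R161.Gks375 Crest.Agent.R161.Lsm375 Crest.Agent.R161.Abs375

/-- `c + χ_ab + χ_bc + χ_ca` is ferromagnetic. -/
theorem ferro_tri {ι : Type*} [Fintype ι] [DecidableEq ι] {c : ℝ} (hc : 1 ≤ c) (A B C : Finset ι) :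
    Ferro (fun σ : ι → ℤˣ => c + chi A σ * chi B σ + chi B σ * chi C σ + chi C σ * chi A σ) := by
  have hAB : Pos (fun σ : ι → ℤˣ => chi A σ * chi B σ) := (Pos.chi A).mul (Pos.chi B)
  have hBC : Pos (fun σ : ι → ℤˣ => chi B σ * chi C σ) := (Pos.chi B).mul (Pos.chi C)
  have hCA : Pos (fun σ : ι → ℤˣ => chi C σ * chi A σ) := (Pos.chi C).mul (Pos.chi A)
  have hc0 : 0 ≤ c := by linarith
  refine ⟨(((Pos.const hc0).add hAB).add hBC).add hCA, fun ρ => ?_⟩
  have key : ∀ (a b d : ℝ), 0 ≤ a → 0 ≤ b → 0 ≤ d → ∀ (e : ℝ), 0 ≤ e →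
      Pos (fun σ : ι → ℤˣ => e + a * (chi A σ * chi B σ) + b * (chi B σ * chi C σ) +
        d * (chi C σ * chi A σ)) := by
    intro a b d ha hb hd e he
    exact (((Pos.const he).add (hAB.smul ha)).add (hBC.smul hb)).add (hCA.smul hd)
  rcases chi_eq_one_or A ρ with ha | ha <;> rcases chi_eq_one_or B ρ with hb | hb <;>
    rcases chi_eq_one_or C ρ with hd | hd
  · refine (key (2 * c + 2) (2 * c + 2) (2 * c + 2) (by linarith) (by linarith) (by linarith)
      (c ^ 2 + 3) (by positivity)).congr fun σ => ?_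
    dsimp only
    rw [chi_mul_arg, chi_mul_arg, chi_mul_arg, ha, hb, hd]
    rcases chi_eq_one_or A σ with ha' | ha' <;> rcases chi_eq_one_or B σ with hb' | hb' <;>
      rcases chi_eq_one_or C σ with hd' | hd' <;> rw [ha', hb', hd'] <;> ring
  · refine (key (2 * c - 2) 0 0 (by linarith) (by linarith) (by linarith)
      (c ^ 2 - 1) (by nlinarith)).congr fun σ => ?_
    dsimp only
    rw [chi_mul_arg, chi_mul_arg, chi_mul_arg, ha, hb, hd]
    rcases chi_eq_one_or A σ with ha' | ha' <;> rcases chi_eq_one_or B σ with hb' | hb' <;>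
      rcases chi_eq_one_or C σ with hd' | hd' <;> rw [ha', hb', hd'] <;> ring
  · refine (key 0 0 (2 * c - 2) (by linarith) (by linarith) (by linarith)
      (c ^ 2 - 1) (by nlinarith)).congr fun σ => ?_
    dsimp only
    rw [chi_mul_arg, chi_mul_arg, chi_mul_arg, ha, hb, hd]
    rcases chi_eq_one_or A σ with ha' | ha' <;> rcases chi_eq_one_or B σ with hb' | hb' <;>
      rcases chi_eq_one_or C σ with hd' | hd' <;> rw [ha', hb', hd'] <;> ring
  · refine (key 0 (2 * c - 2) 0 (by linarith) (by linarith) (by linarith)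
      (c ^ 2 - 1) (by nlinarith)).congr fun σ => ?_
    dsimp only
    rw [chi_mul_arg, chi_mul_arg, chi_mul_arg, ha, hb, hd]
    rcases chi_eq_one_or A σ with ha' | ha' <;> rcases chi_eq_one_or B σ with hb' | hb' <;>
      rcases chi_eq_one_or C σ with hd' | hd' <;> rw [ha', hb', hd'] <;> ring
  · refine (key 0 (2 * c - 2) 0 (by linarith) (by linarith) (by linarith)
      (c ^ 2 - 1) (by nlinarith)).congr fun σ => ?_
    dsimp only
    rw [chi_mul_arg, chi_mul_arg, chi_mul_arg, ha, hb, hd]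
    rcases chi_eq_one_or A σ with ha' | ha' <;> rcases chi_eq_one_or B σ with hb' | hb' <;>
      rcases chi_eq_one_or C σ with hd' | hd' <;> rw [ha', hb', hd'] <;> ring
  · refine (key 0 0 (2 * c - 2) (by linarith) (by linarith) (by linarith)
      (c ^ 2 - 1) (by nlinarith)).congr fun σ => ?_
    dsimp only
    rw [chi_mul_arg, chi_mul_arg, chi_mul_arg, ha, hb, hd]
    rcases chi_eq_one_or A σ with ha' | ha' <;> rcases chi_eq_one_or B σ with hb' | hb' <;>
      rcases chi_eq_one_or C σ with hd' | hd' <;> rw [ha', hb', hd'] <;> ring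
  · refine (key (2 * c - 2) 0 0 (by linarith) (by linarith) (by linarith)
      (c ^ 2 - 1) (by nlinarith)).congr fun σ => ?_
    dsimp only
    rw [chi_mul_arg, chi_mul_arg, chi_mul_arg, ha, hb, hd]
    rcases chi_eq_one_or A σ with ha' | ha' <;> rcases chi_eq_one_or B σ with hb' | hb' <;>
      rcases chi_eq_one_or C σ with hd' | hd' <;> rw [ha', hb', hd'] <;> ring
  · refine (key (2 * c + 2) (2 * c + 2) (2 * c + 2) (by linarith) (by linarith) (by linarith)
      (c ^ 2 + 3) (by positivity)).congr fun σ => ?_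
    dsimp only
    rw [chi_mul_arg, chi_mul_arg, chi_mul_arg, ha, hb, hd]
    rcases chi_eq_one_or A σ with ha' | ha' <;> rcases chi_eq_one_or B σ with hb' | hb' <;>
      rcases chi_eq_one_or C σ with hd' | hd' <;> rw [ha', hb', hd'] <;> ring

/-! ### spins -/

section psi

variable {β ε : Type*} [DecidableEq β] [DecidableEq ε] (dn : ε → Fin 3 → β) (VA : Finset β)

/-- Spin at a dual vertex (`+` off `VA`). -/
def sp (σ : ↥VA → ℤˣ) (v : β) : ℤˣ := if h : v ∈ VA then σ ⟨v, h⟩ else 1

/-- the three dual vertices of `e` carry equal signs -/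
def Mono (σ : ↥VA → ℤˣ) (e : ε) : Prop :=
  sp VA σ (dn e 0) = sp VA σ (dn e 1) ∧ sp VA σ (dn e 1) = sp VA σ (dn e 2)

instance (σ : ↥VA → ℤˣ) (e : ε) : Decidable (Mono dn VA σ e) := by unfold Mono; infer_instance

/-- hard hyperedge -/
noncomputable def hd (e : ε) (σ : ↥VA → ℤˣ) : ℝ := if Mono dn VA σ e then 1 else 0

/-- soft hyperedge -/
noncomputable def sf (c : ℝ) (e : ε) (σ : ↥VA → ℤˣ) : ℝ :=
  if Mono dn VA σ e then c + 3 else c - 1

theorem exists_chi_sp (v : β) : ∃ S : Finset ↥VA, ∀ σ, chi S σ = ((sp VA σ v : ℤ) : ℝ) := by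
  by_cases h : v ∈ VA
  · refine ⟨{⟨v, h⟩}, fun σ => ?_⟩
    simp [chi, sp, h]
  · refine ⟨∅, fun σ => ?_⟩
    simp [chi, sp, h]

/-- characters of the three dual vertices -/
theorem exists_chi (e : ε) : ∃ A B C : Finset ↥VA, ∀ σ,
    chi A σ = ((sp VA σ (dn e 0) : ℤ) : ℝ) ∧ chi B σ = ((sp VA σ (dn e 1) : ℤ) : ℝ) ∧
      chi C σ = ((sp VA σ (dn e 2) : ℤ) : ℝ) := by
  obtain ⟨A, hA⟩ := exists_chi_sp VA (dn e 0)
  obtain ⟨B, hB⟩ := exists_chi_sp VA (dn e 1)
  obtain ⟨C, hC⟩ := exists_chi_sp VA (dn e 2)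
  exact ⟨A, B, C, fun σ => ⟨hA σ, hB σ, hC σ⟩⟩

theorem sf_eq_chi (c : ℝ) (e : ε) (σ : ↥VA → ℤˣ) :
    sf dn VA c e σ = c + ((sp VA σ (dn e 0) : ℤ) : ℝ) * ((sp VA σ (dn e 1) : ℤ) : ℝ) +
      ((sp VA σ (dn e 1) : ℤ) : ℝ) * ((sp VA σ (dn e 2) : ℤ) : ℝ) +
      ((sp VA σ (dn e 2) : ℤ) : ℝ) * ((sp VA σ (dn e 0) : ℤ) : ℝ) := by
  unfold sf Mono
  rcases Int.units_eq_one_or (sp VA σ (dn e 0)) with h1 | h1 <;>
    rcases Int.units_eq_one_or (sp VA σ (dn e 1)) with h2 | h2 <;>
    rcases Int.units_eq_one_or (sp VA σ (dn e 2)) with h3 | h3 <;>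
    simp [h1, h2, h3] <;> ring

theorem hd_eq_chi (e : ε) (σ : ↥VA → ℤˣ) :
    hd dn VA e σ = (1 / 4) * (1 + ((sp VA σ (dn e 0) : ℤ) : ℝ) * ((sp VA σ (dn e 1) : ℤ) : ℝ) +
      ((sp VA σ (dn e 1) : ℤ) : ℝ) * ((sp VA σ (dn e 2) : ℤ) : ℝ) +
      ((sp VA σ (dn e 2) : ℤ) : ℝ) * ((sp VA σ (dn e 0) : ℤ) : ℝ)) := by
  unfold hd Mono
  rcases Int.units_eq_one_or (sp VA σ (dn e 0)) with h1 | h1 <;>
    rcases Int.units_eq_one_or (sp VA σ (dn e 1)) with h2 | h2 <;>
    rcases Int.units_eq_one_or (sp VA σ (dn e 2)) with h3 | h3 <;>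
    simp [h1, h2, h3] <;> norm_num

theorem hd_ferro (e : ε) : Ferro (hd dn VA e) := by
  obtain ⟨A, B, C, h⟩ := exists_chi dn VA e
  refine ((Ferro.const (r := 1 / 4) (by norm_num)).mul
    (ferro_tri le_rfl A B C)).congr fun σ => ?_
  obtain ⟨h1, h2, h3⟩ := h σ
  rw [hd_eq_chi, h1, h2, h3]

theorem sf_ferro {c : ℝ} (hc : 1 ≤ c) (e : ε) : Ferro (sf dn VA c e) := by
  obtain ⟨A, B, C, h⟩ := exists_chi dn VA e
  refine (ferro_tri hc A B C).congr fun σ => ?_
  obtain ⟨h1, h2, h3⟩ := h σ
  rw [sf_eq_chi, h1, h2, h3]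

theorem hd_nonneg (e : ε) (σ : ↥VA → ℤˣ) : 0 ≤ hd dn VA e σ := by
  unfold hd; split_ifs <;> norm_num

theorem sf_nonneg {c : ℝ} (hc : 1 ≤ c) (e : ε) (σ : ↥VA → ℤˣ) : 0 ≤ sf dn VA c e σ := by
  unfold sf; split_ifs <;> linarith

theorem sf_eq (c : ℝ) (e : ε) (σ : ↥VA → ℤˣ) :
    sf dn VA c e σ = 4 * hd dn VA e σ + (c - 1) := by
  unfold sf hd; split_ifs <;> ring

/-- Partition function with hard hyperedges `D` and soft hyperedges `C`. -/
noncomputable def psi (c : ℝ) (D C : Finset ε) : ℝ :=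
  ∑ σ : ↥VA → ℤˣ, (∏ e ∈ D, hd dn VA e σ) * ∏ e ∈ C, sf dn VA c e σ

theorem psi_pos {c : ℝ} (hc : 1 ≤ c) (D C : Finset ε) : 0 < psi dn VA c D C := by
  unfold psi
  refine Finset.sum_pos' (fun σ _ => mul_nonneg
    (Finset.prod_nonneg fun e _ => hd_nonneg dn VA e σ)
    (Finset.prod_nonneg fun e _ => sf_nonneg dn VA hc e σ)) ⟨1, Finset.mem_univ _, ?_⟩
  have h1 : ∀ v, sp VA (1 : ↥VA → ℤˣ) v = 1 := by
    intro v; unfold sp; split_ifs <;> rfl
  have h2 : ∀ e, Mono dn VA (1 : ↥VA → ℤˣ) e := fun e => by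
    unfold Mono; rw [h1, h1, h1]; exact ⟨rfl, rfl⟩
  refine mul_pos (Finset.prod_pos fun e _ => ?_) (Finset.prod_pos fun e _ => ?_)
  · unfold hd; rw [if_pos (h2 e)]; norm_num
  · unfold sf; rw [if_pos (h2 e)]; linarith

/-- **Supermodularity.** -/
theorem psi_super {c : ℝ} (hc : 1 ≤ c) (D C D' C' : Finset ε) :
    psi dn VA c D C * psi dn VA c D' C' ≤
      psi dn VA c (D ∩ D') (C ∩ C') * psi dn VA c (D ∪ D') (C ∪ C') := by
  have hw : Ferro (fun σ => (∏ e ∈ D ∩ D', hd dn VA e σ) *
      ∏ e ∈ C ∩ C', sf dn VA c e σ) :=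
    (Ferro.prod _ fun e _ => hd_ferro dn VA e).mul
      (Ferro.prod _ fun e _ => sf_ferro dn VA hc e)
  have hf : Pos (fun σ => (∏ e ∈ D \ D', hd dn VA e σ) *
      ∏ e ∈ C \ C', sf dn VA c e σ) :=
    ((Ferro.prod _ fun e _ => hd_ferro dn VA e).mul
      (Ferro.prod _ fun e _ => sf_ferro dn VA hc e)).pos
  have hg : Pos (fun σ => (∏ e ∈ D' \ D, hd dn VA e σ) *
      ∏ e ∈ C' \ C, sf dn VA c e σ) :=
    ((Ferro.prod _ fun e _ => hd_ferro dn VA e).mul
      (Ferro.prod _ fun e _ => sf_ferro dn VA hc e)).pos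
  have key := gks2 hw hf hg
  have dec : ∀ (A B : Finset ε) (f : ε → ℝ), ∏ e ∈ A, f e =
      (∏ e ∈ A ∩ B, f e) * ∏ e ∈ A \ B, f e := by
    intro A B f
    exact (Finset.prod_inter_mul_prod_sdiff A B f).symm
  have decU : ∀ (A B : Finset ε) (f : ε → ℝ), ∏ e ∈ A ∪ B, f e =
      (∏ e ∈ A ∩ B, f e) * ((∏ e ∈ A \ B, f e) * ∏ e ∈ B \ A, f e) := by
    intro A B f
    have h1 : A ∪ B = A ∪ (B \ A) := by ext x; simp [Finset.mem_union, Finset.mem_sdiff]
    rw [h1, Finset.prod_union Finset.disjoint_sdiff, dec A B f]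
    ring
  have e1 : psi dn VA c D C = ∑ σ : ↥VA → ℤˣ,
      ((∏ e ∈ D ∩ D', hd dn VA e σ) * ∏ e ∈ C ∩ C', sf dn VA c e σ) *
      ((∏ e ∈ D \ D', hd dn VA e σ) * ∏ e ∈ C \ C', sf dn VA c e σ) := by
    unfold psi
    refine Finset.sum_congr rfl fun σ _ => ?_
    rw [dec D D', dec C C']; ring
  have e2 : psi dn VA c D' C' = ∑ σ : ↥VA → ℤˣ,
      ((∏ e ∈ D ∩ D', hd dn VA e σ) * ∏ e ∈ C ∩ C', sf dn VA c e σ) *
      ((∏ e ∈ D' \ D, hd dn VA e σ) * ∏ e ∈ C' \ C, sf dn VA c e σ) := by
    unfold psi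
    refine Finset.sum_congr rfl fun σ _ => ?_
    rw [dec D' D, dec C' C, Finset.inter_comm D' D, Finset.inter_comm C' C]; ring
  have e3 : psi dn VA c (D ∪ D') (C ∪ C') = ∑ σ : ↥VA → ℤˣ,
      ((∏ e ∈ D ∩ D', hd dn VA e σ) * ∏ e ∈ C ∩ C', sf dn VA c e σ) *
      (((∏ e ∈ D \ D', hd dn VA e σ) * ∏ e ∈ C \ C', sf dn VA c e σ) *
      ((∏ e ∈ D' \ D, hd dn VA e σ) * ∏ e ∈ C' \ C, sf dn VA c e σ)) := by
    unfold psi
    refine Finset.sum_congr rfl fun σ _ => ?_
    rw [decU D D', decU C C']; ring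
  rw [e1, e2, e3]
  exact key

/-- Monotone in the soft hyperedges. -/
theorem psi_mono_soft {c : ℝ} (hc : 1 ≤ c) (D : Finset ε) {C C' : Finset ε} (h : C ⊆ C') :
    psi dn VA c D C ≤ psi dn VA c D C' := by
  have step : ∀ (C : Finset ε) (e : ε), e ∉ C →
      psi dn VA c D C ≤ psi dn VA c D (insert e C) := by
    intro C e he
    obtain ⟨A, B, G, hS⟩ := exists_chi dn VA e
    have hw : Pos (fun σ => (∏ e ∈ D, hd dn VA e σ) * ∏ e ∈ C, sf dn VA c e σ) :=
      ((Ferro.prod _ fun e _ => hd_ferro dn VA e).mul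
        (Ferro.prod _ fun e _ => sf_ferro dn VA hc e)).pos
    have hp : Pos (fun σ => chi A σ * chi B σ + chi B σ * chi G σ + chi G σ * chi A σ) :=
      (((Pos.chi A).mul (Pos.chi B)).add ((Pos.chi B).mul (Pos.chi G))).add
        ((Pos.chi G).mul (Pos.chi A))
    have h1 := (hw.mul hp).sum_nonneg
    have h2 : psi dn VA c D (insert e C) = c * psi dn VA c D C +
        ∑ σ : ↥VA → ℤˣ, ((∏ e ∈ D, hd dn VA e σ) * ∏ e ∈ C, sf dn VA c e σ) *
          (chi A σ * chi B σ + chi B σ * chi G σ + chi G σ * chi A σ) := by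
      unfold psi
      rw [Finset.mul_sum, ← Finset.sum_add_distrib]
      refine Finset.sum_congr rfl fun σ _ => ?_
      obtain ⟨h1, h2, h3⟩ := hS σ
      rw [Finset.prod_insert he, sf_eq_chi, h1, h2, h3]
      ring
    have h3 := psi_pos dn VA hc D C
    nlinarith
  have key : ∀ K : Finset ε, psi dn VA c D C ≤ psi dn VA c D (K ∪ C) := by
    intro K
    induction K using Finset.induction_on with
    | empty => simp
    | insert e K he ih =>
      by_cases h' : e ∈ K ∪ C
      · rw [Finset.insert_union, Finset.insert_eq_of_mem h']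
        exact ih
      · rw [Finset.insert_union]
        exact ih.trans (step _ _ h')
  have := key C'
  rwa [Finset.union_eq_left.mpr h] at this

/-- Expansion of soft hyperedges. -/
theorem sum_psi (c : ℝ) (D E : Finset ε) (hDE : Disjoint D E) :
    ∑ P ∈ E.powerset, 4 ^ P.card * (c - 1) ^ (E \ P).card * psi dn VA c (D ∪ P) ∅ =
      psi dn VA c D E := by
  unfold psi
  simp_rw [Finset.mul_sum]
  rw [Finset.sum_comm]
  refine Finset.sum_congr rfl fun σ _ => ?_
  have h1 : ∏ e ∈ E, sf dn VA c e σ =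
      ∑ P ∈ E.powerset, (∏ e ∈ P, (4 * hd dn VA e σ)) * ∏ e ∈ E \ P, (c - 1) := by
    rw [← Finset.prod_add]
    exact Finset.prod_congr rfl fun e _ => sf_eq dn VA c e σ
  rw [h1, Finset.mul_sum]
  refine Finset.sum_congr rfl fun P hP => ?_
  rw [Finset.mem_powerset] at hP
  rw [Finset.prod_union (Finset.disjoint_of_subset_right hP hDE), Finset.prod_mul_distrib,
    Finset.prod_const, Finset.prod_const, Finset.prod_empty]
  ring

end psi

end Crest.Agent.R144.HyA349
end

-- ▼ part R144/HyB_349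
section

/-!
# R144: association and monotonicity in the boundary data, triple hyperedges (helper349)

`α` = sites carrying the signs `s` (`T` = set of minus sites), `β` = dual sites (down triangles), `ε` =
hyperedges (up triangles) with set of corners `up e` and dual vertices `dn e i` (`i : Fin 3`).
`En up dn VA VI EI c η f` = unnormalised expectation of `f T P M` (`T` minus sites, `P` closed hyperedges on
plus sites, `M` closed hyperedges on minus sites) with boundary data `η`.

* `En_fkg` : association of (minus signs reversed, `P`, `-M`), `c ≥ 1`;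
* `En_mono` : monotonicity in the boundary data.

Adapted from R161/AtFkB_729.
-/

set_option autoImplicit false
set_option linter.unusedSectionVars false

namespace Crest.Agent.R144.HyB349

open Finset Crest.Agent.R161.Gks375 Crest.Agent.R161.Lsm375 Crest.Agent.R161.Abs375
  Crest.Agent.R144.HyA349

variable {α β ε : Type*} [DecidableEq α] [DecidableEq β] [DecidableEq ε]

/-- Boundary data: fixed minus vertices, fixed plus-cut wiring edges, fixed minus-cut wiring
edges. -/
structure BC (α ε : Type*) where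
  T0 : Finset α
  Dp : Finset ε
  Dm : Finset ε

/-- The wiring edges are not free edges and the fixed minus vertices are not free vertices. -/
structure BC.Ok (η : BC α ε) (VI : Finset α) (EI : Finset ε) : Prop where
  t : Disjoint η.T0 VI
  p : Disjoint η.Dp EI
  m : Disjoint η.Dm EI

/-- `η'` is more plus than `η`. -/
structure BC.Le (η η' : BC α ε) : Prop where
  t : η'.T0 ⊆ η.T0
  p : η.Dp ⊆ η'.Dp
  m : η'.Dm ⊆ η.Dm

theorem BC.Le.refl (η : BC α ε) : η.Le η := ⟨fun _ h => h, fun _ h => h, fun _ h => h⟩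

variable (up : ε → Finset α) (dn : ε → Fin 3 → β) (VA : Finset β) (VI : Finset α) (EI : Finset ε)

/-- free edges with both endpoints off `X` -/
def E2 (X : Finset α) : Finset ε := EI.filter fun e => ∀ v ∈ up e, v ∉ X
/-- free edges with both endpoints in `X` -/
def E1 (X : Finset α) : Finset ε := EI.filter fun e => ∀ v ∈ up e, v ∈ X

theorem E2_anti {X Y : Finset α} (h : X ⊆ Y) : E2 up EI Y ⊆ E2 up EI X := by
  intro e he
  simp only [E2, Finset.mem_filter] at he ⊢
  exact ⟨he.1, fun v hv h' => he.2 v hv (h h')⟩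

theorem E1_mono {X Y : Finset α} (h : X ⊆ Y) : E1 up EI X ⊆ E1 up EI Y := by
  intro e he
  simp only [E1, Finset.mem_filter] at he ⊢
  exact ⟨he.1, fun v hv => h (he.2 v hv)⟩

theorem E2_sub (X : Finset α) : E2 up EI X ⊆ EI := Finset.filter_subset _ _
theorem E1_sub (X : Finset α) : E1 up EI X ⊆ EI := Finset.filter_subset _ _

/-- FK weight with wiring `D` on the edge set `E`. -/
noncomputable def aw (c : ℝ) (D E P : Finset ε) : ℝ :=
  if P ⊆ E then 4 ^ P.card * (c - 1) ^ (E \ P).card * psi dn VA c (D ∪ P) ∅ else 0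

theorem aw_nonneg {c : ℝ} (hc : 1 ≤ c) (D E P : Finset ε) : 0 ≤ aw dn VA c D E P := by
  unfold aw
  split_ifs
  · have := psi_pos dn VA hc (D ∪ P) ∅
    have h : 0 ≤ c - 1 := by linarith
    positivity
  · exact le_rfl

theorem sum_aw {c : ℝ} {D E : Finset ε} (hE : E ⊆ EI) (hD : Disjoint D E) :
    ∑ P ∈ EI.powerset, aw dn VA c D E P = psi dn VA c D E := by
  rw [← sum_psi dn VA c D E hD]
  have h1 : E.powerset ⊆ EI.powerset := Finset.powerset_mono.mpr hE
  rw [← Finset.sum_subset h1]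
  · refine Finset.sum_congr rfl fun P hP => ?_
    unfold aw
    rw [if_pos (Finset.mem_powerset.mp hP)]
  · intro P _ hP
    unfold aw
    rw [if_neg (fun h => hP (Finset.mem_powerset.mpr h))]

/-- Holley domination of FK weights. -/
theorem aw_dom {c : ℝ} (hc : 1 ≤ c) {D D' E E' : Finset ε} (hE : E ⊆ E') (hD : D ⊆ D')
    (hDE : Disjoint D' E') :
    Dom (aw dn VA c D E) (aw dn VA c D' E') := by
  refine ⟨fun P => aw_nonneg dn VA hc _ _ P, fun P => aw_nonneg dn VA hc _ _ P,
    fun P Q => ?_⟩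
  by_cases hP : P ⊆ E
  · by_cases hQ : Q ⊆ E'
    · have h1 : P ⊓ Q ⊆ E := Finset.inter_subset_left.trans hP
      have h2 : P ⊔ Q ⊆ E' := Finset.union_subset (hP.trans hE) hQ
      unfold aw
      rw [if_pos hP, if_pos hQ, if_pos h1, if_pos h2]
      have e1 : P.card + Q.card = (P ⊓ Q).card + (P ⊔ Q).card := by
        rw [Finset.inf_eq_inter, Finset.sup_eq_union, Finset.card_inter_add_card_union]
      have e2 : (E \ P).card + (E' \ Q).card = (E \ (P ⊓ Q)).card + (E' \ (P ⊔ Q)).card := by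
        rw [Finset.card_sdiff_of_subset hP, Finset.card_sdiff_of_subset hQ,
          Finset.card_sdiff_of_subset h1, Finset.card_sdiff_of_subset h2]
        have a1 := Finset.card_le_card hP
        have a2 := Finset.card_le_card hQ
        have a3 := Finset.card_le_card h1
        have a4 := Finset.card_le_card h2
        omega
      have e3 : psi dn VA c (D ∪ P) ∅ * psi dn VA c (D' ∪ Q) ∅ ≤
          psi dn VA c (D ∪ (P ⊓ Q)) ∅ * psi dn VA c (D' ∪ (P ⊔ Q)) ∅ := by
        have h := psi_super dn VA hc (D ∪ P) ∅ (D' ∪ Q) ∅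
        have i1 : (D ∪ P) ∩ (D' ∪ Q) = D ∪ (P ⊓ Q) := by
          ext e
          have hd : e ∈ P → e ∉ D' := fun h1 h2 =>
            (Finset.disjoint_left.mp hDE) h2 (hE (hP h1))
          have hd2 : e ∈ D → e ∈ D' := fun h => hD h
          simp only [Finset.mem_inter, Finset.mem_union, Finset.inf_eq_inter]
          tauto
        have i2 : (D ∪ P) ∪ (D' ∪ Q) = D' ∪ (P ⊔ Q) := by
          ext e
          have hd2 : e ∈ D → e ∈ D' := fun h => hD h
          simp only [Finset.mem_union, Finset.sup_eq_union]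
          tauto
        rw [i1, i2, Finset.inter_self, Finset.union_self] at h
        exact h
      have hx : 0 ≤ c - 1 := by linarith
      calc 4 ^ P.card * (c - 1) ^ (E \ P).card * psi dn VA c (D ∪ P) ∅ *
            (4 ^ Q.card * (c - 1) ^ (E' \ Q).card * psi dn VA c (D' ∪ Q) ∅)
          = (4 ^ (P.card + Q.card) * (c - 1) ^ ((E \ P).card + (E' \ Q).card)) *
            (psi dn VA c (D ∪ P) ∅ * psi dn VA c (D' ∪ Q) ∅) := by
            rw [pow_add, pow_add]; ring
        _ ≤ (4 ^ (P.card + Q.card) * (c - 1) ^ ((E \ P).card + (E' \ Q).card)) *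
            (psi dn VA c (D ∪ (P ⊓ Q)) ∅ * psi dn VA c (D' ∪ (P ⊔ Q)) ∅) :=
            mul_le_mul_of_nonneg_left e3 (by positivity)
        _ = _ := by rw [e1, e2, pow_add, pow_add]; ring
    · have : aw dn VA c D' E' Q = 0 := by unfold aw; rw [if_neg hQ]
      rw [this, mul_zero]
      exact mul_nonneg (aw_nonneg dn VA hc _ _ _) (aw_nonneg dn VA hc _ _ _)
  · have : aw dn VA c D E P = 0 := by unfold aw; rw [if_neg hP]
    rw [this, zero_mul]
    exact mul_nonneg (aw_nonneg dn VA hc _ _ _) (aw_nonneg dn VA hc _ _ _)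

/-! ### normalised averages -/

/-- average of `f` under the FK weight -/
noncomputable def ex (c : ℝ) (D E : Finset ε) (f : Finset ε → ℝ) : ℝ :=
  (∑ P ∈ EI.powerset, aw dn VA c D E P * f P) / psi dn VA c D E

theorem ex_mono {c : ℝ} (hc : 1 ≤ c) (D E : Finset ε) {f g : Finset ε → ℝ}
    (h : ∀ P, f P ≤ g P) : ex dn VA EI c D E f ≤ ex dn VA EI c D E g := by
  unfold ex
  refine div_le_div_of_nonneg_right (Finset.sum_le_sum fun P _ => ?_) (psi_pos dn VA hc D E).le
  exact mul_le_mul_of_nonneg_left (h P) (aw_nonneg dn VA hc _ _ _)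

theorem powerset_closed {β : Type*} [DecidableEq β] (A : Finset β) :
    ∀ a ∈ A.powerset, ∀ b ∈ A.powerset, a ⊓ b ∈ A.powerset ∧ a ⊔ b ∈ A.powerset := by
  intro a ha b hb
  have ha' := Finset.mem_powerset.mp ha
  have hb' := Finset.mem_powerset.mp hb
  exact ⟨Finset.mem_powerset.mpr (Finset.inter_subset_left.trans ha'),
    Finset.mem_powerset.mpr (Finset.union_subset ha' hb')⟩

theorem ex_dom {c : ℝ} (hc : 1 ≤ c) {D D' E E' : Finset ε} (hE : E ⊆ E') (hE' : E' ⊆ EI)
    (hD : D ⊆ D') (hDE : Disjoint D' E') {f : Finset ε → ℝ} (hf : ∀ P Q, P ⊆ Q → f P ≤ f Q) :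
    ex dn VA EI c D E f ≤ ex dn VA EI c D' E' f := by
  unfold ex
  have h0 := psi_pos dn VA hc D E
  have h0' := psi_pos dn VA hc D' E'
  rw [div_le_div_iff₀ h0 h0']
  have h1 := (aw_dom dn VA hc hE hD hDE).expect_le EI.powerset (powerset_closed EI)
    (f := f) (fun a _ b _ hab => hf a b hab)
  rw [sum_aw dn VA EI (hE.trans hE') (Finset.disjoint_of_subset_left hD
    (Finset.disjoint_of_subset_right hE hDE)), sum_aw dn VA EI hE' hDE] at h1
  linarith

theorem ex_fkg {c : ℝ} (hc : 1 ≤ c) {D E : Finset ε} (hE : E ⊆ EI) (hDE : Disjoint D E)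
    {f g : Finset ε → ℝ} (hf : ∀ P Q, P ⊆ Q → f P ≤ f Q) (hg : ∀ P Q, P ⊆ Q → g P ≤ g Q) :
    ex dn VA EI c D E f * ex dn VA EI c D E g ≤
      ex dn VA EI c D E (fun P => f P * g P) := by
  have h0 := psi_pos dn VA hc D E
  have hlsm : LSM (aw dn VA c D E) := by
    have := aw_dom dn VA hc (Finset.Subset.refl E) (Finset.Subset.refl D) hDE
    exact ⟨this.1, this.2.2⟩
  have h1 := hlsm.fkg EI.powerset (powerset_closed EI) (f := f) (g := g)
    (fun a _ b _ hab => hf a b hab) (fun a _ b _ hab => hg a b hab)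
  rw [sum_aw dn VA EI hE hDE] at h1
  unfold ex
  rw [div_mul_div_comm, div_le_div_iff₀ (mul_pos h0 h0) h0]
  nlinarith [h1]

theorem ex_neg (c : ℝ) (D E : Finset ε) (f : Finset ε → ℝ) :
    ex dn VA EI c D E (fun P => - f P) = - ex dn VA EI c D E f := by
  unfold ex
  rw [← neg_div, ← Finset.sum_neg_distrib]
  congr 1
  exact Finset.sum_congr rfl fun P _ => by ring

/-- FKG for antitone functions. -/
theorem ex_fkg_anti {c : ℝ} (hc : 1 ≤ c) {D E : Finset ε} (hE : E ⊆ EI) (hDE : Disjoint D E)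
    {f g : Finset ε → ℝ} (hf : ∀ P Q, P ⊆ Q → f Q ≤ f P) (hg : ∀ P Q, P ⊆ Q → g Q ≤ g P) :
    ex dn VA EI c D E f * ex dn VA EI c D E g ≤
      ex dn VA EI c D E (fun P => f P * g P) := by
  have h := ex_fkg dn VA EI hc hE hDE (f := fun P => - f P) (g := fun P => - g P)
    (fun P Q hPQ => neg_le_neg (hf P Q hPQ)) (fun P Q hPQ => neg_le_neg (hg P Q hPQ))
  rw [ex_neg, ex_neg, neg_mul_neg] at h
  simpa only [neg_mul_neg] using h

/-- domination for antitone functions -/
theorem ex_dom_anti {c : ℝ} (hc : 1 ≤ c) {D D' E E' : Finset ε} (hE : E ⊆ E') (hE' : E' ⊆ EI)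
    (hD : D ⊆ D') (hDE : Disjoint D' E') {f : Finset ε → ℝ} (hf : ∀ P Q, P ⊆ Q → f Q ≤ f P) :
    ex dn VA EI c D' E' f ≤ ex dn VA EI c D E f := by
  have h := ex_dom dn VA EI hc hE hE' hD hDE (f := fun P => - f P)
    (fun P Q hPQ => neg_le_neg (hf P Q hPQ))
  rw [ex_neg, ex_neg] at h
  linarith

/-! ### the full system -/

/-- Increasing functions of `(τ, ζ⁺, ζ⁻)`: `T` minus vertices, `P` plus-cut edges, `M` minus-cut
edges. -/
def Inc (f : Finset α → Finset ε → Finset ε → ℝ) : Prop :=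
  ∀ T T' P P' M M', T' ⊆ T → P ⊆ P' → M' ⊆ M → f T P M ≤ f T' P' M'

/-- conditional expectation given the signs -/
noncomputable def ce (c : ℝ) (η : BC α ε) (T : Finset α)
    (f : Finset α → Finset ε → Finset ε → ℝ) : ℝ :=
  ex dn VA EI c η.Dm (E1 up EI (T ∪ η.T0)) fun M =>
    ex dn VA EI c η.Dp (E2 up EI (T ∪ η.T0)) fun P => f T P M

variable {up dn VA VI EI}

theorem BC.Ok.dp {η : BC α ε} (h : η.Ok VI EI) (X : Finset α) :
    Disjoint η.Dp (E2 up EI X) := Finset.disjoint_of_subset_right (E2_sub up EI X) h.p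

theorem BC.Ok.dm {η : BC α ε} (h : η.Ok VI EI) (X : Finset α) :
    Disjoint η.Dm (E1 up EI X) := Finset.disjoint_of_subset_right (E1_sub up EI X) h.m

theorem ce_mono {c : ℝ} (hc : 1 ≤ c) {η η' : BC α ε} (hη : η.Ok VI EI) (hη' : η'.Ok VI EI)
    (hle : η.Le η') {T T' : Finset α} (hT : T' ⊆ T) {f : Finset α → Finset ε → Finset ε → ℝ}
    (hf : Inc f) :
    ce up dn VA EI c η T f ≤ ce up dn VA EI c η' T' f := by
  have hX : T' ∪ η'.T0 ⊆ T ∪ η.T0 := Finset.union_subset_union hT hle.t
  unfold ce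
  calc ex dn VA EI c η.Dm (E1 up EI (T ∪ η.T0)) (fun M =>
        ex dn VA EI c η.Dp (E2 up EI (T ∪ η.T0)) fun P => f T P M)
      ≤ ex dn VA EI c η.Dm (E1 up EI (T ∪ η.T0)) (fun M =>
        ex dn VA EI c η'.Dp (E2 up EI (T' ∪ η'.T0)) fun P => f T' P M) := by
        refine ex_mono dn VA EI hc _ _ fun M => ?_
        refine (ex_mono dn VA EI hc _ _ fun P =>
          hf T T' P P M M hT (Finset.Subset.refl _) (Finset.Subset.refl _)).trans ?_
        exact ex_dom dn VA EI hc (E2_anti up EI hX) (E2_sub up EI _) hle.p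
          (hη'.dp _) (fun P Q hPQ =>
            hf T' T' P Q M M (Finset.Subset.refl _) hPQ (Finset.Subset.refl _))
    _ ≤ ex dn VA EI c η'.Dm (E1 up EI (T' ∪ η'.T0)) (fun M =>
        ex dn VA EI c η'.Dp (E2 up EI (T' ∪ η'.T0)) fun P => f T' P M) := by
        refine ex_dom_anti dn VA EI hc (E1_mono up EI hX) (E1_sub up EI _) hle.m
          (hη.dm _) (fun M M' hM => ?_)
        exact ex_mono dn VA EI hc _ _ fun P =>
          hf T' T' P P M' M (Finset.Subset.refl _) (Finset.Subset.refl _) hM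

theorem ce_fkg {c : ℝ} (hc : 1 ≤ c) {η : BC α ε} (hη : η.Ok VI EI) (T : Finset α)
    {f g : Finset α → Finset ε → Finset ε → ℝ} (hf : Inc f) (hg : Inc g) :
    ce up dn VA EI c η T f * ce up dn VA EI c η T g ≤
      ce up dn VA EI c η T (fun T P M => f T P M * g T P M) := by
  unfold ce
  refine (ex_fkg_anti dn VA EI hc (E1_sub up EI _) (hη.dm _) ?_ ?_).trans
    (ex_mono dn VA EI hc _ _ fun M => ?_)
  · intro M M' hM
    exact ex_mono dn VA EI hc _ _ fun P =>
      hf T T P P M' M (Finset.Subset.refl _) (Finset.Subset.refl _) hM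
  · intro M M' hM
    exact ex_mono dn VA EI hc _ _ fun P =>
      hg T T P P M' M (Finset.Subset.refl _) (Finset.Subset.refl _) hM
  · exact ex_fkg dn VA EI hc (E2_sub up EI _) (hη.dp _)
      (fun P Q hPQ => hf T T P Q M M (Finset.Subset.refl _) hPQ (Finset.Subset.refl _))
      (fun P Q hPQ => hg T T P Q M M (Finset.Subset.refl _) hPQ (Finset.Subset.refl _))

variable (up dn VA VI EI)

/-- marginal weight of the signs -/
noncomputable def Rt (c : ℝ) (η : BC α ε) (T : Finset α) : ℝ :=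
  if T ⊆ VI then psi dn VA c η.Dp (E2 up EI (T ∪ η.T0)) *
    psi dn VA c η.Dm (E1 up EI (T ∪ η.T0)) else 0

variable {up dn VA VI EI}

theorem Rt_nonneg {c : ℝ} (hc : 1 ≤ c) (η : BC α ε) (T : Finset α) :
    0 ≤ Rt up dn VA VI EI c η T := by
  unfold Rt
  split_ifs
  · exact mul_nonneg (psi_pos dn VA hc _ _).le (psi_pos dn VA hc _ _).le
  · exact le_rfl

theorem Rt_dom {c : ℝ} (hc : 1 ≤ c) {η η' : BC α ε} (hη : η.Ok VI EI) (hle : η.Le η') :
    Dom (Rt up dn VA VI EI c η') (Rt up dn VA VI EI c η) := by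
  refine ⟨Rt_nonneg hc η', Rt_nonneg hc η, fun A B => ?_⟩
  by_cases hA : A ⊆ VI
  · by_cases hB : B ⊆ VI
    · have h1 : A ⊓ B ⊆ VI := Finset.inter_subset_left.trans hA
      have h2 : A ⊔ B ⊆ VI := Finset.union_subset hA hB
      unfold Rt
      rw [if_pos hA, if_pos hB, if_pos h1, if_pos h2]
      -- plus part
      have hp := psi_super dn VA hc η'.Dp (E2 up EI (A ∪ η'.T0)) η.Dp
        (E2 up EI (B ∪ η.T0))
      have hm := psi_super dn VA hc η'.Dm (E1 up EI (A ∪ η'.T0)) η.Dm
        (E1 up EI (B ∪ η.T0))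
      rw [Finset.inter_eq_right.mpr hle.p, Finset.union_eq_left.mpr hle.p] at hp
      rw [Finset.inter_eq_left.mpr hle.m, Finset.union_eq_right.mpr hle.m] at hm
      have s1 : E2 up EI (A ∪ η'.T0) ∩ E2 up EI (B ∪ η.T0) =
          E2 up EI ((A ⊔ B) ∪ η.T0) := by
        ext e
        have t0 : ∀ i, i ∈ η'.T0 → i ∈ η.T0 := fun i h => hle.t h
        simp only [E2, Finset.mem_inter, Finset.mem_filter, Finset.mem_union, Finset.sup_eq_union]
        constructor
        · rintro ⟨⟨h1, h2⟩, -, h3⟩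
          refine ⟨h1, fun i hi => ?_⟩
          have := h2 i hi
          have := h3 i hi
          tauto
        · rintro ⟨h1, h2⟩
          refine ⟨⟨h1, fun i hi => ?_⟩, h1, fun i hi => ?_⟩
          · have := h2 i hi
            have := t0 i
            tauto
          · have := h2 i hi
            tauto
      have s2 : E2 up EI (A ∪ η'.T0) ∪ E2 up EI (B ∪ η.T0) ⊆
          E2 up EI ((A ⊓ B) ∪ η'.T0) := by
        apply Finset.union_subset
        · exact E2_anti up EI (Finset.union_subset_union Finset.inter_subset_left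
            (Finset.Subset.refl _))
        · exact E2_anti up EI (Finset.union_subset_union Finset.inter_subset_right hle.t)
      have s3 : E1 up EI (A ∪ η'.T0) ∩ E1 up EI (B ∪ η.T0) =
          E1 up EI ((A ⊓ B) ∪ η'.T0) := by
        ext e
        have t0 : ∀ i, i ∈ η'.T0 → i ∈ η.T0 := fun i h => hle.t h
        have t3 : ∀ i, i ∈ A → i ∉ η.T0 := fun i h h' =>
          (Finset.disjoint_left.mp hη.t) h' (hA h)
        simp only [E1, Finset.mem_inter, Finset.mem_filter, Finset.mem_union, Finset.inf_eq_inter]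
        constructor
        · rintro ⟨⟨h1, h2⟩, -, h3⟩
          refine ⟨h1, fun i hi => ?_⟩
          have := h2 i hi
          have := h3 i hi
          have := t3 i
          tauto
        · rintro ⟨h1, h2⟩
          refine ⟨⟨h1, fun i hi => ?_⟩, h1, fun i hi => ?_⟩
          · have := h2 i hi
            tauto
          · have := h2 i hi
            have := t0 i
            tauto
      have s4 : E1 up EI (A ∪ η'.T0) ∪ E1 up EI (B ∪ η.T0) ⊆
          E1 up EI ((A ⊔ B) ∪ η.T0) := by
        apply Finset.union_subset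
        · exact E1_mono up EI (Finset.union_subset_union Finset.subset_union_left hle.t)
        · exact E1_mono up EI (Finset.union_subset_union Finset.subset_union_right
            (Finset.Subset.refl _))
      rw [s1] at hp
      rw [s3] at hm
      have hp' := hp.trans (mul_le_mul_of_nonneg_left (psi_mono_soft dn VA hc η'.Dp s2)
        (psi_pos dn VA hc _ _).le)
      have hm' := hm.trans (mul_le_mul_of_nonneg_left (psi_mono_soft dn VA hc η.Dm s4)
        (psi_pos dn VA hc _ _).le)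
      have n1 := (psi_pos dn VA hc η'.Dm (E1 up EI (A ∪ η'.T0))).le
      have n2 := (psi_pos dn VA hc η.Dm (E1 up EI (B ∪ η.T0))).le
      have n3 := (psi_pos dn VA hc η.Dp (E2 up EI ((A ⊔ B) ∪ η.T0))).le
      have n4 := (psi_pos dn VA hc η'.Dp (E2 up EI ((A ⊓ B) ∪ η'.T0))).le
      have := mul_le_mul hp' hm' (mul_nonneg n1 n2) (mul_nonneg n3 n4)
      calc _ = psi dn VA c η'.Dp (E2 up EI (A ∪ η'.T0)) *
              psi dn VA c η.Dp (E2 up EI (B ∪ η.T0)) *
              (psi dn VA c η'.Dm (E1 up EI (A ∪ η'.T0)) *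
              psi dn VA c η.Dm (E1 up EI (B ∪ η.T0))) := by ring
        _ ≤ _ := this
        _ = _ := by ring
    · have : Rt up dn VA VI EI c η B = 0 := by unfold Rt; rw [if_neg hB]
      rw [this, mul_zero]
      exact mul_nonneg (Rt_nonneg hc _ _) (Rt_nonneg hc _ _)
  · have : Rt up dn VA VI EI c η' A = 0 := by unfold Rt; rw [if_neg hA]
    rw [this, zero_mul]
    exact mul_nonneg (Rt_nonneg hc _ _) (Rt_nonneg hc _ _)

variable (up dn VA VI EI)

/-- Unnormalised expectation. -/
noncomputable def En (c : ℝ) (η : BC α ε) (f : Finset α → Finset ε → Finset ε → ℝ) : ℝ :=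
  ∑ T ∈ VI.powerset, ∑ M ∈ EI.powerset, ∑ P ∈ EI.powerset,
    aw dn VA c η.Dm (E1 up EI (T ∪ η.T0)) M *
      aw dn VA c η.Dp (E2 up EI (T ∪ η.T0)) P * f T P M

variable {up dn VA VI EI}

theorem En_eq {c : ℝ} (hc : 1 ≤ c) (η : BC α ε) (f : Finset α → Finset ε → Finset ε → ℝ) :
    En up dn VA VI EI c η f =
      ∑ T ∈ VI.powerset, Rt up dn VA VI EI c η T * ce up dn VA EI c η T f := by
  unfold En
  refine Finset.sum_congr rfl fun T hT => ?_
  unfold Rt ce ex
  rw [if_pos (Finset.mem_powerset.mp hT)]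
  have h1 := (psi_pos dn VA hc η.Dp (E2 up EI (T ∪ η.T0))).ne'
  have h2 := (psi_pos dn VA hc η.Dm (E1 up EI (T ∪ η.T0))).ne'
  have h3 : ∑ M ∈ EI.powerset, aw dn VA c η.Dm (E1 up EI (T ∪ η.T0)) M *
      ((∑ P ∈ EI.powerset, aw dn VA c η.Dp (E2 up EI (T ∪ η.T0)) P * f T P M) /
        psi dn VA c η.Dp (E2 up EI (T ∪ η.T0))) =
      (∑ M ∈ EI.powerset, ∑ P ∈ EI.powerset,
        aw dn VA c η.Dm (E1 up EI (T ∪ η.T0)) M *
        aw dn VA c η.Dp (E2 up EI (T ∪ η.T0)) P * f T P M) /
        psi dn VA c η.Dp (E2 up EI (T ∪ η.T0)) := by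
    rw [Finset.sum_div]
    refine Finset.sum_congr rfl fun M _ => ?_
    rw [← mul_div_assoc, Finset.mul_sum]
    congr 1
    refine Finset.sum_congr rfl fun P _ => ?_
    ring
  rw [h3]
  field_simp

theorem ce_one {c : ℝ} (hc : 1 ≤ c) {η : BC α ε} (hη : η.Ok VI EI) (T : Finset α) :
    ce up dn VA EI c η T (fun _ _ _ => 1) = 1 := by
  have h : ∀ (D E : Finset ε), E ⊆ EI → Disjoint D E →
      ex dn VA EI c D E (fun _ => 1) = 1 := by
    intro D E hE hD
    unfold ex
    simp only [mul_one]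
    rw [sum_aw dn VA EI hE hD]
    exact div_self (psi_pos dn VA hc D E).ne'
  unfold ce
  simp only [h _ _ (E2_sub up EI (T ∪ η.T0)) (hη.dp _)]
  exact h _ _ (E1_sub up EI _) (hη.dm _)

theorem En_one {c : ℝ} (hc : 1 ≤ c) {η : BC α ε} (hη : η.Ok VI EI) :
    En up dn VA VI EI c η (fun _ _ _ => 1) = ∑ T ∈ VI.powerset, Rt up dn VA VI EI c η T := by
  rw [En_eq hc]
  exact Finset.sum_congr rfl fun T _ => by rw [ce_one hc hη, mul_one]

theorem En_one_pos {c : ℝ} (hc : 1 ≤ c) {η : BC α ε} (hη : η.Ok VI EI) :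
    0 < En up dn VA VI EI c η (fun _ _ _ => 1) := by
  rw [En_one hc hη]
  refine Finset.sum_pos (fun T hT => ?_) ⟨∅, by simp⟩
  unfold Rt
  rw [if_pos (Finset.mem_powerset.mp hT)]
  exact mul_pos (psi_pos dn VA hc _ _) (psi_pos dn VA hc _ _)

/-- **Monotonicity in the boundary data (II).** -/
theorem En_mono {c : ℝ} (hc : 1 ≤ c) {η η' : BC α ε} (hη : η.Ok VI EI) (hη' : η'.Ok VI EI)
    (hle : η.Le η') {f : Finset α → Finset ε → Finset ε → ℝ} (hf : Inc f) :
    En up dn VA VI EI c η f * En up dn VA VI EI c η' (fun _ _ _ => 1) ≤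
      En up dn VA VI EI c η (fun _ _ _ => 1) * En up dn VA VI EI c η' f := by
  rw [En_one hc hη, En_one hc hη', En_eq hc, En_eq hc]
  have h1 : ∑ T ∈ VI.powerset, Rt up dn VA VI EI c η T * ce up dn VA EI c η T f ≤
      ∑ T ∈ VI.powerset, Rt up dn VA VI EI c η T * ce up dn VA EI c η' T f :=
    Finset.sum_le_sum fun T _ => mul_le_mul_of_nonneg_left
      (ce_mono hc hη hη' hle (Finset.Subset.refl _) hf) (Rt_nonneg hc _ _)
  have h2 := (Rt_dom (up := up) (dn := dn) (VA := VA) hc hη hle).expect_le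
    VI.powerset (powerset_closed VI) (f := fun T => - ce up dn VA EI c η' T f)
    (fun a _ b _ hab => neg_le_neg (ce_mono hc hη' hη' (BC.Le.refl η') hab hf))
  simp only [mul_neg, Finset.sum_neg_distrib, neg_mul] at h2
  have h3 : 0 ≤ ∑ T ∈ VI.powerset, Rt up dn VA VI EI c η' T :=
    Finset.sum_nonneg fun T _ => Rt_nonneg hc _ _
  nlinarith [mul_le_mul_of_nonneg_right h1 h3]

/-- **Association (I).** -/
theorem En_fkg {c : ℝ} (hc : 1 ≤ c) {η : BC α ε} (hη : η.Ok VI EI)
    {f g : Finset α → Finset ε → Finset ε → ℝ} (hf : Inc f) (hg : Inc g) :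
    En up dn VA VI EI c η f * En up dn VA VI EI c η g ≤
      En up dn VA VI EI c η (fun _ _ _ => 1) *
        En up dn VA VI EI c η (fun T P M => f T P M * g T P M) := by
  rw [En_one hc hη, En_eq hc, En_eq hc, En_eq hc]
  have hlsm : LSM (Rt up dn VA VI EI c η) := by
    have := Rt_dom (up := up) (dn := dn) (VA := VA) hc hη (BC.Le.refl η)
    exact ⟨this.1, this.2.2⟩
  have h1 := hlsm.fkg VI.powerset (powerset_closed VI)
    (f := fun T => - ce up dn VA EI c η T f) (g := fun T => - ce up dn VA EI c η T g)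
    (fun a _ b _ hab => neg_le_neg (ce_mono hc hη hη (BC.Le.refl η) hab hf))
    (fun a _ b _ hab => neg_le_neg (ce_mono hc hη hη (BC.Le.refl η) hab hg))
  have e1 : ∀ h : Finset α → ℝ, ∑ a ∈ VI.powerset, Rt up dn VA VI EI c η a * - h a =
      - ∑ a ∈ VI.powerset, Rt up dn VA VI EI c η a * h a := by
    intro h
    rw [← Finset.sum_neg_distrib]
    exact Finset.sum_congr rfl fun _ _ => by ring
  have e2 : ∑ a ∈ VI.powerset, Rt up dn VA VI EI c η a *
      (-ce up dn VA EI c η a f * -ce up dn VA EI c η a g) =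
      ∑ a ∈ VI.powerset, Rt up dn VA VI EI c η a *
      (ce up dn VA EI c η a f * ce up dn VA EI c η a g) :=
    Finset.sum_congr rfl fun _ _ => by ring
  rw [e1 (fun T => ce up dn VA EI c η T f), e1 (fun T => ce up dn VA EI c η T g), e2,
    neg_mul_neg] at h1
  have h2 : ∑ a ∈ VI.powerset, Rt up dn VA VI EI c η a *
      (ce up dn VA EI c η a f * ce up dn VA EI c η a g) ≤
      ∑ a ∈ VI.powerset, Rt up dn VA VI EI c η a *
        ce up dn VA EI c η a (fun T P M => f T P M * g T P M) :=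
    Finset.sum_le_sum fun T _ => mul_le_mul_of_nonneg_left
      (ce_fkg (up := up) (dn := dn) (VA := VA) hc hη T hf hg) (Rt_nonneg hc _ _)
  exact h1.trans (mul_le_mul_of_nonneg_left h2
    (Finset.sum_nonneg fun T _ => Rt_nonneg hc _ _))

end Crest.Agent.R144.HyB349
end

-- ▼ part R144/HyC_349
section

/-!
# R144: the `Z`-form of the abstract `(s, Z)` measure, triple hyperedges (helper349)

`Z` = set of all closed hyperedges; `fw c E X Z` = product of the hyperedge weights: a hyperedge whose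
corners are not all in `X` and not all off `X` cannot be closed (weight `0` if closed, `1` if not), otherwise
`4` if closed and `c - 1` if not.

* `En_Z` : `En f = psi ∅ · Σ_T Σ_Z fw · psi(Dp ∪ Dm ∪ Z) · f`.
-/

set_option autoImplicit false
set_option linter.unusedSectionVars false

namespace Crest.Agent.R144.HyC349

open Finset Crest.Agent.R144.HyA349 Crest.Agent.R144.HyB349

variable {α β ε : Type*} [DecidableEq α] [DecidableEq β] [DecidableEq ε]
  (up : ε → Finset α) (dn : ε → Fin 3 → β) (VA : Finset β) (VI : Finset α) (EI : Finset ε)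

/-- the corners of `e` are all in `X` or all off `X` -/
def Cs (X : Finset α) (e : ε) : Prop := (∀ v ∈ up e, v ∈ X) ∨ (∀ v ∈ up e, v ∉ X)

instance (X : Finset α) (e : ε) : Decidable (Cs up X e) := by unfold Cs; infer_instance

/-- FK hyperedge weights. -/
noncomputable def fw (c : ℝ) (E : Finset ε) (X : Finset α) (Z : Finset ε) : ℝ :=
  ∏ e ∈ E, (if Cs up X e then (if e ∈ Z then 4 else c - 1) else (if e ∈ Z then 0 else 1))

/-- Separation hypotheses: the wiring hyperedges join fixed plus sites, resp. fixed minus sites; two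
hyperedges sharing a free dual vertex share a corner. -/
structure Sep (η : BC α ε) : Prop where
  p : ∀ e ∈ η.Dp, ∀ v ∈ up e, v ∉ VI ∧ v ∉ η.T0
  m : ∀ e ∈ η.Dm, ∀ v ∈ up e, v ∈ η.T0
  sh : ∀ e ∈ EI ∪ η.Dp, ∀ e' ∈ EI ∪ η.Dm, ∀ i j, dn e i = dn e' j → dn e i ∈ VA →
    ∃ v ∈ up e, v ∈ up e'
  ne : ∀ e ∈ EI, (up e).Nonempty

theorem hd_mul_self (e : ε) (σ : ↥VA → ℤˣ) :
    hd dn VA e σ * hd dn VA e σ = hd dn VA e σ := by
  unfold hd; split_ifs <;> norm_num

theorem prod_hd_mul_self (A : Finset ε) (σ : ↥VA → ℤˣ) :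
    (∏ e ∈ A, hd dn VA e σ) * ∏ e ∈ A, hd dn VA e σ = ∏ e ∈ A, hd dn VA e σ := by
  rw [← Finset.prod_mul_distrib]
  exact Finset.prod_congr rfl fun e _ => hd_mul_self dn VA e σ

theorem prod_hd_union (A B : Finset ε) (σ : ↥VA → ℤˣ) :
    ∏ e ∈ A ∪ B, hd dn VA e σ =
      (∏ e ∈ A, hd dn VA e σ) * ∏ e ∈ B, hd dn VA e σ := by
  have h1 : A ∪ B = A ∪ (B \ A) := by ext x; simp
  rw [h1, Finset.prod_union Finset.disjoint_sdiff,
    ← Finset.prod_inter_mul_prod_sdiff B A (fun e => hd dn VA e σ), ← mul_assoc]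
  congr 1
  have h2 : ∏ e ∈ A, hd dn VA e σ =
      (∏ e ∈ B ∩ A, hd dn VA e σ) * ∏ e ∈ A \ B, hd dn VA e σ := by
    rw [Finset.inter_comm]
    exact (Finset.prod_inter_mul_prod_sdiff A B (fun e => hd dn VA e σ)).symm
  rw [h2]
  have h3 := prod_hd_mul_self dn VA (B ∩ A) σ
  calc _ = ((∏ e ∈ B ∩ A, hd dn VA e σ) * ∏ e ∈ B ∩ A, hd dn VA e σ) *
          ∏ e ∈ A \ B, hd dn VA e σ := by rw [h3]
    _ = _ := by ring

/-- Splitting of the cluster count between two families without common free dual vertex. -/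
theorem psi_split (c : ℝ) (A B : Finset ε)
    (hAB : ∀ e ∈ A, ∀ e' ∈ B, ∀ i j, dn e i = dn e' j → dn e i ∉ VA) :
    psi dn VA c (A ∪ B) ∅ * psi dn VA c ∅ ∅ =
      psi dn VA c A ∅ * psi dn VA c B ∅ := by
  classical
  unfold psi
  simp only [Finset.prod_empty, mul_one, prod_hd_union]
  refine Crest.Agent.R161.AtFkA729.sum_indep
    (Finset.univ.filter fun i : ↥VA => ∃ e ∈ A, ∃ k, dn e k = (i : β)) _ _ ?_ ?_
  · intro σ τ h
    refine Finset.prod_congr rfl fun e he => ?_
    have key : ∀ k, sp VA σ (dn e k) = sp VA τ (dn e k) := by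
      intro k
      unfold sp
      split_ifs with hv'
      · exact h ⟨dn e k, hv'⟩ (by
          rw [Finset.mem_filter]
          exact ⟨Finset.mem_univ _, e, he, k, rfl⟩)
      · rfl
    have hM : Mono dn VA σ e ↔ Mono dn VA τ e := by
      unfold Mono
      rw [key 0, key 1, key 2]
    unfold hd
    by_cases h1 : Mono dn VA σ e
    · rw [if_pos h1, if_pos (hM.1 h1)]
    · rw [if_neg h1, if_neg (fun h2 => h1 (hM.2 h2))]
  · intro σ τ h
    refine Finset.prod_congr rfl fun e he => ?_
    have key : ∀ k, sp VA σ (dn e k) = sp VA τ (dn e k) := by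
      intro k
      unfold sp
      split_ifs with hv'
      · refine h ⟨dn e k, hv'⟩ ?_
        rw [Finset.mem_filter]
        rintro ⟨-, e', he', j, hj⟩
        exact hAB e' he' e he j k hj (hj ▸ hv')
      · rfl
    have hM : Mono dn VA σ e ↔ Mono dn VA τ e := by
      unfold Mono
      rw [key 0, key 1, key 2]
    unfold hd
    by_cases h1 : Mono dn VA σ e
    · rw [if_pos h1, if_pos (hM.1 h1)]
    · rw [if_neg h1, if_neg (fun h2 => h1 (hM.2 h2))]

theorem E12_disj (X : Finset α) (hne : ∀ e ∈ EI, (up e).Nonempty) :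
    Disjoint (E1 up EI X) (E2 up EI X) := by
  rw [Finset.disjoint_left]
  intro e h1 h2
  simp only [E1, E2, Finset.mem_filter] at h1 h2
  obtain ⟨v, hv⟩ := hne e h1.1
  exact h2.2 v hv (h1.2 v hv)

theorem fw_eq (c : ℝ) (X : Finset α) (hne : ∀ e ∈ EI, (up e).Nonempty) {Z : Finset ε}
    (hZ : Z ⊆ E1 up EI X ∪ E2 up EI X) :
    fw up c EI X Z =
      (4 ^ (Z ∩ E1 up EI X).card * (c - 1) ^ (E1 up EI X \ Z).card) *
      (4 ^ (Z ∩ E2 up EI X).card * (c - 1) ^ (E2 up EI X \ Z).card) := by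
  have hsplit : EI = (EI.filter fun e => ¬ Cs up X e) ∪
      (E1 up EI X ∪ E2 up EI X) := by
    ext e
    simp only [E1, E2, Finset.mem_union, Finset.mem_filter]
    unfold Cs
    tauto
  have hd1 : Disjoint (EI.filter fun e => ¬ Cs up X e)
      (E1 up EI X ∪ E2 up EI X) := by
    rw [Finset.disjoint_left]
    intro e h1 h2
    simp only [E1, E2, Finset.mem_union, Finset.mem_filter] at h1 h2
    have h3 := h1.2
    unfold Cs at h3
    tauto
  have part : ∀ A : Finset ε, (∀ e ∈ A, Cs up X e) →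
      ∏ e ∈ A, (if Cs up X e then (if e ∈ Z then (4 : ℝ) else c - 1)
        else (if e ∈ Z then 0 else 1)) = 4 ^ (Z ∩ A).card * (c - 1) ^ (A \ Z).card := by
    intro A hA
    rw [← Finset.prod_inter_mul_prod_sdiff A Z]
    congr 1
    · rw [Finset.inter_comm, Finset.prod_congr (g := fun _ => (4 : ℝ)) rfl, Finset.prod_const]
      intro e he
      rw [Finset.mem_inter] at he
      rw [if_pos (hA e he.2), if_pos he.1]
    · rw [Finset.prod_congr (g := fun _ => c - 1) rfl, Finset.prod_const]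
      intro e he
      rw [Finset.mem_sdiff] at he
      rw [if_pos (hA e he.1), if_neg he.2]
  unfold fw
  conv_lhs => rw [hsplit]
  rw [Finset.prod_union hd1, Finset.prod_union (E12_disj up EI X hne)]
  rw [part (E1 up EI X) (by
    intro e he
    simp only [E1, Finset.mem_filter] at he
    exact Or.inl he.2), part (E2 up EI X) (by
    intro e he
    simp only [E2, Finset.mem_filter] at he
    exact Or.inr he.2)]
  have h1 : ∏ e ∈ EI.filter fun e => ¬ Cs up X e,
      (if Cs up X e then (if e ∈ Z then (4 : ℝ) else c - 1)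
        else (if e ∈ Z then 0 else 1)) = 1 := by
    refine Finset.prod_eq_one fun e he => ?_
    rw [Finset.mem_filter] at he
    rw [if_neg he.2, if_neg]
    intro hZe
    have := hZ hZe
    simp only [E1, E2, Finset.mem_union, Finset.mem_filter] at this
    have h2 := he.2
    unfold Cs at h2
    tauto
  rw [h1, one_mul]

theorem fw_eq_zero (c : ℝ) (X : Finset α) {Z : Finset ε} (hZ : Z ⊆ EI)
    (h : ¬ Z ⊆ E1 up EI X ∪ E2 up EI X) : fw up c EI X Z = 0 := by
  rw [Finset.not_subset] at h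
  obtain ⟨e, he, hne⟩ := h
  unfold fw
  apply Finset.prod_eq_zero (hZ he)
  simp only [E1, E2, Finset.mem_union, Finset.mem_filter] at hne
  have h1 : ¬ Cs up X e := by
    have := hZ he
    unfold Cs
    tauto
  rw [if_neg h1, if_pos he]

theorem fw_nonneg {c : ℝ} (hc : 1 ≤ c) (E : Finset ε) (X : Finset α) (Z : Finset ε) :
    0 ≤ fw up c E X Z := by
  unfold fw
  refine Finset.prod_nonneg fun e _ => ?_
  split_ifs <;> linarith

variable {up dn VA VI EI}

/-- **Z-form** of the unnormalised expectation. -/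
theorem En_Z (c : ℝ) {η : BC α ε} (hs : Sep up dn VA VI EI η)
    (f : Finset α → Finset ε → Finset ε → ℝ) :
    En up dn VA VI EI c η f = psi dn VA c ∅ ∅ *
      ∑ T ∈ VI.powerset, ∑ Z ∈ EI.powerset,
        fw up c EI (T ∪ η.T0) Z * psi dn VA c (η.Dp ∪ η.Dm ∪ Z) ∅ *
          f T (Z ∩ E2 up EI (T ∪ η.T0)) (Z ∩ E1 up EI (T ∪ η.T0)) := by
  unfold En
  rw [Finset.mul_sum]
  refine Finset.sum_congr rfl fun T hT => ?_
  rw [Finset.mem_powerset] at hT
  set X := T ∪ η.T0 with hX
  -- restrict the left-hand side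
  have hL : ∑ M ∈ EI.powerset, ∑ P ∈ EI.powerset,
      aw dn VA c η.Dm (E1 up EI X) M * aw dn VA c η.Dp (E2 up EI X) P * f T P M =
      ∑ q ∈ (E1 up EI X).powerset ×ˢ (E2 up EI X).powerset,
      aw dn VA c η.Dm (E1 up EI X) q.1 * aw dn VA c η.Dp (E2 up EI X) q.2 *
        f T q.2 q.1 := by
    rw [Finset.sum_product]
    symm
    refine (Finset.sum_subset (Finset.powerset_mono.mpr (E1_sub up EI X)) ?_).trans ?_
    · intro M _ hM
      refine Finset.sum_eq_zero fun P _ => ?_
      have : aw dn VA c η.Dm (E1 up EI X) M = 0 := by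
        unfold aw; rw [if_neg (fun h => hM (Finset.mem_powerset.mpr h))]
      rw [this]; ring
    · refine Finset.sum_congr rfl fun M _ => ?_
      refine Finset.sum_subset (Finset.powerset_mono.mpr (E2_sub up EI X)) ?_
      intro P _ hP
      have : aw dn VA c η.Dp (E2 up EI X) P = 0 := by
        unfold aw; rw [if_neg (fun h => hP (Finset.mem_powerset.mpr h))]
      rw [this]; ring
  rw [hL]
  -- restrict the right-hand side
  have hsub : E1 up EI X ∪ E2 up EI X ⊆ EI :=
    Finset.union_subset (E1_sub up EI X) (E2_sub up EI X)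
  have hR : ∑ Z ∈ EI.powerset, fw up c EI X Z * psi dn VA c (η.Dp ∪ η.Dm ∪ Z) ∅ *
        f T (Z ∩ E2 up EI X) (Z ∩ E1 up EI X) =
      ∑ Z ∈ (E1 up EI X ∪ E2 up EI X).powerset,
        fw up c EI X Z * psi dn VA c (η.Dp ∪ η.Dm ∪ Z) ∅ *
        f T (Z ∩ E2 up EI X) (Z ∩ E1 up EI X) := by
    symm
    refine Finset.sum_subset (Finset.powerset_mono.mpr hsub) ?_
    intro Z hZ hZ'
    rw [fw_eq_zero up EI c X (Finset.mem_powerset.mp hZ)
      (fun h => hZ' (Finset.mem_powerset.mpr h))]
    ring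
  rw [hR, Finset.mul_sum]
  have hdisj := E12_disj up EI X hs.ne
  refine Finset.sum_bij' (fun q _ => q.1 ∪ q.2)
    (fun Z _ => (Z ∩ E1 up EI X, Z ∩ E2 up EI X)) ?_ ?_ ?_ ?_ ?_
  · intro q hq
    simp only [Finset.mem_product, Finset.mem_powerset] at hq ⊢
    exact Finset.union_subset_union hq.1 hq.2
  · intro Z _
    simp only [Finset.mem_product, Finset.mem_powerset]
    exact ⟨Finset.inter_subset_right, Finset.inter_subset_right⟩
  · rintro ⟨M, P⟩ hq
    simp only [Finset.mem_product, Finset.mem_powerset] at hq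
    have h1 : (M ∪ P) ∩ E1 up EI X = M := by
      ext e
      have a : e ∈ M → e ∈ E1 up EI X := fun h => hq.1 h
      have b : e ∈ P → e ∈ E2 up EI X := fun h => hq.2 h
      have d : e ∈ E1 up EI X → e ∉ E2 up EI X := fun h1 h2 =>
        (Finset.disjoint_left.mp hdisj) h1 h2
      simp only [Finset.mem_inter, Finset.mem_union]
      tauto
    have h2 : (M ∪ P) ∩ E2 up EI X = P := by
      ext e
      have a : e ∈ M → e ∈ E1 up EI X := fun h => hq.1 h
      have b : e ∈ P → e ∈ E2 up EI X := fun h => hq.2 h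
      have d : e ∈ E1 up EI X → e ∉ E2 up EI X := fun h1 h2 =>
        (Finset.disjoint_left.mp hdisj) h1 h2
      simp only [Finset.mem_inter, Finset.mem_union]
      tauto
    simp only [h1, h2]
  · intro Z hZ
    rw [Finset.mem_powerset] at hZ
    simp only
    rw [← Finset.inter_union_distrib_left]
    exact Finset.inter_eq_left.mpr hZ
  · rintro ⟨M, P⟩ hq
    simp only [Finset.mem_product, Finset.mem_powerset] at hq
    have h1 : (M ∪ P) ∩ E1 up EI X = M := by
      ext e
      have a : e ∈ M → e ∈ E1 up EI X := fun h => hq.1 h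
      have b : e ∈ P → e ∈ E2 up EI X := fun h => hq.2 h
      have d : e ∈ E1 up EI X → e ∉ E2 up EI X := fun h1 h2 =>
        (Finset.disjoint_left.mp hdisj) h1 h2
      simp only [Finset.mem_inter, Finset.mem_union]
      tauto
    have h2 : (M ∪ P) ∩ E2 up EI X = P := by
      ext e
      have a : e ∈ M → e ∈ E1 up EI X := fun h => hq.1 h
      have b : e ∈ P → e ∈ E2 up EI X := fun h => hq.2 h
      have d : e ∈ E1 up EI X → e ∉ E2 up EI X := fun h1 h2 =>
        (Finset.disjoint_left.mp hdisj) h1 h2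
      simp only [Finset.mem_inter, Finset.mem_union]
      tauto
    have h3 : E1 up EI X \ (M ∪ P) = E1 up EI X \ M := by
      ext e
      have b : e ∈ P → e ∈ E2 up EI X := fun h => hq.2 h
      have d : e ∈ E1 up EI X → e ∉ E2 up EI X := fun h1 h2 =>
        (Finset.disjoint_left.mp hdisj) h1 h2
      simp only [Finset.mem_sdiff, Finset.mem_union]
      tauto
    have h4 : E2 up EI X \ (M ∪ P) = E2 up EI X \ P := by
      ext e
      have b : e ∈ M → e ∈ E1 up EI X := fun h => hq.1 h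
      have d : e ∈ E1 up EI X → e ∉ E2 up EI X := fun h1 h2 =>
        (Finset.disjoint_left.mp hdisj) h1 h2
      simp only [Finset.mem_sdiff, Finset.mem_union]
      tauto
    simp only
    rw [fw_eq up EI c X hs.ne (Finset.union_subset_union hq.1 hq.2), h1, h2, h3, h4]
    have h5 : η.Dp ∪ η.Dm ∪ (M ∪ P) = (η.Dp ∪ P) ∪ (η.Dm ∪ M) := by
      ext e
      simp only [Finset.mem_union]
      tauto
    have hP : ∀ e ∈ η.Dp ∪ P, ∀ v ∈ up e, v ∉ X := by
      intro e he v hv
      rw [Finset.mem_union] at he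
      rcases he with he | he
      · obtain ⟨a1, a3⟩ := hs.p e he v hv
        rw [hX]
        simp only [Finset.mem_union]
        exact fun h => h.elim (fun h => a1 (hT h)) a3
      · have := hq.2 he
        simp only [E2, Finset.mem_filter] at this
        exact this.2 v hv
    have hM : ∀ e ∈ η.Dm ∪ M, ∀ v ∈ up e, v ∈ X := by
      intro e he v hv
      rw [Finset.mem_union] at he
      rcases he with he | he
      · have a1 := hs.m e he v hv
        rw [hX]
        simp only [Finset.mem_union]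
        exact Or.inr a1
      · have := hq.1 he
        simp only [E1, Finset.mem_filter] at this
        exact this.2 v hv
    have h6 := psi_split dn VA c (η.Dp ∪ P) (η.Dm ∪ M) (by
      intro e he e' he' i j hij hmem
      have m1 : e ∈ EI ∪ η.Dp := by
        rw [Finset.mem_union] at he ⊢
        rcases he with he | he
        · exact Or.inr he
        · exact Or.inl (E2_sub up EI X (hq.2 he))
      have m2 : e' ∈ EI ∪ η.Dm := by
        rw [Finset.mem_union] at he' ⊢
        rcases he' with he' | he'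
        · exact Or.inr he'
        · exact Or.inl (E1_sub up EI X (hq.1 he'))
      obtain ⟨v, hv, hv'⟩ := hs.sh e m1 e' m2 i j hij hmem
      exact hP e he v hv (hM e' he' v hv'))
    rw [h5]
    unfold aw
    rw [if_pos hq.1, if_pos hq.2]
    calc _ = (4 ^ M.card * (c - 1) ^ (E1 up EI X \ M).card) *
            (4 ^ P.card * (c - 1) ^ (E2 up EI X \ P).card) *
            (psi dn VA c (η.Dp ∪ P) ∅ * psi dn VA c (η.Dm ∪ M) ∅) * f T P M := by ring
      _ = _ := by rw [← h6]; ring

end Crest.Agent.R144.HyC349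
end

-- ▼ part R161/KWabs_729
section

/-!
Row 161: abstract Kramers–Wannier duality (finite types, any surface): the only input is the
exactness `range d* = (d T)^⊥` where `d* s e = s (fA e) + s (fB e)` and
`d t e = t (src e) + t (tgt e)`, `t` ranging over a subgroup `T` of admissible vertex signs.
-/

set_option autoImplicit false

namespace Crest.Agent.R161.KWabs729

open Finset

/-- Sign of an element of `ZMod 2`. -/
noncomputable def sgz (x : ZMod 2) : ℝ := if x = 0 then 1 else -1

@[simp] theorem sgz_zero : sgz 0 = 1 := by simp [sgz]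
@[simp] theorem sgz_one : sgz 1 = -1 := by simp [sgz]

theorem z2_cases (x : ZMod 2) : x = 0 ∨ x = 1 := by revert x; decide

theorem sgz_add (x y : ZMod 2) : sgz (x + y) = sgz x * sgz y := by
  rcases z2_cases x with rfl | rfl <;> rcases z2_cases y with rfl | rfl <;> simp
  rw [show (1 : ZMod 2) + 1 = 0 by decide]; simp

theorem sgz_sum {ι : Type*} (s : Finset ι) (f : ι → ZMod 2) :
    sgz (∑ i ∈ s, f i) = ∏ i ∈ s, sgz (f i) := by
  classical
  induction s using Finset.induction_on with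
  | empty => simp
  | insert a s ha ih => rw [Finset.sum_insert ha, Finset.prod_insert ha, sgz_add, ih]

/-- Character sums over a finite group. -/
theorem sum_sgz_char {G : Type*} [AddCommGroup G] (T : Finset G)
    (hadd : ∀ x ∈ T, ∀ y ∈ T, x + y ∈ T) (hneg : ∀ x ∈ T, -x ∈ T)
    (φ : G → ZMod 2) (hφ : ∀ x ∈ T, ∀ y ∈ T, φ (x + y) = φ x + φ y)
    [Decidable (∀ x ∈ T, φ x = 0)] :
    ∑ x ∈ T, sgz (φ x) = if ∀ x ∈ T, φ x = 0 then (T.card : ℝ) else 0 := by
  split_ifs with h
  · rw [Finset.sum_congr rfl (fun x hx => by rw [h x hx, sgz_zero])]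
    simp
  · push Not at h
    obtain ⟨y, hy, hne⟩ := h
    have hy1 : φ y = 1 := (z2_cases (φ y)).resolve_left hne
    have h1 : ∑ x ∈ T, sgz (φ x) = ∑ x ∈ T, sgz (φ (x + y)) := by
      symm
      apply Finset.sum_bij' (fun x _ => x + y) (fun x _ => x + -y)
      · intro x hx; exact hadd x hx y hy
      · intro x hx; exact hadd x hx (-y) (hneg y hy)
      · intro x _; simp
      · intro x _; simp
      · intro x _; rfl
    have h2 : ∑ x ∈ T, sgz (φ (x + y)) = - ∑ x ∈ T, sgz (φ x) := by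
      rw [← Finset.sum_neg_distrib]
      apply Finset.sum_congr rfl
      intro x hx
      rw [hφ x hx y hy, sgz_add, hy1, sgz_one]
      ring
    linarith

variable {E Φ V : Type*} [Fintype E] [Fintype Φ] [Fintype V] [DecidableEq E] [DecidableEq Φ]
  [DecidableEq V]

/-- Pairing of an edge cochain with the differential of a vertex function. -/
def pr (src tgt : E → V) (H : E → ZMod 2) (t : V → ZMod 2) : ZMod 2 :=
  ∑ e, H e * (t (src e) + t (tgt e))


end Crest.Agent.R161.KWabs729
end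

-- ▼ part R144/Zk_349
section

/-!
# R144: Kramers–Wannier duality for triple hyperedges (helper349)

* `tri_kw` : abstract duality, the only input is exactness;
* `kw_F` : duality on a simply connected finite set `F` of up triangles, for arbitrary weights
  (`A t + 3 B t` if the sites spins are constant on `t`, `A t - B t` if not ↔ `A t` if the down-triangle spins
  around `t` are constant, `B t` if not);
* `count_F` : number of sign functions of the sites constant on the triangles of `F \ Z`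
  `= 2^|VF| / 4^|F \ Z| * psi dn (ID F) Z ∅`.
-/

set_option autoImplicit false
set_option linter.unusedSectionVars false
set_option linter.unusedSimpArgs false

namespace Crest.Agent.R144.Zk349

open Finset
open Crest.Agent.R144.It844 (P2)
open Crest.Agent.R144.Zg349
open Crest.Agent.R144.HyA349 Crest.Agent.R144.HyB349 Crest.Agent.R144.HyC349
open Crest.Agent.R161.KWabs729 (sgz sgz_zero sgz_one z2_cases sgz_add sgz_sum sum_sgz_char)

/-- the three values agree -/
def M3 {α : Type*} (c : Fin 3 → α) (s : α → ZMod 2) : Prop := s (c 0) = s (c 1) ∧ s (c 0) = s (c 2)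

instance {α : Type*} (c : Fin 3 → α) (s : α → ZMod 2) : Decidable (M3 c s) := by
  unfold M3; infer_instance

/-- pattern of a dual spin function around a hyperedge -/
def dQ {β : Type*} (d : Fin 3 → β) (σ : β → ZMod 2) : ZMod 2 × ZMod 2 :=
  (σ (d 0) + σ (d 2), σ (d 0) + σ (d 1))

theorem dQ_add {β : Type*} (d : Fin 3 → β) (σ τ : β → ZMod 2) :
    dQ d (σ + τ) = dQ d σ + dQ d τ := by
  unfold dQ
  refine Prod.ext ?_ ?_
  · simp only [Pi.add_apply, Prod.fst_add]; ring
  · simp only [Pi.add_apply, Prod.snd_add]; ring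

theorem dQ_eq_zero {β : Type*} {d : Fin 3 → β} {σ : β → ZMod 2} : dQ d σ = 0 ↔ M3 d σ := by
  unfold dQ M3
  rw [Prod.ext_iff]
  simp only [Prod.fst_zero, Prod.snd_zero]
  generalize σ (d 0) = x
  generalize σ (d 1) = y
  generalize σ (d 2) = z
  revert x y z
  decide

section abs

variable {U α β : Type*} [Fintype U] [DecidableEq U]

/-- pairing of a pattern with a spin function -/
def pr (c : U → Fin 3 → α) (H : U → ZMod 2 × ZMod 2) (s : α → ZMod 2) : ZMod 2 :=
  ∑ t, ((H t).1 * (s (c t 0) + s (c t 1)) + (H t).2 * (s (c t 0) + s (c t 2)))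

theorem pp_add_self (x : ZMod 2 × ZMod 2) : x + x = 0 := by revert x; decide

theorem fun_add_self {β : Type*} (σ τ : β → ZMod 2) : σ + τ + τ = σ := by
  funext b
  simp only [Pi.add_apply]
  generalize σ b = x
  generalize τ b = y
  revert x y
  decide

/-- **Abstract Kramers–Wannier duality for triples.** -/
theorem tri_kw (c : U → Fin 3 → α) (d : U → Fin 3 → β) (X : Finset (α → ZMod 2))
    (Y : Finset (β → ZMod 2)) (hX0 : (0 : α → ZMod 2) ∈ X) (hY0 : (0 : β → ZMod 2) ∈ Y)
    (hXadd : ∀ x ∈ X, ∀ y ∈ X, x + y ∈ X) (hYadd : ∀ x ∈ Y, ∀ y ∈ Y, x + y ∈ Y)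
    (exact : ∀ H : U → ZMod 2 × ZMod 2, (∀ s ∈ X, pr c H s = 0) →
      ∃ σ ∈ Y, ∀ t, dQ (d t) σ = H t)
    (orth : ∀ σ ∈ Y, ∀ s ∈ X, pr c (fun t => dQ (d t) σ) s = 0) (A B : U → ℝ) :
    ∑ s ∈ X, ∏ t, (if M3 (c t) s then A t + 3 * B t else A t - B t) =
      (X.card : ℝ) / ((Y.filter fun σ => ∀ t, M3 (d t) σ).card : ℝ) *
        ∑ σ ∈ Y, ∏ t, (if M3 (d t) σ then A t else B t) := by
  classical
  have hneg : ∀ x ∈ X, -x ∈ X := by
    intro x hx
    have : -x = x := by
      funext v
      show -(x v) = x v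
      generalize x v = y
      revert y
      decide
    rwa [this]
  let w : U → ZMod 2 × ZMod 2 → ℝ := fun t x => if x = 0 then A t else B t
  let dS : (β → ZMod 2) → (U → ZMod 2 × ZMod 2) := fun σ t => dQ (d t) σ
  have hL : ∀ σ : β → ZMod 2, ∏ t, (if M3 (d t) σ then A t else B t) = ∏ t, w t (dS σ t) := by
    intro σ
    refine Finset.prod_congr rfl fun t _ => ?_
    simp only [w, dS]
    by_cases h : M3 (d t) σ
    · rw [if_pos h, if_pos (dQ_eq_zero.2 h)]
    · rw [if_neg h, if_neg (fun h' => h (dQ_eq_zero.1 h'))]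
  set ker : ℝ := ((Y.filter fun σ => ∀ t, M3 (d t) σ).card : ℝ) with hker
  have hkerpos : ker ≠ 0 := by
    rw [hker]
    have : 0 < (Y.filter fun σ => ∀ t, M3 (d t) σ).card :=
      Finset.card_pos.2 ⟨0, Finset.mem_filter.2 ⟨hY0, fun t => ⟨rfl, rfl⟩⟩⟩
    exact Nat.cast_ne_zero.mpr this.ne'
  have hXc : (X.card : ℝ) ≠ 0 := by
    have : 0 < X.card := Finset.card_pos.mpr ⟨0, hX0⟩
    exact Nat.cast_ne_zero.mpr this.ne'
  -- counting fibres
  have hcard : ∀ H : U → ZMod 2 × ZMod 2, ((Y.filter (fun σ => dS σ = H)).card : ℝ)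
      = ker / X.card * ∑ s ∈ X, sgz (pr c H s) := by
    intro H
    rw [sum_sgz_char X hXadd hneg (pr c H) (by
      intro x _ y _
      simp only [pr, Pi.add_apply]
      rw [← Finset.sum_add_distrib]
      refine Finset.sum_congr rfl fun t _ => ?_
      ring)]
    split_ifs with h
    · obtain ⟨σ0, hσ0Y, hσ0⟩ := exact H h
      rw [div_mul_cancel₀ _ hXc, hker]
      norm_cast
      refine Finset.card_bij' (fun s _ => s + σ0) (fun s _ => s + σ0) ?_ ?_ ?_ ?_
      · intro s hs
        rw [Finset.mem_filter] at hs ⊢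
        refine ⟨hYadd _ hs.1 _ hσ0Y, fun t => ?_⟩
        have h1 := congrFun hs.2 t
        simp only [dS] at h1
        rw [← dQ_eq_zero, dQ_add, h1, hσ0 t, pp_add_self]
      · intro s hs
        rw [Finset.mem_filter] at hs ⊢
        refine ⟨hYadd _ hs.1 _ hσ0Y, ?_⟩
        funext t
        simp only [dS]
        rw [dQ_add, dQ_eq_zero.2 (hs.2 t), hσ0 t, zero_add]
      · intro s _
        exact fun_add_self s σ0
      · intro s _
        exact fun_add_self s σ0
    · rw [mul_zero, Nat.cast_eq_zero, Finset.card_eq_zero, Finset.filter_eq_empty_iff]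
      intro σ hσ hs
      apply h
      intro s hs'
      rw [← hs]
      exact orth σ hσ s hs'
  have huniv : (univ : Finset (ZMod 2 × ZMod 2)) = {(0, 0), (0, 1), (1, 0), (1, 1)} := by decide
  have main : ∑ σ ∈ Y, ∏ t, (if M3 (d t) σ then A t else B t) = ker / X.card *
      ∑ s ∈ X, ∏ t, (if M3 (c t) s then A t + 3 * B t else A t - B t) := by
    calc ∑ σ ∈ Y, ∏ t, (if M3 (d t) σ then A t else B t)
        = ∑ σ ∈ Y, ∏ t, w t (dS σ t) := Finset.sum_congr rfl fun σ _ => hL σ
      _ = ∑ H : U → ZMod 2 × ZMod 2, ∑ σ ∈ Y.filter (fun σ => dS σ = H),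
            ∏ t, w t (dS σ t) := (Finset.sum_fiberwise _ _ _).symm
      _ = ∑ H : U → ZMod 2 × ZMod 2, ((Y.filter (fun σ => dS σ = H)).card : ℝ) *
            ∏ t, w t (H t) := by
          refine Finset.sum_congr rfl fun H _ => ?_
          rw [← nsmul_eq_mul, ← Finset.sum_const]
          refine Finset.sum_congr rfl fun σ hσ => ?_
          rw [(Finset.mem_filter.mp hσ).2]
      _ = ∑ H : U → ZMod 2 × ZMod 2, ker / X.card * ∑ s ∈ X, ∏ t,
            (sgz ((H t).1 * (s (c t 0) + s (c t 1)) + (H t).2 * (s (c t 0) + s (c t 2))) *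
            w t (H t)) := by
          refine Finset.sum_congr rfl fun H _ => ?_
          rw [hcard, mul_assoc, Finset.sum_mul]
          congr 1
          refine Finset.sum_congr rfl fun s _ => ?_
          rw [pr, sgz_sum, Finset.prod_mul_distrib]
      _ = ker / X.card * ∑ s ∈ X, ∑ H : U → ZMod 2 × ZMod 2, ∏ t,
            (sgz ((H t).1 * (s (c t 0) + s (c t 1)) + (H t).2 * (s (c t 0) + s (c t 2))) *
            w t (H t)) := by
          rw [← Finset.mul_sum, Finset.sum_comm]
      _ = ker / X.card * ∑ s ∈ X, ∏ t, (if M3 (c t) s then A t + 3 * B t else A t - B t) := by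
          congr 1
          refine Finset.sum_congr rfl fun s _ => ?_
          have := Finset.prod_univ_sum (fun _ : U => (univ : Finset (ZMod 2 × ZMod 2)))
            (fun t x => sgz (x.1 * (s (c t 0) + s (c t 1)) + x.2 * (s (c t 0) + s (c t 2))) *
              w t x)
          rw [Fintype.piFinset_univ] at this
          rw [← this]
          refine Finset.prod_congr rfl fun t _ => ?_
          rw [huniv, Finset.sum_insert (by decide), Finset.sum_insert (by decide),
            Finset.sum_insert (by decide), Finset.sum_singleton]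
          have e1 : ((0, 1) : ZMod 2 × ZMod 2) ≠ 0 := by decide
          have e2 : ((1, 0) : ZMod 2 × ZMod 2) ≠ 0 := by decide
          have e3 : ((1, 1) : ZMod 2 × ZMod 2) ≠ 0 := by decide
          have e0 : ((0, 0) : ZMod 2 × ZMod 2) = 0 := rfl
          simp only [w, e0, if_true, if_neg e1, if_neg e2, if_neg e3, Prod.fst_zero, Prod.snd_zero,
            zero_mul, one_mul, zero_add, add_zero, sgz_zero]
          have key : ∀ x y z : ZMod 2, (x = y ∧ x = z → x + y = 0 ∧ x + z = 0) ∧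
              (¬ (x = y ∧ x = z) → (x + y = 0 ∧ x + z = 1) ∨ (x + y = 1 ∧ x + z = 0) ∨
                (x + y = 1 ∧ x + z = 1)) := by decide
          obtain ⟨k1, k2⟩ := key (s (c t 0)) (s (c t 1)) (s (c t 2))
          by_cases h : M3 (c t) s
          · rw [if_pos h, (k1 h).1, (k1 h).2, add_zero, sgz_zero]
            ring
          · rw [if_neg h]
            rcases k2 h with ⟨h1, h2⟩ | ⟨h1, h2⟩ | ⟨h1, h2⟩
            · rw [h1, h2, zero_add, sgz_zero, sgz_one]; ring
            · rw [h1, h2, add_zero, sgz_zero, sgz_one]; ring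
            · rw [h1, h2, show (1 : ZMod 2) + 1 = 0 by decide, sgz_zero, sgz_one]; ring
  rw [main]
  field_simp

end abs

/-! ### finite families of spin functions -/

/-- indicator of a finite set as a `ZMod 2` function -/
def ch (B : Finset P2) (v : P2) : ZMod 2 := if v ∈ B then 1 else 0

theorem ch_inj : Function.Injective ch := by
  intro A B h
  ext v
  have := congrFun h v
  unfold ch at this
  by_cases h1 : v ∈ A <;> by_cases h2 : v ∈ B <;> simp [h1, h2] at this ⊢

open Classical in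
/-- spin functions supported in `A` -/
noncomputable def fs (A : Finset P2) : Finset (P2 → ZMod 2) := A.powerset.image ch

theorem mem_fs {A : Finset P2} {s : P2 → ZMod 2} : s ∈ fs A ↔ ∀ v, v ∉ A → s v = 0 := by
  classical
  unfold fs
  rw [Finset.mem_image]
  constructor
  · rintro ⟨B, hB, rfl⟩ v hv
    unfold ch
    rw [if_neg fun h => hv (Finset.mem_powerset.1 hB h)]
  · intro h
    refine ⟨A.filter fun v => s v = 1, by simp, ?_⟩
    funext v
    unfold ch
    by_cases hv : v ∈ A
    · rcases z2_cases (s v) with h0 | h0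
      · rw [h0, if_neg]
        simp [h0]
      · rw [h0, if_pos]
        simp [h0, hv]
    · rw [h v hv, if_neg]
      simp [hv]

theorem sum_fs {M : Type*} [AddCommMonoid M] (A : Finset P2) (f : (P2 → ZMod 2) → M) :
    ∑ s ∈ fs A, f s = ∑ B ∈ A.powerset, f (ch B) := by
  classical
  unfold fs
  rw [Finset.sum_image fun x _ y _ h => ch_inj h]

theorem card_fs (A : Finset P2) : (fs A).card = 2 ^ A.card := by
  classical
  unfold fs
  rw [Finset.card_image_of_injective _ ch_inj, Finset.card_powerset]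

theorem zero_mem_fs (A : Finset P2) : (0 : P2 → ZMod 2) ∈ fs A := mem_fs.2 fun _ _ => rfl

theorem add_mem_fs (A : Finset P2) : ∀ x ∈ fs A, ∀ y ∈ fs A, x + y ∈ fs A := by
  intro x hx y hy
  rw [mem_fs] at *
  intro v hv
  rw [Pi.add_apply, hx v hv, hy v hv, add_zero]

/-! ### duality on a simply connected set of up triangles -/

/-- rearrangement of the pairing -/
theorem pr_eq (F : Finset P2) (q : P2 → ZMod 2 × ZMod 2) (hq : ∀ t, t ∉ F → q t = 0)
    (s : P2 → ZMod 2) :
    pr (fun t : ↥F => cr (t : P2)) (fun t => q t) s = ∑ v ∈ VF F, defect q v * s v := by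
  classical
  unfold pr
  rw [Finset.sum_coe_sort F (fun t => (q t).1 * (s (cr t 0) + s (cr t 1)) +
    (q t).2 * (s (cr t 0) + s (cr t 2)))]
  have hsup : ∀ (g : P2 → ZMod 2) (W : Finset P2), F ⊆ W → (∀ t, t ∉ F → g t = 0) →
      ∑ t ∈ F, g t = ∑ t ∈ W, g t := fun g W hW hg =>
    Finset.sum_subset hW fun t _ ht => hg t ht
  have hF0 : F ⊆ VF F := fun t ht => mem_VF'.2 (Or.inl ht)
  -- shift by e1
  have s1 : ∑ t ∈ F, (q t).1 * s (cr t 1) = ∑ v ∈ VF F, (q (v.1 - 1, v.2)).1 * s v := by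
    have h1 : F.image (fun t => ((t.1 + 1, t.2) : P2)) ⊆ VF F := by
      intro v hv
      obtain ⟨t, ht, rfl⟩ := Finset.mem_image.1 hv
      exact mem_VF'.2 (Or.inr (Or.inl (by simpa using ht)))
    rw [← Finset.sum_subset h1 fun v _ hv => ?_, Finset.sum_image]
    · refine Finset.sum_congr rfl fun t _ => ?_
      simp
    · intro x _ y _ h
      simp only [Prod.mk.injEq] at h
      exact Prod.ext (by omega) h.2
    · have : q (v.1 - 1, v.2) = 0 := hq _ fun h => hv (Finset.mem_image.2 ⟨_, h, by simp⟩)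
      rw [this]; simp
  have s2 : ∑ t ∈ F, (q t).2 * s (cr t 2) = ∑ v ∈ VF F, (q (v.1, v.2 - 1)).2 * s v := by
    have h1 : F.image (fun t => ((t.1, t.2 + 1) : P2)) ⊆ VF F := by
      intro v hv
      obtain ⟨t, ht, rfl⟩ := Finset.mem_image.1 hv
      exact mem_VF'.2 (Or.inr (Or.inr (by simpa using ht)))
    rw [← Finset.sum_subset h1 fun v _ hv => ?_, Finset.sum_image]
    · refine Finset.sum_congr rfl fun t _ => ?_
      simp
    · intro x _ y _ h
      simp only [Prod.mk.injEq] at h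
      exact Prod.ext h.1 (by omega)
    · have : q (v.1, v.2 - 1) = 0 := hq _ fun h => hv (Finset.mem_image.2 ⟨_, h, by simp⟩)
      rw [this]; simp
  have s0 : ∑ t ∈ F, ((q t).1 + (q t).2) * s (cr t 0) = ∑ v ∈ VF F, ((q v).1 + (q v).2) * s v := by
    refine hsup _ _ hF0 fun t ht => ?_
    rw [hq t ht]; simp
  calc ∑ t ∈ F, ((q t).1 * (s (cr t 0) + s (cr t 1)) + (q t).2 * (s (cr t 0) + s (cr t 2)))
      = ∑ t ∈ F, ((q t).1 + (q t).2) * s (cr t 0) + ∑ t ∈ F, (q t).1 * s (cr t 1) +
          ∑ t ∈ F, (q t).2 * s (cr t 2) := by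
        rw [← Finset.sum_add_distrib, ← Finset.sum_add_distrib]
        refine Finset.sum_congr rfl fun t _ => ?_
        ring
    _ = _ := by
        rw [s0, s1, s2, ← Finset.sum_add_distrib, ← Finset.sum_add_distrib]
        refine Finset.sum_congr rfl fun v _ => ?_
        unfold defect
        ring

/-- **Kramers–Wannier duality on a simply connected set of up triangles.** -/
theorem kw_F {F : Finset P2} (hF : SC F) (A B : P2 → ℝ) :
    ∑ S ∈ (VF F).powerset, ∏ t ∈ F, (if M3 (cr t) (ch S) then A t + 3 * B t else A t - B t) =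
      2 ^ (VF F).card *
        ∑ σ ∈ (ID F).powerset, ∏ t ∈ F, (if M3 (dn t) (ch σ) then A t else B t) := by
  classical
  have h := tri_kw (U := ↥F) (fun t => cr (t : P2)) (fun t => dn (t : P2)) (fs (VF F)) (fs (ID F))
    (zero_mem_fs _) (zero_mem_fs _) (add_mem_fs _) (add_mem_fs _) ?_ ?_
    (fun t => A t) (fun t => B t)
  · rw [sum_fs, sum_fs, card_fs] at h
    have hN : ((fs (ID F)).filter fun σ => ∀ t : ↥F, M3 (dn (t : P2)) σ) = {0} := by
      ext σ
      rw [Finset.mem_filter, mem_fs, Finset.mem_singleton]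
      constructor
      · rintro ⟨h1, h2⟩
        have h3 : ∀ t, ∀ i, σ (dn t i) = σ t := by
          intro t i
          by_cases ht : t ∈ F
          · obtain ⟨h4, h5⟩ := h2 ⟨t, ht⟩
            fin_cases i
            · rfl
            · exact h4.symm
            · exact h5.symm
          · have hk : ∀ j, σ (dn t j) = 0 := fun j => h1 _ fun h => ht ((mem_ID'.1 h) t j rfl)
            rw [hk i]
            exact (hk 0).symm
        -- constant along rows, hence zero
        have h4 : ∀ n : ℕ, ∀ v : P2, σ v = σ (v.1 - n, v.2) := by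
          intro n
          induction n with
          | zero => intro v; simp
          | succ n ih =>
            intro v
            rw [ih v]
            have := h3 (v.1 - n, v.2) 1
            simp only [dn1] at this
            rw [← this]
            congr 2
            push_cast
            ring
        funext v
        have hinj : Function.Injective fun n : ℕ => ((v.1 - (n : ℤ), v.2) : P2) := by
          intro a b hab
          simp only [Prod.mk.injEq, and_true] at hab
          omega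
        obtain ⟨n, hn⟩ : ∃ n : ℕ, ((v.1 - (n : ℤ), v.2) : P2) ∉ ID F := by
          by_contra hcon
          push Not at hcon
          have : (Set.range fun n : ℕ => ((v.1 - (n : ℤ), v.2) : P2)).Finite :=
            (ID F : Set P2).toFinite.subset (by
              rintro _ ⟨n, rfl⟩
              exact hcon n)
          exact Set.infinite_range_of_injective hinj this
        rw [h4 n v, h1 _ hn]
        rfl
      · rintro rfl
        exact ⟨fun _ _ => rfl, fun t => ⟨rfl, rfl⟩⟩
    rw [hN, Finset.card_singleton] at h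
    have c1 : ∀ (G : P2 → ℝ), ∏ t : ↥F, G (t : P2) = ∏ t ∈ F, G t := fun G =>
      Finset.prod_coe_sort F G
    have e1 : ∀ S : Finset P2,
        ∏ t : ↥F, (if M3 (cr (t : P2)) (ch S) then A t + 3 * B t else A t - B t) =
        ∏ t ∈ F, (if M3 (cr t) (ch S) then A t + 3 * B t else A t - B t) := fun S =>
      c1 fun t => if M3 (cr t) (ch S) then A t + 3 * B t else A t - B t
    have e2 : ∀ S : Finset P2,
        ∏ t : ↥F, (if M3 (dn (t : P2)) (ch S) then A t else B t) =
        ∏ t ∈ F, (if M3 (dn t) (ch S) then A t else B t) := fun S =>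
      c1 fun t => if M3 (dn t) (ch S) then A t else B t
    rw [Finset.sum_congr rfl fun S _ => e1 S, Finset.sum_congr rfl fun S _ => e2 S] at h
    rw [h]
    push_cast
    ring
  · -- exactness
    intro H hH
    let q : P2 → ZMod 2 × ZMod 2 := fun t => if h : t ∈ F then H ⟨t, h⟩ else 0
    have hq0 : ∀ t, t ∉ F → q t = 0 := fun t ht => dif_neg ht
    have hqH : ∀ t : ↥F, q t = H t := fun t => dif_pos t.2
    have hpr : ∀ s, pr (fun t : ↥F => cr (t : P2)) H s = ∑ v ∈ VF F, defect q v * s v := by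
      intro s
      rw [← pr_eq F q hq0 s]
      unfold pr
      refine Finset.sum_congr rfl fun t _ => ?_
      simp only [hqH]
    obtain ⟨σ, h1, h2⟩ := exact_F hF q hq0 fun v => by
      by_cases hv : v ∈ VF F
      · have h3 := hH (ch {v}) (mem_fs.2 fun u hu => by
          unfold ch
          rw [if_neg]
          rw [Finset.mem_singleton]
          rintro rfl
          exact hu hv)
        rw [hpr, Finset.sum_eq_single v] at h3
        · simpa [ch] using h3
        · intro u _ hu
          unfold ch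
          rw [if_neg (by simpa using hu), mul_zero]
        · intro h
          exact absurd hv h
      · rw [mem_VF'] at hv
        push Not at hv
        unfold defect
        rw [hq0 _ hv.1, hq0 _ hv.2.1, hq0 _ hv.2.2]
        simp
    refine ⟨σ, mem_fs.2 h2, fun t => ?_⟩
    rw [← hqH t, ← h1]
    rfl
  · -- orthogonality
    intro σ hσ s _
    have hσ' := mem_fs.1 hσ
    have h1 : ∀ t, t ∉ F → dq σ t = 0 := by
      intro t ht
      have hk : ∀ j, σ (dn t j) = 0 := fun j => hσ' _ fun h => ht ((mem_ID'.1 h) t j rfl)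
      unfold dq
      rw [hk 0, hk 1, hk 2]
      rfl
    have h2 := pr_eq F (dq σ) h1 s
    have h3 : pr (fun t : ↥F => cr (t : P2)) (fun t => dQ (dn (t : P2)) σ) s =
        pr (fun t : ↥F => cr (t : P2)) (fun t => dq σ t) s := rfl
    rw [h3, h2]
    refine Finset.sum_eq_zero fun v _ => ?_
    rw [defect_dq, zero_mul]

/-! ### counting -/

/-- `psi` as a sum over finite sets of minus down triangles -/
theorem psi_eq (VA : Finset P2) (c : ℝ) (D : Finset P2) :
    psi dn VA c D ∅ = ∑ B ∈ VA.powerset, ∏ t ∈ D, (if M3 (dn t) (ch B) then (1 : ℝ) else 0) := by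
  classical
  unfold psi
  simp only [Finset.prod_empty, mul_one]
  let toB : (↥VA → ℤˣ) → Finset P2 := fun σ =>
    Finset.image (fun v : ↥VA => (v : P2)) (Finset.univ.filter fun v : ↥VA => σ v = -1)
  have hmem : ∀ σ v, v ∈ toB σ ↔ ∃ h : v ∈ VA, σ ⟨v, h⟩ = -1 := by
    intro σ v
    simp only [toB]
    rw [Finset.mem_image]
    constructor
    · rintro ⟨w, h1, rfl⟩
      exact ⟨w.2, (Finset.mem_filter.1 h1).2⟩
    · rintro ⟨h, h1⟩
      exact ⟨⟨v, h⟩, Finset.mem_filter.2 ⟨Finset.mem_univ _, h1⟩, rfl⟩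
  refine Finset.sum_bij' (fun σ _ => toB σ)
    (fun B _ => fun v : ↥VA => if (v : P2) ∈ B then -1 else 1) ?_ ?_ ?_ ?_ ?_
  · intro σ _
    rw [Finset.mem_powerset]
    intro v hv
    exact ((hmem σ v).1 hv).1
  · intro B _
    exact Finset.mem_univ _
  · intro σ _
    funext v
    simp only [hmem]
    by_cases h : σ v = -1
    · rw [if_pos ⟨v.2, h⟩, h]
    · rw [if_neg]
      · exact ((Int.units_eq_one_or (σ v)).resolve_right h).symm
      · rintro ⟨_, h'⟩
        exact h h'
  · intro B hB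
    ext v
    rw [hmem]
    constructor
    · rintro ⟨h, h1⟩
      by_contra h2
      simp [h2] at h1
    · intro h
      exact ⟨Finset.mem_powerset.1 hB h, by simp [h]⟩
  · intro σ _
    refine Finset.prod_congr rfl fun t _ => ?_
    have key : ∀ v, ch (toB σ) v = if sp VA σ v = 1 then 0 else 1 := by
      intro v
      unfold ch sp
      by_cases hv : v ∈ VA
      · rw [dif_pos hv]
        rcases Int.units_eq_one_or (σ ⟨v, hv⟩) with h1 | h1
        · rw [if_neg, if_pos h1]
          rw [hmem]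
          rintro ⟨_, h2⟩
          rw [h1] at h2
          exact absurd h2 (by decide)
        · rw [if_pos ((hmem σ v).2 ⟨hv, h1⟩), if_neg]
          rw [h1]; decide
      · rw [dif_neg hv, if_neg, if_pos rfl]
        rw [hmem]
        rintro ⟨h, _⟩
        exact hv h
    have h2 : Mono dn VA σ t ↔ M3 (dn t) (ch (toB σ)) := by
      unfold Mono M3
      rw [key, key, key]
      rcases Int.units_eq_one_or (sp VA σ (dn t 0)) with h0 | h0 <;>
        rcases Int.units_eq_one_or (sp VA σ (dn t 1)) with h1 | h1 <;>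
        rcases Int.units_eq_one_or (sp VA σ (dn t 2)) with h2 | h2 <;>
        rw [h0, h1, h2] <;> decide
    unfold hd
    by_cases h : Mono dn VA σ t
    · rw [if_pos h, if_pos (h2.1 h)]
    · rw [if_neg h, if_neg (fun h' => h (h2.2 h'))]

/-- number of (exponentiated) closed clusters: sign functions of the interior down triangles constant
around every triangle of `Z` -/
noncomputable def ncl (F Z : Finset P2) : ℝ := psi dn (ID F) 1 Z ∅

theorem psi_ncl (c : ℝ) (F Z : Finset P2) : psi dn (ID F) c Z ∅ = ncl F Z := by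
  unfold ncl psi
  simp only [Finset.prod_empty]

theorem ncl_pos (F Z : Finset P2) : 0 < ncl F Z := psi_pos _ _ le_rfl _ _

/-- **Counting**: sign functions of the sites constant on every triangle of `F \ Z`. -/
theorem count_F {F : Finset P2} (hF : SC F) {Z : Finset P2} (hZ : Z ⊆ F) :
    ∑ S ∈ (VF F).powerset, ∏ t ∈ F \ Z, (if M3 (cr t) (ch S) then (1 : ℝ) else 0) =
      2 ^ (VF F).card / 4 ^ (F \ Z).card * ncl F Z := by
  have h := kw_F hF (fun t => if t ∈ Z then 1 else 1 / 4) (fun t => if t ∈ Z then 0 else 1 / 4)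
  have e1 : ∀ S : Finset P2, ∏ t ∈ F, (if M3 (cr t) (ch S) then
      (if t ∈ Z then (1 : ℝ) else 1 / 4) + 3 * (if t ∈ Z then (0 : ℝ) else 1 / 4) else
      (if t ∈ Z then (1 : ℝ) else 1 / 4) - (if t ∈ Z then (0 : ℝ) else 1 / 4)) =
      ∏ t ∈ F \ Z, (if M3 (cr t) (ch S) then (1 : ℝ) else 0) := by
    intro S
    rw [← Finset.prod_inter_mul_prod_sdiff F Z]
    have h1 : ∏ t ∈ F ∩ Z, (if M3 (cr t) (ch S) then
      (if t ∈ Z then (1 : ℝ) else 1 / 4) + 3 * (if t ∈ Z then (0 : ℝ) else 1 / 4) else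
      (if t ∈ Z then (1 : ℝ) else 1 / 4) - (if t ∈ Z then (0 : ℝ) else 1 / 4)) = 1 := by
      refine Finset.prod_eq_one fun t ht => ?_
      rw [if_pos (Finset.mem_inter.1 ht).2, if_pos (Finset.mem_inter.1 ht).2]
      split_ifs <;> norm_num
    rw [h1, one_mul]
    refine Finset.prod_congr rfl fun t ht => ?_
    rw [if_neg (Finset.mem_sdiff.1 ht).2, if_neg (Finset.mem_sdiff.1 ht).2]
    split_ifs <;> norm_num
  have e2 : ∀ B : Finset P2, ∏ t ∈ F, (if M3 (dn t) (ch B) then
      (if t ∈ Z then (1 : ℝ) else 1 / 4) else (if t ∈ Z then (0 : ℝ) else 1 / 4)) =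
      (1 / 4) ^ (F \ Z).card * ∏ t ∈ Z, (if M3 (dn t) (ch B) then (1 : ℝ) else 0) := by
    intro B
    rw [← Finset.prod_inter_mul_prod_sdiff F Z, Finset.inter_eq_right.2 hZ, mul_comm]
    congr 1
    · rw [← Finset.prod_const]
      refine Finset.prod_congr rfl fun t ht => ?_
      rw [if_neg (Finset.mem_sdiff.1 ht).2, if_neg (Finset.mem_sdiff.1 ht).2]
      split_ifs <;> rfl
    · refine Finset.prod_congr rfl fun t ht => ?_
      rw [if_pos ht, if_pos ht]
  rw [Finset.sum_congr rfl fun S _ => e1 S, Finset.sum_congr rfl fun B _ => e2 B,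
    ← Finset.mul_sum] at h
  rw [h]
  unfold ncl
  rw [psi_eq]
  have h4 : ((1 : ℝ) / 4) ^ (F \ Z).card = 1 / 4 ^ (F \ Z).card := by
    rw [div_pow, one_pow]
  rw [h4]
  ring

end Crest.Agent.R144.Zk349
end

-- ▼ part R144/Zd_349
section

/-!
# R144: the integer model with closed up triangles, boundary condition of type F (helper349)

`F : Finset P2` = finite set of up triangles.  Configurations `ω = (h, z)`: heights `h : P2 → ℤ` and closed up
triangles `z : P2 → Bool` (`true` = closed).  Two colours: `s1 = +` iff `h mod 4 ∈ {0, 1}`, `s2 = +` iff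
`h mod 4 ∈ {3, 0}`.

* `HV F h` : `h` is 1-Lipschitz on the triangles of `F`, in `{0, 1}` at the non-interior sites of `F`, `0` off
  the sites of `F`;
* `Valid F ω`, `conf F`, `ew`, `wt c F`, `Z`, `E`, `Pr`, `mu` with `c = x⁻²`: a closed triangle needs constant
  `s1` (weight `1`), an open one needs constant `s2` (weight `1` if `s1` is not constant, `c - 1` if it is);
  summing over `z` gives `c` on constant triangles and `1` on the others, i.e. `x⁻²` times the height weight.
-/

set_option autoImplicit false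
set_option linter.unusedSectionVars false

noncomputable section

namespace Crest.Agent.R144.Zd349

open Finset MeasureTheory
open Crest.Agent.R144.It844 (P2 Lip Cst adj_iff adj_e1 adj_e2 adj_e3 adj_symm exists_exit)
open Crest.Agent.R144.Zg349 Crest.Agent.R144.Zk349
open Crest.ProbabilityR.HexHeights (Adj)

/-- configurations: heights and closed up triangles -/
abbrev Cfg : Type := (P2 → ℤ) × (P2 → Bool)

/-- first colour: `+` iff the height is `0, 1` mod 4 -/
def s1 (a : ℤ) : Bool := decide (a % 4 < 2)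
/-- second colour: `+` iff the height is `3, 0` mod 4 -/
def s2 (a : ℤ) : Bool := decide ((a + 1) % 4 < 2)

theorem s1_true {a : ℤ} : s1 a = true ↔ a % 4 < 2 := by simp [s1]
theorem s2_true {a : ℤ} : s2 a = true ↔ (a + 1) % 4 < 2 := by simp [s2]
theorem s1_false {a : ℤ} : s1 a = false ↔ 2 ≤ a % 4 := by
  unfold s1; rw [decide_eq_false_iff_not]; omega
theorem s2_false {a : ℤ} : s2 a = false ↔ 2 ≤ (a + 1) % 4 := by
  unfold s2; rw [decide_eq_false_iff_not]; omega

theorem mod4_of_s {a b : ℤ} (h1 : s1 a = s1 b) (h2 : s2 a = s2 b) : (a - b) % 4 = 0 := by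
  rcases h : s1 a with _ | _ <;> rcases h' : s2 a with _ | _ <;> rw [h] at h1 <;> rw [h'] at h2
  · rw [s1_false] at h; rw [s2_false] at h'; rw [eq_comm, s1_false] at h1
    rw [eq_comm, s2_false] at h2; omega
  · rw [s1_false] at h; rw [s2_true] at h'; rw [eq_comm, s1_false] at h1
    rw [eq_comm, s2_true] at h2; omega
  · rw [s1_true] at h; rw [s2_false] at h'; rw [eq_comm, s1_true] at h1
    rw [eq_comm, s2_false] at h2; omega
  · rw [s1_true] at h; rw [s2_true] at h'; rw [eq_comm, s1_true] at h1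
    rw [eq_comm, s2_true] at h2; omega

/-- shift by `2` flips both colours -/
theorem s1_add_two (a : ℤ) : s1 (a + 2) = !s1 a := by
  rcases h : s1 a with _ | _
  · rw [s1_false] at h; rw [Bool.not_false, s1_true]; omega
  · rw [s1_true] at h; rw [Bool.not_true, s1_false]; omega
theorem s2_add_two (a : ℤ) : s2 (a + 2) = !s2 a := by
  rcases h : s2 a with _ | _
  · rw [s2_false] at h; rw [Bool.not_false, s2_true]; omega
  · rw [s2_true] at h; rw [Bool.not_true, s2_false]; omega
/-- reflection `h ↦ 1 - h` flips the second colour only -/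
theorem s1_refl (a : ℤ) : s1 (1 - a) = s1 a := by
  rcases h : s1 a with _ | _
  · rw [s1_false] at h; rw [s1_false]; omega
  · rw [s1_true] at h; rw [s1_true]; omega
theorem s2_refl (a : ℤ) : s2 (1 - a) = !s2 a := by
  rcases h : s2 a with _ | _
  · rw [s2_false] at h; rw [Bool.not_false, s2_true]; omega
  · rw [s2_true] at h; rw [Bool.not_true, s2_false]; omega
/-- `h ↦ -h` exchanges the colours -/
theorem s1_neg (a : ℤ) : s1 (-a) = s2 a := by
  rcases h : s2 a with _ | _
  · rw [s2_false] at h; rw [s1_false]; omega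
  · rw [s2_true] at h; rw [s1_true]; omega
theorem s2_neg (a : ℤ) : s2 (-a) = s1 a := by
  rcases h : s1 a with _ | _
  · rw [s1_false] at h; rw [s2_false]; omega
  · rw [s1_true] at h; rw [s2_true]; omega

/-- first colour constant on the up triangle `t` -/
def C1 (h : P2 → ℤ) (t : P2) : Prop := s1 (h (cr t 0)) = s1 (h (cr t 1)) ∧ s1 (h (cr t 0)) = s1 (h (cr t 2))
/-- second colour constant on the up triangle `t` -/
def C2 (h : P2 → ℤ) (t : P2) : Prop := s2 (h (cr t 0)) = s2 (h (cr t 1)) ∧ s2 (h (cr t 0)) = s2 (h (cr t 2))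

instance (h : P2 → ℤ) (t : P2) : Decidable (C1 h t) := by unfold C1; infer_instance
instance (h : P2 → ℤ) (t : P2) : Decidable (C2 h t) := by unfold C2; infer_instance

/-- admissible heights (boundary condition of type F) -/
structure HV (F : Finset P2) (h : P2 → ℤ) : Prop where
  lip : ∀ t ∈ F, ∀ i j, |h (cr t i) - h (cr t j)| ≤ 1
  bd : ∀ v, v ∉ IV F → h v = 0 ∨ h v = 1
  off : ∀ v, v ∉ VF F → h v = 0

theorem HV.s1_bd {F : Finset P2} {h : P2 → ℤ} (hh : HV F h) {v : P2} (hv : v ∉ IV F) :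
    s1 (h v) = true := by
  rcases hh.bd v hv with h1 | h1 <;> rw [h1] <;> decide

/-- an admissible height is globally Lipschitz -/
theorem HV.glip {F : Finset P2} {h : P2 → ℤ} (hh : HV F h) (t : P2) (i j : Fin 3) :
    |h (cr t i) - h (cr t j)| ≤ 1 := by
  by_cases ht : t ∈ F
  · exact hh.lip t ht i j
  · have key : ∀ k, cr t k ∉ IV F := fun k hk => ht ((mem_IV'.1 hk) t (cr_mem_up t k))
    rcases hh.bd _ (key i) with h1 | h1 <;> rcases hh.bd _ (key j) with h2 | h2 <;>
      rw [h1, h2] <;> decide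

theorem HV.toLip {F : Finset P2} {h : P2 → ℤ} (hh : HV F h) : Lip h := by
  rw [Crest.Agent.R144.It844.lip_iff]
  intro u
  exact ⟨hh.glip u 0 1, hh.glip u 0 2, hh.glip u 1 2⟩

theorem cst_iff {h : P2 → ℤ} {t : P2} (hl : ∀ i j, |h (cr t i) - h (cr t j)| ≤ 1) :
    Cst h t ↔ C1 h t ∧ C2 h t := by
  have e : Cst h t ↔ h (cr t 0) = h (cr t 1) ∧ h (cr t 0) = h (cr t 2) := Iff.rfl
  rw [e]
  constructor
  · rintro ⟨a, b⟩
    unfold C1 C2
    rw [← a, ← b]
    exact ⟨⟨rfl, rfl⟩, rfl, rfl⟩
  · rintro ⟨⟨a1, a2⟩, b1, b2⟩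
    have h1 := mod4_of_s a1 b1
    have h2 := mod4_of_s a2 b2
    have l1 := abs_le.1 (hl 0 1)
    have l2 := abs_le.1 (hl 0 2)
    omega

/-- at most one colour is split on a triangle -/
theorem c1_or_c2 {h : P2 → ℤ} {t : P2} (hl : ∀ i j, |h (cr t i) - h (cr t j)| ≤ 1) :
    C1 h t ∨ C2 h t := by
  have l1 := abs_le.1 (hl 0 1)
  have l2 := abs_le.1 (hl 0 2)
  have l3 := abs_le.1 (hl 1 2)
  unfold C1 C2
  generalize h (cr t 0) = a at *
  generalize h (cr t 1) = b at *
  generalize h (cr t 2) = d at *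
  unfold s1 s2
  simp only [decide_eq_decide]
  omega

/-! ### the mod 4 lift -/

/-- residue with given colours -/
def rs (T A : Finset P2) (v : P2) : ℤ :=
  if v ∈ T then (if v ∈ A then 2 else 3) else (if v ∈ A then 1 else 0)

/-- increment -/
def Dc (a b : ℤ) : ℤ := (b - a + 1) % 4 - 1

theorem rs_cases (T A : Finset P2) (v : P2) :
    (v ∈ T ∧ v ∈ A ∧ rs T A v = 2) ∨ (v ∈ T ∧ v ∉ A ∧ rs T A v = 3) ∨
    (v ∉ T ∧ v ∈ A ∧ rs T A v = 1) ∨ (v ∉ T ∧ v ∉ A ∧ rs T A v = 0) := by
  unfold rs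
  by_cases h1 : v ∈ T <;> by_cases h2 : v ∈ A <;> simp [h1, h2]

theorem m3_ch {T : Finset P2} {t : P2} :
    M3 (cr t) (ch T) ↔ ((cr t 0 ∈ T ↔ cr t 1 ∈ T) ∧ (cr t 0 ∈ T ↔ cr t 2 ∈ T)) := by
  unfold M3 ch
  by_cases h0 : cr t 0 ∈ T <;> by_cases h1 : cr t 1 ∈ T <;> by_cases h2 : cr t 2 ∈ T <;>
    simp only [h0, h1, h2, if_true, if_false] <;> decide

/-- good edges: the increment is in `{-1, 0, 1}` -/
theorem dc_good {F T A : Finset P2} (hT : T ⊆ IV F)
    (hc : ∀ t ∈ F, M3 (cr t) (ch T) ∨ M3 (cr t) (ch A)) (t : P2) (i j : Fin 3) :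
    Dc (rs T A (cr t i)) (rs T A (cr t j)) ≤ 1 := by
  have key : ∀ u v : P2, ((u ∈ T ↔ v ∈ T) ∨ (u ∈ A ↔ v ∈ A)) → Dc (rs T A u) (rs T A v) ≤ 1 := by
    intro u v h
    unfold Dc
    rcases rs_cases T A u with ⟨a1, a2, a3⟩ | ⟨a1, a2, a3⟩ | ⟨a1, a2, a3⟩ | ⟨a1, a2, a3⟩ <;>
      rcases rs_cases T A v with ⟨b1, b2, b3⟩ | ⟨b1, b2, b3⟩ | ⟨b1, b2, b3⟩ | ⟨b1, b2, b3⟩ <;>
      rw [a3, b3] <;> first | (norm_num; done) | (exfalso; tauto)
  apply key
  by_cases ht : t ∈ F
  · have aux : ∀ S : Finset P2, M3 (cr t) (ch S) → (cr t i ∈ S ↔ cr t j ∈ S) := by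
      intro S hS
      rw [m3_ch] at hS
      fin_cases i <;> fin_cases j <;> simp only [Fin.zero_eta, Fin.mk_one, Fin.reduceFinMk] <;> tauto
    rcases hc t ht with h | h
    · exact Or.inl (aux T h)
    · exact Or.inr (aux A h)
  · have hn : ∀ k, cr t k ∉ T := fun k hk => ht ((mem_IV'.1 (hT hk)) t (cr_mem_up t k))
    exact Or.inl ⟨fun h => absurd h (hn i), fun h => absurd h (hn j)⟩

/-- **Lift**: compatible colours come from an admissible height. -/
theorem exists_height {F T A : Finset P2} (hF : SC F) (hT : T ⊆ IV F) (hA : A ⊆ VF F)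
    (hc : ∀ t ∈ F, M3 (cr t) (ch T) ∨ M3 (cr t) (ch A)) :
    ∃ h : P2 → ℤ, HV F h ∧ (∀ v, s1 (h v) = true ↔ v ∉ T) ∧ (∀ v, s2 (h v) = true ↔ v ∉ A) := by
  classical
  -- a vertical line to the left
  obtain ⟨N, hN⟩ : ∃ N : ℤ, ∀ t ∈ VF F, N + 1 < t.1 := by
    rcases ((VF F).image fun t => t.1).eq_empty_or_nonempty with h | h
    · exact ⟨0, fun t ht => by
        have : t.1 ∈ (VF F).image fun t => t.1 := Finset.mem_image_of_mem _ ht
        rw [h] at this; exact absurd this (by simp)⟩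
    · exact ⟨Finset.min' _ h - 2, fun t ht => by
        have := Finset.min'_le _ t.1 (Finset.mem_image_of_mem (fun t : P2 => t.1) ht)
        omega⟩
  have r0 : ∀ v : P2, v ∉ VF F → rs T A v = 0 := by
    intro v hv
    unfold rs
    rw [if_neg fun h => hv (IV_sub_VF F (hT h)), if_neg fun h => hv (hA h)]
  have rz : ∀ v : P2, v.1 ≤ N + 1 → rs T A v = 0 := fun v hv => r0 v fun h => by
    have := hN v h
    omega
  have rge : ∀ v, 0 ≤ rs T A v ∧ rs T A v ≤ 3 := by
    intro v
    rcases rs_cases T A v with ⟨_, _, h⟩ | ⟨_, _, h⟩ | ⟨_, _, h⟩ | ⟨_, _, h⟩ <;> rw [h] <;> norm_num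
  have gd := fun t i j => dc_good (F := F) hT hc t i j
  obtain ⟨g, hg1, hg2, hg3⟩ := Crest.Agent.R161.Geo729.poincare
    (fun p : P2 => Dc (rs T A p) (rs T A (p.1 + 1, p.2)))
    (fun p : P2 => Dc (rs T A p) (rs T A (p.1, p.2 + 1))) N
    (fun i j h => by
      simp only
      rw [rz (i, j) (by simp only; omega), rz (i + 1, j) (by simp only; omega)]
      decide)
    (fun i j h => by
      simp only
      rw [rz (i, j) (by simp only; omega), rz (i, j + 1) (by simp only; omega)]
      decide)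
    (fun i j => by
      have a1 := gd (i, j) 0 1
      have a2 := gd (i, j) 1 0
      have a3 := gd (i, j) 0 2
      have a4 := gd (i, j) 2 0
      have a5 := gd (i, j) 1 2
      have a6 := gd (i, j) 2 1
      have b1 := gd (i + 1, j) 0 2
      have b2 := gd (i + 1, j) 2 0
      have b3 := gd (i, j + 1) 0 1
      have b4 := gd (i, j + 1) 1 0
      simp only [cr0, cr1, cr2] at *
      simp only [Dc] at *
      generalize rs T A (i, j) = x at *
      generalize rs T A (i + 1, j) = y at *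
      generalize rs T A (i, j + 1) = z at *
      generalize rs T A (i + 1, j + 1) = w at *
      omega)
  -- congruence
  have hmod : ∀ v, (g v - rs T A v) % 4 = 0 := by
    have : ∀ n : ℕ, ∀ j : ℤ, (g (N + n, j) - rs T A (N + n, j)) % 4 = 0 := by
      intro n
      induction n with
      | zero =>
        intro j
        rw [hg3 _ _ (by simp), rz _ (by simp)]
        norm_num
      | succ n ih =>
        intro j
        have h1 := ih j
        have h2 := hg1 (N + n) j
        have e : N + ((n + 1 : ℕ) : ℤ) = N + n + 1 := by push_cast; ring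
        rw [e, h2]
        simp only [Dc]
        omega
    intro v
    rcases le_or_gt v.1 N with h | h
    · have h1 : g v = 0 := hg3 v.1 v.2 h
      rw [h1, rz v (by omega)]
      norm_num
    · obtain ⟨n, hn⟩ : ∃ n : ℕ, v.1 = N + n := ⟨(v.1 - N).toNat, by omega⟩
      have := this n v.2
      rw [← hn] at this
      exact this
  -- global Lipschitz
  have hlip : ∀ (t : P2) (i j : Fin 3), |g (cr t i) - g (cr t j)| ≤ 1 := by
    intro t
    have e1 := hg1 t.1 t.2
    have e2 := hg2 t.1 t.2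
    have a1 := gd t 0 1
    have a2 := gd t 1 0
    have a3 := gd t 0 2
    have a4 := gd t 2 0
    have a5 := gd t 1 2
    have a6 := gd t 2 1
    have m0 := hmod (cr t 0)
    have m1 := hmod (cr t 1)
    have m2 := hmod (cr t 2)
    simp only [cr0, cr1, cr2, Dc] at *
    have key : |g t - g (t.1 + 1, t.2)| ≤ 1 ∧ |g t - g (t.1, t.2 + 1)| ≤ 1 ∧
        |g (t.1 + 1, t.2) - g (t.1, t.2 + 1)| ≤ 1 := by
      refine ⟨?_, ?_, ?_⟩ <;> rw [abs_le] <;>
      · generalize g (t.1 + 1, t.2) = G1 at *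
        generalize g (t.1, t.2 + 1) = G2 at *
        generalize g t = G0 at *
        generalize rs T A (t.1 + 1, t.2) = R1 at *
        generalize rs T A (t.1, t.2 + 1) = R2 at *
        generalize rs T A t = R0 at *
        constructor <;> omega
    intro i j
    fin_cases i <;> fin_cases j <;>
      simp only [Fin.zero_eta, Fin.mk_one, Fin.reduceFinMk, cr0, cr1, cr2, sub_self, abs_zero,
        zero_le_one]
    · exact key.1
    · exact key.2.1
    · rw [abs_sub_comm]; exact key.1
    · exact key.2.2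
    · rw [abs_sub_comm]; exact key.2.1
    · rw [abs_sub_comm]; exact key.2.2
  -- non-interior sites
  have hT' : ∀ v, v ∉ IV F → rs T A v = 0 ∨ rs T A v = 1 := by
    intro v hv
    rcases rs_cases T A v with ⟨h, _, _⟩ | ⟨h, _, _⟩ | ⟨_, _, h⟩ | ⟨_, _, h⟩
    · exact absurd (hT h) hv
    · exact absurd (hT h) hv
    · exact Or.inr h
    · exact Or.inl h
  have hbd : ∀ v, v ∉ IV F → g v = 0 ∨ g v = 1 := by
    intro v hv
    obtain ⟨w0, h3, h4⟩ := exists_far (IV F) N
    have h5 := const_site hF (fun v => g v / 4) (fun t ht v hv => by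
      obtain ⟨i, rfl⟩ := mem_up_iff.1 hv
      have hn : ∀ k, cr t k ∉ IV F := fun k hk => ht ((mem_IV'.1 hk) t (cr_mem_up t k))
      have l := abs_le.1 (hlip t i 0)
      have m0 := hmod (cr t 0)
      have m1 := hmod (cr t i)
      have n0 := hT' _ (hn 0)
      have n1 := hT' _ (hn i)
      simp only [cr0] at *
      generalize g (cr t i) = G1 at *
      generalize g t = G0 at *
      generalize rs T A (cr t i) = R1 at *
      generalize rs T A t = R0 at *
      omega) hv h4
    have h6 : g w0 = 0 := hg3 w0.1 w0.2 h3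
    simp only [h6] at h5
    have m := hmod v
    have n := hT' v hv
    generalize rs T A v = R at *
    omega
  refine ⟨g, ⟨fun t _ => hlip t, hbd, fun v hv => ?_⟩, fun v => ?_, fun v => ?_⟩
  · have h1 := hbd v fun h => hv (IV_sub_VF F h)
    have m := hmod v
    rw [r0 v hv] at m
    omega
  · rw [s1_true]
    have m := hmod v
    rcases rs_cases T A v with ⟨h1, _, h⟩ | ⟨h1, _, h⟩ | ⟨h1, _, h⟩ | ⟨h1, _, h⟩ <;> rw [h] at m
    · simp only [h1, not_true_eq_false, iff_false]; omega
    · simp only [h1, not_true_eq_false, iff_false]; omega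
    · simp only [h1, not_false_eq_true, iff_true]; omega
    · simp only [h1, not_false_eq_true, iff_true]; omega
  · rw [s2_true]
    have m := hmod v
    rcases rs_cases T A v with ⟨_, h1, h⟩ | ⟨_, h1, h⟩ | ⟨_, h1, h⟩ | ⟨_, h1, h⟩ <;> rw [h] at m
    · simp only [h1, not_true_eq_false, iff_false]; omega
    · simp only [h1, not_false_eq_true, iff_true]; omega
    · simp only [h1, not_true_eq_false, iff_false]; omega
    · simp only [h1, not_false_eq_true, iff_true]; omega

/-- **Uniqueness**: an admissible height is determined by its colours. -/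
theorem height_inj {F : Finset P2} {h g : P2 → ℤ} (hh : HV F h) (hg : HV F g)
    (e1 : ∀ v, s1 (h v) = s1 (g v)) (e2 : ∀ v, s2 (h v) = s2 (g v)) : h = g := by
  have hm : ∀ v, (h v - g v) % 4 = 0 := fun v => mod4_of_s (e1 v) (e2 v)
  funext v
  obtain ⟨j, -, hj, hj'⟩ := exists_exit (IV F) v
  have key : ∀ i : ℕ, i ≤ j → h (v.1 + (i : ℤ), v.2) - g (v.1 + (i : ℤ), v.2) = h v - g v := by
    intro i
    induction i with
    | zero => intro _; simp
    | succ i ih =>
      intro hi
      rw [← ih (by omega)]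
      have l1 := abs_le.1 (hh.glip (v.1 + (i : ℤ), v.2) 0 1)
      have l2 := abs_le.1 (hg.glip (v.1 + (i : ℤ), v.2) 0 1)
      have m1 := hm (v.1 + (i : ℤ), v.2)
      have m2 := hm (v.1 + (i : ℤ) + 1, v.2)
      simp only [cr0, cr1] at l1 l2
      have e : v.1 + (((i + 1 : ℕ) : ℤ)) = v.1 + i + 1 := by push_cast; ring
      rw [e]
      omega
  have h1 := key j le_rfl
  have h2 := hh.bd _ hj
  have h3 := hg.bd _ hj
  have h4 := hm (v.1 + (j : ℤ), v.2)
  omega

end Crest.Agent.R144.Zd349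
end
end

-- ▼ part R144/Zm_349

/-!
# R144: the F-type model `(h, z)`: finite volume law and the `(s1, Z)` marginal (helper349)

* `conf F`, `wt c F`, `Z c F`, `pr`, `E`, `EC`, `Pr`, `mu` in the style of R161/Defs_372;
* `sum_conf` : exact sum over `(T, A, Z)` = (minus sites of `s1`, minus sites of `s2`, closed triangles);
* `sum_conf_tz` : the `(T, Z)` marginal is `2^|VF| / 4^|F| * fw up c F T Z * ncl F Z`.
-/

set_option autoImplicit false
set_option linter.unusedSectionVars false

noncomputable section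

namespace Crest.Agent.R144.Zm349

open Finset MeasureTheory
open Crest.Agent.R144.It844 (P2 Lip Cst)
open Crest.Agent.R144.Zg349 Crest.Agent.R144.Zk349 Crest.Agent.R144.Zd349
open Crest.Agent.R144.HyA349 Crest.Agent.R144.HyB349 Crest.Agent.R144.HyC349
open Crest.ProbabilityR.HexHeights (Adj)

/-- interior sites with `s1 = -` -/
def tm (F : Finset P2) (h : P2 → ℤ) : Finset P2 := (IV F).filter fun v => s1 (h v) = false
/-- sites with `s2 = -` -/
def am (F : Finset P2) (h : P2 → ℤ) : Finset P2 := (VF F).filter fun v => s2 (h v) = false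

theorem tm_sub (F : Finset P2) (h : P2 → ℤ) : tm F h ⊆ IV F := Finset.filter_subset _ _
theorem am_sub (F : Finset P2) (h : P2 → ℤ) : am F h ⊆ VF F := Finset.filter_subset _ _

theorem mem_tm {F : Finset P2} {h : P2 → ℤ} (hh : HV F h) {v : P2} :
    v ∈ tm F h ↔ s1 (h v) = false := by
  unfold tm
  rw [Finset.mem_filter, and_iff_right_iff_imp]
  intro h1
  by_contra h2
  rw [hh.s1_bd h2] at h1
  exact absurd h1 (by decide)

theorem mem_am {F : Finset P2} {h : P2 → ℤ} (hh : HV F h) {v : P2} :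
    v ∈ am F h ↔ s2 (h v) = false := by
  unfold am
  rw [Finset.mem_filter, and_iff_right_iff_imp]
  intro h1
  by_contra h2
  rw [hh.off v h2] at h1
  exact absurd h1 (by decide)

theorem c1_iff {F : Finset P2} {h : P2 → ℤ} (hh : HV F h) (t : P2) :
    C1 h t ↔ M3 (cr t) (ch (tm F h)) := by
  rw [m3_ch, mem_tm hh, mem_tm hh, mem_tm hh]
  unfold C1
  generalize s1 (h (cr t 0)) = a
  generalize s1 (h (cr t 1)) = b
  generalize s1 (h (cr t 2)) = d
  revert a b d
  decide

theorem c2_iff {F : Finset P2} {h : P2 → ℤ} (hh : HV F h) (t : P2) :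
    C2 h t ↔ M3 (cr t) (ch (am F h)) := by
  rw [m3_ch, mem_am hh, mem_am hh, mem_am hh]
  unfold C2
  generalize s2 (h (cr t 0)) = a
  generalize s2 (h (cr t 1)) = b
  generalize s2 (h (cr t 2)) = d
  revert a b d
  decide

theorem height_inj' {F : Finset P2} {h g : P2 → ℤ} (hh : HV F h) (hg : HV F g)
    (e1 : tm F h = tm F g) (e2 : am F h = am F g) : h = g := by
  have k : ∀ a b : Bool, (a = false ↔ b = false) → a = b := by decide
  refine height_inj hh hg (fun v => k _ _ ?_) (fun v => k _ _ ?_)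
  · rw [← mem_tm hh, ← mem_tm hg, e1]
  · rw [← mem_am hh, ← mem_am hg, e2]

theorem hv_finite (F : Finset P2) : {h : P2 → ℤ | HV F h}.Finite := by
  classical
  refine Set.Finite.of_finite_image (f := fun h => (tm F h, am F h))
    (Set.Finite.subset (((IV F).powerset ×ˢ (VF F).powerset : Finset _).finite_toSet) ?_) ?_
  · rintro _ ⟨h, _, rfl⟩
    simp only [Finset.coe_product, Finset.coe_powerset, Set.mem_prod, Set.mem_preimage,
      Set.mem_powerset_iff, Finset.coe_subset]
    exact ⟨tm_sub F h, am_sub F h⟩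
  · intro h hh g hg e
    have := Prod.ext_iff.1 e
    exact height_inj' hh hg this.1 this.2

/-- admissible heights -/
def hts (F : Finset P2) : Finset (P2 → ℤ) := (hv_finite F).toFinset

theorem mem_hts {F : Finset P2} {h : P2 → ℤ} : h ∈ hts F ↔ HV F h := by simp [hts]

/-- closed indicator -/
def zb (F Z : Finset P2) (t : P2) : Bool := decide (t ∉ F ∨ t ∈ Z)

theorem zb_inj {F Z Z' : Finset P2} (hZ : Z ⊆ F) (hZ' : Z' ⊆ F) (h : zb F Z = zb F Z') : Z = Z' := by
  ext t
  have := congrFun h t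
  unfold zb at this
  rw [decide_eq_decide] at this
  by_cases ht : t ∈ F
  · tauto
  · exact ⟨fun h => absurd (hZ h) ht, fun h => absurd (hZ' h) ht⟩

open Classical in
/-- admissible closed indicators -/
def zs (F : Finset P2) : Finset (P2 → Bool) := F.powerset.image (zb F)

theorem mem_zs {F : Finset P2} {z : P2 → Bool} : z ∈ zs F ↔ ∀ t, t ∉ F → z t = true := by
  classical
  unfold zs
  rw [Finset.mem_image]
  constructor
  · rintro ⟨Z, _, rfl⟩ t ht
    unfold zb
    rw [decide_eq_true_eq]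
    exact Or.inl ht
  · intro h
    refine ⟨F.filter fun t => z t = true, by simp, ?_⟩
    funext t
    unfold zb
    by_cases ht : t ∈ F
    · rcases hz : z t with _ | _
      · rw [decide_eq_false_iff_not]; simp [ht, hz]
      · rw [decide_eq_true_eq]; simp [ht, hz]
    · rw [h t ht, decide_eq_true_eq]
      exact Or.inl ht

/-- valid configurations -/
structure Valid (F : Finset P2) (ω : Cfg) : Prop where
  ht : HV F ω.1
  cl : ∀ t, t ∉ F → ω.2 t = true

/-- the finite set of valid configurations -/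
def conf (F : Finset P2) : Finset Cfg := hts F ×ˢ zs F

theorem mem_conf {F : Finset P2} {ω : Cfg} : ω ∈ conf F ↔ Valid F ω := by
  unfold conf
  rw [Finset.mem_product, mem_hts, mem_zs]
  exact ⟨fun h => ⟨h.1, h.2⟩, fun h => ⟨h.1, h.2⟩⟩

/-- weight of one triangle -/
def ew (c : ℝ) (ω : Cfg) (t : P2) : ℝ :=
  if ω.2 t then (if C1 ω.1 t then 1 else 0)
  else (if C2 ω.1 t then (if C1 ω.1 t then c - 1 else 1) else 0)

/-- weight of a configuration -/
def wt (c : ℝ) (F : Finset P2) (ω : Cfg) : ℝ := ∏ t ∈ F, ew c ω t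

theorem ew_nonneg {c : ℝ} (hc : 1 ≤ c) (ω : Cfg) (t : P2) : 0 ≤ ew c ω t := by
  unfold ew
  split_ifs <;> first | exact zero_le_one | exact le_rfl | linarith

theorem wt_nonneg {c : ℝ} (hc : 1 ≤ c) (F : Finset P2) (ω : Cfg) : 0 ≤ wt c F ω :=
  Finset.prod_nonneg fun t _ => ew_nonneg hc ω t

/-- the flat configuration -/
def flat : Cfg := (fun _ => 0, fun _ => true)

theorem valid_flat (F : Finset P2) : Valid F flat where
  ht := ⟨fun _ _ _ _ => by simp [flat], fun _ _ => Or.inl rfl, fun _ _ => rfl⟩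
  cl := fun _ _ => rfl

theorem wt_flat (c : ℝ) (F : Finset P2) : wt c F flat = 1 := by
  unfold wt ew flat C1
  simp

/-- partition function -/
def Z (c : ℝ) (F : Finset P2) : ℝ := ∑ ω ∈ conf F, wt c F ω

theorem Z_pos {c : ℝ} (hc : 1 ≤ c) (F : Finset P2) : 0 < Z c F := by
  refine Finset.sum_pos' (fun ω _ => wt_nonneg hc F ω) ⟨flat, mem_conf.2 (valid_flat F), ?_⟩
  rw [wt_flat]
  exact one_pos

open Classical in
/-- probability of a configuration -/
def pr (c : ℝ) (F : Finset P2) (ω : Cfg) : ℝ := if Valid F ω then wt c F ω / Z c F else 0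

theorem pr_of_valid (c : ℝ) {F : Finset P2} {ω : Cfg} (h : Valid F ω) :
    pr c F ω = wt c F ω / Z c F := if_pos h


theorem pr_nonneg {c : ℝ} (hc : 1 ≤ c) (F : Finset P2) (ω : Cfg) : 0 ≤ pr c F ω := by
  unfold pr
  split_ifs
  · exact div_nonneg (wt_nonneg hc F ω) (Z_pos hc F).le
  · exact le_rfl

theorem sum_pr {c : ℝ} (hc : 1 ≤ c) (F : Finset P2) : ∑ ω ∈ conf F, pr c F ω = 1 := by
  have : ∀ ω ∈ conf F, pr c F ω = wt c F ω / Z c F := fun ω h => pr_of_valid c (mem_conf.1 h)
  rw [Finset.sum_congr rfl this, ← Finset.sum_div]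
  exact div_self (Z_pos hc F).ne'

/-- expectation (real observables) -/
def E (c : ℝ) (F : Finset P2) (f : Cfg → ℝ) : ℝ := ∑ ω ∈ conf F, pr c F ω * f ω


theorem E_add (c : ℝ) (F : Finset P2) (f g : Cfg → ℝ) :
    E c F (fun ω => f ω + g ω) = E c F f + E c F g := by
  simp only [E, mul_add, Finset.sum_add_distrib]

theorem E_sub (c : ℝ) (F : Finset P2) (f g : Cfg → ℝ) :
    E c F (fun ω => f ω - g ω) = E c F f - E c F g := by
  simp only [E, mul_sub, Finset.sum_sub_distrib]

theorem E_smul (c : ℝ) (F : Finset P2) (a : ℝ) (f : Cfg → ℝ) :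
    E c F (fun ω => a * f ω) = a * E c F f := by
  simp only [E, Finset.mul_sum]
  exact Finset.sum_congr rfl fun ω _ => by ring

theorem E_const {c : ℝ} (hc : 1 ≤ c) (F : Finset P2) (a : ℝ) : E c F (fun _ => a) = a := by
  simp only [E, ← Finset.sum_mul, sum_pr hc, one_mul]

theorem E_congr {c : ℝ} {F : Finset P2} {f g : Cfg → ℝ} (h : ∀ ω, Valid F ω → f ω = g ω) :
    E c F f = E c F g :=
  Finset.sum_congr rfl fun ω hω => by rw [h ω (mem_conf.1 hω)]

theorem E_mono {c : ℝ} (hc : 1 ≤ c) {F : Finset P2} {f g : Cfg → ℝ}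
    (h : ∀ ω, Valid F ω → f ω ≤ g ω) : E c F f ≤ E c F g :=
  Finset.sum_le_sum fun ω hω => mul_le_mul_of_nonneg_left (h ω (mem_conf.1 hω)) (pr_nonneg hc F ω)

theorem E_nonneg {c : ℝ} (hc : 1 ≤ c) {F : Finset P2} {f : Cfg → ℝ}
    (h : ∀ ω, Valid F ω → 0 ≤ f ω) : 0 ≤ E c F f :=
  Finset.sum_nonneg fun ω hω => mul_nonneg (pr_nonneg hc F ω) (h ω (mem_conf.1 hω))

theorem E_sum {ι : Type*} (c : ℝ) (F : Finset P2) (s : Finset ι) (f : ι → Cfg → ℝ) :
    E c F (fun ω => ∑ i ∈ s, f i ω) = ∑ i ∈ s, E c F (f i) := by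
  simp only [E, Finset.mul_sum]
  exact Finset.sum_comm

theorem E_eq_div {c : ℝ} (F : Finset P2) (f : Cfg → ℝ) :
    E c F f = (∑ ω ∈ conf F, wt c F ω * f ω) / Z c F := by
  unfold E
  rw [Finset.sum_div]
  refine Finset.sum_congr rfl fun ω hω => ?_
  rw [pr_of_valid c (mem_conf.1 hω)]
  ring

open Classical in
/-- probability of an event -/
def Pr (c : ℝ) (F : Finset P2) (A : Set Cfg) : ℝ := E c F (fun ω => if ω ∈ A then 1 else 0)

/-- the law as a measure on `Cfg` -/
def mu (c : ℝ) (F : Finset P2) : Measure Cfg :=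
  ∑ ω ∈ conf F, ENNReal.ofReal (pr c F ω) • Measure.dirac ω


/-- unnormalised expectation -/
def S (c : ℝ) (F : Finset P2) (f : Cfg → ℝ) : ℝ := ∑ ω ∈ conf F, wt c F ω * f ω

theorem E_eq_S (c : ℝ) (F : Finset P2) (f : Cfg → ℝ) : E c F f = S c F f / Z c F := E_eq_div F f

theorem S_one (c : ℝ) (F : Finset P2) : S c F (fun _ => 1) = Z c F := by
  unfold S Z
  exact Finset.sum_congr rfl fun ω _ => mul_one _

/-! ### sums over colours -/

open Classical in
/-- sums over admissible heights as sums over pairs of colour sets -/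
theorem sum_hts {F : Finset P2} (hF : SC F) (G : Finset P2 → Finset P2 → ℝ) :
    ∑ h ∈ hts F, G (tm F h) (am F h) = ∑ T ∈ (IV F).powerset, ∑ A ∈ (VF F).powerset,
      if ∀ t ∈ F, M3 (cr t) (ch T) ∨ M3 (cr t) (ch A) then G T A else 0 := by
  rw [← Finset.sum_product', ← Finset.sum_filter]
  refine Finset.sum_bij (fun h _ => (tm F h, am F h)) ?_ ?_ ?_ ?_
  · intro h hh
    rw [mem_hts] at hh
    rw [Finset.mem_filter, Finset.mem_product, Finset.mem_powerset, Finset.mem_powerset]
    refine ⟨⟨tm_sub F h, am_sub F h⟩, fun t ht => ?_⟩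
    rw [← c1_iff hh, ← c2_iff hh]
    exact c1_or_c2 (hh.lip t ht)
  · intro h hh g hg e
    rw [mem_hts] at hh hg
    have := Prod.ext_iff.1 e
    exact height_inj' hh hg this.1 this.2
  · rintro ⟨T, A⟩ hTA
    rw [Finset.mem_filter, Finset.mem_product, Finset.mem_powerset, Finset.mem_powerset] at hTA
    obtain ⟨⟨hT, hA⟩, hc⟩ := hTA
    obtain ⟨h, hh, h1, h2⟩ := exists_height hF hT hA hc
    have k : ∀ (a : Bool) (p : Prop), (a = true ↔ ¬ p) → (a = false ↔ p) := by
      intro a p h
      rcases a with _ | _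
      · simpa using h
      · simpa using h
    refine ⟨h, mem_hts.2 hh, Prod.ext ?_ ?_⟩
    · ext v
      rw [mem_tm hh]
      exact k _ _ (h1 v)
    · ext v
      rw [mem_am hh]
      exact k _ _ (h2 v)
  · intro h _
    rfl

theorem sum_zs (F : Finset P2) (G : (P2 → Bool) → ℝ) :
    ∑ z ∈ zs F, G z = ∑ Z ∈ F.powerset, G (zb F Z) := by
  classical
  unfold zs
  rw [Finset.sum_image]
  intro Z hZ Z' hZ' h
  exact zb_inj (Finset.mem_powerset.1 (by exact_mod_cast hZ))
    (Finset.mem_powerset.1 (by exact_mod_cast hZ')) h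

/-- closed triangles of `F` -/
def zm (F : Finset P2) (ω : Cfg) : Finset P2 := F.filter fun t => ω.2 t = true

theorem zm_zb {F Z : Finset P2} (hZ : Z ⊆ F) (h : P2 → ℤ) : zm F (h, zb F Z) = Z := by
  ext t
  unfold zm zb
  rw [Finset.mem_filter]
  simp only [decide_eq_true_eq]
  constructor
  · rintro ⟨h1, h2 | h2⟩
    · exact absurd h1 h2
    · exact h2
  · intro h1
    exact ⟨hZ h1, Or.inr h1⟩

/-- triangle weight in terms of `(T, A, Z)` -/
def ewS (c : ℝ) (T A Z : Finset P2) (t : P2) : ℝ :=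
  if t ∈ Z then (if M3 (cr t) (ch T) then 1 else 0)
  else (if M3 (cr t) (ch A) then (if M3 (cr t) (ch T) then c - 1 else 1) else 0)

theorem ew_eq {F Z : Finset P2} {h : P2 → ℤ} (hh : HV F h) (c : ℝ) {t : P2}
    (ht : t ∈ F) : ew c (h, zb F Z) t = ewS c (tm F h) (am F h) Z t := by
  unfold ew ewS
  have e : (zb F Z t = true) ↔ t ∈ Z := by
    unfold zb
    rw [decide_eq_true_eq]
    constructor
    · rintro (h | h)
      · exact absurd ht h
      · exact h
    · exact Or.inr
  simp only [c1_iff hh, c2_iff hh, e]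

/-- **The model in terms of the two colours and the closed triangles.** -/
theorem sum_conf {F : Finset P2} (hF : SC F) (c : ℝ)
    (f : Finset P2 → Finset P2 → Finset P2 → ℝ) :
    S c F (fun ω => f (tm F ω.1) (am F ω.1) (zm F ω)) =
      ∑ T ∈ (IV F).powerset, ∑ A ∈ (VF F).powerset, ∑ Z ∈ F.powerset,
        (∏ t ∈ F, ewS c T A Z t) * f T A Z := by
  classical
  unfold S conf
  rw [Finset.sum_product]
  have h1 : ∀ h ∈ hts F, ∑ z ∈ zs F, wt c F (h, z) * f (tm F h) (am F h) (zm F (h, z)) =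
      (fun T A => ∑ Z ∈ F.powerset, (∏ t ∈ F, ewS c T A Z t) * f T A Z) (tm F h) (am F h) := by
    intro h hh
    rw [mem_hts] at hh
    rw [sum_zs]
    refine Finset.sum_congr rfl fun Z hZ => ?_
    rw [zm_zb (Finset.mem_powerset.1 hZ)]
    congr 1
    exact Finset.prod_congr rfl fun t ht => ew_eq hh c ht
  refine (Finset.sum_congr rfl h1).trans
    ((sum_hts hF fun T A => ∑ Z ∈ F.powerset, (∏ t ∈ F, ewS c T A Z t) * f T A Z).trans ?_)
  refine Finset.sum_congr rfl fun T _ => Finset.sum_congr rfl fun A _ => ?_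
  split_ifs with h
  · rfl
  · push Not at h
    obtain ⟨t, ht, h1, h2⟩ := h
    symm
    refine Finset.sum_eq_zero fun Z _ => ?_
    rw [Finset.prod_eq_zero ht, zero_mul]
    unfold ewS
    rw [if_neg h1, if_neg h2]
    split_ifs <;> rfl

theorem cs_iff {T : Finset P2} {t : P2} : Cs up T t ↔ M3 (cr t) (ch T) := by
  rw [m3_ch]
  unfold Cs
  constructor
  · rintro (h | h)
    · have := fun i => h _ (cr_mem_up t i)
      simp only [this]
      decide
    · have := fun i => h _ (cr_mem_up t i)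
      simp only [this]
      decide
  · rintro ⟨h1, h2⟩
    by_cases h0 : cr t 0 ∈ T
    · left
      intro v hv
      obtain ⟨i, rfl⟩ := mem_up_iff.1 hv
      fin_cases i
      · exact h0
      · exact h1.1 h0
      · exact h2.1 h0
    · right
      intro v hv
      obtain ⟨i, rfl⟩ := mem_up_iff.1 hv
      fin_cases i
      · exact h0
      · exact fun h => h0 (h1.2 h)
      · exact fun h => h0 (h2.2 h)

/-- **The `(s1, Z)` marginal.** -/
theorem sum_conf_tz {F : Finset P2} (hF : SC F) (c : ℝ) (f : Finset P2 → Finset P2 → ℝ) :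
    S c F (fun ω => f (tm F ω.1) (zm F ω)) =
      2 ^ (VF F).card / 4 ^ F.card *
        ∑ T ∈ (IV F).powerset, ∑ Z ∈ F.powerset, fw up c F T Z * ncl F Z * f T Z := by
  have h := sum_conf hF c (fun T _ Z => f T Z)
  rw [h, Finset.mul_sum]
  refine Finset.sum_congr rfl fun T _ => ?_
  rw [Finset.sum_comm, Finset.mul_sum]
  refine Finset.sum_congr rfl fun Z hZ => ?_
  rw [Finset.mem_powerset] at hZ
  -- split the product
  have e1 : ∀ A : Finset P2, ∏ t ∈ F, ewS c T A Z t =
      ((∏ t ∈ Z, if M3 (cr t) (ch T) then (1 : ℝ) else 0) *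
        ∏ t ∈ F \ Z, if M3 (cr t) (ch T) then c - 1 else 1) *
      ∏ t ∈ F \ Z, (if M3 (cr t) (ch A) then (1 : ℝ) else 0) := by
    intro A
    rw [← Finset.prod_inter_mul_prod_sdiff F Z, Finset.inter_eq_right.2 hZ, mul_assoc,
      ← Finset.prod_mul_distrib]
    congr 1
    · refine Finset.prod_congr rfl fun t ht => ?_
      unfold ewS
      rw [if_pos ht]
    · refine Finset.prod_congr rfl fun t ht => ?_
      unfold ewS
      rw [if_neg (Finset.mem_sdiff.1 ht).2]
      split_ifs <;> ring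
  have e2 : fw up c F T Z = 4 ^ Z.card * ((∏ t ∈ Z, if M3 (cr t) (ch T) then (1 : ℝ) else 0) *
        ∏ t ∈ F \ Z, if M3 (cr t) (ch T) then c - 1 else 1) := by
    unfold fw
    rw [← Finset.prod_inter_mul_prod_sdiff F Z, Finset.inter_eq_right.2 hZ, ← mul_assoc,
      ← Finset.prod_const, ← Finset.prod_mul_distrib]
    congr 1
    · refine Finset.prod_congr rfl fun t ht => ?_
      simp only [cs_iff]
      rw [if_pos ht, if_pos ht]
      split_ifs <;> ring
    · refine Finset.prod_congr rfl fun t ht => ?_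
      simp only [cs_iff]
      rw [if_neg (Finset.mem_sdiff.1 ht).2, if_neg (Finset.mem_sdiff.1 ht).2]
  have e3 : (F \ Z).card + Z.card = F.card := Finset.card_sdiff_add_card_eq_card hZ
  rw [← Finset.sum_mul, Finset.sum_congr rfl fun A _ => e1 A, ← Finset.mul_sum, count_F hF hZ, e2,
    ← e3, pow_add]
  have h4 : (4 : ℝ) ^ (F \ Z).card ≠ 0 := by positivity
  have h5 : (4 : ℝ) ^ Z.card ≠ 0 := by positivity
  field_simp

end Crest.Agent.R144.Zm349
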