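import Crest.Agent.R161.Abs_375
import Crest.Agent.R144.It2_844
import Crest.Agent.R144.Zm_349

-- ▼ part R144/Hf1_702
section

/-!
# R144, block HALF (helper702), part 1: absolute values around the centre `1/2`, general finite graph

Heights `h : V → ℤ` are written `h = hh k σ`, `hh k σ v = k v + 1` if `σ v = 1` and `- k v` if `σ v = -1`, so
`h v - 1/2 = σ v * (k v + 1/2)`.  The edge weight is `ph x a b` (`1` if `a = b`, `x` if `|a - b| = 1`, `0` else).

* `prod_ph` : the weight of `hh k σ` = weight of `k` times a ferromagnetic weight `G x E (Tk E k)` of `σ`;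
* `dom_R`   : the law of `k` is stochastically increasing in the domain `(I, E)`;
* `MPos`    : "increasing positive" functions; `expect_mono` : expectations of `MPos` functions increase
  with the domain; `expect_nonneg`.
-/

set_option autoImplicit false
set_option linter.unusedSectionVars false
set_option linter.unusedVariables false

noncomputable section

namespace Crest.Agent.R144.Hf702

open Finset
open Crest.Agent.R161.Gks375 Crest.Agent.R161.Abs375
open Crest.Agent.R144.It844 (ph ph_nonneg ph_shift ph_neg ph_comm lsm_pair)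

section gen

variable {V K : Type*} [Fintype V] [DecidableEq V] [DecidableEq K]

/-- the height with absolute value `k + 1/2` and sign `σ` around `1/2` -/
def hh (k : V → ℕ) (σ : V → ℤˣ) (v : V) : ℤ := if σ v = 1 then (k v : ℤ) + 1 else -(k v : ℤ)

theorem hh_sub (k : V → ℕ) (σ : V → ℤˣ) (v : V) :
    ((hh k σ v : ℤ) : ℝ) - 1 / 2 = ((σ v : ℤ) : ℝ) * ((k v : ℝ) + 1 / 2) := by
  unfold hh
  rcases Int.units_eq_one_or (σ v) with h | h
  · rw [if_pos h, h]; push_cast; ring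
  · rw [if_neg (by rw [h]; decide), h]; push_cast; ring

/-- sign factor of an edge with both absolute values minimal -/
def pe (x : ℝ) (i j : K → V) (e : K) (σ : V → ℤˣ) : ℝ := if σ (i e) = σ (j e) then 1 else x

theorem pe_nonneg {x : ℝ} (hx0 : 0 ≤ x) (i j : K → V) (e : K) (σ : V → ℤˣ) : 0 ≤ pe x i j e σ := by
  unfold pe; split_ifs <;> linarith

theorem pe_ferro {x : ℝ} (hx0 : 0 ≤ x) (hx1 : x ≤ 1) (i j : K → V) (e : K) : Ferro (pe x i j e) := by
  by_cases hij : i e = j e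
  · exact Ferro.one.congr fun σ => by unfold pe; rw [hij, if_pos rfl]
  · refine (Ferro.affine (a := (1 + x) / 2) (b := (1 - x) / 2) (by linarith) (by linarith)
      {i e, j e}).congr fun σ => ?_
    have : chi {i e, j e} σ = ((σ (i e) : ℤ) : ℝ) * ((σ (j e) : ℤ) : ℝ) := by
      simp [chi, Finset.prod_pair hij]
    rw [this]
    unfold pe
    rcases Int.units_eq_one_or (σ (i e)) with h1 | h1 <;>
      rcases Int.units_eq_one_or (σ (j e)) with h2 | h2 <;> simp [h1, h2] <;> ring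

theorem ph_hh {x : ℝ} (i j : K → V) (k : V → ℕ) (σ : V → ℤˣ) (e : K) :
    ph x (hh k σ (i e)) (hh k σ (j e)) = ph x (k (i e)) (k (j e)) *
      (if k (i e) = 0 ∧ k (j e) = 0 then pe x i j e σ else
        (if σ (i e) = σ (j e) then 1 else 0)) := by
  have hne : ((-1 : ℤˣ) = 1) = False := by simp
  have hne' : ((1 : ℤˣ) = -1) = False := by simp
  unfold hh pe
  rcases Int.units_eq_one_or (σ (i e)) with h1 | h1 <;>
    rcases Int.units_eq_one_or (σ (j e)) with h2 | h2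
  · rw [h1, h2]
    simp only [if_true]
    rw [ph_shift]
    simp
  · rw [h1, h2]
    simp only [if_true, hne, hne', if_false]
    unfold ph
    by_cases h : k (i e) = 0 ∧ k (j e) = 0
    · rw [if_pos h, h.1, h.2]; simp
    · rw [if_neg h, mul_zero, if_neg]
      intro h3
      apply h
      have : (k (i e) : ℤ) + 1 - -(k (j e) : ℤ) ≤ 1 := (le_abs_self _).trans h3
      omega
  · rw [h1, h2]
    simp only [if_true, hne, hne', if_false]
    unfold ph
    by_cases h : k (i e) = 0 ∧ k (j e) = 0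
    · rw [if_pos h, h.1, h.2]; simp
    · rw [if_neg h, mul_zero, if_neg]
      intro h3
      apply h
      have : -(-(k (i e) : ℤ) - ((k (j e) : ℤ) + 1)) ≤ 1 := (neg_le_abs _).trans h3
      omega
  · rw [h1, h2]
    simp only [if_true, hne, hne', if_false]
    rw [ph_neg]
    simp

/-- edges carrying a sign constraint -/
def Tk (i j : K → V) (E : Finset K) (k : V → ℕ) : Finset K :=
  E.filter fun e => ¬ (k (i e) = 0 ∧ k (j e) = 0)

/-- sign weight -/
def G (x : ℝ) (i j : K → V) (E T : Finset K) (σ : V → ℤˣ) : ℝ :=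
  (∏ e ∈ E, pe x i j e σ) * ic i j T σ

/-- absolute value weight -/
def wk (x : ℝ) (i j : K → V) (E : Finset K) (k : V → ℕ) : ℝ :=
  ∏ e ∈ E, ph x (k (i e)) (k (j e))

theorem prod_ph {x : ℝ} (i j : K → V) (E : Finset K) (k : V → ℕ) (σ : V → ℤˣ) :
    ∏ e ∈ E, ph x (hh k σ (i e)) (hh k σ (j e)) = wk x i j E k * G x i j E (Tk i j E k) σ := by
  unfold wk G ic Tk
  rw [Finset.prod_filter, ← Finset.prod_mul_distrib, ← Finset.prod_mul_distrib]
  refine Finset.prod_congr rfl fun e _ => ?_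
  rw [ph_hh]
  by_cases h : k (i e) = 0 ∧ k (j e) = 0
  · rw [if_pos h, if_neg (not_not.2 h), mul_one]
  · rw [if_neg h, if_pos h]
    unfold pe
    split_ifs <;> ring

theorem G_nonneg {x : ℝ} (hx0 : 0 ≤ x) (i j : K → V) (E T : Finset K) (σ : V → ℤˣ) :
    0 ≤ G x i j E T σ :=
  mul_nonneg (Finset.prod_nonneg fun e _ => pe_nonneg hx0 i j e σ) (ic_nonneg i j T σ)

theorem G_ferro {x : ℝ} (hx0 : 0 ≤ x) (hx1 : x ≤ 1) (i j : K → V) (E T : Finset K) :
    Ferro (G x i j E T) :=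
  (Ferro.prod E fun e _ => pe_ferro hx0 hx1 i j e).mul (ic_ferro i j T)

/-- sign partition function -/
def Zs (x : ℝ) (i j : K → V) (E T : Finset K) : ℝ := ∑ σ : V → ℤˣ, G x i j E T σ

theorem Zs_pos {x : ℝ} (hx0 : 0 ≤ x) (i j : K → V) (E T : Finset K) : 0 < Zs x i j E T := by
  refine Finset.sum_pos' (fun σ _ => G_nonneg hx0 i j E T σ) ⟨1, Finset.mem_univ _, ?_⟩
  have h1 : ∏ e ∈ E, pe x i j e 1 = 1 := Finset.prod_eq_one fun e _ => by unfold pe; simp
  have h2 : ic i j T 1 = 1 := by rw [ic_eq, if_pos]; intro k _; rfl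
  unfold G
  rw [h1, h2]
  norm_num


/-- average over the signs -/
def av (x : ℝ) (i j : K → V) (E T : Finset K) (f : (V → ℤˣ) → ℝ) : ℝ :=
  (∑ σ : V → ℤˣ, G x i j E T σ * f σ) / Zs x i j E T

theorem Zs_mul_av {x : ℝ} (hx0 : 0 ≤ x) (i j : K → V) (E T : Finset K) (f : (V → ℤˣ) → ℝ) :
    Zs x i j E T * av x i j E T f = ∑ σ : V → ℤˣ, G x i j E T σ * f σ := by
  unfold av
  field_simp [(Zs_pos hx0 i j E T).ne']

theorem av_nonneg {x : ℝ} (hx0 : 0 ≤ x) (hx1 : x ≤ 1) (i j : K → V) (E T : Finset K)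
    {f : (V → ℤˣ) → ℝ} (hf : Pos f) : 0 ≤ av x i j E T f :=
  div_nonneg ((G_ferro hx0 hx1 i j E T).pos.mul hf).sum_nonneg (Zs_pos hx0 i j E T).le

theorem av_sub (x : ℝ) (i j : K → V) (E T : Finset K) (f g : (V → ℤˣ) → ℝ) :
    av x i j E T (fun σ => f σ - g σ) = av x i j E T f - av x i j E T g := by
  unfold av
  rw [← sub_div, ← Finset.sum_sub_distrib]
  congr 1
  exact Finset.sum_congr rfl fun σ _ => by ring

theorem ic_sdiff (i j : K → V) {T T' : Finset K} (h : T ⊆ T') (σ : V → ℤˣ) :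
    ic i j T σ * ic i j (T' \ T) σ = ic i j T' σ := by
  have := ic_inter_sdiff i j T' T σ
  rwa [Finset.inter_eq_right.mpr h] at this

theorem prod_sdiff' {f : K → ℝ} {E E' : Finset K} (h : E ⊆ E') :
    (∏ e ∈ E, f e) * ∏ e ∈ E' \ E, f e = ∏ e ∈ E', f e := by
  rw [mul_comm]; exact Finset.prod_sdiff h

/-- **Griffiths**: averages of `Pos` functions increase with edges and constraints. -/
theorem av_mono {x : ℝ} (hx0 : 0 ≤ x) (hx1 : x ≤ 1) (i j : K → V) {E E' T T' : Finset K}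
    (hE : E ⊆ E') (hT : T ⊆ T') {f : (V → ℤˣ) → ℝ} (hf : Pos f) :
    av x i j E T f ≤ av x i j E' T' f := by
  unfold av
  rw [div_le_div_iff₀ (Zs_pos hx0 i j E T) (Zs_pos hx0 i j E' T')]
  have hg : Pos (fun σ => (∏ e ∈ E' \ E, pe x i j e σ) * ic i j (T' \ T) σ) :=
    (Pos.prod _ fun e _ => (pe_ferro hx0 hx1 i j e).pos).mul (ic_ferro i j _).pos
  have key := gks2 (G_ferro hx0 hx1 i j E T) hf hg
  have e1 : ∀ σ, G x i j E T σ * ((∏ e ∈ E' \ E, pe x i j e σ) * ic i j (T' \ T) σ) =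
      G x i j E' T' σ := fun σ => by
    unfold G
    rw [← ic_sdiff i j hT, ← prod_sdiff' hE]
    ring
  have e2 : ∑ σ, G x i j E T σ * ((∏ e ∈ E' \ E, pe x i j e σ) * ic i j (T' \ T) σ) =
      Zs x i j E' T' := Finset.sum_congr rfl fun σ _ => e1 σ
  have e3 : ∑ σ, G x i j E T σ * (f σ * ((∏ e ∈ E' \ E, pe x i j e σ) * ic i j (T' \ T) σ)) =
      ∑ σ, G x i j E' T' σ * f σ :=
    Finset.sum_congr rfl fun σ _ => by rw [← e1 σ]; ring
  rw [e2, e3] at key
  calc _ ≤ _ := key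
    _ = _ := by unfold Zs; ring

/-- **The partition function inequality for domination.** -/
theorem Zs_dom {x : ℝ} (hx0 : 0 ≤ x) (hx1 : x ≤ 1) (i j : K → V) {E E' T T' Ti : Finset K}
    (hE : E ⊆ E') (h1 : Ti ⊆ T) (h2 : Ti ⊆ T') :
    Zs x i j E T * Zs x i j E' T' ≤ Zs x i j E Ti * Zs x i j E' (T ∪ T') := by
  have hf : Pos (fun σ => ic i j (T \ Ti) σ) := (ic_ferro i j _).pos
  have hg : Pos (fun σ => (∏ e ∈ E' \ E, pe x i j e σ) * ic i j (T' \ Ti) σ) :=
    (Pos.prod _ fun e _ => (pe_ferro hx0 hx1 i j e).pos).mul (ic_ferro i j _).pos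
  have key := gks2 (G_ferro hx0 hx1 i j E Ti) hf hg
  have e1 : ∀ σ, G x i j E Ti σ * ic i j (T \ Ti) σ = G x i j E T σ := fun σ => by
    unfold G
    rw [← ic_sdiff i j h1]; ring
  have e2 : ∀ σ, G x i j E Ti σ * ((∏ e ∈ E' \ E, pe x i j e σ) * ic i j (T' \ Ti) σ) =
      G x i j E' T' σ := fun σ => by
    unfold G
    rw [← ic_sdiff i j h2, ← prod_sdiff' hE]; ring
  have e3 : ∀ σ, G x i j E Ti σ * (ic i j (T \ Ti) σ *
      ((∏ e ∈ E' \ E, pe x i j e σ) * ic i j (T' \ Ti) σ)) = G x i j E' (T ∪ T') σ := fun σ => by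
    unfold G
    rw [← prod_sdiff' hE]
    have : ic i j Ti σ * (ic i j (T \ Ti) σ * ic i j (T' \ Ti) σ) = ic i j (T ∪ T') σ := by
      rw [ic_eq, ic_eq, ic_eq, ic_eq]
      by_cases hA : ∀ k ∈ T ∪ T', σ (i k) = σ (j k)
      · rw [if_pos hA, if_pos fun k hk => hA k (Finset.mem_union_left _ (h1 hk)),
          if_pos fun k hk => hA k (Finset.mem_union_left _ (Finset.mem_sdiff.1 hk).1),
          if_pos fun k hk => hA k (Finset.mem_union_right _ (Finset.mem_sdiff.1 hk).1)]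
        norm_num
      · rw [if_neg hA]
        push Not at hA
        obtain ⟨k, hk, hne⟩ := hA
        by_cases hki : k ∈ Ti
        · rw [if_neg fun h => hne (h k hki), zero_mul]
        · rcases Finset.mem_union.1 hk with hk | hk
          · have : ¬ ∀ k ∈ T \ Ti, σ (i k) = σ (j k) :=
              fun h => hne (h k (Finset.mem_sdiff.2 ⟨hk, hki⟩))
            rw [if_neg this]; ring
          · have : ¬ ∀ k ∈ T' \ Ti, σ (i k) = σ (j k) :=
              fun h => hne (h k (Finset.mem_sdiff.2 ⟨hk, hki⟩))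
            rw [if_neg this]; ring
    rw [← this]; ring
  have k1 : ∑ σ, G x i j E Ti σ * ic i j (T \ Ti) σ = Zs x i j E T :=
    Finset.sum_congr rfl fun σ _ => e1 σ
  have k2 : ∑ σ, G x i j E Ti σ * ((∏ e ∈ E' \ E, pe x i j e σ) * ic i j (T' \ Ti) σ) =
      Zs x i j E' T' := Finset.sum_congr rfl fun σ _ => e2 σ
  have k3 : ∑ σ, G x i j E Ti σ * (ic i j (T \ Ti) σ *
      ((∏ e ∈ E' \ E, pe x i j e σ) * ic i j (T' \ Ti) σ)) = Zs x i j E' (T ∪ T') :=
    Finset.sum_congr rfl fun σ _ => e3 σ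
  rw [k1, k2, k3] at key
  exact key

open Classical in
/-- the law (unnormalised) of the absolute values -/
def R (x : ℝ) (i j : K → V) (I : Finset V) (E : Finset K) (k : V → ℕ) : ℝ :=
  (if ∀ v, v ∉ I → k v = 0 then 1 else 0) * wk x i j E k * Zs x i j E (Tk i j E k)

theorem wk_nonneg {x : ℝ} (hx0 : 0 ≤ x) (i j : K → V) (E : Finset K) (k : V → ℕ) :
    0 ≤ wk x i j E k := Finset.prod_nonneg fun e _ => ph_nonneg hx0 _ _

theorem R_nonneg {x : ℝ} (hx0 : 0 ≤ x) (i j : K → V) (I : Finset V) (E : Finset K) (k : V → ℕ) :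
    0 ≤ R x i j I E k := by
  unfold R
  refine mul_nonneg (mul_nonneg ?_ (wk_nonneg hx0 i j E k)) (Zs_pos hx0 i j E _).le
  split_ifs <;> norm_num

theorem ph_lsm {x : ℝ} (hx0 : 0 ≤ x) (hx1 : x ≤ 1) (a b c d : ℕ) :
    ph x a b * ph x c d ≤ ph x ((min a c : ℕ) : ℤ) ((min b d : ℕ) : ℤ) *
      ph x ((max a c : ℕ) : ℤ) ((max b d : ℕ) : ℤ) := by
  have := (lsm_pair hx0 hx1).2 ((a : ℤ), (b : ℤ)) ((c : ℤ), (d : ℤ))
  simpa [Nat.cast_min, Nat.cast_max] using this

/-- **Domination**: the absolute values increase with the domain. -/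
theorem dom_R {x : ℝ} (hx0 : 0 ≤ x) (hx1 : x ≤ 1) (i j : K → V) {I I' : Finset V}
    {E E' : Finset K} (hI : I ⊆ I') (hE : E ⊆ E')
    (hIE : ∀ e ∈ E', e ∉ E → i e ∉ I ∧ j e ∉ I) : Dom (R x i j I E) (R x i j I' E') := by
  refine ⟨R_nonneg hx0 i j I E, R_nonneg hx0 i j I' E', fun k k' => ?_⟩
  have hR := mul_nonneg (R_nonneg hx0 i j I E (k ⊓ k')) (R_nonneg hx0 i j I' E' (k ⊔ k'))
  by_cases hk : ∀ v, v ∉ I → k v = 0
  swap
  · have : R x i j I E k = 0 := by unfold R; rw [if_neg hk]; ring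
    rw [this, zero_mul]; exact hR
  by_cases hk' : ∀ v, v ∉ I' → k' v = 0
  swap
  · have : R x i j I' E' k' = 0 := by unfold R; rw [if_neg hk']; ring
    rw [this, mul_zero]; exact hR
  have h1 : ∀ v, v ∉ I → (k ⊓ k') v = 0 := fun v hv => by
    simp [Pi.inf_apply, hk v hv]
  have h2 : ∀ v, v ∉ I' → (k ⊔ k') v = 0 := fun v hv => by
    simp [Pi.sup_apply, hk v (fun h => hv (hI h)), hk' v hv]
  unfold R
  rw [if_pos hk, if_pos hk', if_pos h1, if_pos h2, one_mul, one_mul, one_mul, one_mul]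
  have hw : wk x i j E k * wk x i j E' k' ≤ wk x i j E (k ⊓ k') * wk x i j E' (k ⊔ k') := by
    unfold wk
    rw [← prod_sdiff' (f := fun e => ph x (k' (i e)) (k' (j e))) hE,
      ← prod_sdiff' (f := fun e => ph x ((k ⊔ k') (i e) : ℕ) ((k ⊔ k') (j e) : ℕ)) hE,
      ← mul_assoc, ← mul_assoc, ← Finset.prod_mul_distrib, ← Finset.prod_mul_distrib]
    refine mul_le_mul ?_ (le_of_eq ?_) (Finset.prod_nonneg fun e _ => ph_nonneg hx0 _ _)
      (Finset.prod_nonneg fun e _ => mul_nonneg (ph_nonneg hx0 _ _) (ph_nonneg hx0 _ _))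
    · refine Finset.prod_le_prod (fun e _ => mul_nonneg (ph_nonneg hx0 _ _) (ph_nonneg hx0 _ _))
        fun e _ => ?_
      exact ph_lsm hx0 hx1 _ _ _ _
    · refine Finset.prod_congr rfl fun e he => ?_
      obtain ⟨he1, he2⟩ := Finset.mem_sdiff.1 he
      obtain ⟨h3, h4⟩ := hIE e he1 he2
      simp [Pi.sup_apply, hk _ h3, hk _ h4]
  have hT : Tk i j E k ∪ Tk i j E' k' = Tk i j E' (k ⊔ k') := by
    unfold Tk
    ext e
    simp only [Finset.mem_union, Finset.mem_filter, Pi.sup_apply]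
    by_cases heE : e ∈ E
    · have := hE heE
      simp only [heE, this, true_and]
      omega
    · by_cases heE' : e ∈ E'
      · obtain ⟨h3, h4⟩ := hIE e heE' heE
        simp [heE, heE', hk _ h3, hk _ h4]
      · simp [heE, heE']
  have hz := Zs_dom hx0 hx1 i j hE (T := Tk i j E k) (T' := Tk i j E' k')
    (Ti := Tk i j E (k ⊓ k'))
    (by
      intro e he
      unfold Tk at he ⊢
      rw [Finset.mem_filter] at he ⊢
      refine ⟨he.1, fun h => he.2 ?_⟩
      simp [Pi.inf_apply, h.1, h.2])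
    (by
      intro e he
      unfold Tk at he ⊢
      rw [Finset.mem_filter] at he ⊢
      refine ⟨hE he.1, fun h => he.2 ?_⟩
      simp [Pi.inf_apply, h.1, h.2])
  rw [hT] at hz
  calc wk x i j E k * Zs x i j E (Tk i j E k) * (wk x i j E' k' * Zs x i j E' (Tk i j E' k'))
      = (wk x i j E k * wk x i j E' k') *
        (Zs x i j E (Tk i j E k) * Zs x i j E' (Tk i j E' k')) := by ring
    _ ≤ (wk x i j E (k ⊓ k') * wk x i j E' (k ⊔ k')) *
        (Zs x i j E (Tk i j E (k ⊓ k')) * Zs x i j E' (Tk i j E' (k ⊔ k'))) :=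
        mul_le_mul hw hz (mul_nonneg (Zs_pos hx0 i j E _).le (Zs_pos hx0 i j E' _).le)
          (mul_nonneg (wk_nonneg hx0 i j E _) (wk_nonneg hx0 i j E' _))
    _ = _ := by ring

/-! ### increasing positive functions -/

/-- nonnegative combinations of characters with coefficients increasing in the absolute values -/
structure MPos (Φ : (V → ℕ) → (V → ℤˣ) → ℝ) : Prop where
  pos : ∀ k, Pos (Φ k)
  mono : ∀ k k', k ≤ k' → Pos (fun σ => Φ k' σ - Φ k σ)

theorem MPos.const {r : ℝ} (hr : 0 ≤ r) : MPos (fun (_ : V → ℕ) (_ : V → ℤˣ) => r) :=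
  ⟨fun _ => Pos.const hr, fun _ _ _ => Pos.zero.congr fun _ => sub_self _⟩

theorem MPos.zero : MPos (fun (_ : V → ℕ) (_ : V → ℤˣ) => (0 : ℝ)) := MPos.const le_rfl

theorem MPos.congr {Φ Ψ : (V → ℕ) → (V → ℤˣ) → ℝ} (h : MPos Φ) (e : ∀ k σ, Ψ k σ = Φ k σ) :
    MPos Ψ :=
  ⟨fun k => (h.pos k).congr (e k), fun k k' hk => (h.mono k k' hk).congr fun σ => by rw [e, e]⟩

theorem MPos.add {Φ Ψ : (V → ℕ) → (V → ℤˣ) → ℝ} (h : MPos Φ) (h' : MPos Ψ) :
    MPos (fun k σ => Φ k σ + Ψ k σ) :=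
  ⟨fun k => (h.pos k).add (h'.pos k), fun k k' hk =>
    ((h.mono k k' hk).add (h'.mono k k' hk)).congr fun σ => by ring⟩

theorem MPos.smul {Φ : (V → ℕ) → (V → ℤˣ) → ℝ} (h : MPos Φ) {r : ℝ} (hr : 0 ≤ r) :
    MPos (fun k σ => r * Φ k σ) :=
  ⟨fun k => (h.pos k).smul hr, fun k k' hk => ((h.mono k k' hk).smul hr).congr fun σ => by ring⟩

theorem MPos.mul {Φ Ψ : (V → ℕ) → (V → ℤˣ) → ℝ} (h : MPos Φ) (h' : MPos Ψ) :
    MPos (fun k σ => Φ k σ * Ψ k σ) :=
  ⟨fun k => (h.pos k).mul (h'.pos k), fun k k' hk =>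
    (((h.mono k k' hk).mul (h'.pos k')).add ((h.pos k).mul (h'.mono k k' hk))).congr
      fun σ => by ring⟩

theorem MPos.pow {Φ : (V → ℕ) → (V → ℤˣ) → ℝ} (h : MPos Φ) (n : ℕ) :
    MPos (fun k σ => Φ k σ ^ n) := by
  induction n with
  | zero => exact (MPos.const zero_le_one).congr fun k σ => pow_zero _
  | succ n ih => exact (ih.mul h).congr fun k σ => pow_succ _ _

theorem MPos.sum {κ : Type*} (s : Finset κ) {Φ : κ → (V → ℕ) → (V → ℤˣ) → ℝ}
    (h : ∀ a ∈ s, MPos (Φ a)) : MPos (fun k σ => ∑ a ∈ s, Φ a k σ) := by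
  classical
  induction s using Finset.induction_on with
  | empty => exact MPos.zero.congr fun k σ => by simp
  | insert a s ha ih =>
    refine ((h a (Finset.mem_insert_self a s)).add
      (ih fun b hb => h b (Finset.mem_insert_of_mem hb))).congr fun k σ => ?_
    rw [Finset.sum_insert ha]

theorem MPos.prod {κ : Type*} (s : Finset κ) {Φ : κ → (V → ℕ) → (V → ℤˣ) → ℝ}
    (h : ∀ a ∈ s, MPos (Φ a)) : MPos (fun k σ => ∏ a ∈ s, Φ a k σ) := by
  classical
  induction s using Finset.induction_on with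
  | empty => exact (MPos.const zero_le_one).congr fun k σ => by simp
  | insert a s ha ih =>
    refine ((h a (Finset.mem_insert_self a s)).mul
      (ih fun b hb => h b (Finset.mem_insert_of_mem hb))).congr fun k σ => ?_
    rw [Finset.prod_insert ha]

/-- the centred height is `MPos` -/
theorem MPos.height (v : V) : MPos (fun (k : V → ℕ) (σ : V → ℤˣ) => ((hh k σ v : ℤ) : ℝ) - 1 / 2) := by
  refine ⟨fun k => ((Pos.spin v).smul (r := (k v : ℝ) + 1 / 2) (by positivity)).congr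
    fun σ => by rw [hh_sub]; ring, fun k k' hk => ?_⟩
  have h1 : (0 : ℝ) ≤ (k' v : ℝ) - (k v : ℝ) := by
    have : (k v : ℝ) ≤ (k' v : ℝ) := by exact_mod_cast hk v
    linarith
  refine ((Pos.spin v).smul h1).congr fun σ => ?_
  rw [hh_sub, hh_sub]; ring


theorem av_MPos_mono {x : ℝ} (hx0 : 0 ≤ x) (hx1 : x ≤ 1) (i j : K → V) (E : Finset K)
    {Φ : (V → ℕ) → (V → ℤˣ) → ℝ} (hΦ : MPos Φ) {k k' : V → ℕ} (hk : k ≤ k') :
    av x i j E (Tk i j E k) (Φ k) ≤ av x i j E (Tk i j E k') (Φ k') := by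
  have hT : Tk i j E k ⊆ Tk i j E k' := by
    intro e he
    unfold Tk at he ⊢
    rw [Finset.mem_filter] at he ⊢
    refine ⟨he.1, fun h => he.2 ?_⟩
    have h1 := hk (i e)
    have h2 := hk (j e)
    rw [h.1] at h1
    rw [h.2] at h2
    exact ⟨Nat.le_zero.1 h1, Nat.le_zero.1 h2⟩
  have h1 := av_mono hx0 hx1 i j (E := E) (E' := E) (Finset.Subset.refl E) hT (hΦ.pos k)
  have h2 := av_nonneg hx0 hx1 i j E (Tk i j E k') (hΦ.mono k k' hk)
  rw [av_sub] at h2
  linarith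

/-- the box of absolute values `≤ M` -/
def box (M : ℕ) : Finset (V → ℕ) := Fintype.piFinset fun _ => Finset.range (M + 1)

theorem mem_box {M : ℕ} {k : V → ℕ} : k ∈ box (V := V) M ↔ ∀ v, k v ≤ M := by
  unfold box
  rw [Fintype.mem_piFinset]
  exact forall_congr' fun v => by rw [Finset.mem_range, Nat.lt_succ_iff]

open Classical in
/-- unnormalised expectation over the box -/
def SS (x : ℝ) (i j : K → V) (I : Finset V) (E : Finset K) (M : ℕ)
    (Φ : (V → ℕ) → (V → ℤˣ) → ℝ) : ℝ :=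
  ∑ k ∈ box (V := V) M, ∑ σ : V → ℤˣ, (if ∀ v, v ∉ I → k v = 0 then 1 else 0) *
    (∏ e ∈ E, ph x (hh k σ (i e)) (hh k σ (j e))) * Φ k σ

theorem SS_eq {x : ℝ} (hx0 : 0 ≤ x) (i j : K → V) (I : Finset V) (E : Finset K) (M : ℕ)
    (Φ : (V → ℕ) → (V → ℤˣ) → ℝ) :
    SS x i j I E M Φ =
      ∑ k ∈ box (V := V) M, R x i j I E k * av x i j E (Tk i j E k) (Φ k) := by
  unfold SS
  refine Finset.sum_congr rfl fun k _ => ?_
  unfold R
  rw [mul_assoc _ (Zs x i j E _) (av x i j E _ _), Zs_mul_av hx0, Finset.mul_sum]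
  refine Finset.sum_congr rfl fun σ _ => ?_
  rw [prod_ph]
  ring

theorem SS_one {x : ℝ} (hx0 : 0 ≤ x) (i j : K → V) (I : Finset V) (E : Finset K) (M : ℕ) :
    SS x i j I E M (fun _ _ => 1) = ∑ k ∈ box (V := V) M, R x i j I E k := by
  rw [SS_eq hx0]
  refine Finset.sum_congr rfl fun k _ => ?_
  have : av x i j E (Tk i j E k) (fun _ => (1 : ℝ)) = 1 := by
    unfold av
    rw [div_eq_one_iff_eq (Zs_pos hx0 i j E _).ne']
    unfold Zs
    exact Finset.sum_congr rfl fun σ _ => mul_one _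
  rw [this, mul_one]

theorem box_inf_sup {M : ℕ} {a b : V → ℕ} (ha : a ∈ box (V := V) M) (hb : b ∈ box (V := V) M) :
    a ⊓ b ∈ box (V := V) M ∧ a ⊔ b ∈ box (V := V) M := by
  rw [mem_box] at ha hb
  rw [mem_box, mem_box]
  refine ⟨fun v => ?_, fun v => ?_⟩
  · rw [Pi.inf_apply]; exact inf_le_of_left_le (ha v)
  · rw [Pi.sup_apply]; exact sup_le (ha v) (hb v)

/-- **Expectations of `MPos` functions are nonnegative.** -/
theorem SS_nonneg {x : ℝ} (hx0 : 0 ≤ x) (hx1 : x ≤ 1) (i j : K → V) (I : Finset V) (E : Finset K)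
    (M : ℕ) {Φ : (V → ℕ) → (V → ℤˣ) → ℝ} (hΦ : MPos Φ) : 0 ≤ SS x i j I E M Φ := by
  rw [SS_eq hx0]
  exact Finset.sum_nonneg fun k _ => mul_nonneg (R_nonneg hx0 i j I E k)
    (av_nonneg hx0 hx1 i j E _ (hΦ.pos k))

/-- **Expectations of `MPos` functions increase with the domain.** -/
theorem SS_mono {x : ℝ} (hx0 : 0 ≤ x) (hx1 : x ≤ 1) (i j : K → V) {I I' : Finset V}
    {E E' : Finset K} (hI : I ⊆ I') (hE : E ⊆ E')
    (hIE : ∀ e ∈ E', e ∉ E → i e ∉ I ∧ j e ∉ I) (M : ℕ)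
    {Φ : (V → ℕ) → (V → ℤˣ) → ℝ} (hΦ : MPos Φ) :
    SS x i j I E M Φ * SS x i j I' E' M (fun _ _ => 1) ≤
      SS x i j I E M (fun _ _ => 1) * SS x i j I' E' M Φ := by
  have h1 := (dom_R hx0 hx1 i j hI hE hIE).expect_le (box (V := V) M)
    (fun a ha b hb => box_inf_sup ha hb)
    (f := fun k => av x i j E' (Tk i j E' k) (Φ k))
    (fun a _ b _ hab => av_MPos_mono hx0 hx1 i j E' hΦ hab)
  rw [SS_one hx0, SS_one hx0, SS_eq hx0 i j I' E', SS_eq hx0 i j I E]
  refine le_trans (mul_le_mul_of_nonneg_right (Finset.sum_le_sum fun k _ => ?_)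
    (Finset.sum_nonneg fun k _ => R_nonneg hx0 i j I' E' k)) h1
  refine mul_le_mul_of_nonneg_left (av_mono hx0 hx1 i j hE ?_ (hΦ.pos k)) (R_nonneg hx0 i j I E k)
  intro e he
  unfold Tk at he ⊢
  rw [Finset.mem_filter] at he ⊢
  exact ⟨hE he.1, he.2⟩


end gen

end Crest.Agent.R144.Hf702
end
end

-- ▼ part R144/Hf2_702

/-!
# R144, block HALF (helper702), part 2: the F-type model around the centre `1/2`

`EH x F f` = expectation of `f h` under the height marginal of the F-type law `E c F`, `c = x⁻²`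
(`E_eq_EH`).  `Inc S Φ` = `Φ` depends on the heights in `S` and is an increasing positive function of
`h - 1/2` (closed under sums, products, nonnegative multiples; contains `h v - 1/2`, `v ∈ S`).

* `EH_mono`  : `F ⊆ F'`, `Inc (VF F) Φ` ⟹ `EH x F Φ ≤ EH x F' Φ`;
* `EH_nonneg`, `EH_gks`;
* the same with an arbitrary set `I ⊆ IV F` of free sites (values `{0, 1}` off `I`): `EI x F I`,
  `EI_mono`, `EI_nonneg`, `EI_gks`, `EI_self : EI x F (IV F) = EH x F`.
-/

set_option autoImplicit false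
set_option linter.unusedSectionVars false
set_option linter.unusedVariables false

noncomputable section

namespace Crest.Agent.R144.Hf702

open Finset
open Crest.Agent.R161.Gks375 Crest.Agent.R161.Abs375
open Crest.Agent.R144.It844 (P2 ph ph_nonneg Lip Cst tw E3 E3_eq_tw)
open Crest.Agent.R144.Zg349 Crest.Agent.R144.Zd349 Crest.Agent.R144.Zm349

/-! ### the height marginal -/

/-- unnormalised expectation of a function of the heights -/
def SH (x : ℝ) (F : Finset P2) (f : (P2 → ℤ) → ℝ) : ℝ :=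
  ∑ h ∈ hts F, (∏ t ∈ F, tw x h t) * f h

/-- expectation of a function of the heights in the F-type model -/
def EH (x : ℝ) (F : Finset P2) (f : (P2 → ℤ) → ℝ) : ℝ := SH x F f / SH x F fun _ => 1

theorem tw_nonneg (x : ℝ) (h : P2 → ℤ) (t : P2) : 0 ≤ tw x h t := by
  unfold tw; split_ifs
  · norm_num
  · positivity

theorem flat_mem (F : Finset P2) : (fun _ : P2 => (0 : ℤ)) ∈ hts F :=
  mem_hts.2 ⟨fun _ _ _ _ => by simp, fun _ _ => Or.inl rfl, fun _ _ => rfl⟩

theorem SH_one_pos (x : ℝ) (F : Finset P2) : 0 < SH x F fun _ => 1 := by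
  unfold SH
  refine Finset.sum_pos' (fun h _ => by
    rw [mul_one]; exact Finset.prod_nonneg fun t _ => tw_nonneg x h t) ⟨_, flat_mem F, ?_⟩
  have : ∏ t ∈ F, tw x (fun _ : P2 => (0 : ℤ)) t = 1 :=
    Finset.prod_eq_one fun t _ => by
      unfold tw; rw [if_pos ⟨rfl, rfl⟩]
  rw [this]; norm_num

theorem EH_const (x : ℝ) (F : Finset P2) (a : ℝ) : EH x F (fun _ => a) = a := by
  unfold EH
  have : SH x F (fun _ => a) = a * SH x F (fun _ => 1) := by
    unfold SH
    rw [Finset.mul_sum]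
    exact Finset.sum_congr rfl fun h _ => by ring
  rw [this, mul_div_assoc, div_self (SH_one_pos x F).ne', mul_one]

theorem EH_add (x : ℝ) (F : Finset P2) (f g : (P2 → ℤ) → ℝ) :
    EH x F (fun h => f h + g h) = EH x F f + EH x F g := by
  unfold EH SH
  rw [← add_div, ← Finset.sum_add_distrib]
  congr 1
  exact Finset.sum_congr rfl fun h _ => by ring


theorem EH_smul (x : ℝ) (F : Finset P2) (a : ℝ) (f : (P2 → ℤ) → ℝ) :
    EH x F (fun h => a * f h) = a * EH x F f := by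
  unfold EH SH
  rw [mul_div_assoc', Finset.mul_sum]
  congr 1
  exact Finset.sum_congr rfl fun h _ => by ring


theorem EH_congr {x : ℝ} {F : Finset P2} {f g : (P2 → ℤ) → ℝ} (h : ∀ a, HV F a → f a = g a) :
    EH x F f = EH x F g := by
  unfold EH SH
  congr 1
  exact Finset.sum_congr rfl fun a ha => by rw [h a (mem_hts.1 ha)]

theorem EH_le {x : ℝ} {F : Finset P2} {f g : (P2 → ℤ) → ℝ} (h : ∀ a, HV F a → f a ≤ g a) :
    EH x F f ≤ EH x F g := by
  unfold EH SH
  refine div_le_div_of_nonneg_right ?_ (SH_one_pos x F).le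
  exact Finset.sum_le_sum fun a ha => mul_le_mul_of_nonneg_left (h a (mem_hts.1 ha))
    (Finset.prod_nonneg fun t _ => tw_nonneg x a t)

theorem EH_nonneg_of {x : ℝ} {F : Finset P2} {f : (P2 → ℤ) → ℝ} (h : ∀ a, HV F a → 0 ≤ f a) :
    0 ≤ EH x F f := by
  have := EH_le (x := x) h
  rwa [EH_const] at this

/-- summing out the closed indicators -/
theorem sum_zs_wt (c : ℝ) {F : Finset P2} {h : P2 → ℤ} (hh : HV F h) :
    ∑ z ∈ zs F, wt c F (h, z) = ∏ t ∈ F, if Cst h t then c else 1 := by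
  rw [sum_zs]
  have h1 : ∀ t ∈ F, (if Cst h t then c else (1 : ℝ)) = (if C1 h t then (1 : ℝ) else 0) +
      (if C2 h t then (if C1 h t then c - 1 else 1) else 0) := by
    intro t ht
    have k1 := cst_iff (hh.lip t ht)
    have k2 := c1_or_c2 (hh.lip t ht)
    by_cases a : C1 h t
    · by_cases b : C2 h t
      · rw [if_pos (k1.2 ⟨a, b⟩), if_pos a, if_pos b, if_pos a]; ring
      · rw [if_neg (fun e => b (k1.1 e).2), if_pos a, if_neg b]; ring
    · have b := k2.resolve_left a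
      rw [if_neg (fun e => a (k1.1 e).1), if_neg a, if_pos b, if_neg a]; ring
  rw [Finset.prod_congr rfl h1, Finset.prod_add]
  refine Finset.sum_congr rfl fun Z hZ => ?_
  rw [Finset.mem_powerset] at hZ
  unfold wt
  rw [← Finset.prod_inter_mul_prod_sdiff F Z, Finset.inter_eq_right.2 hZ]
  congr 1
  · refine Finset.prod_congr rfl fun t ht => ?_
    have : zb F Z t = true := by unfold zb; rw [decide_eq_true_eq]; exact Or.inr ht
    unfold ew
    rw [if_pos this]
  · refine Finset.prod_congr rfl fun t ht => ?_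
    obtain ⟨h1, h2⟩ := Finset.mem_sdiff.1 ht
    have : ¬ zb F Z t = true := by
      unfold zb; rw [decide_eq_true_eq]; push Not; exact ⟨h1, h2⟩
    unfold ew
    rw [if_neg this]

theorem tw_mul {x : ℝ} (hx : x ≠ 0) (h : P2 → ℤ) (t : P2) :
    (x ^ 2)⁻¹ * tw x h t = if Cst h t then (x ^ 2)⁻¹ else 1 := by
  unfold tw
  split_ifs
  · rw [mul_one]
  · field_simp

/-- **The height marginal of the F-type law** (`c = x⁻²`). -/
theorem E_eq_EH {x : ℝ} (hx : x ≠ 0) (F : Finset P2) (f : (P2 → ℤ) → ℝ) :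
    E ((x ^ 2)⁻¹) F (fun ω => f ω.1) = EH x F f := by
  rw [E_eq_div]
  have key : ∀ g : (P2 → ℤ) → ℝ, ∑ ω ∈ conf F, wt ((x ^ 2)⁻¹) F ω * g ω.1 =
      ((x ^ 2)⁻¹) ^ F.card * SH x F g := by
    intro g
    unfold conf SH
    rw [Finset.sum_product, Finset.mul_sum]
    refine Finset.sum_congr rfl fun h hh => ?_
    have h1 := sum_zs_wt ((x ^ 2)⁻¹) (mem_hts.1 hh)
    have h2 : ∑ z ∈ zs F, wt ((x ^ 2)⁻¹) F (h, z) * g h =
        (∏ t ∈ F, if Cst h t then (x ^ 2)⁻¹ else 1) * g h := by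
      rw [← Finset.sum_mul, h1]
    refine h2.trans ?_
    rw [← Finset.prod_congr rfl fun t _ => tw_mul hx h t, Finset.prod_mul_distrib,
      Finset.prod_const]
    ring
  have h1 := key f
  have h2 := key fun _ => 1
  simp only [mul_one] at h2
  unfold Z EH
  rw [h1, h2, mul_div_mul_left _ _ (pow_ne_zero _ (inv_ne_zero (pow_ne_zero 2 hx)))]

/-! ### the finite graph model -/

/-- absolute value index -/
def kof (a : ℤ) : ℕ := if 1 ≤ a then (a - 1).toNat else (-a).toNat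
/-- sign -/
def sg (a : ℤ) : ℤˣ := if 1 ≤ a then 1 else -1

theorem hh_kof_sg (a : ℤ) : (if sg a = 1 then (kof a : ℤ) + 1 else -(kof a : ℤ)) = a := by
  unfold sg kof
  by_cases h : 1 ≤ a
  · simp only [if_pos h, if_true]; omega
  · have : ((-1 : ℤˣ) = 1) = False := by simp
    simp only [if_neg h, this, if_false]; omega

theorem kof_hh (k : ℕ) (s : ℤˣ) : kof (if s = 1 then (k : ℤ) + 1 else -(k : ℤ)) = k := by
  unfold kof
  rcases Int.units_eq_one_or s with h | h
  · simp only [h, if_true]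
    rw [if_pos (by omega)]; omega
  · have : ((-1 : ℤˣ) = 1) = False := by simp
    simp only [h, this, if_false]
    rw [if_neg (by omega)]; omega

theorem sg_hh (k : ℕ) (s : ℤˣ) : sg (if s = 1 then (k : ℤ) + 1 else -(k : ℤ)) = s := by
  unfold sg
  rcases Int.units_eq_one_or s with h | h
  · simp only [h, if_true]
    rw [if_pos (by omega)]
  · have : ((-1 : ℤˣ) = 1) = False := by simp
    simp only [h, this, if_false]
    rw [if_neg (by omega)]

section W

variable (W : Finset P2)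

/-- extension by zero of the heights on `W` -/
def ext (k : ↥W → ℕ) (σ : ↥W → ℤˣ) (v : P2) : ℤ := if hv : v ∈ W then hh k σ ⟨v, hv⟩ else 0

variable {W}

theorem ext_of {k : ↥W → ℕ} {σ : ↥W → ℤˣ} {v : P2} (hv : v ∈ W) :
    ext W k σ v = hh k σ ⟨v, hv⟩ := dif_pos hv

/-- embedding of sites -/
def pt (h0 : (0 : P2) ∈ W) (v : P2) : ↥W := if hv : v ∈ W then ⟨v, hv⟩ else ⟨0, h0⟩

theorem pt_of (h0 : (0 : P2) ∈ W) {v : P2} (hv : v ∈ W) : pt h0 v = ⟨v, hv⟩ := dif_pos hv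

/-- first endpoint of the edge `(t, k)` -/
def ei (h0 : (0 : P2) ∈ W) (e : P2 × Fin 3) : ↥W := pt h0 (cr e.1 e.2)
/-- second endpoint -/
def ej (h0 : (0 : P2) ∈ W) (e : P2 × Fin 3) : ↥W := pt h0 (cr e.1 (e.2 + 1))

/-- interior sites -/
def iI (W I : Finset P2) : Finset ↥W := Finset.univ.filter fun v => (v : P2) ∈ I
/-- edges -/
def eE (F : Finset P2) : Finset (P2 × Fin 3) := F ×ˢ Finset.univ

theorem cr_mem {F : Finset P2} {t : P2} (ht : t ∈ F) (k : Fin 3) : cr t k ∈ VF F :=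
  mem_VF.2 ⟨t, ht, cr_mem_up t k⟩

theorem prod_E3 (h0 : (0 : P2) ∈ W) (x : ℝ) {F : Finset P2} (hW : VF F ⊆ W) (k : ↥W → ℕ)
    (σ : ↥W → ℤˣ) :
    ∏ e ∈ eE F, ph x (hh k σ (ei h0 e)) (hh k σ (ej h0 e)) = ∏ t ∈ F, E3 x (ext W k σ) t := by
  unfold eE
  rw [Finset.prod_product]
  refine Finset.prod_congr rfl fun t ht => ?_
  have h1 : ∀ i : Fin 3, hh k σ (pt h0 (cr t i)) = ext W k σ (cr t i) := fun i => by
    have := hW (cr_mem ht i)
    rw [pt_of h0 this, ext_of this]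
  simp only [ei, ej, h1, Fin.prod_univ_three]
  have e2 : (2 : Fin 3) + 1 = 0 := rfl
  have e1 : (1 : Fin 3) + 1 = 2 := rfl
  have e0 : (0 : Fin 3) + 1 = 1 := rfl
  rw [e0, e1, e2]
  unfold E3
  simp only [cr0, cr1, cr2]
  rw [Crest.Agent.R144.It844.ph_comm x (ext W k σ (t.1, t.2 + 1)) (ext W k σ t)]
  ring

theorem E3_ne_zero {x : ℝ} {h : P2 → ℤ} {t : P2} (hn : E3 x h t ≠ 0) (i j : Fin 3) :
    |h (cr t i) - h (cr t j)| ≤ 1 := by
  unfold E3 at hn
  have h1 : |h t - h (t.1 + 1, t.2)| ≤ 1 := by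
    by_contra hc; apply hn; unfold ph; rw [if_neg hc]; ring
  have h2 : |h t - h (t.1, t.2 + 1)| ≤ 1 := by
    by_contra hc; apply hn; unfold ph; rw [if_neg (c := |h t - h (t.1, t.2 + 1)| ≤ 1) hc]; ring
  have h3 : |h (t.1 + 1, t.2) - h (t.1, t.2 + 1)| ≤ 1 := by
    by_contra hc; apply hn; unfold ph
    rw [if_neg (c := |h (t.1 + 1, t.2) - h (t.1, t.2 + 1)| ≤ 1) hc]; ring
  fin_cases i <;> fin_cases j <;>
    simp only [Fin.zero_eta, Fin.mk_one, Fin.reduceFinMk, cr0, cr1, cr2, sub_self, abs_zero,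
      zero_le_one] <;> first | assumption | (rw [abs_sub_comm]; assumption)

theorem E3_eq_tw' (x : ℝ) {h : P2 → ℤ} {t : P2} (hl : ∀ i j, |h (cr t i) - h (cr t j)| ≤ 1) :
    E3 x h t = tw x h t := by
  have h1 := hl 0 1
  have h2 := hl 0 2
  have h3 := hl 1 2
  simp only [cr0, cr1, cr2] at h1 h2 h3
  unfold E3 ph
  rw [if_pos h1, if_pos h2, if_pos h3]
  rw [abs_le] at h1 h2 h3
  by_cases e1 : h t = h (t.1 + 1, t.2)
  · by_cases e2 : h t = h (t.1, t.2 + 1)
    · have hc : Cst h t := ⟨e1, e2⟩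
      rw [tw, if_pos hc, if_pos e1, if_pos e2, if_pos (e1 ▸ e2)]
      norm_num
    · have hc : ¬ Cst h t := fun hc => e2 hc.2
      rw [tw, if_neg hc, if_pos e1, if_neg e2, if_neg (e1 ▸ e2)]
      ring
  · by_cases e2 : h t = h (t.1, t.2 + 1)
    · have hc : ¬ Cst h t := fun hc => e1 hc.1
      rw [tw, if_neg hc, if_neg e1, if_pos e2, if_neg (fun e => e1 (e2.trans e.symm))]
      ring
    · have hc : ¬ Cst h t := fun hc => e1 hc.1
      have e3 : h (t.1 + 1, t.2) = h (t.1, t.2 + 1) := by omega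
      rw [tw, if_neg hc, if_neg e1, if_neg e2, if_pos e3]
      ring

theorem E3_congr (x : ℝ) {h g : P2 → ℤ} {t : P2} (he : ∀ i, h (cr t i) = g (cr t i)) :
    E3 x h t = E3 x g t := by
  have h1 := he 0
  have h2 := he 1
  have h3 := he 2
  simp only [cr0, cr1, cr2] at h1 h2 h3
  unfold E3
  rw [h1, h2, h3]

/-- free signs off `VF F` -/
def Rs (W F : Finset P2) : Finset (↥W → ℤˣ) :=
  Finset.univ.filter fun ρ => ∀ v : ↥W, (v : P2) ∈ VF F → ρ v = 1

theorem Rs_card_pos (W F : Finset P2) : 0 < (Rs W F).card :=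
  Finset.card_pos.2 ⟨1, by unfold Rs; simp⟩

open Classical in
/-- admissible heights with free sites `I` -/
def htsI (F I : Finset P2) : Finset (P2 → ℤ) :=
  (hts F).filter fun h => ∀ v, v ∉ I → h v = 0 ∨ h v = 1

theorem mem_htsI {F I : Finset P2} {h : P2 → ℤ} :
    h ∈ htsI F I ↔ HV F h ∧ ∀ v, v ∉ I → h v = 0 ∨ h v = 1 := by
  classical
  unfold htsI
  rw [Finset.mem_filter, mem_hts]

theorem htsI_self (F : Finset P2) : htsI F (IV F) = hts F := by
  ext h
  rw [mem_htsI, mem_hts]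
  exact ⟨fun h1 => h1.1, fun h1 => ⟨h1, h1.bd⟩⟩

/-- unnormalised expectation, free sites `I` -/
def SI (x : ℝ) (F I : Finset P2) (f : (P2 → ℤ) → ℝ) : ℝ :=
  ∑ h ∈ htsI F I, (∏ t ∈ F, tw x h t) * f h

/-- expectation, free sites `I` -/
def EI (x : ℝ) (F I : Finset P2) (f : (P2 → ℤ) → ℝ) : ℝ := SI x F I f / SI x F I fun _ => 1

theorem EI_self (x : ℝ) (F : Finset P2) (f : (P2 → ℤ) → ℝ) : EI x F (IV F) f = EH x F f := by
  unfold EI EH SI SH
  rw [htsI_self]

theorem SI_one_pos (x : ℝ) (F I : Finset P2) : 0 < SI x F I fun _ => 1 := by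
  unfold SI
  refine Finset.sum_pos' (fun h _ => by
    rw [mul_one]; exact Finset.prod_nonneg fun t _ => tw_nonneg x h t)
    ⟨_, mem_htsI.2 ⟨mem_hts.1 (flat_mem F), fun _ _ => Or.inl rfl⟩, ?_⟩
  have : ∏ t ∈ F, tw x (fun _ : P2 => (0 : ℤ)) t = 1 :=
    Finset.prod_eq_one fun t _ => by
      unfold tw; rw [if_pos ⟨rfl, rfl⟩]
  rw [this]; norm_num

open Classical in
/-- the configurations of the graph model that contribute -/
def Sc (W F I : Finset P2) (M : ℕ) : Finset ((↥W → ℕ) × (↥W → ℤˣ)) :=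
  (box (V := ↥W) M ×ˢ Finset.univ).filter fun p =>
    (∀ v : ↥W, v ∉ iI W I → p.1 v = 0) ∧ ∀ t ∈ F, ∀ i j, |ext W p.1 p.2 (cr t i) - ext W p.1 p.2 (cr t j)| ≤ 1

/-- **The graph model reproduces the F-type model.** -/
theorem SS_eq_SI (h0 : (0 : P2) ∈ W) (x : ℝ) {F I : Finset P2} (hI' : I ⊆ IV F) (hW : VF F ⊆ W) {M : ℕ}
    (hM : ∀ h ∈ hts F, ∀ v, kof (h v) ≤ M) (Φ : (P2 → ℤ) → ℝ)
    (hΦ : ∀ h h' : P2 → ℤ, (∀ v ∈ VF F, h v = h' v) → Φ h = Φ h') :
    SS x (ei h0) (ej h0) (iI W I) (eE F) M (fun k σ => Φ (ext W k σ)) =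
      (Rs W F).card * SI x F I Φ := by
  classical
  have hI : ∀ v : ↥W, v ∈ iI W I ↔ (v : P2) ∈ I := fun v => by simp [iI]
  -- step 1: restrict to the contributing configurations
  have s1 : SS x (ei h0) (ej h0) (iI W I) (eE F) M (fun k σ => Φ (ext W k σ)) =
      ∑ p ∈ Sc W F I M, (∏ t ∈ F, E3 x (ext W p.1 p.2) t) * Φ (ext W p.1 p.2) := by
    unfold SS Sc
    rw [Finset.sum_filter, Finset.sum_product]
    refine Finset.sum_congr rfl fun k _ => Finset.sum_congr rfl fun σ _ => ?_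
    rw [prod_E3 h0 x hW]
    dsimp only
    by_cases h1 : ∀ v : ↥W, v ∉ iI W I → k v = 0
    · rw [if_pos h1, one_mul]
      by_cases h2 : ∀ t ∈ F, ∀ i j, |ext W k σ (cr t i) - ext W k σ (cr t j)| ≤ 1
      · rw [if_pos ⟨h1, h2⟩]
      · rw [if_neg (fun h => h2 h.2)]
        push Not at h2
        obtain ⟨t, ht, i, j, hij⟩ := h2
        rw [Finset.prod_eq_zero ht, zero_mul]
        by_contra hne
        exact absurd (E3_ne_zero hne i j) (not_le.2 hij)
    · rw [if_neg h1, if_neg (fun h => h1 h.1)]; ring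
  rw [s1]
  -- step 2: bijection
  have s2 : ∑ p ∈ Sc W F I M, (∏ t ∈ F, E3 x (ext W p.1 p.2) t) * Φ (ext W p.1 p.2) =
      ∑ q ∈ htsI F I ×ˢ Rs W F, (∏ t ∈ F, tw x q.1 t) * Φ q.1 := by
    refine Finset.sum_nbij' (i := fun p => (fun v => if v ∈ VF F then ext W p.1 p.2 v else 0,
        fun v => if (v : P2) ∈ VF F then 1 else p.2 v))
      (j := fun q => (fun v => kof (q.1 v), fun v => if (v : P2) ∈ VF F then sg (q.1 v) else q.2 v))
      ?_ ?_ ?_ ?_ ?_
    · rintro ⟨k, σ⟩ hp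
      unfold Sc at hp
      rw [Finset.mem_filter, Finset.mem_product] at hp
      obtain ⟨-, h1, h2⟩ := hp
      dsimp only at h1 h2 ⊢
      rw [Finset.mem_product, mem_htsI]
      have hbd : ∀ v, v ∉ I → (if v ∈ VF F then ext W k σ v else 0) = 0 ∨
          (if v ∈ VF F then ext W k σ v else 0) = 1 := by
        intro v hv
        by_cases hvF : v ∈ VF F
        · rw [if_pos hvF, ext_of (hW hvF)]
          have := h1 ⟨v, hW hvF⟩ (fun h => hv ((hI _).1 h))
          unfold hh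
          rw [this]
          split_ifs
          · right; norm_num
          · left; norm_num
        · rw [if_neg hvF]; exact Or.inl rfl
      refine ⟨⟨⟨fun t ht i j => ?_, fun v hv => hbd v fun h => hv (hI' h),
        fun v hv => if_neg hv⟩, hbd⟩, ?_⟩
      · simp only [if_pos (cr_mem ht i), if_pos (cr_mem ht j)]
        exact h2 t ht i j
      · unfold Rs
        rw [Finset.mem_filter]
        exact ⟨Finset.mem_univ _, fun v hv => if_pos hv⟩
    · rintro ⟨h, ρ⟩ hq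
      rw [Finset.mem_product] at hq
      obtain ⟨hq1, hq2⟩ := hq
      dsimp only at hq1 hq2 ⊢
      obtain ⟨hV, hV2⟩ := mem_htsI.1 hq1
      have ee : ∀ v ∈ VF F, ext W (fun v : ↥W => kof (h v))
          (fun v : ↥W => if (v : P2) ∈ VF F then sg (h v) else ρ v) v = h v := fun v hv => by
        rw [ext_of (hW hv)]
        unfold hh
        simp only [if_pos hv]
        exact hh_kof_sg (h v)
      unfold Sc
      rw [Finset.mem_filter, Finset.mem_product, mem_box]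
      refine ⟨⟨fun v => hM h (mem_hts.2 hV) _, Finset.mem_univ _⟩, fun v hv => ?_,
        fun t ht i j => ?_⟩
      · dsimp only
        rw [hI] at hv
        rcases hV2 _ hv with h1 | h1 <;> rw [h1] <;> rfl
      · dsimp only
        rw [ee _ (cr_mem ht i), ee _ (cr_mem ht j)]
        exact hV.lip t ht i j
    · rintro ⟨k, σ⟩ hp
      unfold Sc at hp
      rw [Finset.mem_filter, Finset.mem_product] at hp
      obtain ⟨-, h1, -⟩ := hp
      dsimp only at h1 ⊢
      refine Prod.ext ?_ ?_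
      · funext v
        dsimp only
        by_cases hv : (v : P2) ∈ VF F
        · rw [if_pos hv, ext_of v.2]
          exact kof_hh _ _
        · rw [if_neg hv]
          rw [h1 v (fun h => hv (IV_sub_VF F (hI' ((hI v).1 h))))]
          rfl
      · funext v
        dsimp only
        by_cases hv : (v : P2) ∈ VF F
        · rw [if_pos hv, if_pos hv, ext_of v.2]
          exact sg_hh _ _
        · rw [if_neg hv, if_neg hv]
    · rintro ⟨h, ρ⟩ hq
      rw [Finset.mem_product] at hq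
      obtain ⟨hq1, hq2⟩ := hq
      dsimp only at hq1 hq2 ⊢
      have hV := (mem_htsI.1 hq1).1
      refine Prod.ext ?_ ?_
      · funext v
        dsimp only
        by_cases hv : v ∈ VF F
        · rw [if_pos hv, ext_of (hW hv)]
          unfold hh
          simp only [if_pos hv]
          exact hh_kof_sg (h v)
        · rw [if_neg hv, hV.off v hv]
      · funext v
        dsimp only
        by_cases hv : (v : P2) ∈ VF F
        · rw [if_pos hv]
          unfold Rs at hq2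
          rw [Finset.mem_filter] at hq2
          exact (hq2.2 v hv).symm
        · rw [if_neg hv, if_neg hv]
    · rintro ⟨k, σ⟩ hp
      unfold Sc at hp
      rw [Finset.mem_filter, Finset.mem_product] at hp
      obtain ⟨-, h1, h2⟩ := hp
      dsimp only at h1 h2 ⊢
      have ee : ∀ v ∈ VF F, ext W k σ v = if v ∈ VF F then ext W k σ v else 0 :=
        fun v hv => by rw [if_pos hv]
      rw [hΦ (ext W k σ) (fun v => if v ∈ VF F then ext W k σ v else 0) ee]
      congr 1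
      refine Finset.prod_congr rfl fun t ht => ?_
      rw [E3_congr x (g := fun v => if v ∈ VF F then ext W k σ v else 0)
        fun i => ee _ (cr_mem ht i)]
      refine E3_eq_tw' x fun i j => ?_
      simp only [if_pos (cr_mem ht i), if_pos (cr_mem ht j)]
      exact h2 t ht i j
  rw [s2, Finset.sum_product]
  unfold SI
  rw [Finset.mul_sum]
  refine Finset.sum_congr rfl fun h _ => ?_
  simp only [Finset.sum_const, nsmul_eq_mul]

theorem exists_box (F : Finset P2) : ∃ M : ℕ, ∀ h ∈ hts F, ∀ v, kof (h v) ≤ M := by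
  refine ⟨(hts F).sup fun h => (VF F).sup fun v => kof (h v), fun h hh v => ?_⟩
  by_cases hv : v ∈ VF F
  · exact (Finset.le_sup (f := fun v => kof (h v)) hv).trans
      (Finset.le_sup (f := fun h : P2 → ℤ => (VF F).sup fun v => kof (h v)) hh)
  · rw [(mem_hts.1 hh).off v hv]
    exact Nat.zero_le _

end W

/-! ### increasing positive functions of the heights -/

/-- `Φ` depends on the heights in `S` and is an increasing positive function of `h - 1/2` -/
structure Inc (S : Finset P2) (Φ : (P2 → ℤ) → ℝ) : Prop where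
  dep : ∀ h h' : P2 → ℤ, (∀ v ∈ S, h v = h' v) → Φ h = Φ h'
  mp : ∀ W : Finset P2, S ⊆ W → MPos fun (k : ↥W → ℕ) (σ : ↥W → ℤˣ) => Φ (ext W k σ)

theorem Inc.const (S : Finset P2) {r : ℝ} (hr : 0 ≤ r) : Inc S fun _ => r :=
  ⟨fun _ _ _ => rfl, fun _ _ => MPos.const hr⟩

theorem Inc.height {S : Finset P2} {v : P2} (hv : v ∈ S) : Inc S fun h => (h v : ℝ) - 1 / 2 :=
  ⟨fun h h' e => by rw [e v hv], fun W hW => (MPos.height (V := ↥W) ⟨v, hW hv⟩).congr
    fun k σ => by rw [ext_of (hW hv)]⟩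

theorem Inc.add {S : Finset P2} {Φ Ψ : (P2 → ℤ) → ℝ} (h : Inc S Φ) (h' : Inc S Ψ) :
    Inc S fun a => Φ a + Ψ a :=
  ⟨fun a b e => by rw [h.dep a b e, h'.dep a b e], fun W hW => (h.mp W hW).add (h'.mp W hW)⟩

theorem Inc.mul {S : Finset P2} {Φ Ψ : (P2 → ℤ) → ℝ} (h : Inc S Φ) (h' : Inc S Ψ) :
    Inc S fun a => Φ a * Ψ a :=
  ⟨fun a b e => by rw [h.dep a b e, h'.dep a b e], fun W hW => (h.mp W hW).mul (h'.mp W hW)⟩

theorem Inc.smul {S : Finset P2} {Φ : (P2 → ℤ) → ℝ} (h : Inc S Φ) {r : ℝ} (hr : 0 ≤ r) :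
    Inc S fun a => r * Φ a :=
  ⟨fun a b e => by rw [h.dep a b e], fun W hW => (h.mp W hW).smul hr⟩

theorem Inc.pow {S : Finset P2} {Φ : (P2 → ℤ) → ℝ} (h : Inc S Φ) (n : ℕ) :
    Inc S fun a => Φ a ^ n :=
  ⟨fun a b e => by rw [h.dep a b e], fun W hW => (h.mp W hW).pow n⟩

theorem Inc.sum {ι : Type*} {S : Finset P2} (s : Finset ι) {Φ : ι → (P2 → ℤ) → ℝ}
    (h : ∀ a ∈ s, Inc S (Φ a)) : Inc S fun g => ∑ a ∈ s, Φ a g :=
  ⟨fun a b e => Finset.sum_congr rfl fun i hi => (h i hi).dep a b e,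
    fun W hW => MPos.sum s fun i hi => (h i hi).mp W hW⟩

theorem Inc.prod {ι : Type*} {S : Finset P2} (s : Finset ι) {Φ : ι → (P2 → ℤ) → ℝ}
    (h : ∀ a ∈ s, Inc S (Φ a)) : Inc S fun g => ∏ a ∈ s, Φ a g :=
  ⟨fun a b e => Finset.prod_congr rfl fun i hi => (h i hi).dep a b e,
    fun W hW => MPos.prod s fun i hi => (h i hi).mp W hW⟩

theorem Inc.mono {S S' : Finset P2} (hS : S ⊆ S') {Φ : (P2 → ℤ) → ℝ} (h : Inc S Φ) : Inc S' Φ :=
  ⟨fun a b e => h.dep a b fun v hv => e v (hS hv), fun W hW => h.mp W (hS.trans hW)⟩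


/-- **(H2) monotonicity in the domain**, arbitrary sets of free sites. -/
theorem EI_mono {x : ℝ} (hx0 : 0 ≤ x) (hx1 : x ≤ 1) {F F' I I' : Finset P2} (hF : F ⊆ F')
    (hI1 : I ⊆ IV F) (hI1' : I' ⊆ IV F') (hII : I ⊆ I') {Φ : (P2 → ℤ) → ℝ} (hΦ : Inc (VF F) Φ) :
    EI x F I Φ ≤ EI x F' I' Φ := by
  classical
  set W : Finset P2 := insert 0 (VF F') with hWdef
  have h0 : (0 : P2) ∈ W := Finset.mem_insert_self _ _
  have hW' : VF F' ⊆ W := Finset.subset_insert _ _
  have hW : VF F ⊆ W := (VF_mono hF).trans hW'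
  obtain ⟨M1, hM1⟩ := exists_box F
  obtain ⟨M2, hM2⟩ := exists_box F'
  have hM1' : ∀ h ∈ hts F, ∀ v, kof (h v) ≤ max M1 M2 := fun h hh v =>
    (hM1 h hh v).trans (le_max_left _ _)
  have hM2' : ∀ h ∈ hts F', ∀ v, kof (h v) ≤ max M1 M2 := fun h hh v =>
    (hM2 h hh v).trans (le_max_right _ _)
  have hI : iI W I ⊆ iI W I' := fun v hv => by
    unfold iI at hv ⊢
    rw [Finset.mem_filter] at hv ⊢
    exact ⟨hv.1, hII hv.2⟩
  have hE : eE F ⊆ eE F' := Finset.product_subset_product_left hF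
  have hIE : ∀ e ∈ eE F', e ∉ eE F → ei h0 e ∉ iI W I ∧ ej h0 e ∉ iI W I := by
    rintro ⟨t, k⟩ he hne
    unfold eE at he hne
    rw [Finset.mem_product] at he hne
    have ht : t ∈ F' := he.1
    have ht' : t ∉ F := fun h => hne ⟨h, Finset.mem_univ _⟩
    have key : ∀ i : Fin 3, pt h0 (cr t i) ∉ iI W I := fun i hi => by
      unfold iI at hi
      rw [Finset.mem_filter, pt_of h0 (hW' (cr_mem ht i))] at hi
      exact ht' (mem_IV'.1 (hI1 hi.2) t (cr_mem_up t i))
    exact ⟨key _, key _⟩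
  have key := SS_mono hx0 hx1 (ei h0) (ej h0) hI hE hIE (max M1 M2) (hΦ.mp W hW)
  have hΦ' : Inc (VF F') Φ := hΦ.mono (VF_mono hF)
  have e1 := SS_eq_SI h0 x hI1 hW hM1' Φ hΦ.dep
  have e2 := SS_eq_SI h0 x hI1 hW hM1' (fun _ => 1) (fun _ _ _ => rfl)
  have e3 := SS_eq_SI h0 x hI1' hW' hM2' Φ hΦ'.dep
  have e4 := SS_eq_SI h0 x hI1' hW' hM2' (fun _ => 1) (fun _ _ _ => rfl)
  rw [e1, e2, e3, e4] at key
  unfold EI
  have p1 : (0 : ℝ) < (Rs W F).card := by exact_mod_cast Rs_card_pos W F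
  have p2 : (0 : ℝ) < (Rs W F').card := by exact_mod_cast Rs_card_pos W F'
  rw [div_le_div_iff₀ (SI_one_pos x F I) (SI_one_pos x F' I')]
  have p3 : 0 < ((Rs W F).card : ℝ) * (Rs W F').card := mul_pos p1 p2
  refine le_of_mul_le_mul_left ?_ p3
  calc _ = _ := by ring
    _ ≤ _ := key
    _ = _ := by ring

theorem EI_nonneg {x : ℝ} (hx0 : 0 ≤ x) (hx1 : x ≤ 1) {F I : Finset P2} (hI1 : I ⊆ IV F)
    {Φ : (P2 → ℤ) → ℝ} (hΦ : Inc (VF F) Φ) : 0 ≤ EI x F I Φ := by
  classical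
  set W : Finset P2 := insert 0 (VF F) with hWdef
  have h0 : (0 : P2) ∈ W := Finset.mem_insert_self _ _
  have hW : VF F ⊆ W := Finset.subset_insert _ _
  obtain ⟨M, hM⟩ := exists_box F
  have key := SS_nonneg hx0 hx1 (ei h0) (ej h0) (iI W I) (eE F) M (hΦ.mp W hW)
  rw [SS_eq_SI h0 x hI1 hW hM Φ hΦ.dep] at key
  have p1 : (0 : ℝ) < (Rs W F).card := by exact_mod_cast Rs_card_pos W F
  exact div_nonneg (nonneg_of_mul_nonneg_right key p1) (SI_one_pos x F I).le


/-- **(H2) monotonicity in the domain.** -/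
theorem EH_mono {x : ℝ} (hx0 : 0 ≤ x) (hx1 : x ≤ 1) {F F' : Finset P2} (hF : F ⊆ F')
    {Φ : (P2 → ℤ) → ℝ} (hΦ : Inc (VF F) Φ) : EH x F Φ ≤ EH x F' Φ := by
  rw [← EI_self, ← EI_self]
  exact EI_mono hx0 hx1 hF (Finset.Subset.refl _) (Finset.Subset.refl _) (IV_mono hF) hΦ

theorem EH_nonneg {x : ℝ} (hx0 : 0 ≤ x) (hx1 : x ≤ 1) {F : Finset P2}
    {Φ : (P2 → ℤ) → ℝ} (hΦ : Inc (VF F) Φ) : 0 ≤ EH x F Φ := by
  rw [← EI_self]
  exact EI_nonneg hx0 hx1 (Finset.Subset.refl _) hΦ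


end Crest.Agent.R144.Hf702
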