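import Crest.Agent.R144.CuP_880
import Crest.Agent.R144.Cmp1_880
import Crest.Agent.R144.Bx2_695
import Crest.Agent.R144.Cov_792

/-!
# R144, S5: from `CU` to `LAYF` (helper792)

* `nb`, `LayS`, `OffC`, `LAYF` : literal definitions of 435;
* `sc_IV` : the interior sites of a simply connected set of triangles are simply connected;
* `pC_of_mixed` : a triangle with corners `≤ 0` and `≥ 1` is plus closed;
* `layS_of_HH` : the event `HH` (a `0|1` level loop) implies a plus-closed layer;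
* `inner` : the estimate in one F-domain;
* `layf_of_cu` : `CU x → RSW → LAYF (x²)⁻¹`.
-/

set_option autoImplicit false

noncomputable section

namespace Crest.Agent.R144.Lyf792

open Finset
open Crest.Agent.R144.It844 (P2 Lip adj_iff adj_symm upT mem_upT ex)
open Crest.Agent.R144.Zg349 Crest.Agent.R144.Zd349 Crest.Agent.R144.Zm349 Crest.Agent.R144.Ze349
open Crest.Agent.R144.Zf349 Crest.Agent.R144.Zs349
open Crest.Agent.R144.Pst967 (path_symm)
open Crest.Agent.R144.Rsw867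
open Crest.Agent.R144.Rw146 (adj_iff_share)
open Crest.Agent.R144.Hf702 (Bg_sub sc_Bg PB PBI PBI_nonneg pLay_of_PBI offTZ_PBI sum_PBI ball_sub_Bg)
open Crest.Agent.R144.Cmp880 (sc_of_PBI pC_touch_of_PBI LvI LvI_eq_sum LvI_le_one LvI_nonneg)
open Crest.Agent.R144.Tvp643 (pC_of_valid)
open Crest.Agent.R144.Cov792 (mem_nb nb_mono ball_trans nb_ball adj_nb self_ball)
open Crest.ProbabilityR.HexHeights (Adj)
open Relation (ReflTransGen)

/-- `r`-neighbourhood -/
abbrev nb (K : Finset P2) (r : ℕ) : Finset P2 := Cov792.nb K r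

/-- a plus-closed layer between `A` and the outside of `B` -/
def LayS (A B : Finset P2) : Set Cfg :=
  {ω | ∀ u v, u ∉ B → v ∈ A → ¬ Relation.ReflTransGen (StepIn {t | pC ω t}ᶜ) u v}

/-- `f` does not see the heights in `Q` and the triangles touching `Q` -/
def OffC (Q : Finset P2) (f : Cfg → ℝ) : Prop := ∀ ω ω' : Cfg, (∀ v, v ∉ Q → ω.1 v = ω'.1 v) →
  (∀ t, (∀ v ∈ up t, v ∉ Q) → ω.2 t = ω'.2 t) → f ω = f ω'

/-- layers at positive cost, far from the boundary of the F-domain -/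
def LAYF (c : ℝ) : Prop := ∀ (R : ℕ) (η : ℝ), 0 < η → ∃ (C : ℝ) (R' s0 : ℕ), 0 < C ∧
  ∀ s ≥ s0, ∀ (a : P2) (K0 : Finset P2), K0.Nonempty → K0 ⊆ ball a (R * s) →
    ∀ F : Finset P2, SC F → ball a (R' * s) ⊆ F → ∀ f : Cfg → ℝ, (∀ ω, 0 ≤ f ω) → (∀ ω, f ω ≤ 1) →
      OffC (nb K0 (2 * s) \ nb K0 s) f →
        E c F f ≤ η + C * E c F (fun ω => f ω * ind (LayS (nb K0 s) (nb K0 (2 * s))) ω)

/-! ### geometry -/

theorem sc_IV {B : Finset P2} (hB : SC B) : SC (IV B) := by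
  have h1 : ∀ t : P2, t ∉ B → ∀ v ∈ up t, v ∉ IV B := fun t ht v hv h => ht ((mem_IV'.1 h) t hv)
  have h2 : ∀ t : P2, t ∉ B → ∀ v ∈ up t, ReflTransGen (StepIn ((IV B : Set P2)ᶜ)) t v := by
    intro t ht v hv
    by_cases hvt : v = t
    · rw [hvt]
    · refine ReflTransGen.single ⟨h1 t ht t (base_mem_up t), h1 t ht v hv, ?_⟩
      rw [mem_up] at hv
      rw [adj_iff]
      rcases hv with h | h | h
      · exact absurd h hvt
      · exact Or.inl h
      · exact Or.inr (Or.inr (Or.inl h))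
  have h3 : ∀ u : P2, u ∉ IV B → ∃ t, t ∉ B ∧ u ∈ up t := by
    intro u hu
    rw [mem_IV'] at hu
    push Not at hu
    obtain ⟨t, h, h'⟩ := hu
    exact ⟨t, h', h⟩
  intro u hu v hv
  obtain ⟨t, ht, htu⟩ := h3 u hu
  obtain ⟨t', ht', htv⟩ := h3 v hv
  have h4 := hB t ht t' ht'
  exact ((path_symm (h2 t ht u htu)).trans (path_mono (S := (B : Set P2)ᶜ) (T := (IV B : Set P2)ᶜ)
    (fun w (hw : w ∉ B) (h : w ∈ IV B) => hw (IV_sub B h)) h4)).trans
    (h2 t' ht' v htv)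

theorem nb_sub {K : Finset P2} {a : P2} {r d u : ℕ} (h : K ⊆ ball a r) (hu : r + d ≤ u) :
    nb K d ⊆ ball a u := fun v hv => by
  obtain ⟨k, hk, h1⟩ := mem_nb.1 hv
  exact ball_trans (h hk) h1 hu

theorem nb_nb {K : Finset P2} {r d u : ℕ} (hu : r + d ≤ u) : nb (nb K r) d ⊆ nb K u := fun v hv => by
  obtain ⟨k, hk, h1⟩ := mem_nb.1 hv
  exact nb_ball hk h1 hu

theorem sub_nb (K : Finset P2) (r : ℕ) : K ⊆ nb K r := fun v hv => mem_nb.2 ⟨v, hv, self_ball v r⟩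

theorem ball_sub_IV {B : Finset P2} {a : P2} {r : ℕ} (h : ball a (r + 1) ⊆ B) : ball a r ⊆ IV B := by
  intro v hv
  rw [mem_IV]
  exact ⟨h (ball_mono a (Nat.le_succ r) hv), h (adj_ball hv (adj_iff.2 (Or.inr (Or.inl rfl)))),
    h (adj_ball hv (adj_iff.2 (Or.inr (Or.inr (Or.inr (Or.inl rfl))))))⟩

theorem upT_IV (B : Finset P2) : upT (IV B) ⊆ B := by
  intro t ht
  rw [mem_upT] at ht
  have : ∀ v, v ∈ IV B → v ∈ up t → t ∈ B := fun v hv h => (mem_IV'.1 hv) t h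
  rcases ht with h | h | h
  · exact this _ h (mem_up.2 (Or.inl rfl))
  · exact this _ h (mem_up.2 (Or.inr (Or.inl rfl)))
  · exact this _ h (mem_up.2 (Or.inr (Or.inr rfl)))

theorem upT_sub {Q B : Finset P2} (h : Q ⊆ IV B) : upT Q ⊆ B :=
  (It844.upT_mono h).trans (upT_IV B)



theorem OffC.off {Q Q' : Finset P2} {f : Cfg → ℝ} (h : OffC Q f) (hQ : Q' ⊆ Q) : Bx695.Off Q' f := by
  intro ω ω' h1 h2
  refine h ω ω' (fun v hv => h1 v fun hv' => hv (hQ hv')) fun t ht => h2 t fun ht' => ?_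
  rw [mem_upT] at ht'
  rcases ht' with h3 | h3 | h3
  · exact ht _ (mem_up.2 (Or.inl rfl)) (hQ h3)
  · exact ht _ (mem_up.2 (Or.inr (Or.inl rfl))) (hQ h3)
  · exact ht _ (mem_up.2 (Or.inr (Or.inr rfl))) (hQ h3)

/-! ### level loops are layers -/

theorem pC_of_mixed {c : ℝ} {F : Finset P2} {ω : Cfg} (hω : Valid F ω) (hw : wt c F ω ≠ 0) {t u v : P2}
    (hu : u ∈ up t) (hv : v ∈ up t) (h1 : ω.1 u ≤ 0) (h2 : 1 ≤ ω.1 v) : pC ω t := by
  obtain ⟨i, rfl⟩ := mem_up_iff.1 hu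
  obtain ⟨j, rfl⟩ := mem_up_iff.1 hv
  have hl := hω.ht.glip t
  have e1 := hl i j
  have e2 := hl 0 i
  have e3 := hl 0 j
  rw [abs_le] at e1 e2 e3
  have hi : ω.1 (cr t i) = 0 := by omega
  have hj : ω.1 (cr t j) = 1 := by omega
  have h0 : ω.1 (cr t 0) = 0 ∨ ω.1 (cr t 0) = 1 := by omega
  have hs : s1 (ω.1 t) = true := by
    have : cr t 0 = t := rfl
    rw [this] at h0
    rcases h0 with h | h <;> rw [h] <;> decide
  refine ⟨?_, hs⟩
  by_cases htF : t ∈ F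
  · have h3 : ew c ω t ≠ 0 := fun h => hw (Finset.prod_eq_zero htF h)
    by_contra h4
    apply h3
    have h5 : ¬ C2 ω.1 t := by
      rintro ⟨a, b⟩
      have h6 : ∀ k, s2 (ω.1 (cr t 0)) = s2 (ω.1 (cr t k)) := by
        intro k
        fin_cases k
        · rfl
        · exact a
        · exact b
      have h7 := (h6 i).symm.trans (h6 j)
      rw [hi, hj] at h7
      exact absurd h7 (by decide)
    unfold ew
    rw [if_neg h4, if_neg h5]
  · exact hω.cl t htF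

/-- along a path of triangles which are not plus closed the heights stay on one side -/
theorem side {c : ℝ} {F : Finset P2} {ω : Cfg} (hω : Valid F ω) (hw : wt c F ω ≠ 0) {u v : P2}
    (p : ReflTransGen (StepIn {t | pC ω t}ᶜ) u v) :
    (ω.1 v ≤ 0 ∧ ReflTransGen (StepIn {t | ω.1 t ≤ 0}) u v) ∨
      (1 ≤ ω.1 v ∧ ReflTransGen (StepIn {t | 1 ≤ ω.1 t}) u v) := by
  induction p with
  | refl =>
    rcases le_or_gt (ω.1 u) 0 with h | h
    · exact Or.inl ⟨h, ReflTransGen.refl⟩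
    · exact Or.inr ⟨by omega, ReflTransGen.refl⟩
  | @tail b d _ hbd ih =>
    obtain ⟨hb, hd, hadj⟩ := hbd
    obtain ⟨w, h1, h2⟩ := adj_site hadj
    rcases ih with ⟨h3, q⟩ | ⟨h3, q⟩
    · have h4 : ω.1 w ≤ 0 := by
        by_contra h4
        exact hb (pC_of_mixed hω hw (base_mem_up b) h1 h3 (by omega))
      have h5 : ω.1 d ≤ 0 := by
        by_contra h5
        exact hd (pC_of_mixed hω hw h2 (base_mem_up d) h4 (by omega))
      exact Or.inl ⟨h5, q.tail ⟨h3, h5, hadj⟩⟩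
    · have h4 : 1 ≤ ω.1 w := by
        by_contra h4
        exact hb (pC_of_mixed hω hw h1 (base_mem_up b) (by omega) h3)
      have h5 : 1 ≤ ω.1 d := by
        by_contra h5
        exact hd (pC_of_mixed hω hw (base_mem_up d) h2 (by omega) h4)
      exact Or.inr ⟨h5, q.tail ⟨h3, h5, hadj⟩⟩

theorem layS_of_HH {c : ℝ} {F : Finset P2} {ω : Cfg} (hω : Valid F ω) (hw : wt c F ω ≠ 0)
    {K0 : Finset P2} {s s' : ℕ} (hs : 5 * s' ≤ s) (h : ω.1 ∈ CuP880.HH (nb K0 s) s') :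
    ω ∈ LayS (nb K0 s) (nb K0 (2 * s)) := by
  intro u v hu hv p
  obtain ⟨h1, h2, -, -⟩ := h
  rcases side hω hw p with ⟨-, q⟩ | ⟨-, q⟩
  · exact h1 u v (fun h3 => hu (nb_nb (K := K0) (r := s) (d := 2 * s') (by omega) h3))
      (sub_nb _ _ hv) q
  · exact h2 u v (fun h3 => hu (nb_nb (K := K0) (r := s) (d := 3 * s') (by omega) h3))
      (sub_nb _ _ hv) q

/-! ### one F-domain -/

theorem E_mono_wt {c : ℝ} (hc : 1 ≤ c) {F : Finset P2} {f g : Cfg → ℝ}
    (h : ∀ ω, Valid F ω → wt c F ω ≠ 0 → f ω ≤ g ω) : E c F f ≤ E c F g := by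
  rw [E_eq_div, E_eq_div]
  refine div_le_div_of_nonneg_right (Finset.sum_le_sum fun ω hω => ?_) (Z_pos hc F).le
  by_cases hw : wt c F ω = 0
  · rw [hw, zero_mul, zero_mul]
  · exact mul_le_mul_of_nonneg_left (h ω (mem_conf.1 hω) hw) (wt_nonneg hc F ω)

open Classical in
/-- indicator of a set of heights -/
def hI (A : Set (P2 → ℤ)) (h : P2 → ℤ) : ℝ := if h ∈ A then 1 else 0

theorem pr_hI (x : ℝ) (Λ : Finset P2) (τ : P2 → ℤ) (A : Set (P2 → ℤ)) :
    It844.pr x Λ τ A = ex x Λ τ (hI A) := by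
  unfold It844.pr hI
  refine It844.ex_congr fun h _ => ?_
  split_ifs <;> rfl

theorem inner {x : ℝ} (hx0 : 0 < x) (hx1 : x ≤ 1) {B K0 : Finset P2} {s s' : ℕ} (hs : 5 * s' ≤ s)
    (hQB : nb K0 (2 * s) ⊆ IV B) {c0 η : ℝ} (hc0 : 0 < c0)
    (hCU : ∀ τ : P2 → ℤ, Lip τ → (∀ v, v ∉ IV B → τ v = 0 ∨ τ v = 1) →
      It844.pr x (IV B) τ {h | It844.pr x (nb (nb K0 s) (5 * s') \ nb (nb K0 s) s') h
        (CuP880.HH (nb K0 s) s') < c0} ≤ η)
    {f : Cfg → ℝ} (f0 : ∀ ω, 0 ≤ f ω) (f1 : ∀ ω, f ω ≤ 1) (hf : OffC (nb K0 (2 * s) \ nb K0 s) f) :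
    E ((x ^ 2)⁻¹) B f ≤ η + c0⁻¹ * E ((x ^ 2)⁻¹) B
      (fun ω => f ω * ind (LayS (nb K0 s) (nb K0 (2 * s))) ω) := by
  have hc : (1 : ℝ) ≤ (x ^ 2)⁻¹ := by
    rw [one_le_inv₀ (by positivity)]
    exact pow_le_one₀ hx0.le hx1
  set c : ℝ := (x ^ 2)⁻¹ with hcdef
  set Q' : Finset P2 := nb (nb K0 s) (5 * s') \ nb (nb K0 s) s' with hQ'
  set H : Set (P2 → ℤ) := CuP880.HH (nb K0 s) s' with hH
  set bad : Set (P2 → ℤ) := {h | It844.pr x Q' h H < c0} with hbad
  have hQ1 : Q' ⊆ nb K0 (2 * s) \ nb K0 s := by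
    intro v hv
    rw [hQ', Finset.mem_sdiff] at hv
    rw [Finset.mem_sdiff]
    exact ⟨nb_nb (by omega) hv.1, fun h => hv.2 (sub_nb _ _ h)⟩
  have hQ2 : Q' ⊆ IV B := fun v hv => hQB (Finset.mem_sdiff.1 (hQ1 hv)).1
  -- bad part
  have e1 : E c B (fun ω => hI bad ω.1) ≤ η := by
    have h1 := Bx695.E_dlr (x := x) hx0 (upT_IV B) (φ := fun _ => 1) (fun _ _ _ _ => rfl) (hI bad)
    simp only [one_mul] at h1
    rw [h1, ← E_const hc B η]
    refine E_mono hc fun ω hω => ?_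
    rw [← pr_hI]
    exact hCU ω.1 hω.ht.toLip fun v hv => hω.ht.bd v hv
  -- good part
  have e2 : E c B (fun ω => f ω * hI H ω.1) = E c B (fun ω => f ω * ex x Q' ω.1 (hI H)) :=
    Bx695.E_dlr hx0 (upT_sub hQ2) (hf.off hQ1) (hI H)
  have e3 : E c B (fun ω => f ω * hI H ω.1) ≤
      E c B (fun ω => f ω * ind (LayS (nb K0 s) (nb K0 (2 * s))) ω) := by
    refine E_mono_wt hc fun ω hω hw => mul_le_mul_of_nonneg_left ?_ (f0 ω)
    by_cases h : ω.1 ∈ H
    · rw [ind_of_mem (layS_of_HH hω hw hs h)]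
      unfold hI
      rw [if_pos h]
    · unfold hI
      rw [if_neg h]
      exact ind_nonneg _ _
  have e4 : E c B f ≤ E c B (fun ω => hI bad ω.1 + c0⁻¹ * (f ω * ex x Q' ω.1 (hI H))) := by
    refine E_mono hc fun ω hω => ?_
    have h0 : 0 ≤ ex x Q' ω.1 (hI H) := It844.ex_nonneg fun a _ => by unfold hI; split_ifs <;> norm_num
    by_cases h : ω.1 ∈ bad
    · have : hI bad ω.1 = 1 := if_pos h
      rw [this]
      have : 0 ≤ c0⁻¹ * (f ω * ex x Q' ω.1 (hI H)) := by have := f0 ω; positivity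
      linarith [f1 ω]
    · have h1 : hI bad ω.1 = 0 := if_neg h
      rw [h1, zero_add]
      have h2 : c0 ≤ ex x Q' ω.1 (hI H) := by
        rw [← pr_hI]
        exact not_lt.1 h
      rw [← div_eq_inv_mul, le_div_iff₀ hc0]
      exact mul_le_mul_of_nonneg_left h2 (f0 ω)
  rw [E_add, E_smul, ← e2] at e4
  have e5 := mul_le_mul_of_nonneg_left e3 (inv_nonneg.2 hc0.le)
  linarith

/-! ### gluing -/

/-- `f` after gluing still does not see `Q` -/
theorem OffC.glue {Q W : Finset P2} {e : Bool} {ω : Cfg} {f : Cfg → ℝ} (h : OffC Q f) :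
    OffC Q (fun ω' => f (Zs349.glue e W ω ω')) := by
  intro a b h1 h2
  refine h _ _ (fun v hv => ?_) fun t ht => ?_
  · by_cases hvW : v ∈ VF W
    · rw [glue_in hvW, glue_in hvW, h1 v hv]
    · rw [glue_out hvW, glue_out hvW]
  · by_cases htW : t ∈ W
    · rw [glue_z htW, glue_z htW, h2 t ht]
    · rw [glue_z' htW, glue_z' htW]

/-- layers after gluing -/
theorem layS_glue {W A B : Finset P2} {ω ω' : Cfg} (hW : SC W) (hl : Lip ω.1) (hL : Lay true W ω)
    (hAB : A ⊆ B) (hBW : ∀ t ∈ B, t ∈ W) (hBW' : ∀ t ∈ B, ∀ t', Adj t t' → t' ∈ W)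
    (h : ω' ∈ LayS A B) : Zs349.glue true W ω ω' ∈ LayS A B := by
  intro u v hu hv p
  obtain ⟨u', v', hu', hv', q⟩ := trim (X := (A : Set P2)) (Y := (B : Set P2))
    (fun x hx => hAB hx) (u := u) (v := v) (fun hh => hu hh) hv p
  refine h u' v' (fun hh => hu' hh) hv' (path_mono ?_ q)
  rintro t ⟨h1, h2, -⟩ h4
  refine h1 ?_
  have htW : t ∈ W := by
    rcases h2 with h2 | ⟨t', h2, h5⟩
    · exact hBW t h2
    · exact hBW' t' h2 t h5
  exact (Tvp643.pC_glue hW hl hL htW).2 h4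

theorem lay_of_PBI {c : ℝ} {F D B : Finset P2} {ω : Cfg} (hω : Valid F ω) (hw : wt c F ω ≠ 0)
    (h : PBI D B ω ≠ 0) : Lay true B ω :=
  lay_of hω hw fun _ ht h1 => pC_touch_of_PBI h ht h1

/-- decoupling on `PB D ω = B` -/
theorem PBI_dec {c : ℝ} (hc : 1 ≤ c) {F D B : Finset P2} (hB : SC B) (hBF : B ⊆ F) (f : Cfg → ℝ) :
    E c F (fun ω => PBI D B ω * f ω) =
      E c F (fun ω => PBI D B ω * E c B (fun ω' => f (Zs349.glue true B ω ω'))) := by
  refine E_dec (e := true) (Ψ := fun ω => PBI D B ω * f ω) (g := PBI D B)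
    (φ := fun ω ω' => f (Zs349.glue true B ω ω')) hc hB hBF ?_ ?_
  · intro ω hω hw hL
    have h0 : PBI D B ω = 0 := by
      by_contra h0
      exact hL (lay_of_PBI hω hw h0)
    exact ⟨by show PBI D B ω * f ω = 0; rw [h0, zero_mul], h0⟩
  · intro ω ω' hω hw hL hω'
    show PBI D B (Zs349.glue true B ω ω') * f (Zs349.glue true B ω ω') =
      PBI D B ω * f (Zs349.glue true B ω ω')
    rw [offTZ_glue hB hω.ht.toLip hL hω' (offTZ_PBI D B)]

/-! ### the final estimate -/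

/-- outer decomposition -/
theorem outer {c : ℝ} (hc : 1 ≤ c) {F D A X Y : Finset P2} (hD : SC D) (hDF : D ⊆ F) (hXY : X ⊆ Y)
    (hYA : Y ⊆ A) (hYA' : ∀ t ∈ Y, ∀ t', Adj t t' → t' ∈ A) {f : Cfg → ℝ} {Q : Finset P2} (f0 : ∀ ω, 0 ≤ f ω)
    (f1 : ∀ ω, f ω ≤ 1) (hf : OffC Q f) {η η' C : ℝ} (hη : 0 ≤ η) (hC : 0 ≤ C)
    (hin : ∀ B : Finset P2, SC B → A ⊆ B → B ⊆ D → ∀ g : Cfg → ℝ, (∀ ω, 0 ≤ g ω) → (∀ ω, g ω ≤ 1) →
      OffC Q g → E c B g ≤ η + C * E c B (fun ω => g ω * ind (LayS X Y) ω))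
    (hfar : E c F (fun ω => 1 - LvI A D ω) ≤ η') :
    E c F f ≤ η + η' + C * E c F (fun ω => f ω * ind (LayS X Y) ω) := by
  classical
  have term : ∀ B ∈ D.powerset.filter (fun B => A ⊆ B), E c F (fun ω => PBI D B ω * f ω) ≤
      η * E c F (PBI D B) + C * E c F (fun ω => PBI D B ω * (f ω * ind (LayS X Y) ω)) := by
    intro B hBm
    obtain ⟨hBD, hAB⟩ := Finset.mem_filter.1 hBm
    rw [Finset.mem_powerset] at hBD
    by_cases hsc : SC B
    · rw [PBI_dec hc hsc (hBD.trans hDF) f,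
        PBI_dec hc hsc (hBD.trans hDF) (fun ω => f ω * ind (LayS X Y) ω), ← E_smul, ← E_smul, ← E_add]
      refine E_mono_wt hc fun ω hω hw => ?_
      by_cases h0 : PBI D B ω = 0
      · rw [h0]; simp
      · have hL := lay_of_PBI hω hw h0
        have h1 := hin B hsc hAB hBD (fun ω' => f (Zs349.glue true B ω ω')) (fun _ => f0 _)
          (fun _ => f1 _) hf.glue
        have h2 : E c B (fun ω' => f (Zs349.glue true B ω ω') * ind (LayS X Y) ω') ≤
            E c B (fun ω' => f (Zs349.glue true B ω ω') *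
              ind (LayS X Y) (Zs349.glue true B ω ω')) :=
          E_mono hc fun ω' hω' => mul_le_mul_of_nonneg_left (ind_le_ind fun h3 =>
            layS_glue hsc hω.ht.toLip hL hXY (fun t ht => hAB (hYA ht))
              (fun t ht t' ha => hAB (hYA' t ht t' ha)) h3) (f0 _)
        have h3 := mul_le_mul_of_nonneg_left h2 hC
        have h4 := PBI_nonneg D B ω
        nlinarith [mul_le_mul_of_nonneg_left (h1.trans (add_le_add_right h3 η)) h4]
    · have h0 : ∀ ω, PBI D B ω = 0 := fun ω => by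
        by_contra h
        exact hsc (sc_of_PBI hD h)
      have h0' : PBI D B = fun _ => (0 : ℝ) := funext h0
      simp only [h0, h0', zero_mul]
      rw [E_const hc]
      simp
  have e1 : E c F f = E c F (fun ω => (1 - LvI A D ω) * f ω) +
      ∑ B ∈ D.powerset with A ⊆ B, E c F (fun ω => PBI D B ω * f ω) := by
    rw [← E_sum, ← E_add]
    refine E_congr fun ω _ => ?_
    rw [← Finset.sum_mul, ← LvI_eq_sum]
    ring
  have e2 : E c F (fun ω => (1 - LvI A D ω) * f ω) ≤ η' := by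
    refine le_trans (E_mono hc fun ω _ => ?_) hfar
    exact mul_le_of_le_one_right (by linarith [LvI_le_one A D ω]) (f1 ω)
  have e3 := Finset.sum_le_sum term
  rw [Finset.sum_add_distrib, ← Finset.mul_sum, ← Finset.mul_sum,
    ← E_sum c F _ (fun B => PBI D B),
    ← E_sum c F _ (fun B ω => PBI D B ω * (f ω * ind (LayS X Y) ω))] at e3
  have e4 : E c F (fun ω => ∑ B ∈ D.powerset with A ⊆ B, PBI D B ω) ≤ 1 := by
    rw [← E_const hc F 1]
    refine E_mono hc fun ω _ => ?_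
    rw [← LvI_eq_sum]
    exact LvI_le_one A D ω
  have e5 : E c F (fun ω => ∑ B ∈ D.powerset with A ⊆ B, PBI D B ω * (f ω * ind (LayS X Y) ω)) ≤
      E c F (fun ω => f ω * ind (LayS X Y) ω) := by
    refine E_mono hc fun ω _ => ?_
    rw [← Finset.sum_mul, ← LvI_eq_sum]
    exact mul_le_of_le_one_left (mul_nonneg (f0 ω) (ind_nonneg _ _)) (LvI_le_one A D ω)
  have e6 := mul_le_mul_of_nonneg_left e4 hη
  have e7 := mul_le_mul_of_nonneg_left e5 hC
  linarith

/-- **LAYF from CU.** -/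
theorem layf_of_cu {x : ℝ} (hx0 : 0 < x) (hx1 : x ≤ 1) {K : ℕ} {p : ℝ} (hR : RSW ((x ^ 2)⁻¹) K p)
    (hCU : CuP880.CU x) : LAYF ((x ^ 2)⁻¹) := by
  have hc : (1 : ℝ) ≤ (x ^ 2)⁻¹ := by
    rw [one_le_inv₀ (by positivity)]
    exact pow_le_one₀ hx0.le hx1
  intro R η hη
  obtain ⟨k, hk⟩ : ∃ k : ℕ, (1 - p) ^ (k + 1) ≤ η / 2 := by
    obtain ⟨k, hk⟩ := exists_pow_lt_of_lt_one (half_pos hη) (show 1 - p < 1 by linarith [hR.p0])
    refine ⟨k, le_trans ?_ hk.le⟩
    exact pow_le_pow_of_le_one (by linarith [hR.p1]) (by linarith [hR.p0]) (Nat.le_succ k)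
  set R' : ℕ := 2 * ((K + 1) ^ k * (R + 4)) + 1 with hR'
  obtain ⟨c0, s0, hc0, hcu⟩ := hCU (9 * R') (η / 2) (half_pos hη)
  refine ⟨c0⁻¹, R', 5 * s0 + 5, inv_pos.2 hc0, fun s hs a K0 hK0 hK0R F hF hBF f f0 f1 hf => ?_⟩
  -- the radii
  set n : ℕ := (R + 4) * s with hn
  have hn1 : 1 ≤ n := Nat.mul_pos (by omega) (by omega)
  set N : ℕ := 2 * ((K + 1) ^ k * n) with hN
  set D : Finset P2 := ball a (N + 1) with hD
  set A : Finset P2 := ball a ((R + 3) * s) with hA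
  have hNs : N + 1 ≤ R' * s := by
    have : R' * s = 2 * ((K + 1) ^ k * (R + 4)) * s + s := by rw [hR']; ring
    rw [this, hN, hn]
    have h2 : 2 * ((K + 1) ^ k * ((R + 4) * s)) = 2 * ((K + 1) ^ k * (R + 4)) * s := by ring
    rw [h2]
    omega
  have hDF : D ⊆ F := (ball_mono a hNs).trans hBF
  set s' : ℕ := s / 5 with hs'
  have h5 : 5 * s' ≤ s := by omega
  have hs0 : s0 ≤ s' := by omega
  have h9 : s ≤ 9 * s' := by omega
  have hA1 : (R + 3) * s = R * s + 3 * s := by ring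
  have hYball : nb K0 (2 * s) ⊆ ball a (R * s + 2 * s) := nb_sub hK0R le_rfl
  have hYA : nb K0 (2 * s) ⊆ A := hYball.trans (ball_mono a (by omega))
  have hYA' : ∀ t ∈ nb K0 (2 * s), ∀ t', Adj t t' → t' ∈ A := fun t ht t' ha =>
    ball_mono a (by omega) (adj_ball (hYball ht) ha)
  have hfin := outer hc (sc_ball a (N + 1)) hDF (nb_mono (S := K0) (r := s) (t := 2 * s) (by omega))
    hYA hYA' f0 f1 hf (η := η / 2) (η' := η / 2) (C := c0⁻¹) (half_pos hη).le (inv_pos.2 hc0).le ?_ ?_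
  · have : η / 2 + η / 2 = η := by ring
    rw [this] at hfin
    exact hfin
  · intro B hB hAB hBD g g0 g1 hg
    have hQB : nb K0 (2 * s) ⊆ IV B := by
      refine (hYball.trans (ball_mono a (show R * s + 2 * s ≤ R * s + 2 * s by omega))).trans
        (ball_sub_IV ?_)
      exact (ball_mono a (by omega)).trans hAB
    refine inner hx0 hx1 h5 hQB hc0 (fun τ hτ hτb => ?_) g0 g1 hg
    refine hcu s' hs0 a (IV B) (sc_IV hB) ?_ τ hτ hτb (nb K0 s) ?_ ?_
    · refine (IV_sub B).trans (hBD.trans (ball_mono a (hNs.trans ?_)))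
      calc R' * s ≤ R' * (9 * s') := Nat.mul_le_mul_left _ h9
        _ = 9 * R' * s' := by ring
    · obtain ⟨v, hv⟩ := hK0
      exact ⟨v, sub_nb K0 s hv⟩
    · exact (nb_nb (K := K0) (r := s) (d := 5 * s') (by omega)).trans hQB
  · -- the far layer
    have h1 := hR.iterP hc hF k hn1 (a := a) (g := fun _ => 1) (fun _ => zero_le_one) (offTZ_one _)
    rw [E_const hc F 1, mul_one] at h1
    simp only [one_mul] at h1
    refine le_trans (E_mono hc fun ω _ => ?_) (h1.trans hk)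
    rw [ind_compl]
    have h2 : ind (BlkP a n (2 * ((K + 1) ^ k * n))) ω ≤ LvI A D ω := by
      by_cases h3 : ω ∈ BlkP a n (2 * ((K + 1) ^ k * n))
      · rw [ind_of_mem h3]
        have h4 : A ⊆ PB D ω := by
          refine (ball_mono a (show (R + 3) * s ≤ n - 1 from ?_)).trans
            (ball_sub_Bg (k := n - 1) (m := n) (N := N) (by omega) ?_ h3)
          · have : n = R * s + 4 * s := by rw [hn]; ring
            omega
          · rw [hN]
            have : n ≤ (K + 1) ^ k * n := Nat.le_mul_of_pos_left _ (by positivity)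
            omega
        unfold LvI
        rw [if_pos h4]
      · rw [ind_of_not_mem h3]
        exact LvI_nonneg A D ω
    linarith

end Crest.Agent.R144.Lyf792
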