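import Crest.Agent.R144.Rsw0_867
import Crest.Agent.R144.It3_844
import Crest.Agent.R144.Lyf_792
import Crest.Agent.R144.Cov_792
import Crest.Agent.R144.Bx3_695
import Crest.Agent.R144.Mk1_696
import Crest.Agent.R144.Pos2_561
import Crest.Agent.R144.Hf10_702
import Crest.Agent.R144.Zs2_349
import Crest.Agent.R144.Hf2_702
import Crest.Agent.R144.Rw2_146
import Crest.Agent.R144.Den0_435

-- ▼ part R144/Cu1_867
section

/-!
# R144, S5 (contiguity), uniform form, part 1 (helper867)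

* `one A` : indicator of a set of heights;
* `Vs T k h` : sites off `T` and the sites reached from off `T` through `{k + 1 ≤ h}`; `Df T k h` : the rest
  without its boundary; the boundary values of `Df T k h` are `≤ k`;
* `Fk T T' k` : no path from off `T` to `T'` in `{k + 1 ≤ h}`;
* `Climb x K q` : one climbing step in a ball, arbitrary finite domain;
* `step` : `E[G 1_{Fk T T' k}] ≤ q^{-J} E[G 1_{Fk T T' k} 1_{Fk T' T'' (k-1)}]`.
-/

set_option autoImplicit false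

noncomputable section

namespace Crest.Agent.R144.Cu867

open Finset
open Crest.Agent.R144.It844
open Crest.Agent.R144.Zg349 (StepIn)
open Crest.Agent.R144.Rsw867 (ball mem_ball ball_mono adj_ball path_mono Sepr)
open Crest.ProbabilityR.HexHeights (Adj)
open Relation (ReflTransGen)

/-- heights -/
abbrev Hz : Type := P2 → ℤ

open Classical in
/-- indicator of a set of heights -/
def one (A : Set Hz) (h : Hz) : ℝ := if h ∈ A then 1 else 0

theorem one_nonneg (A : Set Hz) (h : Hz) : 0 ≤ one A h := by unfold one; split_ifs <;> norm_num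
theorem one_le_one (A : Set Hz) (h : Hz) : one A h ≤ 1 := by unfold one; split_ifs <;> norm_num
theorem one_of_mem {A : Set Hz} {h : Hz} (hh : h ∈ A) : one A h = 1 := if_pos hh
theorem one_of_not_mem {A : Set Hz} {h : Hz} (hh : h ∉ A) : one A h = 0 := if_neg hh
theorem one_le_one_of {A B : Set Hz} {h g : Hz} (hh : h ∈ A → g ∈ B) : one A h ≤ one B g := by
  by_cases h1 : h ∈ A
  · rw [one_of_mem h1, one_of_mem (hh h1)]
  · rw [one_of_not_mem h1]; exact one_nonneg _ _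
theorem one_congr {A B : Set Hz} {h g : Hz} (hh : h ∈ A ↔ g ∈ B) : one A h = one B g :=
  le_antisymm (one_le_one_of hh.1) (one_le_one_of hh.2)
theorem one_compl (A : Set Hz) (h : Hz) : one Aᶜ h = 1 - one A h := by
  by_cases h1 : h ∈ A
  · rw [one_of_mem h1, one_of_not_mem (show h ∉ Aᶜ from fun h2 => h2 h1)]; ring
  · rw [one_of_not_mem h1, one_of_mem (show h ∈ Aᶜ from h1)]; ring
theorem one_inter (A B : Set Hz) (h : Hz) : one (A ∩ B) h = one A h * one B h := by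
  by_cases h1 : h ∈ A
  · by_cases h2 : h ∈ B
    · rw [one_of_mem h1, one_of_mem h2, one_of_mem (show h ∈ A ∩ B from ⟨h1, h2⟩), mul_one]
    · rw [one_of_not_mem h2, one_of_not_mem (show h ∉ A ∩ B from fun h3 => h2 h3.2), mul_zero]
  · rw [one_of_not_mem h1, one_of_not_mem (show h ∉ A ∩ B from fun h3 => h1 h3.1), zero_mul]

/-- `G` depends only on the heights off `T` -/
def Off (T : Finset P2) (G : Hz → ℝ) : Prop := ∀ a b : Hz, (∀ v, v ∉ T → a v = b v) → G a = G b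

theorem Off.mono {T T' : Finset P2} (h : T' ⊆ T) {G : Hz → ℝ} (hG : Off T G) : Off T' G :=
  fun a b hab => hG a b fun v hv => hab v fun h1 => hv (h h1)

theorem Off.mul {T : Finset P2} {G G' : Hz → ℝ} (hG : Off T G) (hG' : Off T G') :
    Off T (fun h => G h * G' h) := fun a b hab => by
  show G a * G' a = G b * G' b
  rw [hG a b hab, hG' a b hab]

/-! ### the reach set -/

/-- allowed sites -/
def Al (T : Finset P2) (k : ℤ) (h : Hz) : Set P2 := {v | v ∉ T ∨ k + 1 ≤ h v}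

/-- the sites reached from off `T` through `{k + 1 ≤ h}` -/
def Vs (T : Finset P2) (k : ℤ) (h : Hz) : Set P2 :=
  {v | ∃ u, u ∉ T ∧ ReflTransGen (StepIn (Al T k h)) u v}

theorem off_Vs {T : Finset P2} {k : ℤ} {h : Hz} {v : P2} (hv : v ∉ T) : v ∈ Vs T k h :=
  ⟨v, hv, ReflTransGen.refl⟩

theorem Vs_sub_Al {T : Finset P2} {k : ℤ} {h : Hz} {v : P2} (hv : v ∈ Vs T k h) : v ∈ Al T k h := by
  obtain ⟨u, hu, p⟩ := hv
  induction p with
  | refl => exact Or.inl hu
  | tail _ hbd _ => exact hbd.2.1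

theorem Vs_step {T : Finset P2} {k : ℤ} {h : Hz} {v w : P2} (hv : v ∈ Vs T k h) (hvw : Adj v w)
    (hw : w ∈ Al T k h) : w ∈ Vs T k h := by
  have hvA := Vs_sub_Al hv
  obtain ⟨u, hu, p⟩ := hv
  exact ⟨u, hu, p.tail ⟨hvA, hw, hvw⟩⟩

open Classical in
/-- the sites whose closed neighbourhood avoids the reach set -/
def Df (T : Finset P2) (k : ℤ) (h : Hz) : Finset P2 :=
  T.filter fun v => v ∉ Vs T k h ∧ ∀ w, Adj w v → w ∉ Vs T k h

open Classical in
theorem mem_Df {T : Finset P2} {k : ℤ} {h : Hz} {v : P2} :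
    v ∈ Df T k h ↔ v ∉ Vs T k h ∧ ∀ w, Adj w v → w ∉ Vs T k h := by
  unfold Df
  rw [Finset.mem_filter, and_iff_right_iff_imp]
  intro h1
  by_contra h2
  exact h1.1 (off_Vs h2)

open Classical in
theorem Df_sub (T : Finset P2) (k : ℤ) (h : Hz) : Df T k h ⊆ T := by
  unfold Df
  exact Finset.filter_subset _ _

theorem Vs_congr {T : Finset P2} {k : ℤ} {h g : Hz} (hg : ∀ v, v ∉ Df T k h → g v = h v) :
    Vs T k g = Vs T k h := by
  ext v
  constructor
  · rintro ⟨u, hu, p⟩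
    induction p with
    | refl => exact off_Vs hu
    | @tail b d _ hbd ih =>
      refine Vs_step ih hbd.2.2 ?_
      rcases hbd.2.1 with h1 | h1
      · exact Or.inl h1
      · refine Or.inr ?_
        have h2 : d ∉ Df T k h := fun h3 => (mem_Df.1 h3).2 b hbd.2.2 ih
        rwa [hg d h2] at h1
  · rintro ⟨u, hu, p⟩
    -- every site of the path is in the reach set
    have key : ∀ w, ReflTransGen (StepIn (Al T k h)) u w → w ∈ Vs T k h ∧ w ∈ Vs T k g := by
      intro w q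
      induction q with
      | refl => exact ⟨off_Vs hu, off_Vs hu⟩
      | @tail b d _ hbd ih =>
        have h1 : d ∈ Vs T k h := Vs_step ih.1 hbd.2.2 hbd.2.1
        refine ⟨h1, Vs_step ih.2 hbd.2.2 ?_⟩
        rcases hbd.2.1 with h2 | h2
        · exact Or.inl h2
        · refine Or.inr ?_
          have h3 : d ∉ Df T k h := fun h4 => (mem_Df.1 h4).1 h1
          rwa [hg d h3]
    exact (key v p).2

theorem Df_congr {T : Finset P2} {k : ℤ} {h g : Hz} (hg : ∀ v, v ∉ Df T k h → g v = h v) :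
    Df T k g = Df T k h := by
  ext v
  rw [mem_Df, mem_Df, Vs_congr hg]

/-- **boundary values** -/
theorem bd_le {T : Finset P2} {k : ℤ} {h : Hz} {v : P2} (hv : v ∉ Df T k h)
    (hvD : ∃ w ∈ Df T k h, Adj w v) : h v ≤ k := by
  obtain ⟨w, hw, hwv⟩ := hvD
  have h1 : v ∉ Vs T k h := (mem_Df.1 hw).2 v (adj_symm hwv)
  rw [mem_Df] at hv
  push Not at hv
  obtain ⟨z, hzv, hz⟩ := hv h1
  by_contra h2
  exact h1 (Vs_step hz hzv (Or.inr (by omega)))

/-! ### no path -/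

/-- no path from off `T` to `T'` through `{k + 1 ≤ h}` -/
def Fk (T T' : Finset P2) (k : ℤ) : Set Hz := {h | ∀ v ∈ T', v ∉ Vs T k h}

theorem Vs_mono {T : Finset P2} {k : ℤ} {a b : Hz} (hab : ∀ v ∈ T, a v ≤ b v) :
    Vs T k a ⊆ Vs T k b := by
  rintro v ⟨u, hu, p⟩
  refine ⟨u, hu, path_mono ?_ p⟩
  intro w hw
  by_cases hwT : w ∈ T
  · rcases hw with h1 | h1
    · exact Or.inl h1
    · exact Or.inr (h1.trans (hab w hwT))
  · exact Or.inl hwT

theorem Fk_anti {T T' : Finset P2} {k : ℤ} {a b : Hz} (hab : ∀ v ∈ T, a v ≤ b v)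
    (hb : b ∈ Fk T T' k) : a ∈ Fk T T' k := fun v hv h1 => hb v hv (Vs_mono hab h1)

theorem Fk_congr {T T' : Finset P2} {k : ℤ} {a b : Hz} (hab : ∀ v ∈ T, a v = b v) :
    a ∈ Fk T T' k ↔ b ∈ Fk T T' k :=
  ⟨Fk_anti fun v hv => (hab v hv).symm.le, Fk_anti fun v hv => (hab v hv).le⟩

/-- `Fk T T' k` depends on the heights of `T` -/
theorem off_Fk {T T' S : Finset P2} {k : ℤ} (hTS : Disjoint T S) : Off S (one (Fk T T' k)) :=
  fun _ _ hab => one_congr (Fk_congr fun v hv => hab v (Finset.disjoint_left.1 hTS hv))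

/-! ### one climbing step -/

/-- one climbing step in a ball, arbitrary finite domain -/
def Climb (x : ℝ) (K : ℕ) (q : ℝ) : Prop :=
  ∀ n : ℕ, 1 ≤ n → ∀ (y : P2) (Λ' : Finset P2), ball y (K * n) ⊆ Λ' → ∀ τ : Hz, Lip τ → ∀ k : ℤ,
    (∀ v, v ∉ Λ' → (∃ w ∈ Λ', Adj w v) → τ v ≤ k) →
      q ≤ ex x Λ' τ (one {h | Sepr {v | h v ≤ k - 1} y n (2 * n)})

theorem sepr_anti {k : ℤ} {y : P2} {m N : ℕ} {a b : Hz} (hab : a ≤ b)
    (hb : b ∈ {h : Hz | Sepr {v | h v ≤ k} y m N}) : a ∈ {h : Hz | Sepr {v | h v ≤ k} y m N} :=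
  Sepr.mono (fun v (hv : b v ≤ k) => (hab v).trans hv) hb

/-- FKG for decreasing events -/
theorem fkg_one {x : ℝ} (hx0 : 0 < x) (hx1 : x ≤ 1) {Λ : Finset P2} {τ : Hz} (hτ : Lip τ)
    {ι : Type*} (S : Finset ι) (A : ι → Set Hz)
    (hA : ∀ i ∈ S, ∀ a b : Hz, a ≤ b → b ∈ A i → a ∈ A i) {q : ℝ} (hq : 0 ≤ q)
    (hp : ∀ i ∈ S, q ≤ ex x Λ τ (one (A i))) :
    q ^ S.card ≤ ex x Λ τ (one {h | ∀ i ∈ S, h ∈ A i}) := by
  classical
  induction S using Finset.induction_on with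
  | empty =>
    have : ex x Λ τ (one {h | ∀ i ∈ (∅ : Finset ι), h ∈ A i}) = 1 := by
      rw [← ex_const hx0 hτ (x := x) (Λ := Λ) (1 : ℝ)]
      exact ex_congr fun a _ => one_of_mem (by simp)
    rw [this]; simp
  | insert i S hi ih =>
    rw [Finset.card_insert_of_notMem hi, pow_succ]
    have h1 := ih (fun j hj => hA j (Finset.mem_insert_of_mem hj))
      (fun j hj => hp j (Finset.mem_insert_of_mem hj))
    have h2 := hp i (Finset.mem_insert_self i S)
    have h3 := fkg hx0 hx1 hτ (Λ := Λ) (f := fun h => - one {h | ∀ i ∈ S, h ∈ A i} h)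
      (g := fun h => - one (A i) h)
      (fun a _ b _ hab => neg_le_neg (one_le_one_of fun hb j hj =>
        hA j (Finset.mem_insert_of_mem hj) a b hab (hb j hj)))
      (fun a _ b _ hab => neg_le_neg (one_le_one_of fun hb =>
        hA i (Finset.mem_insert_self i S) a b hab hb))
    have en : ∀ f : Hz → ℝ, ex x Λ τ (fun h => - f h) = - ex x Λ τ f := by
      intro f
      have := ex_smul (x := x) (Λ := Λ) (τ := τ) (-1 : ℝ) f
      simpa using this
    rw [en, en, neg_mul_neg] at h3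
    have h4 : ex x Λ τ (fun h => - one {h | ∀ i ∈ S, h ∈ A i} h * - one (A i) h) =
        ex x Λ τ (one {h | ∀ j ∈ insert i S, h ∈ A j}) := by
      refine ex_congr fun a _ => ?_
      rw [neg_mul_neg, ← one_inter]
      refine one_congr ?_
      simp only [Set.mem_inter_iff, Set.mem_ofPred_eq, Finset.forall_mem_insert]
      tauto
    rw [h4] at h3
    exact (mul_le_mul h1 h2 hq (ex_nonneg fun a _ => one_nonneg _ _)).trans h3

/-- the cover property of a finite set of balls: if all of them are blocked, no path from off `T'` to `T''` -/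
def Cover (T' T'' : Finset P2) (S : Finset (P2 × ℕ)) : Prop :=
  ∀ S' : Set P2, (∀ y ∈ S, Sepr S' y.1 y.2 (2 * y.2)) → ∀ u v, u ∉ T' → v ∈ T'' →
    ¬ ReflTransGen (StepIn S'ᶜ) u v

/-- **one step** -/
theorem step {x : ℝ} (hx0 : 0 < x) (hx1 : x ≤ 1) {K : ℕ} {q : ℝ} (hq : 0 < q) (hC : Climb x K q)
    (hK : 2 ≤ K) {T T' T'' Λ : Finset P2} (hTΛ : T ⊆ Λ) {S : Finset (P2 × ℕ)}
    (hS : ∀ y ∈ S, 1 ≤ y.2 ∧ ball y.1 (K * y.2 + 1) ⊆ T') (hcov : Cover T' T'' S) {τ : Hz} {k : ℤ}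
    {G : Hz → ℝ} (hG0 : ∀ h, 0 ≤ G h) (hG : Off T G) :
    q ^ S.card * ex x Λ τ (fun h => G h * one (Fk T T' k) h) ≤
      ex x Λ τ (fun h => G h * one (Fk T T' k) h * one (Fk T' T'' (k - 1)) h) := by
  classical
  have hφ : ∀ h : Hz, ∀ g ∈ conf (Df T k h) h, G g * one (Fk T T' k) g = G h * one (Fk T T' k) h := by
    intro h g hg
    have hg2 := (mem_conf.1 hg).2
    have h1 : G g = G h := hG g h fun v hv => hg2 v fun h2 => hv (Df_sub T k h h2)
    have h2 : one (Fk T T' k) g = one (Fk T T' k) h := by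
      refine one_congr ?_
      show (∀ v ∈ T', v ∉ Vs T k g) ↔ (∀ v ∈ T', v ∉ Vs T k h)
      rw [Vs_congr hg2]
    rw [h1, h2]
  have key := ex_tower_smul hx0 (Λ := Λ) (τ := τ) (fun h => Df T k h)
    (fun h _ => (Df_sub T k h).trans hTΛ)
    (fun h _ g hg => Df_congr (mem_conf.1 hg).2)
    (fun h => G h * one (Fk T T' k) h) (fun h _ g hg => hφ h g hg) (one (Fk T' T'' (k - 1)))
  simp only [smul_eq_mul] at key
  rw [key, ← smul_eq_mul, ← ex_smul]
  refine ex_mono fun h hh => ?_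
  have hhL := (mem_conf.1 hh).1
  rw [smul_eq_mul]
  by_cases hF : h ∈ Fk T T' k
  · rw [one_of_mem hF, mul_one, mul_comm]
    refine mul_le_mul_of_nonneg_left ?_ (hG0 h)
    have hball : ∀ y ∈ S, ball y.1 (K * y.2) ⊆ Df T k h := by
      intro y hy v hv
      rw [mem_Df]
      exact ⟨hF v ((hS y hy).2 (ball_mono y.1 (Nat.le_succ _) hv)), fun w hw =>
        hF w ((hS y hy).2 (adj_ball hv (adj_symm hw)))⟩
    have h1 := fkg_one hx0 hx1 hhL (Λ := Df T k h) S
      (fun y => {g : Hz | Sepr {v | g v ≤ k - 1} y.1 y.2 (2 * y.2)})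
      (fun y _ a b hab hb => sepr_anti hab hb) hq.le
      (fun y hy => hC y.2 (hS y hy).1 y.1 _ (hball y hy) h hhL k fun v hv hv' => bd_le hv hv')
    refine h1.trans (ex_mono fun g _ => one_le_one_of fun hg => ?_)
    -- blocked balls block the path
    intro v hv ⟨u, hu, p⟩
    set S' : Set P2 := {w | w ∈ T' ∧ g w ≤ k - 1} with hS'
    refine hcov S' (fun y hy => ?_) u v hu hv (path_mono (fun w hw => ?_) p)
    · refine Sepr.congr (S := {w | g w ≤ k - 1}) (by omega) (fun t ht _ ht' => ⟨?_, ht'⟩) (hg y hy)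
      refine (hS y hy).2 (ball_mono y.1 ?_ ht)
      have := Nat.mul_le_mul_right y.2 hK
      omega
    · rintro ⟨h2, h3⟩
      rcases hw with h4 | h4
      · exact h4 h2
      · omega
  · rw [one_of_not_mem hF]
    simp

end Crest.Agent.R144.Cu867
end
end

-- ▼ part R144/Cu2_867
section

/-!
# R144, S5 (contiguity), uniform form, part 2 (helper867): one shell

* `nb K0 r`, `sh K0 a b = nb K0 b \ nb K0 a`;
* `COV K` (geometry of covers), `TightHi x` (tightness of crossing heights);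
* `p1` : conditionally on all heights off the shell `sh K0 r (r + s)`, outside an `η`-set the shell is not
  crossed by `{1 ≤ h}` with probability `≥ c(η)`, in the form `E G ≤ η + C E[G 1_A]`.
-/

set_option autoImplicit false

noncomputable section

namespace Crest.Agent.R144.Cu867

open Finset
open Crest.Agent.R144.It844
open Crest.Agent.R144.Zg349 (StepIn)
open Crest.Agent.R144.Pst967 (path_symm)
open Crest.Agent.R144.Rsw867 (ball mem_ball ball_mono adj_ball path_mono Sepr)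
open Crest.ProbabilityR.HexHeights (Adj)
open Relation (ReflTransGen)

/-- `r`-neighbourhood -/
def nb (S : Finset P2) (r : ℕ) : Finset P2 := S.biUnion fun v => ball v r

theorem mem_nb {S : Finset P2} {r : ℕ} {v : P2} : v ∈ nb S r ↔ ∃ w ∈ S, v ∈ ball w r := by
  unfold nb
  rw [Finset.mem_biUnion]

theorem nb_mono (S : Finset P2) {r r' : ℕ} (h : r ≤ r') : nb S r ⊆ nb S r' := fun v hv => by
  rw [mem_nb] at *
  obtain ⟨w, hw, h1⟩ := hv
  exact ⟨w, hw, ball_mono w h h1⟩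

theorem adj_nb {S : Finset P2} {r : ℕ} {v w : P2} (hv : v ∈ nb S r) (h : Adj v w) :
    w ∈ nb S (r + 1) := by
  rw [mem_nb] at *
  obtain ⟨z, hz, h1⟩ := hv
  exact ⟨z, hz, adj_ball h1 h⟩

/-- shell -/
def sh (K0 : Finset P2) (a b : ℕ) : Finset P2 := nb K0 b \ nb K0 a

theorem mem_sh {K0 : Finset P2} {a b : ℕ} {v : P2} : v ∈ sh K0 a b ↔ v ∈ nb K0 b ∧ v ∉ nb K0 a := by
  unfold sh
  rw [Finset.mem_sdiff]

theorem sh_mono (K0 : Finset P2) {a a' b b' : ℕ} (ha : a ≤ a') (hb : b' ≤ b) :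
    sh K0 a' b' ⊆ sh K0 a b := fun v hv => by
  rw [mem_sh] at *
  exact ⟨nb_mono K0 hb hv.1, fun h => hv.2 (nb_mono K0 ha h)⟩

theorem sh_disj (K0 : Finset P2) {a b a' b' : ℕ} (h : b ≤ a') : Disjoint (sh K0 a b) (sh K0 a' b') := by
  rw [Finset.disjoint_left]
  intro v hv hv'
  rw [mem_sh] at *
  exact hv'.2 (nb_mono K0 h hv.1)

/-- **geometry of covers** (input) -/
def COV (K : ℕ) : Prop :=
  ∀ R w : ℕ, 1 ≤ R → 1 ≤ w → ∃ J s0 : ℕ, ∀ s ≥ s0, ∀ (a : P2) (K0 : Finset P2), K0.Nonempty →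
    K0 ⊆ ball a (R * s) → ∀ r d : ℕ, r + d ≤ R * s → s ≤ w * d → ∃ (n : ℕ) (S : Finset P2),
      1 ≤ n ∧ s ≤ J * n ∧ S.card ≤ J ∧ (∀ y ∈ S, ball y (K * n + 1) ⊆ nb K0 (r + d) \ nb K0 r) ∧
      ∀ S' : Set P2, (∀ y ∈ S, Sepr S' y n (2 * n)) → ∀ u ∈ nb K0 r, ∀ v, v ∉ nb K0 (r + d) →
        ¬ ReflTransGen (StepIn S'ᶜ) u v

/-- **tightness of crossing heights** (input) -/
def TightHi (x : ℝ) : Prop :=
  ∀ (A : ℕ) (ε : ℝ), 0 < ε → ∃ M : ℕ, ∀ n : ℕ, 1 ≤ n → ∀ (o a : P2) (Λ : Finset P2),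
    Λ ⊆ ball o (A * n) → ∀ τ : Hz, Lip τ → (∀ v, v ∉ Λ → τ v ≤ 1) →
      ex x Λ τ (one {h | ¬ Sepr {v | h v < (M : ℤ)} a n (2 * n)}) ≤ ε

/-- cover of the two sides of a shell -/
theorem two_sided {K : ℕ} {J R s w : ℕ} {K0 : Finset P2} {d α β : ℕ}
    (hcov : ∀ r d : ℕ, r + d ≤ R * s → s ≤ w * d → ∃ (n : ℕ) (S : Finset P2),
      1 ≤ n ∧ s ≤ J * n ∧ S.card ≤ J ∧ (∀ y ∈ S, ball y (K * n + 1) ⊆ nb K0 (r + d) \ nb K0 r) ∧
      ∀ S' : Set P2, (∀ y ∈ S, Sepr S' y n (2 * n)) → ∀ u ∈ nb K0 r, ∀ v, v ∉ nb K0 (r + d) →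
        ¬ ReflTransGen (StepIn S'ᶜ) u v)
    (hd : s ≤ w * d) (hαβ : α + d ≤ β) (hβ : β ≤ R * s) :
    ∃ S : Finset (P2 × ℕ), S.card ≤ 2 * J ∧ (∀ y ∈ S, 1 ≤ y.2 ∧ s ≤ J * y.2 ∧
      ball y.1 (K * y.2 + 1) ⊆ sh K0 α β) ∧ Cover (sh K0 α β) (sh K0 (α + d) (β - d)) S := by
  classical
  obtain ⟨n1, S1, h1, h2, h3, h4, h5⟩ := hcov α d (by omega) hd
  obtain ⟨n2, S2, k1, k2, k3, k4, k5⟩ := hcov (β - d) d (by omega) hd
  have eβ : β - d + d = β := by omega
  rw [eβ] at k4 k5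
  refine ⟨S1.image (fun y => (y, n1)) ∪ S2.image (fun y => (y, n2)), ?_, ?_, ?_⟩
  · refine (Finset.card_union_le _ _).trans ?_
    have := Finset.card_image_le (s := S1) (f := fun y => (y, n1))
    have := Finset.card_image_le (s := S2) (f := fun y => (y, n2))
    omega
  · intro y hy
    rw [Finset.mem_union, Finset.mem_image, Finset.mem_image] at hy
    rcases hy with ⟨z, hz, rfl⟩ | ⟨z, hz, rfl⟩
    · exact ⟨h1, h2, (h4 z hz).trans (sh_mono K0 le_rfl hαβ)⟩
    · exact ⟨k1, k2, (k4 z hz).trans (sh_mono K0 (by omega) le_rfl)⟩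
  · intro S' hS' u v hu hv p
    rw [mem_sh] at hu hv
    by_cases hu' : u ∈ nb K0 α
    · refine h5 S' (fun y hy => hS' (y, n1) ?_) u hu' v hv.2 p
      exact Finset.mem_union_left _ (Finset.mem_image_of_mem _ hy)
    · refine k5 S' (fun y hy => hS' (y, n2) ?_) v hv.1 u (fun h => hu ⟨h, hu'⟩) (path_symm p)
      exact Finset.mem_union_right _ (Finset.mem_image_of_mem _ hy)

/-- no path through `{1 ≤ h}` across the shell -/
def Up (K0 : Finset P2) (a b : ℕ) : Set Hz :=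
  {h | ∀ u ∈ nb K0 a, ∀ v, v ∉ nb K0 b → ¬ ReflTransGen (StepIn {v | 1 ≤ h v}) u v}

/-- no path through `{h ≤ 0}` across the shell -/
def Dn (K0 : Finset P2) (a b : ℕ) : Set Hz :=
  {h | ∀ u ∈ nb K0 a, ∀ v, v ∉ nb K0 b → ¬ ReflTransGen (StepIn {v | h v ≤ 0}) u v}

theorem up_of_Fk {K0 : Finset P2} {a a' a'' b'' b' b : ℕ} (h1 : a ≤ a') (h2 : a' ≤ a'')
    (h3 : a'' + 1 ≤ b'') (h4 : b'' ≤ b') (h5 : b' ≤ b) :
    Fk (sh K0 a' b') (sh K0 a'' b'') 0 ⊆ Up K0 a b := by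
  intro h hh u hu v hv p
  have huT : u ∉ sh K0 a' b' := fun h6 => (mem_sh.1 h6).2 (nb_mono K0 h1 hu)
  have key : ∀ w, ReflTransGen (StepIn {v | 1 ≤ h v}) u w →
      w ∈ Vs (sh K0 a' b') 0 h ∧ w ∈ nb K0 a'' := by
    intro w q
    induction q with
    | refl => exact ⟨off_Vs huT, nb_mono K0 (h1.trans h2) hu⟩
    | @tail c d _ hcd ih =>
      have h6 : d ∈ Vs (sh K0 a' b') 0 h := Vs_step ih.1 hcd.2.2 (Or.inr (by
        have : 1 ≤ h d := hcd.2.1
        omega))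
      refine ⟨h6, ?_⟩
      by_contra h7
      refine hh d (mem_sh.2 ⟨?_, h7⟩) h6
      exact nb_mono K0 h3 (adj_nb ih.2 hcd.2.2)
  exact hv (nb_mono K0 (by omega) (key v p).2)

/-- iteration of the climbing step -/
theorem iter {x : ℝ} (hx0 : 0 < x) (hx1 : x ≤ 1) {K : ℕ} {q : ℝ} (hq : 0 < q) (hq1 : q ≤ 1)
    (hC : Climb x K q) (hK : 2 ≤ K) {Λ : Finset P2} {T : ℕ → Finset P2} {M J : ℕ}
    (hT0 : T 0 ⊆ Λ) (hT : ∀ i, T (i + 1) ⊆ T i)
    (hS : ∀ i < M, ∃ S : Finset (P2 × ℕ), S.card ≤ J ∧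
      (∀ y ∈ S, 1 ≤ y.2 ∧ ball y.1 (K * y.2 + 1) ⊆ T (i + 1)) ∧ Cover (T (i + 1)) (T (i + 2)) S)
    {τ : Hz} {G : Hz → ℝ} (hG0 : ∀ h, 0 ≤ G h) (hG : Off (T 0) G) :
    ∀ i ≤ M, (q ^ J) ^ i * ex x Λ τ (fun h => G h * one (Fk (T 0) (T 1) M) h) ≤
      ex x Λ τ (fun h => G h * one (Fk (T i) (T (i + 1)) (M - i : ℤ)) h) := by
  have hTi : ∀ i, T i ⊆ T 0 := by
    intro i
    induction i with
    | zero => exact Finset.Subset.refl _
    | succ i ih => exact (hT i).trans ih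
  intro i
  induction i with
  | zero =>
    intro _
    simp
  | succ i ih =>
    intro hi
    have ih' := ih (by omega)
    obtain ⟨S, hS1, hS2, hS3⟩ := hS i (by omega)
    have h1 := step hx0 hx1 hq hC hK ((hTi i).trans hT0) hS2 hS3 (τ := τ) (k := (M - i : ℤ)) hG0
      (hG.mono (hTi i))
    have h2 : q ^ J ≤ q ^ S.card := pow_le_pow_of_le_one hq.le hq1 hS1
    have h3 : 0 ≤ ex x Λ τ (fun h => G h * one (Fk (T i) (T (i + 1)) (M - i : ℤ)) h) :=
      ex_nonneg fun h _ => mul_nonneg (hG0 h) (one_nonneg _ _)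
    have h4 : ex x Λ τ (fun h => G h * one (Fk (T i) (T (i + 1)) (M - i : ℤ)) h *
        one (Fk (T (i + 1)) (T (i + 2)) ((M - i : ℤ) - 1)) h) ≤
        ex x Λ τ (fun h => G h * one (Fk (T (i + 1)) (T (i + 1 + 1)) (M - (i + 1 : ℕ) : ℤ)) h) := by
      refine ex_mono fun h _ => ?_
      have e : ((M : ℤ) - i) - 1 = (M : ℤ) - ((i + 1 : ℕ) : ℤ) := by push_cast; ring
      rw [e]
      refine mul_le_mul_of_nonneg_right ?_ (one_nonneg _ _)
      exact mul_le_of_le_one_right (hG0 h) (one_le_one _ _)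
    calc (q ^ J) ^ (i + 1) * ex x Λ τ (fun h => G h * one (Fk (T 0) (T 1) M) h)
        = q ^ J * ((q ^ J) ^ i * ex x Λ τ (fun h => G h * one (Fk (T 0) (T 1) M) h)) := by ring
      _ ≤ q ^ J * ex x Λ τ (fun h => G h * one (Fk (T i) (T (i + 1)) (M - i : ℤ)) h) :=
          mul_le_mul_of_nonneg_left ih' (by positivity)
      _ ≤ q ^ S.card * ex x Λ τ (fun h => G h * one (Fk (T i) (T (i + 1)) (M - i : ℤ)) h) :=
          mul_le_mul_of_nonneg_right h2 h3
      _ ≤ _ := h1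
      _ ≤ _ := h4

theorem ex_sum {x : ℝ} (hx0 : 0 < x) {Λ : Finset P2} {τ : Hz} (hτ : Lip τ) {ι : Type*} (S : Finset ι)
    (f : ι → Hz → ℝ) : ex x Λ τ (fun h => ∑ i ∈ S, f i h) = ∑ i ∈ S, ex x Λ τ (f i) := by
  classical
  induction S using Finset.induction_on with
  | empty =>
    simp only [Finset.sum_empty]
    exact ex_const hx0 hτ (0 : ℝ)
  | insert y S hy ih =>
    simp only [Finset.sum_insert hy]
    rw [ex_add, ih]

/-- union bound for the first shell -/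
theorem first {x : ℝ} (hx0 : 0 < x) {K : ℕ} (hK : 2 ≤ K) {Λ T T' : Finset P2}
    {S : Finset (P2 × ℕ)} (hS : ∀ y ∈ S, 1 ≤ y.2 ∧ ball y.1 (K * y.2 + 1) ⊆ T)
    (hcov : Cover T T' S) {τ : Hz} (hτ : Lip τ) {M : ℕ} {ε : ℝ}
    (hM : ∀ y ∈ S, ex x Λ τ (one {h | ¬ Sepr {v | h v < (M : ℤ)} y.1 y.2 (2 * y.2)}) ≤ ε) :
    ex x Λ τ (one (Fk T T' M)ᶜ) ≤ S.card * ε := by
  classical
  have h1 : ex x Λ τ (one (Fk T T' M)ᶜ) ≤
      ∑ y ∈ S, ex x Λ τ (one {h | ¬ Sepr {v | h v < (M : ℤ)} y.1 y.2 (2 * y.2)}) := by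
    rw [← ex_sum hx0 hτ]
    refine ex_mono fun h _ => ?_
    by_cases hF : h ∈ Fk T T' M
    · rw [one_of_not_mem (show h ∉ (Fk T T' M)ᶜ from fun h2 => h2 hF)]
      exact Finset.sum_nonneg fun y _ => one_nonneg _ _
    · have h2 : ∃ y ∈ S, ¬ Sepr {v | h v < (M : ℤ)} y.1 y.2 (2 * y.2) := by
        by_contra hcon
        push Not at hcon
        apply hF
        intro v hv ⟨u, hu, p⟩
        refine hcov {w | w ∈ T ∧ h w < (M : ℤ)} (fun y hy => ?_) u v hu hv
          (path_mono (fun w hw => ?_) p)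
        · refine Sepr.congr (S := {v | h v < (M : ℤ)}) (by omega) (fun t ht _ ht' => ⟨?_, ht'⟩) (hcon y hy)
          refine (hS y hy).2 (ball_mono y.1 ?_ ht)
          have := Nat.mul_le_mul_right y.2 hK
          omega
        · rintro ⟨h3, h4⟩
          rcases hw with h5 | h5
          · exact h5 h3
          · omega
      obtain ⟨y, hy, hy'⟩ := h2
      have h3 := Finset.single_le_sum (s := S) (f := fun y => one {h : Hz | ¬ Sepr {v | h v < (M : ℤ)} y.1
        y.2 (2 * y.2)} h) (fun z _ => one_nonneg _ _) hy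
      refine le_trans (one_le_one _ _) (le_trans (le_of_eq ?_) h3)
      exact (one_of_mem (show h ∈ {h : Hz | ¬ Sepr {v | h v < (M : ℤ)} y.1 y.2 (2 * y.2)} from hy')).symm
  refine h1.trans ((Finset.sum_le_sum hM).trans (le_of_eq ?_))
  rw [Finset.sum_const, nsmul_eq_mul]

/-- **one shell** -/
theorem p1 {x : ℝ} (hx0 : 0 < x) (hx1 : x ≤ 1) {K : ℕ} {q : ℝ} (hq : 0 < q) (hq1 : q ≤ 1)
    (hC : Climb x K q) (hK : 2 ≤ K) (hcov : COV K) (hT : TightHi x) {R : ℕ} (hR : 1 ≤ R) {η : ℝ}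
    (hη : 0 < η) : ∃ (C : ℝ) (s0 : ℕ), 1 ≤ C ∧ ∀ s ≥ s0, ∀ (o : P2) (Λ K0 : Finset P2), K0.Nonempty →
      Λ ⊆ ball o (R * s) → ∀ r : ℕ, r + s ≤ R * s → nb K0 (r + s) ⊆ Λ → ∃ A : Set Hz,
        A ⊆ Up K0 r (r + s) ∧ (∀ S, Disjoint (sh K0 r (r + s)) S → Off S (one A)) ∧
        ∀ τ : Hz, Lip τ → (∀ v, v ∉ Λ → τ v ≤ 1) → ∀ G : Hz → ℝ, (∀ h, 0 ≤ G h) → (∀ h, G h ≤ 1) →
          Off (sh K0 r (r + s)) G → ex x Λ τ G ≤ η + C * ex x Λ τ (fun h => G h * one A h) := by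
  classical
  obtain ⟨J0, s00, hJ0⟩ := hcov R 16 hR (by norm_num)
  obtain ⟨M, hM⟩ := hT (R * J0) (η / (2 * J0 + 1)) (by positivity)
  obtain ⟨J1, s01, hJ1⟩ := hcov R (16 * (M + 1)) hR (by omega)
  refine ⟨((q ^ (2 * J1)) ^ M)⁻¹, max (max s00 s01) (16 * (M + 1)), ?_, ?_⟩
  · refine (one_le_inv₀ (by positivity)).2 ?_
    exact pow_le_one₀ (by positivity) (pow_le_one₀ hq.le hq1)
  intro s hs o Λ K0 hK0 hΛ r hr hnb
  have hs0 : s00 ≤ s := (le_max_left _ _).trans ((le_max_left _ _).trans hs)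
  have hs1 : s01 ≤ s := (le_max_right _ _).trans ((le_max_left _ _).trans hs)
  have hs2 : 16 * (M + 1) ≤ s := (le_max_right _ _).trans hs
  have hK0b : K0 ⊆ ball o (R * s) := fun v hv => hΛ (hnb (mem_nb.2 ⟨v, hv, by
    rw [mem_ball]; simp; positivity⟩))
  have c0 := hJ0 s hs0 o K0 hK0 hK0b
  have c1 := hJ1 s hs1 o K0 hK0 hK0b
  set w0 := s / 8 with hw0
  set d := s / (8 * (M + 1)) with hd
  have hw1 : s ≤ 16 * w0 := by omega
  have hw2 : 8 * w0 ≤ s := by omega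
  have hd2 : 8 * (M + 1) * d ≤ s := Nat.mul_div_le s _
  have hd1 : s ≤ 16 * (M + 1) * d := by
    have h1 := Nat.lt_mul_div_succ s (show 0 < 8 * (M + 1) by omega)
    rw [← hd] at h1
    have e1 : 8 * (M + 1) * (d + 1) = 8 * (M + 1) * d + 8 * (M + 1) := by ring
    have e2 : 16 * (M + 1) * d = 2 * (8 * (M + 1) * d) := by ring
    omega
  have hMd : ∀ i ≤ M + 1, 8 * (i * d) ≤ s := by
    intro i hi
    have h1 : i * d ≤ (M + 1) * d := Nat.mul_le_mul_right d hi
    have e1 : 8 * (M + 1) * d = 8 * ((M + 1) * d) := by ring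
    omega
  set T : ℕ → Finset P2 := fun i => Nat.casesOn i (sh K0 r (r + s))
    (fun i => sh K0 (r + w0 + i * d) (r + s - w0 - i * d)) with hTdef
  have T0 : T 0 = sh K0 r (r + s) := rfl
  have TS : ∀ i, T (i + 1) = sh K0 (r + w0 + i * d) (r + s - w0 - i * d) := fun i => rfl
  have hTm : ∀ i, T (i + 1) ⊆ T i := by
    intro i
    rcases i with _ | i
    · rw [T0, TS]
      exact sh_mono K0 (by omega) (by omega)
    · rw [TS, TS]
      have e1 : i * d ≤ (i + 1) * d := Nat.mul_le_mul_right d (Nat.le_succ i)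
      exact sh_mono K0 (Nat.add_le_add_left e1 _) (Nat.sub_le_sub_left e1 _)
  have hTi : ∀ i, T i ⊆ T 0 := by
    intro i
    induction i with
    | zero => exact Finset.Subset.refl _
    | succ i ih => exact (hTm i).trans ih
  have hT0 : T 0 ⊆ Λ := fun v hv => hnb (mem_sh.1 hv).1
  have hSi : ∀ i < M, ∃ S : Finset (P2 × ℕ), S.card ≤ 2 * J1 ∧
      (∀ y ∈ S, 1 ≤ y.2 ∧ ball y.1 (K * y.2 + 1) ⊆ T (i + 1)) ∧
        Cover (T (i + 1)) (T (i + 2)) S := by
    intro i hi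
    have h1 := hMd (i + 1) (by omega)
    have e1 : (i + 1) * d = i * d + d := by ring
    have h2 : i * d ≤ (i + 1) * d := Nat.mul_le_mul_right d (Nat.le_succ i)
    rw [e1] at h1 h2
    obtain ⟨S, k1, k2, k3⟩ := two_sided (α := r + w0 + i * d) (β := r + s - w0 - i * d) c1 hd1
      (by omega) (by omega)
    refine ⟨S, k1, fun y hy => ⟨(k2 y hy).1, (k2 y hy).2.2⟩, ?_⟩
    rw [TS, TS]
    rw [e1]
    have e2 : r + w0 + (i * d + d) = r + w0 + i * d + d := by omega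
    have e3 : r + s - w0 - (i * d + d) = r + s - w0 - i * d - d := by omega
    rw [e2, e3]
    exact k3
  refine ⟨Fk (T M) (T (M + 1)) 0, ?_, fun S hS => off_Fk ?_, ?_⟩
  · rw [TS]
    have h1 := hMd M (by omega)
    rcases M with _ | M'
    · rw [T0]
      exact up_of_Fk le_rfl (by omega) (by omega) (by omega) le_rfl
    · rw [TS]
      have e1 : (M' + 1) * d = M' * d + d := by ring
      have h2 : M' * d ≤ (M' + 1) * d := Nat.mul_le_mul_right d (Nat.le_succ M')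
      rw [e1] at h1 h2 ⊢
      exact up_of_Fk (by omega) (by omega) (by omega) (by omega) (by omega)
  · exact Finset.disjoint_of_subset_left (hTi M) hS
  · intro τ hτ hτ1 G hG0 hG1 hGo
    -- first shell
    obtain ⟨S, k1, k2, k3⟩ := two_sided (α := r) (β := r + s) (d := w0) c0 hw1 (by omega) (by omega)
    have hfirst : ex x Λ τ (one (Fk (T 0) (T 1) M)ᶜ) ≤ η := by
      have h1 := first (x := x) hx0 hK (Λ := Λ) (T := T 0) (T' := T 1) (S := S)
        (fun y hy => ⟨(k2 y hy).1, (k2 y hy).2.2⟩) (by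
          have e1 : T 1 = sh K0 (r + w0) (r + s - w0) := by
            refine (TS 0).trans ?_
            rw [zero_mul, add_zero, Nat.sub_zero]
          rw [e1]; exact k3) hτ (M := M) (ε := η / (2 * J0 + 1)) (fun y hy => by
          refine hM y.2 (k2 y hy).1 o y.1 Λ (hΛ.trans (ball_mono o ?_)) τ hτ hτ1
          rw [mul_assoc]
          exact Nat.mul_le_mul_left R (k2 y hy).2.1)
      refine h1.trans ?_
      have h2 : (S.card : ℝ) ≤ 2 * J0 := by exact_mod_cast k1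
      calc (S.card : ℝ) * (η / (2 * J0 + 1)) ≤ (2 * J0) * (η / (2 * J0 + 1)) :=
            mul_le_mul_of_nonneg_right h2 (by positivity)
        _ ≤ η := by
            rw [mul_div_assoc', div_le_iff₀ (by positivity)]
            nlinarith
    have hit := iter hx0 hx1 hq hq1 hC hK hT0 hTm hSi (τ := τ) hG0 hGo M le_rfl
    rw [sub_self] at hit
    have hpos : 0 < (q ^ (2 * J1)) ^ M := by positivity
    have h3 : ex x Λ τ (fun h => G h * one (Fk (T 0) (T 1) M) h) ≤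
        ((q ^ (2 * J1)) ^ M)⁻¹ * ex x Λ τ (fun h => G h * one (Fk (T M) (T (M + 1)) 0) h) := by
      rw [inv_mul_eq_div, le_div_iff₀ hpos, mul_comm]
      exact hit
    have h4 : ex x Λ τ G ≤ ex x Λ τ (one (Fk (T 0) (T 1) M)ᶜ) +
        ex x Λ τ (fun h => G h * one (Fk (T 0) (T 1) M) h) := by
      rw [← ex_add]
      refine ex_mono fun h _ => ?_
      rw [one_compl]
      have h5 := one_nonneg (Fk (T 0) (T 1) M) h
      have h6 := one_le_one (Fk (T 0) (T 1) M) h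
      nlinarith [hG0 h, hG1 h, mul_nonneg (sub_nonneg.2 (hG1 h)) (sub_nonneg.2 h6)]
    linarith

end Crest.Agent.R144.Cu867
end
end

-- ▼ part R144/Cu3_867
section

/-!
# R144, S5 (contiguity), uniform form, part 3 (helper867): four shells, `CU`
-/

set_option autoImplicit false

noncomputable section

namespace Crest.Agent.R144.Cu867

open Finset
open Crest.Agent.R144.It844
open Crest.Agent.R144.Zg349 (StepIn)
open Crest.Agent.R144.Rsw867 (ball mem_ball ball_mono adj_ball path_mono Sepr)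
open Crest.ProbabilityR.HexHeights (Adj)
open Relation (ReflTransGen)

/-- reflection -/
def rf (h : Hz) : Hz := fun v => 1 - h v

theorem rf_rf (h : Hz) : rf (rf h) = h := by
  funext v; unfold rf; ring

theorem lip_rf {τ : Hz} (h : Lip τ) : Lip (rf τ) := fun u v huv => by
  have := h u v huv
  unfold rf
  rw [abs_le] at *
  omega

theorem ex_rf (x : ℝ) (Λ : Finset P2) (τ : Hz) (f : Hz → ℝ) :
    ex x Λ (rf τ) f = ex x Λ τ (fun h => f (rf h)) := by
  have e1 : rf τ = fun v => (fun v => - τ v) v + 1 := by funext v; unfold rf; ring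
  rw [e1, ex_add_const x Λ (fun v => - τ v) 1 f, ex_neg]
  refine ex_congr fun h _ => ?_
  congr 1
  funext v
  unfold rf
  ring

theorem ex_rf' (x : ℝ) (Λ : Finset P2) (τ : Hz) (f : Hz → ℝ) :
    ex x Λ τ f = ex x Λ (rf τ) (fun h => f (rf h)) := by
  have h1 := ex_rf x Λ (rf τ) f
  rw [rf_rf] at h1
  exact h1

/-- **one shell, the other sign** -/
theorem p1' {x : ℝ} (hx0 : 0 < x) (hx1 : x ≤ 1) {K : ℕ} {q : ℝ} (hq : 0 < q) (hq1 : q ≤ 1)
    (hC : Climb x K q) (hK : 2 ≤ K) (hcov : COV K) (hT : TightHi x) {R : ℕ} (hR : 1 ≤ R) {η : ℝ}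
    (hη : 0 < η) : ∃ (C : ℝ) (s0 : ℕ), 1 ≤ C ∧ ∀ s ≥ s0, ∀ (o : P2) (Λ K0 : Finset P2), K0.Nonempty →
      Λ ⊆ ball o (R * s) → ∀ r : ℕ, r + s ≤ R * s → nb K0 (r + s) ⊆ Λ → ∃ A : Set Hz,
        A ⊆ Dn K0 r (r + s) ∧ (∀ S, Disjoint (sh K0 r (r + s)) S → Off S (one A)) ∧
        ∀ τ : Hz, Lip τ → (∀ v, v ∉ Λ → 0 ≤ τ v) → ∀ G : Hz → ℝ, (∀ h, 0 ≤ G h) → (∀ h, G h ≤ 1) →
          Off (sh K0 r (r + s)) G → ex x Λ τ G ≤ η + C * ex x Λ τ (fun h => G h * one A h) := by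
  obtain ⟨C, s0, hC1, H⟩ := p1 hx0 hx1 hq hq1 hC hK hcov hT hR hη
  refine ⟨C, s0, hC1, fun s hs o Λ K0 hK0 hΛ r hr hnb => ?_⟩
  obtain ⟨A, hA1, hA2, hA3⟩ := H s hs o Λ K0 hK0 hΛ r hr hnb
  have hone : ∀ h, one {h | rf h ∈ A} (rf h) = one A h := by
    intro h
    refine one_congr ?_
    show rf (rf h) ∈ A ↔ _
    rw [rf_rf]
  refine ⟨{h | rf h ∈ A}, ?_, ?_, ?_⟩
  · intro h hh u hu v hv p
    refine hA1 hh u hu v hv (path_mono (fun w hw => ?_) p)
    have h1 : h w ≤ 0 := hw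
    show 1 ≤ rf h w
    unfold rf
    omega
  · intro S hS a b hab
    have h1 := hA2 S hS (rf a) (rf b) (fun v hv => by unfold rf; rw [hab v hv])
    rw [← hone, ← hone, rf_rf, rf_rf] at h1
    exact h1
  · intro τ hτ hτ0 G hG0 hG1 hG
    have h1 := hA3 (rf τ) (lip_rf hτ) (fun v hv => by have := hτ0 v hv; unfold rf; omega)
      (fun h => G (rf h)) (fun h => hG0 _) (fun h => hG1 _)
      (fun a b hab => hG _ _ fun v hv => by unfold rf; rw [hab v hv])
    rw [ex_rf' x Λ τ G, ex_rf' x Λ τ (fun h => G h * one {h | rf h ∈ A} h)]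
    simp only [hone]
    exact h1

/-- the four shell events around `K0` -/
def H4 (K0 : Finset P2) (s : ℕ) : Set Hz :=
  Dn K0 s (2 * s) ∩ Up K0 (2 * s) (3 * s) ∩ Dn K0 (3 * s) (4 * s) ∩ Up K0 (4 * s) (5 * s)

/-- the uniform statement in the form `E G ≤ η + C E[G 1_H]` -/
def CU0 (x : ℝ) : Prop :=
  ∀ (R : ℕ) (η : ℝ), 0 < η → ∃ (C : ℝ) (s0 : ℕ), 1 ≤ C ∧ ∀ s ≥ s0, ∀ (a : P2) (Λ K0 : Finset P2),
    K0.Nonempty → Λ ⊆ ball a (R * s) → nb K0 (5 * s) ⊆ Λ → ∀ τ : Hz, Lip τ →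
      (∀ v, v ∉ Λ → 0 ≤ τ v) → (∀ v, v ∉ Λ → τ v ≤ 1) → ∀ G : Hz → ℝ, (∀ h, 0 ≤ G h) →
        (∀ h, G h ≤ 1) → Off (sh K0 s (5 * s)) G →
          ex x Λ τ G ≤ η + C * ex x Λ τ (fun h => G h * one (H4 K0 s) h)

open Classical in
/-- the uniform statement, conditional form -/
def CU (x : ℝ) : Prop :=
  ∀ (R : ℕ) (η : ℝ), 0 < η → ∃ (c0 : ℝ) (s0 : ℕ), 0 < c0 ∧ ∀ s ≥ s0, ∀ (a : P2) (Λ : Finset P2),
    Λ ⊆ ball a (R * s) → ∀ τ : Hz, Lip τ → (∀ v, v ∉ Λ → τ v = 0 ∨ τ v = 1) → ∀ K0 : Finset P2,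
      K0.Nonempty → nb K0 (5 * s) ⊆ Λ →
        ex x Λ τ (fun h => if ex x (sh K0 s (5 * s)) h (one (H4 K0 s)) < c0 then (1 : ℝ) else 0) ≤ η

theorem size_le {K0 : Finset P2} (hK0 : K0.Nonempty) {a : P2} {N t : ℕ} (h : nb K0 t ⊆ ball a N) :
    t ≤ N := by
  obtain ⟨v, hv⟩ := hK0
  have h1 : ((v.1 + t, v.2) : P2) ∈ ball a N := h (mem_nb.2 ⟨v, hv, by rw [mem_ball]; simp⟩)
  have h2 : ((v.1 - t, v.2) : P2) ∈ ball a N := h (mem_nb.2 ⟨v, hv, by rw [mem_ball]; simp⟩)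
  rw [mem_ball] at h1 h2
  have h3 := h1.1
  have h4 := h2.1
  rw [abs_le] at h3 h4
  simp only at h3 h4
  omega

theorem cu0 {x : ℝ} (hx0 : 0 < x) (hx1 : x ≤ 1) {K : ℕ} {q : ℝ} (hq : 0 < q) (hq1 : q ≤ 1)
    (hC : Climb x K q) (hK : 2 ≤ K) (hcov : COV K) (hT : TightHi x) : CU0 x := by
  intro R η hη
  have hR : 1 ≤ R + 1 := by omega
  obtain ⟨C1, s1, c1, H1⟩ := p1' hx0 hx1 hq hq1 hC hK hcov hT hR (η := η / 4) (by positivity)
  have c1' : 0 < C1 := by linarith
  obtain ⟨C2, s2, c2, H2⟩ := p1 hx0 hx1 hq hq1 hC hK hcov hT hR (η := η / (4 * C1)) (by positivity)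
  have c2' : 0 < C2 := by linarith
  obtain ⟨C3, s3, c3, H3⟩ := p1' hx0 hx1 hq hq1 hC hK hcov hT hR (η := η / (4 * C1 * C2))
    (by positivity)
  have c3' : 0 < C3 := by linarith
  obtain ⟨C4, s4, c4, H4'⟩ := p1 hx0 hx1 hq hq1 hC hK hcov hT hR (η := η / (4 * C1 * C2 * C3))
    (by positivity)
  have c4' : 0 < C4 := by linarith
  refine ⟨C1 * C2 * C3 * C4, max (max s1 s2) (max s3 s4), ?_, ?_⟩
  · have a1 : 1 ≤ C1 * C2 := by nlinarith
    have a2 : 1 ≤ C1 * C2 * C3 := by nlinarith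
    nlinarith
  intro s hs a Λ K0 hK0 hΛ hnb τ hτ hτ0 hτ1 G hG0 hG1 hG
  have hΛ' : Λ ⊆ ball a ((R + 1) * s) := hΛ.trans (ball_mono a (Nat.mul_le_mul_right s (by omega)))
  have h5 : 5 * s ≤ R * s := size_le hK0 (hnb.trans hΛ)
  have h5' : (R + 1) * s = R * s + s := by ring
  obtain ⟨A1, a11, a12, a13⟩ := H1 s (le_trans (by simp) hs) a Λ K0 hK0 hΛ' s (by omega)
    ((nb_mono K0 (by omega)).trans hnb)
  obtain ⟨A2, a21, a22, a23⟩ := H2 s (le_trans (by simp) hs) a Λ K0 hK0 hΛ' (2 * s) (by omega)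
    ((nb_mono K0 (by omega)).trans hnb)
  obtain ⟨A3, a31, a32, a33⟩ := H3 s (le_trans (by simp) hs) a Λ K0 hK0 hΛ' (3 * s) (by omega)
    ((nb_mono K0 (by omega)).trans hnb)
  obtain ⟨A4, a41, a42, a43⟩ := H4' s (le_trans (by simp) hs) a Λ K0 hK0 hΛ' (4 * s) (by omega)
    ((nb_mono K0 (by omega)).trans hnb)
  have d12 : Disjoint (sh K0 s (s + s)) (sh K0 (2 * s) (2 * s + s)) := sh_disj K0 (by omega)
  have d13 : Disjoint (sh K0 s (s + s)) (sh K0 (3 * s) (3 * s + s)) := sh_disj K0 (by omega)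
  have d14 : Disjoint (sh K0 s (s + s)) (sh K0 (4 * s) (4 * s + s)) := sh_disj K0 (by omega)
  have d23 : Disjoint (sh K0 (2 * s) (2 * s + s)) (sh K0 (3 * s) (3 * s + s)) := sh_disj K0 (by omega)
  have d24 : Disjoint (sh K0 (2 * s) (2 * s + s)) (sh K0 (4 * s) (4 * s + s)) := sh_disj K0 (by omega)
  have d34 : Disjoint (sh K0 (3 * s) (3 * s + s)) (sh K0 (4 * s) (4 * s + s)) := sh_disj K0 (by omega)
  have mul1 : ∀ (f : Hz → ℝ) (A : Set Hz), (∀ h, f h ≤ 1) → (∀ h, 0 ≤ f h) → ∀ h, f h * one A h ≤ 1 :=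
    fun f A hf hf0 h => mul_le_one₀ (hf h) (one_nonneg _ _) (one_le_one _ _)
  have pos1 : ∀ (f : Hz → ℝ) (A : Set Hz), (∀ h, 0 ≤ f h) → ∀ h, 0 ≤ f h * one A h :=
    fun f A hf h => mul_nonneg (hf h) (one_nonneg _ _)
  have i1 := a13 τ hτ hτ0 G hG0 hG1 (hG.mono (sh_mono K0 (by omega) (by omega)))
  set G1 : Hz → ℝ := fun h => G h * one A1 h with hG1d
  have i2 := a23 τ hτ hτ1 G1 (pos1 G A1 hG0) (mul1 G A1 hG1 hG0)
    ((hG.mono (sh_mono K0 (by omega) (by omega))).mul (a12 _ d12))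
  set G2 : Hz → ℝ := fun h => G1 h * one A2 h with hG2d
  have g1o : ∀ S : Finset P2, Off S G → Disjoint (sh K0 s (s + s)) S → Off S G1 :=
    fun S h1 h2 => h1.mul (a12 _ h2)
  have i3 := a33 τ hτ hτ0 G2 (pos1 G1 A2 (pos1 G A1 hG0))
    (mul1 G1 A2 (mul1 G A1 hG1 hG0) (pos1 G A1 hG0))
    ((g1o _ (hG.mono (sh_mono K0 (by omega) (by omega))) d13).mul (a22 _ d23))
  set G3 : Hz → ℝ := fun h => G2 h * one A3 h with hG3d
  have i4 := a43 τ hτ hτ1 G3 (pos1 G2 A3 (pos1 G1 A2 (pos1 G A1 hG0)))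
    (mul1 G2 A3 (mul1 G1 A2 (mul1 G A1 hG1 hG0) (pos1 G A1 hG0)) (pos1 G1 A2 (pos1 G A1 hG0)))
    (((g1o _ (hG.mono (sh_mono K0 (by omega) (by omega))) d14).mul (a22 _ d24)).mul (a32 _ d34))
  have hfin : ex x Λ τ (fun h => G3 h * one A4 h) ≤ ex x Λ τ (fun h => G h * one (H4 K0 s) h) := by
    refine ex_mono fun h _ => ?_
    have e1 : G3 h * one A4 h = G h * one (A1 ∩ A2 ∩ A3 ∩ A4) h := by
      simp only [hG3d, hG2d, hG1d, one_inter]
      ring
    rw [e1]
    refine mul_le_mul_of_nonneg_left (one_le_one_of fun hh => ?_) (hG0 h)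
    obtain ⟨⟨⟨k1, k2⟩, k3⟩, k4⟩ := hh
    have e2 : 2 * s = s + s := by ring
    have e3 : 3 * s = 2 * s + s := by ring
    have e4 : 4 * s = 3 * s + s := by ring
    have e5 : 5 * s = 4 * s + s := by ring
    refine ⟨⟨⟨?_, ?_⟩, ?_⟩, ?_⟩
    · have := a11 k1
      rwa [← e2] at this
    · have := a21 k2
      rwa [← e3] at this
    · have := a31 k3
      rwa [← e4] at this
    · have := a41 k4
      rwa [← e5] at this
  set X := ex x Λ τ (fun h => G h * one (H4 K0 s) h) with hX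
  have j4 : ex x Λ τ G3 ≤ η / (4 * C1 * C2 * C3) + C4 * X :=
    i4.trans (by have := mul_le_mul_of_nonneg_left hfin c4'.le; linarith)
  have j3 : ex x Λ τ G2 ≤ η / (4 * C1 * C2) + C3 * (η / (4 * C1 * C2 * C3) + C4 * X) :=
    i3.trans (by have := mul_le_mul_of_nonneg_left j4 c3'.le; linarith)
  have j2 : ex x Λ τ G1 ≤ η / (4 * C1) +
      C2 * (η / (4 * C1 * C2) + C3 * (η / (4 * C1 * C2 * C3) + C4 * X)) :=
    i2.trans (by have := mul_le_mul_of_nonneg_left j3 c2'.le; linarith)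
  have j1 : ex x Λ τ G ≤ η / 4 + C1 * (η / (4 * C1) +
      C2 * (η / (4 * C1 * C2) + C3 * (η / (4 * C1 * C2 * C3) + C4 * X))) :=
    i1.trans (by have := mul_le_mul_of_nonneg_left j2 c1'.le; linarith)
  refine j1.trans (le_of_eq ?_)
  field_simp
  ring

theorem cu_of_cu0 {x : ℝ} (hx0 : 0 < x) (h : CU0 x) : CU x := by
  classical
  intro R η hη
  obtain ⟨C, s0, hC, H⟩ := h R (η / 2) (by positivity)
  have hC0 : 0 < C := by linarith
  refine ⟨η / (2 * C), s0, by positivity, fun s hs a Λ hΛ τ hτ hτ' K0 hK0 hnb => ?_⟩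
  set T := sh K0 s (5 * s) with hT
  set G : Hz → ℝ := fun h => if ex x T h (one (H4 K0 s)) < η / (2 * C) then (1 : ℝ) else 0 with hG
  have hG0 : ∀ h, 0 ≤ G h := fun h => by simp only [hG]; split_ifs <;> norm_num
  have hG1 : ∀ h, G h ≤ 1 := fun h => by simp only [hG]; split_ifs <;> norm_num
  have hGo : Off T G := by
    intro a b hab
    simp only [hG]
    rw [ex_congr_bc x hab]
  have hTΛ : T ⊆ Λ := fun v hv => hnb (mem_sh.1 hv).1
  have h1 := H s hs a Λ K0 hK0 hΛ hnb τ hτ (fun v hv => by rcases hτ' v hv with h | h <;> omega)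
    (fun v hv => by rcases hτ' v hv with h | h <;> omega) G hG0 hG1 hGo
  have h2 : ex x Λ τ (fun h => G h * one (H4 K0 s) h) ≤ η / (2 * C) := by
    have key := ex_tower_smul hx0 (Λ := Λ) (τ := τ) (fun _ => T) (fun _ _ => hTΛ)
      (fun _ _ _ _ => rfl) G (fun h _ g hg => hGo g h fun v hv => (mem_conf.1 hg).2 v hv)
      (one (H4 K0 s))
    simp only [smul_eq_mul] at key
    rw [key, ← ex_const hx0 hτ (x := x) (Λ := Λ) (η / (2 * C))]
    refine ex_mono fun h _ => ?_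
    simp only [hG]
    split_ifs with h3
    · rw [one_mul]; exact h3.le
    · rw [zero_mul]; positivity
  have h3 : C * ex x Λ τ (fun h => G h * one (H4 K0 s) h) ≤ η / 2 := by
    have := mul_le_mul_of_nonneg_left h2 hC0.le
    refine this.trans (le_of_eq ?_)
    field_simp
  linarith

/-- **CU** -/
theorem cu {x : ℝ} (hx0 : 0 < x) (hx1 : x ≤ 1) {K : ℕ} {q : ℝ} (hq : 0 < q) (hq1 : q ≤ 1)
    (hC : Climb x K q) (hK : 2 ≤ K) (hcov : COV K) (hT : TightHi x) : CU x :=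
  cu_of_cu0 hx0 (cu0 hx0 hx1 hq hq1 hC hK hcov hT)

end Crest.Agent.R144.Cu867
end
end

-- ▼ part R144/Lyf2_792
section

/-!
# R144, S5: 867's `Cu867.CU` implies 880's `CuP880.CU` and `LAYF` (helper792)
-/

set_option autoImplicit false

noncomputable section

namespace Crest.Agent.R144.Lyf792

open Crest.Agent.R144.It844 (P2)
open Crest.Agent.R144.Zg349 (StepIn)
open Crest.Agent.R144.Pst967 (path_symm)

theorem hh_eq (K : Finset P2) (s : ℕ) : CuP880.HH K s = Cu867.H4 K s := by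
  ext h
  constructor
  · rintro ⟨h1, h2, h3, h4⟩
    exact ⟨⟨⟨fun u hu v hv p => h1 v u hv hu (path_symm p), fun u hu v hv p => h2 v u hv hu (path_symm p)⟩,
      fun u hu v hv p => h3 v u hv hu (path_symm p)⟩, fun u hu v hv p => h4 v u hv hu (path_symm p)⟩
  · rintro ⟨⟨⟨h1, h2⟩, h3⟩, h4⟩
    exact ⟨fun u v hu hv p => h1 v hv u hu (path_symm p), fun u v hu hv p => h2 v hv u hu (path_symm p),
      fun u v hu hv p => h3 v hv u hu (path_symm p), fun u v hu hv p => h4 v hv u hu (path_symm p)⟩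

theorem cuP_of_cu {x : ℝ} (h : Cu867.CU x) : CuP880.CU x := by
  intro R η hη
  obtain ⟨c0, s0, hc0, h1⟩ := h R η hη
  refine ⟨c0, s0, hc0, fun s hs a Λ _ hΛ τ hτ hb K hK hKΛ => ?_⟩
  refine le_trans (le_of_eq ?_) (h1 s hs a Λ hΛ τ hτ hb K hK hKΛ)
  have e : ∀ g : P2 → ℤ, It844.pr x (CuP880.nb K (5 * s) \ CuP880.nb K s) g (CuP880.HH K s) =
      It844.ex x (Cu867.sh K s (5 * s)) g (Cu867.one (Cu867.H4 K s)) := by
    intro g
    rw [hh_eq, pr_hI]
    rfl
  rw [pr_hI]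
  refine It844.ex_congr fun g _ => ?_
  unfold hI
  simp only [Set.mem_ofPred_eq, e]

/-- **LAYF from 867's CU.** -/
theorem layf_of_cu867 {x : ℝ} (hx0 : 0 < x) (hx1 : x ≤ 1) {K : ℕ} {p : ℝ}
    (hR : Rsw867.RSW ((x ^ 2)⁻¹) K p) (hCU : Cu867.CU x) : LAYF ((x ^ 2)⁻¹) :=
  layf_of_cu hx0 hx1 hR (cuP_of_cu hCU)

end Crest.Agent.R144.Lyf792
end
end

-- ▼ part R144/Cov2_792
section

/-!
# R144, S5, leaf COV with `s ≤ J n` (helper792): 867's Prop `Cu867.COV K` for every `K ≥ 1`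
-/

set_option autoImplicit false

noncomputable section

namespace Crest.Agent.R144.Cov2792

open Crest.Agent.R144.It844 (P2 adj_iff adj_symm)
open Crest.Agent.R144.Zg349 (StepIn)
open Crest.Agent.R144.Rsw867
open Crest.Agent.R144.Cov356
open Crest.Agent.R144.Cov792
open Crest.ProbabilityR.HexHeights (Adj)

/-- **COV**, with `s ≤ J n`. -/
theorem cov2 (R K w : ℕ) (_hR : 1 ≤ R) (hK : 1 ≤ K) (hw : 1 ≤ w) : ∃ J s0 : ℕ, ∀ s, s0 ≤ s →
    ∀ (a : P2) (K0 : Finset P2), K0 ⊆ ball a (R * s) → ∀ r d : ℕ, r + d ≤ R * s → s ≤ w * d →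
    ∃ n : ℕ, 1 ≤ n ∧ s ≤ J * n ∧ ∃ S : Finset P2, S.card ≤ J ∧
      (∀ y ∈ S, ball y (K * n + 2) ⊆ nb K0 (r + d) \ nb K0 r) ∧
      ∀ S' : Set P2, (∀ y ∈ S, Sepr S' y n (2 * n)) →
        ∀ u ∈ nb K0 r, ∀ v, v ∉ nb K0 (r + d) → ¬ Relation.ReflTransGen (StepIn S'ᶜ) u v := by
  classical
  set q : ℕ := 4 * K + 8 with hq
  refine ⟨(2 * (4 * R * w * q) + 3) ^ 2 + 2 * w * q, w * (16 * q), fun s hs a K0 hK0 r d hrd hsd => ?_⟩
  have hq0 : 0 < q := by omega
  -- `d` is large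
  have hd : 16 * q ≤ d := by
    have : w * (16 * q) ≤ w * d := hs.trans hsd
    exact Nat.le_of_mul_le_mul_left this (by omega)
  set n : ℕ := d / q with hn
  have hn1 : 16 ≤ n := (Nat.le_div_iff_mul_le hq0).2 hd
  have hnq : n * q ≤ d := Nat.div_mul_le_self _ _
  have hnq' : d < (n + 1) * q := by
    have h1 := Nat.div_add_mod d q
    have h2 := Nat.mod_lt d hq0
    rw [← hn] at h1
    nlinarith
  set e : ℕ := d / 2 with he
  have he1 : 2 * e ≤ d := by omega
  have he2 : d ≤ 2 * e + 1 := by omega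
  -- `(K + 1) n + 2 < e`
  have hKn : (K + 1) * n + n + 3 ≤ e := by
    have h1 : n * (4 * K + 8) ≤ d := hnq
    nlinarith
  obtain ⟨Z, hZc, -, hZ⟩ := cov1 a (2 * (R * s)) n (by omega)
  -- level set
  set lv : Set P2 := {p | p ∈ nb K0 (r + e) ∧ p ∉ nb K0 (r + e - 1)} with hlv
  have hsJ : s ≤ ((2 * (4 * R * w * q) + 3) ^ 2 + 2 * w * q) * n := by
    have h2 : s ≤ w * ((n + 1) * q) := hsd.trans (Nat.mul_le_mul_left _ hnq'.le)
    have h3 : n + 1 ≤ 2 * n := by omega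
    have h4 : w * ((n + 1) * q) ≤ w * ((2 * n) * q) :=
      Nat.mul_le_mul_left _ (Nat.mul_le_mul_right _ h3)
    have h5 : w * ((2 * n) * q) = (2 * w * q) * n := by ring
    rw [h5] at h4
    exact h2.trans (h4.trans (Nat.mul_le_mul_right _ (Nat.le_add_left _ _)))
  refine ⟨n, by omega, hsJ, Z.filter fun y => ∃ p ∈ lv, p ∈ ball y n, ?_, ?_, ?_⟩
  · -- number of centres
    refine le_trans ?_ (Nat.le_add_right _ _)
    refine (Finset.card_filter_le _ _).trans (hZc.trans (Nat.pow_le_pow_left ?_ 2))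
    have h1 : 2 * (R * s) / n ≤ 4 * R * w * q := by
      rw [Nat.div_le_iff_le_mul_add_pred (by omega)]
      have h2 : s ≤ w * ((n + 1) * q) := hsd.trans (Nat.mul_le_mul_left _ hnq'.le)
      have h3 : n + 1 ≤ 2 * n := by omega
      have h4 : w * ((n + 1) * q) ≤ w * ((2 * n) * q) :=
        Nat.mul_le_mul_left _ (Nat.mul_le_mul_right _ h3)
      have h5 : 2 * (R * s) ≤ 2 * (R * (w * ((2 * n) * q))) := by
        have := Nat.mul_le_mul_left R (h2.trans h4)
        omega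
      have h6 : 2 * (R * (w * ((2 * n) * q))) = n * (4 * R * w * q) := by ring
      rw [h6] at h5
      exact h5.trans (Nat.le_add_right _ _)
    omega
  · -- small balls in the collar
    intro y hy
    rw [Finset.mem_filter] at hy
    obtain ⟨-, p, ⟨hp1, hp2⟩, hpy⟩ := hy
    intro z hz
    rw [Finset.mem_sdiff]
    have hyp := ball_symm hpy
    have hzp : z ∈ ball p (n + (K * n + 2)) := ball_trans hyp hz le_rfl
    have hsum : n + (K * n + 2) ≤ e - 1 := by
      have : (K + 1) * n = K * n + n := by ring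
      omega
    constructor
    · exact nb_ball hp1 hzp (by omega)
    · intro hzr
      exact hp2 (nb_ball hzr (ball_symm hzp) (by omega))
  · -- blocking
    intro S' hS' u hu v hv hp
    have hu' : u ∈ ((nb K0 (r + e - 1) : Finset P2) : Set P2) := nb_mono (by omega) hu
    have hv' : v ∉ ((nb K0 (r + e - 1) : Finset P2) : Set P2) := fun h =>
      hv (nb_mono (by omega) (Finset.mem_coe.1 h))
    obtain ⟨b, p, hb, hpn, hbp, hup⟩ := first_exit hp hu' hv'
    have hp1 : p ∈ nb K0 (r + e) := by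
      have := adj_nb (Finset.mem_coe.1 hb) hbp
      rwa [show r + e - 1 + 1 = r + e by omega] at this
    have hp2 : p ∉ nb K0 (r + e - 1) := fun h => hpn (Finset.mem_coe.2 h)
    -- a centre near `p`
    have hpa : p ∈ ball a (2 * (R * s)) := by
      obtain ⟨k, hk, hpk⟩ := mem_nb.1 hp1
      exact ball_trans (hK0 hk) hpk (by omega)
    have hpZ := hZ hpa
    rw [Finset.mem_biUnion] at hpZ
    obtain ⟨y, hyZ, hpy⟩ := hpZ
    have hyS : y ∈ Z.filter fun y => ∃ p ∈ lv, p ∈ ball y n :=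
      Finset.mem_filter.2 ⟨hyZ, p, ⟨hp1, hp2⟩, hpy⟩
    refine hS' y hyS u p ?_ hpy hup
    intro huy
    -- `u` would be too close to `p`
    have h1 : p ∈ ball u (2 * n + n) := ball_trans (ball_symm huy) hpy le_rfl
    refine hp2 (nb_ball hu h1 ?_)
    have : n ≤ (K + 1) * n := Nat.le_mul_of_pos_left _ (by omega)
    have h2 : (K + 1) * n = K * n + n := by ring
    have h3 : n ≤ K * n := Nat.le_mul_of_pos_left _ (by omega)
    omega

/-- 867's Prop `COV` -/
theorem cov_prop {K : ℕ} (hK : 1 ≤ K) : Cu867.COV K := by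
  intro R w hR hw
  obtain ⟨J, s0, h⟩ := cov2 R K w hR hK hw
  refine ⟨J, s0, fun s hs a K0 _ hK0 r d hrd hsd => ?_⟩
  obtain ⟨n, hn, hsn, S, hS, hb, hc⟩ := h s hs a K0 hK0 r d hrd hsd
  exact ⟨n, S, hn, hsn, hS, fun y hy => (ball_mono y (by omega)).trans (hb y hy), hc⟩

end Crest.Agent.R144.Cov2792
end
end

-- ▼ part R144/Clb1_617
section

/-!
# R144, integer models, contiguity (S5), block (B): CLIMB, part 1 (helper617)

* `Jup k a m N` : heights `h` such that the sites `{k ≤ h}` block every path from off `ball a N` to `ball a m`;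
  `Jdn k a m N` : the same with `{h ≤ k}`;
* `one_step_F` : under the F-type law (with `s1 = +` on `N`), `{2 ≤ h}` blocks with probability `≥ p / 2`;
* `one_step` : for every `Λ` with connected complement, every ball `ball a (K n) ⊆ Λ`, boundary data `≥ k`
  on the outer boundary of `Λ` : `p / 2 ≤ ex x Λ τ 1[{k + 1 ≤ h} blocks ball a n | ball a (2 n)]`;
* `un_of_sepr` : the exploration from outside of `Λ` does not enter a blocked ball;
* **`climb`** : `m` steps.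
-/

set_option autoImplicit false
set_option linter.unusedSectionVars false
set_option linter.unusedVariables false

noncomputable section

namespace Crest.Agent.R144.Clb617

open Finset
open Crest.Agent.R144.It844 (P2 Lip adj_iff adj_symm upT mem_upT ex nbhd lip_const ex_mono_bc ex_add_const
  ex_neg ex_tower_random ex_mono ex_nonneg ex_congr ex_const ex_smul)
open Crest.Agent.R144.Zg349 Crest.Agent.R144.Zk349 Crest.Agent.R144.Zd349
open Crest.Agent.R144.Zm349 (Valid E E_add E_mono E_congr E_smul E_const E_nonneg E_eq_S S flat valid_flat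
  wt_flat Z_pos mem_conf pr_nonneg pr_of_valid)
open Crest.Agent.R144.Ze349
open Crest.Agent.R144.Bnd991 (Cn Kn Cn_of Cn_of_not Cn_nonneg Cn_congr offTZ_Cn Anc Kn_of)
open Crest.Agent.R144.Bx695 (KI KI_of KI_of_not KI_nonneg KI_le_one)
open Crest.Agent.R144.Rsw867 (ball mem_ball ball_mono adj_ball sc_ball Sepr Blk BlkP ind ind_nonneg ind_le_one
  ind_of_mem ind_of_not_mem RSW path_mono ball_zero_eq)
open Crest.Agent.R144.Pos561 (rf rf_of_mem rf_of_notMem E_rf)
open Crest.Agent.R144.Mk696 (Un Ex mem_Un notMem_Un Un_sub layer_Un sc_Un Un_congr NStep ex_of_notMem sepr_split)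
open Crest.Agent.R144.Pst967 (hexB mem_hexB)
open Crest.ProbabilityR.HexHeights (Adj)

/-! ### events -/

/-- the sites `{k ≤ h}` block every path from off `ball a N` to `ball a m` -/
def Jup (k : ℤ) (a : P2) (m N : ℕ) : Set (P2 → ℤ) := {h | Sepr {v | k ≤ h v} a m N}

/-- the sites `{h ≤ k}` block every path from off `ball a N` to `ball a m` -/
def Jdn (k : ℤ) (a : P2) (m N : ℕ) : Set (P2 → ℤ) := {h | Sepr {v | h v ≤ k} a m N}

theorem mem_Jup {k : ℤ} {a : P2} {m N : ℕ} {h : P2 → ℤ} : h ∈ Jup k a m N ↔ Sepr {v | k ≤ h v} a m N := Iff.rfl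
theorem mem_Jdn {k : ℤ} {a : P2} {m N : ℕ} {h : P2 → ℤ} : h ∈ Jdn k a m N ↔ Sepr {v | h v ≤ k} a m N := Iff.rfl










/-! ### the F-type law -/



/-! ### one step for fixed boundary data -/

theorem exists_hexB_sup (S : Finset P2) : ∃ l : ℕ, S ⊆ hexB l := by
  classical
  refine ⟨∑ v ∈ S, (v.1.natAbs + v.2.natAbs), fun v hv => ?_⟩
  have h : v.1.natAbs + v.2.natAbs ≤ ∑ v ∈ S, (v.1.natAbs + v.2.natAbs) :=
    Finset.single_le_sum (f := fun v : P2 => v.1.natAbs + v.2.natAbs) (fun _ _ => Nat.zero_le _) hv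
  rw [mem_hexB]
  refine ⟨?_, ?_, ?_⟩ <;> rw [abs_le] <;> constructor <;> omega

theorem one_le_c {x : ℝ} (hx0 : 0 < x) (hx1 : x ≤ 1) : (1 : ℝ) ≤ (x ^ 2)⁻¹ := by
  rw [one_le_inv₀ (by positivity)]
  exact pow_le_one₀ hx0.le hx1




/-! ### explorations by sites -/











/-! ### climb -/




/-- the events above as probabilities -/
theorem pr_eq (x : ℝ) (Λ : Finset P2) (τ : P2 → ℤ) (A : Set (P2 → ℤ)) : It844.pr x Λ τ A = ex x Λ τ (KI A) := by
  unfold It844.pr KI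
  congr 1

/-! ### the mirror images -/

theorem lower_Jdn {k : ℤ} {a : P2} {m N : ℕ} {g h : P2 → ℤ} (hgh : g ≤ h) (hg : h ∈ Jdn k a m N) :
    g ∈ Jdn k a m N := Sepr.mono (fun v (hv : h v ≤ k) => (hgh v).trans hv) hg

theorem antitone_Jdn (k : ℤ) (a : P2) (m N : ℕ) : Antitone (KI (Jdn k a m N)) := by
  intro g h hgh
  by_cases h1 : h ∈ Jdn k a m N
  · rw [KI_of h1, KI_of (lower_Jdn hgh h1)]
  · rw [KI_of_not h1]; exact KI_nonneg _ _


theorem Jdn_congr {k : ℤ} {a : P2} {m N : ℕ} (hmN : m ≤ N) {g h : P2 → ℤ}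
    (hgh : ∀ v ∈ ball a (N + 1), g v = h v) (hg : g ∈ Jdn k a m N) : h ∈ Jdn k a m N := by
  refine Sepr.congr hmN (fun t ht _ h1 => ?_) hg
  show h t ≤ k
  rw [← hgh t ht]
  exact h1










/-! ### finite families -/



end Crest.Agent.R144.Clb617
end
end

-- ▼ part R144/Clb2_617
section

/-!
# R144, integer models, contiguity (S5), block (B'): ONE CLIMB STEP IN AN ARBITRARY VOLUME (helper617)

* `inc_kof` : nonnegative increasing functions of `|h - 1/2|` are `Inc` (702);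
* **`climb1_dn`** : for EVERY finite `Λ` (no connectivity hypothesis) with `ball a (K n) ⊆ Λ` and boundary data
  `≤ k` next to `Λ` : `p / 2 ≤ ex x Λ τ 1[{h ≤ k - 1} blocks ball a n | ball a (2 n)]`;
* **`climb1_up`** : the mirror image.
-/

set_option autoImplicit false
set_option linter.unusedSectionVars false
set_option linter.unusedVariables false

noncomputable section

namespace Crest.Agent.R144.Clb617

open Finset
open Crest.Agent.R144.It844 (P2 Lip adj_iff adj_symm upT mem_upT ex nbhd lip_const ex_mono_bc ex_add_const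
  ex_neg ex_tower_random ex_mono ex_nonneg ex_congr ex_const ex_smul)
open Crest.Agent.R144.Zg349 Crest.Agent.R144.Zk349 Crest.Agent.R144.Zd349
open Crest.Agent.R144.Zm349 (Valid E E_add E_mono E_congr E_smul E_const E_nonneg hts)
open Crest.Agent.R144.Ze349
open Crest.Agent.R144.Bx695 (KI KI_of KI_of_not KI_nonneg KI_le_one)
open Crest.Agent.R144.Rsw867 (ball mem_ball ball_mono adj_ball sc_ball Sepr Blk BlkP ind ind_nonneg ind_le_one
  ind_of_mem ind_of_not_mem RSW path_mono ball_zero_eq)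
open Crest.Agent.R144.Mk696 (sepr_split)
open Crest.Agent.R144.Hf702 (kof kof_hh MPos Inc EI EI_mono EI_self E_eq_EH EH EI_refl rfl1 EI_congr EI_add
  EI_smul EI_le htsI mem_htsI ext ext_of ex_le_EI)
open Crest.Agent.R161.Gks375 (Pos)
open Crest.Agent.R144.Pst967 (hexB mem_hexB)
open Crest.ProbabilityR.HexHeights (Adj)

/-! ### functions of `|h - 1/2|` -/

theorem one_le_kof {z : ℤ} : 1 ≤ kof z ↔ z ≤ -1 ∨ 2 ≤ z := by
  unfold kof
  split_ifs <;> omega

theorem inc_kof {S : Finset P2} {G : (P2 → ℕ) → ℝ} (h0 : ∀ k, 0 ≤ G k) (hm : Monotone G)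
    (hd : ∀ k k' : P2 → ℕ, (∀ v ∈ S, k v = k' v) → G k = G k') : Inc S fun h => G fun v => kof (h v) := by
  classical
  refine ⟨fun h h' e => hd _ _ fun v hv => by rw [e v hv], fun W hW => ?_⟩
  set G' : (↥W → ℕ) → ℝ := fun k => G fun v => if hv : v ∈ W then k ⟨v, hv⟩ else 0 with hG'
  have e1 : ∀ (k : ↥W → ℕ) (σ : ↥W → ℤˣ), G (fun v => kof (ext W k σ v)) = G' k := by
    intro k σ
    rw [hG']
    congr 1
    funext v
    by_cases hv : v ∈ W
    · rw [dif_pos hv, ext_of hv]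
      exact kof_hh _ _
    · rw [dif_neg hv]
      unfold Crest.Agent.R144.Hf702.ext
      rw [dif_neg hv]
      rfl
  refine MPos.congr (Φ := fun k _ => G' k) ⟨fun k => Pos.const (h0 _), fun k k' hk => ?_⟩ e1
  refine Pos.const (sub_nonneg.2 (hm fun v => ?_))
  by_cases hv : v ∈ W
  · simp only [dif_pos hv]; exact hk _
  · simp only [dif_neg hv]; exact le_rfl

/-! ### the blocking event of `|h - 1/2|` -/

open Classical in
/-- indicator: the sites `{1 ≤ k}` block -/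
def Gb (a : P2) (m N : ℕ) (k : P2 → ℕ) : ℝ := if Sepr {v | 1 ≤ k v} a m N then 1 else 0

theorem Gb_nonneg (a : P2) (m N : ℕ) (k : P2 → ℕ) : 0 ≤ Gb a m N k := by
  unfold Gb; split_ifs <;> norm_num

theorem Gb_mono (a : P2) (m N : ℕ) : Monotone (Gb a m N) := by
  intro k k' hk
  unfold Gb
  by_cases h : Sepr {v | 1 ≤ k v} a m N
  · have h' : Sepr {v | 1 ≤ k' v} a m N := Sepr.mono (fun v (hv : 1 ≤ k v) => hv.trans (hk v)) h
    rw [if_pos h, if_pos h']
  · rw [if_neg h]; split_ifs <;> norm_num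

theorem Gb_congr {a : P2} {m N : ℕ} (hmN : m ≤ N) {S : Finset P2} (hS : ball a (N + 1) ⊆ S) (k k' : P2 → ℕ)
    (h : ∀ v ∈ S, k v = k' v) : Gb a m N k = Gb a m N k' := by
  have key : ∀ k k' : P2 → ℕ, (∀ v ∈ S, k v = k' v) → Sepr {v | 1 ≤ k v} a m N → Sepr {v | 1 ≤ k' v} a m N := by
    intro k k' h h1
    refine Sepr.congr hmN (fun t ht _ h2 => ?_) h1
    show 1 ≤ k' t
    rw [← h t (hS ht)]
    exact h2
  unfold Gb
  by_cases h1 : Sepr {v | 1 ≤ k v} a m N
  · rw [if_pos h1, if_pos (key k k' h h1)]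
  · rw [if_neg h1, if_neg fun h2 => h1 (key k' k (fun v hv => (h v hv).symm) h2)]

theorem set_kof (h : P2 → ℤ) : {v : P2 | 1 ≤ kof (h v)} = {v | 2 ≤ h v} ∪ {v | h v ≤ -1} := by
  ext v
  simp only [Set.mem_union, Set.mem_ofPred_eq, one_le_kof]
  tauto

/-- a blocking set of `|h - 1/2| > 1` is above or below -/
theorem Gb_le {a : P2} {m N : ℕ} (hmN : m ≤ N) {h : P2 → ℤ} (hl : Lip h) :
    Gb a m N (fun v => kof (h v)) ≤ KI (Jup 2 a m N) h + KI (Jdn (-1) a m N) h := by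
  unfold Gb
  rw [set_kof]
  split_ifs with h1
  · rcases sepr_split hmN (fun u _ v _ hu hv ha => by
      have h5 := abs_le.1 (hl u v ha)
      simp only [Set.mem_ofPred_eq] at hu hv
      omega) h1 with h4 | h4
    · rw [KI_of (show h ∈ Jup 2 a m N from h4)]
      linarith [KI_nonneg (Jdn (-1) a m N) h]
    · rw [KI_of (show h ∈ Jdn (-1) a m N from h4)]
      linarith [KI_nonneg (Jup 2 a m N) h]
  · exact add_nonneg (KI_nonneg _ _) (KI_nonneg _ _)

theorem sub_VF (F : Finset P2) : F ⊆ VF F := fun t ht => mem_VF.2 ⟨t, ht, base_mem_up t⟩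

/-! ### one step -/

/-- data `0` -/
theorem climb1_zero {x : ℝ} (hx0 : 0 < x) (hx1 : x ≤ 1) {K : ℕ} {p : ℝ} (hR : RSW ((x ^ 2)⁻¹) K p) {n : ℕ}
    (hn : 1 ≤ n) {a : P2} {Λ : Finset P2} (hB : ball a (K * n) ⊆ Λ) :
    p / 2 ≤ ex x Λ (fun _ => 0) (KI (Jdn (-1) a n (2 * n))) := by
  have hc := one_le_c hx0 hx1
  have hK := hR.K4
  obtain ⟨l, hl⟩ := exists_hexB_sup (upT Λ)
  have hΛF : Λ ⊆ hexB l := fun v hv => hl (mem_upT.2 (Or.inl hv))
  have hΛI : Λ ⊆ IV (hexB l) := Bx695.iv_of_upT hl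
  set B := ball a (K * n) with hBdef
  have hB2 : ball a (2 * n + 1) ⊆ B := ball_mono a (by nlinarith)
  -- the small ball
  have h1 := hR.minus n hn a B (sc_ball a (K * n)) (Finset.Subset.refl _) (fun _ => 1)
    (fun _ => zero_le_one) (fun _ _ _ _ => rfl)
  rw [E_const hc, mul_one] at h1
  have h2 : E ((x ^ 2)⁻¹) B (fun ω => 1 * ind (Blk a n (2 * n)) ω) ≤
      E ((x ^ 2)⁻¹) B (fun ω => (fun h => Gb a n (2 * n) fun v => kof (h v)) ω.1) := by
    refine E_mono hc fun ω _ => ?_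
    rw [one_mul]
    by_cases hb : ω ∈ Blk a n (2 * n)
    · have h3 : Sepr {v | 1 ≤ kof (ω.1 v)} a n (2 * n) := by
        refine Sepr.mono (fun t (ht : mC ω t) => ?_) hb
        have h4 := ht.2
        rw [s1_false] at h4
        simp only [Set.mem_ofPred_eq, one_le_kof]
        omega
      show _ ≤ Gb a n (2 * n) fun v => kof (ω.1 v)
      rw [ind_of_mem hb]
      unfold Gb
      rw [if_pos h3]
    · rw [ind_of_not_mem hb]
      exact Gb_nonneg _ _ _ _
  have h2' := E_eq_EH hx0.ne' B (fun h => Gb a n (2 * n) fun v => kof (h v))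
  have h2'' := h1.trans h2
  rw [h2', ← EI_self] at h2''
  -- monotonicity in the domain
  have hinc : Inc (VF B) fun h => Gb a n (2 * n) fun v => kof (h v) :=
    inc_kof (Gb_nonneg _ _ _) (Gb_mono _ _ _)
      (Gb_congr (by omega) (hB2.trans (sub_VF B)))
  have h3 := EI_mono hx0.le hx1 (F := B) (F' := hexB l) (I := IV B) (I' := Λ) (hB.trans hΛF)
    (Finset.Subset.refl _) hΛI ((IV_sub B).trans hB) hinc
  -- reflection
  have h4 : EI x (hexB l) Λ (fun h => Gb a n (2 * n) fun v => kof (h v)) ≤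
      EI x (hexB l) Λ (KI (Jup 2 a n (2 * n))) + EI x (hexB l) Λ (KI (Jdn (-1) a n (2 * n))) := by
    rw [← EI_add]
    exact EI_le fun h hh => Gb_le (by omega) (mem_htsI.1 hh).1.toLip
  have h5 : EI x (hexB l) Λ (KI (Jup 2 a n (2 * n))) = EI x (hexB l) Λ (KI (Jdn (-1) a n (2 * n))) := by
    rw [← EI_refl x (hexB l) Λ (KI (Jup 2 a n (2 * n)))]
    refine EI_congr fun h hh => ?_
    have hoff := (mem_htsI.1 hh).1.off
    have e2 : {v : P2 | 2 ≤ rfl1 (hexB l) h v} = {v | h v ≤ -1} := by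
      ext v
      simp only [Set.mem_ofPred_eq]
      unfold rfl1
      by_cases hv : v ∈ VF (hexB l)
      · rw [if_pos hv]; omega
      · rw [if_neg hv, hoff v hv]; omega
    have e3 : rfl1 (hexB l) h ∈ Jup 2 a n (2 * n) ↔ h ∈ Jdn (-1) a n (2 * n) := by
      rw [mem_Jup, mem_Jdn, e2]
    by_cases h6 : h ∈ Jdn (-1) a n (2 * n)
    · rw [KI_of h6, KI_of (e3.2 h6)]
    · rw [KI_of_not h6, KI_of_not fun h7 => h6 (e3.1 h7)]
  -- comparison
  have h6 := ex_le_EI hx0 hx1 hl (f := fun h => -1 * KI (Jdn (-1) a n (2 * n)) h)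
    (fun g h hgh => by linarith [antitone_Jdn (-1) a n (2 * n) hgh])
  rw [EI_smul] at h6
  have h7 : ex x Λ (fun _ => 0) (fun h => -1 * KI (Jdn (-1) a n (2 * n)) h) =
      -1 * ex x Λ (fun _ => 0) (KI (Jdn (-1) a n (2 * n))) :=
    ex_smul (V := ℝ) (-1) (KI (Jdn (-1) a n (2 * n)))
  rw [h7] at h6
  rw [h5] at h4
  have h8 := h2''.trans (h3.trans h4)
  linarith

theorem KI_Jdn_local {k : ℤ} {a : P2} {m N : ℕ} (hmN : m ≤ N) {Λ : Finset P2} (hΛ : ball a (N + 1) ⊆ Λ)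
    (g h : P2 → ℤ) (hgh : ∀ v ∈ Λ, g v = h v) : KI (Jdn k a m N) g = KI (Jdn k a m N) h := by
  by_cases h1 : g ∈ Jdn k a m N
  · rw [KI_of h1, KI_of (Jdn_congr hmN (fun v hv => hgh v (hΛ hv)) h1)]
  · rw [KI_of_not h1, KI_of_not fun h2 => h1 (Jdn_congr hmN (fun v hv => (hgh v (hΛ hv)).symm) h2)]

/-- **(B') ONE STEP DOWN, ARBITRARY FINITE VOLUME.** -/
theorem climb1_dn {x : ℝ} (hx0 : 0 < x) (hx1 : x ≤ 1) {K : ℕ} {p : ℝ} (hR : RSW ((x ^ 2)⁻¹) K p) {n : ℕ}
    (hn : 1 ≤ n) {a : P2} {Λ : Finset P2} (hB : ball a (K * n) ⊆ Λ) {k : ℤ} {τ : P2 → ℤ} (hτ : Lip τ)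
    (hle : ∀ v, v ∉ Λ → v ∈ nbhd Λ → τ v ≤ k) :
    p / 2 ≤ ex x Λ τ (KI (Jdn (k - 1) a n (2 * n))) := by
  have hK := hR.K4
  have hB2 : ball a (2 * n + 1) ⊆ Λ := (ball_mono a (by nlinarith)).trans hB
  have h1 := climb1_zero hx0 hx1 hR hn hB
  have h2 : ex x Λ (fun _ => 0) (KI (Jdn (-1) a n (2 * n))) =
      ex x Λ (fun _ => k) (KI (Jdn (k - 1) a n (2 * n))) := by
    have e1 : (fun _ : P2 => k) = fun v => (fun _ : P2 => (0 : ℤ)) v + k := by
      funext v; ring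
    rw [e1, ex_add_const]
    refine ex_congr fun h _ => ?_
    have e2 : (fun v => h v + k) ∈ Jdn (k - 1) a n (2 * n) ↔ h ∈ Jdn (-1) a n (2 * n) := by
      rw [mem_Jdn, mem_Jdn]
      have e : {v : P2 | h v + k ≤ k - 1} = {v | h v ≤ -1} := by
        ext v
        simp only [Set.mem_ofPred_eq]
        omega
      rw [e]
    by_cases h5 : h ∈ Jdn (-1) a n (2 * n)
    · rw [KI_of h5, KI_of (e2.2 h5)]
    · rw [KI_of_not h5, KI_of_not fun h6 => h5 (e2.1 h6)]
  rw [h2] at h1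
  refine h1.trans ?_
  have h3 := Bx695.ex_mono_loc hx0 hx1 hτ (lip_const k) hle (f := fun h => -1 * KI (Jdn (k - 1) a n (2 * n)) h)
    (fun g h hgh => by
      show -1 * KI (Jdn (k - 1) a n (2 * n)) g ≤ -1 * KI (Jdn (k - 1) a n (2 * n)) h
      linarith [antitone_Jdn (k - 1) a n (2 * n) hgh])
    (fun g h hgh => by
      show -1 * KI (Jdn (k - 1) a n (2 * n)) g = -1 * KI (Jdn (k - 1) a n (2 * n)) h
      rw [KI_Jdn_local (by omega) hB2 g h hgh])
  have e : ∀ τ : P2 → ℤ, ex x Λ τ (fun h => -1 * KI (Jdn (k - 1) a n (2 * n)) h) =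
      -1 * ex x Λ τ (KI (Jdn (k - 1) a n (2 * n))) := fun τ =>
    ex_smul (V := ℝ) (-1) (KI (Jdn (k - 1) a n (2 * n)))
  rw [e, e] at h3
  linarith


/-- probability form -/
theorem climb1_dn_pr {x : ℝ} (hx0 : 0 < x) (hx1 : x ≤ 1) {K : ℕ} {p : ℝ} (hR : RSW ((x ^ 2)⁻¹) K p) {n : ℕ}
    (hn : 1 ≤ n) {a : P2} {Λ : Finset P2} (hB : ball a (K * n) ⊆ Λ) {k : ℤ} {τ : P2 → ℤ} (hτ : Lip τ)
    (hle : ∀ v, v ∉ Λ → (∃ w ∈ Λ, Adj w v) → τ v ≤ k) :
    p / 2 ≤ It844.pr x Λ τ {h | Sepr {v | h v ≤ k - 1} a n (2 * n)} := by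
  rw [pr_eq]
  exact climb1_dn hx0 hx1 hR hn hB hτ fun v hv hn => hle v hv (hn.resolve_left hv)


end Crest.Agent.R144.Clb617
end
end

-- ▼ part R144/Clb3_617
section

/-!
# R144, S5: 867's `Climb x K q` from `RSW` (helper617)
-/

set_option autoImplicit false

noncomputable section

namespace Crest.Agent.R144.Clb617

open Crest.Agent.R144.It844
open Crest.Agent.R144.Rsw867 (ball Sepr RSW)
open Crest.ProbabilityR.HexHeights (Adj)

/-- `Climb` of `Cu1_867` -/
theorem climb_prop {x : ℝ} (hx0 : 0 < x) (hx1 : x ≤ 1) {K : ℕ} {p : ℝ} (hR : RSW (x ^ 2)⁻¹ K p) :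
    Cu867.Climb x K (p / 2) := by
  intro n hn y Λ' hB τ hτ k hτk
  have h1 := climb1_dn_pr hx0 hx1 hR hn hB hτ hτk
  refine h1.trans (le_of_eq ?_)
  unfold pr Cu867.one
  rfl

end Crest.Agent.R144.Clb617
end
end

-- ▼ part R144/Tig1_425
section

/-!
# R144, integer chain S5 (contiguity), block TIGHT, part 1: geometry and heights (helper425)

`S` = minus-closed triangles, `Ex S K` = exploration from the outside of `K` through `Sᶜ` (696's `Mk1`).
* `comp_facts` : the component of an unexplored triangle is finite, connected, with connected complement, and its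
  boundary triangles are in `S`;
* `mac_small` : if `P` is disjoint from `S` and every ball `ball y s` of a cover of `K` is separated by `P` from the
  outside of `ball y (2 s)`, then every unexplored component has diameter at most `4 s`;
* `ex_ht`, `lay_ht` : heights on the explored triangles are in `{-1, 0, 1, 2}`, on the layer in `{-2, -1}` or `{2, 3}`;
* `lev_pm` : the level of the inside is `2` or `-2`.
-/

set_option autoImplicit false
set_option linter.unusedSectionVars false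
set_option linter.unusedVariables false

noncomputable section

namespace Crest.Agent.R144.Tig425

open Finset
open Crest.Agent.R144.It844 (P2 adj_symm adj_iff adj_comm Lip)
open Crest.ProbabilityR.HexHeights (Adj)
open Crest.Agent.R144.Zg349 Crest.Agent.R144.Zd349 Crest.Agent.R144.Zm349 Crest.Agent.R144.Ze349
open Crest.Agent.R144.Rsw867
open Crest.Agent.R144.Mk696
open Crest.Agent.R144.Zs349
open Crest.Agent.R144.Pst967 (stepIn_symm path_symm)

/-- the component of an unexplored triangle -/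
theorem comp_facts {K : Finset P2} (hK : SC K) (S : Set P2) {a0 : P2} (ha0 : a0 ∉ Ex S K) :
    ∃ W : Finset P2, IsConn (W : Set P2) ∧ SC W ∧
      (∀ w, w ∈ W ↔ Relation.ReflTransGen (StepIn (Ex S K)ᶜ) a0 w) ∧ (∀ w ∈ W, w ∈ K) ∧
      (∀ u ∈ W, ∀ v, v ∉ W → Adj u v → u ∈ S) := by
  classical
  set X : Set P2 := Ex S K with hX
  set W : Finset P2 := K.filter fun w => Relation.ReflTransGen (StepIn Xᶜ) a0 w with hWdef
  have hXK : ∀ t, t ∉ X → t ∈ K := fun t ht => by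
    by_contra h1
    exact ht (ex_of_notMem _ h1)
  have stepX : ∀ w, Relation.ReflTransGen (StepIn Xᶜ) a0 w → w ∉ X := by
    intro w hw
    cases hw with
    | refl => exact ha0
    | tail _ h2 => exact h2.2.1
  have mW : ∀ w, w ∈ W ↔ Relation.ReflTransGen (StepIn Xᶜ) a0 w := fun w => by
    rw [hWdef, Finset.mem_filter]
    exact ⟨fun h1 => h1.2, fun h1 => ⟨hXK w (stepX w h1), h1⟩⟩
  have WX : ∀ w ∈ W, w ∉ X := fun w hw => stepX w ((mW w).1 hw)
  have WK : ∀ w ∈ W, w ∈ K := fun w hw => hXK w (WX w hw)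
  have Wstep : ∀ u v, u ∈ W → v ∉ X → Adj u v → v ∈ W := by
    intro u v hu hv ha
    rw [mW] at *
    exact hu.tail ⟨stepX u hu, hv, ha⟩
  have hpre : ∀ w, Relation.ReflTransGen (StepIn Xᶜ) a0 w →
      Relation.ReflTransGen (StepIn (W : Set P2)) a0 w := by
    intro w hw
    induction hw with
    | refl => exact Relation.ReflTransGen.refl
    | @tail b d h1 h2 ih =>
      exact ih.tail ⟨(mW b).2 h1, (mW d).2 (h1.tail h2), h2.2.2⟩
  have hWc : IsConn (W : Set P2) := by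
    intro u hu v hv
    exact (path_symm (hpre u ((mW u).1 hu))).trans (hpre v ((mW v).1 hv))
  have hXW : ∀ t, t ∈ X → t ∉ W := fun t ht hw => WX t hw ht
  have hXpath : ∀ t0 t, t0 ∉ K → Relation.ReflTransGen (NStep S) t0 t →
      Relation.ReflTransGen (StepIn ((W : Finset P2) : Set P2)ᶜ) t0 t := by
    intro t0 t h0 h1
    induction h1 with
    | refl => exact Relation.ReflTransGen.refl
    | @tail b d h2 h3 ih =>
      exact ih.tail ⟨hXW _ ⟨t0, h0, h2⟩, hXW _ ⟨t0, h0, h2.tail h3⟩, h3.1⟩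
  have hto : ∀ y o, o ∉ K → Relation.ReflTransGen Adj y o → y ∉ W →
      ∃ x ∈ X, Relation.ReflTransGen (StepIn ((W : Finset P2) : Set P2)ᶜ) y x := by
    intro y o ho hyo
    induction hyo using Relation.ReflTransGen.head_induction_on with
    | refl => exact fun _ => ⟨o, ex_of_notMem _ ho, Relation.ReflTransGen.refl⟩
    | @head a b hab _ ih =>
      intro haW
      by_cases haX : a ∈ X
      · exact ⟨a, haX, Relation.ReflTransGen.refl⟩
      · have hbW : b ∉ W := fun hb => haW (Wstep b a hb haX (adj_symm hab))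
        obtain ⟨x, hx, hp⟩ := ih hbW
        exact ⟨x, hx, Relation.ReflTransGen.head ⟨haW, hbW, hab⟩ hp⟩
  obtain ⟨o, ho⟩ : ∃ o : P2, o ∉ K := by
    obtain ⟨w, _, hw⟩ := exists_far K 0
    exact ⟨w, hw⟩
  have hto' : ∀ y, y ∉ W → ∃ t0, t0 ∉ K ∧
      Relation.ReflTransGen (StepIn ((W : Finset P2) : Set P2)ᶜ) y t0 := by
    intro y hy
    obtain ⟨x, ⟨t0, h1, h2⟩, hp⟩ := hto y o ho (plane_conn y o) hy
    exact ⟨t0, h1, hp.trans (path_symm (hXpath t0 x h1 h2))⟩
  have hWsc : SC W := by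
    intro u hu v hv
    obtain ⟨t0, h1, h2⟩ := hto' u (by simpa using hu)
    obtain ⟨t1, h3, h4⟩ := hto' v (by simpa using hv)
    refine (h2.trans ?_).trans (path_symm h4)
    have := hK t0 (by simpa using h1) t1 (by simpa using h3)
    refine Relation.ReflTransGen.mono (fun a b hab => ?_) _ _ this
    exact ⟨fun h5 => hab.1 (WK a h5), fun h5 => hab.2.1 (WK b h5), hab.2.2⟩
  refine ⟨W, hWc, hWsc, mW, WK, fun u hu v hv ha => ?_⟩
  by_contra h1
  have hvX : v ∈ X := by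
    by_contra h2
    exact hv (Wstep u v hu h2 ha)
  exact WX u hu (ex_step hvX (adj_symm ha) h1)

/-- a path leaving a set -/
theorem exit {S : Set P2} {W : Set P2} {u v : P2} (p : Relation.ReflTransGen (StepIn S) u v)
    (hu : u ∈ W) (hv : v ∉ W) : ∃ a b, a ∈ S ∧ a ∈ W ∧ b ∉ W ∧ Adj a b := by
  induction p with
  | refl => exact absurd hu hv
  | @tail b d _ h2 ih =>
    by_cases hb : b ∈ W
    · exact ⟨b, d, h2.1, hb, hv, h2.2.2⟩
    · exact ih hb

/-- **Unexplored components are small.** -/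
theorem mac_small {K : Finset P2} (hK : SC K) {S P : Set P2} (hSP : ∀ t, t ∈ S → t ∉ P)
    {Y : Set P2} {s : ℕ} (hY : ∀ t ∈ K, ∃ y ∈ Y, t ∈ ball y s)
    (hB : ∀ y ∈ Y, Sepr P y s (2 * s)) {u v : P2} (hu : u ∉ Ex S K)
    (hp : Relation.ReflTransGen (StepIn (Ex S K)ᶜ) u v) : v ∈ ball u (4 * s) := by
  classical
  obtain ⟨W, hWc, hWsc, mW, WK, hb⟩ := comp_facts hK S hu
  have huW : u ∈ W := (mW u).2 Relation.ReflTransGen.refl
  have hvW : v ∈ W := (mW v).2 hp
  -- a boundary triangle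
  obtain ⟨o, -, ho⟩ := exists_far W 0
  have hpl : Relation.ReflTransGen (StepIn Set.univ) u o :=
    Relation.ReflTransGen.mono (fun a b hab => ⟨trivial, trivial, hab⟩) _ _ (plane_conn u o)
  obtain ⟨t0, b0, -, ht0, hb0, hab0⟩ := exit (W := (W : Set P2)) hpl huW ho
  have ht0S : t0 ∈ S := hb t0 ht0 b0 hb0 hab0
  obtain ⟨y, hy, hty⟩ := hY t0 (WK t0 ht0)
  set A : Set P2 := {t | Relation.ReflTransGen (StepIn S) t0 t} with hA
  have hAS : ∀ t, t ∈ A → t ∈ S := by
    intro t ht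
    cases ht with
    | refl => exact ht0S
    | tail _ h2 => exact h2.2.1
  have key := unico hWc hWsc (P := A) (Q := S ∩ Aᶜ)
    (fun a ha b hb' h1 h2 h3 => h2.2 (Relation.ReflTransGen.tail h1 ⟨hAS a h1, h2.1, h3⟩))
    (fun a ha b hb' h1 => by
      by_cases h : a ∈ A
      · exact Or.inl h
      · exact Or.inr ⟨hb a ha b hb' h1, h⟩)
  have hall : ∀ a ∈ W, ∀ b, b ∉ W → Adj a b → a ∈ A := by
    rcases key with h | h
    · exact h
    · exact absurd Relation.ReflTransGen.refl (h t0 ht0 b0 hb0 hab0)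
  -- the boundary is in the ball
  have hbd : ∀ a ∈ W, ∀ b, b ∉ W → Adj a b → a ∈ ball y (2 * s) := by
    intro a ha b hb' hab
    by_contra hc
    have h1 : Relation.ReflTransGen (StepIn S) t0 a := hall a ha b hb' hab
    refine hB y hy a t0 hc hty (path_symm (path_mono (fun t ht => hSP t ht) h1))
  -- the whole component is in the ball
  have hin : ∀ w ∈ W, w ∈ ball y (2 * s) := by
    intro w hw
    by_contra hc
    obtain ⟨z, -, hz⟩ := exists_far (W ∪ ball y (2 * s)) 0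
    rw [Finset.mem_union, not_or] at hz
    have hq := sc_ball y (2 * s) w (by simpa using hc) z (by simpa using hz.2)
    obtain ⟨a, b, h1, h2, h3, h4⟩ := exit (W := (W : Set P2)) hq hw hz.1
    exact h1 (hbd a h2 b h3 h4)
  have h1 := hin u huW
  have h2 := hin v hvW
  rw [mem_ball] at h1 h2 ⊢
  obtain ⟨a1, a2, a3⟩ := h1
  obtain ⟨b1, b2, b3⟩ := h2
  rw [abs_le] at a1 a2 a3 b1 b2 b3
  simp only [abs_le]
  push_cast at *
  omega

/-- the explored set depends only on `S` off the unexplored domain -/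
theorem Ex_congr {S S' : Set P2} {K B : Finset P2} (h : ∀ t, t ∉ B → (t ∈ S ↔ t ∈ S'))
    (hB : Un S K = B) : Ex S' K = Ex S K := by
  ext t
  constructor
  · rintro ⟨t0, h3, h4⟩
    induction h4 with
    | refl => exact ex_of_notMem S h3
    | @tail b d _ h5 ih =>
      by_contra h6
      have h7 : d ∉ B := by
        rw [← hB, notMem_Un]
        exact Or.inr ⟨b, adj_symm h5.1, ih⟩
      exact h6 (ex_step ih h5.1 fun h8 => h5.2 ((h d h7).1 h8))
  · rintro ⟨t0, h3, h4⟩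
    induction h4 with
    | refl => exact ex_of_notMem S' h3
    | @tail b d h4 h5 ih =>
      refine ex_step ih h5.1 fun h6 => ?_
      have h7 : d ∉ B := by
        rw [← hB, notMem_Un]
        exact Or.inl ⟨t0, h3, h4.tail h5⟩
      exact h5.2 ((h d h7).2 h6)

/-! ### heights -/

/-- minus-closed triangles -/
def mS (ω : Cfg) : Set P2 := {t | mC ω t}

section

variable {c : ℝ} {F : Finset P2} {ω : Cfg}

/-- an unclosed triangle has constant `s2` -/
theorem open_s2 (hω : Valid F ω) (hw : wt c F ω ≠ 0) {t : P2} (ht : ω.2 t = false) {u v : P2}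
    (hu : u ∈ up t) (hv : v ∈ up t) : s2 (ω.1 u) = s2 (ω.1 v) := by
  have htF : t ∈ F := by
    by_contra h
    rw [hω.cl t h] at ht
    exact absurd ht (by decide)
  have h1 : ew c ω t ≠ 0 := fun h => hw (Finset.prod_eq_zero htF h)
  have h2 : C2 ω.1 t := by
    by_contra h
    apply h1
    unfold ew
    rw [if_neg (by rw [ht]; decide), if_neg h]
  obtain ⟨a, b⟩ := h2
  have key : ∀ w ∈ up t, s2 (ω.1 w) = s2 (ω.1 (cr t 0)) := by
    intro w hw
    obtain ⟨i, rfl⟩ := mem_up_iff.1 hw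
    fin_cases i
    · rfl
    · exact a.symm
    · exact b.symm
  rw [key u hu, key v hv]

theorem up_lip (hω : Valid F ω) {t u v : P2} (hu : u ∈ up t) (hv : v ∈ up t) :
    |ω.1 u - ω.1 v| ≤ 1 := by
  obtain ⟨i, rfl⟩ := mem_up_iff.1 hu
  obtain ⟨j, rfl⟩ := mem_up_iff.1 hv
  exact lip_cr hω.ht.toLip t i j

theorem ht_off (hω : Valid F ω) {t v : P2} (ht : t ∉ F) (hv : v ∈ up t) : ω.1 v = 0 ∨ ω.1 v = 1 :=
  hω.ht.bd v fun h => ht (mem_of_corner hv h)

/-- **heights on the explored triangles** -/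
theorem ex_ht (hω : Valid F ω) (hw : wt c F ω ≠ 0) {t : P2} (ht : t ∈ Ex (mS ω) F) :
    ∀ v ∈ up t, -1 ≤ ω.1 v ∧ ω.1 v ≤ 2 := by
  obtain ⟨t0, h0, hp⟩ := ht
  induction hp with
  | refl =>
    intro v hv
    rcases ht_off hω h0 hv with h | h <;> rw [h] <;> decide
  | @tail b d _ hs ih =>
    intro v hv
    obtain ⟨v0, h1, h2⟩ := adj_site hs.1
    obtain ⟨i1, i2⟩ := ih v0 h1
    have l1 := abs_le.1 (up_lip hω hv h2)
    by_contra hc
    have hd : d ∈ up d := base_mem_up d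
    have l2 := abs_le.1 (up_lip hω hd h2)
    have l3 := abs_le.1 (up_lip hω hd hv)
    -- heights `{2, 3}` or `{-2, -1}`
    have hcase : (ω.1 v = 3 ∧ ω.1 v0 = 2) ∨ (ω.1 v = -2 ∧ ω.1 v0 = -1) := by omega
    have hs1 : s1 (ω.1 d) = false := by
      rw [s1_false]
      omega
    cases hz : ω.2 d with
    | true => exact hs.2 ⟨hz, hs1⟩
    | false =>
      have h3 := open_s2 hω hw hz hv h2
      rcases hcase with ⟨e1, e2⟩ | ⟨e1, e2⟩
      · rw [e1, e2] at h3
        exact absurd h3 (by decide)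
      · rw [e1, e2] at h3
        exact absurd h3 (by decide)

/-- **heights on the layer** -/
theorem lay_ht (hω : Valid F ω) (hw : wt c F ω ≠ 0) {t t' : P2} (ht : t ∉ Ex (mS ω) F)
    (ha : Adj t t') (ht' : t' ∈ Ex (mS ω) F) :
    mC ω t ∧ ((∀ v ∈ up t, ω.1 v = 2 ∨ ω.1 v = 3) ∨ (∀ v ∈ up t, ω.1 v = -2 ∨ ω.1 v = -1)) := by
  have hm : mC ω t := by
    by_contra h
    exact ht (ex_step ht' (adj_symm ha) h)
  refine ⟨hm, ?_⟩
  obtain ⟨v0, h1, h2⟩ := adj_site ha
  have hs : ∀ v ∈ up t, s1 (ω.1 v) = false := fun v hv => by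
    rw [closed_c1 hω hw hm.1 hv, hm.2]
  obtain ⟨i1, i2⟩ := ex_ht hω hw ht' v0 h2
  have h3 := s1_false.1 (hs v0 h1)
  have hcase : ω.1 v0 = 2 ∨ ω.1 v0 = -1 := by omega
  rcases hcase with e | e
  · left
    intro v hv
    have l1 := abs_le.1 (up_lip hω hv h1)
    have h4 := s1_false.1 (hs v hv)
    omega
  · right
    intro v hv
    have l1 := abs_le.1 (up_lip hω hv h1)
    have h4 := s1_false.1 (hs v hv)
    omega

/-- a triangle off the unexplored domain, next to it, is a layer triangle -/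
theorem next_ex {t t' : P2} (h : t ∈ Un (mS ω) F) (ht' : t' ∉ Un (mS ω) F) (ha : Adj t t') :
    t' ∉ Ex (mS ω) F ∧ ∃ u, Adj t' u ∧ u ∈ Ex (mS ω) F := by
  rw [mem_Un] at h
  have h1 := h.2 t' ha
  refine ⟨h1, ?_⟩
  rcases notMem_Un.1 ht' with h2 | h2
  · exact absurd h2 h1
  · exact h2

/-- the layer around the unexplored domain -/
theorem lay_un (hω : Valid F ω) (hw : wt c F ω ≠ 0) : Lay false (Un (mS ω) F) ω := by
  refine lay_of hω hw fun t ht hv => ?_
  obtain ⟨v, hv1, hv2⟩ := hv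
  obtain ⟨t', ht', hv3⟩ := mem_VF.1 hv1
  have hne : t' ≠ t := fun h => ht (h ▸ ht')
  exact (layer_Un ht' ht (adj_of_site hne hv3 hv2)).1

/-- **the level of the inside is `2` or `-2`** -/
theorem lev_pm (hF : SC F) (hω : Valid F ω) (hw : wt c F ω ≠ 0) {v : P2}
    (hv : v ∈ VF (Un (mS ω) F)) :
    lev false (Un (mS ω) F) ω v = 2 ∨ lev false (Un (mS ω) F) ω v = -2 := by
  set U := Un (mS ω) F with hU
  have hW : SC U := sc_Un _ hF
  have hl : Lip ω.1 := hω.ht.toLip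
  have hL : Lay false U ω := lay_un hω hw
  have same : ∀ t ∈ U, ∀ a ∈ up t, ∀ b ∈ up t, lev false U ω a = lev false U ω b := by
    intro t ht a ha b hb
    obtain ⟨i, rfl⟩ := mem_up_iff.1 ha
    obtain ⟨j, rfl⟩ := mem_up_iff.1 hb
    exact lev_tri hW hl hL ht i j
  have key : ∀ t o, Relation.ReflTransGen Adj t o → o ∉ U → t ∈ U → ∀ a ∈ up t,
      lev false U ω a = 2 ∨ lev false U ω a = -2 := by
    intro t o hp
    induction hp using Relation.ReflTransGen.head_induction_on with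
    | refl => exact fun h1 h2 => absurd h2 h1
    | @head t b hab _ ih =>
      intro ho ht a ha
      obtain ⟨x, hx1, hx2⟩ := adj_site hab
      rw [same t ht a ha x hx1]
      by_cases hb : b ∈ U
      · exact ih ho hb x hx2
      · obtain ⟨h1, u, h2, h3⟩ := next_ex ht hb hab
        obtain ⟨-, h4⟩ := lay_ht hω hw h1 h2 h3
        have hxV : x ∈ VF U := mem_VF.2 ⟨t, ht, hx1⟩
        obtain ⟨h5, -⟩ := lay_corner hW hl hL hb hxV hx2 hx2
        have h6 := lev_mod hW hl hL hxV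
        have h7 : (off false : ℤ) = 2 := rfl
        rw [h7] at h6
        rcases h4 with h4 | h4
        · have h8 := h4 x hx2
          omega
        · have h8 := h4 x hx2
          omega
  obtain ⟨t, ht, hvt⟩ := mem_VF.1 hv
  obtain ⟨o, -, ho⟩ := exists_far U 0
  exact key t o (plane_conn t o) ho ht v hvt

/-- heights off the inside -/
theorem ht_out (hω : Valid F ω) (hw : wt c F ω ≠ 0) {v : P2} (hv : v ∉ VF (Un (mS ω) F)) :
    -2 ≤ ω.1 v ∧ ω.1 v ≤ 3 := by
  have h1 : v ∉ Un (mS ω) F := fun h => hv (mem_VF.2 ⟨v, h, base_mem_up v⟩)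
  by_cases h2 : v ∈ Ex (mS ω) F
  · have := ex_ht hω hw h2 v (base_mem_up v)
    omega
  · rcases notMem_Un.1 h1 with h3 | ⟨u, h3, h4⟩
    · exact absurd h3 h2
    · obtain ⟨-, h5⟩ := lay_ht hω hw h2 h3 h4
      rcases h5 with h5 | h5
      · have := h5 v (base_mem_up v)
        omega
      · have := h5 v (base_mem_up v)
        omega

/-- sites of the inside are unexplored as triangles -/
theorem vf_unex {v : P2} (hv : v ∈ VF (Un (mS ω) F)) : v ∉ Ex (mS ω) F := by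
  obtain ⟨t, ht, hvt⟩ := mem_VF.1 hv
  by_cases h : t = v
  · subst h
    exact (mem_Un.1 ht).1
  · exact (mem_Un.1 ht).2 v (adj_of_site h hvt (base_mem_up v))

end

end Crest.Agent.R144.Tig425
end
end

-- ▼ part R144/Tig2_425
section

/-!
# R144, integer chain S5 (contiguity), block TIGHT, part 2: the recursion (helper425)

`X m R h` : a cluster of `{m ≤ |h - 1/2| - 1/2}` contains two sites at distance more than `R`.
* `rec_step` : `E_F (X (m+2) R) ≤ E_F (X m R) * E_F (Gr F R)`, `1 ≤ m`, `Gr` = the unexplored set (through triangles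
  which are not minus-closed) has a component with two triangles at distance more than `R`;
* `gr_le` : `E_F (Gr F R) ≤ 1 - p ^ J`, `J` = number of balls of radius `s` covering `F`, `4 s ≤ R`;
* `X_iter` : `E_F (X (2 j + 1) R) ≤ (1 - p ^ J) ^ j`.
-/

set_option autoImplicit false
set_option linter.unusedSectionVars false
set_option linter.unusedVariables false

noncomputable section

namespace Crest.Agent.R144.Tig425

open Finset
open Crest.Agent.R144.It844 (P2 adj_symm adj_iff adj_comm Lip)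
open Crest.ProbabilityR.HexHeights (Adj)
open Crest.Agent.R144.Zg349 Crest.Agent.R144.Zd349 Crest.Agent.R144.Zm349 Crest.Agent.R144.Ze349
open Crest.Agent.R144.Rsw867
open Crest.Agent.R144.Mk696
open Crest.Agent.R144.Zs349
open Crest.Agent.R144.Pst967 (stepIn_symm path_symm)
open Crest.Agent.R144.Hf702 (kof EH SH Inc MPos E_eq_EH EH_mono EH_congr EH_le EI htsI mem_htsI EI_mono EI_self
  ext ext_of hh kof_hh)

/-! ### clusters of large heights -/

/-- macroscopic cluster of `{m ≤ |h - 1/2| - 1/2}` -/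
def X (m R : ℕ) (h : P2 → ℤ) : Prop :=
  ∃ u v, v ∉ ball u R ∧ Relation.ReflTransGen (StepIn {w | m ≤ kof (h w)}) u v

/-- the same inside `S` -/
def XV (S : Finset P2) (m R : ℕ) (h : P2 → ℤ) : Prop :=
  ∃ u v, v ∉ ball u R ∧ Relation.ReflTransGen (StepIn {w | w ∈ S ∧ m ≤ kof (h w)}) u v

/-- macroscopic unexplored component -/
def Gr (F : Finset P2) (R : ℕ) (ω : Cfg) : Prop :=
  ∃ u v, v ∉ ball u R ∧ Relation.ReflTransGen (StepIn (Ex (mS ω) F)ᶜ) u v

open Classical in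
/-- indicator -/
def iX (m R : ℕ) (h : P2 → ℤ) : ℝ := if X m R h then 1 else 0

open Classical in
/-- indicator -/
def iXV (S : Finset P2) (m R : ℕ) (h : P2 → ℤ) : ℝ := if XV S m R h then 1 else 0

open Classical in
/-- indicator -/
def iGr (F : Finset P2) (R : ℕ) (ω : Cfg) : ℝ := if Gr F R ω then 1 else 0

theorem XV.toX {S : Finset P2} {m R : ℕ} {h : P2 → ℤ} (H : XV S m R h) : X m R h := by
  obtain ⟨u, v, h1, h2⟩ := H
  exact ⟨u, v, h1, path_mono (fun w hw => hw.2) h2⟩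

theorem X.toXV {S : Finset P2} {m R : ℕ} {h : P2 → ℤ} (hS : ∀ v, v ∉ S → kof (h v) < m) (H : X m R h) :
    XV S m R h := by
  obtain ⟨u, v, h1, h2⟩ := H
  refine ⟨u, v, h1, path_mono ?_ h2⟩
  intro w hw
  refine ⟨?_, hw⟩
  by_contra hc
  exact absurd hw (not_le.2 (hS w hc))

theorem X.anti {m m' R : ℕ} (hm : m ≤ m') {h : P2 → ℤ} (H : X m' R h) : X m R h := by
  obtain ⟨u, v, h1, h2⟩ := H
  exact ⟨u, v, h1, path_mono (fun w hw => hm.trans hw) h2⟩

theorem self_ball (u : P2) (R : ℕ) : u ∈ ball u R := by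
  rw [mem_ball]; simp

/-- the sites of a macroscopic path -/
theorem start_in {S : Set P2} {u v : P2} {R : ℕ} (h : v ∉ ball u R)
    (hp : Relation.ReflTransGen (StepIn S) u v) : u ∈ S := by
  rcases Relation.ReflTransGen.cases_head hp with h1 | ⟨w, h1, _⟩
  · subst h1
    exact absurd (self_ball u R) h
  · exact h1.1

theorem kof_zero : kof 0 = 0 := rfl

theorem kof_out {a : ℤ} (h : -2 ≤ a ∧ a ≤ 3) : kof a ≤ 2 := by
  unfold kof
  split_ifs <;> omega

theorem kof_in {l b : ℤ} (hl : l = 2 ∨ l = -2) : kof (l + b) ≤ kof b + 2 := by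
  unfold kof
  split_ifs <;> omega

theorem iX_nonneg (m R : ℕ) (h : P2 → ℤ) : 0 ≤ iX m R h := by unfold iX; split_ifs <;> norm_num
theorem iX_le_one (m R : ℕ) (h : P2 → ℤ) : iX m R h ≤ 1 := by unfold iX; split_ifs <;> norm_num
theorem iXV_nonneg (S : Finset P2) (m R : ℕ) (h : P2 → ℤ) : 0 ≤ iXV S m R h := by
  unfold iXV; split_ifs <;> norm_num
theorem iGr_nonneg (F : Finset P2) (R : ℕ) (ω : Cfg) : 0 ≤ iGr F R ω := by
  unfold iGr; split_ifs <;> norm_num

/-- **pointwise**: a macroscopic cluster at level `m + 2` -/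
theorem point {c : ℝ} {F : Finset P2} {ω : Cfg} (hF : SC F) (hω : Valid F ω) (hw : wt c F ω ≠ 0)
    {m R : ℕ} (hm : 1 ≤ m) (hX : X (m + 2) R ω.1) :
    Gr F R ω ∧ XV (VF (Un (mS ω) F)) m R (inH false (Un (mS ω) F) ω) := by
  obtain ⟨u, v, huv, hp⟩ := hX
  have hV : ∀ w, m + 2 ≤ kof (ω.1 w) → w ∈ VF (Un (mS ω) F) := by
    intro w hw'
    by_contra hc
    have := kof_out (ht_out hω hw hc)
    omega
  refine ⟨⟨u, v, huv, path_mono (fun w hw' => vf_unex (hV w hw')) hp⟩, u, v, huv,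
    path_mono ?_ hp⟩
  intro w hw'
  refine ⟨hV w hw', ?_⟩
  have h1 := kof_in (b := inH false (Un (mS ω) F) ω w) (lev_pm hF hω hw (hV w hw'))
  have h2 : lev false (Un (mS ω) F) ω w + inH false (Un (mS ω) F) ω w = ω.1 w := by
    unfold lev; ring
  rw [h2] at h1
  have h3 : m + 2 ≤ kof (ω.1 w) := hw'
  omega

/-! ### increasing functions -/

theorem inc_iXV {S S' : Finset P2} (hS : S ⊆ S') (m R : ℕ) : Inc S' (iXV S m R) := by
  classical
  constructor
  · intro h h' e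
    have : {w : P2 | w ∈ S ∧ m ≤ kof (h w)} = {w : P2 | w ∈ S ∧ m ≤ kof (h' w)} := by
      ext w
      constructor
      · rintro ⟨h1, h2⟩
        exact ⟨h1, by rw [← e w (hS h1)]; exact h2⟩
      · rintro ⟨h1, h2⟩
        exact ⟨h1, by rw [e w (hS h1)]; exact h2⟩
    unfold iXV XV
    rw [this]
  · intro W hW
    set Q : (↥W → ℕ) → Prop := fun k => ∃ u v, v ∉ ball u R ∧
      Relation.ReflTransGen (StepIn {w | ∃ hw : w ∈ W, w ∈ S ∧ m ≤ k ⟨w, hw⟩}) u v with hQ
    have e1 : ∀ (k : ↥W → ℕ) (σ : ↥W → ℤˣ), iXV S m R (ext W k σ) = if Q k then 1 else 0 := by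
      intro k σ
      have : {w : P2 | w ∈ S ∧ m ≤ kof (ext W k σ w)} =
          {w : P2 | ∃ hw : w ∈ W, w ∈ S ∧ m ≤ k ⟨w, hw⟩} := by
        ext w
        constructor
        · rintro ⟨h1, h2⟩
          have hw : w ∈ W := hW (hS h1)
          refine ⟨hw, h1, ?_⟩
          rw [ext_of hw] at h2
          unfold hh at h2
          rwa [kof_hh] at h2
        · rintro ⟨hw, h1, h2⟩
          refine ⟨h1, ?_⟩
          rw [ext_of hw]
          unfold hh
          rwa [kof_hh]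
      unfold iXV XV
      rw [this]
    refine MPos.congr (Φ := fun k _ => if Q k then 1 else 0) ⟨fun k => ?_, fun k k' hk => ?_⟩ e1
    · refine Crest.Agent.R161.Gks375.Pos.const ?_
      split_ifs <;> norm_num
    · refine Crest.Agent.R161.Gks375.Pos.const ?_
      have hmono : Q k → Q k' := by
        rintro ⟨u, v, h1, h2⟩
        refine ⟨u, v, h1, path_mono ?_ h2⟩
        rintro w ⟨hw, h3, h4⟩
        exact ⟨hw, h3, h4.trans (hk _)⟩
      by_cases h1 : Q k
      · rw [if_pos h1, if_pos (hmono h1)]; norm_num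
      · rw [if_neg h1]
        split_ifs <;> norm_num

theorem X_iff_XV {F : Finset P2} {m R : ℕ} (hm : 1 ≤ m) {h : P2 → ℤ} (hh : HV F h) :
    iX m R h = iXV (VF F) m R h := by
  have key : X m R h ↔ XV (VF F) m R h :=
    ⟨fun H => H.toXV fun v hv => by rw [hh.off v hv, kof_zero]; omega, XV.toX⟩
  unfold iX iXV
  by_cases H : X m R h
  · rw [if_pos H, if_pos (key.1 H)]
  · rw [if_neg H, if_neg fun h => H (key.2 h)]

/-- **domain monotonicity** of the macroscopic cluster probability -/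
theorem EH_X_mono {x : ℝ} (hx0 : 0 ≤ x) (hx1 : x ≤ 1) {F F' : Finset P2} (hF : F ⊆ F') {m R : ℕ}
    (hm : 1 ≤ m) : EH x F (iX m R) ≤ EH x F' (iX m R) := by
  have e1 : EH x F (iX m R) = EH x F (iXV (VF F) m R) := EH_congr fun h hh => X_iff_XV hm hh
  rw [e1]
  refine (EH_mono hx0 hx1 hF (inc_iXV (Finset.Subset.refl _) m R)).trans (EH_le fun h _ => ?_)
  unfold iXV iX
  by_cases H : XV (VF F) m R h
  · rw [if_pos H, if_pos H.toX]
  · rw [if_neg H]; split_ifs <;> norm_num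

/-- arbitrary free sites -/
theorem EI_X_le {x : ℝ} (hx0 : 0 ≤ x) (hx1 : x ≤ 1) {F I : Finset P2} (hI : I ⊆ IV F) {m R : ℕ}
    (hm : 1 ≤ m) : EI x F I (iX m R) ≤ EH x F (iX m R) := by
  have e1 : EI x F I (iX m R) = EI x F I (iXV (VF F) m R) := by
    unfold EI Hf702.SI
    congr 1
    exact Finset.sum_congr rfl fun a ha => by rw [X_iff_XV hm (mem_htsI.1 ha).1]
  have e2 : EH x F (iX m R) = EI x F (IV F) (iXV (VF F) m R) := by
    rw [EI_self]
    exact EH_congr fun h hh => X_iff_XV hm hh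
  rw [e1, e2]
  exact EI_mono hx0 hx1 (Finset.Subset.refl F) hI (Finset.Subset.refl _) hI
    (inc_iXV (Finset.Subset.refl _) m R)

/-! ### one step -/

theorem E_le_wt {c : ℝ} (hc : 1 ≤ c) {F : Finset P2} {f g : Cfg → ℝ}
    (h : ∀ ω, Valid F ω → wt c F ω ≠ 0 → f ω ≤ g ω) : E c F f ≤ E c F g := by
  rw [E_eq_S, E_eq_S]
  refine div_le_div_of_nonneg_right ?_ (Z_pos hc F).le
  unfold S
  refine Finset.sum_le_sum fun ω hω => ?_
  by_cases hw : wt c F ω = 0
  · rw [hw, zero_mul, zero_mul]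
  · exact mul_le_mul_of_nonneg_left (h ω (mem_conf.1 hω) hw) (wt_nonneg hc F ω)

open Classical in
/-- the event seen from one unexplored domain -/
def Ps (F U : Finset P2) (m R : ℕ) (ω : Cfg) : ℝ :=
  if Un (mS ω) F = U ∧ Gr F R ω ∧ XV (VF U) m R (inH false U ω) then 1 else 0

open Classical in
/-- its outside part -/
def Pg (F U : Finset P2) (R : ℕ) (ω : Cfg) : ℝ := if Un (mS ω) F = U ∧ Gr F R ω then 1 else 0

theorem Pg_nonneg (F U : Finset P2) (R : ℕ) (ω : Cfg) : 0 ≤ Pg F U R ω := by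
  unfold Pg; split_ifs <;> norm_num

theorem glue_mS {U : Finset P2} {ω ω' : Cfg} (hU : SC U) (hl : Lip ω.1) (hL : Lay false U ω)
    (hω' : Valid U ω') : ∀ t, t ∉ U → (t ∈ mS (glue false U ω ω') ↔ t ∈ mS ω) := by
  intro t ht
  show mC (glue false U ω ω') t ↔ mC ω t
  unfold mC
  rw [glue_z' ht, glue_s1_off hU hl hL hω' fun h => ht (IV_sub U h)]

/-- gluing does not change the outside part, the inside becomes `ω'` -/
theorem Ps_glue {F U : Finset P2} {m R : ℕ} {ω ω' : Cfg} (hU : SC U) (hω : Valid F ω)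
    (hL : Lay false U ω) (hω' : Valid U ω') :
    Ps F U m R (glue false U ω ω') ≤ Pg F U R ω * iXV (VF U) m R ω'.1 := by
  have hl : Lip ω.1 := hω.ht.toLip
  unfold Ps
  split_ifs with h
  · obtain ⟨h1, h2, h3⟩ := h
    have hm := glue_mS hU hl hL hω'
    have e1 : Un (mS ω) F = U := Un_congr hm h1
    have e2 := Ex_congr hm h1
    have e3 : Gr F R ω := by
      obtain ⟨u, v, h4, h5⟩ := h2
      exact ⟨u, v, h4, by rw [e2]; exact h5⟩
    rw [inH_glue hU hl hL hω'] at h3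
    unfold Pg iXV
    rw [if_pos ⟨e1, e3⟩, if_pos h3, mul_one]
  · exact mul_nonneg (Pg_nonneg _ _ _ _) (iXV_nonneg _ _ _ _)

/-- **the recursion** -/
theorem rec_step {x : ℝ} (hx0 : 0 < x) (hx1 : x ≤ 1) {F : Finset P2} (hF : SC F) {m R : ℕ}
    (hm : 1 ≤ m) :
    E ((x ^ 2)⁻¹) F (fun ω => iX (m + 2) R ω.1) ≤
      E ((x ^ 2)⁻¹) F (fun ω => iX m R ω.1) * E ((x ^ 2)⁻¹) F (iGr F R) := by
  classical
  set c : ℝ := (x ^ 2)⁻¹ with hcdef
  have hc : 1 ≤ c := by
    rw [hcdef]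
    exact (one_le_inv₀ (by positivity)).2 (pow_le_one₀ hx0.le hx1)
  set e : ℝ := E c F (fun ω => iX m R ω.1) with he
  have he0 : 0 ≤ e := E_nonneg hc fun ω _ => iX_nonneg m R _
  -- step 1: decompose along the unexplored domain
  have h1 : E c F (fun ω => iX (m + 2) R ω.1) ≤
      E c F (fun ω => ∑ U ∈ F.powerset.filter SC, layI false U ω * Ps F U m R ω) := by
    refine E_le_wt hc fun ω hω hw => ?_
    unfold iX
    split_ifs with hX
    · obtain ⟨g1, g2⟩ := point hF hω hw hm hX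
      have hmem : Un (mS ω) F ∈ F.powerset.filter SC := by
        rw [Finset.mem_filter, Finset.mem_powerset]
        exact ⟨Un_sub _ _, sc_Un _ hF⟩
      refine le_trans ?_ (Finset.single_le_sum (fun U _ => ?_) hmem)
      · rw [layI_of (lay_un hω hw), one_mul]
        unfold Ps
        rw [if_pos ⟨rfl, g1, g2⟩]
      · refine mul_nonneg (layI_nonneg _ _ _) ?_
        unfold Ps; split_ifs <;> norm_num
    · refine Finset.sum_nonneg fun U _ => mul_nonneg (layI_nonneg _ _ _) ?_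
      unfold Ps; split_ifs <;> norm_num
  rw [E_sum] at h1
  -- step 2: one domain
  have h2 : ∀ U ∈ F.powerset.filter SC, E c F (fun ω => layI false U ω * Ps F U m R ω) ≤
      e * E c F (Pg F U R) := by
    intro U hU
    rw [Finset.mem_filter, Finset.mem_powerset] at hU
    obtain ⟨hUF, hUsc⟩ := hU
    rw [E_swap hc hUsc hUF, ← E_smul]
    have hin : E c U (fun ω' => iXV (VF U) m R ω'.1) ≤ e := by
      have a1 : E c U (fun ω' => iXV (VF U) m R ω'.1) = EH x U (iX m R) := by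
        rw [hcdef, E_eq_EH hx0.ne' U (iXV (VF U) m R)]
        exact (EH_congr fun h hh => X_iff_XV hm hh).symm
      rw [a1, he, hcdef, E_eq_EH hx0.ne' F (iX m R)]
      exact EH_X_mono hx0.le hx1 hUF hm
    refine E_mono hc fun ω hω => ?_
    by_cases hL : Lay false U ω
    · rw [layI_of hL, one_mul]
      have a2 : E c U (fun ω' => Ps F U m R (glue false U ω ω')) ≤
          E c U (fun ω' => Pg F U R ω * iXV (VF U) m R ω'.1) :=
        E_mono hc fun ω' hω' => Ps_glue hUsc hω hL hω'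
      rw [E_smul] at a2
      refine a2.trans ?_
      rw [mul_comm e]
      exact mul_le_mul_of_nonneg_left hin (Pg_nonneg _ _ _ _)
    · rw [layI_of_not hL, zero_mul]
      exact mul_nonneg he0 (Pg_nonneg _ _ _ _)
  -- step 3: sum up
  refine h1.trans ((Finset.sum_le_sum h2).trans ?_)
  rw [← Finset.mul_sum, ← E_sum]
  refine mul_le_mul_of_nonneg_left (E_mono hc fun ω hω => ?_) he0
  by_cases hG : Gr F R ω
  · have a3 : ∀ U ∈ F.powerset.filter SC, Pg F U R ω = if Un (mS ω) F = U then 1 else 0 := by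
      intro U _
      unfold Pg
      simp only [hG, and_true]
    rw [Finset.sum_congr rfl a3, Finset.sum_ite_eq]
    unfold iGr
    rw [if_pos hG]
    split_ifs <;> norm_num
  · have a3 : ∀ U ∈ F.powerset.filter SC, Pg F U R ω = 0 := by
      intro U _
      unfold Pg
      simp only [hG, and_false, if_false]
    rw [Finset.sum_congr rfl a3, Finset.sum_const_zero]
    exact iGr_nonneg F R ω

/-! ### the bound on the macroscopic unexplored component -/

/-- all blocks of a family of centres -/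
def AllP (Y : Finset P2) (s : ℕ) : Set Cfg := {ω | ∀ y ∈ Y, ω ∈ BlkP y s (2 * s)}

theorem incP_allP (Y : Finset P2) (s : ℕ) : IncP (ind (AllP Y s)) := fun _ _ h =>
  ind_le_ind fun hω y hy => Sepr.mono (fun t ht => h.p t ht) (hω y hy)

theorem allP_ge {c : ℝ} (hc : 1 ≤ c) {K : ℕ} {p : ℝ} (hR : RSW c K p) {F : Finset P2} (hF : SC F)
    {s : ℕ} (hs : 1 ≤ s) (Y : Finset P2) : p ^ Y.card ≤ E c F (ind (AllP Y s)) := by
  classical
  induction Y using Finset.induction_on with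
  | empty =>
    rw [Finset.card_empty, pow_zero]
    have : E c F (ind (AllP ∅ s)) = 1 := by
      rw [← E_const hc F 1]
      exact E_congr fun ω _ => ind_of_mem fun y hy => absurd hy (by simp)
    rw [this]
  | insert y Y hy ih =>
    rw [Finset.card_insert_of_notMem hy, pow_succ]
    have h1 : p ≤ E c F (ind (BlkP y s (2 * s))) := by
      have := hR.plus s hs y F hF (fun _ => 1) (fun _ => zero_le_one) fun _ _ _ _ => rfl
      rw [E_const hc, mul_one] at this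
      simpa only [one_mul] using this
    have h2 := assoc hc hF (incP_allP Y s) (incP_blkP y s (2 * s))
    have h3 : E c F (fun ω => ind (AllP Y s) ω * ind (BlkP y s (2 * s)) ω) =
        E c F (ind (AllP (insert y Y) s)) := E_congr fun ω _ => by
      by_cases a : ω ∈ AllP Y s
      · by_cases b : ω ∈ BlkP y s (2 * s)
        · rw [ind_of_mem a, ind_of_mem b, ind_of_mem, mul_one]
          intro z hz
          rcases Finset.mem_insert.1 hz with h | h
          · rw [h]; exact b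
          · exact a z h
        · rw [ind_of_not_mem b, mul_zero, ind_of_not_mem]
          exact fun h => b (h y (Finset.mem_insert_self y Y))
      · rw [ind_of_not_mem a, zero_mul, ind_of_not_mem]
        exact fun h => a fun z hz => h z (Finset.mem_insert_of_mem hz)
    rw [← h3]
    refine le_trans ?_ h2
    have hp := hR.p0
    exact mul_le_mul ih h1 hp.le (E_nonneg hc fun ω _ => ind_nonneg _ _)

theorem not_gr {F : Finset P2} (hF : SC F) {Y : Finset P2} {s R : ℕ} (hsR : 4 * s ≤ R)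
    (hY : ∀ t ∈ F, ∃ y ∈ Y, t ∈ ball y s) {ω : Cfg} (hω : ω ∈ AllP Y s) : ¬ Gr F R ω := by
  rintro ⟨u, v, h1, h2⟩
  have hu : u ∉ Ex (mS ω) F := start_in h1 h2
  have := mac_small (K := F) hF (S := mS ω) (P := {t | pC ω t})
    (fun t ht hp => by
      have a : s1 (ω.1 t) = false := ht.2
      rw [hp.2] at a
      exact absurd a (by decide)) (Y := (Y : Set P2))
    (fun t ht => hY t ht) (fun y hy => hω y hy) hu h2
  exact h1 (ball_mono u hsR this)

theorem gr_le {c : ℝ} (hc : 1 ≤ c) {K : ℕ} {p : ℝ} (hR : RSW c K p) {F : Finset P2} (hF : SC F)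
    {Y : Finset P2} {s R : ℕ} (hs : 1 ≤ s) (hsR : 4 * s ≤ R)
    (hY : ∀ t ∈ F, ∃ y ∈ Y, t ∈ ball y s) : E c F (iGr F R) ≤ 1 - p ^ Y.card := by
  have h1 := allP_ge hc hR hF hs Y
  have h2 : E c F (iGr F R) ≤ E c F (fun ω => 1 - ind (AllP Y s) ω) := E_mono hc fun ω _ => by
    unfold iGr
    by_cases h : ω ∈ AllP Y s
    · rw [ind_of_mem h, if_neg (not_gr hF hsR hY h)]; norm_num
    · rw [ind_of_not_mem h]
      split_ifs <;> norm_num
  rw [E_sub, E_const hc] at h2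
  linarith

/-- **exponential decay in the height** -/
theorem X_iter {x : ℝ} (hx0 : 0 < x) (hx1 : x ≤ 1) {K : ℕ} {p : ℝ} (hR : RSW ((x ^ 2)⁻¹) K p)
    {F : Finset P2} (hF : SC F) {Y : Finset P2} {s R : ℕ} (hs : 1 ≤ s) (hsR : 4 * s ≤ R)
    (hY : ∀ t ∈ F, ∃ y ∈ Y, t ∈ ball y s) (j : ℕ) :
    E ((x ^ 2)⁻¹) F (fun ω => iX (2 * j + 1) R ω.1) ≤ (1 - p ^ Y.card) ^ j := by
  have hc : 1 ≤ (x ^ 2)⁻¹ := (one_le_inv₀ (by positivity)).2 (pow_le_one₀ hx0.le hx1)
  have hp0 := hR.p0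
  have hp1 := hR.p1
  have hq : 0 ≤ 1 - p ^ Y.card := by
    have : p ^ Y.card ≤ 1 := pow_le_one₀ hp0.le (by linarith)
    linarith
  induction j with
  | zero =>
    rw [pow_zero, ← E_const hc F 1]
    exact E_mono hc fun ω _ => iX_le_one _ _ _
  | succ j ih =>
    have h1 := rec_step hx0 hx1 hF (m := 2 * j + 1) (R := R) (by omega)
    have e : 2 * (j + 1) + 1 = 2 * j + 1 + 2 := by ring
    rw [e, pow_succ]
    refine h1.trans (mul_le_mul ih (gr_le hc hR hF hs hsR hY) ?_ (pow_nonneg hq j))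
    exact E_nonneg hc fun ω _ => iGr_nonneg F R ω

end Crest.Agent.R144.Tig425
end
end

-- ▼ part R144/Tig3_425
section

/-!
# R144, integer chain S5 (contiguity), block TIGHT, part 3: uniform tightness of the heights (helper425)

`RSW ((x^2)⁻¹) K p`, `0 < x ≤ 1`.  For `A : ℕ`, `ε > 0` there is `M`, such that for all `n ≥ 1`, all `o`, `a`:
* `tight_hi` : `Λ ⊆ ball o (A n)`, `τ ≤ 1` off `Λ`: a layer of `{h < M}` separates `ball a n` from the outside of
  `ball a (2 n)` with probability `≥ 1 - ε` under `ex x Λ τ`;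
* `tight_lo` : the same for `τ ≥ -1` and `{h > -M}`;
* `tight_F` : the same for `E c F`, `F ⊆ ball o (A n)`, `{-M < h < M}`.
No connectivity of `Λ`, `F` is needed.  (`tight_hi'`, `tight_lo'`, `tight_F'`: every `M ≥ M0`.)
-/

set_option autoImplicit false
set_option linter.unusedSectionVars false
set_option linter.unusedVariables false

noncomputable section

namespace Crest.Agent.R144.Tig425

open Finset
open Crest.Agent.R144.It844 (P2 adj_symm adj_iff adj_comm Lip ex pr upT mem_upT ex_mono_bc ex_neg ex_add_const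
  lip_const ex_congr ex_mono mem_conf)
open Crest.ProbabilityR.HexHeights (Adj)
open Crest.Agent.R144.Zg349 Crest.Agent.R144.Zd349
open Crest.Agent.R144.Zm349 hiding conf mem_conf wt Z pr
open Crest.Agent.R144.Rsw867
open Crest.Agent.R144.Hf702 (kof EH SH Inc MPos E_eq_EH EH_mono EH_congr EH_le EI htsI mem_htsI EI_mono EI_self
  EI_le EH_const ex_le_EI iv_of_upT)

/-! ### small scales: deterministic bound -/

theorem VF_ball {o v : P2} {N : ℕ} (h : v ∈ VF (ball o N)) : v ∈ ball o (N + 1) := by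
  obtain ⟨t, ht, hvt⟩ := mem_VF.1 h
  rw [mem_ball] at ht ⊢
  obtain ⟨h1, h2, h3⟩ := ht
  rw [abs_le] at h1 h2 h3
  simp only [abs_le]
  push_cast
  obtain ⟨x, y⟩ := t
  rcases mem_up.1 hvt with e | e | e <;> subst e <;> dsimp only at * <;> omega

theorem kof_ball {o : P2} {N : ℕ} {h : P2 → ℤ} (hh : HV (ball o N) h) (v : P2) : kof (h v) ≤ 2 * N + 3 := by
  by_cases hv : v ∈ VF (ball o N)
  · have h1 := hh.toLip.row v (2 * N + 3)
    have h2 : (v.1 + ((2 * N + 3 : ℕ) : ℤ), v.2) ∉ VF (ball o N) := by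
      intro hc
      have h3 := mem_ball.1 (VF_ball hc)
      have h4 := mem_ball.1 (VF_ball hv)
      obtain ⟨a1, -, -⟩ := h3
      obtain ⟨b1, -, -⟩ := h4
      rw [abs_le] at a1 b1
      push_cast at a1 b1
      omega
    rw [hh.off _ h2, sub_zero, abs_le] at h1
    push_cast at h1
    unfold kof
    split_ifs <;> omega
  · rw [hh.off v hv, kof_zero]
    omega

theorem X_small {o : P2} {N m R : ℕ} (hm : 2 * N + 4 ≤ m) {h : P2 → ℤ} (hh : HV (ball o N) h) :
    ¬ X m R h := by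
  rintro ⟨u, v, h1, h2⟩
  have h3 : m ≤ kof (h u) := start_in h1 h2
  have := kof_ball hh u
  omega

/-! ### the cover -/

open Crest.Agent.R144.Rw146 in
theorem cover (A : ℕ) (o : P2) {n s : ℕ} (hs : 1 ≤ s) (hn : n ≤ 15 * s) :
    ∃ Y : Finset P2, Y.card ≤ (2 * (15 * A + 1) + 1) ^ 2 ∧ ∀ t ∈ ball o (A * n), ∃ y ∈ Y, t ∈ ball y (2 * s) := by
  classical
  set L : ℕ := 15 * A + 1 with hL
  set B : Finset P2 := Finset.Icc (-(L : ℤ)) L ×ˢ Finset.Icc (-(L : ℤ)) L with hB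
  refine ⟨B.image (gp o s), ?_, fun t ht => ?_⟩
  · refine Finset.card_image_le.trans ?_
    rw [hB, Finset.card_product, Int.card_Icc]
    have : (L + 1 - (-(L : ℤ))).toNat = 2 * L + 1 := by omega
    rw [this]
    exact le_of_eq (by ring)
  · obtain ⟨k, h1, -, h3, h4⟩ := exists_gp hs ht
    have hs' : (0 : ℤ) < s := by exact_mod_cast hs
    have key : ∀ z : ℤ, (s : ℤ) * |z| ≤ ((A * n : ℕ) : ℤ) + s → |z| ≤ L := by
      intro z hz
      have h5 : ((A * n : ℕ) : ℤ) ≤ 15 * A * s := by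
        push_cast
        have : (n : ℤ) ≤ 15 * s := by exact_mod_cast hn
        nlinarith
      have h6 : (s : ℤ) * |z| ≤ s * (15 * A + 1) := by nlinarith
      have h7 := le_of_mul_le_mul_left h6 hs'
      rw [hL]
      push_cast
      exact h7
    refine ⟨gp o s k, Finset.mem_image.2 ⟨k, ?_, rfl⟩, h1⟩
    rw [hB, Finset.mem_product, Finset.mem_Icc, Finset.mem_Icc]
    exact ⟨abs_le.1 (key _ h3), abs_le.1 (key _ h4)⟩

/-! ### uniform bound in hexagonal balls -/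

/-- **uniform tightness in balls**, `|h - 1/2|` form -/
theorem X_unif {x : ℝ} (hx0 : 0 < x) (hx1 : x ≤ 1) {K : ℕ} {p : ℝ} (hR : RSW ((x ^ 2)⁻¹) K p) (A : ℕ)
    {ε : ℝ} (hε : 0 < ε) : ∃ M0 : ℕ, ∀ M, M0 ≤ M → ∀ n : ℕ, 1 ≤ n → ∀ o : P2,
      EH x (ball o (A * n)) (iX M n) ≤ ε := by
  have hp0 := hR.p0
  have hp1 := hR.p1
  set J : ℕ := (2 * (15 * A + 1) + 1) ^ 2 with hJ
  have hq0 : 0 < p ^ J := pow_pos hp0 _
  have hq1 : p ^ J ≤ 1 := pow_le_one₀ hp0.le (by linarith)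
  obtain ⟨j, hj⟩ := exists_pow_lt_of_lt_one hε (show 1 - p ^ J < 1 by linarith)
  refine ⟨max (2 * j + 1) (14 * A + 4), fun M hM n hn o => ?_⟩
  have hM1 : 2 * j + 1 ≤ M := (le_max_left _ _).trans hM
  have hM2 : 14 * A + 4 ≤ M := (le_max_right _ _).trans hM
  by_cases h8 : 8 ≤ n
  · have hs : 1 ≤ n / 8 := by omega
    obtain ⟨Y, hY1, hY2⟩ := cover A o (n := n) (s := n / 8) hs (by omega)
    have h1 := X_iter hx0 hx1 hR (sc_ball o (A * n)) (Y := Y) (s := 2 * (n / 8)) (R := n) (by omega)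
      (by omega) hY2 j
    rw [E_eq_EH hx0.ne' _ (iX (2 * j + 1) n)] at h1
    have h2 : EH x (ball o (A * n)) (iX M n) ≤ EH x (ball o (A * n)) (iX (2 * j + 1) n) :=
      EH_le fun h _ => by
        unfold iX
        by_cases H : X M n h
        · rw [if_pos H, if_pos (H.anti hM1)]
        · rw [if_neg H]; split_ifs <;> norm_num
    have h3 : (1 - p ^ Y.card) ^ j ≤ (1 - p ^ J) ^ j := by
      have h4 : p ^ J ≤ p ^ Y.card := pow_le_pow_of_le_one hp0.le (by linarith) hY1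
      have h5 : p ^ Y.card ≤ 1 := pow_le_one₀ hp0.le (by linarith)
      exact pow_le_pow_left₀ (by linarith) (by linarith) j
    linarith
  · have h1 : EH x (ball o (A * n)) (iX M n) ≤ EH x (ball o (A * n)) (fun _ => 0) := EH_le fun h hh => by
      unfold iX
      rw [if_neg]
      refine X_small ?_ hh
      have : A * n ≤ A * 7 := Nat.mul_le_mul_left A (by omega)
      omega
    rw [EH_const] at h1
    linarith

/-! ### separating layers -/

/-- a site of `ball a n` and a site off `ball a (2 n)` are at distance more than `n` -/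
theorem far_pt {a u v : P2} {n : ℕ} (hu : u ∉ ball a (2 * n)) (hv : v ∈ ball a n) : v ∉ ball u n := by
  intro h
  apply hu
  rw [mem_ball] at *
  obtain ⟨a1, a2, a3⟩ := hv
  obtain ⟨b1, b2, b3⟩ := h
  rw [abs_le] at *
  simp only [abs_le]
  push_cast at *
  omega

theorem X_of_not_sepr {S : Set P2} {a : P2} {n m : ℕ} {h : P2 → ℤ} (hs : ¬ Sepr S a n (2 * n))
    (hS : ∀ v, v ∉ S → m ≤ kof (h v)) : X m n h := by
  unfold Sepr at hs
  push Not at hs
  obtain ⟨u, v, hu, hv, hp⟩ := hs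
  exact ⟨u, v, far_pt hu hv, path_mono (fun w hw => hS w hw) hp⟩

theorem upT_ball {Λ : Finset P2} {o : P2} {A n : ℕ} (hn : 1 ≤ n) (h : Λ ⊆ ball o (A * n)) :
    upT Λ ⊆ ball o ((A + 1) * n) := by
  intro t ht
  have h0 : A * n + 1 ≤ (A + 1) * n := by nlinarith
  have key : t ∈ ball o (A * n + 1) := by
    rw [mem_upT] at ht
    rcases ht with h1 | h1 | h1
    · exact ball_mono o (Nat.le_succ _) (h h1)
    · exact adj_ball (h h1) (by rw [adj_iff]; simp)
    · exact adj_ball (h h1) (by rw [adj_iff]; simp)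
  exact ball_mono o h0 key

open Classical in
/-- indicator of the absence of a separating layer below height `M` -/
def nL (M : ℤ) (a : P2) (n : ℕ) (h : P2 → ℤ) : ℝ := if ¬ Sepr {v | h v < M} a n (2 * n) then 1 else 0

theorem nL_mono {M : ℤ} {a : P2} {n : ℕ} {g h : P2 → ℤ} (hgh : g ≤ h) : nL M a n g ≤ nL M a n h := by
  unfold nL
  by_cases H : ¬ Sepr {v | g v < M} a n (2 * n)
  · rw [if_pos H, if_pos]
    exact fun hs => H (Sepr.mono (fun v hv => lt_of_le_of_lt (hgh v) hv) hs)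
  · rw [if_neg H]; split_ifs <;> norm_num

theorem pr_eq_nL {x : ℝ} {Λ : Finset P2} {τ : P2 → ℤ} (M : ℤ) (a : P2) (n : ℕ) :
    pr x Λ τ {h | ¬ Sepr {v | h v < M} a n (2 * n)} = ex x Λ τ (nL M a n) := by
  unfold It844.pr nL
  exact ex_congr fun h _ => by
    by_cases H : ¬ Sepr {v | h v < M} a n (2 * n)
    · rw [if_pos H, if_pos (show h ∈ {h | ¬ Sepr {v | h v < M} a n (2 * n)} from H)]
    · rw [if_neg H, if_neg (show h ∉ {h | ¬ Sepr {v | h v < M} a n (2 * n)} from H)]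

/-- **TIGHT, upper side**, every `M ≥ M0`. -/
theorem tight_hi' {x : ℝ} (hx0 : 0 < x) (hx1 : x ≤ 1) {K : ℕ} {p : ℝ} (hR : RSW ((x ^ 2)⁻¹) K p) (A : ℕ)
    {ε : ℝ} (hε : 0 < ε) : ∃ M0 : ℕ, ∀ M : ℕ, M0 ≤ M → ∀ n : ℕ, 1 ≤ n → ∀ (o a : P2) (Λ : Finset P2),
      Λ ⊆ ball o (A * n) → ∀ τ : P2 → ℤ, Lip τ → (∀ v, v ∉ Λ → τ v ≤ 1) →
        pr x Λ τ {h | ¬ Sepr {v | h v < M} a n (2 * n)} ≤ ε := by
  obtain ⟨M1, hM1⟩ := X_unif hx0 hx1 hR (A + 1) hε
  refine ⟨M1 + 3, fun M hM n hn o a Λ hΛ τ hτ hτ1 => ?_⟩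
  rw [pr_eq_nL]
  have hl1 : Lip (fun _ : P2 => (1 : ℤ)) := lip_const 1
  have s1 : ex x Λ τ (nL M a n) ≤ ex x Λ (fun _ => 1) (nL M a n) :=
    ex_mono_bc hx0 hx1 hτ hl1 hτ1 fun g _ h _ hgh => nL_mono hgh
  have s2 : ex x Λ (fun _ => 1) (nL M a n) =
      ex x Λ (fun _ => 0) (fun h => nL M a n (fun v => h v + 1)) := by
    have := ex_add_const x Λ (fun _ => (0 : ℤ)) 1 (nL M a n)
    simp only [zero_add] at this
    exact this
  have hU := upT_ball hn hΛ
  have s3 := ex_le_EI hx0 hx1 hU (f := fun h => nL M a n (fun v => h v + 1)) fun g h hgh =>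
    nL_mono fun v => add_le_add_left (hgh v) 1
  have s4 : EI x (ball o ((A + 1) * n)) Λ (fun h => nL M a n (fun v => h v + 1)) ≤
      EI x (ball o ((A + 1) * n)) Λ (iX (M - 2) n) := EI_le fun h _ => by
    unfold nL iX
    by_cases H : ¬ Sepr {v | h v + 1 < M} a n (2 * n)
    · rw [if_pos H, if_pos]
      refine X_of_not_sepr H fun v hv => ?_
      have hv' : ¬ h v + 1 < M := hv
      unfold kof
      split_ifs <;> omega
    · rw [if_neg H]; split_ifs <;> norm_num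
  have s5 : EI x (ball o ((A + 1) * n)) Λ (iX (M - 2) n) ≤
      EH x (ball o ((A + 1) * n)) (iX (M - 2) n) :=
    EI_X_le hx0.le hx1 (iv_of_upT hU) (by omega)
  have s6 := hM1 (M - 2) (by omega) n hn o
  linarith

/-- **TIGHT, upper side.** -/
theorem tight_hi {x : ℝ} (hx0 : 0 < x) (hx1 : x ≤ 1) {K : ℕ} {p : ℝ} (hR : RSW ((x ^ 2)⁻¹) K p) (A : ℕ)
    {ε : ℝ} (hε : 0 < ε) : ∃ M : ℕ, ∀ n : ℕ, 1 ≤ n → ∀ (o a : P2) (Λ : Finset P2),
      Λ ⊆ ball o (A * n) → ∀ τ : P2 → ℤ, Lip τ → (∀ v, v ∉ Λ → τ v ≤ 1) →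
        pr x Λ τ {h | ¬ Sepr {v | h v < M} a n (2 * n)} ≤ ε := by
  obtain ⟨M, hM⟩ := tight_hi' hx0 hx1 hR A hε
  exact ⟨M, hM M le_rfl⟩






end Crest.Agent.R144.Tig425
end
end

-- ▼ part R144/Lyf3_792

/-!
# R144, S5: `CU x` and `LAYF (x²)⁻¹` from `RSW` (helper792)

All inputs of 867's `cu` : `climb_prop` (617), `cov_prop` (792), `tight_hi` (425).
-/

set_option autoImplicit false

noncomputable section

namespace Crest.Agent.R144.Lyf792

open Crest.Agent.R144.It844 (P2 Lip)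
open Crest.Agent.R144.Zd349 (Cfg)
open Crest.Agent.R144.Rsw867 (RSW ball Sepr ind)

theorem tightHi {x : ℝ} (hx0 : 0 < x) (hx1 : x ≤ 1) {K : ℕ} {p : ℝ} (hR : RSW ((x ^ 2)⁻¹) K p) :
    Cu867.TightHi x := by
  intro A ε hε
  obtain ⟨M, h⟩ := Tig425.tight_hi hx0 hx1 hR A hε
  refine ⟨M, fun n hn o a Λ hΛ τ hτ hb => ?_⟩
  refine le_trans (le_of_eq ?_) (h n hn o a Λ hΛ τ hτ hb)
  rw [pr_hI]
  rfl

theorem cu0 {x : ℝ} (hx0 : 0 < x) (hx1 : x ≤ 1) {K : ℕ} {p : ℝ} (hR : RSW ((x ^ 2)⁻¹) K p) :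
    Cu867.CU0 x :=
  Cu867.cu0 hx0 hx1 (half_pos hR.p0) (by linarith [hR.p1]) (Clb617.climb_prop hx0 hx1 hR)
    (by have := hR.K4; omega) (Cov2792.cov_prop (by have := hR.K4; omega)) (tightHi hx0 hx1 hR)

theorem cu {x : ℝ} (hx0 : 0 < x) (hx1 : x ≤ 1) {K : ℕ} {p : ℝ} (hR : RSW ((x ^ 2)⁻¹) K p) :
    Cu867.CU x :=
  Cu867.cu hx0 hx1 (half_pos hR.p0) (by linarith [hR.p1]) (Clb617.climb_prop hx0 hx1 hR)
    (by have := hR.K4; omega) (Cov2792.cov_prop (by have := hR.K4; omega)) (tightHi hx0 hx1 hR)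


/-- **435's `LAYF`.** -/
theorem layf {x : ℝ} (hx0 : 0 < x) (hx1 : x ≤ 1) {K : ℕ} {p : ℝ} (hR : RSW ((x ^ 2)⁻¹) K p) :
    Den435.LAYF ((x ^ 2)⁻¹) := layf_of_cu867 hx0 hx1 hR (cu hx0 hx1 hR)

end Crest.Agent.R144.Lyf792
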