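import Crest.Agent.R144.Ga5c_885
import Crest.Agent.R144.Dom2_136
import Crest.Agent.R144.Cw8_643
import Crest.Agent.R144.Fin4_830
import Crest.Agent.R144.Gi1_643
import Mathlib
import Crest.Agent.R144.Lc1_830
import Crest.Agent.R144.Rsw0_867
import Crest.Agent.R144.Lyf3_792
import Crest.Agent.R144.Den0_435

-- ▼ part R144/Ga5d_885
section

/-!
# R144, leaf GA5 of doc 1596 (helper885), part d: the main theorem

`gauss`: `Mdl` + `CCW` imply the conditional Gaussian limit.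
-/

set_option autoImplicit false

open MeasureTheory Metric Set Filter Topology Laplacian

noncomputable section

namespace Crest.Agent.R144.Ga5885

open Crest.Agent.R144.Ga4126 (ei norm_ei)

variable {Ω ι : Type*} [m0 : MeasurableSpace Ω] {l : Filter ι} {P : ι → Measure Ω}
  {X : ι → (ℂ → ℝ) → Ω → ℝ} {𝓕 : ι → Set ℂ → MeasurableSpace Ω} {κ : ℝ}

/-- the eventual properties of one cell family at one scale index -/
structure Good (P : Measure Ω) (X : (ℂ → ℝ) → Ω → ℝ) (𝓕 : Set ℂ → MeasurableSpace Ω)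
    (η R b ε' ε1 : ℝ) (φ : ℂ → ℝ) (s : Finset (ℤ × ℤ)) (f g : ℤ × ℤ → ℂ → ℝ) : Prop where
  mf : ∀ k ∈ s, Measurable[𝓕 (ball (ctr η k) (7 * η))] (X (f k))
  mg : ∀ k ∈ s, Measurable[𝓕 (ball (ctr η k) (7 * η))] (X (g k))
  mc : ∀ k ∈ s, Measurable[𝓕 (ball (ctr η k) (5 / 2 * η))ᶜ] (X (fun z => φ z - g k z))
  hf : ∀ k ∈ s, ∫ ω, X (f k) ω ^ 8 ∂P ≤ b
  hg : ∀ k ∈ s, ∫ ω, X (g k) ω ^ 8 ∂P ≤ b * (η ^ 2) ^ 8
  mix : ∀ k ∈ s, ∀ F G : Ω → ℝ, Measurable[𝓕 (ball (ctr η k) (7 * η))] F →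
    Measurable[𝓕 (ball (ctr η k) (R * (7 * η)))ᶜ] G → (∀ ω, |F ω| ≤ 1) → (∀ ω, |G ω| ≤ 1) →
      |cov P F G| ≤ ε'
  ward : ∀ k ∈ s, ∀ Z : Ω → ℂ, Measurable[𝓕 (ball (ctr η k) (5 / 2 * η))ᶜ] Z →
    (∀ ω, ‖Z ω‖ ≤ 1) → ‖∫ ω, Z ω * (X (f k) ω : ℂ) ∂P‖ ≤ ε1

/-- variance of the quadratic sum -/
theorem var_quad {Q : Measure Ω} [IsProbabilityMeasure Q] {Y : (ℂ → ℝ) → Ω → ℝ}
    {𝓖 : Set ℂ → MeasurableSpace Ω} (hmono : ∀ U V, U ⊆ V → 𝓖 U ≤ 𝓖 V)
    {η R b ε' ε1 C : ℝ} {φ : ℂ → ℝ} {s : Finset (ℤ × ℤ)} {f g : ℤ × ℤ → ℂ → ℝ}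
    (hb0 : 0 ≤ b) (hε' : 0 ≤ ε') (hR : 1 ≤ R) (hη : 0 < η)
    (hY : ∀ k, BM Q (Y (f k))) (hY' : ∀ k, BM Q (Y (g k)))
    (G : Good Q Y 𝓖 η R b ε' ε1 φ s f g) (hcard : (s.card : ℝ) ≤ C / η ^ 2) {L : ℝ} (hL : 0 < L) :
    ∫ ω, (∑ k ∈ s, Y (f k) ω * Y (g k) ω - ∫ ω', ∑ k ∈ s, Y (f k) ω' * Y (g k) ω' ∂Q) ^ 2 ∂Q ≤
      C * η ^ 2 * ((2 * ⌈7 * (R + 1)⌉₊ + 1) ^ 2 * (2 * (1 + b) ^ 2)) +
        C ^ 2 * (L ^ 2 * ε' + 6 * (1 + b) ^ 2 / L) := by
  have hC : 0 ≤ C := by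
    have h1 : 0 ≤ C / η ^ 2 := (Nat.cast_nonneg _).trans hcard
    have h2 : 0 < η ^ 2 := by positivity
    by_contra hc
    have := div_neg_of_neg_of_pos (not_le.1 hc) h2
    linarith
  set W : ℤ × ℤ → Ω → ℝ := fun k ω => (η ^ 2)⁻¹ * (Y (f k) ω * Y (g k) ω) with hW
  have hη2 : 0 < η ^ 2 := by positivity
  have bW : ∀ k, BM Q (W k) := fun k => ((hY k).mul (hY' k)).const_mul _
  have fW : ∀ k ∈ s, ∫ ω, W k ω ^ 4 ∂Q ≤ b := fun k hk =>
    fourth (hY k) (hY' k) hη2 (G.hf k hk) (G.hg k hk)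
  have e1 : ∀ ω, ∑ k ∈ s, Y (f k) ω * Y (g k) ω = η ^ 2 * ∑ k ∈ s, W k ω := by
    intro ω
    rw [Finset.mul_sum]
    refine Finset.sum_congr rfl fun k _ => ?_
    simp only [hW]
    field_simp
  have e2 : ∫ ω, (∑ k ∈ s, Y (f k) ω * Y (g k) ω -
      ∫ ω', ∑ k ∈ s, Y (f k) ω' * Y (g k) ω' ∂Q) ^ 2 ∂Q =
      (η ^ 2) ^ 2 * ∫ ω, (∑ k ∈ s, W k ω - ∫ ω', ∑ k ∈ s, W k ω' ∂Q) ^ 2 ∂Q := by
    have e3 : ∫ ω', ∑ k ∈ s, Y (f k) ω' * Y (g k) ω' ∂Q = η ^ 2 * ∫ ω', ∑ k ∈ s, W k ω' ∂Q := by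
      simp only [e1]
      exact integral_const_mul _ _
    have e4 : ∀ ω, (∑ k ∈ s, Y (f k) ω * Y (g k) ω -
        ∫ ω', ∑ k ∈ s, Y (f k) ω' * Y (g k) ω' ∂Q) ^ 2 =
        (η ^ 2) ^ 2 * (∑ k ∈ s, W k ω - ∫ ω', ∑ k ∈ s, W k ω' ∂Q) ^ 2 := by
      intro ω
      rw [e3, e1]
      ring
    simp only [e4]
    exact integral_const_mul _ _
  rw [e2, var_sum s W fun k _ => bW k]
  have h1 : ∑ k ∈ s, ∑ j ∈ s, cov Q (W k) (W j) ≤ s.card * ((2 * ⌈7 * (R + 1)⌉₊ + 1) ^ 2 *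
      (2 * (1 + b) ^ 2)) + (s.card : ℝ) ^ 2 * (L ^ 2 * ε' + 6 * (1 + b) ^ 2 / L) := by
    refine sum_pairs s ⌈7 * (R + 1)⌉₊ (fun k j => cov Q (W k) (W j)) (by positivity) (by positivity)
      (fun k hk j hj => ?_) (fun k hk j hj hkj => ?_)
    · exact (le_abs_self _).trans (abs_cov_le_near (bW k) (bW j) (fW k hk) (fW j hj))
    · refine (le_abs_self _).trans (abs_cov_le_far (bW k) (bW j) hL (fW k hk) (fW j hj) ?_)
      have hd := dist_ctr_ge hη hkj
      have hN : 7 * (R + 1) ≤ (⌈7 * (R + 1)⌉₊ : ℝ) := Nat.le_ceil _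
      have hsub : ball (ctr η j) (7 * η) ⊆ (ball (ctr η k) (R * (7 * η)))ᶜ := by
        intro z hz hz'
        have a1 := mem_ball.1 hz
        have a2 := mem_ball.1 hz'
        have a3 : dist (ctr η k) (ctr η j) ≤ dist z (ctr η k) + dist z (ctr η j) := by
          rw [dist_comm z (ctr η k)]
          exact dist_triangle _ _ _
        have a4 : 7 * (R + 1) * η ≤ dist (ctr η k) (ctr η j) :=
          (mul_le_mul_of_nonneg_right hN hη.le).trans hd
        nlinarith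
      have mW : ∀ i ∈ s, Measurable[𝓖 (ball (ctr η i) (7 * η))] (fun ω => L⁻¹ * clp L (W i ω)) := by
        intro i hi
        have q1 : Measurable[𝓖 (ball (ctr η i) (7 * η))] (W i) :=
          Measurable.const_mul (Measurable.mul (G.mf i hi) (G.mg i hi)) _
        exact Measurable.const_mul ((measurable_clp L).comp q1) _
      have bd1 : ∀ i, ∀ ω, |L⁻¹ * clp L (W i ω)| ≤ 1 := by
        intro i ω
        rw [abs_mul, abs_of_pos (inv_pos.2 hL)]
        calc L⁻¹ * |clp L (W i ω)| ≤ L⁻¹ * L :=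
              mul_le_mul_of_nonneg_left (abs_clp_le hL.le _) (inv_pos.2 hL).le
          _ = 1 := inv_mul_cancel₀ hL.ne'
      exact G.mix k hk _ _ (mW k hk) ((mW j hj).mono (hmono _ _ hsub) le_rfl) (bd1 k) (bd1 j)
  have h2 : (η ^ 2) ^ 2 * ∑ k ∈ s, ∑ j ∈ s, cov Q (W k) (W j) ≤ (η ^ 2) ^ 2 *
      (s.card * ((2 * ⌈7 * (R + 1)⌉₊ + 1) ^ 2 * (2 * (1 + b) ^ 2)) +
        (s.card : ℝ) ^ 2 * (L ^ 2 * ε' + 6 * (1 + b) ^ 2 / L)) :=
    mul_le_mul_of_nonneg_left h1 (by positivity)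
  refine h2.trans ?_
  have h3 : (s.card : ℝ) * η ^ 2 ≤ C := by rwa [le_div_iff₀ hη2] at hcard
  have h4 : (η ^ 2) ^ 2 * (s.card * ((2 * (⌈7 * (R + 1)⌉₊ : ℝ) + 1) ^ 2 * (2 * (1 + b) ^ 2)) +
        (s.card : ℝ) ^ 2 * (L ^ 2 * ε' + 6 * (1 + b) ^ 2 / L)) =
      (s.card * η ^ 2) * η ^ 2 * ((2 * (⌈7 * (R + 1)⌉₊ : ℝ) + 1) ^ 2 * (2 * (1 + b) ^ 2)) +
        (s.card * η ^ 2) ^ 2 * (L ^ 2 * ε' + 6 * (1 + b) ^ 2 / L) := by ring
  rw [h4]
  have h5 : 0 ≤ L ^ 2 * ε' + 6 * (1 + b) ^ 2 / L := by positivity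
  have h6 : (0 : ℝ) ≤ (2 * (⌈7 * (R + 1)⌉₊ : ℝ) + 1) ^ 2 * (2 * (1 + b) ^ 2) := by positivity
  have h7 : (s.card * η ^ 2) ^ 2 ≤ C ^ 2 := pow_le_pow_left₀ (by positivity) h3 2
  refine add_le_add (mul_le_mul_of_nonneg_right (mul_le_mul_of_nonneg_right h3 hη2.le) h6)
    (mul_le_mul_of_nonneg_right h7 h5)

/-- one scale: the Stein estimate for a good cell family -/
theorem stein_cells (hM : Mdl l P X 𝓕 κ) {n : ι} {φ : ℂ → ℝ} (hφ : Tst φ) {U : Set ℂ}
    {η R b ε' ε1 C : ℝ} {s : Finset (ℤ × ℤ)} {f g : ℤ × ℤ → ℂ → ℝ} (hc : IsCells φ η C s f g)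
    (hb0 : 0 ≤ b) (hε' : 0 ≤ ε') (hR : 1 ≤ R) (hη : 0 < η)
    (hU : ∀ k ∈ s, ball (ctr η k) (5 / 2 * η) ⊆ U)
    (G : Good (P n) (X n) (𝓕 n) η R b ε' ε1 φ s f g) {L : ℝ} (hL : 0 < L) {v d t : ℝ} (hv : 0 ≤ v)
    (hd : 0 ≤ d) (hd2 : C * η ^ 2 * ((2 * ⌈7 * (R + 1)⌉₊ + 1) ^ 2 * (2 * (1 + b) ^ 2)) +
        C ^ 2 * (L ^ 2 * ε' + 6 * (1 + b) ^ 2 / L) ≤ d ^ 2)
    (hE : |∫ ω, ∑ k ∈ s, X n (f k) ω * X n (g k) ω ∂P n - v| ≤ d)
    {Z : Ω → ℂ} (hZ : Measurable[𝓕 n Uᶜ] Z) (hZ1 : ∀ ω, ‖Z ω‖ ≤ 1) :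
    ‖(∫ ω, Z ω * ei (t * X n φ ω) ∂P n) - (Real.exp (-(t ^ 2 * v / 2)) : ℂ) * ∫ ω, Z ω ∂P n‖ ≤
      |t| * (s.card * ε1) + |t| ^ 3 / 2 * (C * η ^ 2 * (3 + 2 * b)) + t ^ 2 / 2 * (2 * d) := by
  have := hM.prob n
  have hη2 : 0 < η ^ 2 := by positivity
  have hsum : ∀ ω, X n φ ω = ∑ k ∈ s, X n (f k) ω := by
    intro ω
    have h1 : φ = fun z => ∑ k ∈ s, f k z := funext fun z => (hc.sum z).symm
    conv_lhs => rw [h1]
    exact hM.X_sum n s hc.tf ω
  have bX : ∀ k, BM (P n) (X n (f k)) := fun k => hM.bm n (hc.tf k)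
  have bY : ∀ k, BM (P n) (X n (g k)) := fun k => hM.bm n (hc.tg k)
  have hZm : Measurable Z := hZ.mono (hM.le n _) le_rfl
  have key := Crest.Agent.R144.Ga4126.stein (P := P n) (s := s) (X := fun k => X n (f k))
    (Y := fun k => X n (g k)) (Z := Z) (v := v) (t := t) (e1 := fun _ => ε1)
    (e2 := fun _ => (η ^ 2) ^ 2 * (3 + 2 * b)) (e3 := 2 * d)
    hZm.aestronglyMeasurable (Eventually.of_forall hZ1) (fun k _ => (bX k).int)
    (fun k _ => (hM.meas n _ (hc.tg k)).aestronglyMeasurable)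
    (fun k _ => ((bX k).abs.mul ((bY k).pow 2)).int) hv ?_ ?_ ?_
  · simp only [← hsum] at key
    refine key.trans ?_
    rw [Finset.sum_const, Finset.sum_const, nsmul_eq_mul, nsmul_eq_mul]
    have h3 : (s.card : ℝ) * η ^ 2 ≤ C := by
      have := hc.card
      rwa [le_div_iff₀ hη2] at this
    have h4 : (s.card : ℝ) * ((η ^ 2) ^ 2 * (3 + 2 * b)) ≤ C * η ^ 2 * (3 + 2 * b) := by
      have e : (s.card : ℝ) * ((η ^ 2) ^ 2 * (3 + 2 * b)) =
          (s.card * η ^ 2) * (η ^ 2 * (3 + 2 * b)) := by ring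
      rw [e, mul_assoc C]
      exact mul_le_mul_of_nonneg_right h3 (by positivity)
    have h5 : |t| ^ 3 / 2 * ((s.card : ℝ) * ((η ^ 2) ^ 2 * (3 + 2 * b))) ≤
        |t| ^ 3 / 2 * (C * η ^ 2 * (3 + 2 * b)) := mul_le_mul_of_nonneg_left h4 (by positivity)
    linarith
  · intro k hk r _
    have e : ∀ ω, (∑ j ∈ s, X n (f j) ω - X n (g k) ω) = X n (fun z => φ z - g k z) ω := by
      intro ω
      rw [hM.X_sub n hφ (hc.tg k), hsum]
    set Z' : Ω → ℂ := fun ω => Z ω * ei (r * X n (fun z => φ z - g k z) ω) with hZ'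
    have mZ : Measurable[𝓕 n (ball (ctr η k) (5 / 2 * η))ᶜ] Z := by
      refine hZ.mono (hM.mono n _ _ ?_) le_rfl
      exact compl_subset_compl.2 (hU k hk)
    have mei : Measurable (fun x : ℝ => ei (r * x)) := by
      unfold ei
      fun_prop
    have mZ' : Measurable[𝓕 n (ball (ctr η k) (5 / 2 * η))ᶜ] Z' :=
      Measurable.mul mZ (mei.comp (G.mc k hk))
    have h := G.ward k hk Z' mZ' (fun ω => by
      simp only [hZ']
      rw [norm_mul, norm_ei, mul_one]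
      exact hZ1 ω)
    refine le_trans (le_of_eq ?_) h
    congr 1
    refine integral_congr_ae (Eventually.of_forall fun ω => ?_)
    simp only [hZ', e]
    ring
  · intro k hk
    have := third (bX k) (bY k) hη2 (G.hf k hk) (G.hg k hk)
    exact this
  · have bQ : BM (P n) (fun ω => ∑ k ∈ s, X n (f k) ω * X n (g k) ω) := by
      have : ∀ k, ∃ B : ℝ, ∀ᵐ ω ∂P n, |X n (f k) ω * X n (g k) ω| ≤ B := fun k =>
        ((bX k).mul (bY k)).2
      choose B hB using this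
      refine ⟨(Finset.measurable_sum s fun k _ =>
        (hM.meas n _ (hc.tf k)).mul (hM.meas n _ (hc.tg k))).aestronglyMeasurable, ∑ k ∈ s, B k, ?_⟩
      have h1 : ∀ᵐ ω ∂P n, ∀ k ∈ s, |X n (f k) ω * X n (g k) ω| ≤ B k :=
        (ae_ball_iff s.countable_toSet).2 fun k _ => hB k
      filter_upwards [h1] with ω hω
      exact (Finset.abs_sum_le_sum_abs _ _).trans (Finset.sum_le_sum hω)
    refine abs_dev bQ hd ?_ hE
    exact (var_quad (hM.mono n) hb0 hε' hR hη bX bY G hc.card hL).trans hd2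

theorem par1 {A D : ℝ} (hA : 0 ≤ A) (hD : 0 < D) : ∃ L : ℝ, 0 < L ∧ A / L ≤ D := by
  refine ⟨(A + 1) / D, by positivity, ?_⟩
  rw [div_div_eq_mul_div, div_le_iff₀ (by positivity)]
  nlinarith

theorem par2 {A D : ℝ} (hA : 0 ≤ A) (hD : 0 < D) : ∃ x : ℝ, 0 < x ∧ A * x ≤ D := by
  refine ⟨D / (A + 1), by positivity, ?_⟩
  rw [← mul_div_assoc, div_le_iff₀ (by positivity)]
  nlinarith

theorem par3 {A B D E ρ : ℝ} (hA : 0 ≤ A) (hB : 0 ≤ B) (hD : 0 < D) (hE : 0 < E) (hρ : 0 < ρ) :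
    ∃ η : ℝ, 0 < η ∧ η ≤ 1 ∧ η < ρ ∧ A * η ^ 2 ≤ D ∧ B * η ^ 2 ≤ E := by
  obtain ⟨x, hx, hx2⟩ := par2 hA hD
  obtain ⟨y, hy, hy2⟩ := par2 hB hE
  refine ⟨min (min 1 (ρ / 2)) (min x y), by positivity,
    (min_le_left _ _).trans (min_le_left _ _), ?_, ?_, ?_⟩
  · have : min (min 1 (ρ / 2)) (min x y) ≤ ρ / 2 := (min_le_left _ _).trans (min_le_right _ _)
    linarith
  all_goals
    obtain ⟨η, hη⟩ : ∃ η, η = min (min 1 (ρ / 2)) (min x y) := ⟨_, rfl⟩
    rw [← hη]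
    have hηpos : 0 < η := by rw [hη]; positivity
    have h1 : η ≤ 1 := by rw [hη]; exact (min_le_left _ _).trans (min_le_left _ _)
    have h2 : η ^ 2 ≤ η := by nlinarith
  · have h3 : η ≤ x := by rw [hη]; exact (min_le_right _ _).trans (min_le_left _ _)
    exact (mul_le_mul_of_nonneg_left (h2.trans h3) hA).trans hx2
  · have h3 : η ≤ y := by rw [hη]; exact (min_le_right _ _).trans (min_le_right _ _)
    exact (mul_le_mul_of_nonneg_left (h2.trans h3) hB).trans hy2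

theorem par4 {t ε : ℝ} (hε : 0 < ε) : ∃ d : ℝ, 0 < d ∧ t ^ 2 / 2 * (2 * d) ≤ ε / 3 := by
  obtain ⟨d, hd, hd2⟩ := par2 (A := t ^ 2) (D := ε / 3) (by positivity) (by positivity)
  exact ⟨d, hd, by linarith⟩

/-- the eventual properties -/
theorem eventually_good (hM : Mdl l P X 𝓕 κ) (hW : CCW l P X 𝓕) {φ : ℂ → ℝ} (hφ : Tst φ)
    {M : ℝ}
    (hmom : ∀ u, Tst u → ∀ m : ℝ, 0 < m → κ * en u < m ^ 2 → ∫ z, |(Δ u) z| < m →
      ∀ᶠ n in l, ∫ ω, (X n u ω) ^ 8 ∂P n ≤ M * m ^ 8)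
    {C m1 : ℝ} (hC : 0 < C) (hm1 : m1 = 144 * (κ * C ^ 2) + 144 * C + 1)
    {η R ε' ε1 : ℝ} (hη : 0 < η) (hε1 : 0 < ε1)
    (hmix : ∀ (c : ℂ) (r : ℝ), 0 < r → ∀ᶠ n in l,
      ∀ F G : Ω → ℝ, Measurable[𝓕 n (ball c r)] F → Measurable[𝓕 n (ball c (R * r))ᶜ] G →
        (∀ ω, |F ω| ≤ 1) → (∀ ω, |G ω| ≤ 1) → |cov (P n) F G| ≤ ε')
    {s : Finset (ℤ × ℤ)} {f g : ℤ × ℤ → ℂ → ℝ} (hc : IsCells φ η C s f g) :
    ∀ᶠ n in l, Good (P n) (X n) (𝓕 n) η R (M * m1 ^ 8) ε' ε1 φ s f g := by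
  have hκ := hM.kpos
  have hη2 : 0 < η ^ 2 := by positivity
  have hκC : 0 ≤ κ * C ^ 2 := by positivity
  have hm1one : 1 ≤ m1 := by
    rw [hm1]
    linarith
  have hm1pos : 0 < m1 := by linarith
  have hm1sq : m1 ≤ m1 ^ 2 := by nlinarith
  have q1 : ∀ᶠ n in l, ∀ k ∈ s, Measurable[𝓕 n (ball (ctr η k) (7 * η))] (X n (f k)) :=
    (s.finite_toSet.eventually_all).2 fun k _ =>
      hM.loc (f k) (ctr η k) (2 * η) (7 * η) (hc.tf k) (by linarith) (hc.sf k)
  have q2 : ∀ᶠ n in l, ∀ k ∈ s, Measurable[𝓕 n (ball (ctr η k) (7 * η))] (X n (g k)) :=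
    (s.finite_toSet.eventually_all).2 fun k _ =>
      hM.loc (g k) (ctr η k) (6 * η) (7 * η) (hc.tg k) (by linarith) (hc.sg k)
  have q3 : ∀ᶠ n in l, ∀ k ∈ s,
      Measurable[𝓕 n (ball (ctr η k) (5 / 2 * η))ᶜ] (X n (fun z => φ z - g k z)) :=
    (s.finite_toSet.eventually_all).2 fun k _ =>
      hM.coloc _ (ctr η k) (5 / 2 * η) (3 * η) (hφ.sub (hc.tg k)) (by linarith) (hc.aff k)
  have q4 : ∀ᶠ n in l, ∀ k ∈ s, ∫ ω, X n (f k) ω ^ 8 ∂P n ≤ M * m1 ^ 8 := by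
    refine (s.finite_toSet.eventually_all).2 fun k _ => ?_
    refine hmom (f k) (hc.tf k) m1 hm1pos ?_ ?_
    · have h1 : κ * en (f k) ≤ κ * (16 * C ^ 2) := mul_le_mul_of_nonneg_left (hc.en_f hη k) hκ
      have h4 : κ * (16 * C ^ 2) = 16 * (κ * C ^ 2) := by ring
      linarith
    · have h1 := hc.int_lap_f hη k
      linarith
  have q5 : ∀ᶠ n in l, ∀ k ∈ s, ∫ ω, X n (g k) ω ^ 8 ∂P n ≤ M * m1 ^ 8 * (η ^ 2) ^ 8 := by
    refine (s.finite_toSet.eventually_all).2 fun k _ => ?_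
    have h0 := hmom (g k) (hc.tg k) (m1 * η ^ 2) (by positivity) ?_ ?_
    · filter_upwards [h0] with n hn
      refine hn.trans (le_of_eq ?_)
      ring
    · have h1 : κ * en (g k) ≤ κ * (144 * C ^ 2 * η ^ 4) :=
        mul_le_mul_of_nonneg_left (hc.en_g hη k) hκ
      have h5 : κ * (144 * C ^ 2 * η ^ 4) = 144 * (κ * C ^ 2) * η ^ 4 := by ring
      have h6 : (m1 * η ^ 2) ^ 2 = m1 ^ 2 * η ^ 4 := by ring
      rw [h6]
      refine h1.trans_lt ?_
      rw [h5]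
      exact mul_lt_mul_of_pos_right (by linarith) (by positivity)
    · have h1 := hc.int_lap_g hη k
      exact h1.trans_lt (mul_lt_mul_of_pos_right (by linarith) hη2)
  have q6 : ∀ᶠ n in l, ∀ k ∈ s, ∀ F G : Ω → ℝ, Measurable[𝓕 n (ball (ctr η k) (7 * η))] F →
      Measurable[𝓕 n (ball (ctr η k) (R * (7 * η)))ᶜ] G → (∀ ω, |F ω| ≤ 1) →
        (∀ ω, |G ω| ≤ 1) → |cov (P n) F G| ≤ ε' :=
    (s.finite_toSet.eventually_all).2 fun k _ => hmix (ctr η k) (7 * η) (by positivity)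
  have q7 : ∀ᶠ n in l, ∀ k ∈ s, ∀ Z : Ω → ℂ,
      Measurable[𝓕 n (ball (ctr η k) (5 / 2 * η))ᶜ] Z → (∀ ω, ‖Z ω‖ ≤ 1) →
        ‖∫ ω, Z ω * (X n (f k) ω : ℂ) ∂P n‖ ≤ ε1 :=
    (s.finite_toSet.eventually_all).2 fun k _ =>
      hW (f k) (ctr η k) (2 * η) (5 / 2 * η) (hc.tf k) (by positivity) (by linarith) (hc.sf k)
        ε1 hε1
  filter_upwards [q1, q2, q3, q4, q5, q6, q7] with n a1 a2 a3 a4 a5 a6 a7
  exact ⟨a1, a2, a3, a4, a5, a6, a7⟩

theorem eventually_var (hM : Mdl l P X 𝓕 κ) {φ : ℂ → ℝ} (hφ : Tst φ) {C η : ℝ} (hη : 0 < η)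
    {s : Finset (ℤ × ℤ)} {f g : ℤ × ℤ → ℂ → ℝ} (hc : IsCells φ η C s f g) {d : ℝ} (hd : 0 < d) :
    ∀ᶠ n in l, |∫ ω, ∑ k ∈ s, X n (f k) ω * X n (g k) ω ∂P n - κ * en φ| ≤ d := by
  have h1 : Tendsto (fun n => ∑ k ∈ s, ∫ ω, X n (f k) ω * X n (g k) ω ∂P n) l
      (𝓝 (∑ k ∈ s, κ * ∫ z, f k z * (-(Δ (g k)) z))) :=
    tendsto_finsetSum _ fun k _ => hM.var (f k) (g k) (hc.tf k) (hc.tg k)
  have h2 : ∑ k ∈ s, κ * ∫ z, f k z * (-(Δ (g k)) z) = κ * en φ := by
    rw [← Finset.mul_sum, hc.sum_en hη hφ]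
    rfl
  rw [h2] at h1
  have h3 := Metric.tendsto_nhds.1 h1 d hd
  filter_upwards [h3] with n hn
  have := hM.prob n
  rw [integral_finsetSum _ fun k _ =>
    ((hM.bm n (hc.tf k)).mul (hM.bm n (hc.tg k))).int]
  rw [Real.dist_eq] at hn
  exact hn.le

/-- **conditional Gaussian limit from the closed contour Ward identity** -/
theorem gauss (hM : Mdl l P X 𝓕 κ) (hW : CCW l P X 𝓕) {φ : ℂ → ℝ} (hφ : Tst φ) {U : Set ℂ}
    (hUo : IsOpen U) (hs : tsupport φ ⊆ U) (t : ℝ) {ε : ℝ} (hε : 0 < ε) :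
    ∀ᶠ n in l, ∀ Z : Ω → ℂ, Measurable[𝓕 n Uᶜ] Z → (∀ ω, ‖Z ω‖ ≤ 1) →
      ‖(∫ ω, Z ω * ei (t * X n φ ω) ∂P n) -
        (Real.exp (-(t ^ 2 * (κ * en φ) / 2)) : ℂ) * ∫ ω, Z ω ∂P n‖ ≤ ε := by
  rcases l.eq_or_neBot with rfl | hne
  · exact eventually_bot
  have hκ := hM.kpos
  have hv : 0 ≤ κ * en φ := by
    refine ge_of_tendsto (hM.var φ φ hφ hφ) (Eventually.of_forall fun n => ?_)
    exact integral_nonneg fun ω => mul_self_nonneg _
  obtain ⟨C, hC, hcells⟩ := exists_cells hφ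
  obtain ⟨M, hM0, hmom⟩ := hM.mom
  obtain ⟨m1, hm1⟩ : ∃ m1 : ℝ, m1 = 144 * (κ * C ^ 2) + 144 * C + 1 := ⟨_, rfl⟩
  have hm1pos : 0 < m1 := by rw [hm1]; positivity
  obtain ⟨b, hb⟩ : ∃ b : ℝ, b = M * m1 ^ 8 := ⟨_, rfl⟩
  have hb0 : 0 ≤ b := by rw [hb]; positivity
  obtain ⟨d, hdpos, htd⟩ := par4 (t := t) hε
  obtain ⟨D, hD⟩ : ∃ D : ℝ, D = d ^ 2 / 3 := ⟨_, rfl⟩
  have hDpos : 0 < D := by rw [hD]; positivity
  obtain ⟨L, hL, hL2⟩ := par1 (A := C ^ 2 * (6 * (1 + b) ^ 2)) (D := D) (by positivity) hDpos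
  obtain ⟨ε', hε', hε2⟩ := par2 (A := C ^ 2 * L ^ 2) (D := D) (by positivity) hDpos
  obtain ⟨R, hR, hmix⟩ := hM.mix ε' hε'
  obtain ⟨ρ, hρ, hρU⟩ := (hφ.2 : IsCompact (tsupport φ)).exists_thickening_subset_open hUo hs
  obtain ⟨η, hη, hη1, hηρ, hηK, hηt⟩ := par3
    (A := C * ((2 * (⌈7 * (R + 1)⌉₊ : ℝ) + 1) ^ 2 * (2 * (1 + b) ^ 2)))
    (B := |t| ^ 3 / 2 * (C * (3 + 2 * b))) (D := D) (E := ε / 3) (ρ := ρ / 5)
    (by positivity) (by positivity) hDpos (by positivity) (by positivity)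
  obtain ⟨s, f, g, hc⟩ := hcells η hη hη1
  obtain ⟨ε1, hε1, hte⟩ := par2 (A := |t| * s.card) (D := ε / 3) (by positivity) (by positivity)
  have hgood := eventually_good hM hW hφ hmom hC hm1 hη hε1 hmix hc
  rw [← hb] at hgood
  have hvar := eventually_var hM hφ hη hc hdpos
  have hball : ∀ k ∈ s, ball (ctr η k) (5 / 2 * η) ⊆ U := by
    intro k hk w hw
    obtain ⟨z, hz, hzk⟩ := hc.near k hk
    apply hρU
    rw [mem_thickening_iff]
    refine ⟨z, hz, ?_⟩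
    have h1 := mem_ball.1 hw
    have h2 := dist_triangle w (ctr η k) z
    rw [dist_comm (ctr η k) z] at h2
    linarith
  filter_upwards [hgood, hvar] with n hG hE Z hZ hZ1
  have hd2 : C * η ^ 2 * ((2 * ⌈7 * (R + 1)⌉₊ + 1) ^ 2 * (2 * (1 + b) ^ 2)) +
      C ^ 2 * (L ^ 2 * ε' + 6 * (1 + b) ^ 2 / L) ≤ d ^ 2 := by
    have e : C ^ 2 * (L ^ 2 * ε' + 6 * (1 + b) ^ 2 / L) =
        C ^ 2 * L ^ 2 * ε' + C ^ 2 * (6 * (1 + b) ^ 2) / L := by ring
    have e2 : C * η ^ 2 * ((2 * (⌈7 * (R + 1)⌉₊ : ℝ) + 1) ^ 2 * (2 * (1 + b) ^ 2)) =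
        C * ((2 * (⌈7 * (R + 1)⌉₊ : ℝ) + 1) ^ 2 * (2 * (1 + b) ^ 2)) * η ^ 2 := by ring
    rw [e, e2]
    have h3 : 3 * D = d ^ 2 := by rw [hD]; ring
    linarith
  have hfin := stein_cells hM hφ (U := U) hc hb0 hε'.le hR hη hball hG hL (t := t) hv
    hdpos.le hd2 hE hZ hZ1
  have e4 : |t| * (s.card * ε1) = |t| * s.card * ε1 := by ring
  have e5 : |t| ^ 3 / 2 * (C * η ^ 2 * (3 + 2 * b)) =
      |t| ^ 3 / 2 * (C * (3 + 2 * b)) * η ^ 2 := by ring
  rw [e4, e5] at hfin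
  linarith

end Crest.Agent.R144.Ga5885
end
end

-- ▼ part R144/Dom3_136
section

/-!
# R144 (helper136), block D1 (DOM), file 3: the field `p1` of `Fin268.Inputs`

`p1_of` : conditional Gaussianity of the plane law + contiguity + bounded variances give the
characteristic functions of the centred lattice Laplacians in the domain.
-/

set_option autoImplicit false

noncomputable section

namespace Crest.Agent.R144.Dom136

open MeasureTheory Filter Topology Set Metric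
open scoped ContDiff Laplacian
open Crest.ProbabilityR.HexHeights (Adj centre)
open Crest.Agent.R144.It844 (P2 Lip adj_symm adj_iff adj_comm ex nbhd conf mem_conf pr mu)
open Crest.Agent.R144.Pst967 (Hz LocZ NeutZ GObs scs cls_scs gobs_bounded integrable_gobs PinnedZ
  ZeroLim nbhd_finite integral_mu isProb_mu integrable_mu re_ex im_ex)
open Crest.Agent.R144.Mix880 (bdS mem_bdS)
open Crest.Agent.R144.Cw643 (Dop six Sup7 sum_Dop near_Dop)
open Crest.Agent.R144.Fin268 (LS cS Cv Vr Over lip_of_data)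
open Crest.Agent.R144.Con549 (IsTest)
open Crest.Agent.R144.Set268 (Setup)

variable {x κ : ℝ} {D : Set ℂ} {γ : ℝ → ℂ} {P' : Finset ℂ} {δ : ℕ → ℝ} {Λ : ℕ → Finset P2}
  {τ : ℕ → P2 → ℤ}

theorem gau_nonneg (κ : ℝ) (u : ℂ → ℝ) (t : ℝ) : 0 ≤ gau κ u t := Real.exp_nonneg _

theorem gau_le_one {κ : ℝ} (hκ : 0 ≤ κ) (u : ℂ → ℝ) (t : ℝ) : gau κ u t ≤ 1 := by
  unfold gau
  rw [Real.exp_le_one_iff]
  have h1 : 0 ≤ ∫ z, ‖fderiv ℝ u z‖ ^ 2 := integral_nonneg fun z => by positivity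
  have : 0 ≤ κ * (∫ z, ‖fderiv ℝ u z‖ ^ 2) * t ^ 2 / 2 := by positivity
  linarith

/-- the centre of a neighbour is within `d` -/
theorem dist_adj {d : ℝ} (hd : 0 ≤ d) {v w : P2} (h : Adj w v) : dist (centre d w) (centre d v) ≤ d := by
  rw [dist_eq_norm, ← Cw643.centre_sub]
  refine Cw643.norm_centre_six hd ?_
  have hw : (w - v : P2) = (w.1 - v.1, w.2 - v.2) := rfl
  rw [hw]
  rcases adj_iff.1 h with h | h | h | h | h | h <;> rw [h] <;> simp [six]

/-- **asymptotics of one bounded functional** -/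
theorem bounded_limit (hx : 0 < x) {P : Measure Hz} (hZ : PinnedZ P) (hL : ZeroLim x scs P)
    (hS : Setup D γ P' δ Λ τ) (hC : Contig x P D δ Λ τ) {u : ℂ → ℝ} (hu : IsTest D u)
    {φ : ℝ → ℝ} (hφ : ∀ y, |φ y| ≤ 1) {b : ℝ} (hb : |b| ≤ 1)
    (hG : ∀ U : Set ℂ, IsOpen U → tsupport u ⊆ U → ∀ ε : ℝ, 0 < ε →
      ∀ᶠ n in atTop, ∀ S : Finset P2, (∀ v, v ∉ S → Du u (δ n) v = 0) →
      ∀ (T : Finset P2) (g : Hz → ℝ), (∀ v ∈ T, centre (δ n) v ∉ U) → LocZ (T : Set P2) g →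
        NeutZ g → (∀ h, |g h| ≤ 1) →
        |∫ h, g h * φ (LS S (Du u (δ n)) h) ∂P - b * ∫ h, g h ∂P| ≤ ε) :
    Tendsto (fun n => ex x (Λ n) (τ n) (fun h => φ (LS (Λ n) (Du u (δ n)) h))) atTop (𝓝 b) := by
  classical
  have hδ := hS.sites.pos
  have hδ0 := hS.sites.lim
  obtain ⟨r, hr, hKc, hKD⟩ := Cov353.exists_thick (K := tsupport u) hu.comp hS.dom.op hu.supp
  set K : Set ℂ := cthickening r (tsupport u) with hK
  set U : Set ℂ := thickening (r / 2) (tsupport u) with hU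
  have hUo : IsOpen U := isOpen_thickening
  have hsU : tsupport u ⊆ U := self_subset_thickening (half_pos hr) _
  rw [Metric.tendsto_atTop]
  intro ε hε
  -- parameters
  set s : ℝ := ε / 4 with hs
  have hs0 : 0 < s := by positivity
  obtain ⟨C, hC0, hCev⟩ := hC K hKc hKD (ε / 16) (by positivity)
  set e : ℝ := ε * s / (16 * C) with he
  have he0 : 0 < e := by positivity
  have hGev := hG U hUo hsU e he0
  have hfree := hS.sites.inn K hKc hKD
  have hsm := hS.sites.small (half_pos hr)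
  obtain ⟨N, hN⟩ := eventually_atTop.1 (((hCev.and hGev).and hfree).and hsm)
  refine ⟨N, fun n hn => ?_⟩
  obtain ⟨⟨⟨h1, h2⟩, h3⟩, h4⟩ := hN n hn
  have hdn := hδ n
  -- the inner volume
  set Λ' : Finset P2 := (Λ n).filter (fun v => centre (δ n) v ∈ U) with hΛ'
  have hUK : U ⊆ K := (thickening_subset_cthickening _ _).trans
    (cthickening_mono (by linarith) _)
  have hmem : ∀ v, v ∈ Λ' ↔ centre (δ n) v ∈ U := fun v => by
    rw [hΛ', Finset.mem_filter]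
    exact ⟨fun h => h.2, fun h => ⟨h3 v (hUK h), h⟩⟩
  have hsub : Λ' ⊆ Λ n := Finset.filter_subset _ _
  have hbdK : ∀ v ∈ bdS Λ', centre (δ n) v ∈ K := by
    intro v hv
    obtain ⟨hv1, hv2⟩ := mem_bdS.1 hv
    rcases hv1 with hv1 | ⟨w, hw, hwv⟩
    · exact absurd hv1 hv2
    · have h5 := (hmem w).1 hw
      rw [hU, mem_thickening_iff] at h5
      obtain ⟨z, hz, hzd⟩ := h5
      have h6 := dist_adj hdn.le hwv
      refine mem_cthickening_of_dist_le _ z r _ hz ?_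
      have := dist_triangle_left (centre (δ n) v) z (centre (δ n) w)
      linarith
  have hbdU : ∀ v ∈ bdS Λ', centre (δ n) v ∉ U := fun v hv h =>
    (mem_bdS.1 hv).2 ((hmem v).2 h)
  have hnear : ∀ v, (∃ z ∈ tsupport u, dist (centre (δ n) v) z ≤ δ n) → v ∈ Λ' := by
    rintro v ⟨z, hz, hd⟩
    rw [hmem, hU, mem_thickening_iff]
    exact ⟨z, hz, by linarith⟩
  have hsup := sup7_of hdn.le hnear
  have hzero : ∀ v, v ∉ Λ' → Du u (δ n) v = 0 := by
    intro v hv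
    by_contra h5
    exact hv (hnear v (Du_supp hdn.le h5))
  have hzero' : ∀ v, v ∉ Λ n → Du u (δ n) v = 0 := fun v hv => hzero v fun h => hv (hsub h)
  have hfe : ∀ h, φ (LS (Λ n) (Du u (δ n)) h) = φ (LS Λ' (Du u (δ n)) h) := fun h => by
    rw [LS_eq hzero' hzero]
  have hneut : NeutZ (LS Λ' (Du u (δ n))) := neutZ_LS (sum_Dop hsup)
  have key := transfer hx hZ hL (Λ' := Λ') (Λ := Λ n) hsub (τ := τ n) (lip_of_data (hS.data n))
    (f := fun h => φ (LS Λ' (Du u (δ n)) h)) ((locZ_LS Λ' _).comp φ)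
    (fun h c => by simp only [hneut h c]) (fun h => hφ _) (b := b) (ε := e) (s := s)
    (η := ε / 16) (C := C) hb hs0 hC0.le
    (fun g hg hgN hg1 => h2 Λ' hzero (bdS Λ') g hbdU hg hgN hg1)
    (fun A hA hAN => h1 (bdS Λ') A hbdK hA hAN)
  rw [Real.dist_eq]
  have e1 : ex x (Λ n) (τ n) (fun h => φ (LS (Λ n) (Du u (δ n)) h)) =
      ex x (Λ n) (τ n) (fun h => φ (LS Λ' (Du u (δ n)) h)) := It844.ex_congr fun h _ => hfe h
  rw [e1]
  refine key.trans_lt ?_
  have e2 : C * (e / s) = ε / 16 := by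
    rw [he]
    field_simp
  rw [e2, hs]
  linarith

/-- lattice Laplacians are admissible weights -/
theorem over_Du (hS : Setup D γ P' δ Λ τ) {u : ℂ → ℝ} (hu : IsTest D u) :
    ∃ K : Set ℂ, IsCompact K ∧ K ⊆ D ∧ ∃ M : ℝ, ∀ᶠ n in atTop, Over K (δ n) M (Du u (δ n)) := by
  obtain ⟨r, hr, hKc, hKD⟩ := Cov353.exists_thick (K := tsupport u) hu.comp hS.dom.op hu.supp
  have hcl : Continuous (Δ u) := Cw643.continuous_lap hu.smooth
  have hcs : HasCompactSupport (Δ u) := Cw643.hasCompactSupport_lap hu.comp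
  obtain ⟨A, hA⟩ := hcs.exists_bound_of_continuous hcl
  have hnear := near_Dop hS.sites.pos hS.sites.lim hu.smooth hu.comp
  have hb := hnear.bdd (A := A) (fun z => by
    have := hA z
    rwa [Real.norm_eq_abs, ← abs_neg] at this)
  refine ⟨_, hKc, hKD, A + 1, ?_⟩
  filter_upwards [hb, hS.sites.small hr] with n h1 h2
  refine ⟨fun v hv => ?_, fun v => h1 v⟩
  obtain ⟨z, hz, hd⟩ := Du_supp (hS.sites.pos n).le hv
  exact mem_cthickening_of_dist_le _ z r _ hz (hd.trans h2.le)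

/-- **THE FIELD `p1`** -/
theorem p1_of (hx : 0 < x) (hκ : 0 ≤ κ) {P : Measure Hz} (hZ : PinnedZ P) (hL : ZeroLim x scs P)
    (hG : GaussZ κ P) (hS : Setup D γ P' δ Λ τ) (hC : Contig x P D δ Λ τ)
    (hbd : ∀ K, IsCompact K → K ⊆ D → ∃ C : ℝ, ∀ᶠ n in atTop, ∀ M g, Over K (δ n) M g →
      Vr x (Λ n) (τ n) g ≤ C * M ^ 2) :
    ∀ u, IsTest D u → ∀ t : ℝ, Tendsto (fun n => ex x (Λ n) (τ n) (fun h =>
      Complex.exp (Complex.I * (t * cS x (Λ n) (τ n)
        (Dop (fun v => u (centre (δ n) v))) h : ℝ)))) atTop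
      (𝓝 (Complex.exp (-(κ * (∫ z, ‖fderiv ℝ u z‖ ^ 2) * t ^ 2 / 2 : ℝ)))) := by
  intro u hu t
  have hδ := hS.sites.pos
  have hδ0 := hS.sites.lim
  have hτ : ∀ n, Lip (τ n) := fun n => lip_of_data (hS.data n)
  -- cosines and sines
  have hcos : ∀ t : ℝ, Tendsto (fun n => ex x (Λ n) (τ n)
      (fun h => Real.cos (t * LS (Λ n) (Du u (δ n)) h))) atTop (𝓝 (gau κ u t)) := by
    intro t
    refine bounded_limit hx hZ hL hS hC hu (φ := fun y => Real.cos (t * y))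
      (fun y => Real.abs_cos_le_one _) (b := gau κ u t) ?_ ?_
    · rw [abs_of_nonneg (gau_nonneg _ _ _)]
      exact gau_le_one hκ u t
    · intro U hU hsU ε hε
      filter_upwards [hG δ hδ hδ0 u hu.smooth hu.comp U hU hsU t ε hε] with n hn S hSz T g h1 h2 h3 h4
      exact (hn S hSz T g h1 h2 h3 h4).1
  have hsin : ∀ t : ℝ, Tendsto (fun n => ex x (Λ n) (τ n)
      (fun h => Real.sin (t * LS (Λ n) (Du u (δ n)) h))) atTop (𝓝 0) := by
    intro t
    refine bounded_limit hx hZ hL hS hC hu (φ := fun y => Real.sin (t * y))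
      (fun y => Real.abs_sin_le_one _) (b := 0) (by simp) ?_
    intro U hU hsU ε hε
    filter_upwards [hG δ hδ hδ0 u hu.smooth hu.comp U hU hsU t ε hε] with n hn S hSz T g h1 h2 h3 h4
    rw [zero_mul, sub_zero]
    exact (hn S hSz T g h1 h2 h3 h4).2
  -- means
  set X : ℕ → Hz → ℝ := fun n h => LS (Λ n) (Du u (δ n)) h with hX
  set m : ℕ → ℝ := fun n => ex x (Λ n) (τ n) (X n) with hm
  have hmean : Tendsto m atTop (𝓝 0) := by
    obtain ⟨K, hKc, hKD, M, hov⟩ := over_Du hS hu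
    obtain ⟨C, hCe⟩ := hbd K hKc hKD
    have h1 := mean_tendsto_zero (ν := fun n => mu x (Λ n) (τ n)) (X := X) (C := C * M ^ 2)
      (s := κ * ∫ z, ‖fderiv ℝ u z‖ ^ 2) (fun n => isProb_mu hx (hτ n)) (fun n => by
        have h1 := integrable_mu x (Λ n) (τ n) (X n)
        refine (memLp_two_iff_integrable_sq h1.aestronglyMeasurable).2 ?_
        exact integrable_mu x (Λ n) (τ n) _) ?_ ?_ ?_
    · refine h1.congr fun n => ?_
      rw [integral_mu hx (hτ n)]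
    · filter_upwards [hCe, hov] with n h2 h3
      have h4 := h2 M _ h3
      have e1 : ∫ o, (X n o - ∫ o, X n o ∂(mu x (Λ n) (τ n))) ^ 2 ∂(mu x (Λ n) (τ n)) =
          Vr x (Λ n) (τ n) (Du u (δ n)) := by
        rw [integral_mu hx (hτ n) (X n), integral_mu hx (hτ n)]
        unfold Vr Cv
        refine It844.ex_congr fun h _ => ?_
        unfold cS
        rw [sq]
      rw [e1]
      exact h4
    · intro t
      refine (hcos t).congr fun n => ?_
      rw [integral_mu hx (hτ n)]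
    · intro t
      refine (hsin t).congr fun n => ?_
      rw [integral_mu hx (hτ n)]
  -- the characteristic function
  have hexp : ∀ n, ex x (Λ n) (τ n) (fun h => Complex.exp (Complex.I * (t * cS x (Λ n) (τ n)
      (Dop (fun v => u (centre (δ n) v))) h : ℝ))) =
      Complex.exp (-(Complex.I * (t * m n : ℝ))) *
      (((ex x (Λ n) (τ n) (fun h => Real.cos (t * X n h)) : ℝ) : ℂ) +
        ((ex x (Λ n) (τ n) (fun h => Real.sin (t * X n h)) : ℝ) : ℂ) * Complex.I) := by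
    intro n
    have e1 : ((ex x (Λ n) (τ n) (fun h => Real.cos (t * X n h)) : ℝ) : ℂ) +
        ((ex x (Λ n) (τ n) (fun h => Real.sin (t * X n h)) : ℝ) : ℂ) * Complex.I =
        ex x (Λ n) (τ n) (fun h => Complex.exp (Complex.I * (t * X n h : ℝ))) := by
      have a1 : ∀ h, (Complex.exp (Complex.I * (t * X n h : ℝ))).re = Real.cos (t * X n h) := by
        intro h
        rw [mul_comm, Complex.exp_ofReal_mul_I_re]
      have a2 : ∀ h, (Complex.exp (Complex.I * (t * X n h : ℝ))).im = Real.sin (t * X n h) := by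
        intro h
        rw [mul_comm, Complex.exp_ofReal_mul_I_im]
      have a3 := re_ex x (Λ n) (τ n) (fun h => Complex.exp (Complex.I * (t * X n h : ℝ)))
      have a4 := im_ex x (Λ n) (τ n) (fun h => Complex.exp (Complex.I * (t * X n h : ℝ)))
      simp only [a1] at a3
      simp only [a2] at a4
      rw [← a3, ← a4]
      exact Complex.re_add_im _
    have hpt : ∀ h, Complex.exp (Complex.I * (t * cS x (Λ n) (τ n)
        (Dop (fun v => u (centre (δ n) v))) h : ℝ)) =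
        Complex.exp (-(Complex.I * (t * m n : ℝ))) * Complex.exp (Complex.I * (t * X n h : ℝ)) := by
      intro h
      rw [← Complex.exp_add]
      congr 1
      have : cS x (Λ n) (τ n) (Dop (fun v => u (centre (δ n) v))) h = X n h - m n := rfl
      rw [this]
      push_cast
      ring
    rw [e1]
    simp only [hpt]
    unfold ex
    rw [mul_smul_comm, Finset.mul_sum]
    congr 1
    refine Finset.sum_congr rfl fun h _ => ?_
    rw [mul_smul_comm]
  have hlim1 : Tendsto (fun n => Complex.exp (-(Complex.I * (t * m n : ℝ)))) atTop (𝓝 1) := by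
    have h1 : Tendsto (fun n => Complex.exp (-(Complex.I * ((t * m n : ℝ) : ℂ)))) atTop
        (𝓝 (Complex.exp (-(Complex.I * ((t * 0 : ℝ) : ℂ))))) := by
      have h2 : Continuous fun y : ℝ => Complex.exp (-(Complex.I * ((t * y : ℝ) : ℂ))) := by
        fun_prop
      exact (h2.tendsto 0).comp hmean
    simpa using h1
  have hlim2 : Tendsto (fun n => ((ex x (Λ n) (τ n) (fun h => Real.cos (t * X n h)) : ℝ) : ℂ) +
        ((ex x (Λ n) (τ n) (fun h => Real.sin (t * X n h)) : ℝ) : ℂ) * Complex.I) atTop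
        (𝓝 (((gau κ u t : ℝ) : ℂ) + ((0 : ℝ) : ℂ) * Complex.I)) :=
    ((Complex.continuous_ofReal.tendsto _).comp (hcos t)).add
      (((Complex.continuous_ofReal.tendsto _).comp (hsin t)).mul_const _)
  have hfin := hlim1.mul hlim2
  have e5 : (1 : ℂ) * (((gau κ u t : ℝ) : ℂ) + ((0 : ℝ) : ℂ) * Complex.I) =
      Complex.exp (-(κ * (∫ z, ‖fderiv ℝ u z‖ ^ 2) * t ^ 2 / 2 : ℝ)) := by
    rw [one_mul, Complex.ofReal_zero, zero_mul, add_zero]
    unfold gau
    rw [Complex.ofReal_exp, Complex.ofReal_neg]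
  rw [e5] at hfin
  exact hfin.congr fun n => (hexp n).symm

end Crest.Agent.R144.Dom136
end
end

-- ▼ part R144/Dom4_136
section

/-!
# R144 (helper136), block D1 (DOM), file 4: `Fin830.P1` from the plane law and contiguity
-/

set_option autoImplicit false

noncomputable section

namespace Crest.Agent.R144.Dom136

open MeasureTheory Filter Topology Set Metric
open scoped ContDiff Laplacian
open Crest.ProbabilityR.HexHeights (Adj centre)
open Crest.Agent.R144.It844 (P2 Lip ex)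
open Crest.Agent.R144.Pst967 (Hz)
open Crest.Agent.R144.Set268 (Setup)
open Crest.Agent.R144.Env702 (Env)
open Crest.Agent.R144.Lc830 (LC)
open Crest.Agent.R144.Fin830 (Plane P1)

/-- the plane half: conditional Gaussianity of every plane layer -/
def PlaneGauss (x : ℝ) : Prop := ∀ (P : Measure Hz) (κ : ℝ), Plane x P κ → GaussZ κ P

/-- the domain half: contiguity of every setup -/
def DomContig (x : ℝ) : Prop :=
  ∀ (P : Measure Hz) (κ : ℝ), Plane x P κ →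
  ∀ (D : Set ℂ) (γ : ℝ → ℂ) (Q : Finset ℂ) (δ : ℕ → ℝ) (Λ : ℕ → Finset (ℤ × ℤ))
    (τ : ℕ → ℤ × ℤ → ℤ), Setup D γ Q δ Λ τ → Env D δ Λ → LC D δ Λ → Contig x P D δ Λ τ

/-- **`P1` from the two halves** -/
theorem P1_of {x : ℝ} (hG : PlaneGauss x) (hC : DomContig x) : P1 x := by
  intro P κ hP D γ Q δ Λ τ hS hE hL
  exact p1_of hP.x0 hP.kpos.le hP.pin hP.zlim (hG P κ hP) hS (hC P κ hP D γ Q δ Λ τ hS hE hL)
    fun K hK hKD => Hf702.bd_of hP.hyp hS hE hK hKD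

end Crest.Agent.R144.Dom136
end
end

-- ▼ part R144/Gb1_349
section

/-!
# R144 (helper349): helper136's `GaussZ` from helper885's Gaussianity theorem

* `lift_grad` : a local gradient observable of the integer heights over `T ⊆ V` extends to a function of real
  heights which is measurable for the gradient sigma-algebra `gσ V`;
* `gaussZ_of` : helper885's `Mdl` and `CCW` for the plane law, along every mesh sequence, give helper136's
  `GaussZ`.
-/

set_option autoImplicit false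

noncomputable section

namespace Crest.Agent.R144.Gb349

open MeasureTheory Filter Topology Finset
open Crest.ProbabilityR.HexHeights (Adj)
open Crest.Agent.R144.It844 (ex Lip conf mem_conf nbhd)
open Crest.Agent.R144.Pst967
open Crest.Agent.R144.Ps643 (Ht)
open Crest.Agent.R144.Mix880
open Crest.Agent.R144.Ga4126 (ei)
open Crest.Agent.R144.Ga5885 (Mdl CCW Tst en gauss)
open Crest.Agent.R144.Dom136 (Du gau GaussZ)
open Crest.Agent.R144.Fin268 (LS)
open Crest.Agent.R144.Fin830 (Plane)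
open Crest.Agent.R144.Gi643 (XX XX_eq mdl)
open Set (univ preimage_univ subset_univ)

abbrev P2 : Type := ℤ × ℤ

/-- extension of a local gradient observable to real heights -/
theorem lift_grad {V : Set P2} {T : Finset P2} (hT : ∀ v ∈ T, v ∈ V) {g : Hz → ℝ}
    (hg : LocZ (T : Set P2) g) (hN : NeutZ g) :
    ∃ Z : Ht → ℝ, Measurable[gσ V] Z ∧ (∀ h, Z (toR h) = g h) ∧ ∀ h, ∃ k, Z h = g k := by
  classical
  rcases T.eq_empty_or_nonempty with rfl | ⟨s0, hs0⟩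
  · refine ⟨fun _ => g 0, measurable_const, fun h => ?_, fun h => ⟨0, rfl⟩⟩
    exact hg _ _ fun v hv => by simp at hv
  · let r : Ht → Hz := fun h v => if v ∈ T then round (h v - h s0) else 0
    have hr : Measurable[gσ V] r := by
      refine (@measurable_pi_iff Ht P2 (fun _ => ℤ) (gσ V) (fun _ => inferInstance) r).2 fun v => ?_
      by_cases hv : v ∈ T
      · have h1 : Measurable[gσ V] (fun h : Ht => h v - h s0) := meas_grad (hT v hv) (hT s0 hs0)
        have h2 : (fun h : Ht => r h v) = fun h => ⌊(h v - h s0) + 1 / 2⌋ := by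
          funext h
          show (if v ∈ T then round (h v - h s0) else 0) = _
          rw [if_pos hv, round_eq]
        rw [h2]
        exact Int.measurable_floor.comp (h1.add_const _)
      · have h2 : (fun h : Ht => r h v) = fun _ => 0 := by
          funext h
          show (if v ∈ T then round (h v - h s0) else 0) = _
          rw [if_neg hv]
        rw [h2]
        exact measurable_const
    refine ⟨fun h => g (r h), (measurable_of_loc ⟨T, hg⟩).comp hr, fun h => ?_, fun h => ⟨r h, rfl⟩⟩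
    have h1 : g (r (toR h)) = g (fun v => h v + -h s0) := by
      refine hg _ _ fun v hv => ?_
      show (if v ∈ T then round (toR h v - toR h s0) else 0) = _
      rw [if_pos (Finset.mem_coe.1 hv)]
      show round ((h v : ℝ) - (h s0 : ℝ)) = _
      rw [← Int.cast_sub, round_intCast, sub_eq_add_neg]
    show g (r (toR h)) = g h
    rw [h1]
    exact hN h _


/-- gradient sigma-algebras of helper885's model -/
abbrev FF (δ : ℕ → ℝ) (n : ℕ) (U : Set ℂ) : MeasurableSpace Ht :=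
  gσ {v | Crest.ProbabilityR.HexHeights.centre (δ n) v ∈ U}

/-- `X` is the linear functional with the weights of the lattice Laplacian -/
def IsLap (δ : ℕ → ℝ) (X : ℕ → (ℂ → ℝ) → Ht → ℝ) : Prop :=
  ∀ u : ℂ → ℝ, Tst u → ∀ᶠ n in atTop, ∀ (h : Hz) (S : Finset P2),
    (∀ v, v ∉ S → Du u (δ n) v = 0) → X n u (toR h) = LS S (Du u (δ n)) h

/-- **`GaussZ` from the model** -/
theorem gaussZ_of {κ : ℝ} {P : Measure Hz}
    (H : ∀ δ : ℕ → ℝ, (∀ n, 0 < δ n) → Tendsto δ atTop (𝓝 0) →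
      ∃ X : ℕ → (ℂ → ℝ) → Ht → ℝ, Mdl atTop (fun _ => P.map toR) X (FF δ) κ ∧
        CCW atTop (fun _ => P.map toR) X (FF δ) ∧ IsLap δ X) : GaussZ κ P := by
  intro δ hδ hδ0 u hu huc U hU hs t ε hε
  obtain ⟨X, hM, hW, hX⟩ := H δ hδ hδ0
  have hT : Tst u := ⟨hu, huc⟩
  filter_upwards [gauss hM hW hT hU hs t hε, hX u hT] with n hn hXn S hS T g hg hl hN h1
  have hpr : IsProbabilityMeasure (P.map toR) := hM.prob n
  have hP : IsProbabilityMeasure P := by
    refine ⟨?_⟩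
    have h2 := hpr.measure_univ
    rwa [Measure.map_apply measurable_toR MeasurableSet.univ, preimage_univ] at h2
  obtain ⟨Z, hZm, hZe, hZk⟩ := lift_grad (V := {v | Crest.ProbabilityR.HexHeights.centre (δ n) v ∈ Uᶜ})
    (fun v hv => hg v hv) hl hN
  have hZm' : Measurable Z := hZm.mono (gσ_le _) le_rfl
  have hZ1 : ∀ h, |Z h| ≤ 1 := fun h => by obtain ⟨k, hk⟩ := hZk h; rw [hk]; exact h1 k
  have h2 := hn (fun h => (Z h : ℂ)) (Complex.measurable_ofReal.comp hZm) (fun h => by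
    rw [Complex.norm_real]; exact hZ1 h)
  have hei : Measurable fun h : Ht => ei (t * X n u h) := by
    unfold Ga4126.ei
    exact ((Complex.measurable_ofReal.comp ((hM.meas n u hT).const_mul t)).const_mul Complex.I).cexp
  have m1 : Measurable fun h : Ht => (Z h : ℂ) * ei (t * X n u h) :=
    (Complex.measurable_ofReal.comp hZm').mul hei
  set f : Hz → ℝ := fun h => LS S (Du u (δ n)) h with hf
  have hXf : ∀ h, X n u (toR h) = f h := fun h => hXn h S hS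
  have e1 : ∫ h, (Z h : ℂ) * ei (t * X n u h) ∂(P.map toR) = ∫ h, (g h : ℂ) * ei (t * f h) ∂P := by
    rw [integral_map measurable_toR.aemeasurable m1.aestronglyMeasurable]
    simp only [hXf, hZe]
  have e2 : ∫ h, (Z h : ℂ) ∂(P.map toR) = ((∫ h, g h ∂P : ℝ) : ℂ) := by
    have mZ : Measurable fun h : Ht => (Z h : ℂ) := Complex.measurable_ofReal.comp hZm'
    rw [integral_map measurable_toR.aemeasurable mZ.aestronglyMeasurable]
    simp only [hZe]
    exact integral_ofReal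
  have hint : Integrable (fun h => (g h : ℂ) * ei (t * f h)) P := by
    have h4 : (fun h : Hz => (g h : ℂ) * ei (t * f h)) =
        (fun h : Ht => (Z h : ℂ) * ei (t * X n u h)) ∘ toR := by
      funext h
      show (g h : ℂ) * ei (t * f h) = (Z (toR h) : ℂ) * ei (t * X n u (toR h))
      rw [hXf, hZe]
    rw [h4]
    refine Integrable.of_bound (m1.comp measurable_toR).aestronglyMeasurable 1
      (Eventually.of_forall fun h => ?_)
    show ‖(Z (toR h) : ℂ) * ei (t * X n u (toR h))‖ ≤ 1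
    rw [norm_mul, Ga4126.norm_ei, mul_one, Complex.norm_real]
    exact hZ1 _
  have e3 : (Real.exp (-(t ^ 2 * (κ * en u) / 2)) : ℝ) = gau κ u t := by
    unfold gau
    have h3 : en u = ∫ z, ‖fderiv ℝ u z‖ ^ 2 :=
      Crest.Agent.R144.Con549.energy_eq (U := univ) ⟨hu, huc, subset_univ _⟩
    rw [h3]
    congr 1
    ring
  rw [e1, e2, e3, ← Complex.ofReal_mul] at h2
  have r1 : (∫ h, (g h : ℂ) * ei (t * f h) ∂P).re = ∫ h, g h * Real.cos (t * f h) ∂P := by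
    have h3 := Complex.reCLM.integral_comp_comm hint
    rw [← Complex.reCLM_apply, ← h3]
    refine integral_congr_ae (Eventually.of_forall fun h => ?_)
    show ((g h : ℂ) * ei (t * f h)).re = g h * Real.cos (t * f h)
    rw [Complex.re_ofReal_mul, Ga4126.ei, mul_comm Complex.I, Complex.exp_ofReal_mul_I_re]
  have r2 : (∫ h, (g h : ℂ) * ei (t * f h) ∂P).im = ∫ h, g h * Real.sin (t * f h) ∂P := by
    have h3 := Complex.imCLM.integral_comp_comm hint
    rw [← Complex.imCLM_apply, ← h3]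
    refine integral_congr_ae (Eventually.of_forall fun h => ?_)
    show ((g h : ℂ) * ei (t * f h)).im = g h * Real.sin (t * f h)
    rw [Complex.im_ofReal_mul, Ga4126.ei, mul_comm Complex.I, Complex.exp_ofReal_mul_I_im]
  constructor
  · have h3 := (Complex.abs_re_le_norm _).trans h2
    rwa [Complex.sub_re, r1, Complex.ofReal_re] at h3
  · have h3 := (Complex.abs_im_le_norm _).trans h2
    rw [Complex.sub_im, r2, Complex.ofReal_im, sub_zero] at h3
    exact h3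

/-- closed-contour Ward identity of the plane layers, in helper885's form for helper643's functionals -/
def CcwPlane (x : ℝ) : Prop :=
  ∀ (P : Measure Hz) (κ : ℝ), Plane x P κ → ∀ δ : ℕ → ℝ, (∀ n, 0 < δ n) → Tendsto δ atTop (𝓝 0) →
    CCW atTop (fun _ => P.map toR) (fun n φ h => XX (δ n) φ h)
      (fun n U => gσ {v | Crest.ProbabilityR.HexHeights.centre (δ n) v ∈ U})

/-- **conditional Gaussianity of the plane layers from the closed-contour Ward identity** -/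
theorem planeGauss {x : ℝ} (hW : CcwPlane x) : Dom136.PlaneGauss x := by
  intro P κ hP
  obtain ⟨K, p, hR⟩ := hP.rsw.rsw (Pst967.one_le_c hP.x0 hP.x1)
  refine gaussZ_of fun δ hδ hδ0 => ⟨fun n φ h => XX (δ n) φ h, ?_, hW P κ hP δ hδ hδ0, ?_⟩
  · exact mdl hP.x0 hP.x1 hR hP.pin hP.zlim hP.st hP.flim hP.kpos.le hP.lim2 hδ hδ0
  · intro u _
    exact Eventually.of_forall fun n h S hS => XX_eq hS (toR h)

end Crest.Agent.R144.Gb349
end
end

-- ▼ part R144/Shl_830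
section

/-! R144 (helper830): the geometric shell of the contiguity statement (S5): a compact part of the
domain is contained in connected finite sets `K0 n` of sites with a macroscopic neighbourhood inside
`Λ n`; everything at the scale `s n → ∞`. -/

set_option autoImplicit false

open Set Topology Filter
open Metric hiding ball mem_ball

namespace Crest.Agent.R144.Shl830

open Crest.ProbabilityR.HexHeights Crest.Agent.R144.HexTil353 Crest.Agent.R144.TriTil353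
  Crest.Agent.R144.Geo268 Crest.Agent.R144.Cnt268 Crest.Agent.R144.Set268
open Crest.Agent.R144.It844 (P2)
open Crest.Agent.R144.Zg349 (IsConn SC StepIn)
open Crest.Agent.R144.Rsw867 (ball mem_ball)

/-- a compact subset of an open connected set is contained in a compact connected subset -/
theorem exists_hull {D K : Set ℂ} (hop : IsOpen D) (hc : IsConnected D) (hK : IsCompact K)
    (hKD : K ⊆ D) : ∃ K' : Set ℂ, IsCompact K' ∧ IsConnected K' ∧ K ⊆ K' ∧ K' ⊆ D := by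
  obtain ⟨z0, hz0⟩ := hc.nonempty
  have hpc := hop.isConnected_iff_isPathConnected.1 hc
  have key : ∀ z : ℂ, z ∈ D → ∃ S : Set ℂ, IsCompact S ∧ IsPreconnected S ∧ z0 ∈ S ∧ S ⊆ D ∧
      S ∈ 𝓝 z := by
    intro z hz
    obtain ⟨r, hr, hrD⟩ := Metric.nhds_basis_closedBall.mem_iff.1 (hop.mem_nhds hz)
    have hj := hpc.joinedIn z0 hz0 z hz
    set p := hj.somePath with hp
    refine ⟨range p ∪ closedBall z r, (isCompact_range p.continuous).union
      (isCompact_closedBall z r), ?_, Or.inl ⟨0, p.source⟩, union_subset ?_ hrD, ?_⟩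
    · exact (isPreconnected_range p.continuous).union z ⟨1, p.target⟩
        (mem_closedBall_self hr.le) (convex_closedBall z r).isPreconnected
    · rintro _ ⟨t, rfl⟩
      exact hj.somePath_mem t
    · exact mem_of_superset (closedBall_mem_nhds z hr) subset_union_right
  choose! S hS using key
  obtain ⟨t, htK, ht⟩ := hK.elim_nhds_subcover S fun z hz => (hS z (hKD hz)).2.2.2.2
  refine ⟨{z0} ∪ ⋃ z ∈ t, S z, isCompact_singleton.union
    (t.finite_toSet.isCompact_biUnion fun z hz => (hS z (hKD (htK z hz))).1),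
    ⟨⟨z0, Or.inl rfl⟩, ?_⟩, fun z hz => Or.inr (ht hz), ?_⟩
  · have h1 : {z0} ∪ ⋃ z ∈ t, S z = ⋃₀ (insert {z0} (S '' (t : Set ℂ))) := by
      rw [sUnion_insert, sUnion_image]
      rfl
    rw [h1]
    refine isPreconnected_sUnion z0 _ ?_ ?_
    · rintro s (rfl | ⟨z, hz, rfl⟩)
      · rfl
      · exact (hS z (hKD (htK z hz))).2.2.1
    · rintro s (rfl | ⟨z, hz, rfl⟩)
      · exact isPreconnected_singleton
      · exact (hS z (hKD (htK z hz))).2.1
  · rintro z (hz | hz)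
    · rw [mem_singleton_iff] at hz
      rw [hz]; exact hz0
    · simp only [mem_iUnion] at hz
      obtain ⟨w, hw, hzw⟩ := hz
      exact (hS w (hKD (htK w hw))).2.2.2.1 hzw

/-- a hexagonal ball is contained in a euclidean ball -/
theorem dist_of_mem_ball {δ : ℝ} (hδ : 0 ≤ δ) {u v : P2} {m : ℕ} (h : v ∈ ball u m) :
    dist (centre δ v) (centre δ u) ≤ 2 * (δ * m) := by
  rw [mem_ball] at h
  obtain ⟨h1, h2, h3⟩ := h
  have h1' : |((v.1 - u.1 : ℤ) : ℝ)| ≤ m := by exact_mod_cast h1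
  have h2' : |((v.2 - u.2 : ℤ) : ℝ)| ≤ m := by exact_mod_cast h2
  rw [abs_le] at h1' h2'
  have hm : (0 : ℝ) ≤ m := Nat.cast_nonneg m
  have h5 : dist (centre δ v) (centre δ u) ^ 2 ≤ (2 * (δ * m)) ^ 2 := by
    rw [dist_comm, dist_centre_sq]
    push_cast at h1' h2' ⊢
    have h6 : ((v.1 : ℝ) - u.1) ^ 2 + ((v.1 : ℝ) - u.1) * ((v.2 : ℝ) - u.2) +
        ((v.2 : ℝ) - u.2) ^ 2 ≤ 4 * (m : ℝ) ^ 2 := by nlinarith
    calc δ ^ 2 * (((v.1 : ℝ) - u.1) ^ 2 + ((v.1 : ℝ) - u.1) * ((v.2 : ℝ) - u.2) +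
        ((v.2 : ℝ) - u.2) ^ 2) ≤ δ ^ 2 * (4 * (m : ℝ) ^ 2) :=
          mul_le_mul_of_nonneg_left h6 (sq_nonneg δ)
      _ = _ := by ring
  exact (abs_le_of_sq_le_sq' h5 (by positivity)).2

/-- sites at euclidean distance `B` are in a hexagonal ball -/
theorem mem_ball_of_norm {δ B : ℝ} (hδ : 0 < δ) {v : P2} (h : ‖centre δ v‖ ≤ B) {m : ℕ}
    (hm : 4 * B ≤ δ * m) : v ∈ ball 0 m := by
  have h1 := abs_ca_le hδ (centre δ v)
  have h2 := abs_cb_le hδ (centre δ v)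
  rw [TriTil353.ca_centre hδ] at h1
  rw [TriTil353.cb_centre hδ] at h2
  have hb : 2 * ‖centre δ v‖ / δ ≤ (m : ℝ) / 2 := by
    rw [div_le_div_iff₀ hδ (by norm_num)]
    linarith
  have h3 : |(v.1 : ℝ)| ≤ (m : ℝ) / 2 := h1.trans hb
  have h4 : |(v.2 : ℝ)| ≤ (m : ℝ) / 2 := h2.trans hb
  have hm0 : (0 : ℝ) ≤ m := Nat.cast_nonneg m
  rw [mem_ball]
  simp only [Prod.fst_zero, Prod.snd_zero, sub_zero]
  refine ⟨?_, ?_, ?_⟩
  · have : |(v.1 : ℝ)| ≤ m := by linarith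
    exact_mod_cast this
  · have : |(v.2 : ℝ)| ≤ m := by linarith
    exact_mod_cast this
  · have h5 := abs_add_le (v.1 : ℝ) (v.2 : ℝ)
    have : |(v.1 : ℝ) + v.2| ≤ m := by linarith
    exact_mod_cast this

/-- the sites whose closed cell meets `K` -/
noncomputable def meet (δ : ℝ) (K : Set ℂ) (N : ℕ) : Finset P2 :=
  haveI := Classical.decPred fun v : P2 => (cell δ v ∩ K).Nonempty
  (ball 0 N).filter fun v => (cell δ v ∩ K).Nonempty

theorem mem_meet {δ : ℝ} {K : Set ℂ} {N : ℕ} {v : P2} :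
    v ∈ meet δ K N ↔ v ∈ ball 0 N ∧ (cell δ v ∩ K).Nonempty := by
  classical
  unfold meet
  rw [Finset.mem_filter]

/-- **the shell** -/
theorem shell {D : Set ℂ} {γ : ℝ → ℂ} {P : Finset ℂ} {δ : ℕ → ℝ} {Λ : ℕ → Finset (ℤ × ℤ)}
    {τ : ℕ → ℤ × ℤ → ℤ} (h : Setup D γ P δ Λ τ) {K : Set ℂ} (hK : IsCompact K) (hKD : K ⊆ D)
    (J : ℕ) : ∃ (R : ℕ) (s : ℕ → ℕ), 1 ≤ R ∧ Tendsto s atTop atTop ∧ ∃ K0 : ℕ → Finset P2,
      ∀ᶠ n in atTop, (∀ v, centre (δ n) v ∈ K → v ∈ K0 n) ∧ (K0 n).Nonempty ∧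
        IsConn (K0 n : Set P2) ∧ ((K0 n).biUnion fun v => ball v (J * s n)) ⊆ Λ n ∧
        Λ n ⊆ ball 0 (R * s n) ∧ SC (Λ n) := by
  have hop := h.dom.op
  obtain ⟨K', hK'c, hK'con, hKK', hK'D⟩ := exists_hull hop h.dom.conn hK hKD
  obtain ⟨r, hr, hrc, hrs⟩ := Crest.Agent.R144.Cov353.exists_thick hK'c hop hK'D
  obtain ⟨B, hB⟩ := (h.sites.compact_cth 1).isBounded.exists_norm_le
  have hB0 : 0 ≤ |B| := abs_nonneg B
  set θ : ℝ := r / (4 * (J + 1)) with hθ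
  have hJ : (0 : ℝ) < J + 1 := by positivity
  have hθpos : 0 < θ := by positivity
  set s : ℕ → ℕ := fun n => ⌊θ / δ n⌋₊ with hs
  set R : ℕ := ⌈8 * (|B| + 1) / θ⌉₊ + 1 with hR
  have hRle : 8 * (|B| + 1) / θ ≤ R := by
    rw [hR]
    push_cast
    linarith [Nat.le_ceil (8 * (|B| + 1) / θ)]
  have hR1 : 1 ≤ R := by rw [hR]; omega
  have hlim : Tendsto (fun n => θ / δ n) atTop atTop := by
    have h1 : Tendsto δ atTop (𝓝[>] 0) :=
      tendsto_nhdsWithin_iff.2 ⟨h.sites.lim, Eventually.of_forall fun n => h.sites.pos n⟩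
    simpa [div_eq_mul_inv] using (tendsto_inv_nhdsGT_zero.comp h1).const_mul_atTop hθpos
  refine ⟨R, s, hR1, tendsto_nat_floor_atTop.comp hlim, fun n => meet (δ n) K' (R * s n), ?_⟩
  filter_upwards [h.sites.inn _ hrc hrs, h.sites.out 1 one_pos,
    h.sites.small (show 0 < θ / 2 by positivity), h.sites.small (show 0 < r / 4 by positivity),
    h.sites.small one_pos] with n h1 h2 h3 h4 h4'
  have hδ := h.sites.pos n
  -- scales
  have hs1 : θ / δ n / 2 ≤ s n := by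
    have h5 := Nat.lt_floor_add_one (θ / δ n)
    have h6 : 2 ≤ θ / δ n := by
      rw [le_div_iff₀ hδ]; linarith
    have h7 : θ / δ n < (s n : ℝ) + 1 := h5
    linarith
  have hs2 : δ n * s n ≤ θ := by
    have h5 : (s n : ℝ) ≤ θ / δ n := Nat.floor_le (by positivity)
    rw [le_div_iff₀ hδ] at h5
    linarith
  have hRs : 4 * (|B| + 1) ≤ δ n * ((R * s n : ℕ) : ℝ) := by
    push_cast
    have h5 : θ / 2 ≤ δ n * s n := by
      have h6 := mul_le_mul_of_nonneg_left hs1 hδ.le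
      have h7 : δ n * (θ / δ n / 2) = θ / 2 := by field_simp
      linarith
    rw [div_le_iff₀ hθpos] at hRle
    have hR0 : (0 : ℝ) ≤ R := Nat.cast_nonneg R
    nlinarith
  have hin : ∀ v : P2, ‖centre (δ n) v‖ ≤ |B| + 1 → v ∈ ball 0 (R * s n) := fun v hv =>
    mem_ball_of_norm hδ hv hRs
  have hmeet : ∀ v : P2, (cell (δ n) v ∩ K').Nonempty → v ∈ meet (δ n) K' (R * s n) := by
    intro v hv
    refine mem_meet.2 ⟨hin v ?_, hv⟩
    obtain ⟨z, hz1, hz2⟩ := hv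
    have h5 := hB z (self_subset_cthickening D (hK'D hz2))
    have h6 := mem_closedBall.1 (cell_subset_ball hδ v hz1)
    rw [dist_comm, dist_eq_norm] at h6
    have h7 := norm_add_le (centre (δ n) v - z) z
    rw [sub_add_cancel] at h7
    linarith [le_abs_self B]
  refine ⟨fun v hv => hmeet v ⟨centre (δ n) v, ball_subset_cell hδ v
    (mem_ball_self (by positivity)), hKK' hv⟩, ?_, ?_, ?_, ?_, ?_⟩
  · obtain ⟨z, hz⟩ := hK'con.nonempty
    obtain ⟨v, hv⟩ := exists_cell hδ z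
    exact ⟨v, hmeet v ⟨z, hv, hz⟩⟩
  · intro u hu v hv
    exact Crest.Agent.R144.Lc830.join_of_preconn hδ hK'con.isPreconnected
      (S := (meet (δ n) K' (R * s n) : Set P2)) (fun w hw => hmeet w hw)
      (mem_meet.1 hu).2 (mem_meet.1 hv).2
  · intro v hv
    rw [Finset.mem_biUnion] at hv
    obtain ⟨u, hu, hvu⟩ := hv
    obtain ⟨z, hz1, hz2⟩ := (mem_meet.1 hu).2
    apply h1
    refine mem_cthickening_of_dist_le _ z r _ hz2 ?_
    have h5 := dist_of_mem_ball hδ.le hvu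
    have h6 := mem_closedBall.1 (cell_subset_ball hδ u hz1)
    rw [dist_comm] at h6
    have h7 := dist_triangle (centre (δ n) v) (centre (δ n) u) z
    have h8 : 2 * (δ n * ((J * s n : ℕ) : ℝ)) ≤ r / 2 := by
      push_cast
      have h9 : δ n * (J * s n) = J * (δ n * s n) := by ring
      rw [h9]
      have h10 : (J : ℝ) * (δ n * s n) ≤ J * θ :=
        mul_le_mul_of_nonneg_left hs2 (Nat.cast_nonneg J)
      have h11 : (J : ℝ) * θ ≤ r / 4 := by
        rw [hθ, mul_div_assoc', div_le_div_iff₀ (by positivity) (by norm_num)]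
        nlinarith
      linarith
    linarith
  · intro v hv
    refine hin v ((hB _ (h2 v hv)).trans ?_)
    linarith [le_abs_self B]
  · exact h.compl n

end Crest.Agent.R144.Shl830
end

-- ▼ part R144/Ctg_830

/-!
# R144 (helper830), S5: contiguity of the domain laws (`DomContig`)

* `sc_ID` : the triangles inside a simply connected set of sites;
* `hh_congr` : `HH K0 s` is seen from `nb K0 (5 s + 1)`;
* `seen_ind` : neutral local events are seen from a connected seed;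
* `bound` : one volume;
* `domContig` : `Dom136.DomContig x`.
-/

set_option autoImplicit false

noncomputable section

namespace Crest.Agent.R144.Ctg830

open Finset Filter Topology MeasureTheory
open Crest.Agent.R144.It844 (P2 Lip adj_iff adj_symm upT ex pr ex_add_const)
open Crest.Agent.R144.Zg349 Crest.Agent.R144.Zd349 Crest.Agent.R144.Zm349 Crest.Agent.R144.Ze349
open Crest.Agent.R144.Zs349 Crest.Agent.R144.Zo349
open Crest.Agent.R144.Pst967 (path_symm Hz LocZ NeutZ GObs FLim scs lC PinnedZ)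
open Crest.Agent.R144.Rsw867 (RSW ball mem_ball ball_mono adj_ball path_mono first_hit)
open Crest.Agent.R144.Rw146 (adj_iff_share)
open Crest.Agent.R144.Tvp643 (In)
open Crest.Agent.R144.CuP880 (nb NoP HH)
open Crest.Agent.R144.Cmp880 (LvI Seen dom_cmp fl sc_fl fl_sub sub_fl fl_mono LayE lay_lemma opC_of_wt
  LvI_of In_of rsw_layer_nb mem_nb nb_mono_r sub_nb adj_nb base_adj LvI_nonneg LvI_le_one)
open Crest.ProbabilityR.HexHeights (Adj centre)
open Relation (ReflTransGen)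

/-! ### triangles inside a set of sites -/

theorem sc_ID {Λ : Finset P2} (hΛ : SC Λ) : SC (ID Λ) := by
  have hsub : ((Λ : Finset P2) : Set P2)ᶜ ⊆ ((ID Λ : Finset P2) : Set P2)ᶜ :=
    Set.compl_subset_compl.2 (Finset.coe_subset.2 (ID_sub Λ))
  -- a triangle off `ID Λ` is joined to a site off `Λ`
  have key : ∀ t, t ∉ ID Λ → ∃ v, v ∉ Λ ∧
      ReflTransGen (StepIn ((ID Λ : Finset P2) : Set P2)ᶜ) t v := by
    intro t ht
    have h1 : ∃ v ∈ up t, v ∉ Λ := by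
      by_contra h2
      push Not at h2
      exact ht (mem_ID.2 ⟨h2 _ (mem_up.2 (Or.inl rfl)), h2 _ (mem_up.2 (Or.inr (Or.inl rfl))),
        h2 _ (mem_up.2 (Or.inr (Or.inr rfl)))⟩)
    obtain ⟨v, hv, hvΛ⟩ := h1
    refine ⟨v, hvΛ, ?_⟩
    rcases base_adj hv with rfl | h3
    · exact ReflTransGen.refl
    · exact ReflTransGen.single ⟨fun h4 => ht (Finset.mem_coe.1 h4),
        fun h4 => hvΛ (ID_sub Λ (Finset.mem_coe.1 h4)), h3⟩
  intro t ht t' ht'
  obtain ⟨v, hv, p⟩ := key t fun h => ht (Finset.mem_coe.2 h)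
  obtain ⟨v', hv', p'⟩ := key t' fun h => ht' (Finset.mem_coe.2 h)
  have q := hΛ v (fun h => hv (Finset.mem_coe.1 h)) v' (fun h => hv' (Finset.mem_coe.1 h))
  exact p.trans ((path_mono hsub q).trans (path_symm p'))

theorem VF_ID (Λ : Finset P2) : VF (ID Λ) ⊆ Λ := by
  intro v hv
  obtain ⟨t, ht, hvt⟩ := mem_VF.1 hv
  obtain ⟨h1, h2, h3⟩ := mem_ID.1 ht
  rcases mem_up.1 hvt with rfl | rfl | rfl
  · exact h1
  · exact h2
  · exact h3

theorem nb_sub_ID {K0 Λ : Finset P2} {r : ℕ} (h : nb K0 (r + 1) ⊆ Λ) : nb K0 r ⊆ ID Λ := by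
  intro t ht
  have key : ∀ v ∈ up t, v ∈ Λ := by
    intro v hv
    rcases base_adj hv with rfl | h1
    · exact h (nb_mono_r (by omega) ht)
    · exact h (adj_nb le_rfl ht h1)
  exact mem_ID.2 ⟨key _ (mem_up.2 (Or.inl rfl)), key _ (mem_up.2 (Or.inr (Or.inl rfl))),
    key _ (mem_up.2 (Or.inr (Or.inr rfl)))⟩

/-! ### locality of the level loops -/

theorem nop_of {S S' : Set P2} {K0 : Finset P2} {a b : ℕ} (hab : a ≤ b)
    (h : ∀ v ∈ nb K0 (b + 1), v ∈ S → v ∈ S') (hn : NoP S' (nb K0 a) (nb K0 b)) :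
    NoP S (nb K0 a) (nb K0 b) := by
  intro u v hu hv p
  have hv' : v ∉ {w : P2 | w ∉ nb K0 b} := fun h1 => h1 (nb_mono_r hab hv)
  rcases first_hit {w : P2 | w ∉ nb K0 b} hv' (path_symm p) with ⟨h1, _⟩ | ⟨w, hw, q⟩
  · exact h1 hu
  · refine hn w v hw hv (path_symm (path_mono ?_ q))
    rintro t ⟨h1, h2⟩
    refine h t ?_ h1
    rcases h2 with h2 | ⟨t', h2, h3⟩
    · exact nb_mono_r (by omega) (not_not.1 h2)
    · exact adj_nb le_rfl (not_not.1 h2) h3

theorem hh_of {K0 : Finset P2} {s : ℕ} {g h : Hz} (hgh : ∀ v ∈ nb K0 (5 * s + 1), g v = h v)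
    (hg : g ∈ HH K0 s) : h ∈ HH K0 s := by
  obtain ⟨h1, h2, h3, h4⟩ := hg
  have m : ∀ k, k ≤ 5 → ∀ v ∈ nb K0 (k * s + 1), g v = h v := fun k hk v hv =>
    hgh v (nb_mono_r (by have := Nat.mul_le_mul_right s hk; omega) hv)
  refine ⟨nop_of (by omega) (fun v hv hh => ?_) h1, nop_of (by omega) (fun v hv hh => ?_) h2,
    nop_of (by omega) (fun v hv hh => ?_) h3, nop_of (by omega) (fun v hv hh => ?_) h4⟩
  · have e := m 2 (by norm_num) v hv
    rw [Set.mem_ofPred_eq] at *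
    rw [e]; exact hh
  · have e := m 3 (by norm_num) v hv
    rw [Set.mem_ofPred_eq] at *
    rw [e]; exact hh
  · have e := m 4 (by norm_num) v hv
    rw [Set.mem_ofPred_eq] at *
    rw [e]; exact hh
  · have e := m 5 le_rfl v hv
    rw [Set.mem_ofPred_eq] at *
    rw [e]; exact hh

theorem off_one {K0 : Finset P2} {s : ℕ} (hs : 1 ≤ s) (b : ℕ) :
    Cu867.Off (Cu867.sh K0 (6 * s) b) (Cu867.one (Cu867.H4 K0 s)) := by
  intro g h hgh
  have key : ∀ v ∈ nb K0 (5 * s + 1), g v = h v := fun v hv => hgh v fun h1 =>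
    (Cu867.mem_sh.1 h1).2 (nb_mono_r (by omega) hv)
  refine Cu867.one_congr ?_
  rw [← Lyf792.hh_eq]
  exact ⟨hh_of key, hh_of fun v hv => (key v hv).symm⟩

/-! ### neutral local events -/

theorem lev_const' {W B : Finset P2} (hW : SC W) (hBW : B ⊆ W) (hB : IsConn (B : Set P2)) {ω : Cfg}
    (hl : Lip ω.1) (hL : Lay true W ω) {v w : P2} (hv : v ∈ B) (hw : w ∈ B) :
    lev true W ω v = lev true W ω w := by
  have tri : ∀ s ∈ W, ∀ x ∈ up s, ∀ y ∈ up s, lev true W ω x = lev true W ω y := by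
    intro s hs x hx y hy
    obtain ⟨i, rfl⟩ := mem_up_iff.1 hx
    obtain ⟨j, rfl⟩ := mem_up_iff.1 hy
    exact lev_tri hW hl hL hs i j
  have key : ∀ s, ReflTransGen (StepIn (B : Set P2)) v s →
      ∀ y ∈ up s, lev true W ω v = lev true W ω y := by
    intro s hs
    induction hs with
    | refl => exact fun y hy => tri v (hBW hv) v (base_mem_up v) y hy
    | @tail b d _ hbd ih =>
      intro y hy
      obtain ⟨_, x, hx1, hx2⟩ := adj_iff_share.1 hbd.2.2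
      rw [ih x hx1]
      exact tri d (hBW (Finset.mem_coe.1 hbd.2.1)) x hx2 y hy
  exact key w (hB v hv w hw) w (base_mem_up w)

open Classical in
/-- indicator of a height event -/
def iA (A : Set Hz) (h : Hz) : ℝ := if h ∈ A then 1 else 0

theorem iA_nonneg (A : Set Hz) (h : Hz) : 0 ≤ iA A h := by unfold iA; split_ifs <;> norm_num
theorem iA_le_one (A : Set Hz) (h : Hz) : iA A h ≤ 1 := by unfold iA; split_ifs <;> norm_num

theorem iA_congr {A : Set Hz} {g h : Hz} (e : (g ∈ A) = (h ∈ A)) : iA A g = iA A h := by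
  unfold iA
  by_cases hg : g ∈ A
  · rw [if_pos hg, if_pos (e ▸ hg)]
  · rw [if_neg hg, if_neg (e ▸ hg)]

theorem seen_ind {K0 T : Finset P2} (hT : T ⊆ K0) (hB : K0.Nonempty) (hBc : IsConn (K0 : Set P2))
    {A : Set Hz} (hA : LocZ (T : Set P2) (fun h => h ∈ A)) (hN : NeutZ (fun h => h ∈ A)) :
    Seen K0 fun ω => iA A ω.1 := by
  intro W hW hBW ω ω' hl hL _
  obtain ⟨b, hb⟩ := hB
  refine iA_congr ?_
  have h1 : ((glue true W ω ω').1 ∈ A) = ((fun v => ω'.1 v + lev true W ω b) ∈ A) := by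
    refine hA _ _ fun v hv => ?_
    have hvK : v ∈ K0 := hT (Finset.mem_coe.1 hv)
    rw [glue_in (mem_VF.2 ⟨v, hBW hvK, base_mem_up v⟩), lev_const' hW hBW hBc hl hL hvK hb]
    exact add_comm _ _
  rw [h1]
  exact hN ω'.1 _

/-! ### one volume -/

/-- the exponent -/
def Nx (R : ℕ) : ℕ := (2 * (3 * R + 1) + 1) ^ 2

theorem expo_le (R s : ℕ) (hs : 2 ≤ s) :
    (2 * ((R * s + (s / 2) / 2) / (2 * ((s / 2) / 2) + 1)) + 1) ^ 2 ≤ Nx R := by
  unfold Nx
  set q := (s / 2) / 2 with hq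
  have h1 : s ≤ 3 * (2 * q + 1) := by omega
  have h2 : (R * s + q) / (2 * q + 1) ≤ 3 * R + 1 := by
    rw [Nat.div_le_iff_le_mul_add_pred (by omega)]
    have h3 : R * s ≤ R * (3 * (2 * q + 1)) := Nat.mul_le_mul_left R h1
    have h4 : R * (3 * (2 * q + 1)) = (2 * q + 1) * (3 * R) := by ring
    have h5 : (2 * q + 1) * (3 * R + 1) = (2 * q + 1) * (3 * R) + (2 * q + 1) := by ring
    omega
  exact Nat.pow_le_pow_left (by omega) 2

/-- **One volume.** -/
theorem bound {x : ℝ} (hx0 : 0 < x) (hx1 : x ≤ 1) {K : ℕ} {p : ℝ} (hR : RSW ((x ^ 2)⁻¹) K p)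
    {F Λ K0 T : Finset P2} {R s : ℕ} (hs : 2 ≤ s) (hΛ : SC Λ) (hΛR : Λ ⊆ ball 0 (R * s))
    (hK0 : K0.Nonempty) (hKc : IsConn (K0 : Set P2)) (hnb : nb K0 (30 * s) ⊆ Λ) (hF : SC F)
    (hΛF : Λ ⊆ F) {τ : Hz} (hτ : Lip τ) (hT : T ⊆ K0) {A : Set Hz}
    (hA : LocZ (T : Set P2) (fun h => h ∈ A)) (hN : NeutZ (fun h => h ∈ A)) :
    p ^ Nx R * ex x Λ τ (fun h => iA A h * Cu867.one (Cu867.H4 K0 s) h *
      Cu867.one (Cu867.H4 K0 (6 * s)) h) ≤ E ((x ^ 2)⁻¹) F (fun ω => iA A ω.1) := by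
  set c := (x ^ 2)⁻¹ with hcdef
  have hc : 1 ≤ c := Pst967.one_le_c hx0 hx1
  have hcx : c * x ^ 2 = 1 := by rw [hcdef]; field_simp
  have hp0 := hR.p0
  have hp1 := hR.p1
  set F₁ := ID Λ with hF₁
  have hF₁s : SC F₁ := sc_ID hΛ
  have hF₁F : F₁ ⊆ F := (ID_sub Λ).trans hΛF
  set f : Cfg → ℝ := fun ω => iA A ω.1 with hf
  have hseen : Seen K0 f := seen_ind hT hK0 hKc hA hN
  have hsub : ∀ r, r + 1 ≤ 30 * s → nb K0 r ⊆ F₁ := fun r hr => nb_sub_ID ((nb_mono_r hr).trans hnb)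
  have h3 := hsub (3 * s) (by omega)
  have h6 := hsub (6 * s - 1) (by omega)
  have h18 := hsub (18 * s + 1) (by omega)
  -- the comparison
  have cmp := dom_cmp (c := c) hc (Λ := Λ) (ξ := τ) hτ (F := F) (D' := fl F₁ (nb K0 (18 * s + 1)))
    (D := fl F₁ (nb K0 (6 * s - 1))) (K := fl F₁ (nb K0 (3 * s))) (B0 := K0)
    (sc_fl hF₁s h18) ((VF_mono (fl_sub F₁ _)).trans (VF_ID Λ)) (sc_fl hF₁s h6)
    ((fl_sub F₁ _).trans hF₁F) (sc_fl hF₁s h3) (fl_mono (nb_mono_r (by omega)))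
    ((sub_nb K0 _).trans (sub_fl h3)) hK0 hKc (f := f) (g := fun _ => 1)
    (fun ω => iA_nonneg A _) hseen (fun _ => zero_le_one) (fun _ _ _ _ => rfl)
  rw [E0_const hc hτ, mul_one] at cmp
  -- the probability of the middle layer
  have hlow : p ^ Nx R ≤ E c F (LvI (fl F₁ (nb K0 (3 * s))) (fl F₁ (nb K0 (6 * s - 1)))) := by
    have hm : 1 ≤ s / 2 := by omega
    have h1 := rsw_layer_nb hc hR hF hm (a := 0) (R := R * s) (K0 := K0) (r := 3 * s + 1)
      (((nb_mono_r (by omega)).trans hnb).trans hΛR)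
    refine (pow_le_pow_of_le_one hp0.le (by linarith) (expo_le R s hs)).trans (h1.trans ?_)
    refine E_mono hc fun ω _ => ?_
    by_cases hω : ω ∈ LayE (nb K0 (3 * s + 1)) (nb K0 (3 * s + 1 + 3 * (s / 2)))
    · rw [LvI_of (nb_mono_r (by omega)) (fun t ht u hu => adj_nb le_rfl ht hu)
        (nb_mono_r (by omega)) (nb_mono_r (by omega)) (fun t ht u hu => adj_nb (by omega) ht hu) h6 hω]
      exact Rsw867.ind_le_one _ _
    · rw [Rsw867.ind_of_not_mem hω]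
      exact LvI_nonneg _ _ _
  -- the height event forces the layers
  have hup : ex x Λ τ (fun h => iA A h * Cu867.one (Cu867.H4 K0 s) h *
      Cu867.one (Cu867.H4 K0 (6 * s)) h) ≤
      E0 c Λ τ (fun ω => LvI (fl F₁ (nb K0 (6 * s - 1))) (fl F₁ (nb K0 (18 * s + 1))) ω *
        (1 * (Rsw867.ind (In (fl F₁ (nb K0 (3 * s))) K0) ω * f ω))) := by
    rw [← E0_height hcx Λ τ]
    refine E0_mono hc fun ω hω hw => ?_
    have hl : Lip ω.1 := (mem_cf.1 hω).1.1
    have hO := opC_of_wt (mem_cf.1 hω).2 hw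
    have hnn : 0 ≤ LvI (fl F₁ (nb K0 (6 * s - 1))) (fl F₁ (nb K0 (18 * s + 1))) ω *
        (1 * (Rsw867.ind (In (fl F₁ (nb K0 (3 * s))) K0) ω * f ω)) :=
      mul_nonneg (LvI_nonneg _ _ _) (mul_nonneg zero_le_one
        (mul_nonneg (Rsw867.ind_nonneg _ _) (iA_nonneg _ _)))
    by_cases g1 : ω.1 ∈ Cu867.H4 K0 s
    · by_cases g2 : ω.1 ∈ Cu867.H4 K0 (6 * s)
      · have g1' := g1
        have g2' := g2
        rw [← Lyf792.hh_eq] at g1' g2'
        obtain ⟨a1, a2, -, -⟩ := g1'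
        obtain ⟨b1, b2, -, -⟩ := g2'
        have l1 : ω ∈ LayE (nb K0 s) (nb K0 (3 * s)) :=
          lay_lemma hl hO (nb_mono_r (by omega)) (nb_mono_r (by omega)) a1 a2
        have l2 : ω ∈ LayE (nb K0 (6 * s)) (nb K0 (3 * (6 * s))) :=
          lay_lemma hl hO (nb_mono_r (by omega)) (nb_mono_r (by omega)) b1 b2
        have e1 : LvI (fl F₁ (nb K0 (6 * s - 1))) (fl F₁ (nb K0 (18 * s + 1))) ω = 1 :=
          LvI_of (nb_mono_r (by omega)) (fun t ht u hu => adj_nb (by omega) ht hu)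
            (nb_mono_r (by omega)) (nb_mono_r (by omega)) (fun t ht u hu => adj_nb (by omega) ht hu)
            h18 l2
        have e2 : ω ∈ In (fl F₁ (nb K0 (3 * s))) K0 :=
          In_of (sub_nb K0 _) (fun t ht u hu => nb_mono_r (by omega)
            (adj_nb (r := 0) (r' := 1) le_rfl (sub_nb K0 0 ht) hu)) h3 l1
        rw [e1, Rsw867.ind_of_mem e2, Cu867.one_of_mem g1, Cu867.one_of_mem g2]
        simp [hf]
      · rw [Cu867.one_of_not_mem g2, mul_zero]; exact hnn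
    · rw [Cu867.one_of_not_mem g1, mul_zero, zero_mul]; exact hnn
  have hE0 : 0 ≤ E0 c Λ τ (fun ω => LvI (fl F₁ (nb K0 (6 * s - 1))) (fl F₁ (nb K0 (18 * s + 1))) ω *
        (1 * (Rsw867.ind (In (fl F₁ (nb K0 (3 * s))) K0) ω * f ω))) :=
    E0_nonneg hc fun ω _ => mul_nonneg (LvI_nonneg _ _ _) (mul_nonneg zero_le_one
        (mul_nonneg (Rsw867.ind_nonneg _ _) (iA_nonneg _ _)))
  calc p ^ Nx R * ex x Λ τ (fun h => iA A h * Cu867.one (Cu867.H4 K0 s) h *
      Cu867.one (Cu867.H4 K0 (6 * s)) h)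
      ≤ p ^ Nx R * E0 c Λ τ (fun ω => LvI (fl F₁ (nb K0 (6 * s - 1))) (fl F₁ (nb K0 (18 * s + 1))) ω *
        (1 * (Rsw867.ind (In (fl F₁ (nb K0 (3 * s))) K0) ω * f ω))) :=
        mul_le_mul_of_nonneg_left hup (by positivity)
    _ ≤ E c F (LvI (fl F₁ (nb K0 (3 * s))) (fl F₁ (nb K0 (6 * s - 1)))) *
        E0 c Λ τ (fun ω => LvI (fl F₁ (nb K0 (6 * s - 1))) (fl F₁ (nb K0 (18 * s + 1))) ω *
        (1 * (Rsw867.ind (In (fl F₁ (nb K0 (3 * s))) K0) ω * f ω))) :=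
        mul_le_mul_of_nonneg_right hlow hE0
    _ ≤ E c F f := cmp

/-! ### contiguity -/

theorem iA_eq_ind (A : Set Hz) : Dom136.ind A = iA A := rfl

theorem integral_iA {P : Measure Hz} {T : Finset P2} {A : Set Hz}
    (hA : LocZ (T : Set P2) (fun h => h ∈ A)) : ∫ h, iA A h ∂P = P.real A := by
  have hm : MeasurableSet A := measurableSet_setOf.2 (Pst967.measurable_of_loc ⟨T, hA⟩)
  have e : iA A = A.indicator 1 := by
    funext h
    unfold iA
    by_cases hh : h ∈ A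
    · rw [if_pos hh, Set.indicator_of_mem hh]; rfl
    · rw [if_neg hh, Set.indicator_of_notMem hh]
  rw [e, integral_indicator_one hm]

theorem gobs_iA {T : Finset P2} {A : Set Hz} (hA : LocZ (T : Set P2) (fun h => h ∈ A))
    (hN : NeutZ (fun h => h ∈ A)) : GObs (iA A) :=
  ⟨⟨T, fun g h hgh => iA_congr (hA g h hgh)⟩, fun h k => iA_congr (hN h k)⟩

/-- **contiguity of the domain laws with respect to the plane law** -/
theorem domContig (x : ℝ) : Dom136.DomContig x := by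
  intro P κ hP D γ Q δ Λ τ hS _ _ K hK hKD η hη
  have hc := Pst967.one_le_c hP.x0 hP.x1
  obtain ⟨K1, p, hR⟩ := hP.rsw.rsw hc
  obtain ⟨R, s, hR1, hs, K0, hev⟩ := Shl830.shell hS hK hKD 30
  have hCU := Lyf792.cu0 hP.x0 hP.x1 hR
  obtain ⟨C1, s1, hC1, H1⟩ := hCU R (η / 2) (by positivity)
  have hC1' : 0 < C1 := by linarith
  obtain ⟨C2, s2, hC2, H2⟩ := hCU R (η / (2 * C1)) (by positivity)
  have hC2' : 0 < C2 := by linarith
  have hp0 := hR.p0
  have hpN : 0 < p ^ Nx R := by positivity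
  refine ⟨C1 * C2 / p ^ Nx R, by positivity, ?_⟩
  filter_upwards [hev, hs.eventually_ge_atTop (max 2 (max s1 s2))] with n hn hsn T A hT hA hN
  obtain ⟨n1, n2, n3, n4, n5, n6⟩ := hn
  have hs2 : 2 ≤ s n := le_trans (le_max_left _ _) hsn
  have hsa : s1 ≤ s n := le_trans (le_trans (le_max_left _ _) (le_max_right _ _)) hsn
  have hsb : s2 ≤ 6 * s n := le_trans (le_trans (le_max_right _ _) (le_max_right _ _)) (hsn.trans (by omega))
  have hTK : T ⊆ K0 n := fun v hv => n1 v (hT v hv)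
  -- shift the boundary values
  set τ' : Hz := fun v => τ n v + 1 with hτ'
  have hd : ∀ v, τ' v = 0 ∨ τ' v = 1 := fun v => by
    rcases hS.data n v with h | h
    · left; rw [hτ']; simp only [h]; norm_num
    · right; rw [hτ']; simp only [h]; norm_num
  have hL : Lip τ' := fun u v _ => by
    rw [abs_le]
    rcases hd u with h | h <;> rcases hd v with h' | h' <;> rw [h, h'] <;> norm_num
  have e0 : pr x (Λ n) (τ n) A = ex x (Λ n) τ' (iA A) := by
    rw [Dom136.pr_eq, iA_eq_ind, hτ', ex_add_const]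
    refine It844.ex_congr fun h _ => ?_
    exact (iA_congr (hN h 1)).symm
  rw [e0]
  have hnn : (K0 n).biUnion (fun v => ball v (30 * s n)) ⊆ Λ n := n4
  have hnb : nb (K0 n) (30 * s n) ⊆ Λ n := n4
  -- two applications of `CU0`
  have hG : Cu867.Off (Cu867.sh (K0 n) (s n) (5 * s n)) (iA A) := by
    intro g h hgh
    refine iA_congr (hA g h fun v hv => hgh v fun h1 => (Cu867.mem_sh.1 h1).2 ?_)
    exact sub_nb (K0 n) _ (hTK (Finset.mem_coe.1 hv))
  have i1 := H1 (s n) hsa 0 (Λ n) (K0 n) n2 n5 ((nb_mono_r (by omega)).trans hnb) τ' hL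
    (fun v _ => by rcases hd v with h | h <;> omega) (fun v _ => by rcases hd v with h | h <;> omega)
    (iA A) (iA_nonneg A) (iA_le_one A) hG
  have hG2 : Cu867.Off (Cu867.sh (K0 n) (6 * s n) (5 * (6 * s n)))
      (fun h => iA A h * Cu867.one (Cu867.H4 (K0 n) (s n)) h) := by
    refine Cu867.Off.mul ?_ (off_one (by omega) _)
    intro g h hgh
    refine iA_congr (hA g h fun v hv => hgh v fun h1 => (Cu867.mem_sh.1 h1).2 ?_)
    exact sub_nb (K0 n) _ (hTK (Finset.mem_coe.1 hv))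
  have i2 := H2 (6 * s n) hsb 0 (Λ n) (K0 n) n2 (n5.trans (ball_mono 0 (Nat.mul_le_mul_left R (by omega))))
    (by rw [← mul_assoc]; exact hnb) τ' hL
    (fun v _ => by rcases hd v with h | h <;> omega) (fun v _ => by rcases hd v with h | h <;> omega)
    (fun h => iA A h * Cu867.one (Cu867.H4 (K0 n) (s n)) h)
    (fun h => mul_nonneg (iA_nonneg A h) (Cu867.one_nonneg _ _))
    (fun h => mul_le_one₀ (iA_le_one A h) (Cu867.one_nonneg _ _) (Cu867.one_le_one _ _)) hG2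
  set X := ex x (Λ n) τ' (fun h => iA A h * Cu867.one (Cu867.H4 (K0 n) (s n)) h *
      Cu867.one (Cu867.H4 (K0 n) (6 * s n)) h) with hX
  -- comparison with the plane
  have hlim := hP.flim (iA A) (gobs_iA hA hN)
  rw [integral_iA hA] at hlim
  have hne := Pst967.cls_scs.neBot
  have i3 : p ^ Nx R * X ≤ P.real A := by
    refine ge_of_tendsto hlim ?_
    refine Pst967.mem_lC.2 ⟨Λ n, fun F hF hΛF => ?_⟩
    exact bound hP.x0 hP.x1 hR hs2 n6 n5 n2 n3 hnb hF hΛF hL hTK hA hN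
  have i4 : X ≤ P.real A / p ^ Nx R := by
    rw [le_div_iff₀ hpN, mul_comm]
    exact i3
  have i5 : ex x (Λ n) τ' (iA A) ≤ η / 2 + C1 * (η / (2 * C1) + C2 * (P.real A / p ^ Nx R)) := by
    refine i1.trans ?_
    have h7 : ex x (Λ n) τ' (fun h => iA A h * Cu867.one (Cu867.H4 (K0 n) (s n)) h) ≤
        η / (2 * C1) + C2 * (P.real A / p ^ Nx R) :=
      i2.trans (by have := mul_le_mul_of_nonneg_left i4 hC2'.le; linarith)
    have := mul_le_mul_of_nonneg_left h7 hC1'.le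
    linarith
  refine i5.trans (le_of_eq ?_)
  field_simp
  ring

end Crest.Agent.R144.Ctg830
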