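import Mathlib
import Crest.Agent.R144.Upp3_296

-- ▼ part R144/Upp4_296
section

/-!
R144 / S0197, approach P, assembly of the upper bound, part 4 (helper296): real-valued form of the
flatness theorem and of the almost-invariance of block means.
-/

set_option autoImplicit false
set_option linter.unusedSectionVars false
set_option linter.unusedVariables false

open MeasureTheory Finset
open scoped ENNReal

namespace Crest.Agent.R144.Upp296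

open Crest.Agent.R144.Flat296

variable {Ω : Type*} [MeasurableSpace Ω] {μ : Measure Ω}

lemma Bd.tc {f : Fld Ω} (hf : Bd f) (Λ : ℝ) : Bd (Flat296.tc Λ f) :=
  (Bd.const (-Λ)).max (hf.min (Bd.const Λ))

lemma Bd.sub' {f g : Fld Ω} (hf : Bd f) (hg : Bd g) : Bd (f - g) := hf.sub hg

lemma abs_sub_tc_le {Λ : ℝ} (hΛ : 0 ≤ Λ) (f : Fld Ω) (a : P2) (ω : Ω) :
    |f a ω - tc Λ f a ω| ≤ max 0 (|f a ω| - Λ) := by
  show |f a ω - max (-Λ) (min (f a ω) Λ)| ≤ _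
  rcases le_total (f a ω) Λ with h | h
  · rw [min_eq_left h]
    rcases le_total (-Λ) (f a ω) with h' | h'
    · rw [max_eq_right h']; simp
    · rw [max_eq_left h', abs_of_nonpos (by linarith), abs_of_nonpos (by linarith : f a ω ≤ 0)]
      refine le_max_of_le_right (by linarith)
  · rw [min_eq_right h, max_eq_right (by linarith), abs_of_nonneg (by linarith),
      abs_of_nonneg (by linarith : 0 ≤ f a ω)]
    exact le_max_right _ _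

lemma ofReal_two_mul_nat {κ : ℝ} (hκ : 0 ≤ κ) (n : ℕ) :
    (2 : ℝ≥0∞) * (ENNReal.ofReal κ * (n : ℝ≥0∞)) = ENNReal.ofReal (2 * (κ * n)) := by
  have h2 : (2 : ℝ≥0∞) = ENNReal.ofReal 2 := by norm_num
  have hn : (n : ℝ≥0∞) = ENNReal.ofReal (n : ℝ) := (ENNReal.ofReal_natCast n).symm
  rw [h2, hn, ← ENNReal.ofReal_mul hκ, ← ENNReal.ofReal_mul (by norm_num)]

lemma ofReal_collect {a1 a2 a3 a4 a5 a6 : ℝ} (h1 : 0 ≤ a1) (h2 : 0 ≤ a2) (h3 : 0 ≤ a3)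
    (h4 : 0 ≤ a4) (h5 : 0 ≤ a5) (h6 : 0 ≤ a6) (n : ℕ) :
    2 * (ENNReal.ofReal a1 + (n : ℝ≥0∞) * (ENNReal.ofReal a2 + ENNReal.ofReal a3 +
      ENNReal.ofReal a4 + ENNReal.ofReal a5) + (n : ℝ≥0∞) * ENNReal.ofReal a6) =
    ENNReal.ofReal (2 * (a1 + n * (a2 + a3 + a4 + a5) + n * a6)) := by
  have h2' : (2 : ℝ≥0∞) = ENNReal.ofReal 2 := by norm_num
  have hn : (n : ℝ≥0∞) = ENNReal.ofReal (n : ℝ) := (ENNReal.ofReal_natCast n).symm
  rw [h2', hn, ← ENNReal.ofReal_add h2 h3, ← ENNReal.ofReal_add (by positivity) h4,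
    ← ENNReal.ofReal_add (by positivity) h5, ← ENNReal.ofReal_mul (by positivity),
    ← ENNReal.ofReal_mul (by positivity), ← ENNReal.ofReal_add h1 (by positivity),
    ← ENNReal.ofReal_add (by positivity) (by positivity), ← ENNReal.ofReal_mul (by norm_num)]

section

variable [IsProbabilityMeasure μ]

lemma N_rst_dd {u : Fld Ω} (hu : Bd u) (K : Finset P2) (z : P2) :
    N μ (fun _ => 1) (rst K (dd z u)) = ENNReal.ofReal (Ex μ K fun a ω => |dd z u a ω|) :=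
  N_rst_eq (hu.dd z)

lemma N_rst_tc_le {u : Fld Ω} (hu : Bd u) (K : Finset P2) (z : P2) {Λ : ℝ} (hΛ : 0 ≤ Λ) :
    N μ (fun _ => 1) (rst K (dd z u) - tc Λ (rst K (dd z u))) ≤
      ENNReal.ofReal (Ex μ K fun a ω => max 0 (|dd z u a ω| - Λ)) := by
  have e : rst K (dd z u) - tc Λ (rst K (dd z u)) = rst K (rst K (dd z u) - tc Λ (rst K (dd z u))) := by
    ext a ω
    by_cases ha : a ∈ K
    · rw [rst_mem ha (rst K (dd z u) - tc Λ (rst K (dd z u)))]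
    · rw [rst_notMem ha]
      have h1 : rst K (dd z u) a = 0 := rst_notMem ha _
      have h2 : tc Λ (rst K (dd z u)) a = 0 := tc_eq_zero hΛ h1
      show rst K (dd z u) a ω - tc Λ (rst K (dd z u)) a ω = 0
      rw [h1, h2]; simp
  have hb : Bd (rst K (dd z u) - tc Λ (rst K (dd z u))) := ((hu.dd z).rst K).sub' (((hu.dd z).rst K).tc Λ)
  rw [e, N_rst_eq hb]
  refine ENNReal.ofReal_le_ofReal (Ex_mono hb.abs ((Bd.const 0).max ((hu.dd z).abs.sub (Bd.const _)))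
    fun a ha ω => ?_)
  have h1 : rst K (dd z u) a = dd z u a := rst_mem ha _
  have h2 := abs_sub_tc_le hΛ (rst K (dd z u)) a ω
  rw [h1] at h2
  have h3 : (rst K (dd z u) - tc Λ (rst K (dd z u))) a ω = dd z u a ω - tc Λ (rst K (dd z u)) a ω := by
    show rst K (dd z u) a ω - _ = _
    rw [h1]
  rw [h3]
  exact h2

/-- real-valued form of Step F -/
theorem flat_real {u : Fld Ω} (hu : Bd u) {K K' K'' : Finset P2} {L J : ℕ}
    {ρ m l r : ℕ → ℕ} (hρ0 : 0 < ρ 0) (hl : ∀ j, 0 < l j) (hlm : ∀ j, l j ≤ m j)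
    (hρm : ∀ j, ρ (j + 1) = ρ j * m j) (hJ : 0 < J) (hr : ∀ j, 0 < r j)
    (hL : ∀ j < J, r j + ρ j ≤ L)
    (hK : ∀ a ∈ K, ∀ p : ℕ × ℕ, p.1 < L → p.2 < L → a + pt p ∈ K')
    (hK'' : ∀ a ∈ K', ∀ j < J, ∀ p ∈ Flat296.sq (ρ (j + 1)), a - pt p ∈ K'')
    {κ Λ S T δ W : ℝ} (hκ : 0 < κ) (hΛ : 0 ≤ Λ)
    (hS : δ ^ 2 * ∑ i : Fin 2, Ex μ K' (fun x ω => |dd (![(1, 0), (0, 1)] i) u x ω|) ≤ S)
    (hT : δ ^ 2 * ∑ i : Fin 2, Ex μ K' (fun x ω => max 0 (|dd (![(1, 0), (0, 1)] i) u x ω| - Λ)) ≤ T)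
    (hW : δ ^ 2 * K''.card ≤ W) :
    ∃ j < J, ∀ p ∈ Flat296.sq (r j),
      δ ^ 2 * Ex μ K (fun a ω => |cdev (r j) u (bm (ρ (j + 1)) (rst K' (dd (1, 0) u)))
        (bm (ρ (j + 1)) (rst K' (dd (0, 1) u))) p a ω|) ≤
      2 * (ρ j * S + r j * (2 * (κ * W) + κ⁻¹ * (((m j : ℝ) * m j) / ((l j : ℝ) * l j) *
        (Λ * S / J)) + 4 * (l j : ℝ) / m j * S + 2 * T) + r j * (4 * (r j : ℝ) / ρ (j + 1) * S)) := by
  obtain ⟨j, hj, hp⟩ := flat (μ := μ) hu.mb hρ0 hl hlm hρm hJ hr hL hK hK'' hκ hΛ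
  refine ⟨j, hj, fun p hpr => ?_⟩
  have h0 := hp p hpr
  have hm : ∀ j, 0 < m j := fun j => lt_of_lt_of_le (hl j) (hlm j)
  have hρ : ∀ j, 0 < ρ j := by
    intro j
    induction j with
    | zero => exact hρ0
    | succ j ih => rw [hρm j]; exact Nat.mul_pos ih (hm j)
  set s1 := Ex μ K' (fun x ω => |dd (1, 0) u x ω|) with hs1
  set s2 := Ex μ K' (fun x ω => |dd (0, 1) u x ω|) with hs2
  set t1 := Ex μ K' (fun x ω => max 0 (|dd (1, 0) u x ω| - Λ)) with ht1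
  set t2 := Ex μ K' (fun x ω => max 0 (|dd (0, 1) u x ω| - Λ)) with ht2
  have hs1n : 0 ≤ s1 := Ex_nonneg fun a _ ω => abs_nonneg _
  have hs2n : 0 ≤ s2 := Ex_nonneg fun a _ ω => abs_nonneg _
  have ht1n : 0 ≤ t1 := Ex_nonneg fun a _ ω => le_max_left _ _
  have ht2n : 0 ≤ t2 := Ex_nonneg fun a _ ω => le_max_left _ _
  have hS' : δ ^ 2 * (s1 + s2) ≤ S := by
    simpa [Fin.sum_univ_two] using hS
  have hT' : δ ^ 2 * (t1 + t2) ≤ T := by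
    simpa [Fin.sum_univ_two] using hT
  set s := s1 + s2 with hs
  set t := t1 + t2 with ht
  have hsn : 0 ≤ s := add_nonneg hs1n hs2n
  have htn : 0 ≤ t := add_nonneg ht1n ht2n
  have hN : N μ (fun _ => 1) (rst K' (dd (1, 0) u)) + N μ (fun _ => 1) (rst K' (dd (0, 1) u)) =
      ENNReal.ofReal s := by
    rw [N_rst_dd hu, N_rst_dd hu, ← ENNReal.ofReal_add hs1n hs2n]
  have hNt : N μ (fun _ => 1) (rst K' (dd (1, 0) u) - tc Λ (rst K' (dd (1, 0) u))) +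
      N μ (fun _ => 1) (rst K' (dd (0, 1) u) - tc Λ (rst K' (dd (0, 1) u))) ≤ ENNReal.ofReal t := by
    rw [ht, ENNReal.ofReal_add ht1n ht2n]
    exact add_le_add (N_rst_tc_le hu K' _ hΛ) (N_rst_tc_le hu K' _ hΛ)
  set X : ℝ := 2 * (ρ j * s + r j * (2 * (κ * K''.card) + κ⁻¹ * (((m j : ℝ) * m j) / ((l j : ℝ) * l j) *
        (Λ * s / J)) + 4 * (l j : ℝ) / m j * s + 2 * t) + r j * (4 * (r j : ℝ) / ρ (j + 1) * s)) with hX
  have hXn : 0 ≤ X := by positivity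
  have hle : N μ (fun _ => 1) (rst K (cdev (r j) u (bm (ρ (j + 1)) (rst K' (dd (1, 0) u)))
        (bm (ρ (j + 1)) (rst K' (dd (0, 1) u))) p)) ≤ ENNReal.ofReal X := by
    refine h0.trans ?_
    rw [hN]
    have hmE : ∀ k : ℕ, ((k : ℕ) : ℝ≥0∞) = ENNReal.ofReal (k : ℝ) := fun k =>
      (ENNReal.ofReal_natCast k).symm
    have hl0 : (0 : ℝ) < (l j : ℝ) := by exact_mod_cast hl j
    have hm0 : (0 : ℝ) < (m j : ℝ) := by exact_mod_cast hm j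
    have hJ0 : (0 : ℝ) < (J : ℝ) := by exact_mod_cast hJ
    have hρ'0 : (0 : ℝ) < (ρ (j + 1) : ℝ) := by exact_mod_cast hρ (j + 1)
    have c1 : (ρ j : ℝ≥0∞) * ENNReal.ofReal s = ENNReal.ofReal (ρ j * s) := by
      rw [hmE, ← ENNReal.ofReal_mul (by positivity)]
    have c2 : (2 : ℝ≥0∞) * (ENNReal.ofReal κ * (K''.card : ℝ≥0∞)) =
        ENNReal.ofReal (2 * (κ * K''.card)) := ofReal_two_mul_nat hκ.le _
    have c3 : ENNReal.ofReal κ⁻¹ * (((m j * m j : ℕ) : ℝ≥0∞) / ((l j * l j : ℕ) : ℝ≥0∞) *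
        (ENNReal.ofReal Λ * ENNReal.ofReal s / J)) =
        ENNReal.ofReal (κ⁻¹ * (((m j : ℝ) * m j) / ((l j : ℝ) * l j) * (Λ * s / J))) := by
      rw [hmE, hmE, hmE, ← ENNReal.ofReal_mul hΛ, ← ENNReal.ofReal_div_of_pos hJ0,
        ← ENNReal.ofReal_div_of_pos (by push_cast; positivity), ← ENNReal.ofReal_mul (by positivity),
        ← ENNReal.ofReal_mul (by positivity)]
      push_cast
      rfl
    have c4 : 4 * (l j : ℝ≥0∞) / (m j : ℝ≥0∞) * ENNReal.ofReal s =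
        ENNReal.ofReal (4 * (l j : ℝ) / m j * s) := by
      rw [hmE, hmE, show (4 : ℝ≥0∞) = ENNReal.ofReal 4 by norm_num, ← ENNReal.ofReal_mul (by norm_num),
        ← ENNReal.ofReal_div_of_pos hm0, ← ENNReal.ofReal_mul (by positivity)]
    have c5 : 4 * (r j : ℝ≥0∞) / (ρ (j + 1) : ℝ≥0∞) * ENNReal.ofReal s =
        ENNReal.ofReal (4 * (r j : ℝ) / ρ (j + 1) * s) := by
      rw [hmE, hmE, show (4 : ℝ≥0∞) = ENNReal.ofReal 4 by norm_num, ← ENNReal.ofReal_mul (by norm_num),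
        ← ENNReal.ofReal_div_of_pos hρ'0, ← ENNReal.ofReal_mul (by positivity)]
    rw [c1, c2, c3, c4, c5]
    have c6 : (2 : ℝ≥0∞) * (N μ (fun _ => 1) (rst K' (dd (1, 0) u) - tc Λ (rst K' (dd (1, 0) u))) +
      N μ (fun _ => 1) (rst K' (dd (0, 1) u) - tc Λ (rst K' (dd (0, 1) u)))) ≤ ENNReal.ofReal (2 * t) := by
      rw [ENNReal.ofReal_mul (by norm_num)]
      norm_num
      exact mul_le_mul' le_rfl hNt
    calc _ ≤ 2 * (ENNReal.ofReal (ρ j * s) + (r j : ℝ≥0∞) * (ENNReal.ofReal (2 * (κ * K''.card)) +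
          ENNReal.ofReal (κ⁻¹ * (((m j : ℝ) * m j) / ((l j : ℝ) * l j) * (Λ * s / J))) +
          ENNReal.ofReal (4 * (l j : ℝ) / m j * s) + ENNReal.ofReal (2 * t)) +
          (r j : ℝ≥0∞) * ENNReal.ofReal (4 * (r j : ℝ) / ρ (j + 1) * s)) := by
          gcongr
      _ = ENNReal.ofReal X := by
          exact ofReal_collect (by positivity) (by positivity) (by positivity) (by positivity)
            (by positivity) (by positivity) _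
  have hcd : Bd (cdev (r j) u (bm (ρ (j + 1)) (rst K' (dd (1, 0) u)))
        (bm (ρ (j + 1)) (rst K' (dd (0, 1) u))) p) := by
    have e : cdev (r j) u (bm (ρ (j + 1)) (rst K' (dd (1, 0) u)))
        (bm (ρ (j + 1)) (rst K' (dd (0, 1) u))) p = fun a ω => (tr (pt p) u a ω - bm (r j) u a ω) -
        (((p.1 : ℝ) - ((r j : ℝ) - 1) / 2) * bm (ρ (j + 1)) (rst K' (dd (1, 0) u)) a ω +
        ((p.2 : ℝ) - ((r j : ℝ) - 1) / 2) * bm (ρ (j + 1)) (rst K' (dd (0, 1) u)) a ω) := by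
      ext a ω; rfl
    rw [e]
    exact ((hu.tr _).sub (hu.bm _)).sub ((((hu.dd _).rst _).bm _).cmul _ |>.add
      ((((hu.dd _).rst _).bm _).cmul _))
  have h1 := Ex_abs_le_of_N hXn hcd hle
  have hδ : 0 ≤ δ ^ 2 := sq_nonneg _
  refine (mul_le_mul_of_nonneg_left h1 hδ).trans ?_
  have e : δ ^ 2 * X = 2 * (ρ j * (δ ^ 2 * s) + r j * (2 * (κ * (δ ^ 2 * K''.card)) +
      κ⁻¹ * (((m j : ℝ) * m j) / ((l j : ℝ) * l j) * (Λ * (δ ^ 2 * s) / J)) +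
      4 * (l j : ℝ) / m j * (δ ^ 2 * s) + 2 * (δ ^ 2 * t)) +
      r j * (4 * (r j : ℝ) / ρ (j + 1) * (δ ^ 2 * s))) := by
    rw [hX]; ring
  rw [e]
  gcongr

/-- real-valued form of the almost invariance of block means under shifts -/
lemma shift_real {v : Fld Ω} (hv : Bd v) {K' : Finset P2} (hv0 : ∀ a ∉ K', v a = 0) (K0 : Finset P2)
    {R : ℕ} (hR : 0 < R) (p : ℕ × ℕ) :
    Ex μ K0 (fun a ω => |bm R v (a + pt p) ω - bm R v a ω|) ≤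
      (p.1 + p.2 : ℝ) * (2 * Ex μ K' (fun x ω => |v x ω|) / R) := by
  have hn : 0 ≤ Ex μ K' (fun x ω => |v x ω|) := Ex_nonneg fun a _ ω => abs_nonneg _
  have hR0 : (0 : ℝ) < R := by exact_mod_cast hR
  have hb : Bd (tr (pt p) (bm R v) - bm R v) := ((hv.bm R).tr _).sub' (hv.bm R)
  have hNv : N μ (fun _ => 1) v = ENNReal.ofReal (Ex μ K' (fun x ω => |v x ω|)) := by
    rw [← N_rst_eq hv]
    congr 1
    ext a ω
    by_cases ha : a ∈ K'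
    · rw [rst_mem ha]
    · rw [rst_notMem ha, hv0 a ha]
  refine Ex_abs_le_of_N (by positivity) hb ((N_rst_le K0 _).trans ?_)
  refine (N_shift_bm hv.mb hR p.1 p.2).trans (le_of_eq ?_)
  rw [hNv]
  have e1 : ((p.1 + p.2 : ℕ) : ℝ≥0∞) = ENNReal.ofReal (p.1 + p.2 : ℝ) := by
    rw [← ENNReal.ofReal_natCast]; push_cast; rfl
  rw [e1, ENNReal.ofReal_mul (by positivity), ENNReal.ofReal_div_of_pos hR0, ENNReal.ofReal_natCast,
    ENNReal.ofReal_mul (by norm_num)]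
  norm_num

end

end Crest.Agent.R144.Upp296
end

-- ▼ part R144/Upp5_296

/-!
R144 / S0197, approach P, assembly of the upper bound, part 5 (helper296): the limit theorem.
-/

set_option autoImplicit false
set_option linter.unusedSectionVars false
set_option linter.unusedVariables false

open MeasureTheory Finset Filter
open scoped ENNReal

namespace Crest.Agent.R144.Upp296

open Crest.Agent.R144.Flat296

/-- the two index directions -/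
abbrev dir (i : Fin 2) : P2 := ![(1, 0), (0, 1)] i

/-- the isotropic form in index coordinates (angle of 60 degrees between the axes) -/
noncomputable def iso (y : Fin 2 → ℝ) : ℝ := 4 / 3 * (y 0 ^ 2 + y 1 ^ 2 - y 0 * y 1)

/-- its dual form -/
noncomputable def isos (j : Fin 2 → ℝ) : ℝ := j 0 ^ 2 + j 1 ^ 2 + j 0 * j 1

lemma isos_nonneg (j : Fin 2 → ℝ) : 0 ≤ isos j := by
  unfold isos
  nlinarith [sq_nonneg (j 0 + j 1), sq_nonneg (j 0), sq_nonneg (j 1)]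

lemma dual_iso {c : ℝ} (hc : 0 < c) (j y : Fin 2 → ℝ) :
    2 * ∑ i, j i * y i - c * iso y ≤ c⁻¹ * isos j := by
  unfold iso isos
  rw [Fin.sum_univ_two]
  have hc' : c ≠ 0 := hc.ne'
  rw [← sub_nonneg]
  have e : c⁻¹ * (j 0 ^ 2 + j 1 ^ 2 + j 0 * j 1) - (2 * (j 0 * y 0 + j 1 * y 1) -
      c * (4 / 3 * (y 0 ^ 2 + y 1 ^ 2 - y 0 * y 1))) =
      c⁻¹ * ((j 0 + j 1 / 2 - c * y 0) ^ 2 + 3 * (j 1 / 2 + c * y 0 / 3 - 2 * c * y 1 / 3) ^ 2) := by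
    field_simp
    ring
  rw [e]
  positivity

lemma isos_le {C : ℝ} {j : Fin 2 → ℝ} (hj : ∀ i, |j i| ≤ C) : isos j ≤ 3 * C ^ 2 := by
  have hC : 0 ≤ C := (abs_nonneg _).trans (hj 0)
  unfold isos
  have h0 : j 0 ^ 2 ≤ C ^ 2 := by rw [← sq_abs]; exact pow_le_pow_left₀ (abs_nonneg _) (hj 0) 2
  have h1 : j 1 ^ 2 ≤ C ^ 2 := by rw [← sq_abs]; exact pow_le_pow_left₀ (abs_nonneg _) (hj 1) 2
  nlinarith [sq_nonneg (j 0 - j 1)]

/-- the slopes used at scale `R` with window index `k` -/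
noncomputable def Gk {Ω : Type*} [MeasurableSpace Ω] (u : Fld Ω) (K' : Finset P2) (R : ℕ)
    (i : Fin 2) : Fld Ω := bm R (rst K' (dd (dir i) u))

variable {Ω : ℕ → Type*} [∀ n, MeasurableSpace (Ω n)]

/-- hypotheses on the domains, the fields and the flow -/
structure UpHyp (μ : ∀ n, Measure (Ω n)) (δ : ℕ → ℝ) (u : ∀ n, Fld (Ω n)) (V e : ℕ → ℝ)
    (Kx : ℕ → Finset P2) (Kc : ℕ → ℕ → Finset P2) (j : ℕ → Fin 2 → P2 → ℝ) : Prop where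
  prob : ∀ n, IsProbabilityMeasure (μ n)
  bd : ∀ n, Bd (u n)
  marg : ∀ k L : ℕ, ∀ᶠ n in atTop, ∀ a ∈ Kc k n, ∀ z : P2, |z.1| ≤ L → |z.2| ≤ L →
    a + z ∈ Kc (k + 1) n
  sub : ∀ k, ∀ᶠ n in atTop, Kc k n ⊆ Kx n
  area : ∃ Ca : ℝ, ∀ k, ∀ᶠ n in atTop, δ n ^ 2 * (Kc k n).card ≤ Ca
  grad : ∃ S : ℝ, ∀ᶠ n in atTop,
    δ n ^ 2 * ∑ i, Ex (μ n) (Kx n) (fun x ω => |dd (dir i) (u n) x ω|) ≤ S
  ui : ∀ ε : ℝ, 0 < ε → ∃ Λ0 : ℝ, ∀ᶠ n in atTop,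
    δ n ^ 2 * ∑ i, Ex (μ n) (Kx n) (fun x ω => max 0 (|dd (dir i) (u n) x ω| - Λ0)) ≤ ε
  layer : ∀ ε : ℝ, 0 < ε → ∃ k, ∀ᶠ n in atTop,
    δ n ^ 2 * ∑ i, Ex (μ n) (Kx n \ Kc k n) (fun x ω => |dd (dir i) (u n) x ω|) ≤ ε
  var : ∀ ε : ℝ, 0 < ε → ∀ᶠ n in atTop,
    V n ≤ 2 * (δ n ^ 2 * ∑ i, Ex (μ n) (Kx n) (fun x ω => j n i x * dd (dir i) (u n) x ω)) - e n + ε
  jb : ∃ Cj : ℝ, ∀ n i x, |j n i x| ≤ Cj
  jc : ∀ R : ℕ, ∀ ε : ℝ, 0 < ε → ∀ᶠ n in atTop, ∀ i x, ∀ p ∈ Flat296.sq R,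
    |j n i x - j n i (x - pt p)| ≤ ε

/-- the two statements of the fibre assembly at stage `n` -/
def FasAt (μ : ∀ n, Measure (Ω n)) (δ : ℕ → ℝ) (u : ∀ n, Fld (Ω n)) (e : ℕ → ℝ)
    (Kc : ℕ → ℕ → Finset P2) (B : ∀ n, Fin 2 → Fin 2 → Fld (Ω n)) (θ Λ ε1 C ε2 : ℝ) (r R k n : ℕ) :
    Prop :=
  ∃ ξ : Fin 2 → Fld (Ω n), (∀ i, Bd (ξ i)) ∧
    δ n ^ 2 * ∑ i, Ex (μ n) (Kc k n) (fun a ω => |clp (4 * Λ) (Gk (u n) (Kc (k + 1) n) R i a ω) -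
      ξ i a ω|) ≤ ε2 ∧
    ∀ fl : ℝ, (∀ p ∈ Flat296.sq r, δ n ^ 2 * Ex (μ n) (Kc k n) (fun a ω =>
      |cdev r (u n) (Gk (u n) (Kc (k + 1) n) R 0) (Gk (u n) (Kc (k + 1) n) R 1) p a ω|) ≤ fl) →
      δ n ^ 2 * Ex (μ n) (Kc k n) (fun a ω => qf (fun i j => B n i j a ω)
        (psi Λ fun i => ξ i a ω)) ≤ (1 + θ) * e n + ε1 + C * (fl / r + ε2)

/-- hypotheses on the block matrices: law of large numbers and fibre assembly -/
structure BlkHyp (μ : ∀ n, Measure (Ω n)) (δ : ℕ → ℝ) (u : ∀ n, Fld (Ω n)) (e : ℕ → ℝ)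
    (Kc : ℕ → ℕ → Finset P2) (O : Type) (r0 : ℕ)
    (B : ℕ → O → ∀ n, Fin 2 → Fin 2 → Fld (Ω n)) (A : ℕ → O → Fin 2 → Fin 2 → ℝ) (Lr : ℕ → ℝ) :
    Prop where
  bd : ∀ r, r0 ≤ r → ∀ o n i j, Bd (B r o n i j)
  le : ∀ r, r0 ≤ r → ∀ o n i j a ω, |B r o n i j a ω| ≤ Lr r
  psd : ∀ r, r0 ≤ r → ∀ o n a ω x, 0 ≤ qf (fun i j => B r o n i j a ω) x
  lln : ∀ r, r0 ≤ r → ∀ o k, ∀ ε : ℝ, 0 < ε → ∃ R0 : ℕ, ∀ R, R0 ≤ R → ∀ᶠ n in atTop,
    δ n ^ 2 * ∑ i, ∑ j, Ex (μ n) (Kc k n) (fun a ω => |bm R (B r o n i j) a ω - A r o i j|) ≤ ε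
  fas : ∀ θ Λ ε1 : ℝ, 0 < θ → 1 ≤ Λ → 0 < ε1 → ∃ C : ℝ, 0 ≤ C ∧ ∃ r1 : ℕ, ∀ r, r1 ≤ r → r0 ≤ r →
    ∀ o k, ∀ ε2 : ℝ, 0 < ε2 → ∃ R1 : ℕ, ∀ R, R1 ≤ R → ∀ᶠ n in atTop,
      FasAt μ δ u e Kc (B r o) θ Λ ε1 C ε2 r R k n

lemma Ex_antitone_excess {Ω : Type*} [MeasurableSpace Ω] {μ : Measure Ω} [IsFiniteMeasure μ]
    {K : Finset P2} {f : Fld Ω} (hf : Bd f) {c c' : ℝ} (h : c ≤ c') :
    Ex μ K (fun x ω => max 0 (|f x ω| - c')) ≤ Ex μ K (fun x ω => max 0 (|f x ω| - c)) := by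
  refine Ex_mono ((Bd.const 0).max (hf.abs.sub (Bd.const _)))
    ((Bd.const 0).max (hf.abs.sub (Bd.const _))) fun a _ ω => ?_
  exact max_le_max le_rfl (by linarith)

lemma bd_Gk {Ω : Type*} [MeasurableSpace Ω] {u : Fld Ω} (hu : Bd u) (K' : Finset P2) (R : ℕ)
    (i : Fin 2) : Bd (Gk u K' R i) := ((hu.dd _).rst _).bm _

/-- one scale at stage `n`: from the fibre assembly and the law of large numbers to the energy lower
bound in terms of the averaged matrices -/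
lemma energy_at {Ω : Type*} [MeasurableSpace Ω] {μ : Measure Ω} [IsProbabilityMeasure μ] {O : Type}
    [Fintype O] [Nonempty O] {u : Fld Ω} (hu : Bd u) {K0 K K' : Finset P2} {δ e θ Λ ε1 C ε2 ε3 : ℝ}
    {r R R' : ℕ} (hr : 0 < r) (hR : 0 < R) (hR' : 0 < R') (hΛ : 0 < Λ) (hC : 0 ≤ C) {Lr : ℝ}
    (hLr : 0 ≤ Lr)
    (hK : ∀ a ∈ K0, ∀ p ∈ Flat296.sq R', a + pt p ∈ K)
    {B : O → Fin 2 → Fin 2 → Fld Ω} {A : O → Fin 2 → Fin 2 → ℝ}
    (hB : ∀ o i j, Bd (B o i j)) (hB' : ∀ o i j a ω, |B o i j a ω| ≤ Lr)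
    (hB0 : ∀ o a ω x, 0 ≤ qf (fun i j => B o i j a ω) x)
    (hlln : ∀ o, δ ^ 2 * ∑ i, ∑ j, Ex μ K0 (fun a ω => |bm R' (B o i j) a ω - A o i j|) ≤ ε3)
    {fl : ℝ}
    (hfas : ∀ o, ∃ ξ : Fin 2 → Fld Ω, (∀ i, Bd (ξ i)) ∧
      δ ^ 2 * ∑ i, Ex μ K (fun a ω => |clp (4 * Λ) (Gk u K' R i a ω) - ξ i a ω|) ≤ ε2 ∧
      δ ^ 2 * Ex μ K (fun a ω => qf (fun i j => B o i j a ω) (psi Λ fun i => ξ i a ω)) ≤
        (1 + θ) * e + ε1 + C * (fl / r + ε2)) {S : ℝ}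
    (hS : δ ^ 2 * ∑ i : Fin 2, Ex μ K' (fun x ω => |dd (dir i) u x ω|) ≤ S) :
    δ ^ 2 * Ex μ K0 (fun a ω => qf (fun i j => (Fintype.card O : ℝ)⁻¹ * ∑ o, A o i j)
      (psi Λ fun i => Gk u K' R i a ω)) ≤
      (1 + θ) * e + (ε1 + C * (fl / r + ε2) + 48 * Lr * Λ * ε2 +
        48 * Lr * Λ * (4 * R' * S / R) + (2 * Λ) ^ 2 * ε3) := by
  set X : ℝ := (1 + θ) * e + (ε1 + C * (fl / r + ε2) + 48 * Lr * Λ * ε2 +
        48 * Lr * Λ * (4 * R' * S / R) + (2 * Λ) ^ 2 * ε3) with hX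
  have hδ : 0 ≤ δ ^ 2 := sq_nonneg _
  have hG : ∀ i, Bd (Gk u K' R i) := fun i => bd_Gk hu K' R i
  have hR0 : (0 : ℝ) < R := by exact_mod_cast hR
  -- the shift bound
  have hsh : ∀ p ∈ Flat296.sq R', Ex μ K0 (fun a ω => |Gk u K' R 0 (a + pt p) ω - Gk u K' R 0 a ω|) +
      Ex μ K0 (fun a ω => |Gk u K' R 1 (a + pt p) ω - Gk u K' R 1 a ω|) ≤
      4 * R' * (∑ i : Fin 2, Ex μ K' (fun x ω => |dd (dir i) u x ω|)) / R := by
    intro p hp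
    rw [mem_sq] at hp
    have hv : ∀ i : Fin 2, Ex μ K0 (fun a ω => |Gk u K' R i (a + pt p) ω - Gk u K' R i a ω|) ≤
        (2 * R' : ℝ) * (2 * Ex μ K' (fun x ω => |dd (dir i) u x ω|) / R) := by
      intro i
      have h1 := shift_real (μ := μ) (v := rst K' (dd (dir i) u)) ((hu.dd _).rst _)
        (K' := K') (fun a ha => rst_notMem ha _) K0 hR p
      have h2 : Ex μ K' (fun x ω => |rst K' (dd (dir i) u) x ω|) =
          Ex μ K' (fun x ω => |dd (dir i) u x ω|) :=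
        Ex_congr fun a ha ω => by rw [rst_mem ha]
      rw [h2] at h1
      refine h1.trans ?_
      have h3 : 0 ≤ Ex μ K' (fun x ω => |dd (dir i) u x ω|) := Ex_nonneg fun a _ ω => abs_nonneg _
      refine mul_le_mul_of_nonneg_right ?_ (by positivity)
      have g1 : (p.1 : ℝ) ≤ R' := by exact_mod_cast hp.1.le
      have g2 : (p.2 : ℝ) ≤ R' := by exact_mod_cast hp.2.le
      linarith
    refine (add_le_add (hv 0) (hv 1)).trans (le_of_eq ?_)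
    rw [Fin.sum_univ_two]
    ring
  -- one orientation
  have hone : ∀ o, δ ^ 2 * Ex μ K0 (fun a ω => qf (A o) (psi Λ fun i => Gk u K' R i a ω)) ≤ X := by
    intro o
    obtain ⟨ξ, hξ, hξ1, hξ2⟩ := hfas o
    have ht : Ex μ K (fun a ω => |clp (4 * Λ) (Gk u K' R 0 a ω) - ξ 0 a ω|) +
      Ex μ K (fun a ω => |clp (4 * Λ) (Gk u K' R 1 a ω) - ξ 1 a ω|) ≤
      ∑ i : Fin 2, Ex μ K (fun a ω => |clp (4 * Λ) (Gk u K' R i a ω) - ξ i a ω|) := by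
      rw [Fin.sum_univ_two]
    have h1 := energy_lln (μ := μ) hR' hK (hB o) hLr (hB' o) (hB0 o) hG hξ (A o) hΛ hsh ht
    have h2 := mul_le_mul_of_nonneg_left h1 hδ
    have h3 := hlln o
    have h4 : 48 * Lr * Λ * (δ ^ 2 * ∑ i : Fin 2, Ex μ K (fun a ω =>
        |clp (4 * Λ) (Gk u K' R i a ω) - ξ i a ω|)) ≤ 48 * Lr * Λ * ε2 :=
      mul_le_mul_of_nonneg_left hξ1 (by positivity)
    have h5 : 48 * Lr * Λ * (4 * R' * (δ ^ 2 * ∑ i : Fin 2, Ex μ K' (fun x ω =>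
        |dd (dir i) u x ω|)) / R) ≤ 48 * Lr * Λ * (4 * R' * S / R) := by
      refine mul_le_mul_of_nonneg_left ?_ (by positivity)
      gcongr
    have h6 : (2 * Λ) ^ 2 * (δ ^ 2 * ∑ i, ∑ j, Ex μ K0 (fun a ω =>
        |bm R' (B o i j) a ω - A o i j|)) ≤ (2 * Λ) ^ 2 * ε3 :=
      mul_le_mul_of_nonneg_left h3 (by positivity)
    rw [hX]
    calc _ ≤ δ ^ 2 * (Ex μ K (fun a ω => qf (fun i j => B o i j a ω) (psi Λ fun i => ξ i a ω)) +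
          48 * Lr * Λ * (∑ i : Fin 2, Ex μ K (fun a ω => |clp (4 * Λ) (Gk u K' R i a ω) - ξ i a ω|)) +
          48 * Lr * Λ * (4 * R' * (∑ i : Fin 2, Ex μ K' (fun x ω => |dd (dir i) u x ω|)) / R) +
          (2 * Λ) ^ 2 * ∑ i, ∑ j, Ex μ K0 (fun a ω => |bm R' (B o i j) a ω - A o i j|)) := h2
      _ = δ ^ 2 * Ex μ K (fun a ω => qf (fun i j => B o i j a ω) (psi Λ fun i => ξ i a ω)) +
          48 * Lr * Λ * (δ ^ 2 * ∑ i : Fin 2, Ex μ K (fun a ω =>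
            |clp (4 * Λ) (Gk u K' R i a ω) - ξ i a ω|)) +
          48 * Lr * Λ * (4 * R' * (δ ^ 2 * ∑ i : Fin 2, Ex μ K' (fun x ω =>
            |dd (dir i) u x ω|)) / R) +
          (2 * Λ) ^ 2 * (δ ^ 2 * ∑ i, ∑ j, Ex μ K0 (fun a ω =>
            |bm R' (B o i j) a ω - A o i j|)) := by ring
      _ ≤ _ := by linarith
  -- average over the orientations
  have hc0 : (0 : ℝ) < Fintype.card O := by exact_mod_cast Fintype.card_pos
  have hqB : ∀ o, Bd (fun a ω => qf (A o) (psi Λ fun i => Gk u K' R i a ω)) := fun o =>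
    bd_qf (fun i j => Bd.const _) (bd_psi hG Λ)
  have e1 : ∀ y : Fin 2 → ℝ, qf (fun i j => (Fintype.card O : ℝ)⁻¹ * ∑ o, A o i j) y =
      (Fintype.card O : ℝ)⁻¹ * ∑ o, qf (A o) y := by
    intro y
    simp only [qf_eq]
    rw [Finset.sum_add_distrib, Finset.sum_add_distrib, Finset.sum_add_distrib]
    simp_rw [← Finset.sum_mul]
    ring
  simp_rw [e1]
  rw [Ex_cmul, Ex_sum _ _ fun o _ => hqB o]
  calc δ ^ 2 * ((Fintype.card O : ℝ)⁻¹ * ∑ o, Ex μ K0 (fun a ω => qf (A o) (psi Λ fun i =>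
        Gk u K' R i a ω)))
      = (Fintype.card O : ℝ)⁻¹ * ∑ o, δ ^ 2 * Ex μ K0 (fun a ω => qf (A o) (psi Λ fun i =>
        Gk u K' R i a ω)) := by rw [← Finset.mul_sum]; ring
    _ ≤ (Fintype.card O : ℝ)⁻¹ * ∑ _o : O, X := by
        refine mul_le_mul_of_nonneg_left (Finset.sum_le_sum fun o _ => hone o) (by positivity)
    _ = X := by
        rw [Finset.sum_const, Finset.card_univ, nsmul_eq_mul, ← mul_assoc,
          inv_mul_cancel₀ hc0.ne', one_mul]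

end Crest.Agent.R144.Upp296
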