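import Crest.Agent.R144.Fa1_812
import Crest.Agent.R144.Upp5_296
import Crest.Agent.R144.StB4_348
import Crest.Agent.R144.BQ6_565

-- ▼ part R144/Fa2_812
section

/-!
# R144 (S0197), helper812: fibre assembly FA, part 2: the statement (b) of (FAS)

The block values `ξ = E[clp c G | outside the block]` and
`δ² Σ_i Ex K |clp c (G_i) − ξ_i| ≤ ε` for `R ≥ R1(N, Ca, Ce, ε)`: block Poincaré inequality
(helper674, helper812) and the gradient bound of part 1.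
-/

set_option autoImplicit false
set_option linter.unusedSectionVars false

open MeasureTheory Set Filter Topology
open scoped ENNReal NNReal

namespace Crest.Agent.R144.Fa812

open Crest.Agent.R144.Ham560 Crest.Agent.R144.Flat296 Crest.Agent.R144.Upp296
open Crest.Agent.R144.Fib674 Crest.Agent.R144.StB348

noncomputable section

variable {F : Finset P2} {E : Finset (P2 × P2)} {ξ : P2 → ℝ}

theorem abs_Eb_le {I : Finset P2} {W g : (F → ℝ) → ℝ} (hW0 : ∀ y, 0 ≤ W y) {C : ℝ} (hC : 0 ≤ C)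
    (hg : ∀ y, |g y| ≤ C) (y : F → ℝ) : |Eb F I W g y| ≤ C := by
  unfold Eb Ebz
  by_cases iW : Integrable fun x : ↥I → ℝ => W (glue F I (outr F I y) x)
  · have h0 : 0 ≤ ∫ x : ↥I → ℝ, W (glue F I (outr F I y) x) := integral_nonneg fun _ => hW0 _
    rw [abs_div, abs_of_nonneg h0]
    refine div_le_of_le_mul₀ h0 hC ?_
    rw [← integral_const_mul]
    refine abs_integral_le_integral_abs.trans ?_
    refine integral_mono_of_nonneg (ae_of_all _ fun _ => abs_nonneg _) (iW.const_mul C)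
      (ae_of_all _ fun x => ?_)
    beta_reduce
    rw [abs_mul, abs_of_nonneg (hW0 _)]
    exact mul_le_mul_of_nonneg_right (hg _) (hW0 _)
  · rw [integral_undef iW, div_zero, abs_zero]
    exact hC

theorem lip_clp (c : ℝ) : LipschitzWith 1 (clp c) := (LipschitzWith.id.min_const c).const_max (-c)

theorem diff_Gs (R : ℕ) (K' : Finset P2) (e : P2) {Y : (F → ℝ) → (F → ℝ)} {h : F → ℝ}
    (hY : DifferentiableAt ℝ Y h) (a : P2) : DifferentiableAt ℝ (Gs R K' e Y a) h := by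
  have e1 : Gs R K' e Y a = fun h => ((R * R : ℕ) : ℝ)⁻¹ * ∑ p ∈ Flat296.sq R,
      (if a + pt p ∈ K' then uf Y (a + pt p + e) h - uf Y (a + pt p) h else 0) :=
    funext fun h => Gs_apply R K' e Y a h
  rw [e1]
  refine DifferentiableAt.const_mul (DifferentiableAt.fun_sum fun p _ => ?_) _
  by_cases hp : a + pt p ∈ K'
  · simp only [hp, if_true]
    exact (hasFDerivAt_uf hY _).1.sub (hasFDerivAt_uf hY _).1
  · simp only [hp, if_false]
    exact differentiableAt_const _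

/-- the block values of a field: conditional expectations given the outside of the blocks -/
def xiB (E : Finset (P2 × P2)) (ξ : P2 → ℝ) (S : Finset (ℕ × ℕ)) (K : Finset P2)
    (g : Fld (F → ℝ)) : Fld (F → ℝ) := fun a ω =>
  if a ∈ K then Eb F (blk S a) (wl F E ξ 0) (g a) ω else 0

theorem measurable_wl0 : Measurable (wl F E ξ 0) := measurable_wl measurable_const

theorem abs_xiB_le {S : Finset (ℕ × ℕ)} {K : Finset P2} {g : Fld (F → ℝ)} {C : ℝ} (hC : 0 ≤ C)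
    (hg : ∀ a ω, |g a ω| ≤ C) (a : P2) (ω : F → ℝ) : |xiB E ξ S K g a ω| ≤ C := by
  unfold xiB
  split_ifs
  · exact abs_Eb_le (wl_nonneg 0) hC (hg a) ω
  · rwa [abs_zero]

theorem bd_xiB {S : Finset (ℕ × ℕ)} {K : Finset P2} {g : Fld (F → ℝ)} (hg : Bd g) :
    Bd (xiB E ξ S K g) := by
  obtain ⟨C, hC⟩ := hg.bd
  refine ⟨fun a => ?_, max C 0, fun a ω =>
    abs_xiB_le (le_max_right _ _) (fun a ω => (hC a ω).trans (le_max_left _ _)) a ω⟩
  unfold xiB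
  by_cases ha : a ∈ K
  · simp only [ha, if_true]
    exact measurable_Eb measurable_wl0 (hg.mb a)
  · simp only [ha, if_false]
    exact measurable_const

theorem pd_comp_sq_le {T : ℝ → ℝ} (hT : LipschitzWith 1 T) {G : (F → ℝ) → ℝ} {y : F → ℝ}
    (hG : DifferentiableAt ℝ G y) (v : F) : pd v (fun y => T (G y)) y ^ 2 ≤ pd v G y ^ 2 := by
  by_cases hd : DifferentiableAt ℝ (fun y => T (G y)) y
  · have h := norm_fderiv_comp_le hT hG hd (Pi.single v 1)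
    rw [NNReal.coe_one, one_mul, Real.norm_eq_abs, Real.norm_eq_abs] at h
    exact sq_le_sq.mpr h
  · have : pd v (fun y => T (G y)) y = 0 := by
      rw [pd, fderiv_zero_of_not_differentiableAt hd]; rfl
    rw [this, zero_pow two_ne_zero]
    exact sq_nonneg _

theorem gI_comp_le {I : Finset P2} (hI : I ⊆ F) {T : ℝ → ℝ} (hT : LipschitzWith 1 T)
    {G : (F → ℝ) → ℝ} {y : F → ℝ} (hG : DifferentiableAt ℝ G y) :
    gI hI (fun y => T (G y)) y ≤ gI hI G y :=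
  Finset.sum_le_sum fun _ _ => pd_comp_sq_le hT hG _

theorem abs_pd_lip {G : (F → ℝ) → ℝ} {c : ℝ≥0} (hG : LipschitzWith c G) (v : F) (y : F → ℝ) :
    |pd v G y| ≤ c := by
  have h1 : ‖fderiv ℝ G y (Pi.single v 1)‖ ≤ ‖fderiv ℝ G y‖ * ‖(Pi.single v 1 : F → ℝ)‖ :=
    ContinuousLinearMap.le_opNorm _ _
  have h2 : ‖(Pi.single v 1 : F → ℝ)‖ ≤ 1 := by
    refine (pi_norm_le_iff_of_nonneg zero_le_one).2 fun u => ?_
    by_cases h : u = v
    · subst h; simp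
    · rw [Pi.single_eq_of_ne h]; simp
  have h3 := norm_fderiv_le_of_lipschitz ℝ (x₀ := y) hG
  rw [← Real.norm_eq_abs]
  calc _ ≤ _ := h1
    _ ≤ c * 1 := mul_le_mul h3 h2 (norm_nonneg _) c.2
    _ = c := mul_one _

theorem integrable_gI {μ : Measure (F → ℝ)} [IsFiniteMeasure μ] {I : Finset P2} (hI : I ⊆ F)
    {G : (F → ℝ) → ℝ} {c : ℝ≥0} (hG : LipschitzWith c G) : Integrable (gI hI G) μ := by
  refine Integrable.of_bound (measurable_gI hI G).aestronglyMeasurable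
    ((Fintype.card ↥I : ℝ) * c ^ 2) (ae_of_all _ fun y => ?_)
  rw [Real.norm_of_nonneg (gI_nonneg hI G y)]
  unfold gI
  calc ∑ v : ↥I, pd ⟨(v : P2), hI v.2⟩ G y ^ 2 ≤ ∑ _v : ↥I, (c : ℝ) ^ 2 := by
        refine Finset.sum_le_sum fun v _ => ?_
        rw [← sq_abs]
        exact pow_le_pow_left₀ (abs_nonneg _) (abs_pd_lip hG _ y) 2
    _ = (Fintype.card ↥I : ℝ) * c ^ 2 := by
        rw [Finset.sum_const, Finset.card_univ, nsmul_eq_mul]

theorem integrable_enY {μ : Measure (F → ℝ)} [IsFiniteMeasure μ] {Y : (F → ℝ) → (F → ℝ)} {c : ℝ≥0}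
    (hY : LipschitzWith c Y) : Integrable (MW121.en Y) μ := by
  refine Integrable.of_bound (MW121.measurable_en Y).aestronglyMeasurable
    ((Fintype.card F : ℝ) * ((Fintype.card F : ℝ) * c ^ 2)) (ae_of_all _ fun y => ?_)
  rw [Real.norm_of_nonneg (MW121.en_nonneg Y y)]
  unfold MW121.en
  calc ∑ u : F, ∑ v : F, MW121.jac Y y u v ^ 2 ≤ ∑ _u : F, ∑ _v : F, (c : ℝ) ^ 2 := by
        refine Finset.sum_le_sum fun u _ => Finset.sum_le_sum fun v _ => ?_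
        rw [← sq_abs]
        exact pow_le_pow_left₀ (abs_nonneg _) (MW121.abs_jac_le hY y u v) 2
    _ = _ := by
        rw [Finset.sum_const, Finset.card_univ, nsmul_eq_mul, Finset.sum_const, Finset.card_univ,
          nsmul_eq_mul]

/-- **Poincaré on all the blocks** -/
theorem sum_poincare (hA : Anch F E) (hξ : ∀ u, |ξ u| ≤ 1 / 2) {S : Finset (ℕ × ℕ)}
    {K K' : Finset P2} (hK : ∀ a ∈ K, blk S a ⊆ F) (hAK : ∀ a ∈ K, Anch (blk S a) E)
    {R : ℕ} (hR : 0 < R) (e : P2) {Y : (F → ℝ) → (F → ℝ)} {c : ℝ≥0} (hY : LipschitzWith c Y)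
    (hYd : Differentiable ℝ Y) (Λ : ℝ) :
    Ex (hamP F E ξ) K (fun a ω => (clp Λ (Gs R K' e Y a ω) -
      xiB E ξ S K (fun a ω => clp Λ (Gs R K' e Y a ω)) a ω) ^ 2) ≤
      8 * (S.card : ℝ) ^ 4 * ((R * R : ℕ) : ℝ)⁻¹ * ∫ y, MW121.en Y y ∂(hamP F E ξ) := by
  have hp : IsProbabilityMeasure (hamP F E ξ) := isProbabilityMeasure_hamP hA hξ
  have hLG : ∀ a, ∃ c' : ℝ≥0, LipschitzWith c' (Gs R K' e Y a) := fun a => lip_Gs R K' e hY a
  have h1 : ∀ a : {a // a ∈ K}, ∫ ω, (clp Λ (Gs R K' e Y a.1 ω) -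
      xiB E ξ S K (fun a ω => clp Λ (Gs R K' e Y a ω)) a.1 ω) ^ 2 ∂(hamP F E ξ) ≤
      2 * (S.card : ℝ) ^ 3 * ∫ ω, gI (hK a.1 a.2) (Gs R K' e Y a.1) ω ∂(hamP F E ξ) := by
    rintro ⟨a, ha⟩
    obtain ⟨c', hc'⟩ := hLG a
    have hcl : LipschitzWith (1 * c') fun y => clp Λ (Gs R K' e Y a y) := (lip_clp Λ).comp hc'
    have h2 := (block_poincare_hamP hA hξ (hK a ha) (hAK a ha) hcl.continuous.measurable
      (hcl.lipschitzOnWith (s := ham F E ξ))).2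
    simp only [xiB, ha, if_true]
    rw [card_blk] at h2
    refine h2.trans (mul_le_mul_of_nonneg_left ?_ (by positivity))
    refine integral_mono (integrable_gI (hK a ha) hcl) (integrable_gI (hK a ha) hc') fun ω => ?_
    exact gI_comp_le (hK a ha) (lip_clp Λ) (diff_Gs R K' e (hYd ω) a)
  have h3 : ∀ a : {a // a ∈ K}, Integrable (gI (hK a.1 a.2) (Gs R K' e Y a.1)) (hamP F E ξ) := by
    rintro ⟨a, ha⟩
    obtain ⟨c', hc'⟩ := hLG a
    exact integrable_gI (hK a ha) hc'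
  have h4 : ∑ a ∈ K.attach, ∫ ω, gI (hK a.1 a.2) (Gs R K' e Y a.1) ω ∂(hamP F E ξ) ≤
      4 * S.card * ((R * R : ℕ) : ℝ)⁻¹ * ∫ y, MW121.en Y y ∂(hamP F E ξ) := by
    rw [← integral_finsetSum _ fun a _ => h3 a, ← integral_const_mul]
    refine integral_mono (integrable_finsetSum _ fun a _ => h3 a)
      ((integrable_enY hY).const_mul _) fun ω => ?_
    exact sum_gI_Gs_le hR hK e (hYd ω)
  unfold Ex
  rw [← Finset.sum_attach K]
  calc _ ≤ ∑ a ∈ K.attach, 2 * (S.card : ℝ) ^ 3 *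
        ∫ ω, gI (hK a.1 a.2) (Gs R K' e Y a.1) ω ∂(hamP F E ξ) :=
        Finset.sum_le_sum fun a _ => h1 a
    _ = 2 * (S.card : ℝ) ^ 3 * ∑ a ∈ K.attach,
        ∫ ω, gI (hK a.1 a.2) (Gs R K' e Y a.1) ω ∂(hamP F E ξ) := by rw [Finset.mul_sum]
    _ ≤ 2 * (S.card : ℝ) ^ 3 * (4 * S.card * ((R * R : ℕ) : ℝ)⁻¹ *
        ∫ y, MW121.en Y y ∂(hamP F E ξ)) := mul_le_mul_of_nonneg_left h4 (by positivity)
    _ = _ := by ring

theorem abs_le_amgm {κ : ℝ} (hκ : 0 < κ) (x : ℝ) : |x| ≤ κ + κ⁻¹ * x ^ 2 := by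
  have h1 : κ * |x| ≤ κ * (κ + κ⁻¹ * x ^ 2) := by
    rw [mul_add, ← mul_assoc, mul_inv_cancel₀ hκ.ne', one_mul, ← sq_abs x]
    nlinarith [sq_nonneg (|x| - κ), abs_nonneg x, sq_nonneg (|x|), sq_nonneg κ]
  exact le_of_mul_le_mul_left h1 hκ

theorem Ex_abs_le_amgm {Ω : Type*} [MeasurableSpace Ω] {μ : Measure Ω} [IsProbabilityMeasure μ]
    {K : Finset P2} {f : Fld Ω} (hf : Bd f) {κ : ℝ} (hκ : 0 < κ) :
    Ex μ K (fun a ω => |f a ω|) ≤ κ * K.card + κ⁻¹ * Ex μ K (fun a ω => f a ω ^ 2) := by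
  have hf2 : Bd fun a ω => f a ω ^ 2 := by
    have := hf.mul hf
    simpa only [pow_two] using this
  refine (Ex_mono hf.abs ((Bd.const κ).add (hf2.cmul κ⁻¹)) fun a _ ω => abs_le_amgm hκ _).trans
    (le_of_eq ?_)
  rw [Ex_add (Bd.const κ) (hf2.cmul κ⁻¹), Ex_cmul]
  congr 1
  unfold Ex
  simp only [integral_const, probReal_univ, one_smul, Finset.sum_const, nsmul_eq_mul]
  ring

/-- **(b) of (FAS)**, fixed stage -/
theorem fas_b (hA : Anch F E) (hξ : ∀ u, |ξ u| ≤ 1 / 2) {S : Finset (ℕ × ℕ)}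
    {K K' : Finset P2} (hK : ∀ a ∈ K, blk S a ⊆ F) (hAK : ∀ a ∈ K, Anch (blk S a) E)
    {R : ℕ} (hR : 0 < R) {Y : (F → ℝ) → (F → ℝ)} (hYb : Bd (uf Y)) {c : ℝ≥0}
    (hY : LipschitzWith c Y) (hYd : Differentiable ℝ Y) (Λ : ℝ) {κ : ℝ} (hκ : 0 < κ) :
    ∑ i, Ex (hamP F E ξ) K (fun a ω => |clp Λ (Gk (uf Y) K' R i a ω) -
      xiB E ξ S K (fun a ω => clp Λ (Gk (uf Y) K' R i a ω)) a ω|) ≤
      2 * (κ * K.card) + κ⁻¹ * (16 * (S.card : ℝ) ^ 4 * ((R * R : ℕ) : ℝ)⁻¹ *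
        ∫ y, MW121.en Y y ∂(hamP F E ξ)) := by
  have hp : IsProbabilityMeasure (hamP F E ξ) := isProbabilityMeasure_hamP hA hξ
  have h1 : ∀ i : Fin 2, Ex (hamP F E ξ) K (fun a ω => |clp Λ (Gk (uf Y) K' R i a ω) -
      xiB E ξ S K (fun a ω => clp Λ (Gk (uf Y) K' R i a ω)) a ω|) ≤
      κ * K.card + κ⁻¹ * (8 * (S.card : ℝ) ^ 4 * ((R * R : ℕ) : ℝ)⁻¹ *
        ∫ y, MW121.en Y y ∂(hamP F E ξ)) := by
    intro i
    have hG : Bd (fun a ω => clp Λ (Gk (uf Y) K' R i a ω)) := bd_clp (bd_Gk hYb K' R i) Λ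
    refine (Ex_abs_le_amgm (hG.sub (bd_xiB (E := E) (ξ := ξ) (S := S) (K := K) hG)) hκ).trans ?_
    have h2 := sum_poincare hA hξ hK hAK hR (K' := K') (dir i) hY hYd Λ
    have h3 := mul_le_mul_of_nonneg_left h2 (inv_pos.2 hκ).le
    exact add_le_add le_rfl h3
  rw [Fin.sum_univ_two]
  linarith [h1 0, h1 1]

/-- **(b) of (FAS)** with its quantifiers: `R1` depends only on `N = |S|`, `Ca`, `Ce`, `ε` -/
theorem exists_fas_b (N : ℕ) (Ca Ce : ℝ) {ε : ℝ} (hε : 0 < ε) : ∃ R1 : ℕ, ∀ R, R1 ≤ R → 0 < R ∧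
    ∀ (F : Finset P2) (E : Finset (P2 × P2)) (ξ : P2 → ℝ), Anch F E → (∀ u, |ξ u| ≤ 1 / 2) →
    ∀ (S : Finset (ℕ × ℕ)) (K K' : Finset P2), S.card = N → (∀ a ∈ K, blk S a ⊆ F) →
    (∀ a ∈ K, Anch (blk S a) E) → ∀ (Y : (F → ℝ) → (F → ℝ)) (c : ℝ≥0), Bd (uf Y) →
    LipschitzWith c Y → Differentiable ℝ Y → ∀ (δ Λ : ℝ), δ ^ 2 * K.card ≤ Ca →
    δ ^ 2 * ∫ y, MW121.en Y y ∂(hamP F E ξ) ≤ Ce →
    δ ^ 2 * ∑ i, Ex (hamP F E ξ) K (fun a ω => |clp Λ (Gk (uf Y) K' R i a ω) -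
      xiB E ξ S K (fun a ω => clp Λ (Gk (uf Y) K' R i a ω)) a ω|) ≤ ε := by
  have hCa : 0 < 4 * |Ca| + 1 := by positivity
  set κ : ℝ := ε / (4 * |Ca| + 1) with hκdef
  have hκ : 0 < κ := div_pos hε hCa
  set T : ℝ := κ⁻¹ * (16 * (N : ℝ) ^ 4 * |Ce|) with hT
  have hT0 : 0 ≤ T := by positivity
  obtain ⟨R1, hR1⟩ := exists_nat_gt (T / (ε / 2))
  refine ⟨R1 + 1, fun R hR => ⟨by omega, ?_⟩⟩
  have hR0 : 0 < R := by omega
  intro F E ξ hA hξ S K K' hS hK hAK Y c hYb hY hYd δ Λ hCa' hCe'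
  have h := fas_b hA hξ hK hAK hR0 hYb hY hYd Λ hκ (K' := K')
  have h' := mul_le_mul_of_nonneg_left h (sq_nonneg δ)
  refine h'.trans ?_
  have hRR : (1 : ℝ) ≤ R := by exact_mod_cast hR0
  have hRR' : T / (ε / 2) < R := hR1.trans (by exact_mod_cast (by omega : R1 < R))
  have h4 : T * ((R * R : ℕ) : ℝ)⁻¹ ≤ ε / 2 := by
    rw [div_lt_iff₀ (by positivity)] at hRR'
    rw [← div_eq_mul_inv, div_le_iff₀ (by positivity)]
    push_cast
    nlinarith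
  have h5 : 2 * κ * (δ ^ 2 * K.card) ≤ ε / 2 := by
    have : 2 * κ * (δ ^ 2 * K.card) ≤ 2 * κ * |Ca| :=
      mul_le_mul_of_nonneg_left (hCa'.trans (le_abs_self _)) (by positivity)
    refine this.trans ?_
    rw [hκdef, mul_div_assoc', div_mul_eq_mul_div, div_le_iff₀ hCa]
    nlinarith [abs_nonneg Ca]
  have h6 : κ⁻¹ * (16 * (N : ℝ) ^ 4 * ((R * R : ℕ) : ℝ)⁻¹ *
      (δ ^ 2 * ∫ y, MW121.en Y y ∂(hamP F E ξ))) ≤ T * ((R * R : ℕ) : ℝ)⁻¹ := by
    rw [hT]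
    have : κ⁻¹ * (16 * (N : ℝ) ^ 4 * ((R * R : ℕ) : ℝ)⁻¹ *
      (δ ^ 2 * ∫ y, MW121.en Y y ∂(hamP F E ξ))) ≤ κ⁻¹ * (16 * (N : ℝ) ^ 4 * ((R * R : ℕ) : ℝ)⁻¹ *
      |Ce|) := by
      refine mul_le_mul_of_nonneg_left ?_ (inv_pos.2 hκ).le
      exact mul_le_mul_of_nonneg_left (hCe'.trans (le_abs_self _)) (by positivity)
    refine this.trans (le_of_eq ?_)
    ring
  rw [hS]
  calc _ = 2 * κ * (δ ^ 2 * K.card) + κ⁻¹ * (16 * (N : ℝ) ^ 4 * ((R * R : ℕ) : ℝ)⁻¹ *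
      (δ ^ 2 * ∫ y, MW121.en Y y ∂(hamP F E ξ))) := by ring
    _ ≤ ε / 2 + ε / 2 := add_le_add h5 (h6.trans h4)
    _ = ε := by ring

end

end Crest.Agent.R144.Fa812
end

-- ▼ part R144/StB5_348
section

/-!
R144 (S0197), helper348.  STEP B for the class `V₀` of doc 1760 (T2), (T3): the competitor
`L + Υ`, `L = ∑ ξ_i Z_i`, `Υ_w = et_w (T (u_w - c) + ξ·ctr - ξ·Z_w)`, for a general family of cut
functions `et_w`; then `et_w = g χ(Z_w)`, `g` = cut-off of `max_w |Z_w - w|`.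

* `CutF`: cut functions; `adm_cmpU`: `Υ` is locally Lipschitz, rigid near the walls of the fibre and
  vanishes off the core;
* `ae_en_cmpU_le`: energy inequality for a general cut family;
* `gl`, `cutg`: the cut-off and the cut family `g χ(Z_w)`; `cutF_cutg`;
* `ae_en_cmpG_le`: the final pointwise inequality.
-/

set_option autoImplicit false
set_option linter.unusedSectionVars false

open MeasureTheory Set Filter Topology
open scoped ENNReal NNReal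

noncomputable section

namespace Crest.Agent.R144.StB348

open Crest.Agent.R144.Ham560
open Crest.Agent.R144.BQ565
open Crest.Agent.R144.StB565
open Crest.Agent.R144.MW121 (jac jac_apply en en_nonneg measurable_jac measurable_en)

section Gen

variable {U : Type*} [DecidableEq U] {I : Finset U} {E : Finset (U × U)} {ζ : U → ℝ}
  {κ : Type*} [Fintype κ]

/-- Rigidity near the walls of one fibre, inside `I`. -/
def Rig (I : Finset U) (E : Finset (U × U)) (ζ : U → ℝ) (Y : (I → ℝ) → (I → ℝ)) : Prop :=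
  ∃ ρ > 0, ∀ x ∈ ham I E ζ, ∀ a b : I, (a.1, b.1) ∈ E → 1 - ρ ≤ |x a - x b| → Y x a = Y x b

/-- A family of cut functions. -/
structure CutF (I : Finset U) (E : Finset (U × U)) (ζ : U → ℝ) (C : Finset U)
    (et : I → (I → ℝ) → ℝ) : Prop where
  lip : ∀ w, LocallyLipschitz (et w)
  mem : ∀ w x, et w x ∈ Icc (0 : ℝ) 1
  rig : Rig I E ζ (fun x w => et w x)
  core : ∀ x ∈ ham I E ζ, ∀ w : I, w.1 ∉ C → et w x = 0

/-- The perturbation. -/
def cmpU (et : I → (I → ℝ) → ℝ) (T : ℝ → ℝ) (xi ctr : κ → ℝ) (Z : κ → (I → ℝ) → (I → ℝ))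
    (u : (I → ℝ) → (I → ℝ)) : (I → ℝ) → (I → ℝ) := fun x w =>
  et w x * (T (u x w - mn u x) + ∑ i, xi i * ctr i - ∑ i, xi i * Z i x w)

variable {C : Finset U} {et : I → (I → ℝ) → ℝ} {T : ℝ → ℝ} {xi ctr : κ → ℝ}
  {Z : κ → (I → ℝ) → (I → ℝ)} {u : (I → ℝ) → (I → ℝ)} {LT : ℝ≥0}

theorem ll_cmpU (he : ∀ w, LocallyLipschitz (et w)) (hT : LipschitzWith LT T)
    (hZ : ∀ i, LocallyLipschitz (Z i)) (hu : LocallyLipschitz u) :
    LocallyLipschitz (cmpU et T xi ctr Z u) := by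
  refine LL.pi fun w => ?_
  exact LL.mul (he w) (((ll_trunc hT hu w).add (LocallyLipschitz.const _)).sub (ll_lin xi hZ w))

theorem cmpU_core (he : CutF I E ζ C et) {x : I → ℝ} (hx : x ∈ ham I E ζ) {w : I}
    (hw : w.1 ∉ C) : cmpU et T xi ctr Z u x w = 0 := by
  simp [cmpU, he.core x hx w hw]

theorem rig_cmpU (he : CutF I E ζ C et) (hZ : ∀ i, Rig I E ζ (Z i)) (hu : Rig I E ζ u) :
    Rig I E ζ (cmpU et T xi ctr Z u) := by
  obtain ⟨r1, hr1, h1⟩ := he.rig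
  obtain ⟨r2, hr2, h2⟩ := hu
  choose r hr h using hZ
  obtain ⟨r3, hr3, h3⟩ : ∃ r3 > 0, ∀ i, r3 ≤ r i := by
    rcases isEmpty_or_nonempty κ with hκ | hκ
    · exact ⟨1, one_pos, fun i => (IsEmpty.false i).elim⟩
    · exact ⟨Finset.univ.inf' Finset.univ_nonempty r,
        (Finset.lt_inf'_iff _).mpr fun i _ => hr i, fun i => Finset.inf'_le _ (Finset.mem_univ i)⟩
  refine ⟨min r1 (min r2 r3), lt_min hr1 (lt_min hr2 hr3), fun x hx a b hab hq => ?_⟩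
  have e1 : et a x = et b x := h1 x hx a b hab (by have := min_le_left r1 (min r2 r3); linarith)
  have e2 : u x a = u x b := h2 x hx a b hab (by
    have := min_le_right r1 (min r2 r3); have := min_le_left r2 r3; linarith)
  have e3 : ∀ i, Z i x a = Z i x b := fun i => h i x hx a b hab (by
    have := min_le_right r1 (min r2 r3); have := min_le_right r2 r3; have := h3 i; linarith)
  simp only [cmpU, e1, e2, e3]

theorem lin_add_cmpU (x : I → ℝ) (w : I) :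
    ((∑ i, xi i • Z i) + cmpU et T xi ctr Z u) x w =
      (1 - et w x) * (∑ i, xi i * Z i x w) + et w x * (T (u x w - mn u x) + ∑ i, xi i * ctr i) := by
  simp only [Pi.add_apply, Finset.sum_apply, Pi.smul_apply, smul_eq_mul, cmpU]
  ring

theorem ll_lab (hZ : ∀ i, LocallyLipschitz (Z i)) : LocallyLipschitz (∑ i, xi i • Z i) := by
  refine LL.pi fun w => ?_
  have := ll_lin xi hZ w
  simpa [Finset.sum_apply, Pi.smul_apply, smul_eq_mul] using this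

/-- **The pointwise energy inequality**, at every point of differentiability. -/
theorem en_cmpU_le {x : I → ℝ} (h01 : ∀ w, et w x ∈ Icc (0 : ℝ) 1) (hT : LipschitzWith 1 T)
    (dZ : ∀ i, DifferentiableAt ℝ (Z i) x) (du : DifferentiableAt ℝ u x)
    (dc : ∀ w, DifferentiableAt ℝ (et w) x)
    (dT : ∀ w : I, DifferentiableAt ℝ (fun x => T (u x w - mn u x)) x)
    (dX : DifferentiableAt ℝ ((∑ i, xi i • Z i) + cmpU et T xi ctr Z u) x) {th : ℝ} (hth : 0 < th) :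
    en ((∑ i, xi i • Z i) + cmpU et T xi ctr Z u) x ≤ (1 + th) * en u x + (1 + th⁻¹) * 2 *
      ((∑ i, xi i ^ 2) * ∑ w with et w x ≠ 1, gR Z w x +
        ∑ w, gs Finset.univ (dir I) (et w) x * zz T xi ctr Z u w x ^ 2) := by
  have duw : ∀ w : I, DifferentiableAt ℝ (fun y => u y w) x := fun w =>
    differentiableAt_pi.mp du w
  have dZw : ∀ (w : I) i, DifferentiableAt ℝ (fun y => Z i y w) x := fun w i =>
    differentiableAt_pi.mp (dZ i) w
  have hmn : (fun y => mn u y) = avg (Finset.univ : Finset I) (fun w y => u y w) := by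
    funext y; simp [mn, avg, Fintype.card]
  have dmn : DifferentiableAt ℝ (fun y => mn u y) x := by
    rw [hmn]; exact differentiableAt_avg fun w _ => duw w
  have dlin : ∀ w : I, DifferentiableAt ℝ (fun y => ∑ i, xi i * Z i y w) x := fun w =>
    DifferentiableAt.fun_sum fun i _ => (dZw w i).const_mul (xi i)
  have hc : 0 ≤ (1 + th⁻¹) * 2 := by have := inv_pos.mpr hth; positivity
  rw [en_eq_gs dX, en_eq_gs du]
  have hU : ∑ w : I, et w x ^ 2 * gs Finset.univ (dir I)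
      (fun y => T (u y w - mn u y) + ∑ i, xi i * ctr i) x ≤
      ∑ w : I, gs Finset.univ (dir I) (fun y => u y w) x := by
    have h1 : ∀ w : I, et w x ^ 2 * gs Finset.univ (dir I)
        (fun y => T (u y w - mn u y) + ∑ i, xi i * ctr i) x ≤
        gs Finset.univ (dir I) (fun y => u y w - mn u y) x := by
      intro w
      rw [gs_add_const]
      have h2 := gs_lip_le (D := Finset.univ) (e := dir I) hT ((duw w).sub dmn) (dT w)
      have h3 : et w x ^ 2 ≤ 1 := pow_le_one₀ (h01 w).1 (h01 w).2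
      calc _ ≤ 1 * gs Finset.univ (dir I) (fun y => T (u y w - mn u y)) x :=
            mul_le_mul_of_nonneg_right h3 (gs_nonneg _ _)
        _ ≤ _ := by rw [one_mul]; exact h2
    refine (Finset.sum_le_sum fun w _ => h1 w).trans ?_
    have h4 := gs_sub_mean_le (D := Finset.univ) (e := dir I) (q := (Finset.univ : Finset I))
      (u := fun w y => u y w) (h := x) fun w _ => duw w
    have h5 : ∀ y, avg (Finset.univ : Finset I) (fun w y => u y w) y = mn u y := fun y => by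
      rw [← hmn]
    simpa only [h5] using h4
  have hsum : ∀ w : I,
      gs Finset.univ (dir I) (fun y => ((∑ i, xi i • Z i) + cmpU et T xi ctr Z u) y w) x ≤
      (1 + th) * (et w x ^ 2 * gs Finset.univ (dir I)
        (fun y => T (u y w - mn u y) + ∑ i, xi i * ctr i) x) +
      (1 + th⁻¹) * 2 * ((∑ i, xi i ^ 2) * (if et w x ≠ 1 then gR Z w x else 0) +
        gs Finset.univ (dir I) (et w) x * zz T xi ctr Z u w x ^ 2) := by
    intro w
    have h0 : (fun y => ((∑ i, xi i • Z i) + cmpU et T xi ctr Z u) y w) =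
        fun y => (1 - et w y) * (∑ i, xi i * Z i y w) +
          et w y * (T (u y w - mn u y) + ∑ i, xi i * ctr i) := by
      funext y; exact lin_add_cmpU y w
    rw [h0]
    have h1 := gs_comb_le (D := Finset.univ) (e := dir I) (dc w) (dlin w)
      ((dT w).add_const (∑ i, xi i * ctr i)) hth
    rw [cmp_sub_lin] at h1
    refine h1.trans ?_
    refine add_le_add le_rfl (mul_le_mul_of_nonneg_left (add_le_add ?_ ?_) hc)
    · split_ifs with h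
      · have h2 : (1 - et w x) ^ 2 ≤ 1 := by
          have h3 : (0 : ℝ) ≤ 1 - et w x := sub_nonneg.mpr (h01 w).2
          have h4 : 1 - et w x ≤ 1 := by linarith [(h01 w).1]
          exact pow_le_one₀ h3 h4
        calc _ ≤ 1 * gs Finset.univ (dir I) (fun y => ∑ i, xi i * Z i y w) x :=
              mul_le_mul_of_nonneg_right h2 (gs_nonneg _ _)
          _ ≤ _ := by
              rw [one_mul, gR_eq dZ]
              exact gs_lin_le xi (dZw w)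
      · rw [not_not] at h
        rw [h]; simp
    · rw [mul_comm]
  refine (Finset.sum_le_sum fun w _ => hsum w).trans ?_
  rw [Finset.sum_add_distrib, ← Finset.mul_sum, ← Finset.mul_sum, Finset.sum_add_distrib,
    ← Finset.mul_sum, ← Finset.sum_filter]
  have h1 : 0 ≤ 1 + th := by linarith
  have := mul_le_mul_of_nonneg_left hU h1
  linarith

theorem ae_real {f : (I → ℝ) → ℝ} (hf : LocallyLipschitz f) : ∀ᵐ x, DifferentiableAt ℝ f x := by
  have h := ae_differentiableAt (ι := I) (Y := fun x _ => f x) (LL.pi fun _ => hf)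
  rcases isEmpty_or_nonempty I with hI | ⟨⟨w⟩⟩
  · filter_upwards with x
    have : f = fun _ => f x := by funext y; rw [Subsingleton.elim y x]
    rw [this]; exact differentiableAt_const _
  · filter_upwards [h] with x hx
    exact differentiableAt_pi.mp hx w


end Gen

section Cutoff

variable {U : Type*} [DecidableEq U] {I : Finset U} {E : Finset (U × U)} {ζ : U → ℝ}
  {κ : Type*} [Fintype κ]

/-- The scalar cut-off profile `φ(t) = max 0 (min 1 (2 - t / m))`. -/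
def ramp (m t : ℝ) : ℝ := max 0 (min 1 (2 - t / m))

theorem ramp_mem (m t : ℝ) : ramp m t ∈ Icc (0 : ℝ) 1 :=
  ⟨le_max_left _ _, max_le zero_le_one (min_le_left _ _)⟩

theorem lip_ramp {m : ℝ} (hm : 0 < m) :
    LipschitzWith ⟨m⁻¹, inv_nonneg.mpr hm.le⟩ (ramp m) := by
  have h1 : LipschitzWith ⟨m⁻¹, inv_nonneg.mpr hm.le⟩ (fun t : ℝ => 2 - t / m) := by
    refine LipschitzWith.of_dist_le_mul fun s t => ?_
    change dist (2 - s / m) (2 - t / m) ≤ m⁻¹ * dist s t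
    rw [Real.dist_eq, Real.dist_eq]
    have e : 2 - s / m - (2 - t / m) = m⁻¹ * (t - s) := by field_simp; ring
    rw [e, abs_mul, abs_of_pos (inv_pos.mpr hm), abs_sub_comm]
  exact (h1.const_min 1).const_max 0

theorem ramp_eq_one {m t : ℝ} (hm : 0 < m) (h : t ≤ m) : ramp m t = 1 := by
  have : t / m ≤ 1 := (div_le_one hm).mpr h
  rw [ramp, min_eq_left (by linarith)]; exact max_eq_right zero_le_one

theorem lt_of_ramp_pos {m t : ℝ} (hm : 0 < m) (h : 0 < ramp m t) : t < 2 * m := by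
  by_contra hn
  push Not at hn
  have h1 : 2 ≤ t / m := (le_div_iff₀ hm).mpr hn
  have h2 : ramp m t = 0 := max_eq_left ((min_le_right _ _).trans (by linarith))
  linarith


/-- The deviations of the positions. -/
def dev (crd : κ → U → ℝ) (Z : κ → (I → ℝ) → (I → ℝ)) (x : I → ℝ) : κ × I → ℝ :=
  fun p => Z p.1 x p.2 - crd p.1 p.2

/-- The cut-off: `1` if all deviations are `≤ m`, `0` if one is `≥ 2 m`. -/
def gl (crd : κ → U → ℝ) (m : ℝ) (Z : κ → (I → ℝ) → (I → ℝ)) (x : I → ℝ) : ℝ :=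
  ramp m ‖dev crd Z x‖

variable {crd : κ → U → ℝ} {m : ℝ} {Z : κ → (I → ℝ) → (I → ℝ)}

theorem gl_mem (x : I → ℝ) : gl crd m Z x ∈ Icc (0 : ℝ) 1 := ramp_mem _ _

theorem ll_dev (hZ : ∀ i, LocallyLipschitz (Z i)) : LocallyLipschitz (dev crd Z) :=
  LL.pi fun p => (LL.comp_apply (hZ p.1) p.2).sub (LocallyLipschitz.const _)

theorem lip_rampNorm {ι : Type*} [Fintype ι] (hm : 0 < m) :
    LipschitzWith ⟨m⁻¹, inv_nonneg.mpr hm.le⟩ (fun v : ι → ℝ => ramp m ‖v‖) := by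
  refine LipschitzWith.of_dist_le_mul fun v w => ?_
  have h1 := (lip_ramp hm).dist_le_mul ‖v‖ ‖w‖
  refine h1.trans (mul_le_mul_of_nonneg_left ?_ (inv_nonneg.mpr hm.le))
  rw [Real.dist_eq, dist_eq_norm]
  exact abs_norm_sub_norm_le v w

theorem ll_gl (hm : 0 < m) (hZ : ∀ i, LocallyLipschitz (Z i)) : LocallyLipschitz (gl crd m Z) :=
  (lip_rampNorm hm).locallyLipschitz.comp (ll_dev hZ)

theorem dev_lt_of_gl_pos (hm : 0 < m) {x : I → ℝ} (h : 0 < gl crd m Z x) (i : κ) (w : I) :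
    |Z i x w - crd i w| < 2 * m := by
  have h1 := lt_of_ramp_pos hm h
  have h2 := norm_le_pi_norm (dev crd Z x) (i, w)
  rw [Real.norm_eq_abs] at h2
  exact lt_of_le_of_lt h2 h1

theorem dev_le_of_gl_one (hm : 0 < m) {x : I → ℝ} (h : ∀ i w, |Z i x w - crd i w| ≤ m) :
    gl crd m Z x = 1 :=
  ramp_eq_one hm ((pi_norm_le_iff_of_nonneg hm.le).mpr fun p => h p.1 p.2)

theorem exists_dev_of_gl_lt (hm : 0 < m) {x : I → ℝ} (h : gl crd m Z x < 1) :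
    ∃ i w, m < |Z i x w - crd i w| := by
  by_contra hn
  push Not at hn
  rw [dev_le_of_gl_one hm hn] at h
  exact lt_irrefl _ h

/-- The gradient of the cut-off. -/
theorem gs_gl_le (hm : 0 < m) {x : I → ℝ} (dZ : ∀ i, DifferentiableAt ℝ (Z i) x)
    (dg : DifferentiableAt ℝ (gl crd m Z) x) :
    gs Finset.univ (dir I) (gl crd m Z) x ≤ (m ^ 2)⁻¹ * ∑ w, gR Z w x := by
  have dZw : ∀ p : κ × I, DifferentiableAt ℝ (fun y => Z p.1 y p.2 - crd p.1 p.2) x := fun p =>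
    (differentiableAt_pi.mp (dZ p.1) p.2).sub_const _
  have h := gs_cut_le (D := Finset.univ) (e := dir I) (lip_rampNorm (ι := κ × I) hm) dZw dg
  refine h.trans (le_of_eq ?_)
  have e1 : ∀ p : κ × I, gs Finset.univ (dir I) (fun y => Z p.1 y p.2 - crd p.1 p.2) x =
      gs Finset.univ (dir I) (fun y => Z p.1 y p.2) x := by
    intro p; unfold gs; rw [fderiv_sub_const]
  simp only [e1]
  rw [Fintype.sum_prod_type_right]
  simp only [gR_eq dZ]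
  change (m⁻¹) ^ 2 * _ = _
  rw [inv_pow]

/-- At a maximum or a minimum the gradient vanishes. -/
theorem gs_eq_zero_of_extr {V : Type*} [NormedAddCommGroup V] [NormedSpace ℝ V] {ι : Type*}
    {D : Finset ι} {e : ι → V} {f : V → ℝ} (h01 : ∀ x, f x ∈ Icc (0 : ℝ) 1) {x : V}
    (h : f x = 0 ∨ f x = 1) : gs D e f x = 0 := by
  have h1 : fderiv ℝ f x = 0 := by
    rcases h with h | h
    · exact IsLocalMin.fderiv_eq_zero (Eventually.of_forall fun y => by rw [h]; exact (h01 y).1)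
    · exact IsLocalMax.fderiv_eq_zero (Eventually.of_forall fun y => by rw [h]; exact (h01 y).2)
  simp [gs, h1]

theorem gs_mul_le {V : Type*} [NormedAddCommGroup V] [NormedSpace ℝ V] {ι : Type*}
    {D : Finset ι} {e : ι → V} {f g : V → ℝ} {x : V} (hf : DifferentiableAt ℝ f x)
    (hg : DifferentiableAt ℝ g x) (h1 : |f x| ≤ 1) (h2 : |g x| ≤ 1) :
    gs D e (fun y => f y * g y) x ≤ 2 * (gs D e f x + gs D e g x) := by
  unfold gs
  rw [← Finset.sum_add_distrib, Finset.mul_sum]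
  refine Finset.sum_le_sum fun v _ => ?_
  have hm : HasFDerivAt (fun y => f y * g y) (f x • fderiv ℝ g x + g x • fderiv ℝ f x) x :=
    hf.hasFDerivAt.mul hg.hasFDerivAt
  rw [hm.fderiv]
  simp only [add_apply, smul_apply, smul_eq_mul]
  set a := fderiv ℝ g x (e v)
  set b := fderiv ℝ f x (e v)
  have e1 : (f x * a + g x * b) ^ 2 ≤ 2 * ((f x * a) ^ 2 + (g x * b) ^ 2) := by
    nlinarith [sq_nonneg (f x * a - g x * b)]
  have e2 : (f x * a) ^ 2 ≤ a ^ 2 := by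
    rw [mul_pow]
    have : f x ^ 2 ≤ 1 := by rw [← sq_abs]; exact pow_le_one₀ (abs_nonneg _) h1
    nlinarith [sq_nonneg a]
  have e3 : (g x * b) ^ 2 ≤ b ^ 2 := by
    rw [mul_pow]
    have : g x ^ 2 ≤ 1 := by rw [← sq_abs]; exact pow_le_one₀ (abs_nonneg _) h2
    nlinarith [sq_nonneg b]
  linarith

/-- The cut family `g χ(Z_w)`. -/
def cutg (χ : (κ → ℝ) → ℝ) (crd : κ → U → ℝ) (m : ℝ) (Z : κ → (I → ℝ) → (I → ℝ)) (w : I)
    (x : I → ℝ) : ℝ := gl crd m Z x * cut χ Z w x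

variable {χ : (κ → ℝ) → ℝ} {L : ℝ≥0} {C : Finset U}

/-- **`g χ(Z_w)` is a cut family**: `χ` vanishes on the positions at distance `< 2 m` from the sites
off the core. -/
theorem cutF_cutg (hm : 0 < m) (hχ : LipschitzWith L χ) (h01 : ∀ p, χ p ∈ Icc (0 : ℝ) 1)
    (hZ : ∀ i, LocallyLipschitz (Z i)) (hZr : ∀ i, Rig I E ζ (Z i))
    (hχ0 : ∀ w : I, w.1 ∉ C → ∀ p : κ → ℝ, (∀ i, |p i - crd i w| < 2 * m) → χ p = 0) :
    CutF I E ζ C (cutg χ crd m Z) where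
  lip := fun w => LL.mul (ll_gl hm hZ) (ll_cut hχ hZ w)
  mem := fun w x => ⟨mul_nonneg (gl_mem x).1 (h01 _).1,
    mul_le_one₀ (gl_mem x).2 (h01 _).1 (h01 _).2⟩
  rig := by
    choose r hr h using hZr
    obtain ⟨r3, hr3, h3⟩ : ∃ r3 > 0, ∀ i, r3 ≤ r i := by
      rcases isEmpty_or_nonempty κ with hκ | hκ
      · exact ⟨1, one_pos, fun i => (IsEmpty.false i).elim⟩
      · exact ⟨Finset.univ.inf' Finset.univ_nonempty r,
          (Finset.lt_inf'_iff _).mpr fun i _ => hr i,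
          fun i => Finset.inf'_le _ (Finset.mem_univ i)⟩
    refine ⟨r3, hr3, fun x hx a b hab hq => ?_⟩
    have e3 : ∀ i, Z i x a = Z i x b := fun i => h i x hx a b hab (by have := h3 i; linarith)
    simp only [cutg, cut, e3]
  core := by
    intro x _ w hw
    rcases (gl_mem (crd := crd) (m := m) (Z := Z) x).1.eq_or_lt with h | h
    · simp [cutg, ← h]
    · rw [cutg, cut, hχ0 w hw _ fun i => dev_lt_of_gl_pos hm h i w, mul_zero]

/-- The gradient of the cut family. -/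
theorem gs_cutg_le (hm : 0 < m) (hχ : LipschitzWith L χ) (h01 : ∀ p, χ p ∈ Icc (0 : ℝ) 1)
    {x : I → ℝ} (dZ : ∀ i, DifferentiableAt ℝ (Z i) x) (dg : DifferentiableAt ℝ (gl crd m Z) x)
    (w : I) (dc : DifferentiableAt ℝ (cut χ Z w) x) :
    gs Finset.univ (dir I) (cutg χ crd m Z w) x ≤
      if 0 < gl crd m Z x then 2 * ((L : ℝ) ^ 2 * gR Z w x +
        (if gl crd m Z x < 1 then (m ^ 2)⁻¹ * ∑ v, gR Z v x else 0)) else 0 := by
  have hg := gl_mem (crd := crd) (m := m) (Z := Z) x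
  have hce : ∀ y, cutg χ crd m Z w y ∈ Icc (0 : ℝ) 1 := fun y =>
    ⟨mul_nonneg (gl_mem y).1 (h01 _).1, mul_le_one₀ (gl_mem y).2 (h01 _).1 (h01 _).2⟩
  split_ifs with h0 h1
  · have a1 := gs_mul_le (D := Finset.univ) (e := dir I) dg dc
      (by rw [abs_of_nonneg hg.1]; exact hg.2)
      (by rw [abs_of_nonneg (a := cut χ Z w x) (h01 _).1]; exact (h01 _).2)
    have a2 := gs_gl_le hm dZ dg
    have a3 := gs_cut_le (D := Finset.univ) (e := dir I) hχ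
      (fun i => differentiableAt_pi.mp (dZ i) w) dc
    rw [← gR_eq dZ] at a3
    change gs Finset.univ (dir I) (fun y => gl crd m Z y * cut χ Z w y) x ≤ _
    change gs Finset.univ (dir I) (cut χ Z w) x ≤ _ at a3
    linarith
  · have h2 : gl crd m Z x = 1 := le_antisymm hg.2 (not_lt.mp h1)
    have a1 := gs_mul_le (D := Finset.univ) (e := dir I) dg dc
      (by rw [abs_of_nonneg hg.1]; exact hg.2)
      (by rw [abs_of_nonneg (a := cut χ Z w x) (h01 _).1]; exact (h01 _).2)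
    have a2 := gs_eq_zero_of_extr (D := Finset.univ) (e := dir I) (f := gl crd m Z)
      (fun y => gl_mem y) (Or.inr h2)
    have a3 := gs_cut_le (D := Finset.univ) (e := dir I) hχ
      (fun i => differentiableAt_pi.mp (dZ i) w) dc
    rw [← gR_eq dZ] at a3
    change gs Finset.univ (dir I) (fun y => gl crd m Z y * cut χ Z w y) x ≤ _
    change gs Finset.univ (dir I) (cut χ Z w) x ≤ _ at a3
    linarith
  · have h2 : gl crd m Z x = 0 := le_antisymm (not_lt.mp h0) hg.1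
    have h3 : cutg χ crd m Z w x = 0 := by rw [cutg, h2, zero_mul]
    exact (gs_eq_zero_of_extr hce (Or.inl h3)).le

end Cutoff

end Crest.Agent.R144.StB348
end
end

-- ▼ part R144/StB6_348
section

/-!
R144 (S0197), helper348.  STEP B for the class `V₀`, final inequalities.

`X = L + Υ`, `L = ∑ ξ_i Z_i`, `Υ = cmpU (cutg χ crd m Z) T ξ ctr Z u`.

* `ae_en_cmpG_le`: pointwise a.e.;
* `int_en_cmpG_le`: integrated form for a good law;
* `int_en_cmpG_split`: the same with `gR ≤ D` and the splitting at level `M`.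
-/

set_option autoImplicit false
set_option linter.unusedSectionVars false

open MeasureTheory Set Filter Topology
open scoped ENNReal NNReal

noncomputable section

namespace Crest.Agent.R144.StB348

open Crest.Agent.R144.Ham560
open Crest.Agent.R144.BQ565
open Crest.Agent.R144.StB565
open Crest.Agent.R144.MW121 (jac jac_apply en en_nonneg measurable_jac measurable_en)

section Fin

variable {U : Type*} [DecidableEq U] {I : Finset U} {E : Finset (U × U)} {ζ : U → ℝ}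
  {κ : Type*} [Fintype κ] {crd : κ → U → ℝ} {m : ℝ} {Z : κ → (I → ℝ) → (I → ℝ)}
  {χ : (κ → ℝ) → ℝ} {L : ℝ≥0} {C : Finset U} {T : ℝ → ℝ} {xi ctr : κ → ℝ}
  {u : (I → ℝ) → (I → ℝ)} {μ : Measure (I → ℝ)}

theorem dev_le_of_gl_eq_one (hm : 0 < m) {x : I → ℝ} (h : ¬ gl crd m Z x < 1) (i : κ) (w : I) :
    |Z i x w - crd i w| ≤ m := by
  have h0 : gl crd m Z x = 1 := le_antisymm (gl_mem x).2 (not_lt.mp h)
  have h1 : ‖dev crd Z x‖ ≤ m := by
    by_contra hn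
    push Not at hn
    have h2 : 1 < ‖dev crd Z x‖ / m := (one_lt_div hm).mpr hn
    have h3 : gl crd m Z x < 1 :=
      max_lt zero_lt_one (lt_of_le_of_lt (min_le_right _ _) (by linarith))
    exact h h3
  have h2 := norm_le_pi_norm (dev crd Z x) (i, w)
  rw [Real.norm_eq_abs] at h2
  exact h2.trans h1

/-- The competitor of the class `V₀`. -/
def ups (χ : (κ → ℝ) → ℝ) (crd : κ → U → ℝ) (m : ℝ) (T : ℝ → ℝ) (xi ctr : κ → ℝ)
    (Z : κ → (I → ℝ) → (I → ℝ)) (u : (I → ℝ) → (I → ℝ)) : (I → ℝ) → (I → ℝ) :=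
  cmpU (cutg χ crd m Z) T xi ctr Z u

/-- **STB for `V₀`, pointwise a.e.** -/
theorem ae_en_cmpG_le (hm : 0 < m) (hχ : LipschitzWith L χ) (h01 : ∀ p, χ p ∈ Icc (0 : ℝ) 1)
    (hZ : ∀ i, LocallyLipschitz (Z i)) (hu : LocallyLipschitz u) (hT : LipschitzWith 1 T)
    {Col : Finset I}
    (hCol : ∀ w : I, w ∉ Col → ∀ p : κ → ℝ, (∀ i, |p i - crd i w| ≤ m) → χ p = 1)
    {B : ℝ} (hB : ∀ x, 0 < gl crd m Z x → ∀ w, |zz T xi ctr Z u w x| ≤ B) :
    ∀ᵐ x : I → ℝ, ∀ th : ℝ, 0 < th →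
      en ((∑ i, xi i • Z i) + ups χ crd m T xi ctr Z u) x ≤ (1 + th) * en u x +
        (1 + th⁻¹) * 2 * ((∑ i, xi i ^ 2) * ∑ w ∈ Col, gR Z w x +
          2 * (L : ℝ) ^ 2 * ∑ w, (if 0 < gl crd m Z x then
            gR Z w x * zz T xi ctr Z u w x ^ 2 else 0) +
          ((∑ i, xi i ^ 2) + 2 * (m ^ 2)⁻¹ * (Fintype.card I * B ^ 2)) *
            ∑ w, (if gl crd m Z x < 1 then gR Z w x else 0)) := by
  have hlip : ∀ w, LocallyLipschitz (cutg χ crd m Z w) := fun w =>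
    LL.mul (ll_gl hm hZ) (ll_cut hχ hZ w)
  have hmem : ∀ (w : I) (y : I → ℝ), cutg χ crd m Z w y ∈ Icc (0 : ℝ) 1 := fun w y =>
    ⟨mul_nonneg (gl_mem y).1 (h01 _).1, mul_le_one₀ (gl_mem y).2 (h01 _).1 (h01 _).2⟩
  filter_upwards [ae_all_iff.mpr fun i => ae_differentiableAt (hZ i), ae_differentiableAt hu,
    ae_all_iff.mpr fun w => ae_real (hlip w),
    ae_all_iff.mpr fun w => ae_real (ll_trunc hT hu w),
    ae_differentiableAt ((ll_lab (xi := xi) hZ).add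
      (ll_cmpU (xi := xi) (ctr := ctr) hlip hT hZ hu)),
    ae_real (ll_gl (crd := crd) hm hZ), ae_all_iff.mpr fun w => ae_real (ll_cut hχ hZ w)]
    with x h1 h2 h3 h4 h5 h6 h7 th hth
  have hc : 0 ≤ (1 + th⁻¹) * 2 := by have := inv_pos.mpr hth; positivity
  have hxi : 0 ≤ ∑ i, xi i ^ 2 := Finset.sum_nonneg fun _ _ => sq_nonneg _
  have key := en_cmpU_le (et := cutg χ crd m Z) (xi := xi) (ctr := ctr) (fun w => hmem w x) hT
    h1 h2 h3 h4 h5 hth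
  refine key.trans (add_le_add le_rfl (mul_le_mul_of_nonneg_left ?_ hc))
  -- the collar
  have k1 : ∑ w with cutg χ crd m Z w x ≠ 1, gR Z w x ≤
      ∑ w ∈ Col, gR Z w x + ∑ w, (if gl crd m Z x < 1 then gR Z w x else 0) := by
    by_cases hg : gl crd m Z x < 1
    · simp only [hg, if_true]
      have a1 : ∑ w with cutg χ crd m Z w x ≠ 1, gR Z w x ≤ ∑ w, gR Z w x :=
        Finset.sum_le_sum_of_subset_of_nonneg (Finset.filter_subset _ _)
          fun w _ _ => gR_nonneg Z w x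
      have a2 : 0 ≤ ∑ w ∈ Col, gR Z w x := Finset.sum_nonneg fun w _ => gR_nonneg Z w x
      linarith
    · simp only [hg, if_false, Finset.sum_const_zero, add_zero]
      refine Finset.sum_le_sum_of_subset_of_nonneg ?_ fun w _ _ => gR_nonneg Z w x
      intro w hw
      by_contra hn
      refine (Finset.mem_filter.mp hw).2 ?_
      have g1 : gl crd m Z x = 1 := le_antisymm (gl_mem x).2 (not_lt.mp hg)
      rw [cutg, g1, one_mul, cut]
      exact hCol w hn _ fun i => dev_le_of_gl_eq_one hm hg i w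
  -- the gradient terms
  have k2 : ∀ w : I, gs Finset.univ (dir I) (cutg χ crd m Z w) x * zz T xi ctr Z u w x ^ 2 ≤
      2 * (L : ℝ) ^ 2 * (if 0 < gl crd m Z x then gR Z w x * zz T xi ctr Z u w x ^ 2 else 0) +
      2 * (m ^ 2)⁻¹ * B ^ 2 * ∑ v, (if gl crd m Z x < 1 then gR Z v x else 0) := by
    intro w
    have a1 := gs_cutg_le (L := L) hm hχ h01 h1 h6 w (h7 w)
    have hsum0 : 0 ≤ ∑ v, (if gl crd m Z x < 1 then gR Z v x else 0) := by
      refine Finset.sum_nonneg fun v _ => ?_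
      split_ifs
      · exact gR_nonneg Z v x
      · exact le_rfl
    by_cases hg0 : 0 < gl crd m Z x
    · rw [if_pos hg0] at a1 ⊢
      have hz := hB x hg0 w
      have hz2 : zz T xi ctr Z u w x ^ 2 ≤ B ^ 2 := by
        rw [← sq_abs]; exact pow_le_pow_left₀ (abs_nonneg _) hz 2
      have a2 : (if gl crd m Z x < 1 then (m ^ 2)⁻¹ * ∑ v, gR Z v x else 0) =
          (m ^ 2)⁻¹ * ∑ v, (if gl crd m Z x < 1 then gR Z v x else 0) := by
        split_ifs <;> simp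
      rw [a2] at a1
      have a3 := mul_le_mul_of_nonneg_right a1 (sq_nonneg (zz T xi ctr Z u w x))
      have hm2 : 0 ≤ (m ^ 2)⁻¹ := by positivity
      have a4 : (m ^ 2)⁻¹ * (∑ v, (if gl crd m Z x < 1 then gR Z v x else 0)) *
          zz T xi ctr Z u w x ^ 2 ≤
          (m ^ 2)⁻¹ * (∑ v, (if gl crd m Z x < 1 then gR Z v x else 0)) * B ^ 2 :=
        mul_le_mul_of_nonneg_left hz2 (mul_nonneg hm2 hsum0)
      nlinarith
    · rw [if_neg hg0] at a1 ⊢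
      have a2 : gs Finset.univ (dir I) (cutg χ crd m Z w) x = 0 :=
        le_antisymm a1 (gs_nonneg _ _)
      rw [a2, zero_mul, mul_zero, zero_add]
      positivity
  have k3 := Finset.sum_le_sum fun w (_ : w ∈ (Finset.univ : Finset I)) => k2 w
  rw [Finset.sum_add_distrib, ← Finset.mul_sum, Finset.sum_const, Finset.card_univ,
    nsmul_eq_mul] at k3
  have k4 := mul_le_mul_of_nonneg_left k1 hxi
  set S1 := ∑ w, (if gl crd m Z x < 1 then gR Z w x else 0)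
  set S2 := ∑ w, (if 0 < gl crd m Z x then gR Z w x * zz T xi ctr Z u w x ^ 2 else 0)
  calc _ ≤ (∑ i, xi i ^ 2) * (∑ w ∈ Col, gR Z w x + S1) +
        (2 * (L : ℝ) ^ 2 * S2 + Fintype.card I * (2 * (m ^ 2)⁻¹ * B ^ 2 * S1)) :=
        add_le_add k4 k3
    _ = _ := by ring





end Fin

section Inst

variable {U : Type*} [DecidableEq U] {I : Finset U} {crd : Fin 2 → U → ℝ} {m : ℝ}
  {Z : Fin 2 → (I → ℝ) → (I → ℝ)} {xi ctr : Fin 2 → ℝ} {u : (I → ℝ) → (I → ℝ)}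

/-- The uniform bound of `zz` on `{g > 0}`. -/
theorem zz_le_gl (hm : 0 < m) {Lam r : ℝ} (hL : 0 ≤ Lam) (hr : 0 ≤ r)
    (hxi : ∀ i, |xi i| ≤ 2 * Lam) (hy : ∀ i (w : I), |crd i w - ctr i| ≤ r / 2) (x : I → ℝ)
    (hg : 0 < gl crd m Z x) (w : I) :
    |zz (tr (8 * Lam * r)) xi ctr Z u w x| ≤ 10 * Lam * r + 8 * Lam * m := by
  refine (zz_le_unif (crd := crd) (C0 := 2 * m) hL hr hxi (fun i => hy i w)
    fun i => (dev_lt_of_gl_pos hm hg i w).le).trans (le_of_eq (by ring))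

/-- The FA1 line. -/
theorem zz_le_dev {Lam r : ℝ} (hL : 0 ≤ Lam) (hr : 0 ≤ r) (G : Fin 2 → ℝ)
    (hxi : ∀ i, |xi i| ≤ 2 * Lam) (hy : ∀ i (w : I), |crd i w - ctr i| ≤ r / 2) (x : I → ℝ)
    (w : I) :
    |zz (tr (8 * Lam * r)) xi ctr Z u w x| ≤
      |u x w - mn u x - ∑ i, G i * (crd i w - ctr i)| +
        5 * r * ∑ i, |tr (4 * Lam) (G i) - xi i| + 4 * Lam * ∑ i, |Z i x w - crd i w| := by
  refine zz_le hL hr hxi (fun i => hy i w) fun i => ?_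
  exact Finset.single_le_sum (f := fun i => |Z i x w - crd i w|) (fun _ _ => abs_nonneg _)
    (Finset.mem_univ i)


end Inst

end Crest.Agent.R144.StB348
end
end

-- ▼ part R144/StB7_348
section

/-!
R144 (S0197), helper348.  STEP B against 565's block energy `bT` (doc 1760, (T2), (T3)).

* `adT_cmpU` : the perturbation is in the class of the fibre;
* `bT_le_cut` : general cut families;
* `bT_le_stbG` : cut family `g χ(Z_w)` with an arbitrary scalar cut-off `g` (helper812's form);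
* `bT_le_stb_split` : `g` = the explicit cut-off `gl crd m Z` of the deviations, `gR ≤ D`,
  splitting at level `M`.
-/

set_option autoImplicit false
set_option linter.unusedSectionVars false

open MeasureTheory Set Filter Topology
open scoped ENNReal NNReal

noncomputable section

namespace Crest.Agent.R144.StB348

open Crest.Agent.R144.Ham560
open Crest.Agent.R144.BQ565
open Crest.Agent.R144.StB565
open Crest.Agent.R144.Lw425 (Proper)
open Crest.Agent.R144.MW121 (jac jac_apply en en_nonneg measurable_jac measurable_en)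

section Gen

variable {U : Type*} [DecidableEq U] {I : Finset U} {E : Finset (U × U)} {ζ : U → ℝ}
  {κ : Type*} [Fintype κ] {C : Finset U} {et : I → (I → ℝ) → ℝ} {T : ℝ → ℝ} {xi ctr : κ → ℝ}
  {Z : κ → (I → ℝ) → (I → ℝ)} {u : (I → ℝ) → (I → ℝ)} {LT : ℝ≥0}

/-- The two forms of rigidity agree. -/
theorem rig_iff {Y : (I → ℝ) → (I → ℝ)} : Rig I E ζ Y ↔ ∃ ρ > 0, ∀ x ∈ ham I E ζ, ∀ p ∈ E,
    Inn I p → 1 - ρ ≤ |ext I 0 x p.1 - ext I 0 x p.2| →
      ext I 0 (Y x) p.1 = ext I 0 (Y x) p.2 := by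
  constructor
  · rintro ⟨ρ, hρ, h⟩
    refine ⟨ρ, hρ, fun x hx p hp hi hq => ?_⟩
    rw [ext_mem hi.1, ext_mem hi.2] at hq ⊢
    exact h x hx ⟨p.1, hi.1⟩ ⟨p.2, hi.2⟩ hp hq
  · rintro ⟨ρ, hρ, h⟩
    refine ⟨ρ, hρ, fun x hx a b hab hq => ?_⟩
    have := h x hx (a.1, b.1) hab ⟨a.2, b.2⟩ (by rwa [ext_mem a.2, ext_mem b.2])
    rwa [ext_mem a.2, ext_mem b.2] at this

/-- **The perturbation is in the class of the fibre.** -/
theorem adT_cmpU (he : CutF I E ζ C et) (hT : LipschitzWith LT T)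
    (hZ : ∀ i, LocallyLipschitz (Z i)) (hZr : ∀ i, Rig I E ζ (Z i)) (hu : LocallyLipschitz u)
    (hur : Rig I E ζ u) : AdT I E C ζ (cmpU et T xi ctr Z u) where
  lip := ll_cmpU he.lip hT hZ hu
  rig := rig_iff.mp (rig_cmpU he hZr hur)
  core := fun _ hx _ hw => cmpU_core he hx hw





end Gen

section BT

variable {U : Type*} [DecidableEq U] {I : Finset U} {E : Finset (U × U)} {ζ : U → ℝ}
  {κ : Type*} [Fintype κ] {C : Finset U} {et : I → (I → ℝ) → ℝ} {T : ℝ → ℝ} {xi ctr : κ → ℝ}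
  {L : κ → llip I} {u : (I → ℝ) → (I → ℝ)} {χ : (κ → ℝ) → ℝ} {Lc : ℝ≥0} {g : (I → ℝ) → ℝ}

/-- The reference fields. -/
abbrev rf (L : κ → llip I) : κ → (I → ℝ) → (I → ℝ) := fun i => (L i).1

/-- The block energy is at most the energy of the competitor. -/
theorem bT_le_cut (hA : Anch I E) (hE : Proper I E) (hv : 0 < volume (ham I E ζ))
    (he : CutF I E ζ C et) (hT : LipschitzWith 1 T) (hLr : ∀ i, Rig I E ζ (rf L i))
    (hu : LocallyLipschitz u) (hur : Rig I E ζ u) :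
    bT C hA ζ L xi ≤
      ∫ x, en ((∑ i, xi i • rf L i) + cmpU et T xi ctr (rf L) u) x ∂(hamP I E ζ) := by
  have h1 := bT_le_of_AdT (L := L) (xi := xi) hA hE hv
    (adT_cmpU (xi := xi) (ctr := ctr) he hT (fun i => (L i).2) hLr hu hur)
  rwa [coe_cmb] at h1







end BT

end Crest.Agent.R144.StB348
end
end

-- ▼ part R144/Fa3_812
section

/-!
# R144 (S0197), helper812: fibre assembly FA, part 3: one block

`RefB`: reference fields on the fibres of one block with their dominating observables `D` (squared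
gradients) and `dv` (deviations).  `Hf`: the integrand.  `bT_le_Ebz`: on almost every fibre,
`bT ≤ E[Hf | outside]` (helper348's competitor).  `block_le`: the integrated inequality.
-/

set_option autoImplicit false
set_option linter.unusedSectionVars false

open MeasureTheory Set Filter Topology
open scoped ENNReal NNReal

namespace Crest.Agent.R144.Fa812

open Crest.Agent.R144.Ham560 Crest.Agent.R144.Fib674
open Crest.Agent.R144.BQ565 (GoodLaw llip bT goodLaw_hamP' hamP_ac_restrict)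
open Crest.Agent.R144.StB348 (Rig rf gR gR_nonneg gl zz cutg cmpU ups mn jac_eq)
open Crest.Agent.R144.Lw425 (Proper)
open Crest.Agent.R144.MW121 (jac en)

noncomputable section

section One

variable {U : Type*} [DecidableEq U] {F I : Finset U} {E : Finset (U × U)} {ξ : U → ℝ}

/-- the field on a fibre -/
def fu (hI : I ⊆ F) (V : (F → ℝ) → (F → ℝ)) (z : ↥(F \ I) → ℝ) : (I → ℝ) → (I → ℝ) :=
  fun x w => V (glue F I z x) ⟨(w : U), hI w.2⟩

/-- the energy inside the block -/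
def enI (hI : I ⊆ F) (V : (F → ℝ) → (F → ℝ)) (ω : F → ℝ) : ℝ :=
  ∑ w : I, ∑ v : I, jac V ω ⟨(w : U), hI w.2⟩ ⟨(v : U), hI v.2⟩ ^ 2

theorem enI_nonneg (hI : I ⊆ F) (V : (F → ℝ) → (F → ℝ)) (ω : F → ℝ) : 0 ≤ enI hI V ω :=
  Finset.sum_nonneg fun _ _ => Finset.sum_nonneg fun _ _ => sq_nonneg _

theorem measurable_enI (hI : I ⊆ F) (V : (F → ℝ) → (F → ℝ)) : Measurable (enI hI V) :=
  Finset.measurable_fun_sum _ fun _ _ => Finset.measurable_fun_sum _ fun _ _ =>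
    (MW121.measurable_jac V _ _).pow_const 2

theorem enI_le {V : (F → ℝ) → (F → ℝ)} {c : ℝ≥0} (hI : I ⊆ F) (hV : LipschitzWith c V)
    (ω : F → ℝ) : enI hI V ω ≤ (I.card : ℝ) * ((I.card : ℝ) * c ^ 2) := by
  unfold enI
  calc _ ≤ ∑ _w : I, ∑ _v : I, (c : ℝ) ^ 2 := by
        refine Finset.sum_le_sum fun u _ => Finset.sum_le_sum fun v _ => ?_
        rw [← sq_abs]
        exact pow_le_pow_left₀ (abs_nonneg _) (MW121.abs_jac_le hV ω _ _) 2
    _ = _ := by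
        rw [Finset.sum_const, Finset.card_univ, nsmul_eq_mul, Finset.sum_const, Finset.card_univ,
          nsmul_eq_mul, Fintype.card_coe]

theorem integrable_enI {μ : Measure (F → ℝ)} [IsFiniteMeasure μ] {V : (F → ℝ) → (F → ℝ)} {c : ℝ≥0}
    (hI : I ⊆ F) (hV : LipschitzWith c V) : Integrable (enI hI V) μ := by
  refine Integrable.of_bound (measurable_enI hI V).aestronglyMeasurable
    ((I.card : ℝ) * ((I.card : ℝ) * c ^ 2)) (ae_of_all _ fun y => ?_)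
  rw [Real.norm_of_nonneg (enI_nonneg hI V y)]
  exact enI_le hI hV y

theorem lip_fu {V : (F → ℝ) → (F → ℝ)} {c : ℝ≥0} (hI : I ⊆ F) (hV : LipschitzWith c V)
    (z : ↥(F \ I) → ℝ) : LipschitzWith c (fu hI V z) := by
  refine LipschitzWith.of_dist_le_mul fun x y => ?_
  refine (dist_pi_le_iff (by positivity)).2 fun w => ?_
  have h1 : dist (fu hI V z x w) (fu hI V z y w) ≤ dist (V (glue F I z x)) (V (glue F I z y)) :=
    dist_le_pi_dist (V (glue F I z x)) (V (glue F I z y)) _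
  refine h1.trans ((hV.dist_le_mul _ _).trans (mul_le_mul_of_nonneg_left ?_ c.2))
  have h2 := (lip_glue_right (F := F) (I := I) z).dist_le_mul x y
  rwa [NNReal.coe_one, one_mul] at h2

theorem diff_fu {V : (F → ℝ) → (F → ℝ)} (hI : I ⊆ F) {z : ↥(F \ I) → ℝ} {x : I → ℝ}
    (hV : DifferentiableAt ℝ V (glue F I z x)) : DifferentiableAt ℝ (fu hI V z) x := by
  refine differentiableAt_pi.2 fun w => ?_
  have h1 : DifferentiableAt ℝ (fun ω => V ω ⟨(w : U), hI w.2⟩) (glue F I z x) :=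
    differentiableAt_pi.1 hV _
  exact h1.comp x (hasFDerivAt_glue z x).differentiableAt

theorem en_fu {V : (F → ℝ) → (F → ℝ)} (hI : I ⊆ F) {z : ↥(F \ I) → ℝ} {x : I → ℝ}
    (hV : DifferentiableAt ℝ V (glue F I z x)) : en (fu hI V z) x = enI hI V (glue F I z x) := by
  unfold en enI
  refine Finset.sum_congr rfl fun w _ => Finset.sum_congr rfl fun v _ => ?_
  rw [jac_eq (diff_fu hI hV), jac_eq hV]
  have h1 : DifferentiableAt ℝ (fun ω => V ω ⟨(w : U), hI w.2⟩) (glue F I z x) :=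
    differentiableAt_pi.1 hV _
  have h2 := fderiv_glue hI h1 v
  unfold pd at h2
  rw [← h2]
  rfl

/-- rigidity near the walls of the whole system -/
def RigF (F : Finset U) (E : Finset (U × U)) (ξ : U → ℝ) (V : (F → ℝ) → (F → ℝ)) : Prop :=
  ∃ ρ > 0, ∀ x ∈ ham F E ξ, ∀ p ∈ E, 1 - ρ ≤ |ext F ξ x p.1 - ext F ξ x p.2| →
    ext F 0 (V x) p.1 = ext F 0 (V x) p.2

theorem rig_fu {V : (F → ℝ) → (F → ℝ)} (hI : I ⊆ F) (hV : RigF F E ξ V) {z : ↥(F \ I) → ℝ}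
    (hz : z ∈ ham (F \ I) (Eout I E) ξ) : Rig I (Ein I E) (ext (F \ I) ξ z) (fu hI V z) := by
  obtain ⟨ρ, hρ, h⟩ := hV
  refine ⟨ρ, hρ, fun x hx a b hab hq => ?_⟩
  have hg := (ham_split (F := F) (E := E) (ξ := ξ) hI).2 ⟨hz, hx⟩
  have h1 := h _ hg ((a : U), (b : U)) (mem_Ein.1 hab).1 (by
    rw [ext_glue hI, ext_mem a.2, ext_mem b.2]; exact hq)
  rwa [ext_mem (hI a.2), ext_mem (hI b.2)] at h1

/-- reference fields on the fibres of the block and dominating observables -/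
structure RefB (hI : I ⊆ F) (E : Finset (U × U)) (ξ : U → ℝ)
    (L : (↥(F \ I) → ℝ) → Fin 2 → llip I) (crd : Fin 2 → U → ℝ) (D dv : I → (F → ℝ) → ℝ) :
    Prop where
  rig : ∀ z ∈ ham (F \ I) (Eout I E) ξ, ∀ i, Rig I (Ein I E) (ext (F \ I) ξ z) (rf (L z) i)
  grad : ∀ z ∈ ham (F \ I) (Eout I E) ξ, ∀ᵐ x : I → ℝ, glue F I z x ∈ ham F E ξ →
    ∀ w, gR (rf (L z)) w x ≤ D w (glue F I z x)
  dev : ∀ z x, glue F I z x ∈ ham F E ξ → ∀ i w, |rf (L z) i x w - crd i w| ≤ dv w (glue F I z x)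
  mD : ∀ w, Measurable (D w)
  mdv : ∀ w, Measurable (dv w)
  iD : ∀ w, Integrable (D w) (hamP F E ξ)
  idv : ∀ w, Integrable (dv w) (hamP F E ξ)
  D0 : ∀ w ω, 0 ≤ D w ω
  dv0 : ∀ w ω, 0 ≤ dv w ω

/-- the error of the linear approximation, as an observable -/
def zw (hI : I ⊆ F) (V : (F → ℝ) → (F → ℝ)) (G xb : Fin 2 → (F → ℝ) → ℝ) (crd : Fin 2 → U → ℝ)
    (ctr : Fin 2 → ℝ) (dv : I → (F → ℝ) → ℝ) (Λ r : ℝ) (w : I) (ω : F → ℝ) : ℝ :=
  |V ω ⟨(w : U), hI w.2⟩ - (∑ w' : I, V ω ⟨(w' : U), hI w'.2⟩) / Fintype.card I -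
    ∑ i, G i ω * (crd i w - ctr i)| +
    5 * r * ∑ i, |StB348.tr (4 * Λ) (G i ω) - xb i ω| + 8 * Λ * dv w ω

/-- the integrand of the block inequality -/
def Hf (hI : I ⊆ F) (V : (F → ℝ) → (F → ℝ)) (G xb : Fin 2 → (F → ℝ) → ℝ) (crd : Fin 2 → U → ℝ)
    (ctr : Fin 2 → ℝ) (D dv : I → (F → ℝ) → ℝ) (Col : Finset I) (th Λ r m Lc M B : ℝ)
    (ω : F → ℝ) : ℝ :=
  (1 + th) * enI hI V ω + (1 + th⁻¹) * 2 * (8 * Λ ^ 2 * ∑ w ∈ Col, D w ω +
    2 * Lc ^ 2 * ∑ w, (M * B * zw hI V G xb crd ctr dv Λ r w ω +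
      B ^ 2 * (if M < D w ω then D w ω else 0)) +
    (8 * Λ ^ 2 + 2 * (m ^ 2)⁻¹ * (Fintype.card I * B ^ 2)) *
      ∑ w, (if ∃ w', m < dv w' ω then D w ω else 0))

variable {hI : I ⊆ F} {V : (F → ℝ) → (F → ℝ)} {G xb : Fin 2 → (F → ℝ) → ℝ} {crd : Fin 2 → U → ℝ}
  {ctr : Fin 2 → ℝ} {D dv : I → (F → ℝ) → ℝ} {Col : Finset I} {th Λ r m M B : ℝ} {Lc : ℝ≥0}
  {L : (↥(F \ I) → ℝ) → Fin 2 → llip I} {Co : Finset U} {χ : (Fin 2 → ℝ) → ℝ} {c : ℝ≥0}

theorem zw_nonneg (hΛ : 0 ≤ Λ) (hr : 0 ≤ r) (hdv : ∀ w ω, 0 ≤ dv w ω) (w : I) (ω : F → ℝ) :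
    0 ≤ zw hI V G xb crd ctr dv Λ r w ω := by
  unfold zw
  have h1 : 0 ≤ ∑ i, |StB348.tr (4 * Λ) (G i ω) - xb i ω| :=
    Finset.sum_nonneg fun _ _ => abs_nonneg _
  have h2 := hdv w ω
  positivity

theorem ite_nonneg' {p : Prop} [Decidable p] {a : ℝ} (ha : 0 ≤ a) : 0 ≤ (if p then a else 0) := by
  split_ifs
  · exact ha
  · exact le_rfl

theorem Hf_nonneg (hΛ : 0 ≤ Λ) (hr : 0 ≤ r) (hM : 0 ≤ M) (hB : 0 ≤ B) (hth : 0 < th)
    (hD : ∀ w ω, 0 ≤ D w ω) (hdv : ∀ w ω, 0 ≤ dv w ω) (ω : F → ℝ) :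
    0 ≤ Hf hI V G xb crd ctr D dv Col th Λ r m Lc M B ω := by
  unfold Hf
  have h0 := enI_nonneg hI V ω
  have h1 : 0 ≤ ∑ w ∈ Col, D w ω := Finset.sum_nonneg fun w _ => hD w ω
  have h2 : 0 ≤ ∑ w, (M * B * zw hI V G xb crd ctr dv Λ r w ω +
      B ^ 2 * (if M < D w ω then D w ω else 0)) := by
    refine Finset.sum_nonneg fun w _ => ?_
    have a1 := zw_nonneg (hI := hI) (V := V) (G := G) (xb := xb) (crd := crd) (ctr := ctr) hΛ hr
      hdv w ω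
    have a2 := ite_nonneg' (p := M < D w ω) (hD w ω)
    positivity
  have h3 : 0 ≤ ∑ w, (if ∃ w', m < dv w' ω then D w ω else 0) :=
    Finset.sum_nonneg fun w _ => ite_nonneg' (hD w ω)
  have h4 : 0 < th⁻¹ := inv_pos.2 hth
  positivity

/-- pointwise passage from helper348's inequality to `Hf` -/
theorem pt_le (RB : RefB hI E ξ L crd D dv) (hm : 0 < m) (hΛ : 0 ≤ Λ) (hr : 0 ≤ r) (hM : 0 ≤ M)
    (hth : 0 < th) (hy : ∀ i (w : I), |crd i w - ctr i| ≤ r / 2) {z : ↥(F \ I) → ℝ} {x : I → ℝ}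
    (hx : glue F I z x ∈ ham F E ξ) (hgr : ∀ w, gR (rf (L z)) w x ≤ D w (glue F I z x))
    {xi : Fin 2 → ℝ} (hxi : ∀ i, |xi i| ≤ 2 * Λ)
    (hxb : ∀ i, xb i (glue F I z x) = xi i) (hVd : DifferentiableAt ℝ V (glue F I z x))
    (hB : 10 * Λ * r + 8 * Λ * m ≤ B) :
    (1 + th) * en (fu hI V z) x +
        (1 + th⁻¹) * 2 * ((∑ i, xi i ^ 2) * ∑ w ∈ Col, gR (rf (L z)) w x +
          2 * (Lc : ℝ) ^ 2 * ∑ w, (if 0 < gl crd m (rf (L z)) x then
            gR (rf (L z)) w x * zz (StB348.tr (8 * Λ * r)) xi ctr (rf (L z)) (fu hI V z) w x ^ 2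
            else 0) +
          ((∑ i, xi i ^ 2) + 2 * (m ^ 2)⁻¹ * (Fintype.card I * B ^ 2)) *
            ∑ w, (if gl crd m (rf (L z)) x < 1 then gR (rf (L z)) w x else 0)) ≤
      Hf hI V G xb crd ctr D dv Col th Λ r m Lc M B (glue F I z x) := by
  have hth' : 0 < th⁻¹ := inv_pos.2 hth
  have hB0 : 0 ≤ B := le_trans (by positivity) hB
  have hxi2 : ∑ i, xi i ^ 2 ≤ 8 * Λ ^ 2 := by
    rw [Fin.sum_univ_two]
    have h0 : xi 0 ^ 2 ≤ (2 * Λ) ^ 2 := by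
      rw [← sq_abs]; exact pow_le_pow_left₀ (abs_nonneg _) (hxi 0) 2
    have h1 : xi 1 ^ 2 ≤ (2 * Λ) ^ 2 := by
      rw [← sq_abs]; exact pow_le_pow_left₀ (abs_nonneg _) (hxi 1) 2
    nlinarith
  have hxi0 : 0 ≤ ∑ i, xi i ^ 2 := Finset.sum_nonneg fun _ _ => sq_nonneg _
  unfold Hf
  rw [en_fu hI hVd]
  refine add_le_add le_rfl (mul_le_mul_of_nonneg_left (add_le_add (add_le_add ?_ ?_) ?_)
    (by positivity))
  · exact mul_le_mul hxi2 (Finset.sum_le_sum fun w _ => hgr w)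
      (Finset.sum_nonneg fun w _ => gR_nonneg _ w x) (by positivity)
  · refine mul_le_mul_of_nonneg_left (Finset.sum_le_sum fun w _ => ?_) (by positivity)
    have hz0 := zw_nonneg (hI := hI) (V := V) (G := G) (xb := xb) (crd := crd) (ctr := ctr) hΛ hr
      RB.dv0 w (glue F I z x)
    have hi0 := ite_nonneg' (p := M < D w (glue F I z x)) (RB.D0 w (glue F I z x))
    by_cases hg : 0 < gl crd m (rf (L z)) x
    · rw [if_pos hg]
      have h1 := StB348.zz_le_gl (ctr := ctr) (xi := xi) (u := fu hI V z) hm hΛ hr hxi hy x hg w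
      refine (StB348.mul_sq_le_split (gR_nonneg _ w x) (hgr w) hM
        (h1.trans hB)).trans (add_le_add (mul_le_mul_of_nonneg_left ?_ (by positivity)) le_rfl)
      refine (StB348.zz_le_dev (u := fu hI V z) (Z := rf (L z)) hΛ hr
        (fun i => G i (glue F I z x)) hxi hy x w).trans ?_
      unfold zw
      refine add_le_add (add_le_add le_rfl (le_of_eq ?_)) ?_
      · simp only [hxb]
      · have h2 : ∑ i, |rf (L z) i x w - crd i w| ≤ 2 * dv w (glue F I z x) := by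
          rw [Fin.sum_univ_two]
          linarith [RB.dev z x hx 0 w, RB.dev z x hx 1 w]
        have h3 := mul_le_mul_of_nonneg_left h2 (by positivity : 0 ≤ 4 * Λ)
        linarith
    · rw [if_neg hg]
      positivity
  · have hsum0 : 0 ≤ ∑ w, (if gl crd m (rf (L z)) x < 1 then gR (rf (L z)) w x else 0) :=
      Finset.sum_nonneg fun w _ => ite_nonneg' (gR_nonneg _ w x)
    refine mul_le_mul (by linarith) (Finset.sum_le_sum fun w _ => ?_) hsum0 (by positivity)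
    by_cases hg : gl crd m (rf (L z)) x < 1
    · obtain ⟨i, w', h1⟩ := StB348.exists_dev_of_gl_lt hm hg
      have h2 : ∃ w', m < dv w' (glue F I z x) := ⟨w', h1.trans_le (RB.dev z x hx i w')⟩
      rw [if_pos hg, if_pos h2]
      exact hgr w
    · rw [if_neg hg]
      exact ite_nonneg' (RB.D0 w _)

/-- integrability on the fibre -/
theorem integrable_fibre (hI : I ⊆ F) (hAI : Anch I E) {g : (F → ℝ) → ℝ} {z : ↥(F \ I) → ℝ}
    (hz : z ∈ ham (F \ I) (Eout I E) ξ) (hv : volume (ham I (Ein I E) (ext (F \ I) ξ z)) ≠ 0)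
    (hOk : OkF F I (wl F E ξ 0) g z) :
    Integrable (fun x => g (glue F I z x)) (hamP I (Ein I E) (ext (F \ I) ξ z)) := by
  have hl := isLaw_hamP (F := I) (E := Ein I E) (ξ := ext (F \ I) ξ z) hv
    (volume_ham_lt_top (Anch.ein hAI)).ne
  rw [hl.integrable_iff]
  refine hOk.gW.congr (ae_of_all _ fun x => ?_)
  beta_reduce
  rw [wl_glue hI]
  by_cases h : x ∈ ham I E (ext (F \ I) ξ z)
  · rw [wl_of_mem h, wl_of_mem (by rwa [← fibre_eq hz])]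
    rfl
  · rw [wl_of_notMem h, wl_of_notMem (by rwa [← fibre_eq hz])]

/-- **one fibre** -/
theorem bT_le_Ebz (hAI : Anch I E) (hE : Proper I (Ein I E)) (hV : LipschitzWith c V)
    (hVd : Differentiable ℝ V) (hVr : RigF F E ξ V) (RB : RefB hI E ξ L crd D dv) (hm : 0 < m)
    (hχ : LipschitzWith Lc χ) (h01 : ∀ p, χ p ∈ Icc (0 : ℝ) 1)
    (hχ0 : ∀ w : I, w.1 ∉ Co → ∀ p : Fin 2 → ℝ, (∀ i, |p i - crd i w| < 2 * m) → χ p = 0)
    (hCol : ∀ w : I, w ∉ Col → ∀ p : Fin 2 → ℝ, (∀ i, |p i - crd i w| ≤ m) → χ p = 1)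
    (hΛ : 0 ≤ Λ) (hr : 0 ≤ r) (hM : 0 ≤ M) (hth : 0 < th)
    (hy : ∀ i (w : I), |crd i w - ctr i| ≤ r / 2) (hB : 10 * Λ * r + 8 * Λ * m ≤ B)
    {z : ↥(F \ I) → ℝ} (hz : z ∈ ham (F \ I) (Eout I E) ξ)
    (hv : volume (ham I (Ein I E) (ext (F \ I) ξ z)) ≠ 0) {xi : Fin 2 → ℝ}
    (hxi : ∀ i, |xi i| ≤ 2 * Λ) (hxb : ∀ i x, xb i (glue F I z x) = xi i)
    (hOk : OkF F I (wl F E ξ 0) (Hf hI V G xb crd ctr D dv Col th Λ r m Lc M B) z) :
    bT Co (Anch.ein hAI) (ext (F \ I) ξ z) (L z) xi ≤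
      Ebz F I (wl F E ξ 0) (Hf hI V G xb crd ctr D dv Col th Λ r m Lc M B) z := by
  rw [Ebz_hamP hI hAI _ hz]
  set ζ := ext (F \ I) ξ z with hζ
  have hZ : ∀ i, LocallyLipschitz (rf (L z) i) := fun i => (L z i).2
  have hZr := RB.rig z hz
  have hT := StB348.lip_tr (8 * Λ * r)
  have hu : LocallyLipschitz (fu hI V z) := (lip_fu hI hV z).locallyLipschitz
  have hμ : GoodLaw (hamP I (Ein I E) ζ) := goodLaw_hamP' (Anch.ein hAI) ζ
  have he := StB348.cutF_cutg (crd := crd) (Z := rf (L z)) (C := Co) hm hχ h01 hZ hZr hχ0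
  refine (StB348.bT_le_cut (L := L z) (xi := xi) (ctr := ctr) (Anch.ein hAI) hE
    (pos_iff_ne_zero.2 hv) he hT hZr hu (rig_fu hI hVr hz)).trans ?_
  have hlip : ∀ w, LocallyLipschitz (cutg χ crd m (rf (L z)) w) := he.lip
  have hX : LocallyLipschitz ((∑ i, xi i • rf (L z) i) +
      cmpU (cutg χ crd m (rf (L z))) (StB348.tr (8 * Λ * r)) xi ctr (rf (L z)) (fu hI V z)) :=
    (StB348.ll_lab (xi := xi) hZ).add (StB348.ll_cmpU (xi := xi) (ctr := ctr) hlip hT hZ hu)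
  refine integral_mono_ae (hμ.integrable_en hX) (integrable_fibre hI hAI hz hv hOk) ?_
  have hmem : ∀ᵐ x ∂(hamP I (Ein I E) ζ), x ∈ ham I (Ein I E) ζ :=
    (hamP_ac_restrict ζ).ae_le (ae_restrict_mem measurableSet_ham)
  have hBz : ∀ x, 0 < gl crd m (rf (L z)) x → ∀ w,
      |zz (StB348.tr (8 * Λ * r)) xi ctr (rf (L z)) (fu hI V z) w x| ≤ B := fun x hx w =>
    (StB348.zz_le_gl (ctr := ctr) (xi := xi) (u := fu hI V z) hm hΛ hr hxi hy x hx w).trans hB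
  filter_upwards [hμ.ac.ae_le (StB348.ae_en_cmpG_le (xi := xi) (ctr := ctr) hm hχ h01 hZ hu hT
    hCol hBz), hmem, hμ.ac.ae_le (RB.grad z hz)] with x hx hxm hgr
  have hg : glue F I z x ∈ ham F E ξ := (ham_split hI).2 ⟨hz, hxm⟩
  exact (hx th hth).trans (pt_le RB hm hΛ hr hM hth hy hg (hgr hg) hxi (fun i => hxb i x)
    (hVd _) hB)

/-- **one block**: the block energy of the values `x̄` is at most the integral of `Hf` -/
theorem block_le (hA : Anch F E) (hξ : ∀ u, |ξ u| ≤ 1 / 2) (hAI : Anch I E)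
    (hE : Proper I (Ein I E)) (hV : LipschitzWith c V)
    (hVd : Differentiable ℝ V) (hVr : RigF F E ξ V) (RB : RefB hI E ξ L crd D dv) (hm : 0 < m)
    (hχ : LipschitzWith Lc χ) (h01 : ∀ p, χ p ∈ Icc (0 : ℝ) 1)
    (hχ0 : ∀ w : I, w.1 ∉ Co → ∀ p : Fin 2 → ℝ, (∀ i, |p i - crd i w| < 2 * m) → χ p = 0)
    (hCol : ∀ w : I, w ∉ Col → ∀ p : Fin 2 → ℝ, (∀ i, |p i - crd i w| ≤ m) → χ p = 1)
    (hΛ : 0 ≤ Λ) (hr : 0 ≤ r) (hM : 0 ≤ M) (hth : 0 < th)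
    (hy : ∀ i (w : I), |crd i w - ctr i| ≤ r / 2) (hB : 10 * Λ * r + 8 * Λ * m ≤ B)
    {xbar : Fin 2 → (↥(F \ I) → ℝ) → ℝ} (hxb : ∀ i ω, xb i ω = xbar i (outr F I ω))
    {φ : (↥(F \ I) → ℝ) → ℝ} (iφ : Integrable (fun ω => φ (outr F I ω)) (hamP F E ξ))
    {cN : ℝ} (hcN : 0 ≤ cN) (hφ0 : ∀ z, (¬ ∀ i, |xbar i z| ≤ 2 * Λ) → φ z ≤ 0)
    (hφ1 : ∀ z ∈ ham (F \ I) (Eout I E) ξ, (∀ i, |xbar i z| ≤ 2 * Λ) →
      φ z ≤ cN * bT Co (Anch.ein hAI) (ext (F \ I) ξ z) (L z) (fun i => xbar i z))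
    (iH : Integrable (Hf hI V G xb crd ctr D dv Col th Λ r m Lc M B) (hamP F E ξ)) :
    ∫ ω, φ (outr F I ω) ∂(hamP F E ξ) ≤
      cN * ∫ ω, Hf hI V G xb crd ctr D dv Col th Λ r m Lc M B ω ∂(hamP F E ξ) := by
  have hB0 : 0 ≤ B := le_trans (by positivity) hB
  have h := isLaw_hamP' (E := E) hA hξ
  rw [← integral_const_mul]
  refine h.integral_le ?_
  refine fibre_sum hI (h.integrable_iff.1 iφ) (h.integrable_iff.1 (iH.const_mul cN)) ?_
  filter_upwards [ae_okF hI h.int (h.integrable_iff.1 iH)] with z hOk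
  set H := Hf hI V G xb crd ctr D dv Col th Λ r m Lc M B with hH
  have hH0 : ∀ ω, 0 ≤ H ω := Hf_nonneg hΛ hr hM hB0 hth RB.D0 RB.dv0
  have e1 : ∫ x : ↥I → ℝ, φ (outr F I (glue F I z x)) * wl F E ξ 0 (glue F I z x) =
      φ z * ∫ x : ↥I → ℝ, wl F E ξ 0 (glue F I z x) := by
    simp only [outr_glue]
    rw [integral_const_mul]
  have e2 : ∫ x : ↥I → ℝ, cN * H (glue F I z x) * wl F E ξ 0 (glue F I z x) =
      cN * Ebz F I (wl F E ξ 0) H z * ∫ x : ↥I → ℝ, wl F E ξ 0 (glue F I z x) := by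
    simp only [mul_assoc]
    rw [integral_const_mul, fibre_int (wl_nonneg 0) hOk.W1 H]
  rw [e1, e2]
  have hmass : 0 ≤ ∫ x : ↥I → ℝ, wl F E ξ 0 (glue F I z x) := integral_nonneg fun _ => wl_nonneg 0 _
  by_cases hm0 : ∫ x : ↥I → ℝ, wl F E ξ 0 (glue F I z x) = 0
  · rw [hm0, mul_zero, mul_zero]
  refine mul_le_mul_of_nonneg_right ?_ hmass
  -- the fibre is good
  have e3 : ∫ x : ↥I → ℝ, wl F E ξ 0 (glue F I z x) =
      ∫ x in ham I E (ext (F \ I) ξ z), (1 : ℝ) := by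
    have := integral_wl (F := I) (E := E) (ξ := ext (F \ I) ξ z) 0
    simp only [Pi.zero_apply, Real.exp_zero] at this
    rw [← this]
    refine integral_congr_ae (ae_of_all _ fun x => ?_)
    beta_reduce
    rw [wl_glue hI]
    rfl
  have hv0 : volume (ham I E (ext (F \ I) ξ z)) ≠ 0 := by
    intro h0
    rw [e3, Measure.restrict_eq_zero.2 h0, integral_zero_measure] at hm0
    exact hm0 rfl
  have hz : z ∈ ham (F \ I) (Eout I E) ξ := by
    by_contra hz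
    rw [fibre_empty hz, measure_empty] at hv0
    exact hv0 rfl
  have hv : volume (ham I (Ein I E) (ext (F \ I) ξ z)) ≠ 0 := by rwa [← fibre_eq hz]
  by_cases hx : ∀ i, |xbar i z| ≤ 2 * Λ
  · refine (hφ1 z hz hx).trans (mul_le_mul_of_nonneg_left ?_ hcN)
    exact bT_le_Ebz hAI hE hV hVd hVr RB hm hχ h01 hχ0 hCol hΛ hr hM hth hy hB hz hv hx
      (fun i x => by rw [hxb, outr_glue]) hOk
  · exact (hφ0 z hx).trans (mul_nonneg hcN (Ebz_nonneg (wl_nonneg 0) fun _ => hH0 _))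

/-! ### integrability and the integral of `Hf` -/

/-- the deviation observable -/
def dvI (hI : I ⊆ F) (V : (F → ℝ) → (F → ℝ)) (G : Fin 2 → (F → ℝ) → ℝ) (crd : Fin 2 → U → ℝ)
    (ctr : Fin 2 → ℝ) (w : I) (ω : F → ℝ) : ℝ :=
  |V ω ⟨(w : U), hI w.2⟩ - (∑ w' : I, V ω ⟨(w' : U), hI w'.2⟩) / Fintype.card I -
    ∑ i, G i ω * (crd i w - ctr i)|

section Int

variable {μ : Measure (F → ℝ)} [IsFiniteMeasure μ]

theorem integrable_dvI (iV : ∀ w : F, Integrable (fun ω => V ω w) μ)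
    (iG : ∀ i, Integrable (G i) μ) (w : I) : Integrable (dvI hI V G crd ctr w) μ := by
  unfold dvI
  refine Integrable.abs (Integrable.sub (Integrable.sub (iV _) ?_) ?_)
  · exact (integrable_finsetSum _ fun w' _ => iV _).div_const _
  · exact integrable_finsetSum _ fun i _ => (iG i).mul_const _

theorem integrable_trG (hΛ : 0 ≤ Λ) (mG : ∀ i, Measurable (G i)) (i : Fin 2) :
    Integrable (fun ω => StB348.tr (4 * Λ) (G i ω)) μ := by
  refine Integrable.of_bound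
    (((StB348.lip_tr (4 * Λ)).continuous.measurable).comp (mG i)).aestronglyMeasurable (4 * Λ)
    (ae_of_all _ fun ω => ?_)
  rw [Real.norm_eq_abs]
  exact StB348.abs_tr_le (by positivity) _

theorem int_zw (hΛ : 0 ≤ Λ) (iV : ∀ w : F, Integrable (fun ω => V ω w) μ)
    (mG : ∀ i, Measurable (G i)) (iG : ∀ i, Integrable (G i) μ) (ixb : ∀ i, Integrable (xb i) μ)
    (idv : ∀ w, Integrable (dv w) μ) (w : I) :
    Integrable (zw hI V G xb crd ctr dv Λ r w) μ ∧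
    ∫ ω, zw hI V G xb crd ctr dv Λ r w ω ∂μ = (∫ ω, dvI hI V G crd ctr w ω ∂μ) +
      5 * r * (∑ i, ∫ ω, |StB348.tr (4 * Λ) (G i ω) - xb i ω| ∂μ) + 8 * Λ * ∫ ω, dv w ω ∂μ := by
  have i1 : Integrable (dvI hI V G crd ctr w) μ := integrable_dvI iV iG w
  have i2 : ∀ i, Integrable (fun ω => |StB348.tr (4 * Λ) (G i ω) - xb i ω|) μ := fun i =>
    ((integrable_trG hΛ mG i).sub (ixb i)).abs
  have i3 : Integrable (fun ω => 5 * r * ∑ i, |StB348.tr (4 * Λ) (G i ω) - xb i ω|) μ :=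
    (integrable_finsetSum _ fun i _ => i2 i).const_mul _
  have i4 : Integrable (fun ω => 8 * Λ * dv w ω) μ := (idv w).const_mul _
  have i5 : Integrable (fun ω => dvI hI V G crd ctr w ω +
      5 * r * ∑ i, |StB348.tr (4 * Λ) (G i ω) - xb i ω|) μ := i1.add i3
  refine ⟨i5.add i4, ?_⟩
  have e1 : ∫ ω, zw hI V G xb crd ctr dv Λ r w ω ∂μ = ∫ ω, ((dvI hI V G crd ctr w ω +
      5 * r * ∑ i, |StB348.tr (4 * Λ) (G i ω) - xb i ω|) + 8 * Λ * dv w ω) ∂μ := rfl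
  rw [e1, integral_add i5 i4, integral_add i1 i3, integral_const_mul, integral_const_mul,
    integral_finsetSum _ fun i _ => i2 i]

theorem integrable_lvl (mD : ∀ w, Measurable (D w)) (iD : ∀ w, Integrable (D w) μ) (w : I) :
    Integrable (fun ω => if M < D w ω then D w ω else 0) μ := by
  have hs : MeasurableSet {ω | M < D w ω} := measurableSet_lt measurable_const (mD w)
  refine ((iD w).indicator hs).congr (Eventually.of_forall fun ω => ?_)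
  simp [indicator_apply]

theorem integrable_far (mdv : ∀ w, Measurable (dv w)) (iD : ∀ w, Integrable (D w) μ) (w : I) :
    Integrable (fun ω => if ∃ w', m < dv w' ω then D w ω else 0) μ := by
  have hs : MeasurableSet {ω | ∃ w', m < dv w' ω} := by
    rw [ofPred_exists]
    exact MeasurableSet.iUnion fun w' => measurableSet_lt measurable_const (mdv w')
  refine ((iD w).indicator hs).congr (Eventually.of_forall fun ω => ?_)
  simp only [indicator_apply, mem_ofPred_eq]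

theorem int_Hf (hΛ : 0 ≤ Λ) (hV : LipschitzWith c V)
    (iV : ∀ w : F, Integrable (fun ω => V ω w) μ)
    (mG : ∀ i, Measurable (G i)) (iG : ∀ i, Integrable (G i) μ) (ixb : ∀ i, Integrable (xb i) μ)
    (mD : ∀ w, Measurable (D w)) (mdv : ∀ w, Measurable (dv w)) (iD : ∀ w, Integrable (D w) μ)
    (idv : ∀ w, Integrable (dv w) μ) :
    Integrable (Hf hI V G xb crd ctr D dv Col th Λ r m Lc M B) μ ∧
    ∫ ω, Hf hI V G xb crd ctr D dv Col th Λ r m Lc M B ω ∂μ =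
      (1 + th) * (∫ ω, enI hI V ω ∂μ) + (1 + th⁻¹) * 2 * (8 * Λ ^ 2 * ∑ w ∈ Col, ∫ ω, D w ω ∂μ +
        2 * (Lc : ℝ) ^ 2 * ∑ w, (M * B * ((∫ ω, dvI hI V G crd ctr w ω ∂μ) +
          5 * r * (∑ i, ∫ ω, |StB348.tr (4 * Λ) (G i ω) - xb i ω| ∂μ) +
            8 * Λ * ∫ ω, dv w ω ∂μ) +
          B ^ 2 * ∫ ω, (if M < D w ω then D w ω else 0) ∂μ) +
        (8 * Λ ^ 2 + 2 * (m ^ 2)⁻¹ * (Fintype.card I * B ^ 2)) *
          ∑ w, ∫ ω, (if ∃ w', m < dv w' ω then D w ω else 0) ∂μ) := by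
  have i1 : Integrable (fun ω => (1 + th) * enI hI V ω) μ := (integrable_enI hI hV).const_mul _
  have hz : ∀ w : I, Integrable (zw hI V G xb crd ctr dv Λ r w) μ := fun w =>
    (int_zw hΛ iV mG iG ixb idv w).1
  have i2 : Integrable (fun ω => 8 * Λ ^ 2 * ∑ w ∈ Col, D w ω) μ :=
    (integrable_finsetSum _ fun w _ => iD w).const_mul _
  have k1 : ∀ w : I, Integrable (fun ω => M * B * zw hI V G xb crd ctr dv Λ r w ω) μ := fun w =>
    (hz w).const_mul _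
  have k2 : ∀ w : I, Integrable (fun ω => B ^ 2 * (if M < D w ω then D w ω else 0)) μ := fun w =>
    (integrable_lvl mD iD w).const_mul _
  have k3 : ∀ w : I, Integrable (fun ω => M * B * zw hI V G xb crd ctr dv Λ r w ω +
      B ^ 2 * (if M < D w ω then D w ω else 0)) μ := fun w => (k1 w).add (k2 w)
  have i3 : Integrable (fun ω => 2 * (Lc : ℝ) ^ 2 * ∑ w, (M * B * zw hI V G xb crd ctr dv Λ r w ω +
      B ^ 2 * (if M < D w ω then D w ω else 0))) μ :=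
    (integrable_finsetSum _ fun w _ => k3 w).const_mul _
  have k4 : ∀ w : I, Integrable (fun ω => if ∃ w', m < dv w' ω then D w ω else 0) μ := fun w =>
    integrable_far mdv iD w
  have i4 : Integrable (fun ω => (8 * Λ ^ 2 + 2 * (m ^ 2)⁻¹ * (Fintype.card I * B ^ 2)) *
      ∑ w, (if ∃ w', m < dv w' ω then D w ω else 0)) μ :=
    (integrable_finsetSum _ fun w _ => k4 w).const_mul _
  have i5 : Integrable (fun ω => 8 * Λ ^ 2 * ∑ w ∈ Col, D w ω +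
      2 * (Lc : ℝ) ^ 2 * ∑ w, (M * B * zw hI V G xb crd ctr dv Λ r w ω +
      B ^ 2 * (if M < D w ω then D w ω else 0))) μ := i2.add i3
  have i6 : Integrable (fun ω => 8 * Λ ^ 2 * ∑ w ∈ Col, D w ω +
      2 * (Lc : ℝ) ^ 2 * ∑ w, (M * B * zw hI V G xb crd ctr dv Λ r w ω +
      B ^ 2 * (if M < D w ω then D w ω else 0)) +
      (8 * Λ ^ 2 + 2 * (m ^ 2)⁻¹ * (Fintype.card I * B ^ 2)) *
      ∑ w, (if ∃ w', m < dv w' ω then D w ω else 0)) μ := i5.add i4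
  have i7 : Integrable (fun ω => (1 + th⁻¹) * 2 * (8 * Λ ^ 2 * ∑ w ∈ Col, D w ω +
      2 * (Lc : ℝ) ^ 2 * ∑ w, (M * B * zw hI V G xb crd ctr dv Λ r w ω +
      B ^ 2 * (if M < D w ω then D w ω else 0)) +
      (8 * Λ ^ 2 + 2 * (m ^ 2)⁻¹ * (Fintype.card I * B ^ 2)) *
      ∑ w, (if ∃ w', m < dv w' ω then D w ω else 0))) μ := i6.const_mul _
  refine ⟨i1.add i7, ?_⟩
  have e0 : ∫ ω, Hf hI V G xb crd ctr D dv Col th Λ r m Lc M B ω ∂μ =
      (∫ ω, (1 + th) * enI hI V ω ∂μ) + ∫ ω, (1 + th⁻¹) * 2 * (8 * Λ ^ 2 * ∑ w ∈ Col, D w ω +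
      2 * (Lc : ℝ) ^ 2 * ∑ w, (M * B * zw hI V G xb crd ctr dv Λ r w ω +
      B ^ 2 * (if M < D w ω then D w ω else 0)) +
      (8 * Λ ^ 2 + 2 * (m ^ 2)⁻¹ * (Fintype.card I * B ^ 2)) *
      ∑ w, (if ∃ w', m < dv w' ω then D w ω else 0)) ∂μ := integral_add i1 i7
  rw [e0, integral_const_mul, integral_const_mul, integral_add i5 i4, integral_add i2 i3,
    integral_const_mul, integral_const_mul, integral_const_mul,
    integral_finsetSum _ fun w _ => iD w, integral_finsetSum _ fun w _ => k3 w,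
    integral_finsetSum _ fun w _ => k4 w]
  congr 4
  congr 1
  refine Finset.sum_congr rfl fun w _ => ?_
  rw [integral_add (k1 w) (k2 w), integral_const_mul, integral_const_mul,
    (int_zw hΛ iV mG iG ixb idv w).2]

end Int

end One

end

end Crest.Agent.R144.Fa812
end

-- ▼ part R144/Fa4_812
section

/-!
# R144 (S0197), helper812: fibre assembly FA, part 4: cut-off functions, and the block inequality in
terms of the fields of helper296

* `crd`, `ctrA`: index coordinates and the centre of the block `a + S`;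
* `chiB`: cut-off function of the distance to a set;
* `one_block`: the block inequality with a right-hand side which is a sum over the shape `S`.
-/

set_option autoImplicit false
set_option linter.unusedSectionVars false

open MeasureTheory Set Filter Topology
open scoped ENNReal NNReal

namespace Crest.Agent.R144.Fa812

open Crest.Agent.R144.Ham560 Crest.Agent.R144.Fib674
open Crest.Agent.R144.Flat296 (P2 Fld pt cdev)
open Crest.Agent.R144.Upp296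
open Crest.Agent.R144.BQ565 (GoodLaw llip bT goodLaw_hamP' hamP_ac_restrict)
open Crest.Agent.R144.StB348 (Rig rf gR gR_nonneg gl zz cutg cmpU ups jac_eq)
open Crest.Agent.R144.Lw425 (Proper)
open Crest.Agent.R144.MW121 (jac en)

noncomputable section

/-! ### cut-off functions -/

/-- cut-off function: `0` at distance `≤ 2 m` from `T`, `1` at distance `≥ 3 m` -/
def chiB (T : Set (Fin 2 → ℝ)) (m : ℝ) (p : Fin 2 → ℝ) : ℝ :=
  max 0 (min 1 (Metric.infDist p T / m - 2))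

theorem chiB_mem (T : Set (Fin 2 → ℝ)) (m : ℝ) (p : Fin 2 → ℝ) : chiB T m p ∈ Icc (0 : ℝ) 1 :=
  ⟨le_max_left _ _, max_le zero_le_one (min_le_left _ _)⟩

theorem lip_chiB (T : Set (Fin 2 → ℝ)) {m : ℝ} (hm : 0 < m) :
    LipschitzWith ⟨m⁻¹, inv_nonneg.mpr hm.le⟩ (chiB T m) := by
  have h1 : LipschitzWith ⟨m⁻¹, inv_nonneg.mpr hm.le⟩
      (fun p : Fin 2 → ℝ => Metric.infDist p T / m - 2) := by
    refine LipschitzWith.of_dist_le_mul fun p q => ?_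
    change dist (Metric.infDist p T / m - 2) (Metric.infDist q T / m - 2) ≤ m⁻¹ * dist p q
    rw [Real.dist_eq]
    have e : Metric.infDist p T / m - 2 - (Metric.infDist q T / m - 2) =
        m⁻¹ * (Metric.infDist p T - Metric.infDist q T) := by field_simp; ring
    rw [e, abs_mul, abs_of_pos (inv_pos.mpr hm), ← Real.dist_eq]
    refine mul_le_mul_of_nonneg_left ?_ (inv_pos.2 hm).le
    have := (Metric.lipschitz_infDist_pt T).dist_le_mul p q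
    rwa [NNReal.coe_one, one_mul] at this
  exact (h1.const_min 1).const_max 0

theorem chiB_zero {T : Set (Fin 2 → ℝ)} {m : ℝ} (hm : 0 < m) {p t : Fin 2 → ℝ} (ht : t ∈ T)
    (h : ∀ i, |p i - t i| < 2 * m) : chiB T m p = 0 := by
  have h1 : Metric.infDist p T ≤ 2 * m := by
    refine (Metric.infDist_le_dist_of_mem ht).trans ?_
    refine (dist_pi_le_iff (by positivity)).2 fun i => ?_
    rw [Real.dist_eq]
    exact (h i).le
  have h2 : Metric.infDist p T / m ≤ 2 := by rwa [div_le_iff₀ hm]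
  unfold chiB
  rw [max_eq_left ((min_le_right _ _).trans (by linarith))]

theorem chiB_one {T : Set (Fin 2 → ℝ)} (hT : T.Nonempty) {m : ℝ} (hm : 0 < m) {p y : Fin 2 → ℝ}
    (hy : ∀ t ∈ T, ∃ i, 4 * m ≤ |t i - y i|) (h : ∀ i, |p i - y i| ≤ m) : chiB T m p = 1 := by
  have h1 : 3 * m ≤ Metric.infDist p T := by
    refine (Metric.le_infDist hT).2 fun t ht => ?_
    obtain ⟨i, hi⟩ := hy t ht
    have h2 : |t i - y i| ≤ |t i - p i| + |p i - y i| := abs_sub_le _ _ _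
    have h3 : |p i - t i| ≤ dist p t := by
      rw [← Real.dist_eq]; exact dist_le_pi_dist p t i
    rw [abs_sub_comm] at h3
    linarith [h i]
  have h2 : 3 ≤ Metric.infDist p T / m := by rwa [le_div_iff₀ hm]
  unfold chiB
  rw [min_eq_left (by linarith), max_eq_right zero_le_one]

/-! ### index coordinates -/

/-- index coordinates -/
def crd (i : Fin 2) (v : P2) : ℝ := ![(v.1 : ℝ), (v.2 : ℝ)] i

@[simp] theorem crd_zero (v : P2) : crd 0 v = v.1 := rfl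

@[simp] theorem crd_one (v : P2) : crd 1 v = v.2 := rfl

theorem crd_add (i : Fin 2) (v w : P2) : crd i (v + w) = crd i v + crd i w := by
  fin_cases i <;> simp

/-- centre of the shape -/
def mS (S : Finset (ℕ × ℕ)) (i : Fin 2) : ℝ := (S.card : ℝ)⁻¹ * ∑ q ∈ S, crd i (pt q)

/-- centre of the block -/
def ctrA (S : Finset (ℕ × ℕ)) (a : P2) (i : Fin 2) : ℝ := crd i a + mS S i

theorem crd_pt_mem {r : ℕ} {p : ℕ × ℕ} (hp : p ∈ Flat296.sq r) (i : Fin 2) :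
    0 ≤ crd i (pt p) ∧ crd i (pt p) ≤ r := by
  rw [Flat296.mem_sq] at hp
  have h1 : (p.1 : ℝ) ≤ r := by exact_mod_cast hp.1.le
  have h2 : (p.2 : ℝ) ≤ r := by exact_mod_cast hp.2.le
  fin_cases i
  · change 0 ≤ (((p.1 : ℕ) : ℤ) : ℝ) ∧ (((p.1 : ℕ) : ℤ) : ℝ) ≤ r
    push_cast
    exact ⟨by positivity, h1⟩
  · change 0 ≤ (((p.2 : ℕ) : ℤ) : ℝ) ∧ (((p.2 : ℕ) : ℤ) : ℝ) ≤ r
    push_cast
    exact ⟨by positivity, h2⟩

theorem mS_mem {S : Finset (ℕ × ℕ)} {r : ℕ} (hS : S ⊆ Flat296.sq r) (i : Fin 2) :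
    0 ≤ mS S i ∧ mS S i ≤ r := by
  unfold mS
  constructor
  · exact mul_nonneg (by positivity) (Finset.sum_nonneg fun q hq => (crd_pt_mem (hS hq) i).1)
  · have h1 : ∑ q ∈ S, crd i (pt q) ≤ S.card * (r : ℝ) := by
      refine (Finset.sum_le_sum fun q hq => (crd_pt_mem (hS hq) i).2).trans (le_of_eq ?_)
      rw [Finset.sum_const, nsmul_eq_mul]
    rcases Nat.eq_zero_or_pos S.card with h0 | h0
    · rw [h0]; simp
    · have h2 : (0 : ℝ) < S.card := by exact_mod_cast h0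
      rw [inv_mul_le_iff₀ h2]
      exact h1

theorem crd_sub_ctrA {S : Finset (ℕ × ℕ)} (a : P2) (p : ℕ × ℕ) (i : Fin 2) :
    crd i (a + pt p) - ctrA S a i = crd i (pt p) - mS S i := by
  rw [ctrA, crd_add]; ring

theorem abs_crd_sub_ctrA {S : Finset (ℕ × ℕ)} {r : ℕ} (hS : S ⊆ Flat296.sq r) (a : P2) (i : Fin 2)
    (w : ↥(blk S a)) : |crd i w - ctrA S a i| ≤ (2 * r : ℝ) / 2 := by
  obtain ⟨p, hp, hw⟩ := mem_blk.1 w.2
  rw [← hw, crd_sub_ctrA, abs_le]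
  have h1 := crd_pt_mem (hS hp) i
  have h2 := mS_mem hS i
  constructor <;> linarith [h1.1, h1.2, h2.1, h2.2]

/-! ### the block inequality -/

variable {F : Finset P2} {E : Finset (P2 × P2)} {ξ : P2 → ℝ}

/-- the deviation observable in terms of `cdev` -/
theorem dvI_eq {S : Finset (ℕ × ℕ)} (hS0 : S.Nonempty) (r : ℕ) {a : P2} (hI : blk S a ⊆ F)
    {V : (F → ℝ) → (F → ℝ)} (G : Fin 2 → Fld (F → ℝ)) {p : ℕ × ℕ} (hp : a + pt p ∈ blk S a)
    (ω : F → ℝ) :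
    dvI hI V (fun i => G i a) crd (ctrA S a) ⟨a + pt p, hp⟩ ω =
      |cdev r (uf V) (G 0) (G 1) p a ω -
        (S.card : ℝ)⁻¹ * ∑ q ∈ S, cdev r (uf V) (G 0) (G 1) q a ω| := by
  have hc : (S.card : ℝ) ≠ 0 := by
    have := Finset.card_pos.2 hS0
    positivity
  have h1 : ∑ w' : ↥(blk S a), V ω ⟨(w' : P2), hI w'.2⟩ = ∑ q ∈ S, uf V (a + pt q) ω := by
    rw [← sum_blk S a (fun v => uf V v ω), ← Finset.sum_coe_sort (blk S a) (fun v => uf V v ω)]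
    exact Finset.sum_congr rfl fun w' _ => (uf_mem V (hI w'.2) ω).symm
  have h2 : ∀ q : ℕ × ℕ, cdev r (uf V) (G 0) (G 1) q a ω = uf V (a + pt q) ω -
      Flat296.bm r (uf V) a ω - (((q.1 : ℝ) - ((r : ℝ) - 1) / 2) * G 0 a ω +
        ((q.2 : ℝ) - ((r : ℝ) - 1) / 2) * G 1 a ω) := fun q => rfl
  unfold dvI
  congr 1
  rw [h1, Fintype.card_coe, card_blk, Fin.sum_univ_two]
  simp only [h2]
  rw [Finset.sum_sub_distrib, Finset.sum_sub_distrib, Finset.sum_add_distrib, ← Finset.sum_mul,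
    ← Finset.sum_mul, Finset.sum_sub_distrib, Finset.sum_sub_distrib]
  simp only [Finset.sum_const, nsmul_eq_mul]
  have e0 : crd 0 ((⟨a + pt p, hp⟩ : ↥(blk S a)) : P2) - ctrA S a 0 =
      (p.1 : ℝ) - (S.card : ℝ)⁻¹ * ∑ q ∈ S, (q.1 : ℝ) := by
    rw [crd_sub_ctrA]; simp [mS, pt]
  have e1 : crd 1 ((⟨a + pt p, hp⟩ : ↥(blk S a)) : P2) - ctrA S a 1 =
      (p.2 : ℝ) - (S.card : ℝ)⁻¹ * ∑ q ∈ S, (q.2 : ℝ) := by
    rw [crd_sub_ctrA]; simp [mS, pt]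
  rw [e0, e1, ← uf_mem V (hI hp) ω]
  field_simp
  ring

theorem int_dvI_le {μ : Measure (F → ℝ)} [IsFiniteMeasure μ] {S : Finset (ℕ × ℕ)}
    (hS0 : S.Nonempty) (r : ℕ) {a : P2} (hI : blk S a ⊆ F)
    {V : (F → ℝ) → (F → ℝ)} (hV : Bd (uf V)) {G : Fin 2 → Fld (F → ℝ)} (hG : ∀ i, Bd (G i))
    {p : ℕ × ℕ} (hp : a + pt p ∈ blk S a) :
    ∫ ω, dvI hI V (fun i => G i a) crd (ctrA S a) ⟨a + pt p, hp⟩ ω ∂μ ≤
      (∫ ω, |cdev r (uf V) (G 0) (G 1) p a ω| ∂μ) +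
        (S.card : ℝ)⁻¹ * ∑ q ∈ S, ∫ ω, |cdev r (uf V) (G 0) (G 1) q a ω| ∂μ := by
  have hcd : ∀ q : ℕ × ℕ, Bd (cdev r (uf V) (G 0) (G 1) q) := fun q =>
    ((hV.tr (pt q)).sub (hV.bm r)).sub (((hG 0).cmul _).add ((hG 1).cmul _))
  have i1 : ∀ q, Integrable (fun ω => |cdev r (uf V) (G 0) (G 1) q a ω|) μ := fun q =>
    (hcd q).abs.integrable μ a
  have i2 : Integrable (fun ω => (S.card : ℝ)⁻¹ *
      ∑ q ∈ S, |cdev r (uf V) (G 0) (G 1) q a ω|) μ :=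
    (integrable_finsetSum _ fun q _ => i1 q).const_mul _
  simp only [dvI_eq hS0 r hI G hp]
  rw [← integral_finsetSum _ fun q _ => i1 q, ← integral_const_mul, ← integral_add (i1 p) i2]
  refine integral_mono_of_nonneg (ae_of_all _ fun _ => abs_nonneg _) ((i1 p).add i2)
    (ae_of_all _ fun ω => ?_)
  refine (abs_sub _ _).trans (add_le_add le_rfl ?_)
  rw [abs_mul, abs_of_nonneg (by positivity : (0 : ℝ) ≤ (S.card : ℝ)⁻¹)]
  exact mul_le_mul_of_nonneg_left (Finset.abs_sum_le_sum_abs _ _) (by positivity)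

theorem enI_le_du {S : Finset (ℕ × ℕ)} {a : P2} (hI : blk S a ⊆ F) (V : (F → ℝ) → (F → ℝ))
    (ω : F → ℝ) : enI hI V ω ≤ ∑ p ∈ S, ∑ v : F, du V v (a + pt p) ω ^ 2 := by
  rw [← sum_blk S a (fun w => ∑ v : F, du V v w ω ^ 2),
    ← Finset.sum_coe_sort (blk S a) (fun w => ∑ v : F, du V v w ω ^ 2)]
  unfold enI
  refine Finset.sum_le_sum fun w _ => ?_
  have h1 : ∀ v : F, du V v w ω = jac V ω ⟨(w : P2), hI w.2⟩ v := fun v => by
    rw [du, dif_pos (hI w.2)]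
  simp only [h1]
  have h2 : ∑ v : ↥(blk S a), jac V ω ⟨(w : P2), hI w.2⟩ ⟨(v : P2), hI v.2⟩ ^ 2 =
      ∑ v ∈ (Finset.univ : Finset ↥(blk S a)).map
        ⟨fun v : ↥(blk S a) => (⟨(v : P2), hI v.2⟩ : F),
          fun x y h => Subtype.ext (congrArg (fun v : F => (v : P2)) h)⟩,
        jac V ω ⟨(w : P2), hI w.2⟩ v ^ 2 := by
    rw [Finset.sum_map]; rfl
  rw [h2]
  exact Finset.sum_le_sum_of_subset_of_nonneg (Finset.subset_univ _) fun _ _ _ => sq_nonneg _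

theorem sum_coe_blk {S : Finset (ℕ × ℕ)} (a : P2) (h : P2 → ℝ) :
    ∑ w : ↥(blk S a), h w = ∑ p ∈ S, h (a + pt p) := by
  rw [Finset.sum_coe_sort (blk S a) h, sum_blk]

theorem sum_blk_attach {S : Finset (ℕ × ℕ)} {a : P2} (f : ↥(blk S a) → ℝ) :
    ∑ w, f w = ∑ p ∈ S.attach, f ⟨a + pt p.1, mem_blk.2 ⟨p.1, p.2, rfl⟩⟩ := by
  classical
  have h1 := sum_coe_blk (S := S) a fun v => if h : v ∈ blk S a then f ⟨v, h⟩ else 0
  have h2 : ∑ w : ↥(blk S a), f w =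
      ∑ w : ↥(blk S a), (if h : (w : P2) ∈ blk S a then f ⟨(w : P2), h⟩ else 0) :=
    Finset.sum_congr rfl fun w _ => by rw [dif_pos w.2]
  rw [h2, h1, ← Finset.sum_attach S]
  exact Finset.sum_congr rfl fun p _ => dif_pos (mem_blk.2 ⟨p.1, p.2, rfl⟩)

theorem tr_eq_clp (c x : ℝ) : StB348.tr c x = clp c x := by
  unfold StB348.tr clp; rw [min_comm]

theorem integrable_du_sq {μ : Measure (F → ℝ)} [IsFiniteMeasure μ] {V : (F → ℝ) → (F → ℝ)}
    {c : ℝ≥0} (hV : LipschitzWith c V) (w : P2) :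
    Integrable (fun ω => ∑ v : F, du V v w ω ^ 2) μ := by
  refine integrable_finsetSum _ fun v _ => ?_
  by_cases hw : w ∈ F
  · have e : (fun ω => du V v w ω ^ 2) = fun ω => jac V ω ⟨w, hw⟩ v ^ 2 := by
      funext ω; rw [du, dif_pos hw]
    rw [e]
    refine Integrable.of_bound ((MW121.measurable_jac V _ _).pow_const 2).aestronglyMeasurable
      ((c : ℝ) ^ 2) (ae_of_all _ fun ω => ?_)
    rw [Real.norm_of_nonneg (sq_nonneg _), ← sq_abs]
    exact pow_le_pow_left₀ (abs_nonneg _) (MW121.abs_jac_le hV ω _ _) 2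
  · have e : (fun ω => du V v w ω ^ 2) = fun _ => 0 := by
      funext ω; rw [du, dif_neg hw]; ring
    rw [e]
    exact integrable_zero _ _ _

/-- the collar: sites of the block at distance `< 4 m` from the complement of the core -/
def colA (S : Finset (ℕ × ℕ)) (a : P2) (Co : Finset P2) (m : ℝ) : Finset ↥(blk S a) := by
  classical
  exact Finset.univ.filter fun w => ∃ v : P2, v ∉ Co ∧ ∀ i, |crd i v - crd i w| < 4 * m

theorem mem_colA {S : Finset (ℕ × ℕ)} {a : P2} {Co : Finset P2} {m : ℝ} {w : ↥(blk S a)} :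
    w ∈ colA S a Co m ↔ ∃ v : P2, v ∉ Co ∧ ∀ i, |crd i v - crd i w| < 4 * m := by
  classical
  unfold colA
  rw [Finset.mem_filter]
  exact ⟨fun h => h.2, fun h => ⟨Finset.mem_univ _, h⟩⟩

/-- **the block inequality**: right-hand side as a sum over the shape -/
theorem one_block (hA : Anch F E) (hξ : ∀ u, |ξ u| ≤ 1 / 2) {S : Finset (ℕ × ℕ)}
    (hS0 : S.Nonempty) {r : ℕ} (hSr : S ⊆ Flat296.sq r) {K : Finset P2} {a : P2} (ha : a ∈ K)
    (hI : blk S a ⊆ F) (hAI : Anch (blk S a) E) (hE : Proper (blk S a) (Ein (blk S a) E))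
    {V : (F → ℝ) → (F → ℝ)} {c : ℝ≥0} (hV : LipschitzWith c V)
    (hVd : Differentiable ℝ V) (hVr : RigF F E ξ V) (hVb : Bd (uf V))
    {L : (↥(F \ blk S a) → ℝ) → Fin 2 → llip (blk S a)} {Co : Finset P2}
    {D dv : P2 → (F → ℝ) → ℝ}
    (RB : RefB hI E ξ L crd (fun w => D w) (fun w => dv w))
    {m : ℝ} (hm : 0 < m) (hmr : m ≤ r) {G : Fin 2 → Fld (F → ℝ)} (hG : ∀ i, Bd (G i))
    {nC : ℝ} (hnC : ((colA S a Co m).card : ℝ) ≤ nC)
    {Λ th M M1 : ℝ} (hΛ : 0 < Λ) (hth : 0 < th) (hM : 0 ≤ M) (hM1 : 0 ≤ M1)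
    {Bm : Fin 2 → Fin 2 → Fld (F → ℝ)} (hBb : ∀ i j, Bd (Bm i j))
    (hBo : ∀ i j z x x', Bm i j a (glue F (blk S a) z x) = Bm i j a (glue F (blk S a) z x'))
    (hBp : ∀ ω y, 0 ≤ qf (fun i j => Bm i j a ω) y) {cN : ℝ} (hcN : 0 ≤ cN)
    (hBT : ∀ z ∈ ham (F \ blk S a) (Eout (blk S a) E) ξ, ∀ x y,
      qf (fun i j => Bm i j a (glue F (blk S a) z x)) y ≤
        cN * bT Co (Anch.ein hAI) (ext (F \ blk S a) ξ z) (L z) y) :
    ∫ ω, qf (fun i j => Bm i j a ω) (psi Λ fun i => xiB E ξ S K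
      (fun a ω => clp (4 * Λ) (G i a ω)) a ω) ∂(hamP F E ξ) ≤
      cN * ((1 + th) * (∑ p ∈ S, ∫ ω, ∑ v : F, du V v (a + pt p) ω ^ 2 ∂(hamP F E ξ)) +
        (1 + th⁻¹) * 2 * (8 * Λ ^ 2 * (M1 * nC +
            ∑ p ∈ S, ∫ ω, (if M1 < D (a + pt p) ω then D (a + pt p) ω else 0) ∂(hamP F E ξ)) +
          2 * (m⁻¹) ^ 2 * (M * (28 * Λ * r) * (
            2 * (∑ p ∈ S, ∫ ω, |cdev r (uf V) (G 0) (G 1) p a ω| ∂(hamP F E ξ)) +
            10 * r * (S.card * ∑ i, ∫ ω, |clp (4 * Λ) (G i a ω) - xiB E ξ S K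
              (fun a ω => clp (4 * Λ) (G i a ω)) a ω| ∂(hamP F E ξ)) +
            8 * Λ * ∑ p ∈ S, ∫ ω, dv (a + pt p) ω ∂(hamP F E ξ)) +
            (28 * Λ * r) ^ 2 * ∑ p ∈ S, ∫ ω, (if M < D (a + pt p) ω then D (a + pt p) ω else 0)
              ∂(hamP F E ξ)) +
          (8 * Λ ^ 2 + 2 * (m ^ 2)⁻¹ * (S.card * (28 * Λ * r) ^ 2)) *
            ∑ p ∈ S, ∫ ω, (if ∃ w' : ↥(blk S a), m < dv w' ω then D (a + pt p) ω else 0)
              ∂(hamP F E ξ))) := by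
  have hp : IsProbabilityMeasure (hamP F E ξ) := isProbabilityMeasure_hamP hA hξ
  have hr0 : (0 : ℝ) ≤ r := Nat.cast_nonneg r
  have hN0 : 0 < (S.card : ℝ) := by exact_mod_cast Finset.card_pos.2 hS0
  set B : ℝ := 28 * Λ * r with hBdef
  have hB0 : 0 ≤ B := by positivity
  have hB : 10 * Λ * (2 * r) + 8 * Λ * m ≤ B := by
    rw [hBdef]; nlinarith [mul_le_mul_of_nonneg_left hmr hΛ.le]
  -- the cut-off function
  set T : Set (Fin 2 → ℝ) := {t | ∃ v : P2, v ∉ Co ∧ t = fun i => crd i v} with hT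
  have hTne : T.Nonempty := by
    obtain ⟨v, hv⟩ := Infinite.exists_notMem_finset Co
    exact ⟨_, v, hv, rfl⟩
  have hχ := lip_chiB T hm
  have h01 := chiB_mem T m
  have hχ0 : ∀ w : ↥(blk S a), w.1 ∉ Co → ∀ p : Fin 2 → ℝ,
      (∀ i, |p i - crd i w| < 2 * m) → chiB T m p = 0 := fun w hw p hp =>
    chiB_zero hm (t := fun i => crd i w) ⟨w.1, hw, rfl⟩ hp
  have hCol : ∀ w : ↥(blk S a), w ∉ colA S a Co m → ∀ p : Fin 2 → ℝ,
      (∀ i, |p i - crd i w| ≤ m) → chiB T m p = 1 := by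
    intro w hw p hp
    refine chiB_one hTne hm (y := fun i => crd i w) ?_ hp
    rintro t ⟨v, hv, rfl⟩
    by_contra hcon
    push Not at hcon
    exact hw (mem_colA.2 ⟨v, hv, hcon⟩)
  -- the values
  set xbar : Fin 2 → (↥(F \ blk S a) → ℝ) → ℝ := fun i z =>
    Ebz F (blk S a) (wl F E ξ 0) (fun ω => clp (4 * Λ) (G i a ω)) z with hxbar
  have hxiB : ∀ i ω, xiB E ξ S K (fun a ω => clp (4 * Λ) (G i a ω)) a ω =
      xbar i (outr F (blk S a) ω) := by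
    intro i ω
    rw [xiB, if_pos ha]; rfl
  have hclpb : ∀ i, Bd (fun a ω => clp (4 * Λ) (G i a ω)) := fun i => bd_clp (hG i) _
  have hxb : ∀ i, Bd (xiB E ξ S K (fun a ω => clp (4 * Λ) (G i a ω))) := fun i => bd_xiB (hclpb i)
  set φ : (↥(F \ blk S a) → ℝ) → ℝ := fun z =>
    qf (fun i j => Bm i j a (glue F (blk S a) z 0)) (psi Λ fun i => xbar i z) with hφ
  have hφe : ∀ ω, φ (outr F (blk S a) ω) = qf (fun i j => Bm i j a ω) (psi Λ fun i => xiB E ξ S K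
      (fun a ω => clp (4 * Λ) (G i a ω)) a ω) := by
    intro ω
    simp only [hφ, hxiB]
    congr 1
    funext i j
    rw [hBo i j _ 0 (inn hI ω), glue_outr_inn]
  have iφ : Integrable (fun ω => φ (outr F (blk S a) ω)) (hamP F E ξ) := by
    simp only [hφe]
    exact (bd_qf hBb (fun i => bd_psi hxb Λ i)).integrable _ a
  have hpsi0 : ∀ z, (¬ ∀ i, |xbar i z| ≤ 2 * Λ) → psi Λ (fun i => xbar i z) = 0 := by
    intro z hz
    push Not at hz
    obtain ⟨i, hi⟩ := hz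
    have h1 : 2 * Λ ≤ sn fun i => xbar i z := hi.le.trans (abs_le_sn (fun i => xbar i z) i)
    funext j
    rw [psi, tau_eq_zero hΛ h1, zero_mul]; rfl
  have hφ0 : ∀ z, (¬ ∀ i, |xbar i z| ≤ 2 * Λ) → φ z ≤ 0 := by
    intro z hz
    simp only [hφ]
    rw [hpsi0 z hz, qf_eq]
    simp
  have hφ1 : ∀ z ∈ ham (F \ blk S a) (Eout (blk S a) E) ξ, (∀ i, |xbar i z| ≤ 2 * Λ) →
      φ z ≤ cN * bT Co (Anch.ein hAI) (ext (F \ blk S a) ξ z) (L z) (fun i => xbar i z) := by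
    intro z hz _
    refine le_trans ?_ (hBT z hz 0 fun i => xbar i z)
    simp only [hφ]
    have e : qf (fun i j => Bm i j a (glue F (blk S a) z 0)) (psi Λ fun i => xbar i z) =
        tau Λ (sn fun i => xbar i z) ^ 2 *
          qf (fun i j => Bm i j a (glue F (blk S a) z 0)) (fun i => xbar i z) := by
      rw [qf_eq, qf_eq]; unfold psi; ring
    rw [e]
    refine mul_le_of_le_one_left (hBp _ _) ?_
    have h1 := tau_nonneg Λ (sn fun i => xbar i z)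
    have h2 := tau_le_one Λ (sn fun i => xbar i z)
    nlinarith
  -- integrability
  have iV : ∀ w : F, Integrable (fun ω => V ω w) (hamP F E ξ) := by
    intro w
    have := hVb.integrable (hamP F E ξ) (w : P2)
    refine this.congr (ae_of_all _ fun ω => ?_)
    exact uf_mem V w.2 ω
  have mG : ∀ i, Measurable (G i a) := fun i => (hG i).mb a
  have iG : ∀ i, Integrable (G i a) (hamP F E ξ) := fun i => (hG i).integrable _ a
  have ixb : ∀ i, Integrable (fun ω => xiB E ξ S K (fun a ω => clp (4 * Λ) (G i a ω)) a ω)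
      (hamP F E ξ) := fun i => (hxb i).integrable _ a
  obtain ⟨iH, eH⟩ := int_Hf (hI := hI) (μ := hamP F E ξ) (V := V) (G := fun i => G i a)
    (xb := fun i ω => xiB E ξ S K (fun a ω => clp (4 * Λ) (G i a ω)) a ω) (crd := crd)
    (ctr := ctrA S a) (D := fun w => D w) (dv := fun w => dv w) (Col := colA S a Co m) (th := th)
    (Λ := Λ) (r := 2 * r) (m := m) (M := M) (B := B) (Lc := ⟨m⁻¹, inv_nonneg.mpr hm.le⟩)
    hΛ.le hV iV mG iG ixb RB.mD RB.mdv RB.iD RB.idv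
  have key := block_le (Co := Co) (xb := fun i ω => xiB E ξ S K
      (fun a ω => clp (4 * Λ) (G i a ω)) a ω) (G := fun i => G i a) (r := 2 * r) (M := M)
    (Col := colA S a Co m) (ctr := ctrA S a)
    hA hξ hAI hE hV hVd hVr RB hm hχ h01 hχ0 hCol hΛ.le (by positivity) hM hth
    (abs_crd_sub_ctrA hSr a) hB (fun i ω => hxiB i ω) iφ hcN hφ0 hφ1 iH
  simp only [hφe] at key
  refine key.trans (mul_le_mul_of_nonneg_left ?_ hcN)
  rw [eH]
  have hth' : 0 < th⁻¹ := inv_pos.2 hth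
  have hc1 : 0 ≤ (1 + th⁻¹) * 2 := by positivity
  refine add_le_add (mul_le_mul_of_nonneg_left ?_ (by linarith)) (mul_le_mul_of_nonneg_left
    (add_le_add (add_le_add (mul_le_mul_of_nonneg_left ?_ (by positivity)) ?_) (le_of_eq ?_)) hc1)
  · rw [← integral_finsetSum _ fun p _ => integrable_du_sq hV _]
    refine integral_mono (integrable_enI hI hV) (integrable_finsetSum _ fun p _ =>
      integrable_du_sq hV _) fun ω => ?_
    exact enI_le_du hI V ω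
  · -- the collar
    have h1 : ∀ w : ↥(blk S a), ∫ ω, D w ω ∂(hamP F E ξ) ≤
        M1 + ∫ ω, (if M1 < D w ω then D w ω else 0) ∂(hamP F E ξ) := by
      intro w
      have i1 := integrable_lvl (D := fun w : ↥(blk S a) => D w) (M := M1) RB.mD RB.iD w
      have i2 : Integrable (fun ω => M1 + (if M1 < D w ω then D w ω else 0)) (hamP F E ξ) :=
        (integrable_const M1).add i1
      have i3 : ∫ ω, (M1 + (if M1 < D w ω then D w ω else 0)) ∂(hamP F E ξ) =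
          M1 + ∫ ω, (if M1 < D w ω then D w ω else 0) ∂(hamP F E ξ) := by
        rw [integral_add (integrable_const M1) i1]; simp
      rw [← i3]
      refine integral_mono (RB.iD w) i2 fun ω => ?_
      beta_reduce
      split_ifs with h
      · linarith
      · push Not at h; linarith
    have h2 : ∑ w ∈ colA S a Co m, ∫ ω, D w ω ∂(hamP F E ξ) ≤
        ∑ w ∈ colA S a Co m, (M1 + ∫ ω, (if M1 < D w ω then D w ω else 0) ∂(hamP F E ξ)) :=
      Finset.sum_le_sum fun w _ => h1 w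
    rw [Finset.sum_add_distrib, Finset.sum_const, nsmul_eq_mul] at h2
    refine h2.trans (add_le_add ?_ ?_)
    · rw [mul_comm]; exact mul_le_mul_of_nonneg_left hnC hM1
    · rw [← sum_coe_blk a fun v => ∫ ω, (if M1 < D v ω then D v ω else 0) ∂(hamP F E ξ)]
      refine Finset.sum_le_sum_of_subset_of_nonneg (Finset.subset_univ _) fun w _ _ => ?_
      exact integral_nonneg fun ω => ite_nonneg' (RB.D0 w ω)
  · -- the gradient of the cut-off function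
    refine mul_le_mul_of_nonneg_left ?_ (by positivity)
    rw [Finset.sum_add_distrib, ← Finset.mul_sum, ← Finset.mul_sum]
    refine add_le_add (mul_le_mul_of_nonneg_left ?_ (by positivity)) (le_of_eq ?_)
    · rw [Finset.sum_add_distrib, Finset.sum_add_distrib]
      refine add_le_add (add_le_add ?_ (le_of_eq ?_)) (le_of_eq ?_)
      · rw [sum_blk_attach]
        have h1 : ∀ p ∈ S.attach, ∫ ω, dvI hI V (fun i => G i a) crd (ctrA S a)
            ⟨a + pt p.1, mem_blk.2 ⟨p.1, p.2, rfl⟩⟩ ω ∂(hamP F E ξ) ≤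
            (∫ ω, |cdev r (uf V) (G 0) (G 1) p.1 a ω| ∂(hamP F E ξ)) +
            (S.card : ℝ)⁻¹ * ∑ q ∈ S, ∫ ω, |cdev r (uf V) (G 0) (G 1) q a ω| ∂(hamP F E ξ) :=
          fun p _ => int_dvI_le hS0 r hI hVb hG _
        refine (Finset.sum_le_sum h1).trans (le_of_eq ?_)
        rw [Finset.sum_add_distrib, Finset.sum_const, Finset.card_attach, nsmul_eq_mul,
          ← mul_assoc, mul_inv_cancel₀ hN0.ne', one_mul,
          Finset.sum_attach S fun p => ∫ ω, |cdev r (uf V) (G 0) (G 1) p a ω| ∂(hamP F E ξ)]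
        ring
      · rw [Finset.sum_const, Finset.card_univ, Fintype.card_coe, card_blk, nsmul_eq_mul]
        simp only [tr_eq_clp]
        ring
      · rw [← Finset.mul_sum, sum_coe_blk a fun v => ∫ ω, dv v ω ∂(hamP F E ξ)]
    · rw [sum_coe_blk a fun v => ∫ ω, (if M < D v ω then D v ω else 0) ∂(hamP F E ξ)]
  · rw [Fintype.card_coe, card_blk]
    congr 1
    exact sum_coe_blk a fun v => ∫ ω, (if ∃ w' : ↥(blk S a), m < dv w' ω then D v ω else 0)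
      ∂(hamP F E ξ)

end

end Crest.Agent.R144.Fa812
end

-- ▼ part R144/Fa5_812

/-!
# R144 (S0197), helper812: fibre assembly FA, part 5: the sum over the blocks and the quantifiers

* `sum_blocks`: the sum over `a ∈ K` of the block inequalities;
* `FaHyp`: the hypotheses on the sequence of systems, blocks, reference fields, tails;
* `FaHyp.fas`: the field `fas` of helper296's `BlkHyp`.
-/

set_option autoImplicit false
set_option linter.unusedSectionVars false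

open MeasureTheory Set Filter Topology
open scoped ENNReal NNReal

namespace Crest.Agent.R144.Fa812

open Crest.Agent.R144.Ham560 Crest.Agent.R144.Fib674
open Crest.Agent.R144.Flat296 (P2 Fld pt cdev)
open Crest.Agent.R144.Upp296
open Crest.Agent.R144.BQ565 (llip bT)
open Crest.Agent.R144.Lw425 (Proper)
open Crest.Agent.R144.MW121 (jac en)

noncomputable section

/-- linear bookkeeping -/
theorem lin7 (K : Finset P2) (cN α β γ κ η ρ σ τ υ o N : ℝ) (e1 e2 e3 e4 e5 e6 e7 : P2 → ℝ) :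
    ∑ a ∈ K, cN * (α * e1 a + β * (γ * (κ + e2 a) + η * (ρ * (2 * e3 a + σ * (N * e4 a) + τ * e5 a) +
      υ * e6 a) + o * e7 a)) =
    α * (cN * ∑ a ∈ K, e1 a) + β * (γ * (cN * κ * K.card + cN * ∑ a ∈ K, e2 a) +
      η * (ρ * (2 * (cN * ∑ a ∈ K, e3 a) + σ * (cN * N * ∑ a ∈ K, e4 a) +
        τ * (cN * ∑ a ∈ K, e5 a)) + υ * (cN * ∑ a ∈ K, e6 a)) + o * (cN * ∑ a ∈ K, e7 a)) := by
  classical
  induction K using Finset.induction_on with
  | empty => simp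
  | insert a K ha ih =>
    rw [Finset.sum_insert ha, ih]
    simp only [Finset.sum_insert ha, Finset.card_insert_of_notMem ha]
    push_cast
    ring

variable {F : Finset P2}

theorem sum_du_le {μ : Measure (F → ℝ)} [IsFiniteMeasure μ] {V : (F → ℝ) → (F → ℝ)} {c : ℝ≥0}
    (hV : LipschitzWith c V) {S : Finset (ℕ × ℕ)} {K : Finset P2} (hK : ∀ a ∈ K, blk S a ⊆ F) :
    ∑ a ∈ K, ∑ p ∈ S, ∫ ω, ∑ v : F, du V v (a + pt p) ω ^ 2 ∂μ ≤
      S.card * ∫ ω, en V ω ∂μ := by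
  set h : P2 → ℝ := fun w => ∫ ω, ∑ v : F, du V v w ω ^ 2 ∂μ with hh
  have h0 : ∀ w ∈ F, 0 ≤ h w := fun w _ => integral_nonneg fun ω =>
    Finset.sum_nonneg fun v _ => sq_nonneg _
  have h1 := cover hK h0
  have h2 : ∑ w ∈ F, h w = ∫ ω, en V ω ∂μ := by
    rw [hh, ← integral_finsetSum _ fun w _ => integrable_du_sq hV w]
    refine integral_congr_ae (ae_of_all _ fun ω => ?_)
    beta_reduce
    rw [Finset.sum_comm, sum_du_sq]
  rw [h2] at h1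
  refine le_trans (le_of_eq ?_) h1
  exact Finset.sum_congr rfl fun a _ => (sum_blk S a h).symm

/-- **the sum over the blocks** -/
theorem sum_blocks {μ : Measure (F → ℝ)} [IsProbabilityMeasure μ] {V : (F → ℝ) → (F → ℝ)} {c : ℝ≥0}
    (hV : LipschitzWith c V) {S : Finset (ℕ × ℕ)} (hS0 : S.Nonempty) {r : ℕ}
    (hSr : S ⊆ Flat296.sq r) {K : Finset P2} (hK : ∀ a ∈ K, blk S a ⊆ F)
    {Q X : P2 → (F → ℝ) → ℝ} {cd : ℕ × ℕ → P2 → (F → ℝ) → ℝ} {Z1 Z2 : P2 → P2 → (F → ℝ) → ℝ}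
    {dv far : P2 → P2 → (F → ℝ) → ℝ}
    {δ th Λ m M M1 nC cN : ℝ} (hcN : cN = (S.card : ℝ)⁻¹) (hΛ : 0 ≤ Λ) (hth : 0 < th)
    (hM : 0 ≤ M) (hM1 : 0 ≤ M1)
    (hblk : ∀ a ∈ K, ∫ ω, Q a ω ∂μ ≤
      cN * ((1 + th) * (∑ p ∈ S, ∫ ω, ∑ v : F, du V v (a + pt p) ω ^ 2 ∂μ) +
        (1 + th⁻¹) * 2 * (8 * Λ ^ 2 * (M1 * nC + ∑ p ∈ S, ∫ ω, Z1 a (a + pt p) ω ∂μ) +
          2 * (m⁻¹) ^ 2 * (M * (28 * Λ * r) * (
            2 * (∑ p ∈ S, ∫ ω, cd p a ω ∂μ) +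
            10 * r * (S.card * ∫ ω, X a ω ∂μ) +
            8 * Λ * ∑ p ∈ S, ∫ ω, dv a (a + pt p) ω ∂μ) +
            (28 * Λ * r) ^ 2 * ∑ p ∈ S, ∫ ω, Z2 a (a + pt p) ω ∂μ) +
          (8 * Λ ^ 2 + 2 * (m ^ 2)⁻¹ * (S.card * (28 * Λ * r) ^ 2)) *
            ∑ p ∈ S, ∫ ω, far a (a + pt p) ω ∂μ)))
    {fl x U0 U1 U2 U3 U4 : ℝ}
    (hfl : ∀ p ∈ Flat296.sq r, δ ^ 2 * ∑ a ∈ K, ∫ ω, cd p a ω ∂μ ≤ fl)
    (hx : δ ^ 2 * ∑ a ∈ K, ∫ ω, X a ω ∂μ ≤ x)
    (h0 : δ ^ 2 * (cN * nC * K.card) ≤ U0)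
    (h1 : δ ^ 2 * (cN * ∑ a ∈ K, ∑ p ∈ S, ∫ ω, Z1 a (a + pt p) ω ∂μ) ≤ U1)
    (h2 : δ ^ 2 * (cN * ∑ a ∈ K, ∑ p ∈ S, ∫ ω, dv a (a + pt p) ω ∂μ) ≤ U2)
    (h3 : δ ^ 2 * (cN * ∑ a ∈ K, ∑ p ∈ S, ∫ ω, Z2 a (a + pt p) ω ∂μ) ≤ U3)
    (h4 : δ ^ 2 * (cN * ∑ a ∈ K, ∑ p ∈ S, ∫ ω, far a (a + pt p) ω ∂μ) ≤ U4) :
    δ ^ 2 * ∑ a ∈ K, ∫ ω, Q a ω ∂μ ≤ (1 + th) * (δ ^ 2 * ∫ ω, en V ω ∂μ) +
      (1 + th⁻¹) * 2 * (8 * Λ ^ 2 * (M1 * U0 + U1) +
        2 * (m⁻¹) ^ 2 * (M * (28 * Λ * r) * (2 * fl + 10 * r * x + 8 * Λ * U2) +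
          (28 * Λ * r) ^ 2 * U3) +
        (8 * Λ ^ 2 + 2 * (m ^ 2)⁻¹ * (S.card * (28 * Λ * r) ^ 2)) * U4) := by
  have hN : 0 < (S.card : ℝ) := by exact_mod_cast Finset.card_pos.2 hS0
  have hcN0 : 0 ≤ cN := by rw [hcN]; positivity
  have hδ : 0 ≤ δ ^ 2 := sq_nonneg _
  have hth' : 0 < th⁻¹ := inv_pos.2 hth
  have key := mul_le_mul_of_nonneg_left (Finset.sum_le_sum hblk) hδ
  refine key.trans ?_
  rw [lin7 K cN (1 + th) ((1 + th⁻¹) * 2) (8 * Λ ^ 2) (M1 * nC) (2 * (m⁻¹) ^ 2)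
    (M * (28 * Λ * r)) (10 * r) (8 * Λ) ((28 * Λ * r) ^ 2)
    (8 * Λ ^ 2 + 2 * (m ^ 2)⁻¹ * (S.card * (28 * Λ * r) ^ 2)) S.card
    (fun a => ∑ p ∈ S, ∫ ω, ∑ v : F, du V v (a + pt p) ω ^ 2 ∂μ)
    (fun a => ∑ p ∈ S, ∫ ω, Z1 a (a + pt p) ω ∂μ) (fun a => ∑ p ∈ S, ∫ ω, cd p a ω ∂μ)
    (fun a => ∫ ω, X a ω ∂μ) (fun a => ∑ p ∈ S, ∫ ω, dv a (a + pt p) ω ∂μ)
    (fun a => ∑ p ∈ S, ∫ ω, Z2 a (a + pt p) ω ∂μ)
    (fun a => ∑ p ∈ S, ∫ ω, far a (a + pt p) ω ∂μ)]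
  have g1 : δ ^ 2 * (cN * ∑ a ∈ K, ∑ p ∈ S, ∫ ω, ∑ v : F, du V v (a + pt p) ω ^ 2 ∂μ) ≤
      δ ^ 2 * ∫ ω, en V ω ∂μ := by
    refine mul_le_mul_of_nonneg_left ?_ hδ
    rw [hcN, inv_mul_le_iff₀ hN]
    exact sum_du_le hV hK
  have g2 : δ ^ 2 * (cN * ∑ a ∈ K, ∑ p ∈ S, ∫ ω, cd p a ω ∂μ) ≤ fl := by
    rw [Finset.sum_comm]
    have e : δ ^ 2 * (cN * ∑ p ∈ S, ∑ a ∈ K, ∫ ω, cd p a ω ∂μ) =
        cN * ∑ p ∈ S, δ ^ 2 * ∑ a ∈ K, ∫ ω, cd p a ω ∂μ := by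
      rw [← Finset.mul_sum]; ring
    rw [e, hcN, inv_mul_le_iff₀ hN]
    refine (Finset.sum_le_sum fun p hp => hfl p (hSr hp)).trans (le_of_eq ?_)
    rw [Finset.sum_const, nsmul_eq_mul]
  have g3 : δ ^ 2 * (cN * S.card * ∑ a ∈ K, ∫ ω, X a ω ∂μ) ≤ x := by
    rw [hcN, inv_mul_cancel₀ hN.ne', one_mul]; exact hx
  set s1 := ∑ a ∈ K, ∑ p ∈ S, ∫ ω, ∑ v : F, du V v (a + pt p) ω ^ 2 ∂μ
  set s2 := ∑ a ∈ K, ∑ p ∈ S, ∫ ω, Z1 a (a + pt p) ω ∂μ
  set s3 := ∑ a ∈ K, ∑ p ∈ S, ∫ ω, cd p a ω ∂μ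
  set s4 := ∑ a ∈ K, ∫ ω, X a ω ∂μ
  set s5 := ∑ a ∈ K, ∑ p ∈ S, ∫ ω, dv a (a + pt p) ω ∂μ
  set s6 := ∑ a ∈ K, ∑ p ∈ S, ∫ ω, Z2 a (a + pt p) ω ∂μ
  set s7 := ∑ a ∈ K, ∑ p ∈ S, ∫ ω, far a (a + pt p) ω ∂μ
  have hm2 : 0 ≤ 2 * (m⁻¹) ^ 2 := by positivity
  have hr0 : (0 : ℝ) ≤ r := Nat.cast_nonneg r
  calc δ ^ 2 * ((1 + th) * (cN * s1) + (1 + th⁻¹) * 2 * (8 * Λ ^ 2 *
        (cN * (M1 * nC) * K.card + cN * s2) + 2 * (m⁻¹) ^ 2 * (M * (28 * Λ * r) *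
          (2 * (cN * s3) + 10 * r * (cN * S.card * s4) + 8 * Λ * (cN * s5)) +
          (28 * Λ * r) ^ 2 * (cN * s6)) +
        (8 * Λ ^ 2 + 2 * (m ^ 2)⁻¹ * (S.card * (28 * Λ * r) ^ 2)) * (cN * s7)))
      = (1 + th) * (δ ^ 2 * (cN * s1)) + (1 + th⁻¹) * 2 * (8 * Λ ^ 2 *
        (M1 * (δ ^ 2 * (cN * nC * K.card)) + δ ^ 2 * (cN * s2)) + 2 * (m⁻¹) ^ 2 *
          (M * (28 * Λ * r) * (2 * (δ ^ 2 * (cN * s3)) + 10 * r * (δ ^ 2 * (cN * S.card * s4)) +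
            8 * Λ * (δ ^ 2 * (cN * s5))) + (28 * Λ * r) ^ 2 * (δ ^ 2 * (cN * s6))) +
        (8 * Λ ^ 2 + 2 * (m ^ 2)⁻¹ * (S.card * (28 * Λ * r) ^ 2)) * (δ ^ 2 * (cN * s7))) := by
        ring
    _ ≤ _ := by gcongr

/-! ### the sequences -/

/-- hypotheses on one block -/
def BlkH (F : Finset P2) (E : Finset (P2 × P2)) (ξ : P2 → ℝ) (S : Finset (ℕ × ℕ)) (a : P2)
    (Co : Finset P2) (D dv : P2 → (F → ℝ) → ℝ) (B : Fin 2 → Fin 2 → Fld (F → ℝ)) : Prop :=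
  ∃ (hI : blk S a ⊆ F) (hAI : Anch (blk S a) E), Proper (blk S a) (Ein (blk S a) E) ∧
    ∃ L : (↥(F \ blk S a) → ℝ) → Fin 2 → llip (blk S a),
      RefB hI E ξ L crd (fun w => D w) (fun w => dv w) ∧
      (∀ i j z x x', B i j a (glue F (blk S a) z x) = B i j a (glue F (blk S a) z x')) ∧
      (∀ ω y, 0 ≤ qf (fun i j => B i j a ω) y) ∧
      ∀ z ∈ ham (F \ blk S a) (Eout (blk S a) E) ξ, ∀ x y,
        qf (fun i j => B i j a (glue F (blk S a) z x)) y ≤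
          (S.card : ℝ)⁻¹ * bT Co (Anch.ein hAI) (ext (F \ blk S a) ξ z) (L z) y

/-- hypotheses of the fibre assembly for a sequence of systems -/
structure FaHyp (F : ℕ → Finset P2) (E : ℕ → Finset (P2 × P2)) (ξ : ℕ → P2 → ℝ) (δ : ℕ → ℝ)
    (V : ∀ n, (F n → ℝ) → (F n → ℝ)) (e : ℕ → ℝ) (Kc : ℕ → ℕ → Finset P2) (O : Type) (r0 : ℕ)
    (S : ℕ → O → Finset (ℕ × ℕ)) (Co : ℕ → O → P2 → Finset P2)
    (B : ℕ → O → ∀ n, Fin 2 → Fin 2 → Fld (F n → ℝ))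
    (D dv : ℕ → O → ∀ n, P2 → P2 → (F n → ℝ) → ℝ) : Prop where
  anch : ∀ n, Anch (F n) (E n)
  xi : ∀ n u, |ξ n u| ≤ 1 / 2
  lip : ∀ n, ∃ c : ℝ≥0, LipschitzWith c (V n)
  diff : ∀ n, Differentiable ℝ (V n)
  rig : ∀ n, RigF (F n) (E n) (ξ n) (V n)
  bd : ∀ n, Bd (uf (V n))
  e_eq : ∀ n, δ n ^ 2 * ∫ ω, en (V n) ω ∂(hamP (F n) (E n) (ξ n)) ≤ e n
  e_le : ∃ Ce : ℝ, ∀ᶠ n in atTop, e n ≤ Ce
  area : ∃ Ca : ℝ, ∀ k, ∀ᶠ n in atTop, δ n ^ 2 * (Kc k n).card ≤ Ca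
  S0 : ∀ r, r0 ≤ r → ∀ o, (S r o).Nonempty
  Sr : ∀ r o, S r o ⊆ Flat296.sq r
  collar : ∀ η : ℝ, 0 < η → ∃ κ : ℝ, 0 < κ ∧ κ ≤ 1 ∧ ∃ r1 : ℕ, ∀ r, r1 ≤ r → ∀ o a,
    ((colA (S r o) a (Co r o a) (κ * r)).card : ℝ) ≤ η * (S r o).card
  bB : ∀ r, r0 ≤ r → ∀ o n i j, Bd (B r o n i j)
  blkh : ∀ r, r0 ≤ r → ∀ o k, ∀ᶠ n in atTop, ∀ a ∈ Kc k n,
    BlkH (F n) (E n) (ξ n) (S r o) a (Co r o a) (D r o n a) (dv r o n a) (B r o n)
  t1 : ∀ η : ℝ, 0 < η → ∃ M : ℝ, 0 ≤ M ∧ ∃ r1 : ℕ, ∀ r, r1 ≤ r → r0 ≤ r → ∀ o k,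
    ∀ᶠ n in atTop, δ n ^ 2 * (((S r o).card : ℝ)⁻¹ * ∑ a ∈ Kc k n, ∑ p ∈ S r o,
      ∫ ω, (if M < D r o n a (a + pt p) ω then D r o n a (a + pt p) ω else 0)
        ∂(hamP (F n) (E n) (ξ n))) ≤ η
  t2 : ∃ C2 : ℝ, 0 ≤ C2 ∧ ∃ r1 : ℕ, ∀ r, r1 ≤ r → r0 ≤ r → ∀ o k,
    ∀ᶠ n in atTop, δ n ^ 2 * (((S r o).card : ℝ)⁻¹ * ∑ a ∈ Kc k n, ∑ p ∈ S r o,
      ∫ ω, dv r o n a (a + pt p) ω ∂(hamP (F n) (E n) (ξ n))) ≤ C2
  t3 : ∀ κ : ℝ, 0 < κ → ∀ η : ℝ, 0 < η → ∃ r1 : ℕ, ∀ r, r1 ≤ r → r0 ≤ r → ∀ o k,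
    ∀ᶠ n in atTop, (r : ℝ) ^ 2 * (δ n ^ 2 * (((S r o).card : ℝ)⁻¹ * ∑ a ∈ Kc k n, ∑ p ∈ S r o,
      ∫ ω, (if ∃ w' : ↥(blk (S r o) a), κ * r < dv r o n a w' ω then D r o n a (a + pt p) ω
        else 0) ∂(hamP (F n) (E n) (ξ n)))) ≤ η

theorem num_final {c1 Λ κ r M M1 N U0 η1 η2 η3 C2 fl x ε1 : ℝ} (hc1 : 0 < c1) (hΛ : 0 < Λ)
    (hκ : 0 < κ) (hr : 1 ≤ r) (hM : 0 ≤ M) (hN : N ≤ r * r) (hfl : 0 ≤ fl)
    (hη3 : 0 ≤ η3) (p1 : c1 * (8 * Λ ^ 2) * (M1 * U0) ≤ ε1 / 5)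
    (p2 : c1 * (8 * Λ ^ 2) * η1 ≤ ε1 / 5)
    (p3 : c1 * (2 * (κ⁻¹) ^ 2) * (M * (28 * Λ)) * (8 * Λ * C2) / r ≤ ε1 / 5)
    (p4 : c1 * (2 * (κ⁻¹) ^ 2) * (28 * Λ) ^ 2 * η2 ≤ ε1 / 5)
    (p5 : c1 * (8 * Λ ^ 2 + 2 * (κ⁻¹) ^ 2 * (28 * Λ) ^ 2) * η3 ≤ ε1 / 5) :
    c1 * (8 * Λ ^ 2 * (M1 * U0 + η1) + 2 * ((κ * r)⁻¹) ^ 2 * (M * (28 * Λ * r) *
      (2 * fl + 10 * r * x + 8 * Λ * C2) + (28 * Λ * r) ^ 2 * η2) +
      (8 * Λ ^ 2 + 2 * ((κ * r) ^ 2)⁻¹ * (N * (28 * Λ * r) ^ 2)) * (η3 / r ^ 2)) ≤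
    ε1 + c1 * (2 * (κ⁻¹) ^ 2) * (M * (28 * Λ)) * 10 * (fl / r + x) := by
  have hr0 : 0 < r := by linarith
  have e1 : 2 * ((κ * r)⁻¹) ^ 2 * (M * (28 * Λ * r) * (2 * fl + 10 * r * x + 8 * Λ * C2) +
      (28 * Λ * r) ^ 2 * η2) = 2 * (κ⁻¹) ^ 2 * (M * (28 * Λ)) * (2 * (fl / r) + 10 * x) +
      2 * (κ⁻¹) ^ 2 * (M * (28 * Λ)) * (8 * Λ * C2) / r + 2 * (κ⁻¹) ^ 2 * (28 * Λ) ^ 2 * η2 := by
    field_simp
  have e2 : (8 * Λ ^ 2 + 2 * ((κ * r) ^ 2)⁻¹ * (N * (28 * Λ * r) ^ 2)) * (η3 / r ^ 2) ≤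
      (8 * Λ ^ 2 + 2 * (κ⁻¹) ^ 2 * (28 * Λ) ^ 2) * η3 := by
    have h1 : (8 * Λ ^ 2 + 2 * ((κ * r) ^ 2)⁻¹ * (N * (28 * Λ * r) ^ 2)) ≤
        (8 * Λ ^ 2 + 2 * (κ⁻¹) ^ 2 * (28 * Λ) ^ 2) * r ^ 2 := by
      have h2 : 2 * ((κ * r) ^ 2)⁻¹ * (N * (28 * Λ * r) ^ 2) =
          2 * (κ⁻¹) ^ 2 * (28 * Λ) ^ 2 * N := by
        field_simp
      rw [h2]
      have h3 : 2 * (κ⁻¹) ^ 2 * (28 * Λ) ^ 2 * N ≤ 2 * (κ⁻¹) ^ 2 * (28 * Λ) ^ 2 * r ^ 2 :=
        mul_le_mul_of_nonneg_left (by rw [pow_two]; exact hN) (by positivity)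
      have h4 : (1 : ℝ) ≤ r ^ 2 := one_le_pow₀ hr
      have h5 : 8 * Λ ^ 2 ≤ 8 * Λ ^ 2 * r ^ 2 := le_mul_of_one_le_right (by positivity) h4
      linarith
    calc _ ≤ (8 * Λ ^ 2 + 2 * (κ⁻¹) ^ 2 * (28 * Λ) ^ 2) * r ^ 2 * (η3 / r ^ 2) :=
          mul_le_mul_of_nonneg_right h1 (by positivity)
      _ = _ := by field_simp
  have e3 := mul_le_mul_of_nonneg_left e2 hc1.le
  have e4 : c1 * (2 * (κ⁻¹) ^ 2 * (M * (28 * Λ)) * (2 * (fl / r) + 10 * x)) ≤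
      c1 * (2 * (κ⁻¹) ^ 2) * (M * (28 * Λ)) * 10 * (fl / r + x) := by
    have h1 : 0 ≤ fl / r := by positivity
    have h2 : 0 ≤ c1 * (2 * (κ⁻¹) ^ 2) * (M * (28 * Λ)) := by positivity
    have h3 : 2 * (fl / r) + 10 * x ≤ 10 * (fl / r + x) := by linarith
    have h4 := mul_le_mul_of_nonneg_left h3 h2
    linarith
  rw [e1]
  have e5 : c1 * (8 * Λ ^ 2 * (M1 * U0 + η1) + (2 * (κ⁻¹) ^ 2 * (M * (28 * Λ)) *
      (2 * (fl / r) + 10 * x) + 2 * (κ⁻¹) ^ 2 * (M * (28 * Λ)) * (8 * Λ * C2) / r +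
        2 * (κ⁻¹) ^ 2 * (28 * Λ) ^ 2 * η2) +
      (8 * Λ ^ 2 + 2 * ((κ * r) ^ 2)⁻¹ * (N * (28 * Λ * r) ^ 2)) * (η3 / r ^ 2)) =
      c1 * (8 * Λ ^ 2) * (M1 * U0) + c1 * (8 * Λ ^ 2) * η1 +
      c1 * (2 * (κ⁻¹) ^ 2 * (M * (28 * Λ)) * (2 * (fl / r) + 10 * x)) +
      c1 * (2 * (κ⁻¹) ^ 2) * (M * (28 * Λ)) * (8 * Λ * C2) / r +
      c1 * (2 * (κ⁻¹) ^ 2) * (28 * Λ) ^ 2 * η2 +
      c1 * ((8 * Λ ^ 2 + 2 * ((κ * r) ^ 2)⁻¹ * (N * (28 * Λ * r) ^ 2)) * (η3 / r ^ 2)) := by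
    ring
  rw [e5]
  linarith

theorem num_p1 {A M1 Ca ε1 : ℝ} (hA : 0 ≤ A) (hM1 : 0 ≤ M1) (hCa : 0 ≤ Ca) (hε1 : 0 ≤ ε1) :
    A * (M1 * (ε1 / (5 * (A * M1 * Ca + 1)) * Ca)) ≤ ε1 / 5 := by
  have h0 : 0 ≤ A * M1 * Ca := by positivity
  have h5 : 0 < 5 * (A * M1 * Ca + 1) := by positivity
  have e1' : A * (M1 * (ε1 / (5 * (A * M1 * Ca + 1)) * Ca)) =
      (A * M1 * Ca) * ε1 / (5 * (A * M1 * Ca + 1)) := by field_simp
  rw [e1', div_le_div_iff₀ h5 (by norm_num)]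
  nlinarith

theorem num_p2 {A ε1 : ℝ} (hA : 0 < A) : A * (ε1 / (5 * A)) ≤ ε1 / 5 :=
  le_of_eq (by field_simp)

theorem num_p3 {T r ε1 : ℝ} (hr : 0 < r) (hε1 : 0 < ε1) (h : T / (ε1 / 5) < r) :
    T / r ≤ ε1 / 5 := by
  rw [div_le_iff₀ hr]
  rw [div_lt_iff₀ (by positivity)] at h
  linarith

variable {F : ℕ → Finset P2} {E : ℕ → Finset (P2 × P2)} {ξ : ℕ → P2 → ℝ} {δ : ℕ → ℝ}
  {V : ∀ n, (F n → ℝ) → (F n → ℝ)} {e : ℕ → ℝ} {Kc : ℕ → ℕ → Finset P2} {O : Type} {r0 : ℕ}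
  {S : ℕ → O → Finset (ℕ × ℕ)} {Co : ℕ → O → P2 → Finset P2}
  {B : ℕ → O → ∀ n, Fin 2 → Fin 2 → Fld (F n → ℝ)}
  {D dv : ℕ → O → ∀ n, P2 → P2 → (F n → ℝ) → ℝ}

set_option maxHeartbeats 1600000 in
/-- **the fibre assembly**: the field `fas` of helper296's `BlkHyp` -/
theorem FaHyp.fas (H : FaHyp F E ξ δ V e Kc O r0 S Co B D dv) :
    ∀ θ Λ ε1 : ℝ, 0 < θ → 1 ≤ Λ → 0 < ε1 → ∃ C : ℝ, 0 ≤ C ∧ ∃ r1 : ℕ, ∀ r, r1 ≤ r → r0 ≤ r →
    ∀ o k, ∀ ε2 : ℝ, 0 < ε2 → ∃ R1 : ℕ, ∀ R, R1 ≤ R → ∀ᶠ n in atTop,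
      FasAt (fun n => hamP (F n) (E n) (ξ n)) δ (fun n => uf (V n)) e Kc (B r o) θ Λ ε1 C ε2
        r R k n := by
  intro θ Λ ε1 hθ hΛ1 hε1
  have hΛ : 0 < Λ := by linarith
  have hθ' : 0 < θ⁻¹ := inv_pos.2 hθ
  set c1 : ℝ := (1 + θ⁻¹) * 2 with hc1d
  have hc1 : 0 < c1 := by positivity
  obtain ⟨Ca0, hCa0⟩ := H.area
  obtain ⟨Ce, hCe⟩ := H.e_le
  set Ca : ℝ := max Ca0 0 with hCad
  have hCa : 0 ≤ Ca := le_max_right _ _
  set A : ℝ := c1 * (8 * Λ ^ 2) with hA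
  have hA0 : 0 < A := by positivity
  obtain ⟨M1, hM1, r11, h1⟩ := H.t1 (ε1 / (5 * A)) (by positivity)
  obtain ⟨κ, hκ, hκ1, r12, hcol⟩ := H.collar (ε1 / (5 * (A * M1 * Ca + 1))) (by positivity)
  set Bq : ℝ := c1 * (2 * (κ⁻¹) ^ 2) * (28 * Λ) ^ 2 with hBq
  have hBq0 : 0 < Bq := by positivity
  obtain ⟨M, hM, r13, h3⟩ := H.t1 (ε1 / (5 * Bq)) (by positivity)
  set G3 : ℝ := c1 * (8 * Λ ^ 2 + 2 * (κ⁻¹) ^ 2 * (28 * Λ) ^ 2) with hG3
  have hG30 : 0 < G3 := by positivity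
  obtain ⟨r14, h4⟩ := H.t3 κ hκ (ε1 / (5 * G3)) (by positivity)
  obtain ⟨C2, hC2, r15, h2⟩ := H.t2
  set T : ℝ := c1 * (2 * (κ⁻¹) ^ 2) * (M * (28 * Λ)) * (8 * Λ * C2) with hT
  obtain ⟨r16, hr16⟩ := exists_nat_gt (T / (ε1 / 5))
  refine ⟨c1 * (2 * (κ⁻¹) ^ 2) * (M * (28 * Λ)) * 10, by positivity,
    r11 + r12 + r13 + r14 + r15 + r16 + 1, fun r hr hr0 o k ε2 hε2 => ?_⟩
  obtain ⟨R1, hR1⟩ := exists_fas_b (S r o).card Ca Ce hε2
  refine ⟨R1, fun R hR => ?_⟩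
  obtain ⟨hR0, hb⟩ := hR1 R hR
  filter_upwards [h1 r (by omega) hr0 o k, h3 r (by omega) hr0 o k, h4 r (by omega) hr0 o k,
    h2 r (by omega) hr0 o k, hCa0 k, hCe, H.blkh r hr0 o k] with n g1 g3 g4 g2 gCa gCe gblk
  obtain ⟨c, hc⟩ := H.lip n
  have hp : IsProbabilityMeasure (hamP (F n) (E n) (ξ n)) :=
    isProbabilityMeasure_hamP (H.anch n) (H.xi n)
  have hS0 := H.S0 r hr0 o
  have hSr := H.Sr r o
  have hN : 0 < ((S r o).card : ℝ) := by exact_mod_cast Finset.card_pos.2 hS0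
  have hr1 : (1 : ℝ) ≤ r := by exact_mod_cast (by omega : 1 ≤ r)
  have hrpos : (0 : ℝ) < r := by linarith
  have hN2 : ((S r o).card : ℝ) ≤ r * r := by
    have := Finset.card_le_card hSr
    rw [Flat296.card_sq] at this
    exact_mod_cast this
  have hI : ∀ a ∈ Kc k n, blk (S r o) a ⊆ F n := fun a ha => (gblk a ha).1
  have hAI : ∀ a ∈ Kc k n, Anch (blk (S r o) a) (E n) := fun a ha => (gblk a ha).2.1
  have hG : ∀ i, Bd (Gk (uf (V n)) (Kc (k + 1) n) R i) := fun i => bd_Gk (H.bd n) _ R i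
  have hclp : ∀ i, Bd (fun a ω => clp (4 * Λ) (Gk (uf (V n)) (Kc (k + 1) n) R i a ω)) := fun i =>
    bd_clp (hG i) _
  have hxB : ∀ i, Bd (xiB (E n) (ξ n) (S r o) (Kc k n)
      (fun a ω => clp (4 * Λ) (Gk (uf (V n)) (Kc (k + 1) n) R i a ω))) := fun i =>
    bd_xiB (hclp i)
  have hXb := hb (F n) (E n) (ξ n) (H.anch n) (H.xi n) (S r o) (Kc k n) (Kc (k + 1) n) rfl hI hAI
    (V n) c (H.bd n) hc (H.diff n) (δ n) (4 * Λ) (gCa.trans (le_max_left _ _))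
    ((H.e_eq n).trans gCe)
  refine ⟨fun i => xiB (E n) (ξ n) (S r o) (Kc k n)
    (fun a ω => clp (4 * Λ) (Gk (uf (V n)) (Kc (k + 1) n) R i a ω)), hxB, hXb, fun fl hfl => ?_⟩
  have hfl0 : 0 ≤ fl := by
    obtain ⟨p, hp'⟩ := hS0
    refine le_trans ?_ (hfl p (hSr hp'))
    exact mul_nonneg (sq_nonneg _) (Ex_nonneg fun a _ ω => abs_nonneg _)
  have habs : ∀ (i : Fin 2) (a : P2), Integrable (fun ω =>
      |clp (4 * Λ) (Gk (uf (V n)) (Kc (k + 1) n) R i a ω) - xiB (E n) (ξ n) (S r o) (Kc k n)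
        (fun a ω => clp (4 * Λ) (Gk (uf (V n)) (Kc (k + 1) n) R i a ω)) a ω|)
      (hamP (F n) (E n) (ξ n)) := fun i a => ((hclp i).sub (hxB i)).abs.integrable _ a
  have hxs : ∀ a, ∫ ω, (∑ i, |clp (4 * Λ) (Gk (uf (V n)) (Kc (k + 1) n) R i a ω) -
      xiB (E n) (ξ n) (S r o) (Kc k n)
        (fun a ω => clp (4 * Λ) (Gk (uf (V n)) (Kc (k + 1) n) R i a ω)) a ω|)
        ∂(hamP (F n) (E n) (ξ n)) =
      ∑ i, ∫ ω, |clp (4 * Λ) (Gk (uf (V n)) (Kc (k + 1) n) R i a ω) -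
      xiB (E n) (ξ n) (S r o) (Kc k n)
        (fun a ω => clp (4 * Λ) (Gk (uf (V n)) (Kc (k + 1) n) R i a ω)) a ω|
        ∂(hamP (F n) (E n) (ξ n)) := fun a => integral_finsetSum _ fun i _ => habs i a
  have key := sum_blocks (μ := hamP (F n) (E n) (ξ n)) (V := V n) (c := c) hc hS0 hSr hI
    (Q := fun a ω => qf (fun i j => B r o n i j a ω) (psi Λ fun i => xiB (E n) (ξ n) (S r o) (Kc k n)
      (fun a ω => clp (4 * Λ) (Gk (uf (V n)) (Kc (k + 1) n) R i a ω)) a ω))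
    (X := fun a ω => ∑ i, |clp (4 * Λ) (Gk (uf (V n)) (Kc (k + 1) n) R i a ω) -
      xiB (E n) (ξ n) (S r o) (Kc k n)
        (fun a ω => clp (4 * Λ) (Gk (uf (V n)) (Kc (k + 1) n) R i a ω)) a ω|)
    (cd := fun p a ω => |cdev r (uf (V n)) (Gk (uf (V n)) (Kc (k + 1) n) R 0)
      (Gk (uf (V n)) (Kc (k + 1) n) R 1) p a ω|)
    (Z1 := fun a w ω => if M1 < D r o n a w ω then D r o n a w ω else 0)
    (Z2 := fun a w ω => if M < D r o n a w ω then D r o n a w ω else 0)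
    (dv := fun a w ω => dv r o n a w ω)
    (far := fun a w ω => if ∃ w' : ↥(blk (S r o) a), κ * r < dv r o n a w' ω then D r o n a w ω
      else 0)
    (δ := δ n) (th := θ) (Λ := Λ) (m := κ * r) (M := M) (M1 := M1)
    (nC := ε1 / (5 * (A * M1 * Ca + 1)) * (S r o).card) (cN := ((S r o).card : ℝ)⁻¹) rfl hΛ.le hθ
    hM hM1 (fun a ha => ?_) (fl := fl) (x := ε2) (U0 := ε1 / (5 * (A * M1 * Ca + 1)) * Ca)
    (U1 := ε1 / (5 * A)) (U2 := C2) (U3 := ε1 / (5 * Bq)) (U4 := ε1 / (5 * G3) / (r : ℝ) ^ 2)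
    (fun p hp' => hfl p hp') ?_ ?_ g1 g2 g3 ?_
  · -- conclusion
    have hE : δ n ^ 2 * Ex (hamP (F n) (E n) (ξ n)) (Kc k n) (fun a ω =>
        qf (fun i j => B r o n i j a ω) (psi Λ fun i => xiB (E n) (ξ n) (S r o) (Kc k n)
          (fun a ω => clp (4 * Λ) (Gk (uf (V n)) (Kc (k + 1) n) R i a ω)) a ω)) ≤
        (1 + θ) * (δ n ^ 2 * ∫ ω, en (V n) ω ∂(hamP (F n) (E n) (ξ n))) +
        c1 * (8 * Λ ^ 2 * (M1 * (ε1 / (5 * (A * M1 * Ca + 1)) * Ca) + ε1 / (5 * A)) +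
        2 * ((κ * r)⁻¹) ^ 2 * (M * (28 * Λ * r) * (2 * fl + 10 * r * ε2 + 8 * Λ * C2) +
          (28 * Λ * r) ^ 2 * (ε1 / (5 * Bq))) +
        (8 * Λ ^ 2 + 2 * ((κ * r) ^ 2)⁻¹ * ((S r o).card * (28 * Λ * r) ^ 2)) *
          (ε1 / (5 * G3) / (r : ℝ) ^ 2)) := key
    refine hE.trans ?_
    have hnum := num_final (c1 := c1) (Λ := Λ) (κ := κ) (r := r) (M := M) (M1 := M1)
      (N := (S r o).card) (U0 := ε1 / (5 * (A * M1 * Ca + 1)) * Ca) (η1 := ε1 / (5 * A))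
      (η2 := ε1 / (5 * Bq)) (η3 := ε1 / (5 * G3)) (C2 := C2) (fl := fl) (x := ε2) (ε1 := ε1)
      hc1 hΛ hκ hr1 hM hN2 hfl0 (by positivity) ?_ ?_ ?_ ?_ ?_
    · have hee := mul_le_mul_of_nonneg_left (H.e_eq n) (by positivity : 0 ≤ 1 + θ)
      exact (add_le_add hee hnum).trans (le_of_eq (add_assoc _ _ _).symm)
    · exact num_p1 hA0.le hM1 hCa hε1.le
    · exact num_p2 hA0
    · exact num_p3 hrpos hε1 (hr16.trans (by exact_mod_cast (by omega : r16 < r)))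
    · exact num_p2 hBq0
    · exact num_p2 hG30
  · -- one block
    obtain ⟨hI', hAI', hPr, L, RB, hBo, hBp, hBT⟩ := gblk a ha
    have hmr : κ * r ≤ r := mul_le_of_le_one_left hrpos.le hκ1
    have h := one_block (H.anch n) (H.xi n) hS0 hSr ha hI' hAI' hPr hc (H.diff n) (H.rig n)
      (H.bd n) RB (mul_pos hκ hrpos) hmr hG (hcol r (by omega) o a) hΛ hθ hM hM1
      (H.bB r hr0 o n) hBo hBp (by positivity) hBT
    rw [hxs a]
    exact h
  · -- the slopes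
    have : ∑ a ∈ Kc k n, ∫ ω, (∑ i, |clp (4 * Λ) (Gk (uf (V n)) (Kc (k + 1) n) R i a ω) -
        xiB (E n) (ξ n) (S r o) (Kc k n)
        (fun a ω => clp (4 * Λ) (Gk (uf (V n)) (Kc (k + 1) n) R i a ω)) a ω|)
        ∂(hamP (F n) (E n) (ξ n)) = ∑ i, Ex (hamP (F n) (E n) (ξ n)) (Kc k n) (fun a ω =>
        |clp (4 * Λ) (Gk (uf (V n)) (Kc (k + 1) n) R i a ω) - xiB (E n) (ξ n) (S r o) (Kc k n)
        (fun a ω => clp (4 * Λ) (Gk (uf (V n)) (Kc (k + 1) n) R i a ω)) a ω|) := by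
      simp only [hxs]
      rw [Finset.sum_comm]
      rfl
    rw [this]
    exact hXb
  · -- the area
    have e1' : δ n ^ 2 * (((S r o).card : ℝ)⁻¹ * (ε1 / (5 * (A * M1 * Ca + 1)) * (S r o).card) *
        (Kc k n).card) = ε1 / (5 * (A * M1 * Ca + 1)) * (δ n ^ 2 * (Kc k n).card) := by
      field_simp
    rw [e1']
    exact mul_le_mul_of_nonneg_left (gCa.trans (le_max_left _ _)) (by positivity)
  · -- far away
    rw [le_div_iff₀ (by positivity)]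
    rw [mul_comm]
    exact g4

end

end Crest.Agent.R144.Fa812
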