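import Mathlib
import Crest.Agent.R144.Set4_268
import Crest.Agent.R144.Rw1_146
import Crest.Agent.R144.Bnd3_991
import Crest.Agent.R144.Lc1_830

-- ▼ part R144/Fr1_353
section

/-! R144 (helper353), block B6 of doc 1945, file 1: at small scales the complement of the free sites
is, in one of the six orientations of the lattice preserving the up triangles, an approximate half
plane `{α x + β y ≥ 0}` with `β ≥ 4/5`, `0 ≤ α ≤ 19/20`. -/

set_option autoImplicit false

open Set Topology Filter Metric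

namespace Crest.Agent.R144.Fr353

open Crest.ProbabilityR.HexHeights (Adj centre)
open Crest.Agent.R144.It844 (P2)
open Crest.Agent.R144.Rw146 (Aut aut_sw aut_ro swE roE roT)
open Crest.Agent.R144.Set268

/-- lattice ball -/
noncomputable abbrev lb := Crest.Agent.R144.Rsw867.ball

/-- `N` is, in the ball of radius `C L` around `o`, between two half planes -/
structure HP (N : Set P2) (o : P2) (L : ℕ) (C : ℕ) (α β ε : ℝ) : Prop where
  a0 : 0 ≤ α
  a1 : α ≤ 19 / 20
  b0 : 4 / 5 ≤ β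
  b1 : β ≤ 1
  nrm : α ^ 2 + β ^ 2 - α * β = 3 / 4
  out : ∀ v ∈ lb o (C * L), ε * L ≤ α * (v.1 - o.1) + β * (v.2 - o.2) → v ∈ N
  inn : ∀ v ∈ lb o (C * L), α * (v.1 - o.1) + β * (v.2 - o.2) ≤ -(ε * L) → v ∉ N

/-! ### six orientations -/

/-- the real part of `z * conj w` -/
noncomputable def ip (z w : ℂ) : ℝ := z.re * w.re + z.im * w.im

theorem centre_re (δ : ℝ) (v : P2) : (centre δ v).re = δ * (v.1 + v.2 / 2) := by
  unfold centre
  simp
  left
  ring

theorem centre_im (δ : ℝ) (v : P2) : (centre δ v).im = δ * (v.2 * (Real.sqrt 3 / 2)) := by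
  unfold centre
  simp

theorem sqrt3_sq : Real.sqrt 3 * Real.sqrt 3 = 3 := Real.mul_self_sqrt (by norm_num)
theorem sqrt3_pos : 0 < Real.sqrt 3 := Real.sqrt_pos.2 (by norm_num)
theorem sqrt3_lo : 1.732 < Real.sqrt 3 := by
  rw [Real.lt_sqrt (by norm_num)]
  norm_num
theorem sqrt3_hi : Real.sqrt 3 < 1.7321 := by
  rw [Real.sqrt_lt' (by norm_num)]
  norm_num

/-- an orientation -/
structure Ori (σ : P2 ≃ P2) (u : ℂ) (α β : ℝ) : Prop where
  aut : ∃ τ, Aut σ τ
  add : ∀ v w, σ (v + w) = σ v + σ w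
  iso : ∀ δ v, ‖centre δ (σ v)‖ = ‖centre δ v‖
  lin : ∀ δ v, ip (centre δ (σ v)) u = δ * (α * v.1 + β * v.2)

theorem norm_centre_sq (δ : ℝ) (v : P2) :
    ‖centre δ v‖ ^ 2 = δ ^ 2 * ((v.1 : ℝ) ^ 2 + v.1 * v.2 + (v.2 : ℝ) ^ 2) := by
  rw [← Complex.normSq_eq_norm_sq, Complex.normSq_apply, centre_re, centre_im]
  have := sqrt3_sq
  linear_combination (δ ^ 2 * (v.2 : ℝ) ^ 2 / 4) * this

theorem iso_of {σ : P2 ≃ P2} (h : ∀ v, ((σ v).1 : ℝ) ^ 2 + (σ v).1 * (σ v).2 + ((σ v).2 : ℝ) ^ 2 =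
    (v.1 : ℝ) ^ 2 + v.1 * v.2 + (v.2 : ℝ) ^ 2) (δ : ℝ) (v : P2) :
    ‖centre δ (σ v)‖ = ‖centre δ v‖ := by
  have h1 := norm_centre_sq δ (σ v)
  rw [h v, ← norm_centre_sq] at h1
  exact (sq_eq_sq₀ (norm_nonneg _) (norm_nonneg _)).1 h1

/-- the closest lattice direction -/
theorem exists_ori (u : ℂ) (hu : ‖u‖ = 1) : ∃ (σ : P2 ≃ P2) (α β : ℝ), Ori σ u α β ∧ 0 ≤ α ∧
    α ≤ 19 / 20 ∧ 4 / 5 ≤ β ∧ β ≤ 1 ∧ α ^ 2 + β ^ 2 - α * β = 3 / 4 := by
  set x := u.re with hx
  set y := u.im with hy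
  set s := Real.sqrt 3 with hs
  have hs2 : s * s = 3 := sqrt3_sq
  have hs0 : 0 < s := sqrt3_pos
  have hs1 : 1.732 < s := sqrt3_lo
  have hs3 : s < 1.7321 := sqrt3_hi
  have hxy : x * x + y * y = 1 := by
    have h1 : ‖u‖ ^ 2 = 1 := by rw [hu]; norm_num
    rw [← Complex.normSq_eq_norm_sq, Complex.normSq_apply] at h1
    exact h1
  -- the numerical consequences
  have num : ∀ α β : ℝ, α ^ 2 + β ^ 2 - α * β = 3 / 4 → s / 2 ≤ β →
      0 ≤ α ∧ α ≤ 19 / 20 ∧ 4 / 5 ≤ β ∧ β ≤ 1 ∧ α ^ 2 + β ^ 2 - α * β = 3 / 4 := by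
    intro α β h1 h2
    have h3 : β ≤ 1 := by nlinarith [sq_nonneg (α - β / 2)]
    have h4 : 3 / 4 ≤ β * β := by nlinarith
    have h5 : (α - β / 2) ^ 2 ≤ 3 / 16 := by nlinarith
    have h6 : |α - β / 2| ≤ s / 4 := by
      refine abs_le_of_sq_le_sq ?_ (by positivity)
      nlinarith
    rw [abs_le] at h6
    refine ⟨by linarith, by linarith, by linarith, h3, h1⟩
  have hor : s / 2 ≤ |x| ∨ s / 2 ≤ |x / 2 + s / 2 * y| ∨ s / 2 ≤ |-x / 2 + s / 2 * y| := by
    by_contra hcon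
    push Not at hcon
    obtain ⟨h1, h2, h3⟩ := hcon
    have hX := abs_nonneg x
    have hY := abs_nonneg y
    have hX2 : |x| * |x| = x * x := abs_mul_abs_self x
    have hY2 : |y| * |y| = y * y := abs_mul_abs_self y
    have h4 : |x| / 2 + s / 2 * |y| < s / 2 := by
      rw [abs_lt] at h2 h3
      rcases abs_cases x with ⟨e1, _⟩ | ⟨e1, _⟩ <;> rcases abs_cases y with ⟨e2, _⟩ | ⟨e2, _⟩ <;>
        rw [e1, e2] <;> nlinarith [h2.1, h2.2, h3.1, h3.2]
    have h5 : |y| < 1 - |x| * s / 3 := by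
      have : s * |y| < s * (1 - |x| * s / 3) := by nlinarith
      exact lt_of_mul_lt_mul_left this hs0.le
    have h6 : |y| * |y| < (1 - |x| * s / 3) * (1 - |x| * s / 3) := by
      have h7 : 0 ≤ 1 - |x| * s / 3 := hY.trans h5.le
      nlinarith
    have h8 : 0 < |x| * (|x| * 4 / 3 - 2 * s / 3) := by nlinarith
    have h9 : 0 < |x| * 4 / 3 - 2 * s / 3 := by
      by_contra hc
      push Not at hc
      nlinarith
    linarith
  -- the six orientations
  have o1 : Ori (Equiv.refl P2) u x (x / 2 + s / 2 * y) := by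
    refine ⟨⟨Equiv.refl _, fun t v => Iff.rfl⟩, fun _ _ => rfl, fun _ _ => rfl, fun δ v => ?_⟩
    simp only [Equiv.refl_apply, ip, centre_re, centre_im]
    ring
  have o2 : Ori swE u (x / 2 + s / 2 * y) x := by
    refine ⟨⟨_, aut_sw⟩, fun _ _ => rfl, iso_of fun v => ?_, fun δ v => ?_⟩
    · simp only [Crest.Agent.R144.Rw146.swE_apply]; ring
    · simp only [Crest.Agent.R144.Rw146.swE_apply, ip, centre_re, centre_im]
      ring
  have o3 : Ori roE u (-x / 2 + s / 2 * y) (-x) := by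
    refine ⟨⟨_, aut_ro⟩, fun v w => ?_, iso_of fun v => ?_, fun δ v => ?_⟩
    · simp only [Crest.Agent.R144.Rw146.roE_apply, Prod.fst_add, Prod.snd_add, Prod.mk_add_mk]
      ext
      · simp only; ring
      · rfl
    · simp only [Crest.Agent.R144.Rw146.roE_apply]; push_cast; ring
    · simp only [Crest.Agent.R144.Rw146.roE_apply, ip, centre_re, centre_im]
      push_cast
      ring
  have o4 : Ori (swE.trans roE) u (-x) (-x / 2 + s / 2 * y) := by
    refine ⟨⟨_, aut_sw.trans aut_ro⟩, fun v w => ?_, iso_of fun v => ?_, fun δ v => ?_⟩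
    · simp only [Equiv.trans_apply, Crest.Agent.R144.Rw146.swE_apply,
        Crest.Agent.R144.Rw146.roE_apply, Prod.fst_add, Prod.snd_add, Prod.mk_add_mk]
      ext
      · simp only; ring
      · rfl
    · simp only [Equiv.trans_apply, Crest.Agent.R144.Rw146.swE_apply,
        Crest.Agent.R144.Rw146.roE_apply]
      push_cast; ring
    · simp only [Equiv.trans_apply, Crest.Agent.R144.Rw146.swE_apply,
        Crest.Agent.R144.Rw146.roE_apply, ip, centre_re, centre_im]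
      push_cast
      ring
  have o5 : Ori (roE.trans roE) u (-(x / 2 + s / 2 * y)) (-(-x / 2 + s / 2 * y)) := by
    refine ⟨⟨_, aut_ro.trans aut_ro⟩, fun v w => ?_, iso_of fun v => ?_, fun δ v => ?_⟩
    · simp only [Equiv.trans_apply, Crest.Agent.R144.Rw146.roE_apply, Prod.fst_add, Prod.snd_add,
        Prod.mk_add_mk]
      ext <;> (simp only; ring)
    · simp only [Equiv.trans_apply, Crest.Agent.R144.Rw146.roE_apply]
      push_cast; ring
    · simp only [Equiv.trans_apply, Crest.Agent.R144.Rw146.roE_apply, ip, centre_re, centre_im]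
      push_cast
      ring
  have o6 : Ori (swE.trans (roE.trans roE)) u (-(-x / 2 + s / 2 * y)) (-(x / 2 + s / 2 * y)) := by
    refine ⟨⟨_, aut_sw.trans (aut_ro.trans aut_ro)⟩, fun v w => ?_, iso_of fun v => ?_,
      fun δ v => ?_⟩
    · simp only [Equiv.trans_apply, Crest.Agent.R144.Rw146.swE_apply,
        Crest.Agent.R144.Rw146.roE_apply, Prod.fst_add, Prod.snd_add, Prod.mk_add_mk]
      ext <;> (simp only; ring)
    · simp only [Equiv.trans_apply, Crest.Agent.R144.Rw146.swE_apply,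
        Crest.Agent.R144.Rw146.roE_apply]
      push_cast; ring
    · simp only [Equiv.trans_apply, Crest.Agent.R144.Rw146.swE_apply,
        Crest.Agent.R144.Rw146.roE_apply, ip, centre_re, centre_im]
      push_cast
      ring
  rcases hor with h | h | h
  · rcases le_abs'.1 h with h1 | h1
    · exact ⟨_, _, _, o3, num _ _ (by linear_combination (3 / 4) * hxy + (y ^ 2 / 4) * hs2)
        (by linarith)⟩
    · exact ⟨_, _, _, o2, num _ _ (by linear_combination (3 / 4) * hxy + (y ^ 2 / 4) * hs2)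
        (by linarith)⟩
  · rcases le_abs'.1 h with h1 | h1
    · exact ⟨_, _, _, o6, num _ _ (by linear_combination (3 / 4) * hxy + (y ^ 2 / 4) * hs2)
        (by linarith)⟩
    · exact ⟨_, _, _, o1, num _ _ (by linear_combination (3 / 4) * hxy + (y ^ 2 / 4) * hs2)
        (by linarith)⟩
  · rcases le_abs'.1 h with h1 | h1
    · exact ⟨_, _, _, o5, num _ _ (by linear_combination (3 / 4) * hxy + (y ^ 2 / 4) * hs2)
        (by linarith)⟩
    · exact ⟨_, _, _, o4, num _ _ (by linear_combination (3 / 4) * hxy + (y ^ 2 / 4) * hs2)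
        (by linarith)⟩

/-! ### approximate half planes -/

theorem ip_sub (a b w : ℂ) : ip (a - b) w = ip a w - ip b w := by
  simp only [ip, Complex.sub_re, Complex.sub_im]
  ring

theorem ip_neg (a w : ℂ) : ip a (-w) = -ip a w := by
  simp only [ip, Complex.neg_re, Complex.neg_im]
  ring

theorem abs_ip_le (a w : ℂ) (hw : ‖w‖ = 1) : |ip a w| ≤ ‖a‖ := by
  have h1 : ip a w = (a * (starRingEnd ℂ) w).re := by
    simp only [ip, Complex.mul_re, Complex.conj_re, Complex.conj_im]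
    ring
  rw [h1]
  refine (Complex.abs_re_le_norm _).trans ?_
  rw [norm_mul, RCLike.norm_conj, hw, mul_one]

theorem norm_add_sq' (a w : ℂ) (r : ℝ) (hw : ‖w‖ = 1) :
    ‖a - r * w‖ ^ 2 = ‖a‖ ^ 2 - 2 * r * ip a w + r ^ 2 := by
  have h1 : ‖w‖ ^ 2 = 1 := by rw [hw]; norm_num
  rw [← Complex.normSq_eq_norm_sq, Complex.normSq_apply] at h1
  rw [← Complex.normSq_eq_norm_sq, ← Complex.normSq_eq_norm_sq, Complex.normSq_apply,
    Complex.normSq_apply]
  simp only [ip, Complex.sub_re, Complex.sub_im, Complex.mul_re, Complex.mul_im, Complex.ofReal_re,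
    Complex.ofReal_im, zero_mul, sub_zero, add_zero]
  linear_combination r ^ 2 * h1

theorem continuous_ip (p w : ℂ) : Continuous fun z : ℂ => ip (z - p) w := by
  unfold ip
  fun_prop

/-- sites of a lattice ball are Euclid close -/
theorem norm_centre_le {δ : ℝ} (hδ : 0 ≤ δ) {v : P2} {k : ℕ} (h1 : |v.1| ≤ k) (h2 : |v.2| ≤ k)
    (h3 : |v.1 + v.2| ≤ k) : ‖centre δ v‖ ≤ δ * k := by
  have h4 := norm_centre_sq δ v
  have key : (v.1 : ℝ) ^ 2 + v.1 * v.2 + (v.2 : ℝ) ^ 2 ≤ (k : ℝ) ^ 2 := by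
    have e : v.1 ^ 2 + v.1 * v.2 + v.2 ^ 2 ≤ (k : ℤ) ^ 2 := by
      rw [abs_le] at h1 h2 h3
      rcases le_total 0 v.1 with a | a <;> rcases le_total 0 v.2 with b | b <;>
        [nlinarith; skip; skip; nlinarith]
      · rcases le_total 0 (v.1 + v.2) with c | c <;> nlinarith
      · rcases le_total 0 (v.1 + v.2) with c | c <;> nlinarith
    exact_mod_cast e
  refine abs_le_of_sq_le_sq' ?_ (by positivity) |>.2
  rw [h4, mul_pow]
  exact mul_le_mul_of_nonneg_left key (sq_nonneg _)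

variable {D : Set ℂ} {γ : ℝ → ℂ} {P : Finset ℂ} {δ : ℕ → ℝ} {Λ : ℕ → Finset (ℤ × ℤ)}
  {τ : ℕ → ℤ × ℤ → ℤ}

theorem exists_site {δ : ℝ} (hδ : 0 < δ) (z : ℂ) : ∃ v : P2, dist (centre δ v) z ≤ δ := by
  obtain ⟨w, hw⟩ := Crest.Agent.R144.HexTil353.exists_cell hδ z
  exact ⟨w, by rw [dist_comm]; exact Crest.Agent.R144.Cov353.dist_le_cell hδ hw⟩

/-- **the non-free sites are an approximate half plane at small scales** -/
theorem halfplane (h : Setup D γ P δ Λ τ) (C : ℕ) :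
    ∃ ρ1 > 0, ∀ p ∈ frontier D, ∃ (σ : P2 ≃ P2) (u : ℂ) (α β : ℝ) (o : ℕ → P2), Ori σ u α β ∧
      (∀ n, dist (centre (δ n) (σ (o n))) p ≤ δ n) ∧
      ∀ ρ, 0 < ρ → ρ ≤ ρ1 → ∀ᶠ n in atTop, HP {v | σ v ∉ Λ n} (o n) ⌊ρ / δ n⌋₊ C α β 1 := by
  obtain ⟨r0, hr0, hball⟩ := exists_balls h.dom h.c2
  refine ⟨r0 / (2 * (C + 1) ^ 2), by positivity, fun p hp => ?_⟩
  obtain ⟨n, hn, hb⟩ := hball p hp
  obtain ⟨hb1, hb2⟩ := hb r0 hr0 le_rfl
  obtain ⟨σ, α, β, ho, ha0, ha1, hb0, hb1', hnrm⟩ := exists_ori (-n) (by rw [norm_neg]; exact hn)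
  choose w hw using fun k => exists_site (h.sites.pos k) p
  refine ⟨σ, -n, α, β, fun k => σ.symm (w k), ho, fun k => by rw [σ.apply_symm_apply]; exact hw k,
    fun ρ hρ hρ1 => ?_⟩
  have hC : (0 : ℝ) ≤ C := Nat.cast_nonneg _
  have hρ2 : (C + 1) ^ 2 * ρ < r0 := by
    rw [le_div_iff₀ (by positivity)] at hρ1
    nlinarith [show 0 < ((C : ℝ) + 1) ^ 2 * ρ by positivity]
  -- the two compact sets
  set K1 : Set ℂ := closedBall p ((C + 1) * ρ) ∩ {z | ρ / 2 ≤ ip (z - p) n} with hK1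
  set K2 : Set ℂ := closedBall p ((C + 1) * ρ) ∩ {z | ip (z - p) n ≤ -(ρ / 2)} with hK2
  have hK1c : IsCompact K1 := (isCompact_closedBall _ _).inter_right
    (isClosed_le continuous_const (continuous_ip p n))
  have hK2c : IsCompact K2 := (isCompact_closedBall _ _).inter_right
    (isClosed_le (continuous_ip p n) continuous_const)
  have hsq : ∀ z ∈ closedBall p ((C + 1) * ρ), ‖z - p‖ ^ 2 ≤ ((C + 1) * ρ) ^ 2 := by
    intro z hz
    rw [mem_closedBall, dist_eq_norm] at hz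
    exact pow_le_pow_left₀ (norm_nonneg _) hz 2
  have hK1s : K1 ⊆ D := by
    rintro z ⟨hz1, hz2⟩
    apply hb1
    rw [Metric.mem_ball, dist_eq_norm]
    have e1 : z - (p + r0 * n) = (z - p) - r0 * n := by ring
    refine lt_of_pow_lt_pow_left₀ 2 hr0.le ?_
    rw [e1, norm_add_sq' _ _ _ hn]
    have h1 := hsq z hz1
    have h2 : ρ / 2 ≤ ip (z - p) n := hz2
    nlinarith
  have hK2s : K2 ⊆ (closure D)ᶜ := by
    rintro z ⟨hz1, hz2⟩ hz3
    refine disjoint_left.1 hb2 ?_ hz3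
    rw [Metric.mem_ball, dist_eq_norm]
    have e1 : z - (p - r0 * n) = (z - p) - r0 * (-n) := by ring
    refine lt_of_pow_lt_pow_left₀ 2 hr0.le ?_
    rw [e1, norm_add_sq' _ _ _ (by rw [norm_neg]; exact hn), ip_neg]
    have h1 := hsq z hz1
    have h2 : ip (z - p) n ≤ -(ρ / 2) := hz2
    nlinarith
  obtain ⟨ε, hε, hεs⟩ := hK2c.exists_cthickening_subset_open isClosed_closure.isOpen_compl hK2s
  filter_upwards [h.free hK1c hK1s, h.sites.out (ε / 2) (by positivity),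
    h.sites.small (show 0 < ρ / 4 by positivity)] with k hk1 hk2 hk3
  have hδ := h.sites.pos k
  set m := ⌊ρ / δ k⌋₊ with hm
  have hm1 : (m : ℝ) * δ k ≤ ρ := by
    have := Nat.floor_le (show 0 ≤ ρ / δ k by positivity)
    rw [le_div_iff₀ hδ] at this
    exact this
  have hm2 : ρ < (m + 1) * δ k := by
    have := Nat.lt_floor_add_one (ρ / δ k)
    rw [div_lt_iff₀ hδ] at this
    exact this
  -- position of a site of the ball
  have hpos : ∀ v ∈ lb (σ.symm (w k)) (C * m), centre (δ k) (σ v) ∈ closedBall p ((C + 1) * ρ) ∧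
      |ip (centre (δ k) (σ v) - p) n +
        δ k * (α * (v.1 - (σ.symm (w k)).1) + β * (v.2 - (σ.symm (w k)).2))| ≤ δ k := by
    intro v hv
    rw [Crest.Agent.R144.Rsw867.mem_ball] at hv
    set o := σ.symm (w k) with hodef
    have hwo : w k = σ o := (σ.apply_symm_apply _).symm
    have e1 : σ v = σ (v - o) + w k := by
      rw [hwo, ← ho.add, sub_add_cancel]
    have e2 : centre (δ k) (σ v) = centre (δ k) (σ (v - o)) + centre (δ k) (w k) := by
      rw [e1]
      unfold centre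
      push_cast [Prod.fst_add, Prod.snd_add]
      ring
    have h1 : ‖centre (δ k) (v - o)‖ ≤ δ k * (C * m : ℕ) :=
      norm_centre_le hδ.le hv.1 hv.2.1 hv.2.2
    rw [← ho.iso] at h1
    have h2 := hw k
    rw [dist_eq_norm] at h2
    constructor
    · rw [mem_closedBall, dist_eq_norm, e2]
      have e3 : centre (δ k) (σ (v - o)) + centre (δ k) (w k) - p =
        centre (δ k) (σ (v - o)) + (centre (δ k) (w k) - p) := by ring
      rw [e3]
      refine (norm_add_le _ _).trans ?_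
      push_cast at h1
      nlinarith
    · have e3 : centre (δ k) (σ v) - p = centre (δ k) (σ (v - o)) - (p - centre (δ k) (w k)) := by
        rw [e2]; ring
      have e4 := ho.lin (δ k) (v - o)
      rw [ip_neg] at e4
      have e5 : ((v - o).1 : ℝ) = v.1 - o.1 := by push_cast [Prod.fst_sub]; ring
      have e6 : ((v - o).2 : ℝ) = v.2 - o.2 := by push_cast [Prod.snd_sub]; ring
      rw [e5, e6] at e4
      rw [e3, ip_sub]
      have e7 : ip (centre (δ k) (σ (v - o))) n - ip (p - centre (δ k) (w k)) n +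
          δ k * (α * (v.1 - o.1) + β * (v.2 - o.2)) = -ip (p - centre (δ k) (w k)) n := by
        linarith
      rw [e7, abs_neg]
      refine (abs_ip_le _ _ hn).trans ?_
      rw [norm_sub_rev]
      exact h2
  refine ⟨ha0, ha1, hb0, hb1', hnrm, ?_, ?_⟩
  · intro v hv hf hvΛ
    obtain ⟨h1, h2⟩ := hpos v hv
    rw [abs_le] at h2
    have h3 : ip (centre (δ k) (σ v) - p) n ≤ -(ρ / 2) := by nlinarith
    have h4 : centre (δ k) (σ v) ∈ K2 := ⟨h1, h3⟩
    have h5 := hk2 _ hvΛ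
    have h6 := cthickening_subset_thickening' hε (by linarith : ε / 2 < ε) D h5
    rw [mem_thickening_iff] at h6
    obtain ⟨d, hd, hdd⟩ := h6
    refine hεs ?_ (subset_closure hd)
    exact mem_cthickening_of_dist_le d _ ε K2 h4 (by rw [dist_comm]; exact hdd.le)
  · intro v hv hf
    obtain ⟨h1, h2⟩ := hpos v hv
    rw [abs_le] at h2
    have h3 : ρ / 2 ≤ ip (centre (δ k) (σ v) - p) n := by nlinarith
    show ¬ (σ v ∉ Λ k)
    rw [not_not]
    exact hk1 _ ⟨h1, h3⟩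

end Crest.Agent.R144.Fr353
end

-- ▼ part R144/Fr2_353
section

/-! R144 (helper353), block B6 of doc 1945, file 2: 991's `Frame` from an approximate half plane and
local connectivity next to the two exterior points. -/

set_option autoImplicit false

namespace Crest.Agent.R144.Fr353

open Crest.ProbabilityR.HexHeights (Adj)
open Crest.Agent.R144.It844 (P2 adj_iff)
open Crest.Agent.R144.Zg349 (StepIn)
open Crest.Agent.R144.Rsw867 (ball mem_ball ball_mono)
open Crest.Agent.R144.Bnd991 (Frame wd mg)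
open Relation (ReflTransGen)

/-! ### constants -/

def M1 (K : ℕ) : ℕ := 4 * K + 40
def XX (K R S : ℕ) : ℕ := M1 K + S + R + K + 4
def TT (K : ℕ) : ℕ := 2 * K + 8
def WW (K R S : ℕ) : ℕ := 2 * XX K R S + TT K
def ZZ (K R S : ℕ) : ℕ := 2 * XX K R S + 4
def M2 (K R S : ℕ) : ℕ := 4 * XX K R S + TT K + 10
def CC (K R S : ℕ) : ℕ := M2 K R S + K + 20

/-- points of the coarse lattice -/
def pt (o : P2) (m : ℕ) (c : ℤ × ℤ) : P2 := (o.1 + m * c.1, o.2 + m * c.2)

/-- heights of the two exterior points -/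
noncomputable def YY (α β : ℝ) (X : ℕ) : Bool → ℤ
  | false => ⌈(α * X + 2) / β⌉
  | true => ⌈(2 - α * X) / β⌉

/-- coarse position of the exterior points -/
noncomputable def cb (α β : ℝ) (X : ℕ) : Bool → ℤ × ℤ
  | false => (-(X : ℤ), YY α β X false)
  | true => ((X : ℤ), YY α β X true)

noncomputable def n1 (α β : ℝ) (K R S : ℕ) : ℤ := YY α β (XX K R S) false - TT K + WW K R S
noncomputable def n2 (α β : ℝ) (K R S : ℕ) : ℤ := YY α β (XX K R S) true - TT K + WW K R S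

/-- coarse chain -/
noncomputable def cc (α β : ℝ) (K R S : ℕ) (i : ℕ) : ℤ × ℤ :=
  if (i : ℤ) ≤ n1 α β K R S then (-(XX K R S : ℤ), YY α β (XX K R S) false - TT K - i)
  else if (i : ℤ) ≤ n1 α β K R S + 2 * XX K R S then
    (-(XX K R S : ℤ) + (i - n1 α β K R S), -(WW K R S : ℤ))
  else ((XX K R S : ℤ), -(WW K R S : ℤ) + (i - n1 α β K R S - 2 * XX K R S))

noncomputable def kk (α β : ℝ) (K R S : ℕ) : ℕ :=
  (n1 α β K R S + 2 * XX K R S + n2 α β K R S).toNat

/-! ### coarse geometry -/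

theorem mem_big {o v : P2} {m k B : ℕ} {c : ℤ × ℤ} (hv : v ∈ ball (pt o m c) (k * m))
    (h1 : |c.1| + k ≤ B) (h2 : |c.2| + k ≤ B) (h3 : |c.1 + c.2| + k ≤ B) : v ∈ ball o (B * m) := by
  have hm : (0 : ℤ) ≤ m := Int.natCast_nonneg _
  have key : ∀ x y z c' : ℤ, |z| ≤ (k * m : ℕ) → |c'| + k ≤ B → x = z + m * c' → |x| ≤ (B * m : ℕ) := by
    intro x y z c' hz hc hx
    rw [hx]
    push_cast at hz ⊢
    have e1 : |(m : ℤ) * c'| = m * |c'| := by rw [abs_mul, abs_of_nonneg hm]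
    have e2 := abs_add_le z (m * c')
    rw [e1] at e2
    nlinarith
  rw [mem_ball] at hv ⊢
  unfold pt at hv
  refine ⟨key _ 0 _ _ hv.1 h1 (by ring), key _ 0 _ _ hv.2.1 h2 (by ring),
    key _ 0 _ _ hv.2.2 h3 (by ring)⟩

theorem not_mem_small {o v : P2} {m k B : ℕ} {c : ℤ × ℤ} (hm : 1 ≤ m)
    (hv : v ∈ ball (pt o m c) (k * m)) (h : B + k < |c.1| ∨ B + k < |c.2|) :
    v ∉ ball o (B * m) := by
  have hm' : (1 : ℤ) ≤ m := by exact_mod_cast hm
  have key : ∀ x z c' : ℤ, |z| ≤ (k * m : ℕ) → (B : ℤ) + k < |c'| → x = z + m * c' →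
      ¬ |x| ≤ (B * m : ℕ) := by
    intro x z c' hz hc hx hcon
    push_cast at hz hcon
    have e1 : |(m : ℤ) * c'| = m * |c'| := by rw [abs_mul, abs_of_nonneg (by omega)]
    have e2 : (m : ℤ) * c' = x - z := by rw [hx]; ring
    have e3 := abs_sub x z
    rw [← e2, e1] at e3
    nlinarith
  intro hcon
  rw [mem_ball] at hv hcon
  unfold pt at hv
  rcases h with h | h
  · exact key _ _ _ hv.1 h (by ring) hcon.1
  · exact key _ _ _ hv.2.1 h (by ring) hcon.2.1

/-- the linear form on a ball -/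
theorem form_le {α β : ℝ} (ha0 : 0 ≤ α) (ha1 : α ≤ 1) (hb0 : 0 ≤ β) (hb1 : β ≤ 1) {x y k : ℝ}
    (h1 : |x| ≤ k) (h2 : |y| ≤ k) (h3 : |x + y| ≤ k) : |α * x + β * y| ≤ k := by
  rw [abs_le] at *
  obtain ⟨h1, h1'⟩ := h1
  obtain ⟨h2, h2'⟩ := h2
  obtain ⟨h3, h3'⟩ := h3
  rcases le_total 0 x with a | a <;> rcases le_total 0 y with b | b
  · constructor <;> nlinarith [mul_nonneg ha0 a, mul_nonneg hb0 b,
      mul_nonneg (sub_nonneg.2 ha1) a, mul_nonneg (sub_nonneg.2 hb1) b]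
  · constructor <;> nlinarith [mul_nonneg ha0 a, mul_nonneg hb0 (neg_nonneg.2 b),
      mul_nonneg (sub_nonneg.2 ha1) a, mul_nonneg (sub_nonneg.2 hb1) (neg_nonneg.2 b)]
  · constructor <;> nlinarith [mul_nonneg ha0 (neg_nonneg.2 a), mul_nonneg hb0 b,
      mul_nonneg (sub_nonneg.2 ha1) (neg_nonneg.2 a), mul_nonneg (sub_nonneg.2 hb1) b]
  · constructor <;> nlinarith [mul_nonneg ha0 (neg_nonneg.2 a), mul_nonneg hb0 (neg_nonneg.2 b),
      mul_nonneg (sub_nonneg.2 ha1) (neg_nonneg.2 a), mul_nonneg (sub_nonneg.2 hb1) (neg_nonneg.2 b)]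

theorem form_ball {α β : ℝ} (ha0 : 0 ≤ α) (ha1 : α ≤ 1) (hb0 : 0 ≤ β) (hb1 : β ≤ 1) {o v : P2}
    {m k : ℕ} {c : ℤ × ℤ} (hv : v ∈ ball (pt o m c) (k * m)) :
    |(α * (v.1 - o.1) + β * (v.2 - o.2)) - m * (α * c.1 + β * c.2)| ≤ k * m := by
  rw [mem_ball] at hv
  unfold pt at hv
  obtain ⟨h1, h2, h3⟩ := hv
  have g1 : |((v.1 : ℝ) - (o.1 + m * c.1))| ≤ k * m := by exact_mod_cast h1
  have g2 : |((v.2 : ℝ) - (o.2 + m * c.2))| ≤ k * m := by exact_mod_cast h2
  have g3 : |((v.1 : ℝ) - (o.1 + m * c.1)) + ((v.2 : ℝ) - (o.2 + m * c.2))| ≤ k * m := by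
    exact_mod_cast h3
  have := form_le ha0 ha1 hb0 hb1 g1 g2 g3
  have e : (α * (v.1 - o.1) + β * (v.2 - o.2)) - m * (α * c.1 + β * c.2) =
      α * ((v.1 : ℝ) - (o.1 + m * c.1)) + β * ((v.2 : ℝ) - (o.2 + m * c.2)) := by ring
  rw [e]
  exact this

theorem path_vert {S : Set P2} {x y : ℤ} (k : ℕ) (h : ∀ t : ℕ, t ≤ k → ((x, y + t) : P2) ∈ S) :
    ReflTransGen (StepIn S) (x, y) (x, y + k) := by
  induction k with
  | zero => simpa using ReflTransGen.refl
  | succ k ih =>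
    refine (ih fun t ht => h t (by omega)).tail ⟨h k (by omega), ?_, ?_⟩
    · exact h (k + 1) le_rfl
    · rw [adj_iff]
      right; right; left
      push_cast
      simp only [Prod.mk.injEq, true_and]
      ring

theorem path_left {S : Set P2} {x y : ℤ} (k : ℕ) (h : ∀ t : ℕ, t ≤ k → ((x + t, y) : P2) ∈ S) :
    ReflTransGen (StepIn S) (x, y) (x + k, y) := by
  induction k with
  | zero => simpa using ReflTransGen.refl
  | succ k ih =>
    refine (ih fun t ht => h t (by omega)).tail ⟨h k (by omega), ?_, ?_⟩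
    · exact h (k + 1) le_rfl
    · rw [adj_iff]
      left
      push_cast
      simp only [Prod.mk.injEq, and_true]
      ring

/-! ### the numbers of the frame -/

section
variable {α β : ℝ}

theorem YYf_bd (ha0 : 0 ≤ α) (ha1 : α ≤ 19 / 20) (hb0 : 4 / 5 ≤ β) (hb1 : β ≤ 1) (X : ℕ) :
    α * X + 2 ≤ β * YY α β X false ∧ β * YY α β X false ≤ α * X + 3 ∧
      1 ≤ YY α β X false ∧ YY α β X false ≤ 2 * X + 4 := by
  have hb : 0 < β := by linarith
  have hX : (0 : ℝ) ≤ X := Nat.cast_nonneg _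
  have h1 := Int.le_ceil ((α * X + 2) / β)
  have h2 := Int.ceil_lt_add_one ((α * X + 2) / β)
  rw [div_le_iff₀ hb] at h1
  have h2' : (⌈(α * X + 2) / β⌉ : ℝ) * β < α * X + 2 + β := by
    have := mul_lt_mul_of_pos_right h2 hb
    rw [add_mul, one_mul, div_mul_cancel₀ _ hb.ne'] at this
    exact this
  unfold YY
  have hax : 0 ≤ α * X := mul_nonneg ha0 hX
  refine ⟨by linarith, by linarith, ?_, ?_⟩
  · rw [Int.one_le_ceil_iff]
    positivity
  · have h3 : ((⌈(α * X + 2) / β⌉ : ℤ) : ℝ) ≤ ((2 * X + 4 : ℤ) : ℝ) := by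
      push_cast
      by_contra hcon
      push Not at hcon
      nlinarith
    exact_mod_cast h3

theorem YYt_bd (ha0 : 0 ≤ α) (ha1 : α ≤ 19 / 20) (hb0 : 4 / 5 ≤ β) (hb1 : β ≤ 1) (X : ℕ) :
    2 - α * X ≤ β * YY α β X true ∧ β * YY α β X true ≤ 3 - α * X ∧
      -(2 * X : ℤ) ≤ YY α β X true ∧ YY α β X true ≤ 4 := by
  have hb : 0 < β := by linarith
  have hX : (0 : ℝ) ≤ X := Nat.cast_nonneg _
  have h1 := Int.le_ceil ((2 - α * X) / β)
  have h2 := Int.ceil_lt_add_one ((2 - α * X) / β)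
  rw [div_le_iff₀ hb] at h1
  have h2' : (⌈(2 - α * X) / β⌉ : ℝ) * β < 2 - α * X + β := by
    have := mul_lt_mul_of_pos_right h2 hb
    rw [add_mul, one_mul, div_mul_cancel₀ _ hb.ne'] at this
    exact this
  unfold YY
  have hax : 0 ≤ α * X := mul_nonneg ha0 hX
  refine ⟨by linarith, by linarith, ?_, ?_⟩
  · have h3 : ((-(2 * X : ℤ) : ℤ) : ℝ) ≤ ((⌈(2 - α * X) / β⌉ : ℤ) : ℝ) := by
      push_cast
      by_contra hcon
      push Not at hcon
      nlinarith
    exact_mod_cast h3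
  · have h3 : ((⌈(2 - α * X) / β⌉ : ℤ) : ℝ) ≤ ((4 : ℤ) : ℝ) := by
      push_cast
      by_contra hcon
      push Not at hcon
      nlinarith
    exact_mod_cast h3

/-- the coarse chain: position and linear form -/
theorem cc_spec (ha0 : 0 ≤ α) (ha1 : α ≤ 19 / 20) (hb0 : 4 / 5 ≤ β) (hb1 : β ≤ 1) (K R S : ℕ) {i : ℕ}
    (hi : i ≤ kk α β K R S) :
    α * (cc α β K R S i).1 + β * (cc α β K R S i).2 ≤ -(K + 1) ∧
      |(cc α β K R S i).1| ≤ XX K R S ∧ |(cc α β K R S i).2| ≤ WW K R S + 4 ∧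
      ((XX K R S : ℤ) ≤ |(cc α β K R S i).1| ∨ (WW K R S : ℤ) ≤ |(cc α β K R S i).2|) := by
  obtain ⟨l1, l2, l3, l4⟩ := YYf_bd ha0 ha1 hb0 hb1 (XX K R S)
  obtain ⟨t1, t2, t3, t4⟩ := YYt_bd ha0 ha1 hb0 hb1 (XX K R S)
  have hW : WW K R S = 2 * XX K R S + TT K := rfl
  have hT : TT K = 2 * K + 8 := rfl
  have hN1 : n1 α β K R S = YY α β (XX K R S) false - TT K + WW K R S := rfl
  have hN2 : n2 α β K R S = YY α β (XX K R S) true - TT K + WW K R S := rfl
  have hn1 : 0 ≤ n1 α β K R S := by omega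
  have hn2 : 0 ≤ n2 α β K R S := by omega
  have hi' : (i : ℤ) ≤ n1 α β K R S + 2 * XX K R S + n2 α β K R S := by
    unfold kk at hi
    omega
  have hK : (0 : ℝ) ≤ K := Nat.cast_nonneg _
  have hTr : ((TT K : ℕ) : ℝ) = 2 * K + 8 := by rw [hT]; push_cast; ring
  have hWr : ((WW K R S : ℕ) : ℝ) = 2 * (XX K R S : ℕ) + (2 * K + 8) := by
    rw [hW]; push_cast; rw [hTr]
  have hX : (0 : ℝ) ≤ (XX K R S : ℕ) := Nat.cast_nonneg _
  unfold cc
  split_ifs with h1 h2
  · have hi0 : (0 : ℝ) ≤ i := Nat.cast_nonneg _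
    refine ⟨?_, ?_, ?_, Or.inl ?_⟩
    · push_cast
      rw [hTr]
      nlinarith
    · simp only [abs_neg, Nat.abs_cast, le_refl]
    · simp only [abs_le]; omega
    · simp only [abs_neg, Nat.abs_cast, le_refl]
  · push Not at h1
    have h1r : ((n1 α β K R S : ℤ) : ℝ) < (i : ℝ) := by exact_mod_cast h1
    have h2r : (i : ℝ) ≤ ((n1 α β K R S : ℤ) : ℝ) + 2 * (XX K R S : ℕ) := by exact_mod_cast h2
    refine ⟨?_, ?_, ?_, Or.inr ?_⟩
    · push_cast
      rw [hWr]
      nlinarith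
    · simp only [abs_le]; omega
    · simp only [abs_le]; omega
    · simp only [abs_neg, Nat.abs_cast, le_refl]
  · push Not at h1 h2
    have h3 : (-(WW K R S : ℤ) + (i - n1 α β K R S - 2 * XX K R S)) ≤
      YY α β (XX K R S) true - TT K := by omega
    have h3r : ((-(WW K R S : ℤ) + (i - n1 α β K R S - 2 * XX K R S) : ℤ) : ℝ) ≤
      ((YY α β (XX K R S) true : ℤ) : ℝ) - (2 * K + 8) := by
      rw [← hTr]
      exact_mod_cast h3
    refine ⟨?_, ?_, ?_, Or.inl ?_⟩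
    · simp only
      have e : (((XX K R S : ℕ) : ℤ) : ℝ) = ((XX K R S : ℕ) : ℝ) := by norm_cast
      rw [e]
      nlinarith
    · simp only [Nat.abs_cast, le_refl]
    · simp only [abs_le]; omega
    · simp only [Nat.abs_cast, le_refl]

theorem cc_zero (ha0 : 0 ≤ α) (ha1 : α ≤ 19 / 20) (hb0 : 4 / 5 ≤ β) (hb1 : β ≤ 1) (K R S : ℕ) :
    cc α β K R S 0 = (-(XX K R S : ℤ), YY α β (XX K R S) false - TT K) := by
  obtain ⟨l1, l2, l3, l4⟩ := YYf_bd ha0 ha1 hb0 hb1 (XX K R S)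
  have hW : WW K R S = 2 * XX K R S + TT K := rfl
  have hN1 : n1 α β K R S = YY α β (XX K R S) false - TT K + WW K R S := rfl
  unfold cc
  rw [if_pos (by push_cast; omega)]
  push_cast
  rw [sub_zero]

theorem cc_kk (ha0 : 0 ≤ α) (ha1 : α ≤ 19 / 20) (hb0 : 4 / 5 ≤ β) (hb1 : β ≤ 1) (K R S : ℕ) :
    cc α β K R S (kk α β K R S) = ((XX K R S : ℤ), YY α β (XX K R S) true - TT K) := by
  obtain ⟨l1, l2, l3, l4⟩ := YYf_bd ha0 ha1 hb0 hb1 (XX K R S)
  obtain ⟨t1, t2, t3, t4⟩ := YYt_bd ha0 ha1 hb0 hb1 (XX K R S)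
  have hW : WW K R S = 2 * XX K R S + TT K := rfl
  have hT : TT K = 2 * K + 8 := rfl
  have hN1 : n1 α β K R S = YY α β (XX K R S) false - TT K + WW K R S := rfl
  have hN2 : n2 α β K R S = YY α β (XX K R S) true - TT K + WW K R S := rfl
  have hn1 : 0 ≤ n1 α β K R S := by omega
  have hn2 : 0 ≤ n2 α β K R S := by omega
  have hk : ((kk α β K R S : ℕ) : ℤ) = n1 α β K R S + 2 * XX K R S + n2 α β K R S := by
    unfold kk
    omega
  have hM : 0 < XX K R S := by unfold XX; omega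
  unfold cc
  rw [hk]
  split_ifs with h1 h2
  · omega
  · have h3 : n2 α β K R S = 0 := by omega
    ext
    · simp only; omega
    · simp only; omega
  · ext
    · rfl
    · simp only; omega

theorem cc_step (K R S : ℕ) (i : ℕ) :
    cc α β K R S (i + 1) - cc α β K R S i = (0, -1) ∨ cc α β K R S (i + 1) - cc α β K R S i = (1, 0) ∨
      cc α β K R S (i + 1) - cc α β K R S i = (0, 1) ∨
      (kk α β K R S < i + 1) := by
  by_cases hk : kk α β K R S < i + 1
  · exact Or.inr (Or.inr (Or.inr hk))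
  · unfold kk at hk
    have hN1 : n1 α β K R S = YY α β (XX K R S) false - TT K + WW K R S := rfl
    have hX : 0 < XX K R S := by unfold XX; omega
    unfold cc
    push_cast
    split_ifs with h1 h2 h3 h4 h5 h6 <;>
      simp only [Prod.mk_sub_mk, Prod.mk.injEq] <;> omega

theorem kk_le (ha0 : 0 ≤ α) (ha1 : α ≤ 19 / 20) (hb0 : 4 / 5 ≤ β) (hb1 : β ≤ 1) (K R S : ℕ) :
    kk α β K R S ≤ 10 * XX K R S + 2 * TT K + 10 := by
  obtain ⟨l1, l2, l3, l4⟩ := YYf_bd ha0 ha1 hb0 hb1 (XX K R S)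
  obtain ⟨t1, t2, t3, t4⟩ := YYt_bd ha0 ha1 hb0 hb1 (XX K R S)
  have hW : WW K R S = 2 * XX K R S + TT K := rfl
  have hN1 : n1 α β K R S = YY α β (XX K R S) false - TT K + WW K R S := rfl
  have hN2 : n2 α β K R S = YY α β (XX K R S) true - TT K + WW K R S := rfl
  unfold kk
  omega

end

end Crest.Agent.R144.Fr353
private theorem rz_dda3dd89e7 : type_of% @_root_.Crest.Agent.R144.Fr353.cb.eq_1 := @_root_.Crest.Agent.R144.Fr353.cb.eq_1 -- L37
end

-- ▼ part R144/Fr3_353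
section

/-! R144 (helper353), block B6 of doc 1945, file 3: **991's `Frame`** from an approximate half plane
and local connectivity next to the two exterior points. -/

set_option autoImplicit false

namespace Crest.Agent.R144.Fr353

open Crest.ProbabilityR.HexHeights (Adj)
open Crest.Agent.R144.It844 (P2 adj_iff)
open Crest.Agent.R144.Zg349 (StepIn)
open Crest.Agent.R144.Rsw867 (ball mem_ball ball_mono path_mono)
open Crest.Agent.R144.Pst967 (path_symm)
open Crest.Agent.R144.Bnd991 (Frame wd mg)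
open Relation (ReflTransGen)

/-- linear relations between the constants, multiplied by `m` -/
theorem consts (K R S : ℕ) {m : ℕ} (hm : 1 ≤ m) :
    (XX K R S : ℤ) * m = M1 K * m + S * m + R * m + K * m + 4 * m ∧
    (M2 K R S : ℤ) * m = 4 * (XX K R S * m) + TT K * m + 10 * m ∧
    (ZZ K R S : ℤ) * m = 2 * (XX K R S * m) + 4 * m ∧
    (M1 K : ℤ) * m = 4 * (K * m) + 40 * m ∧ (TT K : ℤ) * m = 2 * (K * m) + 8 * m ∧
    (CC K R S : ℤ) * m = M2 K R S * m + K * m + 20 * m ∧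
    (0 : ℤ) ≤ S * m ∧ (0 : ℤ) ≤ R * m ∧ (0 : ℤ) ≤ K * m ∧ (1 : ℤ) ≤ m := by
  refine ⟨?_, ?_, ?_, ?_, ?_, ?_, by positivity, by positivity, by positivity, by exact_mod_cast hm⟩
  · unfold XX; push_cast; ring
  · unfold M2; push_cast; ring
  · unfold ZZ; push_cast; ring
  · unfold M1; push_cast; ring
  · unfold TT; push_cast; ring
  · unfold CC; push_cast; ring

set_option maxHeartbeats 1000000 in
theorem frame_of_hp {K A R S m : ℕ} (hm : 1 ≤ m) (hA : TT K ≤ A) (hRS : R ≤ S) {N : Set P2} {o : P2}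
    {α β : ℝ} (h : HP N o m (CC K R S) α β 1)
    (hl : ∀ s, ∀ v ∈ N, v ∈ ball (pt o m (cb α β (XX K R S) s)) (R * m) →
      ReflTransGen (StepIn {w | w ∈ N ∧ w ∈ ball (pt o m (cb α β (XX K R S) s)) (S * m)}) v
        (pt o m (cb α β (XX K R S) s))) :
    Frame K A R m (M1 K * m) (M2 K R S * m) (kk α β K R S) N o (o.2 + ZZ K R S * m)
      (fun s => pt o m (cb α β (XX K R S) s))
      (fun s => pt o m ((cb α β (XX K R S) s).1, (cb α β (XX K R S) s).2 - TT K))
      (fun i => pt o m (cc α β K R S i)) := by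
  obtain ⟨ha0, ha1, hb0, hb1, -, hout, hinn⟩ := h
  obtain ⟨eX, eM2, eZ, eM1, eT, eC, pS, pR, pK, pm⟩ := consts K R S hm
  obtain ⟨l1, l2, l3, l4⟩ := YYf_bd ha0 ha1 hb0 hb1 (XX K R S)
  obtain ⟨t1, t2, t3, t4⟩ := YYt_bd ha0 ha1 hb0 hb1 (XX K R S)
  have hspec : ∀ i, i ≤ kk α β K R S → _ := fun i hi => cc_spec ha0 ha1 hb0 hb1 K R S hi
  have hW : WW K R S = 2 * XX K R S + TT K := rfl
  have hT : TT K = 2 * K + 8 := rfl
  have hXn : XX K R S = M1 K + S + R + K + 4 := rfl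
  have hM1n : M1 K = 4 * K + 40 := rfl
  have hM2n : M2 K R S = 4 * XX K R S + TT K + 10 := rfl
  have hCCn : CC K R S = M2 K R S + K + 20 := rfl
  have hZn : ZZ K R S = 2 * XX K R S + 4 := rfl
  have hc0 := cc_zero ha0 ha1 hb0 hb1 K R S
  have hck := cc_kk ha0 ha1 hb0 hb1 K R S
  obtain ⟨X, hX⟩ : ∃ X : ℕ, XX K R S = X := ⟨_, rfl⟩
  obtain ⟨Yf, hYf⟩ : ∃ Yf : ℤ, YY α β X false = Yf := ⟨_, rfl⟩
  obtain ⟨Yt, hYt⟩ : ∃ Yt : ℤ, YY α β X true = Yt := ⟨_, rfl⟩
  have hc1 : cb α β X false = (-(X : ℤ), Yf) := by rw [← hYf]; rfl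
  have hc2 : cb α β X true = ((X : ℤ), Yt) := by rw [← hYt]; rfl
  rw [hX] at eX eM2 eZ l1 l2 l3 l4 t1 t2 t3 t4 hW hXn hM2n hZn hc0 hck hl ⊢
  simp only [hX] at hspec
  rw [hYf] at l1 l2 l3 l4 hc0
  rw [hYt] at t1 t2 t3 t4 hck
  have ha1' : α ≤ 1 := by linarith
  have hb0' : 0 ≤ β := by linarith
  have pmr : (1 : ℝ) ≤ m := by exact_mod_cast hm
  have pKr : (0 : ℝ) ≤ K := Nat.cast_nonneg _
  have pXr : (0 : ℝ) ≤ X := Nat.cast_nonneg _
  have pm0 : (0 : ℤ) ≤ m := by omega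
  -- products of the heights with m
  have yf1 : (m : ℤ) ≤ m * Yf := le_mul_of_one_le_right pm0 l3
  have yf2 : (m : ℤ) * Yf ≤ 2 * (X * m) + 4 * m := by
    have := mul_le_mul_of_nonneg_left l4 pm0
    have e : (m : ℤ) * (2 * X + 4) = 2 * (X * m) + 4 * m := by ring
    rw [e] at this
    exact this
  have yt1 : -(2 * ((X : ℤ) * m)) ≤ m * Yt := by
    have := mul_le_mul_of_nonneg_left t3 pm0
    have e : (m : ℤ) * (-(2 * X)) = -(2 * (X * m)) := by ring
    rw [e] at this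
    exact this
  have yt2 : (m : ℤ) * Yt ≤ 4 * m := by
    have := mul_le_mul_of_nonneg_left t4 pm0
    linarith
  -- membership in N
  have inN : ∀ v : P2, v ∈ ball o (CC K R S * m) →
      (m : ℝ) ≤ α * (v.1 - o.1) + β * (v.2 - o.2) → v ∈ N :=
    fun v hv hf => hout v hv (by rw [one_mul]; exact hf)
  have hcb : ∀ s, |(cb α β X s).1| = X ∧ |(cb α β X s).2| ≤ 2 * X + 4 := by
    intro s
    cases s
    · rw [hc1]
      refine ⟨by simp only [abs_neg, Nat.abs_cast], ?_⟩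
      simp only [abs_le]; omega
    · rw [hc2]
      refine ⟨by simp only [Nat.abs_cast], ?_⟩
      simp only [abs_le]; omega
  have hcbf : ∀ s, 2 ≤ α * (cb α β X s).1 + β * (cb α β X s).2 := by
    intro s
    cases s
    · rw [hc1]
      push_cast
      linarith
    · rw [hc2]
      push_cast
      linarith
  -- the ball of radius `S m` around the exterior points
  have hbS : ∀ s, ∀ v ∈ ball (pt o m (cb α β X s)) (S * m), v ∈ ball o (M2 K R S * m) ∧
      v ∉ ball o (M1 K * m) := by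
    intro s v hv
    obtain ⟨h1, h2⟩ := hcb s
    have h3 := abs_add_le (cb α β X s).1 (cb α β X s).2
    exact ⟨mem_big hv (by omega) (by omega) (by omega), not_mem_small hm hv (Or.inl (by omega))⟩
  have hleft : ∀ v ∈ ball (pt o m (cb α β X false)) (S * m), v.1 < o.1 - ((M1 K * m : ℕ) + 2) := by
    intro v hv
    rw [mem_ball] at hv
    have h1 := hv.1
    rw [abs_le] at h1
    have e1 : (pt o m (cb α β X false)).1 = o.1 - X * m := by
      rw [hc1]
      unfold pt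
      ring
    rw [e1] at h1
    push_cast at h1 ⊢
    omega
  have hright : ∀ v ∈ ball (pt o m (cb α β X true)) (S * m), o.1 + ((M1 K * m : ℕ) + 2) < v.1 := by
    intro v hv
    rw [mem_ball] at hv
    have h1 := hv.1
    rw [abs_le] at h1
    have e1 : (pt o m (cb α β X true)).1 = o.1 + X * m := by
      rw [hc2]
      unfold pt
      ring
    rw [e1] at h1
    push_cast at h1 ⊢
    omega
  have hRSm : R * m ≤ S * m := Nat.mul_le_mul_right _ hRS
  have hCCm : M2 K R S * m + mg K m ≤ CC K R S * m := by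
    unfold mg
    have : (CC K R S : ℕ) * m = M2 K R S * m + K * m + 20 * m := by rw [hCCn]; ring
    rw [this]
    nlinarith
  have hM2CC : M2 K R S * m ≤ CC K R S * m := by omega
  -- N on the slits
  have hslit : ∀ s, ∀ v : P2, (pt o m (cb α β X s)).1 ≤ v.1 →
      (pt o m (cb α β X s)).2 ≤ v.2 → v ∈ ball o (CC K R S * m) → v ∈ N := by
    intro s v h1 h2 h3
    refine inN v h3 ?_
    have g1 : ((m : ℝ) * (cb α β X s).1) ≤ v.1 - o.1 := by
      have : (o.1 : ℤ) + m * (cb α β X s).1 ≤ v.1 := h1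
      have : ((o.1 : ℤ) : ℝ) + m * (cb α β X s).1 ≤ v.1 := by exact_mod_cast this
      linarith
    have g2 : ((m : ℝ) * (cb α β X s).2) ≤ v.2 - o.2 := by
      have : (o.2 : ℤ) + m * (cb α β X s).2 ≤ v.2 := h2
      have : ((o.2 : ℤ) : ℝ) + m * (cb α β X s).2 ≤ v.2 := by exact_mod_cast this
      linarith
    have g3 := mul_le_mul_of_nonneg_left g1 ha0
    have g4 := mul_le_mul_of_nonneg_left g2 hb0'
    have g5 := mul_le_mul_of_nonneg_left (hcbf s) (by linarith : (0 : ℝ) ≤ m)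
    nlinarith
  refine ⟨hm, ?_, ?_, ?_, ?_, ?_, ?_, ?_, ?_, ?_, ?_, ?_, ?_, ?_, ?_, ?_, ?_, ?_, ?_⟩
  · -- rin
    unfold wd mg
    have : M1 K * m = 4 * (K * m) + 40 * m := by rw [hM1n]; ring
    rw [this]
    nlinarith
  · -- r12
    refine Nat.mul_lt_mul_of_pos_right ?_ (by omega)
    omega
  · -- strip
    intro v h1 h2 h3 h4
    refine inN v (ball_mono _ hCCm h4) ?_
    have hsub : ((M1 K * m - mg K m : ℕ) : ℤ) = M1 K * m - ((K + 1) * m + 12) := by
      have : mg K m ≤ M1 K * m := by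
        unfold mg
        have : M1 K * m = 4 * (K * m) + 40 * m := by rw [hM1n]; ring
        rw [this]
        nlinarith
      rw [Nat.cast_sub this]
      unfold mg
      push_cast
      ring
    have h1' : |v.1 - o.1| ≤ (K + 1) * m + 6 := by
      unfold wd at h1
      push_cast at h1
      linarith
    rw [mem_ball] at h3
    have hbb : M1 K * m - ((K + 1) * m + 12) - ((K + 1) * m + 6) ≤ v.2 - o.2 := by
      by_contra hcon
      push Not at hcon
      apply h3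
      rw [hsub]
      have h5 := abs_add_le (v.1 - o.1) (v.2 - o.2)
      have h6 : |v.2 - o.2| = v.2 - o.2 := abs_of_nonneg (by omega)
      have e1 : ((K : ℤ) + 1) * m = K * m + m := by ring
      refine ⟨by omega, by omega, by omega⟩
    have g1 : |((v.1 : ℝ) - o.1)| ≤ (K + 1) * m + 6 := by exact_mod_cast h1'
    have g2 : ((M1 K : ℕ) : ℝ) * m - ((K + 1) * m + 12) - ((K + 1) * m + 6) ≤ (v.2 : ℝ) - o.2 := by
      exact_mod_cast hbb
    have g3 : ((M1 K : ℕ) : ℝ) = 4 * K + 40 := by rw [hM1n]; push_cast; ring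
    rw [g3] at g2
    rw [abs_le] at g1
    have hKm : (0 : ℝ) ≤ K * m := by positivity
    have g4 : -((K + 1) * m + 6 : ℝ) ≤ α * ((v.1 : ℝ) - o.1) := by
      nlinarith [mul_nonneg ha0 (by nlinarith [g1.1] : (0 : ℝ) ≤ ((v.1 : ℝ) - o.1) + ((K + 1) * m + 6)),
        mul_nonneg (sub_nonneg.2 ha1') (by positivity : (0 : ℝ) ≤ (K + 1) * m + 6)]
    have g5 : (0 : ℝ) ≤ (v.2 : ℝ) - o.2 := by nlinarith
    have g6 : 4 / 5 * ((v.2 : ℝ) - o.2) ≤ β * ((v.2 : ℝ) - o.2) := mul_le_mul_of_nonneg_right hb0 g5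
    nlinarith
  · -- slit
    intro s v h1 _ h2 h3
    exact hslit s v h1 h2 (ball_mono _ hCCm h3)
  · -- ballb
    intro s v hv
    exact hbS s v (ball_mono _ hRSm hv)
  · intro v hv
    exact hleft v (ball_mono _ hRSm hv)
  · intro v hv
    exact hright v (ball_mono _ hRSm hv)
  · -- yb
    intro s
    rw [mem_ball]
    have hAm : (TT K : ℤ) * m ≤ A * m := by
      have : ((TT K : ℕ) : ℤ) ≤ A := by exact_mod_cast hA
      exact mul_le_mul_of_nonneg_right this (by omega)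
    have pT : (0 : ℤ) ≤ TT K * m := by positivity
    simp only [pt]
    push_cast
    have e1 : o.2 + (m : ℤ) * ((cb α β X s).2 - TT K) - (o.2 + m * (cb α β X s).2) = -(TT K * m) := by
      ring
    rw [e1, sub_self, zero_add, abs_zero, abs_neg, abs_of_nonneg pT]
    exact ⟨pT.trans hAm, hAm, hAm⟩
  · -- a0
    show pt o m (cc α β K R S 0) = _
    rw [hc0, hc1]
  · -- ak
    show pt o m (cc α β K R S (kk α β K R S)) = _
    rw [hck, hc2]
  · -- chain
    intro i hi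
    rw [mem_ball]
    simp only [pt]
    have e1 : o.1 + (m : ℤ) * (cc α β K R S (i + 1)).1 - (o.1 + m * (cc α β K R S i).1) =
        m * (cc α β K R S (i + 1) - cc α β K R S i).1 := by
      rw [Prod.fst_sub]; ring
    have e2 : o.2 + (m : ℤ) * (cc α β K R S (i + 1)).2 - (o.2 + m * (cc α β K R S i).2) =
        m * (cc α β K R S (i + 1) - cc α β K R S i).2 := by
      rw [Prod.snd_sub]; ring
    rw [e1, e2]
    rcases cc_step (α := α) (β := β) K R S i with h1 | h1 | h1 | h1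
    · rw [h1]; simp
    · rw [h1]; simp
    · rw [h1]; simp
    · omega
  · -- free
    intro i hi v hv
    obtain ⟨c1, c2, c3, -⟩ := hspec i hi
    have h3 := abs_add_le (cc α β K R S i).1 (cc α β K R S i).2
    refine hinn v (mem_big hv (by omega) (by omega) (by omega)) ?_
    have h4 := form_ball ha0 ha1' hb0' hb1 hv
    rw [abs_le] at h4
    have h5 := mul_le_mul_of_nonneg_left c1 (by linarith : (0 : ℝ) ≤ m)
    nlinarith [h4.2]
  · -- inA
    intro i hi v hv
    obtain ⟨c1, c2, c3, c4⟩ := hspec i hi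
    have h3 := abs_add_le (cc α β K R S i).1 (cc α β K R S i).2
    refine ⟨mem_big hv (by omega) (by omega) (by omega), not_mem_small hm hv ?_⟩
    rcases c4 with c4 | c4
    · left; omega
    · right; omega
  · -- q0
    rw [eZ]; omega
  · -- q1
    rw [mem_ball, mem_ball]
    push_cast
    have e : o.2 + (ZZ K R S : ℤ) * m - o.2 = ZZ K R S * m := by ring
    simp only [sub_self, zero_add, abs_zero, e]
    rw [abs_of_nonneg (by positivity : (0 : ℤ) ≤ ZZ K R S * m)]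
    refine ⟨⟨by omega, by omega, by omega⟩, fun h => ?_⟩
    have := h.2.1
    omega
  · -- q2
    rw [mem_ball, mem_ball]
    push_cast
    simp only [abs_le]
    refine ⟨⟨by omega, by omega, by omega⟩, fun h => ?_⟩
    have := h.2.1
    omega
  · -- pl
    intro v hvN hv
    have p1 := path_mono (T := {w | w ∈ N ∧ w ∈ ball o (M2 K R S * m) ∧ w ∉ ball o (M1 K * m) ∧
      (w.1 < o.1 ∨ w = (o.1, o.2 + ZZ K R S * m))}) (fun w hw =>
        ⟨hw.1, (hbS false w hw.2).1, (hbS false w hw.2).2, Or.inl (by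
          have := hleft w hw.2
          push_cast at this
          omega)⟩) (hl false v hvN hv)
    refine p1.trans ?_
    -- up
    obtain ⟨k1, hk1⟩ : ∃ k1 : ℕ, (k1 : ℤ) = ZZ K R S * m - m * Yf :=
      ⟨(ZZ K R S * m - m * Yf : ℤ).toNat, by rw [Int.toNat_of_nonneg]; omega⟩
    obtain ⟨k2, hk2⟩ : ∃ k2 : ℕ, (k2 : ℤ) = X * m := ⟨X * m, by push_cast; ring⟩
    have e1 : pt o m (cb α β X false) = (o.1 - X * m, o.2 + m * Yf) := by
      rw [hc1]
      unfold pt
      ext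
      · simp only; ring
      · rfl
    have p2 := path_vert (S := {w | w ∈ N ∧ w ∈ ball o (M2 K R S * m) ∧ w ∉ ball o (M1 K * m) ∧
      (w.1 < o.1 ∨ w = (o.1, o.2 + ZZ K R S * m))}) (x := o.1 - X * m) (y := o.2 + m * Yf) k1 (by
        intro t ht
        have ht' : (t : ℤ) ≤ k1 := by exact_mod_cast ht
        have hb : ((o.1 - X * m, o.2 + m * Yf + t) : P2) ∈ ball o (M2 K R S * m) := by
          rw [mem_ball]
          push_cast
          simp only [abs_le]
          omega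
        refine ⟨hslit false _ ?_ ?_ (ball_mono _ hM2CC hb), hb, ?_, Or.inl ?_⟩
        · rw [e1]
        · rw [e1]; simp only; omega
        · rw [mem_ball]
          push_cast
          simp only [abs_le]
          omega
        · simp only; omega)
    have p3 := path_left (S := {w | w ∈ N ∧ w ∈ ball o (M2 K R S * m) ∧ w ∉ ball o (M1 K * m) ∧
      (w.1 < o.1 ∨ w = (o.1, o.2 + ZZ K R S * m))}) (x := o.1 - X * m) (y := o.2 + ZZ K R S * m) k2 (by
        intro t ht
        have ht' : (t : ℤ) ≤ k2 := by exact_mod_cast ht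
        have hb : ((o.1 - X * m + t, o.2 + ZZ K R S * m) : P2) ∈ ball o (M2 K R S * m) := by
          rw [mem_ball]
          push_cast
          simp only [abs_le]
          omega
        refine ⟨inN _ (ball_mono _ hM2CC hb) ?_, hb, ?_, ?_⟩
        · push_cast
          have g1 : ((ZZ K R S : ℕ) : ℝ) = 2 * X + 4 := by rw [hZn]; push_cast; ring
          rw [g1]
          have g2 : (0 : ℝ) ≤ t := Nat.cast_nonneg _
          have g3 : (0 : ℝ) ≤ (X : ℝ) * m := by positivity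
          have g4 : α * (X * m : ℝ) ≤ 19 / 20 * (X * m) := mul_le_mul_of_nonneg_right ha1 g3
          have g5 : 4 / 5 * ((2 * X + 4) * m : ℝ) ≤ β * ((2 * X + 4) * m) :=
            mul_le_mul_of_nonneg_right hb0 (by positivity)
          have g6 : 0 ≤ α * t := mul_nonneg ha0 g2
          nlinarith
        · rw [mem_ball]
          push_cast
          simp only [abs_le]
          omega
        · rcases lt_or_eq_of_le ht' with h1 | h1
          · left; simp only; omega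
          · right
            ext
            · simp only; omega
            · rfl)
    rw [e1]
    have e2 : o.2 + m * Yf + (k1 : ℤ) = o.2 + ZZ K R S * m := by omega
    have e3 : o.1 - X * m + (k2 : ℤ) = o.1 := by omega
    rw [e2] at p2
    rw [e3] at p3
    exact p2.trans p3
  · -- pr
    intro v hvN hv
    have p1 := path_mono (T := {w | w ∈ N ∧ w ∈ ball o (M2 K R S * m) ∧ w ∉ ball o (M1 K * m) ∧
      (o.1 + 1 < w.1 ∨ w = (o.1 + 1, o.2 + ZZ K R S * m - 1))}) (fun w hw =>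
        ⟨hw.1, (hbS true w hw.2).1, (hbS true w hw.2).2, Or.inl (by
          have := hright w hw.2
          push_cast at this
          omega)⟩) (hl true v hvN hv)
    refine p1.trans ?_
    obtain ⟨k1, hk1⟩ : ∃ k1 : ℕ, (k1 : ℤ) = ZZ K R S * m - 1 - m * Yt :=
      ⟨(ZZ K R S * m - 1 - m * Yt : ℤ).toNat, by rw [Int.toNat_of_nonneg]; omega⟩
    obtain ⟨k2, hk2⟩ : ∃ k2 : ℕ, (k2 : ℤ) = X * m - 1 :=
      ⟨(X * m - 1 : ℤ).toNat, by rw [Int.toNat_of_nonneg]; omega⟩
    have e1 : pt o m (cb α β X true) = (o.1 + X * m, o.2 + m * Yt) := by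
      rw [hc2]
      unfold pt
      ext
      · simp only; ring
      · rfl
    have p2 := path_vert (S := {w | w ∈ N ∧ w ∈ ball o (M2 K R S * m) ∧ w ∉ ball o (M1 K * m) ∧
      (o.1 + 1 < w.1 ∨ w = (o.1 + 1, o.2 + ZZ K R S * m - 1))}) (x := o.1 + X * m)
      (y := o.2 + m * Yt) k1 (by
        intro t ht
        have ht' : (t : ℤ) ≤ k1 := by exact_mod_cast ht
        have hb : ((o.1 + X * m, o.2 + m * Yt + t) : P2) ∈ ball o (M2 K R S * m) := by
          rw [mem_ball]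
          push_cast
          simp only [abs_le]
          omega
        refine ⟨hslit true _ ?_ ?_ (ball_mono _ hM2CC hb), hb, ?_, Or.inl ?_⟩
        · rw [e1]
        · rw [e1]; simp only; omega
        · rw [mem_ball]
          push_cast
          simp only [abs_le]
          omega
        · simp only; omega)
    have p3 := path_left (S := {w | w ∈ N ∧ w ∈ ball o (M2 K R S * m) ∧ w ∉ ball o (M1 K * m) ∧
      (o.1 + 1 < w.1 ∨ w = (o.1 + 1, o.2 + ZZ K R S * m - 1))}) (x := o.1 + 1)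
      (y := o.2 + ZZ K R S * m - 1) k2 (by
        intro t ht
        have ht' : (t : ℤ) ≤ k2 := by exact_mod_cast ht
        have hb : ((o.1 + 1 + t, o.2 + ZZ K R S * m - 1) : P2) ∈ ball o (M2 K R S * m) := by
          rw [mem_ball]
          push_cast
          simp only [abs_le]
          omega
        refine ⟨inN _ (ball_mono _ hM2CC hb) ?_, hb, ?_, ?_⟩
        · push_cast
          have g1 : ((ZZ K R S : ℕ) : ℝ) = 2 * X + 4 := by rw [hZn]; push_cast; ring
          rw [g1]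
          have g2 : (0 : ℝ) ≤ t := Nat.cast_nonneg _
          have g5 : 4 / 5 * ((2 * X + 4) * m - 1 : ℝ) ≤ β * ((2 * X + 4) * m - 1) :=
            mul_le_mul_of_nonneg_right hb0 (by nlinarith)
          have g6 : 0 ≤ α * (1 + t) := mul_nonneg ha0 (by linarith)
          nlinarith
        · rw [mem_ball]
          push_cast
          simp only [abs_le]
          omega
        · rcases Nat.eq_zero_or_pos t with h1 | h1
          · right; rw [h1]; ext
            · simp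
            · rfl
          · left; simp only; omega)
    rw [e1]
    have e2 : o.2 + m * Yt + (k1 : ℤ) = o.2 + ZZ K R S * m - 1 := by omega
    have e3 : o.1 + 1 + (k2 : ℤ) = o.1 + X * m := by omega
    rw [e2] at p2
    rw [e3] at p3
    exact p2.trans (path_symm p3)

end Crest.Agent.R144.Fr353
end

-- ▼ part R144/Fr4_353

/-! R144 (helper353), block B6 of doc 1945, file 4: **the frames at every frontier point**, from
268's `Setup` and 830's `LC`. -/

set_option autoImplicit false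

open Set Topology Filter Metric

namespace Crest.Agent.R144.Fr353

open Crest.ProbabilityR.HexHeights (Adj centre)
open Crest.Agent.R144.It844 (P2)
open Crest.Agent.R144.Zg349 (StepIn)
open Crest.Agent.R144.Rw146 (Aut)
open Crest.Agent.R144.Set268
open Crest.Agent.R144.Lc830 (LC)
open Crest.Agent.R144.Bnd991 (Frame)
open Relation (ReflTransGen)

theorem adj_iff_norm {u v : P2} : Adj u v ↔ (v.1 - u.1) ^ 2 + (v.1 - u.1) * (v.2 - u.2) +
    (v.2 - u.2) ^ 2 = 1 := by
  unfold Adj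
  generalize v.1 - u.1 = a
  generalize v.2 - u.2 = b
  constructor
  · rintro (⟨rfl, rfl⟩ | ⟨rfl, rfl⟩ | ⟨rfl, rfl⟩ | ⟨rfl, rfl⟩ | ⟨rfl, rfl⟩ | ⟨rfl, rfl⟩) <;> norm_num
  · intro h
    have ha1 : a ≤ 1 := by nlinarith [sq_nonneg (a + 2 * b)]
    have ha2 : -1 ≤ a := by nlinarith [sq_nonneg (a + 2 * b)]
    have hb1 : b ≤ 1 := by nlinarith [sq_nonneg (2 * a + b)]
    have hb2 : -1 ≤ b := by nlinarith [sq_nonneg (2 * a + b)]
    interval_cases a <;> interval_cases b <;> simp_all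

theorem Ori.norm_eq {σ : P2 ≃ P2} {u : ℂ} {α β : ℝ} (h : Ori σ u α β) (v : P2) :
    (σ v).1 ^ 2 + (σ v).1 * (σ v).2 + (σ v).2 ^ 2 = v.1 ^ 2 + v.1 * v.2 + v.2 ^ 2 := by
  have h1 := norm_centre_sq 1 (σ v)
  rw [h.iso, norm_centre_sq] at h1
  have h2 : (((v.1 ^ 2 + v.1 * v.2 + v.2 ^ 2 : ℤ) : ℝ)) =
      (((σ v).1 ^ 2 + (σ v).1 * (σ v).2 + (σ v).2 ^ 2 : ℤ) : ℝ) := by
    push_cast
    linarith
  exact_mod_cast h2.symm

theorem Ori.sub {σ : P2 ≃ P2} {u : ℂ} {α β : ℝ} (h : Ori σ u α β) (v w : P2) :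
    σ (v - w) = σ v - σ w := by
  have := h.add (v - w) w
  rw [sub_add_cancel] at this
  rw [this, add_sub_cancel_right]

theorem Ori.adj {σ : P2 ≃ P2} {u : ℂ} {α β : ℝ} (h : Ori σ u α β) (v w : P2) :
    Adj (σ v) (σ w) ↔ Adj v w := by
  have h1 := h.norm_eq (w - v)
  rw [h.sub] at h1
  rw [adj_iff_norm, adj_iff_norm]
  rw [Prod.fst_sub, Prod.snd_sub, Prod.fst_sub, Prod.snd_sub] at h1
  rw [h1]

theorem dist_centre_eq (δ : ℝ) (v w : P2) : dist (centre δ v) (centre δ w) = ‖centre δ (v - w)‖ := by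
  rw [dist_eq_norm]
  congr 1
  unfold centre
  push_cast [Prod.fst_sub, Prod.snd_sub]
  ring

theorem Ori.dist_eq {σ : P2 ≃ P2} {u : ℂ} {α β : ℝ} (h : Ori σ u α β) (δ : ℝ) (v w : P2) :
    dist (centre δ (σ v)) (centre δ (σ w)) = ‖centre δ (v - w)‖ := by
  rw [dist_centre_eq, ← h.sub, h.iso]

/-- Euclid close sites are in a lattice ball -/
theorem mem_ball_of_dist {δ : ℝ} (hδ : 0 < δ) {v w : P2} {k : ℕ}
    (h : ‖centre δ (v - w)‖ * (6 / 5) ≤ δ * k) : v ∈ Crest.Agent.R144.Rsw867.ball w k := by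
  have h4 := norm_centre_sq δ (v - w)
  have key : ∀ x : ℤ, 3 * (x : ℝ) ^ 2 ≤ 4 * (((v - w).1 : ℝ) ^ 2 + (v - w).1 * (v - w).2 +
      ((v - w).2 : ℝ) ^ 2) → |x| ≤ (k : ℤ) := by
    intro x hx
    have h5 : δ ^ 2 * (x : ℝ) ^ 2 ≤ 4 / 3 * ‖centre δ (v - w)‖ ^ 2 := by
      rw [h4]
      nlinarith [sq_nonneg δ]
    have h6 : (δ * |(x : ℝ)|) ^ 2 ≤ (δ * k) ^ 2 := by
      rw [mul_pow, sq_abs]
      have h7 : (‖centre δ (v - w)‖ * (6 / 5)) ^ 2 ≤ (δ * k) ^ 2 :=
        pow_le_pow_left₀ (by positivity) h 2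
      nlinarith [sq_nonneg ‖centre δ (v - w)‖]
    have h8 : δ * |(x : ℝ)| ≤ δ * k := abs_le_of_sq_le_sq' h6 (by positivity) |>.2
    have h9 : |(x : ℝ)| ≤ k := le_of_mul_le_mul_left h8 hδ
    exact_mod_cast h9
  rw [Crest.Agent.R144.Rsw867.mem_ball]
  refine ⟨key _ ?_, key _ ?_, key _ ?_⟩
  · rw [Prod.fst_sub, Prod.snd_sub]
    push_cast
    nlinarith [sq_nonneg (((v.1 : ℝ) - w.1) + 2 * (v.2 - w.2))]
  · rw [Prod.fst_sub, Prod.snd_sub]
    push_cast
    nlinarith [sq_nonneg (2 * ((v.1 : ℝ) - w.1) + (v.2 - w.2))]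
  · rw [Prod.fst_sub, Prod.snd_sub]
    push_cast
    nlinarith [sq_nonneg (((v.1 : ℝ) - w.1) - (v.2 - w.2))]

theorem dist_of_mem_ball {δ : ℝ} (hδ : 0 ≤ δ) {v w : P2} {k : ℕ}
    (h : v ∈ Crest.Agent.R144.Rsw867.ball w k) : ‖centre δ (v - w)‖ ≤ δ * k := by
  rw [Crest.Agent.R144.Rsw867.mem_ball] at h
  exact norm_centre_le hδ h.1 h.2.1 h.2.2

/-- first change along a column -/
theorem exists_change {N : Set P2} {x y : ℤ} (k : ℕ) (h0 : ((x, y) : P2) ∈ N)
    (hk : ((x, y - k) : P2) ∉ N) :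
    ∃ t : ℕ, t < k ∧ ((x, y - t) : P2) ∈ N ∧ ((x, y - t - 1) : P2) ∉ N := by
  induction k with
  | zero => simp at hk; exact absurd h0 hk
  | succ k ih =>
    by_cases h1 : ((x, y - k) : P2) ∈ N
    · refine ⟨k, by omega, h1, ?_⟩
      have : y - (k : ℤ) - 1 = y - ((k + 1 : ℕ) : ℤ) := by push_cast; ring
      rw [this]
      exact hk
    · obtain ⟨t, ht, h2, h3⟩ := ih h1
      exact ⟨t, by omega, h2, h3⟩

variable {D : Set ℂ} {γ : ℝ → ℂ} {P : Finset ℂ} {δ : ℕ → ℝ} {Λ : ℕ → Finset (ℤ × ℤ)}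
  {τ : ℕ → ℤ × ℤ → ℤ}

set_option maxHeartbeats 1600000 in
/-- **B6: frames at every frontier point and every small scale** -/
theorem exists_frame (h : Setup D γ P δ Λ τ) (hLC : LC D δ Λ) (K A R : ℕ) (hA : 2 * K + 8 ≤ A) :
    ∃ C1 C2 k0 : ℕ, ∃ ρ1 > 0, ∀ p ∈ frontier D, ∃ (σ : P2 ≃ P2) (o : ℕ → P2),
      (∃ τ', Aut σ τ') ∧ (∀ v w, σ (v + w) = σ v + σ w) ∧ (∀ v w, Adj (σ v) (σ w) ↔ Adj v w) ∧
      (∀ ε v w, dist (centre ε (σ v)) (centre ε (σ w)) = dist (centre ε v) (centre ε w)) ∧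
      (∀ n, dist (centre (δ n) (σ (o n))) p ≤ δ n) ∧ ∃ k ≤ k0, ∀ ρ, 0 < ρ → ρ ≤ ρ1 →
        ∀ᶠ n in atTop, ∃ q b y a, Frame K A R ⌊ρ / δ n⌋₊ (C1 * ⌊ρ / δ n⌋₊) (C2 * ⌊ρ / δ n⌋₊) k
          {v | σ v ∉ Λ n} (o n) q b y a := by
  obtain ⟨C0, hC0, hlc⟩ := hLC
  set S0 : ℝ := 3 * (C0 * (R + TT K + 1) + TT K + 1) with hS0
  set S : ℕ := max R ⌈S0⌉₊ with hS
  have hRS : R ≤ S := le_max_left _ _
  have hSr : S0 ≤ S := (Nat.le_ceil S0).trans (by exact_mod_cast le_max_right _ _)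
  obtain ⟨ρ1, hρ1, hhp⟩ := halfplane h (CC K R S)
  refine ⟨M1 K, M2 K R S, 10 * XX K R S + 2 * TT K + 10, ρ1, hρ1, fun p hp => ?_⟩
  obtain ⟨σ, u, α, β, o, ho, hop, hev⟩ := hhp p hp
  obtain ⟨n0, hn0⟩ := (hev ρ1 hρ1 le_rfl).exists
  refine ⟨σ, o, ho.aut, ho.add, ho.adj, fun ε v w => by rw [ho.dist_eq, dist_centre_eq], hop,
    kk α β K R S, kk_le hn0.a0 hn0.a1 hn0.b0 hn0.b1 K R S, fun ρ hρ hρ' => ?_⟩
  have hTr : (0 : ℝ) ≤ TT K := Nat.cast_nonneg _
  have hRr : (0 : ℝ) ≤ R := Nat.cast_nonneg _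
  filter_upwards [hev ρ hρ hρ', hlc ((R + TT K + 1) * ρ) (by positivity), h.bnd ρ hρ,
    h.sites.small hρ] with n hn1 hn2 hn3 hn4
  have hδ := h.sites.pos n
  set m := ⌊ρ / δ n⌋₊ with hm
  have hm0 : 1 ≤ m := by
    rw [hm, Nat.one_le_floor_iff, one_le_div hδ]
    exact hn4.le
  have hm1 : (m : ℝ) * δ n ≤ ρ := by
    have := Nat.floor_le (show 0 ≤ ρ / δ n by positivity)
    rw [le_div_iff₀ hδ] at this
    exact this
  have hm2 : ρ < (m + 1) * δ n := by
    have := Nat.lt_floor_add_one (ρ / δ n)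
    rw [div_lt_iff₀ hδ] at this
    exact this
  have hm3 : ρ ≤ 2 * m * δ n := by
    have : (1 : ℝ) ≤ m := by exact_mod_cast hm0
    nlinarith
  refine ⟨_, _, _, _, frame_of_hp hm0 hA hRS hn1 ?_⟩
  intro s v hvN hv
  -- the exterior point and the interior point below it
  set b := pt (o n) m (cb α β (XX K R S) s) with hb
  obtain ⟨l1, l2, l3, l4⟩ := YYf_bd hn1.a0 hn1.a1 hn1.b0 hn1.b1 (XX K R S)
  obtain ⟨t1, t2, t3, t4⟩ := YYt_bd hn1.a0 hn1.a1 hn1.b0 hn1.b1 (XX K R S)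
  have hTn : TT K = 2 * K + 8 := rfl
  have hM2n : M2 K R S = 4 * XX K R S + TT K + 10 := rfl
  have hCCn : CC K R S = M2 K R S + K + 20 := rfl
  have hmr : (1 : ℝ) ≤ m := by exact_mod_cast hm0
  have hKr : (0 : ℝ) ≤ K := Nat.cast_nonneg _
  have hTTr : ((TT K : ℕ) : ℝ) = 2 * K + 8 := by rw [hTn]; push_cast; ring
  -- position of the two points
  have hbN : b ∈ {v | σ v ∉ Λ n} := by
    have hmem : b ∈ Crest.Agent.R144.Rsw867.ball (o n) (CC K R S * m) := by
      have h0 : b ∈ Crest.Agent.R144.Rsw867.ball (pt (o n) m (cb α β (XX K R S) s)) (0 * m) := by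
        rw [Crest.Agent.R144.Rsw867.mem_ball]
        simp [hb]
      refine mem_big h0 ?_ ?_ ?_ <;> cases s <;> simp only [cb, Nat.cast_zero, add_zero, abs_le] <;>
        omega
    refine hn1.out b hmem ?_
    have e1 : ((b.1 : ℤ) : ℝ) - (o n).1 = m * ((cb α β (XX K R S) s).1 : ℝ) := by
      rw [hb]; unfold pt; push_cast; ring
    have e2 : ((b.2 : ℤ) : ℝ) - (o n).2 = m * ((cb α β (XX K R S) s).2 : ℝ) := by
      rw [hb]; unfold pt; push_cast; ring
    rw [e1, e2]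
    have e3 : 2 ≤ α * ((cb α β (XX K R S) s).1 : ℝ) + β * ((cb α β (XX K R S) s).2 : ℝ) := by
      cases s
      · simp only [cb]; push_cast; linarith
      · simp only [cb]; push_cast; linarith
    nlinarith
  have hyN : ((b.1, b.2 - (TT K * m : ℕ)) : P2) ∉ {v | σ v ∉ Λ n} := by
    have e0 : ((b.1, b.2 - (TT K * m : ℕ)) : P2) =
        pt (o n) m ((cb α β (XX K R S) s).1, (cb α β (XX K R S) s).2 - TT K) := by
      rw [hb]; unfold pt
      ext
      · rfl
      · simp only; push_cast; ring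
    have hmem : ((b.1, b.2 - (TT K * m : ℕ)) : P2) ∈
        Crest.Agent.R144.Rsw867.ball (o n) (CC K R S * m) := by
      have h0 : ((b.1, b.2 - (TT K * m : ℕ)) : P2) ∈ Crest.Agent.R144.Rsw867.ball
          (pt (o n) m ((cb α β (XX K R S) s).1, (cb α β (XX K R S) s).2 - TT K)) (0 * m) := by
        rw [e0, Crest.Agent.R144.Rsw867.mem_ball]
        simp
      refine mem_big h0 ?_ ?_ ?_ <;> cases s <;> simp only [cb, Nat.cast_zero, add_zero, abs_le] <;>
        omega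
    refine hn1.inn _ hmem ?_
    rw [e0]
    unfold pt
    push_cast
    have e3 : α * ((cb α β (XX K R S) s).1 : ℝ) + β * ((cb α β (XX K R S) s).2 : ℝ) ≤ 3 := by
      cases s
      · simp only [cb]; push_cast; linarith
      · simp only [cb]; push_cast; linarith
    have e4 : 4 / 5 * (TT K : ℝ) ≤ β * TT K := mul_le_mul_of_nonneg_right hn1.b0 hTr
    have e5 : α * (((o n).1 : ℝ) + m * ((cb α β (XX K R S) s).1 : ℝ) - (o n).1) +
        β * (((o n).2 : ℝ) + m * (((cb α β (XX K R S) s).2 : ℝ) - TT K) - (o n).2) =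
        m * (α * ((cb α β (XX K R S) s).1 : ℝ) + β * ((cb α β (XX K R S) s).2 : ℝ) - β * TT K) := by
      ring
    rw [e5, one_mul]
    have e6 : α * ((cb α β (XX K R S) s).1 : ℝ) + β * ((cb α β (XX K R S) s).2 : ℝ) - β * TT K ≤ -1 := by
      rw [hTTr] at e4 ⊢
      nlinarith
    nlinarith
  obtain ⟨t, ht, htN, htN'⟩ := exists_change (N := {v | σ v ∉ Λ n}) (TT K * m) hbN hyN
  -- a boundary site next to the exterior point, and a frontier point next to it
  have hBd : Bd (Λ n) (σ (b.1, b.2 - t)) := by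
    refine ⟨htN, σ (b.1, b.2 - t - 1), ?_, ?_⟩
    · have : ¬ (σ (b.1, b.2 - t - 1) ∉ Λ n) := htN'
      exact not_not.1 this
    · rw [ho.adj, adj_iff_norm]
      simp only
      ring
  have h5 := hn3 _ hBd
  obtain ⟨p', hp', hpd⟩ := (infDist_lt_iff ⟨p, hp⟩).1 h5
  have hd1 : dist (centre (δ n) (σ b)) (centre (δ n) (σ (b.1, b.2 - t))) ≤ TT K * ρ := by
    rw [ho.dist_eq]
    have h6 : b ∈ Crest.Agent.R144.Rsw867.ball ((b.1, b.2 - t) : P2) (TT K * m) := by
      rw [Crest.Agent.R144.Rsw867.mem_ball]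
      simp only [abs_le]
      omega
    refine (dist_of_mem_ball hδ.le h6).trans ?_
    push_cast
    nlinarith
  have hd2 : dist (centre (δ n) (σ b)) p' ≤ (TT K + 1) * ρ := by
    have := dist_triangle (centre (δ n) (σ b)) (centre (δ n) (σ (b.1, b.2 - t))) p'
    nlinarith
  have hd3 : dist (centre (δ n) (σ v)) p' ≤ (R + TT K + 1) * ρ := by
    have h7 := dist_triangle (centre (δ n) (σ v)) (centre (δ n) (σ b)) p'
    rw [ho.dist_eq] at h7
    have h8 := dist_of_mem_ball hδ.le hv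
    push_cast at h8
    nlinarith
  have hj := hn2 p' hp' (σ v) (σ b) hvN hbN hd3 (by nlinarith)
  -- transport the path
  have key : ∀ w w' : P2, ReflTransGen (fun a b => a ∈ {w | w ∉ Λ n ∧ dist (centre (δ n) w) p' ≤
      C0 * ((R + TT K + 1) * ρ)} ∧ b ∈ {w | w ∉ Λ n ∧ dist (centre (δ n) w) p' ≤
      C0 * ((R + TT K + 1) * ρ)} ∧ Adj a b) w w' → ReflTransGen (StepIn {w | w ∈ {v | σ v ∉ Λ n} ∧
        w ∈ Crest.Agent.R144.Rsw867.ball b (S * m)}) (σ.symm w) (σ.symm w') := by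
    have hin : ∀ w : P2, w ∈ {w | w ∉ Λ n ∧ dist (centre (δ n) w) p' ≤ C0 * ((R + TT K + 1) * ρ)} →
        σ.symm w ∈ {w | w ∈ {v | σ v ∉ Λ n} ∧ w ∈ Crest.Agent.R144.Rsw867.ball b (S * m)} := by
      rintro w ⟨h1, h2⟩
      refine ⟨?_, ?_⟩
      · show σ (σ.symm w) ∉ Λ n
        rw [σ.apply_symm_apply]; exact h1
      · refine mem_ball_of_dist hδ ?_
        rw [← ho.dist_eq, σ.apply_symm_apply]
        have h3 := dist_triangle_right (centre (δ n) w) (centre (δ n) (σ b)) p'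
        have h4 : dist (centre (δ n) w) (centre (δ n) (σ b)) ≤
            (C0 * (R + TT K + 1) + TT K + 1) * ρ := by nlinarith
        have h5 : (0 : ℝ) ≤ C0 * (R + TT K + 1) + TT K + 1 := by positivity
        push_cast
        have h6 : (C0 * (R + TT K + 1) + TT K + 1) * ρ ≤
            (C0 * (R + TT K + 1) + TT K + 1) * (2 * m * δ n) := mul_le_mul_of_nonneg_left hm3 h5
        have h7 : S0 * (m * δ n) ≤ S * (m * δ n) := mul_le_mul_of_nonneg_right hSr (by positivity)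
        have h8 : 0 ≤ (C0 * (R + TT K + 1) + TT K + 1) * (m * δ n) := by positivity
        rw [hS0] at h7
        nlinarith
    intro w w' hw
    induction hw with
    | refl => exact ReflTransGen.refl
    | tail _ h1 ih =>
      refine ih.tail ⟨hin _ h1.1, hin _ h1.2.1, ?_⟩
      rw [← ho.adj, σ.apply_symm_apply, σ.apply_symm_apply]
      exact h1.2.2
  have := key _ _ hj
  rw [σ.symm_apply_apply, σ.symm_apply_apply] at this
  exact this

end Crest.Agent.R144.Fr353
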