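import Crest.Agent.R144.Hf4_702
import Crest.Agent.R144.Pst9_967
import Crest.Agent.R144.Pst10_967

-- ▼ part R144/Hf5_702
section

/-!
# R144, block HALF (helper702), part 5: exact decoupling across a plus-closed layer, F-type law

`B`, `F` finite with connected complement, `U = B ∩ F`.
* `dec` : `E_F[g φ] = E_F[g] E_U[φ]` for `g` a function of `(s1, z)` off `B` which vanishes unless the neighbours
  of `B` are plus closed (`PLay B`), `φ` a function of the colours on `VF U` and of `z` on `U` (`InC U φ`);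
* `lft U h` : the F-type height on `U` with the same colours as `h`; `ω.1 ≡ lft U ω.1` modulo 4, equal on the
  windows joined to the complement of `F` (`lft_eq`);
* `refl_layer` : reflection of the inside across the layer.
-/

set_option autoImplicit false
set_option linter.unusedVariables false

noncomputable section

namespace Crest.Agent.R144.Hf702

open Finset
open Crest.Agent.R144.It844 (P2 adj_symm adj_iff)
open Crest.Agent.R144.Zg349 Crest.Agent.R144.Zk349 Crest.Agent.R144.Zd349 Crest.Agent.R144.Zm349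
open Crest.Agent.R144.Ze349
open Crest.Agent.R144.Pst967 (path_symm adj_of_share E_pos_congr wt_ne_zero)
open Crest.Agent.R144.Rsw867
open Crest.ProbabilityR.HexHeights (Adj)

/-! ### geometry -/

theorem sc_inter {B F : Finset P2} (hB : SC B) (hF : SC F) : SC (B ∩ F) := by
  classical
  obtain ⟨w, -, hw⟩ := exists_far (B ∪ F) 0
  rw [Finset.mem_union] at hw
  push Not at hw
  have hmem : ∀ t, t ∈ (((B ∩ F : Finset P2) : Set P2)ᶜ) ↔ (t ∉ B ∨ t ∉ F) := by
    intro t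
    rw [Set.mem_compl_iff, Finset.mem_coe, Finset.mem_inter, not_and_or]
  have key : ∀ t ∈ (((B ∩ F : Finset P2) : Set P2)ᶜ),
      Relation.ReflTransGen (StepIn (((B ∩ F : Finset P2) : Set P2)ᶜ)) t w := by
    intro t ht
    rw [hmem] at ht
    rcases ht with ht | ht
    · have := hB t (by simpa using ht) w (by simpa using hw.1)
      refine Relation.ReflTransGen.mono (fun a b hab => ⟨?_, ?_, hab.2.2⟩) _ _ this
      · rw [hmem]; left; simpa using hab.1
      · rw [hmem]; left; simpa using hab.2.1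
    · have := hF t (by simpa using ht) w (by simpa using hw.2)
      refine Relation.ReflTransGen.mono (fun a b hab => ⟨?_, ?_, hab.2.2⟩) _ _ this
      · rw [hmem]; right; simpa using hab.1
      · rw [hmem]; right; simpa using hab.2.1
  intro u hu v hv
  exact (key u hu).trans (path_symm (key v hv))

/-- configurations of positive weight -/
def Ok (F : Finset P2) (ω : Cfg) : Prop :=
  Valid F ω ∧ ∀ t ∈ F, (ω.2 t = true → C1 ω.1 t) ∧ (ω.2 t = false → C2 ω.1 t)

theorem pc_plus {F : Finset P2} {ω : Cfg} (h : Ok F ω) {t : P2} (ht : pC ω t) {v : P2}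
    (hv : v ∈ up t) : s1 (ω.1 v) = true := by
  by_cases htF : t ∈ F
  · have h1 := (h.2 t htF).1 ht.1
    obtain ⟨i, rfl⟩ := mem_up_iff.1 hv
    obtain ⟨h2, h3⟩ := h1
    have h4 : s1 (ω.1 (cr t 0)) = true := ht.2
    fin_cases i
    · exact h4
    · exact h2 ▸ h4
    · exact h3 ▸ h4
  · exact h.1.ht.s1_bd fun hv' => htF (mem_IV'.1 hv' t hv)

/-- boundary sites of `U = B ∩ F` are plus when the layer is plus closed -/
theorem bd_plus {B F : Finset P2} {ω : Cfg} (h : Ok F ω) (hP : PLay B ω) {v : P2}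
    (hv : v ∈ VF (B ∩ F)) (hv' : v ∉ IV (B ∩ F)) : s1 (ω.1 v) = true := by
  obtain ⟨t, ht, htv⟩ := mem_VF.1 hv
  rw [mem_IV'] at hv'
  push Not at hv'
  obtain ⟨t', htv', ht'⟩ := hv'
  rw [Finset.mem_inter] at ht ht'
  by_cases hF' : t' ∈ F
  · have hB' : t' ∉ B := fun hh => ht' ⟨hh, hF'⟩
    rcases adj_of_share htv htv' with e | e
    · exact absurd (e ▸ ht.1) hB'
    · exact pc_plus h (hP t ht.1 t' hB' e) htv'
  · exact h.1.ht.s1_bd fun hh => hF' (mem_IV'.1 hh t' htv')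

/-- same colours on a set of sites -/
def SameC (W : Finset P2) (g h : P2 → ℤ) : Prop := ∀ v ∈ W, s1 (g v) = s1 (h v) ∧ s2 (g v) = s2 (h v)

theorem exists_lift {B F : Finset P2} (hB : SC B) (hF : SC F) {ω : Cfg} (h : Ok F ω)
    (hP : PLay B ω) : ∃ g, HV (B ∩ F) g ∧ SameC (VF (B ∩ F)) g ω.1 := by
  classical
  set U := B ∩ F with hU
  have hsub : U ⊆ F := Finset.inter_subset_right
  have hTm : ∀ v ∈ VF U, (v ∈ tm F ω.1 ∩ IV U ↔ v ∈ tm F ω.1) := by
    intro v hv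
    rw [Finset.mem_inter]
    refine ⟨fun h => h.1, fun h1 => ⟨h1, ?_⟩⟩
    by_contra h2
    have := bd_plus h hP hv h2
    rw [mem_tm h.1.ht] at h1
    rw [h1] at this
    exact absurd this (by decide)
  have hAm : ∀ v ∈ VF U, (v ∈ am F ω.1 ∩ VF U ↔ v ∈ am F ω.1) := by
    intro v hv
    rw [Finset.mem_inter]
    exact ⟨fun h => h.1, fun h1 => ⟨h1, hv⟩⟩
  obtain ⟨g, hg, g1, g2⟩ := exists_height (F := U) (T := tm F ω.1 ∩ IV U) (A := am F ω.1 ∩ VF U)
    (sc_inter hB hF) Finset.inter_subset_right Finset.inter_subset_right (by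
      intro t ht
      have k := c1_or_c2 (h.1.ht.lip t (hsub ht))
      rw [c1_iff h.1.ht, c2_iff h.1.ht] at k
      have e : ∀ i, cr t i ∈ VF U := fun i => cr_mem ht i
      rw [m3_ch, m3_ch] at k ⊢
      rw [hTm _ (e 0), hTm _ (e 1), hTm _ (e 2), hAm _ (e 0), hAm _ (e 1), hAm _ (e 2)]
      exact k)
  refine ⟨g, hg, fun v hv => ⟨?_, ?_⟩⟩
  · apply bool_eq_of_iff
    rw [g1, hTm v hv, mem_tm h.1.ht, sf_iff, not_not]
  · apply bool_eq_of_iff
    rw [g2, hAm v hv, mem_am h.1.ht]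
    cases s2 (ω.1 v) <;> simp

theorem lift_unique {U : Finset P2} {g g' h : P2 → ℤ} (hg : HV U g) (hg' : HV U g')
    (e : SameC (VF U) g h) (e' : SameC (VF U) g' h) : g = g' := by
  refine height_inj hg hg' (fun v => ?_) (fun v => ?_)
  · by_cases hv : v ∈ VF U
    · rw [(e v hv).1, (e' v hv).1]
    · rw [hg.off v hv, hg'.off v hv]
  · by_cases hv : v ∈ VF U
    · rw [(e v hv).2, (e' v hv).2]
    · rw [hg.off v hv, hg'.off v hv]

open Classical in
/-- the F-type height on `U` with the same colours -/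
def lft (U : Finset P2) (h : P2 → ℤ) : P2 → ℤ :=
  if H : ∃ g, HV U g ∧ SameC (VF U) g h then H.choose else fun _ => 0

theorem lft_spec {U : Finset P2} {h : P2 → ℤ} (H : ∃ g, HV U g ∧ SameC (VF U) g h) :
    HV U (lft U h) ∧ SameC (VF U) (lft U h) h := by
  unfold lft
  rw [dif_pos H]
  exact H.choose_spec

theorem lft_eq_of {U : Finset P2} {g h : P2 → ℤ} (hg : HV U g) (e : SameC (VF U) g h) :
    lft U h = g := by
  have := lft_spec ⟨g, hg, e⟩
  exact lift_unique this.1 hg this.2 e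

theorem SameC.symm {W : Finset P2} {g h : P2 → ℤ} (e : SameC W g h) : SameC W h g :=
  fun v hv => ⟨(e v hv).1.symm, (e v hv).2.symm⟩

theorem SameC.trans {W : Finset P2} {g h k : P2 → ℤ} (e : SameC W g h) (e' : SameC W h k) :
    SameC W g k := fun v hv => ⟨(e v hv).1.trans (e' v hv).1, (e v hv).2.trans (e' v hv).2⟩

theorem lft_congr {U : Finset P2} {h h' : P2 → ℤ} (e : SameC (VF U) h h') : lft U h = lft U h' := by
  by_cases H : ∃ g, HV U g ∧ SameC (VF U) g h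
  · obtain ⟨g, hg, eg⟩ := H
    rw [lft_eq_of hg eg, lft_eq_of hg (eg.trans e)]
  · have H' : ¬ ∃ g, HV U g ∧ SameC (VF U) g h' := fun ⟨g, hg, eg⟩ => H ⟨g, hg, eg.trans e.symm⟩
    unfold lft
    rw [dif_neg H, dif_neg H']

theorem lft_self {U : Finset P2} {h : P2 → ℤ} (hh : HV U h) : lft U h = h :=
  lft_eq_of hh fun _ _ => ⟨rfl, rfl⟩

/-- functions of the colours on `VF U` and of `z` on `U` -/
def InC (U : Finset P2) (φ : Cfg → ℝ) : Prop :=
  ∀ ω ω' : Cfg, SameC (VF U) ω.1 ω'.1 → (∀ t ∈ U, ω.2 t = ω'.2 t) → φ ω = φ ω'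

theorem inC_lft (U : Finset P2) (Φ : (P2 → ℤ) → ℝ) : InC U fun ω => Φ (lft U ω.1) :=
  fun ω ω' h1 _ => by
    show Φ (lft U ω.1) = Φ (lft U ω'.1)
    rw [lft_congr h1]

theorem InC.mul {U : Finset P2} {φ ψ : Cfg → ℝ} (h : InC U φ) (h' : InC U ψ) :
    InC U fun ω => φ ω * ψ ω := fun ω ω' h1 h2 => by
  show φ ω * ψ ω = φ ω' * ψ ω'
  rw [h ω ω' h1 h2, h' ω ω' h1 h2]

/-! ### sums over colours -/

/-- a height with given colours -/
def hcol (T A : Finset P2) (v : P2) : ℤ :=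
  if v ∈ T then (if v ∈ A then 2 else 3) else (if v ∈ A then 1 else 0)

theorem s1_hcol (T A : Finset P2) (v : P2) : s1 (hcol T A v) = true ↔ v ∉ T := by
  unfold hcol
  by_cases h1 : v ∈ T <;> by_cases h2 : v ∈ A <;> simp only [h1, h2, if_true, if_false] <;> decide

theorem s2_hcol (T A : Finset P2) (v : P2) : s2 (hcol T A v) = true ↔ v ∉ A := by
  unfold hcol
  by_cases h1 : v ∈ T <;> by_cases h2 : v ∈ A <;> simp only [h1, h2, if_true, if_false] <;> decide

/-- reference configuration -/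
def rcf (F T A Z : Finset P2) : Cfg := (hcol T A, zb F Z)

theorem s1_rcf (F T A Z : Finset P2) (v : P2) : s1 ((rcf F T A Z).1 v) = true ↔ v ∉ T := s1_hcol T A v
theorem s2_rcf (F T A Z : Finset P2) (v : P2) : s2 ((rcf F T A Z).1 v) = true ↔ v ∉ A := s2_hcol T A v
theorem z_rcf (F T A Z : Finset P2) (t : P2) : (rcf F T A Z).2 t = true ↔ (t ∉ F ∨ t ∈ Z) := by
  show zb F Z t = true ↔ _
  unfold zb
  rw [decide_eq_true_eq]

/-- functions of the colours and of `z` -/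
def CZ (ψ : Cfg → ℝ) : Prop := ∀ ω ω' : Cfg, (∀ v, s1 (ω.1 v) = s1 (ω'.1 v)) →
  (∀ v, s2 (ω.1 v) = s2 (ω'.1 v)) → (∀ t, ω.2 t = ω'.2 t) → ψ ω = ψ ω'

theorem S_cz {F : Finset P2} (hF : SC F) (c : ℝ) {ψ : Cfg → ℝ} (hψ : CZ ψ) :
    S c F ψ = ∑ T ∈ (IV F).powerset, ∑ A ∈ (VF F).powerset, ∑ Z ∈ F.powerset,
      (∏ t ∈ F, ewS c T A Z t) * ψ (rcf F T A Z) := by
  rw [← sum_conf hF c (fun T A Z => ψ (rcf F T A Z))]
  unfold S
  refine Finset.sum_congr rfl fun ω hω => ?_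
  rw [mem_conf] at hω
  congr 1
  refine hψ _ _ (fun v => ?_) (fun v => ?_) (fun t => ?_)
  · apply bool_eq_of_iff
    rw [s1_rcf, mem_tm hω.ht, sf_iff, not_not]
  · apply bool_eq_of_iff
    rw [s2_rcf, mem_am hω.ht]
    cases s2 (ω.1 v) <;> simp
  · apply bool_eq_of_iff
    rw [z_rcf]
    unfold zm
    rw [Finset.mem_filter]
    constructor
    · intro h
      by_cases ht : t ∈ F
      · exact Or.inr ⟨ht, h⟩
      · exact Or.inl ht
    · rintro (h | h)
      · exact hω.cl t h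
      · exact h.2

theorem OffTZ.cz {B : Finset P2} {g : Cfg → ℝ} (hg : OffTZ B g) : CZ g := fun ω ω' h1 _ h3 =>
  hg ω ω' (fun v _ => h1 v) fun t _ => h3 t

theorem InC.cz {U : Finset P2} {φ : Cfg → ℝ} (h : InC U φ) : CZ φ := fun ω ω' h1 h2 h3 =>
  h ω ω' (fun v _ => ⟨h1 v, h2 v⟩) fun t _ => h3 t

theorem CZ.mul {φ ψ : Cfg → ℝ} (h : CZ φ) (h' : CZ ψ) : CZ fun ω => φ ω * ψ ω :=
  fun ω ω' h1 h2 h3 => by
    show φ ω * ψ ω = φ ω' * ψ ω'
    rw [h ω ω' h1 h2 h3, h' ω ω' h1 h2 h3]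

theorem ewS_congr {c : ℝ} {T A Z T' A' Z' : Finset P2} {t : P2}
    (hT : ∀ v ∈ up t, (v ∈ T ↔ v ∈ T')) (hZ : t ∈ Z ↔ t ∈ Z')
    (hA : t ∉ Z → ∀ v ∈ up t, (v ∈ A ↔ v ∈ A')) : ewS c T A Z t = ewS c T' A' Z' t := by
  unfold ewS
  have e1 : M3 (cr t) (ch T) ↔ M3 (cr t) (ch T') := by
    rw [m3_ch, m3_ch, hT _ (cr_mem_up t 0), hT _ (cr_mem_up t 1), hT _ (cr_mem_up t 2)]
  by_cases hz : t ∈ Z
  · rw [if_pos hz, if_pos (hZ.1 hz)]
    by_cases h : M3 (cr t) (ch T)
    · rw [if_pos h, if_pos (e1.1 h)]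
    · rw [if_neg h, if_neg fun h' => h (e1.2 h')]
  · rw [if_neg hz, if_neg fun h' => hz (hZ.2 h')]
    have e2 : M3 (cr t) (ch A) ↔ M3 (cr t) (ch A') := by
      rw [m3_ch, m3_ch, hA hz _ (cr_mem_up t 0), hA hz _ (cr_mem_up t 1), hA hz _ (cr_mem_up t 2)]
    by_cases h : M3 (cr t) (ch A)
    · rw [if_pos h, if_pos (e2.1 h)]
      by_cases h' : M3 (cr t) (ch T)
      · rw [if_pos h', if_pos (e1.1 h')]
      · rw [if_neg h', if_neg fun h'' => h' (e1.2 h'')]
    · rw [if_neg h, if_neg fun h' => h (e2.2 h')]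

/-- **factorisation of one term** -/
theorem term_split {B F : Finset P2} {c : ℝ} {g φ : Cfg → ℝ} (hg : OffTZ B g)
    (hP : ∀ ω, g ω ≠ 0 → PLay B ω) (hφ : InC (B ∩ F) φ) {T1 T2 A1 A2 Z1 Z2 : Finset P2}
    (hT1 : T1 ⊆ IV F \ IV (B ∩ F)) (hT2 : T2 ⊆ IV (B ∩ F)) (hA1 : A1 ⊆ VF F \ VF (B ∩ F))
    (hA2 : A2 ⊆ VF (B ∩ F)) (hZ1 : Z1 ⊆ F \ (B ∩ F)) (hZ2 : Z2 ⊆ B ∩ F) :
    (∏ t ∈ F, ewS c (T2 ∪ T1) (A2 ∪ A1) (Z2 ∪ Z1) t) *
        (g (rcf F (T2 ∪ T1) (A2 ∪ A1) (Z2 ∪ Z1)) * φ (rcf F (T2 ∪ T1) (A2 ∪ A1) (Z2 ∪ Z1))) =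
      ((∏ t ∈ F \ (B ∩ F), ewS c T1 A1 Z1 t) * g (rcf F T1 A1 Z1)) *
        ((∏ t ∈ B ∩ F, ewS c T2 A2 Z2 t) * φ (rcf (B ∩ F) T2 A2 Z2)) := by
  classical
  set U := B ∩ F with hU
  have hUF : U ⊆ F := Finset.inter_subset_right
  have nT2 : ∀ v, v ∉ IV U → v ∉ T2 := fun v hv h => hv (hT2 h)
  have nZ2 : ∀ t, t ∉ U → t ∉ Z2 := fun v hv h => hv (hZ2 h)
  have nZ1 : ∀ t ∈ U, t ∉ Z1 := fun t ht h => (Finset.mem_sdiff.1 (hZ1 h)).2 ht
  have nA1 : ∀ v ∈ VF U, v ∉ A1 := fun t ht h => (Finset.mem_sdiff.1 (hA1 h)).2 ht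
  have nA2 : ∀ v, v ∉ VF U → v ∉ A2 := fun t ht h => ht (hA2 h)
  have IVU : ∀ v, v ∉ IV B → v ∉ IV U := fun v hv h => hv (IV_mono Finset.inter_subset_left h)
  -- (i)
  have hgg : g (rcf F (T2 ∪ T1) (A2 ∪ A1) (Z2 ∪ Z1)) = g (rcf F T1 A1 Z1) := by
    refine hg _ _ (fun v hv => ?_) (fun t ht => ?_)
    · apply bool_eq_of_iff
      rw [s1_rcf, s1_rcf, Finset.mem_union]
      have := nT2 v (IVU v hv)
      tauto
    · apply bool_eq_of_iff
      rw [z_rcf, z_rcf, Finset.mem_union]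
      have := nZ2 t fun h => ht (Finset.mem_inter.1 h).1
      tauto
  rw [hgg]
  by_cases hg0 : g (rcf F T1 A1 Z1) = 0
  · rw [hg0]; ring
  have hPL := hP _ hg0
  -- layer triangles
  have hlay : ∀ t ∈ U, ∀ t', t' ∈ F → t' ∉ U → Adj t t' → t' ∈ Z1 ∧ t' ∉ T1 := by
    intro t ht t' hF' ht' ha
    have h1 : t' ∉ B := fun h => ht' (Finset.mem_inter.2 ⟨h, hF'⟩)
    have h2 := hPL t (Finset.mem_inter.1 ht).1 t' h1 ha
    unfold pC at h2
    rw [z_rcf, s1_rcf] at h2
    refine ⟨?_, h2.2⟩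
    rcases h2.1 with h3 | h3
    · exact absurd hF' h3
    · exact h3
  -- the product over the outside
  have hout : ∏ t ∈ F \ U, ewS c (T2 ∪ T1) (A2 ∪ A1) (Z2 ∪ Z1) t = ∏ t ∈ F \ U, ewS c T1 A1 Z1 t := by
    refine Finset.prod_congr rfl fun t' ht' => ?_
    obtain ⟨hF', hU'⟩ := Finset.mem_sdiff.1 ht'
    refine ewS_congr (fun v hv => ?_) ?_ (fun hz v hv => ?_)
    · rw [Finset.mem_union]
      have := nT2 v fun h => hU' (mem_IV'.1 h t' hv)
      tauto
    · rw [Finset.mem_union]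
      have := nZ2 t' hU'
      tauto
    · rw [Finset.mem_union]
      have hvU : v ∉ VF U := by
        intro h
        obtain ⟨t, ht, htv⟩ := mem_VF.1 h
        rcases adj_of_share htv hv with e | e
        · exact hU' (e ▸ ht)
        · exact hz (Finset.mem_union_right _ (hlay t ht t' hF' hU' e).1)
      have := nA2 v hvU
      tauto
  rw [← Finset.prod_sdiff hUF, hout]
  by_cases hzero : ∏ t ∈ F \ U, ewS c T1 A1 Z1 t = 0
  · rw [hzero]; ring
  -- corners of layer triangles are plus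
  have hT1' : ∀ v ∈ VF U, v ∉ T1 := by
    intro v hv hvT
    obtain ⟨t, ht, htv⟩ := mem_VF.1 hv
    obtain ⟨hIVF, hIVU⟩ := Finset.mem_sdiff.1 (hT1 hvT)
    rw [mem_IV'] at hIVU
    push Not at hIVU
    obtain ⟨t', htv', ht'U⟩ := hIVU
    have hF' : t' ∈ F := mem_IV'.1 hIVF t' htv'
    rcases adj_of_share htv htv' with e | e
    · exact ht'U (e ▸ ht)
    · obtain ⟨h1, h2⟩ := hlay t ht t' hF' ht'U e
      apply hzero
      refine Finset.prod_eq_zero (Finset.mem_sdiff.2 ⟨hF', ht'U⟩) ?_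
      unfold ewS
      rw [if_pos h1, if_neg]
      intro h3
      rw [m3_ch] at h3
      obtain ⟨i, rfl⟩ := mem_up_iff.1 htv'
      have h0 : cr t' 0 ∉ T1 := h2
      fin_cases i
      · exact h0 hvT
      · exact h0 (h3.1.2 hvT)
      · exact h0 (h3.2.2 hvT)
  have hin : ∏ t ∈ U, ewS c (T2 ∪ T1) (A2 ∪ A1) (Z2 ∪ Z1) t = ∏ t ∈ U, ewS c T2 A2 Z2 t := by
    refine Finset.prod_congr rfl fun t ht => ?_
    refine ewS_congr (fun v hv => ?_) ?_ (fun _ v hv => ?_)
    · rw [Finset.mem_union]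
      have := hT1' v (mem_VF.2 ⟨t, ht, hv⟩)
      tauto
    · rw [Finset.mem_union]
      have := nZ1 t ht
      tauto
    · rw [Finset.mem_union]
      have := nA1 v (mem_VF.2 ⟨t, ht, hv⟩)
      tauto
  have hφφ : φ (rcf F (T2 ∪ T1) (A2 ∪ A1) (Z2 ∪ Z1)) = φ (rcf U T2 A2 Z2) := by
    refine hφ _ _ (fun v hv => ⟨?_, ?_⟩) (fun t ht => ?_)
    · apply bool_eq_of_iff
      rw [s1_rcf, s1_rcf, Finset.mem_union]
      have := hT1' v hv
      tauto
    · apply bool_eq_of_iff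
      rw [s2_rcf, s2_rcf, Finset.mem_union]
      have := nA1 v hv
      tauto
    · apply bool_eq_of_iff
      rw [z_rcf, z_rcf, Finset.mem_union]
      have h1 := nZ1 t ht
      have h2 := hUF ht
      tauto
  rw [hin, hφφ]
  ring

/-- **Exact decoupling across a plus-closed layer** (`B` in arbitrary position). -/
theorem dec {c : ℝ} (hc : 1 ≤ c) {B F : Finset P2} (hB : SC B) (hF : SC F) {g φ : Cfg → ℝ}
    (hg : OffTZ B g) (hP : ∀ ω, g ω ≠ 0 → PLay B ω) (hφ : InC (B ∩ F) φ) :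
    E c F (fun ω => g ω * φ ω) = E c F g * E c (B ∩ F) φ := by
  classical
  set U := B ∩ F with hU
  have hUF : U ⊆ F := Finset.inter_subset_right
  have hIV : IV U ⊆ IV F := IV_mono hUF
  have hVF : VF U ⊆ VF F := VF_mono hUF
  have key : ∀ ψ : Cfg → ℝ, InC U ψ → S c F (fun ω => g ω * ψ ω) =
      (∑ T1 ∈ (IV F \ IV U).powerset, ∑ A1 ∈ (VF F \ VF U).powerset, ∑ Z1 ∈ (F \ U).powerset,
        (∏ t ∈ F \ U, ewS c T1 A1 Z1 t) * g (rcf F T1 A1 Z1)) * S c U ψ := by
    intro ψ hψ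
    rw [S_cz hF c ((OffTZ.cz hg).mul hψ.cz), S_cz (sc_inter hB hF) c hψ.cz,
      sum_powerset_split hIV, Finset.sum_mul]
    refine Finset.sum_congr rfl fun T1 hT1 => ?_
    have hT1' := Finset.mem_powerset.1 hT1
    have h1 : ∀ T2 ∈ (IV U).powerset, ∑ A ∈ (VF F).powerset, ∑ Z ∈ F.powerset,
        (∏ t ∈ F, ewS c (T2 ∪ T1) A Z t) * (g (rcf F (T2 ∪ T1) A Z) * ψ (rcf F (T2 ∪ T1) A Z)) =
        ∑ A1 ∈ (VF F \ VF U).powerset, ∑ Z1 ∈ (F \ U).powerset,
          ∑ A2 ∈ (VF U).powerset, ∑ Z2 ∈ U.powerset,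
          ((∏ t ∈ F \ U, ewS c T1 A1 Z1 t) * g (rcf F T1 A1 Z1)) *
            ((∏ t ∈ U, ewS c T2 A2 Z2 t) * ψ (rcf U T2 A2 Z2)) := by
      intro T2 hT2
      rw [sum_powerset_split hVF]
      refine Finset.sum_congr rfl fun A1 hA1 => ?_
      rw [Finset.sum_comm]
      have h2 : ∀ A2 ∈ (VF U).powerset, ∑ Z ∈ F.powerset,
          (∏ t ∈ F, ewS c (T2 ∪ T1) (A2 ∪ A1) Z t) *
            (g (rcf F (T2 ∪ T1) (A2 ∪ A1) Z) * ψ (rcf F (T2 ∪ T1) (A2 ∪ A1) Z)) =
          ∑ Z1 ∈ (F \ U).powerset, ∑ Z2 ∈ U.powerset,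
          ((∏ t ∈ F \ U, ewS c T1 A1 Z1 t) * g (rcf F T1 A1 Z1)) *
            ((∏ t ∈ U, ewS c T2 A2 Z2 t) * ψ (rcf U T2 A2 Z2)) := by
        intro A2 hA2
        rw [sum_powerset_split hUF]
        refine Finset.sum_congr rfl fun Z1 hZ1 => Finset.sum_congr rfl fun Z2 hZ2 => ?_
        exact term_split hg hP hψ hT1' (Finset.mem_powerset.1 hT2) (Finset.mem_powerset.1 hA1)
          (Finset.mem_powerset.1 hA2) (Finset.mem_powerset.1 hZ1) (Finset.mem_powerset.1 hZ2)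
      rw [Finset.sum_comm, Finset.sum_congr rfl h2, Finset.sum_comm]
    rw [Finset.sum_congr rfl h1, Finset.sum_comm, Finset.sum_mul]
    refine Finset.sum_congr rfl fun A1 _ => ?_
    rw [Finset.sum_comm, Finset.sum_mul]
    refine Finset.sum_congr rfl fun Z1 _ => ?_
    rw [Finset.mul_sum]
    refine Finset.sum_congr rfl fun T2 _ => ?_
    rw [Finset.mul_sum]
    refine Finset.sum_congr rfl fun A2 _ => ?_
    rw [Finset.mul_sum]
  have k1 := key φ hφ
  have k2 := key (fun _ => 1) (fun _ _ _ _ => rfl)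
  simp only [mul_one] at k2
  have e2 : S c F g = (∑ T1 ∈ (IV F \ IV U).powerset, ∑ A1 ∈ (VF F \ VF U).powerset,
      ∑ Z1 ∈ (F \ U).powerset, (∏ t ∈ F \ U, ewS c T1 A1 Z1 t) * g (rcf F T1 A1 Z1)) * Z c U := by
    rw [k2, S_one]
  have z1 := Z_pos hc F
  have z2 := Z_pos hc U
  rw [E_eq_S, E_eq_S, E_eq_S, k1, e2]
  field_simp

end Crest.Agent.R144.Hf702
end
end

-- ▼ part R144/Hf6_702
section

/-!
# R144, block HALF (helper702), part 6: level and reflection of the inside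

* `lft_eq` : on triangles of `U = B ∩ F` joined inside `U` to a neighbour of the complement of `F`, the heights
  of `ω` and of its lift coincide;
* `rf U h` : reflection of the inside, `refl_layer : E_F[g(ω) Φ(ω.1)] = E_F[g(ω) Φ(rf U ω.1)]`.
-/

set_option autoImplicit false
set_option linter.unusedVariables false
set_option linter.unusedSectionVars false

noncomputable section

namespace Crest.Agent.R144.Hf702

open Finset
open Crest.Agent.R144.It844 (P2 adj_symm adj_iff)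
open Crest.Agent.R144.Zg349 Crest.Agent.R144.Zk349 Crest.Agent.R144.Zd349 Crest.Agent.R144.Zm349
open Crest.Agent.R144.Ze349
open Crest.Agent.R144.Pst967 (path_symm adj_of_share E_pos_congr wt_ne_zero)
open Crest.Agent.R144.Rsw867
open Crest.ProbabilityR.HexHeights (Adj)

/-- two heights with the same colours differ by a constant on a triangle -/
theorem diff_const {h g : P2 → ℤ} {t : P2} (hl : ∀ i j, |h (cr t i) - h (cr t j)| ≤ 1)
    (gl : ∀ i j, |g (cr t i) - g (cr t j)| ≤ 1)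
    (e : ∀ i, s1 (g (cr t i)) = s1 (h (cr t i)) ∧ s2 (g (cr t i)) = s2 (h (cr t i))) (i j : Fin 3) :
    h (cr t i) - g (cr t i) = h (cr t j) - g (cr t j) := by
  have m1 := mod4_of_s (e i).1 (e i).2
  have m2 := mod4_of_s (e j).1 (e j).2
  have l1 := abs_le.1 (hl i j)
  have l2 := abs_le.1 (gl i j)
  omega

theorem diff_const_up {h g : P2 → ℤ} {t : P2} (hl : ∀ i j, |h (cr t i) - h (cr t j)| ≤ 1)
    (gl : ∀ i j, |g (cr t i) - g (cr t j)| ≤ 1)
    (e : ∀ v ∈ up t, s1 (g v) = s1 (h v) ∧ s2 (g v) = s2 (h v)) {v w : P2} (hv : v ∈ up t)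
    (hw : w ∈ up t) : h v - g v = h w - g w := by
  obtain ⟨i, rfl⟩ := mem_up_iff.1 hv
  obtain ⟨j, rfl⟩ := mem_up_iff.1 hw
  exact diff_const hl gl (fun k => e _ (cr_mem_up t k)) i j

/-- **level zero** -/
theorem lft_eq {B F : Finset P2} (hB : SC B) (hF : SC F) {ω : Cfg} (h : Ok F ω) (hP : PLay B ω)
    {t : P2} (ht : t ∈ B ∩ F)
    (hpath : ∃ t1 ∈ B ∩ F, ∃ t2, t2 ∉ F ∧ Adj t1 t2 ∧
      Relation.ReflTransGen (StepIn (((B ∩ F : Finset P2)) : Set P2)) t t1)
    {v : P2} (hv : v ∈ up t) : lft (B ∩ F) ω.1 v = ω.1 v := by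
  obtain ⟨hg, e⟩ := lft_spec (exists_lift hB hF h hP)
  set U := B ∩ F with hU
  set g := lft U ω.1 with hgdef
  have hUF : U ⊆ F := Finset.inter_subset_right
  obtain ⟨t1, ht1, t2, ht2, ha, hp⟩ := hpath
  have step : ∀ t ∈ U, ∀ v ∈ up t, ∀ w ∈ up t, ω.1 v - g v = ω.1 w - g w := by
    intro t ht v hv w hw
    exact diff_const_up (h.1.ht.lip t (hUF ht)) (hg.lip t ht)
      (fun u hu => e u (mem_VF.2 ⟨t, ht, hu⟩)) hv hw
  have hall : ∀ s, Relation.ReflTransGen (StepIn ((U : Finset P2) : Set P2)) t s → s ∈ U →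
      ∀ w ∈ up s, ω.1 v - g v = ω.1 w - g w := by
    intro s hs
    induction hs with
    | refl => exact fun _ w hw => step t ht v hv w hw
    | @tail a b _ h2 ih =>
      intro hb w hw
      obtain ⟨hat, hbt, hab⟩ := h2
      have ha' : a ∈ U := by simpa using hat
      obtain ⟨x, hx1, hx2⟩ := adj_site hab
      rw [ih ha' x hx1]
      exact step b hb x hx2 w hw
  obtain ⟨x, hx1, hx2⟩ := adj_site ha
  have h1 := hall t1 hp ht1 x hx1
  have hxF : x ∉ IV F := fun hh => ht2 (mem_IV'.1 hh t2 hx2)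
  have hxU : x ∉ IV U := fun hh => ht2 (hUF (mem_IV'.1 hh t2 hx2))
  have m := mod4_of_s (e x (mem_VF.2 ⟨t1, ht1, hx1⟩)).1 (e x (mem_VF.2 ⟨t1, ht1, hx1⟩)).2
  have b1 := h.1.ht.bd x hxF
  have b2 := hg.bd x hxU
  omega

/-! ### reflection of the inside -/

/-- reflection of the inside -/
def rf (U : Finset P2) (h : P2 → ℤ) (v : P2) : ℤ :=
  if v ∈ VF U then h v + 1 - 2 * lft U h v else h v

/-- reflected configuration -/
def rfc (U : Finset P2) (ω : Cfg) : Cfg := (rf U ω.1, ω.2)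

theorem s1_add4 (a j : ℤ) (h : j % 4 = 0) : s1 (a + j) = s1 a := by
  rcases h' : s1 a with _ | _
  · rw [s1_false] at h'; rw [s1_false]; omega
  · rw [s1_true] at h'; rw [s1_true]; omega

theorem s2_add4 (a j : ℤ) (h : j % 4 = 0) : s2 (a + j) = s2 a := by
  rcases h' : s2 a with _ | _
  · rw [s2_false] at h'; rw [s2_false]; omega
  · rw [s2_true] at h'; rw [s2_true]; omega

theorem half_of {a b : ℤ} (h : |a - b| ≤ 1) (hs : s1 a = s1 b) : a / 2 = b / 2 := by
  have h1 := abs_le.1 h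
  rcases h' : s1 a with _ | _ <;> rw [h'] at hs
  · rw [s1_false] at h'; rw [eq_comm, s1_false] at hs; omega
  · rw [s1_true] at h'; rw [eq_comm, s1_true] at hs; omega

section
variable {B F : Finset P2} (hB : SC B) (hF : SC F) {ω : Cfg} (h : Ok F ω) (hP : PLay B ω)
include hB hF h hP

theorem rf_mod {v : P2} (hv : v ∈ VF (B ∩ F)) :
    (ω.1 v - lft (B ∩ F) ω.1 v) % 4 = 0 := by
  obtain ⟨hg, e⟩ := lft_spec (exists_lift hB hF h hP)
  exact mod4_of_s (e v hv).1.symm (e v hv).2.symm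

theorem s1_rf (v : P2) : s1 (rf (B ∩ F) ω.1 v) = s1 (ω.1 v) := by
  unfold rf
  by_cases hv : v ∈ VF (B ∩ F)
  · rw [if_pos hv]
    have m := rf_mod hB hF h hP hv
    have e1 : ω.1 v + 1 - 2 * lft (B ∩ F) ω.1 v =
        (1 - ω.1 v) + 2 * (ω.1 v - lft (B ∩ F) ω.1 v) := by ring
    rw [e1, s1_add4 _ _ (by omega), s1_refl]
  · rw [if_neg hv]

theorem s2_rf {v : P2} (hv : v ∈ VF (B ∩ F)) : s2 (rf (B ∩ F) ω.1 v) = !s2 (ω.1 v) := by
  unfold rf
  rw [if_pos hv]
  have m := rf_mod hB hF h hP hv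
  have e1 : ω.1 v + 1 - 2 * lft (B ∩ F) ω.1 v =
      (1 - ω.1 v) + 2 * (ω.1 v - lft (B ∩ F) ω.1 v) := by ring
  rw [e1, s2_add4 _ _ (by omega), s2_refl]

theorem rf_off {v : P2} (hv : v ∉ VF (B ∩ F)) : rf (B ∩ F) ω.1 v = ω.1 v := by
  unfold rf; rw [if_neg hv]

/-- the layer triangles are closed and plus -/
theorem layer_closed {t' v : P2} (ht' : t' ∈ F) (hU' : t' ∉ B ∩ F) (hv : v ∈ up t')
    (hvU : v ∈ VF (B ∩ F)) : pC ω t' := by
  obtain ⟨t, ht, htv⟩ := mem_VF.1 hvU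
  rcases adj_of_share htv hv with e | e
  · exact absurd (e ▸ ht) hU'
  · exact hP t (Finset.mem_inter.1 ht).1 t' (fun hh => hU' (Finset.mem_inter.2 ⟨hh, ht'⟩)) e

/-- boundary values of the lift -/
theorem lft_bd {t' v : P2} (hU' : t' ∉ B ∩ F) (hv : v ∈ up t') :
    lft (B ∩ F) ω.1 v = 0 ∨ lft (B ∩ F) ω.1 v = 1 := by
  obtain ⟨hg, e⟩ := lft_spec (exists_lift hB hF h hP)
  exact hg.bd v fun hh => hU' (mem_IV'.1 hh t' hv)

theorem rf_half {t' v : P2} (hU' : t' ∉ B ∩ F) (hv : v ∈ up t') :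
    rf (B ∩ F) ω.1 v / 2 = ω.1 v / 2 := by
  by_cases hvU : v ∈ VF (B ∩ F)
  · have m := rf_mod hB hF h hP hvU
    have b := lft_bd hB hF h hP hU' hv
    unfold rf
    rw [if_pos hvU]
    rcases b with b | b <;> rw [b] at m ⊢ <;> omega
  · rw [rf_off hB hF h hP hvU]

theorem hv_rf : HV F (rf (B ∩ F) ω.1) := by
  obtain ⟨hg, e⟩ := lft_spec (exists_lift hB hF h hP)
  have hUF : B ∩ F ⊆ F := Finset.inter_subset_right
  refine ⟨fun t ht i j => ?_, fun v hv => ?_, fun v hv => ?_⟩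
  · by_cases htU : t ∈ B ∩ F
    · have d := diff_const_up (h.1.ht.lip t ht) (hg.lip t htU)
        (fun u hu => e u (mem_VF.2 ⟨t, htU, hu⟩)) (cr_mem_up t i) (cr_mem_up t j)
      have l := abs_le.1 (hg.lip t htU i j)
      unfold rf
      rw [if_pos (cr_mem htU i), if_pos (cr_mem htU j), abs_le]
      omega
    · by_cases hc : ∃ v ∈ up t, v ∈ VF (B ∩ F)
      · obtain ⟨v, hv, hvU⟩ := hc
        have hpc := layer_closed hB hF h hP ht htU hv hvU
        have q : ∀ k, rf (B ∩ F) ω.1 (cr t k) / 2 = ω.1 (cr t k) / 2 := fun k =>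
          rf_half hB hF h hP htU (cr_mem_up t k)
        have q2 : ω.1 (cr t i) / 2 = ω.1 (cr t j) / 2 :=
          half_of (h.1.ht.lip t ht i j) (by
            rw [pc_plus h hpc (cr_mem_up t i), pc_plus h hpc (cr_mem_up t j)])
        have q3 := q i
        have q4 := q j
        rw [abs_le]
        omega
      · push Not at hc
        rw [rf_off hB hF h hP (hc _ (cr_mem_up t i)), rf_off hB hF h hP (hc _ (cr_mem_up t j))]
        exact h.1.ht.lip t ht i j
  · have b := h.1.ht.bd v hv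
    by_cases hvU : v ∈ VF (B ∩ F)
    · have m := rf_mod hB hF h hP hvU
      have b2 := hg.bd v fun hh => hv (IV_mono hUF hh)
      unfold rf
      rw [if_pos hvU]
      omega
    · rw [rf_off hB hF h hP hvU]; exact b
  · rw [rf_off hB hF h hP fun hh => hv (VF_mono hUF hh)]
    exact h.1.ht.off v hv

theorem valid_rfc : Valid F (rfc (B ∩ F) ω) := ⟨hv_rf hB hF h hP, h.1.cl⟩

theorem c1_rf (t : P2) : C1 (rf (B ∩ F) ω.1) t ↔ C1 ω.1 t := by
  unfold C1
  rw [s1_rf hB hF h hP, s1_rf hB hF h hP, s1_rf hB hF h hP]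

theorem c2_rf {t : P2} (ht : t ∈ F) (hz : ω.2 t = false) :
    C2 (rf (B ∩ F) ω.1) t ↔ C2 ω.1 t := by
  by_cases htU : t ∈ B ∩ F
  · unfold C2
    rw [s2_rf hB hF h hP (cr_mem htU 0), s2_rf hB hF h hP (cr_mem htU 1),
      s2_rf hB hF h hP (cr_mem htU 2)]
    cases s2 (ω.1 (cr t 0)) <;> cases s2 (ω.1 (cr t 1)) <;> cases s2 (ω.1 (cr t 2)) <;> decide
  · have hn : ∀ v ∈ up t, v ∉ VF (B ∩ F) := by
      intro v hv hvU
      have := layer_closed hB hF h hP ht htU hv hvU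
      rw [this.1] at hz
      exact absurd hz (by decide)
    unfold C2
    rw [rf_off hB hF h hP (hn _ (cr_mem_up t 0)), rf_off hB hF h hP (hn _ (cr_mem_up t 1)),
      rf_off hB hF h hP (hn _ (cr_mem_up t 2))]

theorem ew_rfc (c : ℝ) {t : P2} (ht : t ∈ F) : ew c (rfc (B ∩ F) ω) t = ew c ω t := by
  have e1 := c1_rf hB hF h hP t
  unfold ew rfc
  dsimp only
  by_cases hz : ω.2 t = true
  · rw [if_pos hz, if_pos hz]
    by_cases hc : C1 ω.1 t
    · rw [if_pos hc, if_pos (e1.2 hc)]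
    · rw [if_neg hc, if_neg fun hh => hc (e1.1 hh)]
  · have hz' : ω.2 t = false := by simpa using hz
    have e2 := c2_rf hB hF h hP ht hz'
    rw [if_neg hz, if_neg hz]
    by_cases hc2 : C2 ω.1 t
    · rw [if_pos hc2, if_pos (e2.2 hc2)]
      by_cases hc : C1 ω.1 t
      · rw [if_pos hc, if_pos (e1.2 hc)]
      · rw [if_neg hc, if_neg fun hh => hc (e1.1 hh)]
    · rw [if_neg hc2, if_neg fun hh => hc2 (e2.1 hh)]

theorem wt_rfc (c : ℝ) : wt c F (rfc (B ∩ F) ω) = wt c F ω :=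
  Finset.prod_congr rfl fun t ht => ew_rfc hB hF h hP c ht

theorem ok_rfc : Ok F (rfc (B ∩ F) ω) := by
  refine ⟨valid_rfc hB hF h hP, fun t ht => ⟨fun hz => ?_, fun hz => ?_⟩⟩
  · exact (c1_rf hB hF h hP t).2 ((h.2 t ht).1 hz)
  · exact (c2_rf hB hF h hP ht hz).2 ((h.2 t ht).2 hz)

theorem lft_rf : lft (B ∩ F) (rf (B ∩ F) ω.1) = rfl1 (B ∩ F) (lft (B ∩ F) ω.1) := by
  obtain ⟨hg, e⟩ := lft_spec (exists_lift hB hF h hP)
  have h1 : HV (B ∩ F) (rfl1 (B ∩ F) (lft (B ∩ F) ω.1)) := by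
    have := rfl1_mem (F := B ∩ F) (I := IV (B ∩ F)) (h := lft (B ∩ F) ω.1)
      (by rw [htsI_self, mem_hts]; exact hg)
    rw [htsI_self, mem_hts] at this
    exact this
  refine lft_eq_of h1 fun v hv => ⟨?_, ?_⟩
  · rw [s1_rf hB hF h hP]
    unfold rfl1
    rw [if_pos hv, s1_refl, (e v hv).1]
  · rw [s2_rf hB hF h hP hv]
    unfold rfl1
    rw [if_pos hv, s2_refl, (e v hv).2]

theorem rfc_invol : rfc (B ∩ F) (rfc (B ∩ F) ω) = ω := by
  unfold rfc
  refine Prod.ext ?_ rfl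
  dsimp only
  funext v
  by_cases hv : v ∈ VF (B ∩ F)
  · have e1 : rf (B ∩ F) (rf (B ∩ F) ω.1) v =
        rf (B ∩ F) ω.1 v + 1 - 2 * lft (B ∩ F) (rf (B ∩ F) ω.1) v := by
      conv_lhs => unfold rf
      rw [if_pos hv]
      rfl
    rw [e1, lft_rf hB hF h hP]
    unfold rf rfl1
    rw [if_pos hv, if_pos hv]
    ring
  · have e1 : rf (B ∩ F) (rf (B ∩ F) ω.1) v = rf (B ∩ F) ω.1 v := by
      conv_lhs => unfold rf
      rw [if_neg hv]
      rfl
    rw [e1, rf_off hB hF h hP hv]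

end

/-- **Reflection of the inside.** -/
theorem refl_layer {c : ℝ} {B F : Finset P2} (hB : SC B) (hF : SC F) {g : Cfg → ℝ}
    (hg : OffTZ B g) (hP : ∀ ω, g ω ≠ 0 → PLay B ω) (Φ : (P2 → ℤ) → ℝ) :
    E c F (fun ω => g ω * Φ (rf (B ∩ F) ω.1)) = E c F (fun ω => g ω * Φ ω.1) := by
  classical
  rw [E_eq_S, E_eq_S]
  congr 1
  unfold S
  -- restrict to positive weight and nonzero `g`
  have hgr : ∀ ω : Cfg, Ok F ω → PLay B ω → g (rfc (B ∩ F) ω) = g ω := by
    intro ω h hp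
    exact hg _ _ (fun v _ => s1_rf hB hF h hp v) (fun t _ => rfl)
  set K : Finset Cfg := (conf F).filter fun ω => Ok F ω ∧ g ω ≠ 0 with hK
  have red : ∀ Ψ : Cfg → ℝ, ∑ ω ∈ conf F, wt c F ω * (g ω * Ψ ω) =
      ∑ ω ∈ K, wt c F ω * (g ω * Ψ ω) := by
    intro Ψ
    symm
    refine Finset.sum_subset (Finset.filter_subset _ _) fun ω hω hω' => ?_
    by_cases hw : wt c F ω = 0
    · rw [hw, zero_mul]
    · have hok : Ok F ω := ⟨mem_conf.1 hω, fun t ht => wt_ne_zero hw ht⟩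
      by_cases hg0 : g ω = 0
      · rw [hg0, zero_mul, mul_zero]
      · exact absurd (Finset.mem_filter.2 ⟨hω, hok, hg0⟩) hω'
  rw [red (fun ω => Φ (rf (B ∩ F) ω.1)), red (fun ω => Φ ω.1)]
  have hmem : ∀ ω ∈ K, rfc (B ∩ F) ω ∈ K := by
    intro ω hω
    obtain ⟨h1, h2, h3⟩ := Finset.mem_filter.1 hω
    refine Finset.mem_filter.2 ⟨mem_conf.2 (valid_rfc hB hF h2 (hP ω h3)),
      ok_rfc hB hF h2 (hP ω h3), ?_⟩
    rw [hgr ω h2 (hP ω h3)]
    exact h3
  refine Finset.sum_nbij' (i := rfc (B ∩ F)) (j := rfc (B ∩ F)) hmem hmem (fun ω hω => ?_)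
    (fun ω hω => ?_) (fun ω hω => ?_)
  · obtain ⟨h1, h2, h3⟩ := Finset.mem_filter.1 hω
    exact rfc_invol hB hF h2 (hP ω h3)
  · obtain ⟨h1, h2, h3⟩ := Finset.mem_filter.1 hω
    exact rfc_invol hB hF h2 (hP ω h3)
  · obtain ⟨h1, h2, h3⟩ := Finset.mem_filter.1 hω
    rw [wt_rfc hB hF h2 (hP ω h3) c, hgr ω h2 (hP ω h3)]
    rfl

end Crest.Agent.R144.Hf702
end
end

-- ▼ part R144/Hf7_702

/-!
# R144, block HALF (helper702), part 7: the two variance inequalities

* `inner_le` : `E_{ball a r}[Y²] P_F(BlkP a m N) ≤ E_F[X²]`, `X = ∑ w h - ∑ w' h` (equal masses), `Y = ∑ w (h - 1/2)`,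
  `w ≥ 0` inside `ball a r`, `w'` outside `ball a (N + 1)`;
* `rec_step` : `E_F[Y²] ≤ M + E_F[Y²; no plus-closed layer]`, `b ∉ F`, `M` bounds `E_U[Y²]` for all simply
  connected `U ⊆ ball b (N + 1)`, `b ∉ U`.
-/

set_option autoImplicit false
set_option linter.unusedVariables false

noncomputable section

namespace Crest.Agent.R144.Hf702

open Finset
open Crest.Agent.R144.It844 (P2 adj_symm adj_iff)
open Crest.Agent.R144.Zg349 Crest.Agent.R144.Zk349 Crest.Agent.R144.Zd349 Crest.Agent.R144.Zm349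
open Crest.Agent.R144.Ze349
open Crest.Agent.R144.Pst967 (path_symm adj_of_share E_pos_congr wt_ne_zero hexB conn_in_hexB)
open Crest.Agent.R144.Rsw867
open Crest.ProbabilityR.HexHeights (Adj)

/-- linear statistic -/
def Ln (S : Finset P2) (w : P2 → ℝ) (h : P2 → ℤ) : ℝ := ∑ v ∈ S, w v * (h v : ℝ)

/-- centred linear statistic -/
def Yn (S : Finset P2) (w : P2 → ℝ) (h : P2 → ℤ) : ℝ := ∑ v ∈ S, w v * ((h v : ℝ) - 1 / 2)

theorem Yn_eq (S : Finset P2) (w : P2 → ℝ) (h : P2 → ℤ) :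
    Yn S w h = Ln S w h - (∑ v ∈ S, w v) / 2 := by
  unfold Yn Ln
  rw [Finset.sum_div, ← Finset.sum_sub_distrib]
  exact Finset.sum_congr rfl fun v _ => by ring

/-- all triangles at the sites of `S` are in `ball b r` -/
def InB (b : P2) (r : ℕ) (S : Finset P2) : Prop := ∀ v ∈ S, ∀ t, v ∈ up t → t ∈ ball b r

theorem InB.vf {b : P2} {r : ℕ} {S : Finset P2} (h : InB b r S) : S ⊆ VF (ball b r) := fun v hv =>
  mem_VF.2 ⟨v, h v hv v (base_mem_up v), base_mem_up v⟩

theorem conn_hexB' (n : ℕ) : IsConn ((hexB n : Finset P2) : Set P2) := fun u hu v hv =>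
  (conn_in_hexB n (by simpa using hu)).trans (path_symm (conn_in_hexB n (by simpa using hv)))

theorem conn_ball (a : P2) (n : ℕ) : IsConn ((ball a n : Finset P2) : Set P2) := by
  have h := conn_shift a (conn_hexB' n)
  have e : {v : P2 | v - a ∈ ((hexB n : Finset P2) : Set P2)} = ((ball a n : Finset P2) : Set P2) := by
    ext v
    show (v - a ∈ ((hexB n : Finset P2) : Set P2)) ↔ v ∈ ((ball a n : Finset P2) : Set P2)
    simp only [Finset.mem_coe, mem_ball']
  rw [e] at h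
  exact h

theorem self_mem_ball (a : P2) (n : ℕ) : a ∈ ball a n := by
  rw [mem_ball]; simp

/-- a set which is not simply connected is never the unexplored domain -/
theorem sc_of_PBI {D B : Finset P2} (hD : SC D) {ω : Cfg} (h : PBI D B ω ≠ 0) : SC B := by
  unfold PBI at h
  by_cases h1 : PB D ω = B
  · rw [← h1]; exact sc_Bg _ hD
  · rw [if_neg h1] at h; exact absurd rfl h

theorem eq_of_PBI {D B : Finset P2} {ω : Cfg} (h : PBI D B ω ≠ 0) : PB D ω = B := by
  unfold PBI at h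
  by_contra h1
  rw [if_neg h1] at h; exact absurd rfl h

open Classical in
/-- blocking gives a large unexplored domain -/
theorem ind_le_sum {a : P2} {r m N : ℕ} (hr : r + 1 ≤ m) (hmN : m ≤ N) (ω : Cfg) :
    ind (BlkP a m N) ω ≤ ∑ B ∈ (ball a (N + 1)).powerset with ball a r ⊆ B,
      PBI (ball a (N + 1)) B ω := by
  by_cases h : ω ∈ BlkP a m N
  · rw [ind_of_mem h]
    have h1 : ball a r ⊆ PB (ball a (N + 1)) ω := ball_sub_Bg hr hmN h
    have h2 : PB (ball a (N + 1)) ω ∈ ((ball a (N + 1)).powerset.filter fun B => ball a r ⊆ B) :=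
      Finset.mem_filter.2 ⟨Finset.mem_powerset.2 (Bg_sub _ _), h1⟩
    have h3 : PBI (ball a (N + 1)) (PB (ball a (N + 1)) ω) ω = 1 := by
      unfold PBI; rw [if_pos rfl]
    have h4 := Finset.single_le_sum (f := fun B => PBI (ball a (N + 1)) B ω)
      (fun B _ => PBI_nonneg _ B ω) h2
    rw [← h3]
    exact h4
  · rw [ind_of_not_mem h]
    exact Finset.sum_nonneg fun B _ => PBI_nonneg _ B ω

theorem sum_filter_le_one (a : P2) (r N : ℕ) (ω : Cfg) [DecidablePred fun B => ball a r ⊆ B] :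
    ∑ B ∈ (ball a (N + 1)).powerset with ball a r ⊆ B, PBI (ball a (N + 1)) B ω ≤ 1 := by
  rw [← sum_PBI (ball a (N + 1)) ω]
  exact Finset.sum_le_sum_of_subset_of_nonneg (Finset.filter_subset _ _)
    fun B _ _ => PBI_nonneg _ B ω

theorem Yn_sq_inc {S T : Finset P2} (hS : S ⊆ T) {w : P2 → ℝ} (hw : ∀ v, 0 ≤ w v) :
    Inc T fun h => Yn S w h ^ 2 :=
  (Inc.sum S fun v hv => (Inc.height (hS hv)).smul (hw v)).pow 2

/-- **Inner domain against outer domain.** -/
theorem inner_le {x : ℝ} (hx0 : 0 < x) (hx1 : x ≤ 1) {F : Finset P2} (hF : SC F) {a : P2}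
    {r m N : ℕ} (hr : r + 1 ≤ m) (hmN : m ≤ N) (hball : ball a (N + 1) ⊆ F)
    {S S' : Finset P2} {w w' : P2 → ℝ} (hw : ∀ v, 0 ≤ w v) (hS : S ⊆ VF (ball a r))
    (hS' : ∀ v ∈ S', v ∉ VF (ball a (N + 1))) :
    EH x (ball a r) (fun h => Yn S w h ^ 2) * Pr ((x ^ 2)⁻¹) F (BlkP a m N) ≤
      E ((x ^ 2)⁻¹) F (fun ω => (Ln S w ω.1 - Ln S' w' ω.1) ^ 2) := by
  classical
  have hx2 : 0 < x ^ 2 := by positivity
  have hc : 1 ≤ (x ^ 2)⁻¹ := (one_le_inv₀ hx2).2 (pow_le_one₀ hx0.le hx1)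
  set c := (x ^ 2)⁻¹ with hcdef
  set D := ball a (N + 1) with hD
  set X : (P2 → ℤ) → ℝ := fun h => Ln S w h - Ln S' w' h with hX
  set e := EH x (ball a r) (fun h => Yn S w h ^ 2) with he
  -- one domain
  have one : ∀ B ∈ D.powerset.filter (fun B => ball a r ⊆ B),
      e * E c F (PBI D B) ≤ E c F (fun ω => PBI D B ω * X ω.1 ^ 2) := by
    intro B hB
    obtain ⟨hBD, hrB⟩ := Finset.mem_filter.1 hB
    rw [Finset.mem_powerset] at hBD
    by_cases hsc : SC B
    swap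
    · have h0 : ∀ ω, PBI D B ω = 0 := fun ω => by
        by_contra h
        exact hsc (sc_of_PBI (sc_ball a (N + 1)) h)
      have e1 : E c F (PBI D B) = 0 := by
        rw [show PBI D B = fun _ => (0 : ℝ) from funext h0]; exact E_const hc F 0
      have e2 : E c F (fun ω => PBI D B ω * X ω.1 ^ 2) = 0 := by
        rw [show (fun ω => PBI D B ω * X ω.1 ^ 2) = fun _ => (0 : ℝ) from
          funext fun ω => by rw [h0, zero_mul]]
        exact E_const hc F 0
      rw [e1, e2, mul_zero]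
    have hBF : B ∩ F = B := Finset.inter_eq_left.2 (hBD.trans hball)
    have hSB : S ⊆ VF B := hS.trans (VF_mono hrB)
    have hS'B : ∀ v ∈ S', v ∉ VF B := fun v hv h => hS' v hv (VF_mono hBD h)
    have hPl : ∀ ω, PBI D B ω ≠ 0 → PLay B ω := fun ω h => pLay_of_PBI h
    -- reflection
    have k1 := refl_layer (c := c) hsc hF (offTZ_PBI D B) hPl (fun h => X h ^ 2)
    rw [hBF] at k1
    -- difference of the two values
    have k2 : ∀ h : P2 → ℤ, X h - X (rf B h) = 2 * Yn S w (lft B h) := by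
      intro h
      have e1 : Ln S' w' (rf B h) = Ln S' w' h := by
        unfold Ln
        refine Finset.sum_congr rfl fun v hv => ?_
        unfold rf
        rw [if_neg (hS'B v hv)]
      have e2 : Ln S w h - Ln S w (rf B h) = 2 * Yn S w (lft B h) := by
        unfold Ln Yn
        rw [← Finset.sum_sub_distrib, Finset.mul_sum]
        refine Finset.sum_congr rfl fun v hv => ?_
        unfold rf
        rw [if_pos (hSB hv)]
        push_cast
        ring
      simp only [hX]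
      rw [e1]
      linarith
    have k3 : E c F (fun ω => PBI D B ω * Yn S w (lft B ω.1) ^ 2) ≤
        E c F (fun ω => PBI D B ω * X ω.1 ^ 2) := by
      have k4 : E c F (fun ω => PBI D B ω * Yn S w (lft B ω.1) ^ 2) ≤
          E c F (fun ω => (1 / 2) * (PBI D B ω * X ω.1 ^ 2) +
            (1 / 2) * (PBI D B ω * X (rf B ω.1) ^ 2)) := by
        refine E_mono hc fun ω _ => ?_
        have hk := k2 ω.1
        have hp := PBI_nonneg D B ω
        have : Yn S w (lft B ω.1) ^ 2 ≤ (1 / 2) * X ω.1 ^ 2 + (1 / 2) * X (rf B ω.1) ^ 2 := by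
          have hy : Yn S w (lft B ω.1) = (X ω.1 - X (rf B ω.1)) / 2 := by linarith
          rw [hy]
          nlinarith [sq_nonneg (X ω.1 + X (rf B ω.1))]
        calc _ ≤ PBI D B ω * ((1 / 2) * X ω.1 ^ 2 + (1 / 2) * X (rf B ω.1) ^ 2) :=
              mul_le_mul_of_nonneg_left this hp
          _ = _ := by ring
      rw [E_add, E_smul, E_smul, k1] at k4
      linarith
    have k5 := dec hc hsc hF (offTZ_PBI D B) hPl (inC_lft (B ∩ F) (fun h => Yn S w h ^ 2))
    rw [hBF] at k5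
    have k6 : E c B (fun ω => Yn S w (lft B ω.1) ^ 2) = EH x B (fun h => Yn S w h ^ 2) := by
      rw [← E_eq_EH hx0.ne']
      exact E_congr fun ω hω => by rw [lft_self hω.ht]
    rw [k6] at k5
    have k7 : e ≤ EH x B (fun h => Yn S w h ^ 2) := EH_mono hx0.le hx1 hrB (Yn_sq_inc hS hw)
    have k8 : 0 ≤ E c F (PBI D B) := E_nonneg hc fun ω _ => PBI_nonneg D B ω
    calc e * E c F (PBI D B) ≤ EH x B (fun h => Yn S w h ^ 2) * E c F (PBI D B) :=
          mul_le_mul_of_nonneg_right k7 k8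
      _ = E c F (fun ω => PBI D B ω * Yn S w (lft B ω.1) ^ 2) := by rw [k5]; ring
      _ ≤ _ := k3
  have e0 : 0 ≤ e := EH_nonneg hx0.le hx1 (Yn_sq_inc hS hw)
  calc e * Pr c F (BlkP a m N)
      ≤ e * E c F (fun ω => ∑ B ∈ D.powerset with ball a r ⊆ B, PBI D B ω) := by
        refine mul_le_mul_of_nonneg_left ?_ e0
        rw [Pr_eq]
        exact E_mono hc fun ω _ => ind_le_sum hr hmN ω
    _ = ∑ B ∈ D.powerset with ball a r ⊆ B, e * E c F (PBI D B) := by
        rw [E_sum, Finset.mul_sum]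
    _ ≤ ∑ B ∈ D.powerset with ball a r ⊆ B, E c F (fun ω => PBI D B ω * X ω.1 ^ 2) :=
        Finset.sum_le_sum one
    _ = E c F (fun ω => ∑ B ∈ D.powerset with ball a r ⊆ B, PBI D B ω * X ω.1 ^ 2) := by
        rw [E_sum]
    _ ≤ E c F (fun ω => X ω.1 ^ 2) := by
        refine E_mono hc fun ω _ => ?_
        rw [← Finset.sum_mul]
        exact mul_le_of_le_one_left (sq_nonneg _) (sum_filter_le_one a r N ω)

/-- **Recursion step.** -/
theorem rec_step {c : ℝ} (hc : 1 ≤ c) {F : Finset P2} (hF : SC F) {b : P2} (hb : b ∉ F)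
    {r m N : ℕ} (hr : r + 1 ≤ m) (hmN : m ≤ N) {S : Finset P2} (hS : InB b r S) {w : P2 → ℝ}
    {M : ℝ} (hM0 : 0 ≤ M)
    (hM : ∀ U : Finset P2, SC U → U ⊆ ball b (N + 1) → b ∉ U →
      E c U (fun ω => Yn S w ω.1 ^ 2) ≤ M) :
    E c F (fun ω => Yn S w ω.1 ^ 2) ≤
      M + E c F (fun ω => Yn S w ω.1 ^ 2 * ind (BlkP b m N)ᶜ ω) := by
  classical
  set D := ball b (N + 1) with hD
  have one : ∀ B ∈ D.powerset.filter (fun B => ball b r ⊆ B),
      E c F (fun ω => PBI D B ω * Yn S w ω.1 ^ 2) ≤ M * E c F (PBI D B) := by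
    intro B hB
    obtain ⟨hBD, hrB⟩ := Finset.mem_filter.1 hB
    rw [Finset.mem_powerset] at hBD
    by_cases hsc : SC B
    swap
    · have h0 : ∀ ω, PBI D B ω = 0 := fun ω => by
        by_contra h
        exact hsc (sc_of_PBI (sc_ball b (N + 1)) h)
      have e1 : E c F (PBI D B) = 0 := by
        rw [show PBI D B = fun _ => (0 : ℝ) from funext h0]; exact E_const hc F 0
      have e2 : E c F (fun ω => PBI D B ω * Yn S w ω.1 ^ 2) = 0 := by
        rw [show (fun ω => PBI D B ω * Yn S w ω.1 ^ 2) = fun _ => (0 : ℝ) from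
          funext fun ω => by rw [h0, zero_mul]]
        exact E_const hc F 0
      rw [e1, e2, mul_zero]
    have hPl : ∀ ω, PBI D B ω ≠ 0 → PLay B ω := fun ω h => pLay_of_PBI h
    -- the window sees the lift
    have k1 : E c F (fun ω => PBI D B ω * Yn S w ω.1 ^ 2) =
        E c F (fun ω => PBI D B ω * Yn S w (lft (B ∩ F) ω.1) ^ 2) := by
      refine E_pos_congr fun ω hω hw => ?_
      by_cases hp : PBI D B ω = 0
      · rw [hp, zero_mul, zero_mul]
      have hok : Ok F ω := ⟨hω, hw⟩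
      have hPL := hPl ω hp
      have hY : Yn S w ω.1 = Yn S w (lft (B ∩ F) ω.1) := by
        unfold Yn
        refine Finset.sum_congr rfl fun v hv => ?_
        have hv' : lft (B ∩ F) ω.1 v = ω.1 v := by
          by_cases hvF : v ∈ VF F
          · obtain ⟨t, ht, htv⟩ := mem_VF.1 hvF
            have htr : t ∈ ball b r := hS v hv t htv
            have htU : t ∈ B ∩ F := Finset.mem_inter.2 ⟨hrB htr, ht⟩
            refine lft_eq hsc hF hok hPL htU ?_ htv
            -- path to `b` inside the ball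
            have hpath := conn_ball b r t (by simpa using htr) b (by simpa using self_mem_ball b r)
            rcases first_hit (fun s => s ∉ F) (u := t) (v := b) (by
              show ¬ (t ∉ F)
              exact not_not.2 ht) hpath with ⟨h1, _⟩ | ⟨s, hs, hp2⟩
            · exact absurd (show b ∉ F from hb) h1
            · -- last step of the path enters the complement of `F`
              have key : ∀ s, Relation.ReflTransGen (StepIn (((ball b r : Finset P2) : Set P2) ∩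
                  {t | t ∉ {s | s ∉ F} ∨ ∃ t', t' ∉ {s | s ∉ F} ∧ Adj t' t})) t s →
                  (s ∈ B ∩ F ∧ Relation.ReflTransGen (StepIn ((B ∩ F : Finset P2) : Set P2)) t s) ∨
                  ∃ t1 ∈ B ∩ F, ∃ t2, t2 ∉ F ∧ Adj t1 t2 ∧
                    Relation.ReflTransGen (StepIn ((B ∩ F : Finset P2) : Set P2)) t t1 := by
                intro s hs
                induction hs with
                | refl => exact Or.inl ⟨htU, Relation.ReflTransGen.refl⟩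
                | @tail p q _ hpq ih =>
                  rcases ih with ⟨hpU, hpp⟩ | h
                  · by_cases hq : q ∈ F
                    · left
                      have hqB : q ∈ B := hrB (by simpa using hpq.2.1.1)
                      have hqU : q ∈ B ∩ F := Finset.mem_inter.2 ⟨hqB, hq⟩
                      exact ⟨hqU, hpp.tail ⟨by simpa using hpU, by simpa using hqU, hpq.2.2⟩⟩
                    · right
                      exact ⟨p, hpU, q, hq, hpq.2.2, hpp⟩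
                  · exact Or.inr h
              rcases key s hp2 with ⟨hsU, _⟩ | h
              · exact absurd (Finset.mem_inter.1 hsU).2 hs
              · exact h
          · have h1 : ω.1 v = 0 := hω.ht.off v hvF
            have h2 := (lft_spec (exists_lift hsc hF hok hPL)).1.off v
              (fun h => hvF (VF_mono Finset.inter_subset_right h))
            rw [h1, h2]
        rw [hv']
      rw [hY]
    have k5 := dec hc hsc hF (offTZ_PBI D B) hPl (inC_lft (B ∩ F) (fun h => Yn S w h ^ 2))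
    have k6 : E c (B ∩ F) (fun ω => Yn S w (lft (B ∩ F) ω.1) ^ 2) =
        E c (B ∩ F) (fun ω => Yn S w ω.1 ^ 2) :=
      E_congr fun ω hω => by rw [lft_self hω.ht]
    have k7 := hM (B ∩ F) (sc_inter hsc hF) (Finset.inter_subset_left.trans hBD)
      fun h => hb (Finset.mem_inter.1 h).2
    have k8 : 0 ≤ E c F (PBI D B) := E_nonneg hc fun ω _ => PBI_nonneg D B ω
    rw [k1, k5, k6, mul_comm]
    exact mul_le_mul_of_nonneg_right k7 k8
  have split : E c F (fun ω => Yn S w ω.1 ^ 2) =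
      E c F (fun ω => Yn S w ω.1 ^ 2 * ind (BlkP b m N) ω) +
        E c F (fun ω => Yn S w ω.1 ^ 2 * ind (BlkP b m N)ᶜ ω) := by
    rw [← E_add]
    exact E_congr fun ω _ => by rw [ind_compl]; ring
  rw [split]
  refine add_le_add ?_ le_rfl
  calc E c F (fun ω => Yn S w ω.1 ^ 2 * ind (BlkP b m N) ω)
      ≤ E c F (fun ω => ∑ B ∈ D.powerset with ball b r ⊆ B, PBI D B ω * Yn S w ω.1 ^ 2) := by
        refine E_mono hc fun ω _ => ?_
        rw [← Finset.sum_mul, mul_comm]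
        exact mul_le_mul_of_nonneg_right (ind_le_sum hr hmN ω) (sq_nonneg _)
    _ = ∑ B ∈ D.powerset with ball b r ⊆ B, E c F (fun ω => PBI D B ω * Yn S w ω.1 ^ 2) := by
        rw [E_sum]
    _ ≤ ∑ B ∈ D.powerset with ball b r ⊆ B, M * E c F (PBI D B) := Finset.sum_le_sum one
    _ = M * E c F (fun ω => ∑ B ∈ D.powerset with ball b r ⊆ B, PBI D B ω) := by
        rw [E_sum, Finset.mul_sum]
    _ ≤ M * E c F (fun _ => 1) :=
        mul_le_mul_of_nonneg_left (E_mono hc fun ω _ => sum_filter_le_one b r N ω) hM0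
    _ = M := by rw [E_const hc, mul_one]

end Crest.Agent.R144.Hf702
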