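import Crest.Agent.R144.Bnl_991_Mg
import Crest.Agent.R144.Bnd7_991
import Crest.Agent.R144.Bx3_695
import Crest.Agent.R144.Rw1_146
import Crest.Agent.R144.Fr4_353
import Crest.Agent.R144.Hf7_702
import Crest.Agent.R144.Pos2_561
import Crest.Agent.R144.Bnd0_991
import Crest.Agent.R144.Bnd4_991
import Crest.Agent.R144.Gm_400

-- ▼ part R144/Ef2_725
section

/-!
# R144, block BND, (F3), part 2 (helper725): the far arc of the two-arc boundary data

* `ht01c` : heights `{0, 1}` on the connected set `N`; `cn_glue'`, `kn_glue`, `lev0c`, `lev0_regc`;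
* `stepW` : exact decoupling of `E0 c Λ' ξ` across a plus-closed layer in presence of `Cn N * Kn X`;
* `cross_loc` : the crossing event only depends on the heights in `ball o (d + 1)`;
* `far_arc` : **(F3)** for boundary data `τ ∈ {0, 1}` with `τ = 0` in `ball o d2`:
  `ex x Λ τ (ind (Cross N o s d)) ≤ C (m / M) ^ α + (1 - q0 p ^ ((2 L + 1) ^ 2)) ^ #S`.
-/

set_option autoImplicit false
set_option linter.unusedVariables false
set_option linter.unusedSectionVars false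
set_option linter.unusedSimpArgs false

noncomputable section

namespace Crest.Agent.R144.Ef725

open Finset
open Crest.Agent.R144.It844 (P2 Lip upT mem_upT ex adj_iff adj_symm)
open Crest.Agent.R144.Zg349 Crest.Agent.R144.Zk349 Crest.Agent.R144.Zd349
open Crest.Agent.R144.Zm349 Crest.Agent.R144.Ze349 Crest.Agent.R144.Zs349
open Crest.Agent.R144.Zo349
open Crest.Agent.R144.Bnd991 Crest.Agent.R144.Bnl991
open Crest.Agent.R144.Ccn2311 (LowB)
open Crest.Agent.R144.Rsw867 (ball mem_ball ball_mono adj_ball sc_ball Sepr Blk BlkP ind ind_nonneg ind_le_one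
  path_mono RSW ind_of_mem ind_of_not_mem ind_congr ind_compl ind_le_ind)
open Crest.Agent.R144.Hf702 (Xg Bg mem_Bg notMem_Bg layer_Bg Bg_sub sc_Bg PB PBI PBI_nonneg offTZ_PBI sum_PBI
  xg_of_notMem ball_sub_Bg)
open Crest.Agent.R144.Bx695 (Off off_Cn off_Kn)
open Crest.Agent.R144.Pst967 (path_symm)
open Crest.ProbabilityR.HexHeights (Adj)

/-! ### heights on the non-free sites -/

theorem ht01c {Λ' : Finset P2} {N : Set P2} (hN : IsConn N) {u0 : P2} (hu0 : u0 ∈ N) (hu0' : u0 ∉ Λ')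
    {ω : Cfg} (hω : Lip ω.1) (hb : ∀ v, v ∉ Λ' → ω.1 v = 1) (hC : ∀ v ∈ N, s1 (ω.1 v) = true) :
    ∀ v ∈ N, ω.1 v = 0 ∨ ω.1 v = 1 := by
  intro v hv
  have hp := hN u0 hu0 v hv
  induction hp with
  | refl => exact Or.inr (hb u0 hu0')
  | @tail b d _ hbd ih =>
    have h0 := ih hbd.1
    have h1 := s1_true.1 (hC d hbd.2.1)
    have h2 := abs_le.1 (lip_adj hω hbd.2.2)
    omega

section glue
variable {W : Finset P2} {ω ω' : Cfg} {N X : Set P2} (hW : SC W) (hl : Lip ω.1)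
  (hL : Lay true W ω) (hω' : Valid W ω')
include hW hl hL hω'

theorem cn_glue' : Cn N (glue true W ω ω') = Cn (N \ (IV W : Set P2)) ω * Cn N ω' := by
  have e1 : Cn N ω' = Cn (N ∩ (IV W : Set P2)) ω' := by
    refine Cn_congr ⟨fun h v hv => h v hv.1, fun h v hv => ?_⟩
    by_cases h1 : v ∈ IV W
    · exact h v ⟨hv, h1⟩
    · exact hω'.ht.s1_bd h1
  rw [e1, Cn_split N W]
  congr 1
  · refine Cn_congr ⟨fun h v hv => ?_, fun h v hv => ?_⟩
    · have := h v hv
      rwa [glue_s1_off hW hl hL hω' hv.2] at this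
    · rw [glue_s1_off hW hl hL hω' hv.2]
      exact h v hv
  · refine Cn_congr ⟨fun h v hv => ?_, fun h v hv => ?_⟩
    · have h1 := h v hv
      have h2 := IV_sub_VF W hv.2
      rwa [glue_in h2, s1_lev (lev_mod hW hl hL h2)] at h1
    · have h2 := IV_sub_VF W hv.2
      rw [glue_in h2, s1_lev (lev_mod hW hl hL h2)]
      exact h v hv

theorem kn_glue (hX : ∀ t ∈ X, t ∈ W) : Kn X (glue true W ω ω') = Kn X ω' := by
  have key : ∀ t ∈ X, (pC (glue true W ω ω') t ↔ pC ω' t) := by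
    intro t ht
    have htW := hX t ht
    have h2 : t ∈ VF W := mem_VF.2 ⟨t, htW, base_mem_up t⟩
    unfold pC
    rw [glue_z htW, glue_in h2, s1_lev (lev_mod hW hl hL h2)]
  exact Kn_congr ⟨fun h t ht => (key t ht).1 (h t ht), fun h t ht => (key t ht).2 (h t ht)⟩

theorem lev0c (hN : Anc N W) (h01 : ∀ v ∈ N, (glue true W ω ω').1 v = 0 ∨ (glue true W ω ω').1 v = 1)
    {v : P2} (hv : v ∈ N) (hvW : v ∈ VF W) : lev true W ω v = 0 := by
  refine hN.induct (P := fun v => v ∈ VF W → lev true W ω v = 0) ?_ ?_ v hv hvW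
  · intro v hv hv1 hv2
    have h1 := h01 v hv
    rw [glue_in hv2] at h1
    have h2 := hω'.ht.bd v hv1
    have h3 : lev true W ω v % 4 = 0 := lev_mod hW hl hL hv2
    omega
  · intro u hu v hv ha hP hvI hv2
    obtain ⟨t, htu, htv⟩ : ∃ t, u ∈ up t ∧ v ∈ up t := by
      obtain ⟨a, b⟩ := u
      simp only [mem_up]
      rcases adj_iff.1 ha with rfl | rfl | rfl | rfl | rfl | rfl
      · exact ⟨(a, b), by simp⟩
      · exact ⟨(a - 1, b), by simp⟩
      · exact ⟨(a, b), by simp⟩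
      · exact ⟨(a, b - 1), by simp⟩
      · exact ⟨(a, b - 1), by simp⟩
      · exact ⟨(a - 1, b), by simp⟩
    have htW : t ∈ W := (mem_IV'.1 hvI) t htv
    have huW : u ∈ VF W := mem_VF.2 ⟨t, htW, htu⟩
    obtain ⟨i, rfl⟩ := mem_up_iff.1 htu
    obtain ⟨j, rfl⟩ := mem_up_iff.1 htv
    rw [← lev_tri hW hl hL htW i j]
    exact hP huW

theorem lev0_regc (hN : Anc N W)
    (h01 : ∀ v ∈ N, (glue true W ω ω').1 v = 0 ∨ (glue true W ω ω').1 v = 1) {M : Set P2}
    (hM : IsConn M) (hMW : ∀ t ∈ M, t ∈ W) {t0 v0 : P2} (ht0 : t0 ∈ M) (hv0 : v0 ∈ up t0)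
    (hv0N : v0 ∈ N) {t v : P2} (ht : t ∈ M) (hv : v ∈ up t) : lev true W ω v = 0 := by
  have h0 : lev true W ω v0 = 0 :=
    lev0c hW hl hL hω' hN h01 hv0N (mem_VF.2 ⟨t0, hMW t0 ht0, hv0⟩)
  have key : ∀ t, Relation.ReflTransGen (StepIn M) t0 t → ∀ v ∈ up t, lev true W ω v = 0 := by
    intro t hp
    induction hp with
    | refl =>
      intro v hv
      obtain ⟨i, rfl⟩ := mem_up_iff.1 hv0
      obtain ⟨j, rfl⟩ := mem_up_iff.1 hv
      rw [← lev_tri hW hl hL (hMW t0 ht0) i j]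
      exact h0
    | @tail b d _ hbd ih =>
      intro v hv
      obtain ⟨w, hw1, hw2⟩ := adj_site hbd.2.2
      obtain ⟨i, rfl⟩ := mem_up_iff.1 hw2
      obtain ⟨j, rfl⟩ := mem_up_iff.1 hv
      rw [← lev_tri hW hl hL (hMW d hbd.2.1) i j]
      exact ih _ hw1
  exact key t (hM t0 ht0 t ht) v hv

end glue

/-- **Decoupling of `E0` across a plus-closed layer in presence of `Kn X * Cn N`.** -/
theorem stepW {c : ℝ} (hc : 1 ≤ c) {Λ' W : Finset P2} {ξ : P2 → ℤ} (hW : SC W) (hWΛ : VF W ⊆ Λ')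
    {N X : Set P2} (hN : Anc N W)
    (h01 : ∀ ω ∈ cf Λ' ξ, (∀ v ∈ N, s1 (ω.1 v) = true) → ∀ v ∈ N, ω.1 v = 0 ∨ ω.1 v = 1)
    (hX : ∀ t ∈ X, t ∈ W) {M : Set P2} (hM : IsConn M) (hMW : ∀ t ∈ M, t ∈ W) {t0 v0 : P2}
    (ht0 : t0 ∈ M) (hv0 : v0 ∈ up t0) (hv0N : v0 ∈ N) {g χ : Cfg → ℝ} (hg0 : ∀ ω, 0 ≤ g ω)
    (hg : OffTZ W g) (hgL : ∀ ω ∈ cf Λ' ξ, Zm349.wt c (upT Λ') ω ≠ 0 → g ω ≠ 0 → Lay true W ω)
    (hχ : ∀ ω ω' : Cfg, (∀ t ∈ M, ∀ v ∈ up t, ω.1 v = ω'.1 v) → χ ω = χ ω')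
    {ρ : ℝ} (hA : E c W (fun ω => Kn X ω * Cn N ω * χ ω) ≤ ρ * E c W (fun ω => Kn X ω * Cn N ω)) :
    E0 c Λ' ξ (fun ω => g ω * (Kn X ω * Cn N ω * χ ω)) ≤
      ρ * E0 c Λ' ξ (fun ω => g ω * (Kn X ω * Cn N ω)) := by
  have e1 : ∀ χ' : Cfg → ℝ, (∀ ω ω' : Cfg, (∀ t ∈ M, ∀ v ∈ up t, ω.1 v = ω'.1 v) → χ' ω = χ' ω') →
      E0 c Λ' ξ (fun ω => g ω * (Kn X ω * Cn N ω * χ' ω)) =
        E0 c Λ' ξ (fun ω => (g ω * Cn (N \ (IV W : Set P2)) ω) *
          E c W (fun ω' => Kn X ω' * Cn N ω' * χ' ω')) := by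
    intro χ' hχ'
    refine E0_dec (e := true) hc hW hWΛ (φ := fun _ ω' => Kn X ω' * Cn N ω' * χ' ω') ?_ ?_
    · intro ω hω hw hL
      have : g ω = 0 := by
        by_contra h
        exact hL (hgL ω hω hw h)
      rw [this]
      constructor <;> ring
    · intro ω ω' hω hw hL hω'
      have hl : Lip ω.1 := (mem_cf.1 hω).1.1
      rw [offTZ_glue hW hl hL hω' hg, kn_glue hW hl hL hω' hX]
      by_cases hC : Cn N (glue true W ω ω') = 0
      · have h1 := hC
        rw [cn_glue' hW hl hL hω'] at h1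
        rw [hC]
        calc _ = 0 := by ring
          _ = g ω * Kn X ω' * χ' ω' * (Cn (N \ (IV W : Set P2)) ω * Cn N ω') := by rw [h1]; ring
          _ = _ := by ring
      · have h1 : χ' (glue true W ω ω') = χ' ω' := by
          refine hχ' _ _ fun t ht v hv => ?_
          rw [glue_in (mem_VF.2 ⟨t, hMW t ht, hv⟩),
            lev0_regc hW hl hL hω' hN (h01 _ (glue_mem_cf hW hWΛ hω hL hω') (Cn_ne.1 hC)) hM hMW
              ht0 hv0 hv0N ht hv, zero_add]
        rw [h1, cn_glue' hW hl hL hω']; ring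
  have e2 := e1 χ hχ
  have e3 := e1 (fun _ => 1) (fun _ _ _ => rfl)
  simp only [mul_one] at e3
  rw [e2, e3, ← E0_smul]
  refine E0_mono hc fun ω _ _ => ?_
  have h0 : 0 ≤ g ω * Cn (N \ (IV W : Set P2)) ω := mul_nonneg (hg0 ω) (Cn_nonneg _ _)
  calc _ ≤ (g ω * Cn (N \ (IV W : Set P2)) ω) * (ρ * E c W (fun ω => Kn X ω * Cn N ω)) :=
        mul_le_mul_of_nonneg_left hA h0
    _ = _ := by ring

/-! ### locality of the crossing event -/

theorem sepr_loc {S S' : Set P2} {o : P2} {s d : ℕ} (hsd : s ≤ d)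
    (h : ∀ v ∈ ball o (d + 1), v ∈ S → v ∈ S') (hs : Sepr S o s d) : Sepr S' o s d := by
  intro u v hu hv hp
  -- from the last exit
  have key : ∀ v, Relation.ReflTransGen (StepIn S'ᶜ) u v → v ∈ ball o d → 
      ∃ w, w ∉ ball o d ∧ Relation.ReflTransGen (StepIn Sᶜ) w v := by
    intro v hp
    induction hp with
    | refl => exact fun h1 => absurd h1 hu
    | @tail b e _ hbe ih =>
      intro he
      have hb1 : b ∈ ball o (d + 1) := adj_ball he (adj_symm hbe.2.2)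
      have hst : StepIn Sᶜ b e := ⟨fun h1 => hbe.1 (h b hb1 h1),
        fun h1 => hbe.2.1 (h e (ball_mono o (Nat.le_succ d) he) h1), hbe.2.2⟩
      by_cases hb : b ∈ ball o d
      · obtain ⟨w, hw, hpw⟩ := ih hb
        exact ⟨w, hw, hpw.tail hst⟩
      · exact ⟨b, hb, Relation.ReflTransGen.single hst⟩
  obtain ⟨w, hw, hpw⟩ := key v hp (ball_mono o hsd hv)
  exact hs w v hw hv hpw

theorem cross_loc {N : Set P2} {o : P2} {s d : ℕ} (hsd : s ≤ d) {ω ω' : Cfg}
    (h : ∀ v ∈ ball o (d + 1), ω.1 v = ω'.1 v) : ω ∈ Cross N o s d ↔ ω' ∈ Cross N o s d := by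
  have key : ∀ ω ω' : Cfg, (∀ v ∈ ball o (d + 1), ω.1 v = ω'.1 v) →
      ω ∈ Cross N o s d → ω' ∈ Cross N o s d := fun ω ω' h h1 h2 =>
    h1 (sepr_loc hsd (fun v hv hvS => hvS.imp_right fun h3 => (h v hv).trans_le h3) h2)
  exact ⟨key ω ω' h, key ω' ω fun v hv => (h v hv).symm⟩

/-- balls are connected -/
theorem conn_ball (a : P2) (n : ℕ) : IsConn ((ball a n : Finset P2) : Set P2) := by
  have key : ∀ v, v ∈ ball a n → Relation.ReflTransGen (StepIn ((ball a n : Finset P2) : Set P2)) a v := by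
    suffices H : ∀ k : ℕ, ∀ v, v ∈ ball a n → v ∈ ball a k →
        Relation.ReflTransGen (StepIn ((ball a n : Finset P2) : Set P2)) a v from
      fun v hv => H n v hv hv
    intro k
    induction k with
    | zero =>
      intro v hv h0
      rw [mem_ball] at h0
      simp only [abs_le] at h0
      have : v = a := Prod.ext (by omega) (by omega)
      rw [this]
    | succ k ih =>
      intro v hv hk
      by_cases hk' : v ∈ ball a k
      · exact ih v hv hk'
      · obtain ⟨a1, a2⟩ := a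
        obtain ⟨x, y⟩ := v
        have : ∃ w : P2, Adj w (x, y) ∧ w ∈ ball (a1, a2) k ∧ w ∈ ball (a1, a2) n := by
          simp only [mem_ball, abs_le] at hv hk hk' ⊢
          have hn : (k : ℤ) + 1 ≤ n := by
            by_contra hcon
            apply hk'
            push_cast at *
            omega
          push_cast at hk
          by_cases c1 : 0 < x - a1
          · by_cases c2 : 0 ≤ y - a2
            · exact ⟨(x - 1, y), by rw [adj_iff]; simp, by dsimp only; omega, by dsimp only; omega⟩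
            · exact ⟨(x - 1, y + 1), by rw [adj_iff]; simp, by dsimp only; omega, by dsimp only; omega⟩
          · by_cases c2 : 0 < y - a2
            · by_cases c3 : x - a1 < 0
              · exact ⟨(x + 1, y - 1), by rw [adj_iff]; simp, by dsimp only; omega,
                  by dsimp only; omega⟩
              · exact ⟨(x, y - 1), by rw [adj_iff]; simp, by dsimp only; omega,
                  by dsimp only; omega⟩
            · by_cases c3 : x - a1 < 0
              · exact ⟨(x + 1, y), by rw [adj_iff]; simp, by dsimp only; omega, by dsimp only; omega⟩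
              · exact ⟨(x, y + 1), by rw [adj_iff]; simp, by dsimp only; omega, by dsimp only; omega⟩
        obtain ⟨w, hw1, hw2, hw3⟩ := this
        exact (ih w hw3 hw2).tail ⟨Finset.mem_coe.2 hw3, Finset.mem_coe.2 hv, hw1⟩
  intro u hu v hv
  exact (path_symm (key u (Finset.mem_coe.1 hu))).trans (key v (Finset.mem_coe.1 hv))

end Crest.Agent.R144.Ef725
end
end

-- ▼ part R144/Bnd8_991
section

/-!
# R144, block BND, part 8 (helper991): zero boundary data, and transport by automorphisms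

* `CrH N o r R` : heights with a crossing of free sites with `h ≥ 1`; `Scs.zero` : for data `τ ≤ 0` the
  probability of the crossing is `≤ (1 - q0 c0) ^ #S`;
* `ex_aut` : transport of `ex x Λ ξ` by the automorphisms of the lattice preserving the up triangles.
-/

set_option autoImplicit false
set_option linter.unusedSectionVars false
set_option linter.unusedVariables false

noncomputable section

namespace Crest.Agent.R144.Bnd991

open Finset
open Crest.Agent.R144.It844 (P2 Lip adj_iff adj_symm lip_iff upT mem_upT ex conf mem_conf tw Cst)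
open Crest.Agent.R144.Zg349 Crest.Agent.R144.Zd349 Crest.Agent.R144.Zm349 Crest.Agent.R144.Ze349
open Crest.Agent.R144.Rsw867 (ball mem_ball ball_mono adj_ball sc_ball Sepr Blk BlkP ind ind_nonneg ind_le_one
  RSW ind_congr ind_le_ind ind_of_mem ind_of_not_mem)
open Crest.Agent.R144.Bx695 (KI KI_of KI_of_not KI_nonneg KI_le_one)
open Crest.Agent.R144.Rw146 (Aut)
open Crest.ProbabilityR.HexHeights (Adj)

/-! ### the crossing event on heights -/

/-- a path of free sites with `h ≥ 1` from outside `ball o R` to `ball o r` -/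
def CrH (N : Set P2) (o : P2) (r R : ℕ) : Set (P2 → ℤ) := {h | ¬ Sepr {v | v ∈ N ∨ h v ≤ 0} o r R}

theorem ki_cross (N : Set P2) (o : P2) (r R : ℕ) (ω : Cfg) :
    KI (CrH N o r R) ω.1 = ind (Cross N o r R) ω := by
  unfold Bx695.KI Rsw867.ind
  rfl

theorem mono_CrH (N : Set P2) (o : P2) (r R : ℕ) : Monotone (KI (CrH N o r R)) := by
  intro h h' hle
  by_cases h1 : h ∈ CrH N o r R
  · rw [KI_of h1, KI_of]
    intro h2
    refine h1 (Sepr.mono ?_ h2)
    rintro v (hv | hv)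
    · exact Or.inl hv
    · exact Or.inr ((hle v).trans hv)
  · rw [KI_of_not h1]; exact KI_nonneg _ _

/-! ### positivity, big balls -/

theorem E_pos {c : ℝ} (hc : 1 ≤ c) {F : Finset P2} {f : Cfg → ℝ} (h0 : ∀ ω, 0 ≤ f ω)
    (h1 : 0 < f flat) : 0 < E c F f := by
  unfold Zm349.E
  refine Finset.sum_pos' (fun ω _ => mul_nonneg (pr_nonneg hc F ω) (h0 ω))
    ⟨flat, mem_conf.2 (valid_flat F), mul_pos ?_ h1⟩
  rw [pr_of_valid c (valid_flat F), wt_flat]
  exact div_pos one_pos (Z_pos hc F)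

theorem cnkn_flat (N X : Set P2) : Cn N flat * Kn X flat = 1 := by
  rw [Cn_of (fun v _ => by simp [flat, s1]), Kn_of (fun t _ => ⟨rfl, by simp [flat, s1]⟩)]
  norm_num

theorem exists_ball_sup (T : Finset P2) (o : P2) : ∃ R : ℕ, T ⊆ ball o R := by
  classical
  induction T using Finset.induction_on with
  | empty => exact ⟨0, Finset.empty_subset _⟩
  | insert t T _ ih =>
    obtain ⟨R, hR⟩ := ih
    refine ⟨R + (t.1 - o.1).natAbs + (t.2 - o.2).natAbs, ?_⟩
    rw [Finset.insert_subset_iff]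
    constructor
    · have h1 := le_abs_self (t.1 - o.1)
      have h2 := neg_abs_le (t.1 - o.1)
      have h3 := le_abs_self (t.2 - o.2)
      have h4 := neg_abs_le (t.2 - o.2)
      rw [mem_ball]
      simp only [abs_le]
      push_cast
      omega
    · exact hR.trans (ball_mono o (by omega))

/-- a big ball for the domain `Λ` -/
theorem exists_big_ball (Λ : Finset P2) (o : P2) (d : ℕ)
    (hΛ : IsConn ((Λ : Set P2)ᶜ)) : ∃ R : ℕ, upT Λ ⊆ ball o R ∧ ball o d ⊆ ball o R ∧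
      Anc {v | v ∉ Λ} (ball o R) := by
  classical
  obtain ⟨R, hR⟩ := exists_ball_sup (upT Λ) o
  refine ⟨max R d, hR.trans (ball_mono o (le_max_left _ _)), ball_mono o (le_max_right _ _), hΛ, ?_⟩
  obtain ⟨v, hv⟩ := Infinite.exists_notMem_finset (Λ ∪ IV (ball o (max R d)))
  rw [Finset.mem_union, not_or] at hv
  exact ⟨v, hv.1, hv.2⟩

section
variable {K A R L km : ℕ} {N : Set P2} {o : P2} {s d : ℕ} {ι : Type*} {S : Finset ι}
  {n r1 r2 k : ι → ℕ} {h : ι → ℤ} {b y : ι → Bool → P2} {a : ι → ℕ → P2}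

/-- **Data `≤ 0`.** -/
theorem Scs.zero [DecidableEq ι] {Λ : Finset P2}
    (H : Scs K A R L km {v | v ∉ Λ} o s d S n r1 r2 k h b y a)
    {x p : ℝ} (hx0 : 0 < x) (hx1 : x ≤ 1) (hR : RSW ((x ^ 2)⁻¹) K p) {q : ℕ → ℝ}
    (hA : LemA ((x ^ 2)⁻¹) K A R q) {q0 : ℝ} (hq0 : 0 ≤ q0) (hq1 : q0 ≤ 1) (hq : ∀ i ≤ km, q0 ≤ q i)
    (hΛ : IsConn ((Λ : Set P2)ᶜ)) {τ : P2 → ℤ} (hτ : Lip τ) (hτ0 : ∀ v, v ∉ Λ → τ v ≤ 0) :
    ex x Λ τ (KI (CrH {v | v ∉ Λ} o s d)) ≤ (1 - q0 * p ^ ((2 * L + 1) ^ 2)) ^ S.card := by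
  have hc : (1 : ℝ) ≤ (x ^ 2)⁻¹ := by
    rw [one_le_inv₀ (by positivity)]
    exact pow_le_one₀ hx0.le hx1
  obtain ⟨R', hR1, hR2, hAnc⟩ := exists_big_ball Λ o d hΛ
  have h1 := H.decay hc hR hA hq0 hq1 hq (sc_ball o R') hAnc hR2
  have h2 := Bx695.le_cn hx0 hx1 hR1 hAnc (fun v => Iff.rfl) (H.corner hR.K4) hτ hτ0
    (mono_CrH {v | v ∉ Λ} o s d)
  have h3 : 0 < E ((x ^ 2)⁻¹) (ball o R')
      (fun ω => Cn {v | v ∉ Λ} ω * Kn (XS K o S n r1 r2 b) ω) :=
    E_pos hc (fun ω => mul_nonneg (Cn_nonneg _ _) (Kn_nonneg _ _)) (by rw [cnkn_flat]; norm_num)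
  have e1 : E ((x ^ 2)⁻¹) (ball o R') (fun ω => Cn {v | v ∉ Λ} ω * Kn (XS K o S n r1 r2 b) ω *
      KI (CrH {v | v ∉ Λ} o s d) ω.1) = E ((x ^ 2)⁻¹) (ball o R') (fun ω =>
      Kn (XS K o S n r1 r2 b) ω * Cn {v | v ∉ Λ} ω * ind (Cross {v | v ∉ Λ} o s d) ω) :=
    E_congr fun ω _ => by rw [ki_cross]; ring
  have e2 : E ((x ^ 2)⁻¹) (ball o R') (fun ω => Kn (XS K o S n r1 r2 b) ω * Cn {v | v ∉ Λ} ω) =
      E ((x ^ 2)⁻¹) (ball o R') (fun ω => Cn {v | v ∉ Λ} ω * Kn (XS K o S n r1 r2 b) ω) :=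
    E_congr fun ω _ => by ring
  rw [e1] at h2
  rw [e2] at h1
  exact le_of_mul_le_mul_right (h2.trans h1) h3

end

/-! ### transport by automorphisms -/

theorem cst_iff_up {h : P2 → ℤ} {t : P2} : Cst h t ↔ ∀ u ∈ up t, ∀ v ∈ up t, h u = h v := by
  unfold It844.Cst
  constructor
  · rintro ⟨h1, h2⟩ u hu v hv
    rw [mem_up] at hu hv
    rcases hu with rfl | rfl | rfl <;> rcases hv with rfl | rfl | rfl <;> first | rfl | omega
  · intro H
    exact ⟨H _ (by simp [mem_up]) _ (by simp [mem_up]), H _ (by simp [mem_up]) _ (by simp [mem_up])⟩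

theorem Aut.tw {σ τ : P2 ≃ P2} (hA : Aut σ τ) (x : ℝ) (h : P2 → ℤ) (t : P2) :
    tw x h (τ t) = tw x (h ∘ σ) t := by
  have : Cst h (τ t) ↔ Cst (h ∘ σ) t := by
    rw [cst_iff_up, cst_iff_up]
    rw [hA.forall_up (p := fun u => ∀ v ∈ up (τ t), h u = h v)]
    refine forall₂_congr fun u _ => ?_
    rw [hA.forall_up (p := fun v => h (σ u) = h v)]
    rfl
  unfold It844.tw
  simp only [this]

theorem lip_iff_up' {h : P2 → ℤ} : Lip h ↔ ∀ t, ∀ u ∈ up t, ∀ v ∈ up t, |h u - h v| ≤ 1 := by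
  rw [lip_iff]
  refine forall_congr' fun t => ?_
  constructor
  · rintro ⟨h1, h2, h3⟩ u hu v hv
    rw [mem_up] at hu hv
    rw [abs_le] at h1 h2 h3 ⊢
    rcases hu with rfl | rfl | rfl <;> rcases hv with rfl | rfl | rfl <;> omega
  · intro H
    exact ⟨H _ (by simp [mem_up]) _ (by simp [mem_up]), H _ (by simp [mem_up]) _ (by simp [mem_up]),
      H _ (by simp [mem_up]) _ (by simp [mem_up])⟩

theorem Aut.lip {σ τ : P2 ≃ P2} (hA : Aut σ τ) {h : P2 → ℤ} : Lip (h ∘ σ) ↔ Lip h := by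
  rw [lip_iff_up', lip_iff_up']
  constructor
  · intro H t
    have h1 := H (τ.symm t)
    have h2 := (hA.forall_up (t := τ.symm t) (p := fun u => ∀ v ∈ up (τ (τ.symm t)), |h u - h v| ≤ 1)).2
      (fun u hu => (hA.forall_up (t := τ.symm t) (p := fun v => |h (σ u) - h v| ≤ 1)).2 (h1 u hu))
    rwa [τ.apply_symm_apply] at h2
  · intro H t u hu v hv
    exact H (τ t) (σ u) ((hA t u).2 hu) (σ v) ((hA t v).2 hv)

theorem mem_upT_up {Λ : Finset P2} {t : P2} : t ∈ upT Λ ↔ ∃ v ∈ Λ, v ∈ up t := by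
  rw [mem_upT]
  constructor
  · rintro (h | h | h)
    · exact ⟨_, h, mem_up.2 (Or.inl rfl)⟩
    · exact ⟨_, h, mem_up.2 (Or.inr (Or.inl rfl))⟩
    · exact ⟨_, h, mem_up.2 (Or.inr (Or.inr rfl))⟩
  · rintro ⟨v, hv, h⟩
    rcases mem_up.1 h with rfl | rfl | rfl
    · exact Or.inl hv
    · exact Or.inr (Or.inl hv)
    · exact Or.inr (Or.inr hv)

theorem Aut.upT {σ τ : P2 ≃ P2} (hA : Aut σ τ) (Λ : Finset P2) :
    upT (Λ.map σ.toEmbedding) = (upT Λ).map τ.toEmbedding := by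
  ext t
  rw [mem_upT_up, Finset.mem_map]
  constructor
  · rintro ⟨v, hv, hvt⟩
    obtain ⟨w, hw, rfl⟩ := Finset.mem_map.1 hv
    refine ⟨τ.symm t, mem_upT_up.2 ⟨w, hw, ?_⟩, by simp⟩
    rw [← hA, τ.apply_symm_apply]
    exact hvt
  · rintro ⟨s, hs, rfl⟩
    obtain ⟨v, hv, hvs⟩ := mem_upT_up.1 hs
    exact ⟨σ v, Finset.mem_map.2 ⟨v, hv, rfl⟩, (hA s v).2 hvs⟩

theorem Aut.wt {σ τ : P2 ≃ P2} (hA : Aut σ τ) (x : ℝ) (Λ : Finset P2) (h : P2 → ℤ) :
    It844.wt x (Λ.map σ.toEmbedding) h = It844.wt x Λ (h ∘ σ) := by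
  unfold It844.wt
  rw [Aut.upT hA, Finset.prod_map]
  exact Finset.prod_congr rfl fun t _ => Aut.tw hA x h t

theorem Aut.mem_conf {σ τ : P2 ≃ P2} (hA : Aut σ τ) {Λ : Finset P2} {ξ h : P2 → ℤ} :
    h ∈ conf (Λ.map σ.toEmbedding) ξ ↔ h ∘ σ ∈ conf Λ (ξ ∘ σ) := by
  rw [It844.mem_conf, It844.mem_conf, Aut.lip hA]
  refine and_congr_right fun _ => ?_
  constructor
  · intro H v hv
    refine H (σ v) fun h1 => hv ?_
    obtain ⟨w, hw, hw'⟩ := Finset.mem_map.1 h1
    rwa [← σ.injective hw']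
  · intro H v hv
    have := H (σ.symm v) fun h1 => hv (Finset.mem_map.2 ⟨_, h1, by simp⟩)
    simpa using this

theorem Aut.sum_conf {σ τ : P2 ≃ P2} (hA : Aut σ τ) {V : Type*} [AddCommMonoid V] (Λ : Finset P2)
    (ξ : P2 → ℤ) (g : (P2 → ℤ) → V) :
    ∑ h ∈ conf (Λ.map σ.toEmbedding) ξ, g (h ∘ σ) = ∑ h ∈ conf Λ (ξ ∘ σ), g h := by
  refine Finset.sum_bij (fun h _ => h ∘ σ) (fun h hh => (Aut.mem_conf hA).1 hh) ?_ ?_ (fun h _ => rfl)
  · intro a _ b _ hab
    funext v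
    have := congrFun hab (σ.symm v)
    simpa using this
  · intro b hb
    refine ⟨b ∘ σ.symm, ?_, ?_⟩
    · rw [Aut.mem_conf hA]
      have : (b ∘ σ.symm) ∘ σ = b := by funext v; simp
      rwa [this]
    · funext v; simp

/-- **Transport of the law by an automorphism.** -/
theorem ex_aut {σ τ : P2 ≃ P2} (hA : Aut σ τ) {V : Type*} [AddCommGroup V] [Module ℝ V] (x : ℝ)
    (Λ : Finset P2) (ξ : P2 → ℤ) (f : (P2 → ℤ) → V) :
    ex x (Λ.map σ.toEmbedding) ξ (fun h => f (h ∘ σ)) = ex x Λ (ξ ∘ σ) f := by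
  unfold It844.ex It844.Z
  rw [← Aut.sum_conf hA Λ ξ, ← Aut.sum_conf hA Λ ξ]
  congr 1
  · congr 1
    exact Finset.sum_congr rfl fun h _ => Aut.wt hA x Λ h
  · exact Finset.sum_congr rfl fun h _ => by rw [Aut.wt hA x Λ h]

end Crest.Agent.R144.Bnd991
end
end

-- ▼ part R144/Ef3_725
section

/-!
# R144, block BND, (F3), part 3 (helper725): the far arc

* `Nfar`, `Lnear` : far non-free sites, `Lnear` = the complement (free sites and near non-free sites);
* `far_arc`, `far_arcN` : **(F3)** for boundary data `τ ∈ {0, 1}` with `τ = 0` on the near non-free sites: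
  `ex x Λ τ (KI (CrH N o s d)) ≤ C (m / M) ^ α + (1 - q0 p ^ ((2 L + 1) ^ 2)) ^ #S`.
-/

set_option autoImplicit false
set_option linter.unusedVariables false
set_option linter.unusedSectionVars false
set_option linter.unusedSimpArgs false

noncomputable section

namespace Crest.Agent.R144.Ef725

open Finset
open Crest.Agent.R144.It844 (P2 Lip upT mem_upT ex adj_iff adj_symm lip_const)
open Crest.Agent.R144.Zg349 Crest.Agent.R144.Zk349 Crest.Agent.R144.Zd349
open Crest.Agent.R144.Zm349 Crest.Agent.R144.Ze349 Crest.Agent.R144.Zs349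
open Crest.Agent.R144.Zo349
open Crest.Agent.R144.Bnd991 Crest.Agent.R144.Bnl991
open Crest.Agent.R144.Ccn2311 (LowB)
open Crest.Agent.R144.Rsw867 (ball mem_ball ball_mono adj_ball sc_ball Sepr Blk BlkP ind ind_nonneg ind_le_one
  path_mono RSW ind_of_mem ind_of_not_mem ind_congr ind_compl ind_le_ind)
open Crest.Agent.R144.Hf702 (Xg Bg mem_Bg notMem_Bg layer_Bg Bg_sub sc_Bg PB PBI PBI_nonneg offTZ_PBI sum_PBI
  xg_of_notMem ball_sub_Bg pLay_of_PBI)
open Crest.Agent.R144.Bx695 (Off off_Cn off_Kn KI KI_le_one)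
open Crest.Agent.R144.Pst967 (path_symm)
open Crest.ProbabilityR.HexHeights (Adj)

/-! ### far and near non-free sites -/

/-- non-free sites joined to the outside of `ball o d2` off `ball o d1` -/
def Nfar (Λ : Finset P2) (o : P2) (d1 d2 : ℕ) : Set P2 :=
  {v | ∃ u, u ∉ Λ ∧ u ∉ ball o d2 ∧
    Relation.ReflTransGen (StepIn {w | w ∉ Λ ∧ w ∉ ball o d1}) u v}

open Classical in
/-- free sites and near non-free sites -/
def Lnear (Λ : Finset P2) (o : P2) (d1 d2 : ℕ) : Finset P2 :=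
  (Λ ∪ ball o d2).filter fun v => v ∉ Nfar Λ o d1 d2

section
variable {Λ : Finset P2} {o : P2} {d1 d2 : ℕ}

theorem nfar_sub (hd : d1 ≤ d2) {v : P2} (hv : v ∈ Nfar Λ o d1 d2) : v ∉ Λ ∧ v ∉ ball o d1 := by
  obtain ⟨u, h1, h2, hp⟩ := hv
  rcases Relation.ReflTransGen.cases_tail hp with h | ⟨w, _, h⟩
  · rw [h]
    exact ⟨h1, fun h3 => h2 (ball_mono o hd h3)⟩
  · exact h.2.1

theorem mem_Lnear {v : P2} : v ∈ Lnear Λ o d1 d2 ↔ v ∉ Nfar Λ o d1 d2 := by
  classical
  unfold Lnear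
  rw [Finset.mem_filter, Finset.mem_union]
  refine ⟨fun h => h.2, fun h => ⟨?_, h⟩⟩
  by_contra h1
  rw [not_or] at h1
  exact h ⟨v, h1.1, h1.2, Relation.ReflTransGen.refl⟩

theorem notMem_Lnear {v : P2} : v ∉ Lnear Λ o d1 d2 ↔ v ∈ Nfar Λ o d1 d2 := by
  rw [mem_Lnear, not_not]

theorem sub_Lnear (hd : d1 ≤ d2) : Λ ⊆ Lnear Λ o d1 d2 := fun v hv =>
  mem_Lnear.2 fun h => (nfar_sub hd h).1 hv

theorem ball_sub_Lnear (hd : d1 ≤ d2) : ball o d1 ⊆ Lnear Λ o d1 d2 := fun v hv =>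
  mem_Lnear.2 fun h => (nfar_sub hd h).2 hv

/-- far sites are joined to each other -/
theorem conn_Nfar (hd : d1 ≤ d2) (hfar : ∀ u v, u ∉ Λ → v ∉ Λ → u ∉ ball o d2 → v ∉ ball o d2 →
    Relation.ReflTransGen (StepIn {w | w ∉ Λ ∧ w ∉ ball o d1}) u v) :
    IsConn ((Lnear Λ o d1 d2 : Finset P2) : Set P2)ᶜ := by
  set T : Set P2 := ((Lnear Λ o d1 d2 : Finset P2) : Set P2)ᶜ with hT
  have hmem : ∀ v, v ∈ T ↔ v ∈ Nfar Λ o d1 d2 := fun v => by
    rw [hT, Set.mem_compl_iff, Finset.mem_coe, notMem_Lnear]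
  have key : ∀ u v, u ∉ Λ → u ∉ ball o d2 →
      Relation.ReflTransGen (StepIn {w | w ∉ Λ ∧ w ∉ ball o d1}) u v →
      Relation.ReflTransGen (StepIn T) u v := by
    intro u v h1 h2 hp
    induction hp with
    | refl => exact Relation.ReflTransGen.refl
    | @tail b e hb hbe ih =>
      exact ih.tail ⟨(hmem _).2 ⟨u, h1, h2, hb⟩, (hmem _).2 ⟨u, h1, h2, hb.tail hbe⟩, hbe.2.2⟩
  intro a ha b hb
  obtain ⟨u, h1, h2, hp⟩ := (hmem a).1 ha
  obtain ⟨v, h3, h4, hq⟩ := (hmem b).1 hb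
  exact (path_symm (key u a h1 h2 hp)).trans ((key u v h1 h2 (hfar u v h1 h3 h2 h4)).trans
    (key v b h3 h4 hq))

end

/-- the law with fixed boundary heights gives positive mass to `Kn X * Cn N` -/
theorem E0_pos_one {c : ℝ} (hc : 1 ≤ c) (Λ' : Finset P2) (X N : Set P2) :
    0 < E0 c Λ' (fun _ => 1) (fun ω => Kn X ω * Cn N ω) := by
  set ω0 : Cfg := (fun _ => 1, fun _ => true) with hω0
  have h1 : ω0 ∈ cf Λ' (fun _ => 1) := by
    rw [mem_cf]
    exact ⟨⟨lip_const 1, fun _ _ => rfl⟩, fun _ _ => rfl⟩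
  have h2 : Zm349.wt c (upT Λ') ω0 = 1 := by
    unfold Zm349.wt ew C1
    simp [hω0]
  have h5 : s1 (1 : ℤ) = true := by decide
  have h3 : Kn X ω0 = 1 := Kn_of fun t _ => ⟨rfl, h5⟩
  have h4 : Cn N ω0 = 1 := Cn_of fun v _ => h5
  unfold E0
  refine div_pos ?_ (Z0_pos hc (lip_const 1))
  unfold S0
  refine Finset.sum_pos' (fun ω _ => mul_nonneg (Zm349.wt_nonneg hc _ _)
    (mul_nonneg (Kn_nonneg _ _) (Cn_nonneg _ _))) ⟨ω0, h1, ?_⟩
  show 0 < Zm349.wt c (upT Λ') ω0 * (Kn X ω0 * Cn N ω0)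
  rw [h2, h3, h4]
  norm_num

/-- **(F3), core form**: `Λ'` = free sites and near non-free sites. -/
theorem far_core {x : ℝ} (hx0 : 0 < x) (hx1 : x ≤ 1) {K : ℕ} {p : ℝ} (hR : RSW ((x ^ 2)⁻¹) K p) :
    ∃ C α : ℝ, 1 ≤ C ∧ 0 < α ∧ ∀ {A R L km : ℕ} {q : ℕ → ℝ}, LemA ((x ^ 2)⁻¹) K A R q →
      ∀ {q0 : ℝ}, 0 ≤ q0 → q0 ≤ 1 → (∀ i ≤ km, q0 ≤ q i) →
      ∀ (Λ Λ' : Finset P2) (τ : P2 → ℤ) (o : P2) (s d m M : ℕ) {ι : Type} [DecidableEq ι]
        (S : Finset ι) {n r1 r2 k : ι → ℕ} {h : ι → ℤ} {b y : ι → Bool → P2} {a : ι → ℕ → P2},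
        Scs K A R L km {v | v ∉ Λ} o s d S n r1 r2 k h b y a →
        IsConn ((Λ : Set P2)ᶜ) → Lip τ → (∀ v, v ∉ Λ → τ v = 0 ∨ τ v = 1) →
        Λ ⊆ Λ' → IsConn ((Λ' : Set P2)ᶜ) → ball o (K * M) ⊆ Λ' →
        (∀ v, v ∉ Λ → v ∈ Λ' → τ v = 0) → d + 2 ≤ m → m ≤ M →
        ex x Λ τ (KI (CrH {v | v ∉ Λ} o s d)) ≤
          C * ((m : ℝ) / M) ^ α + (1 - q0 * p ^ ((2 * L + 1) ^ 2)) ^ S.card := by
  have hc : (1 : ℝ) ≤ (x ^ 2)⁻¹ := by
    rw [one_le_inv₀ (by positivity)]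
    exact pow_le_one₀ hx0.le hx1
  obtain ⟨C, α, hC, hα, hdec⟩ := decayF hc hR
  refine ⟨C, α, hC, hα, ?_⟩
  intro A R L km q hA q0 hq0 hq1 hq Λ Λ' τ o s d m M ι _ S n r1 r2 k h b y a H hΛ hτ h01 hΛΛ' hconn
    hbΛ' h0 hdm hmM
  have hp0 := hR.p0
  have hp1 : p ≤ 1 := by linarith [hR.p1]
  have hK := hR.K4
  have hpow : p ^ ((2 * L + 1) ^ 2) ≤ 1 := pow_le_one₀ hp0.le hp1
  have hpow0 : 0 ≤ p ^ ((2 * L + 1) ^ 2) := pow_nonneg hp0.le _
  set ρ : ℝ := (1 - q0 * p ^ ((2 * L + 1) ^ 2)) ^ S.card with hρ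
  have hρ0 : 0 ≤ ρ := pow_nonneg (by nlinarith) _
  have hMr : (0 : ℝ) ≤ (m : ℝ) / M := by positivity
  have hCa : 0 ≤ C * ((m : ℝ) / M) ^ α := mul_nonneg (by linarith) (Real.rpow_nonneg hMr _)
  set N : Set P2 := {v | v ∉ Λ} with hN
  have hNm : ∀ v, v ∈ N ↔ v ∉ Λ := fun v => Iff.rfl
  rcases S.eq_empty_or_nonempty with hS | ⟨j, hj⟩
  · have e1 : ρ = 1 := by rw [hρ, hS]; simp
    rw [e1]
    have h2 : ex x Λ τ (KI (CrH N o s d)) ≤ ex x Λ τ (fun _ => (1 : ℝ)) :=
      It844.ex_mono fun g _ => KI_le_one _ _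
    rw [It844.ex_const hx0 hτ] at h2
    linarith
  have hrs := H.hs j hj
  have hrd := H.hd j hj
  have hr12 := (H.fr j hj).r12
  have hrin := (H.fr j hj).rin
  have hsd : s ≤ d := by omega
  set X := XS K o S n r1 r2 b with hX
  set c : ℝ := (x ^ 2)⁻¹ with hcdef
  set χ : Cfg → ℝ := ind (Cross N o s d) with hχdef
  have hXc : ∀ t ∈ X, ∀ v ∈ up t, v ∉ Λ := fun t ht v hv => (hNm v).1 (H.corner hK t ht v hv)
  obtain ⟨u0, hu0⟩ := Infinite.exists_notMem_finset Λ'
  have hu0N : u0 ∈ N := (hNm u0).2 fun h1 => hu0 (hΛΛ' h1)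
  have hht : ∀ ω ∈ cf Λ' (fun _ => 1), (∀ v ∈ N, s1 (ω.1 v) = true) →
      ∀ v ∈ N, ω.1 v = 0 ∨ ω.1 v = 1 := fun ω hω hC =>
    ht01c hΛ hu0N hu0 (mem_cf.1 hω).1.1 (mem_cf.1 hω).1.2 hC
  set φ : Cfg → ℝ := fun ω => Kn X ω * Cn N ω with hφ
  have hφ0 : ∀ ω, 0 ≤ φ ω := fun ω => mul_nonneg (Kn_nonneg _ _) (Cn_nonneg _ _)
  set E' : (Cfg → ℝ) → ℝ := E0 c Λ' (fun _ => 1) with hE'
  -- step 1 : comparison
  have hs1 : ex x Λ τ (KI (CrH N o s d)) * E' φ ≤ E' (fun ω => φ ω * χ ω) := by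
    have h1 := le_E0 hx0 hx1 hΛΛ' (ξ := fun _ => 1) (τ := τ) (φ := φ)
      (f := KI (CrH N o s d)) (fun ω _ => hφ0 ω)
      ((off_Kn hXc).mul (off_Cn fun v hv => (hNm v).1 hv)) hτ (fun ω hω hne v hv => ?_)
      (mono_CrH N o s d)
    · refine h1.trans (le_of_eq ?_)
      rw [hE']
      congr 1
    · have hC1 : ∀ v ∈ N, s1 (ω.1 v) = true := Cn_ne.1 fun h2 => hne (by
        simp only [hφ]; rw [h2, mul_zero])
      by_cases hv' : v ∈ Λ'
      · rw [h0 v hv hv']
        rcases hht ω hω hC1 v ((hNm v).2 hv) with h5 | h5 <;> rw [h5]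
        norm_num
      · rw [(mem_cf.1 hω).1.2 v hv']
        rcases h01 v hv with h5 | h5 <;> rw [h5]
        norm_num
  -- positivity
  have hpos : 0 < E' φ := E0_pos_one hc Λ' X N
  -- step 2 : circuits
  have hs2 : E' (fun ω => φ ω * ind (BlkP o m M)ᶜ ω) ≤ C * ((m : ℝ) / M) ^ α * E' φ := by
    refine hdec _ E' (lowB_E0 hc hconn (fun v _ => Or.inr rfl) (lip_const 1)) m M
      (by omega) (by omega) o φ hφ0 fun r hr1 hr2 => ⟨⟨sc_ball o r, fun t ht => ?_, ?_⟩, ?_⟩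
    · have h1 : t ∈ Λ' := hbΛ' (ball_mono o (by omega) ht)
      exact mem_upT_iff.2 ⟨t, h1, base_mem_up t⟩
    · exact fun v hv => hbΛ' (ball_mono o (by omega) (IV_sub _ hv))
    · refine (fac_Kn fun t ht _ => ?_).mul (fac_Cn N _)
      have h1 : t ∈ ball o d := H.XS_sub hK t ht
      rw [mem_IV']
      intro t' ht'
      have h2 : t' ∈ ball o (d + 1) := by
        rcases eq_or_ne t' t with h3 | h3
        · rw [h3]; exact ball_mono o (Nat.le_succ d) h1
        · exact adj_ball h1 (adj_of_site (Ne.symm h3) (base_mem_up t) ht')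
      refine ball_mono o ?_ h2
      have : m ≤ K * m := Nat.le_mul_of_pos_left _ (by omega)
      omega
  -- step 3 : decoupling
  have hs3 : E' (fun ω => φ ω * (ind (BlkP o m M) ω * χ ω)) ≤ ρ * E' φ := by
    set D := ball o (M + 1) with hD
    have hone : ∀ f : Cfg → ℝ, E' f = ∑ B0 ∈ D.powerset, E' (fun ω => PBI D B0 ω * f ω) := by
      intro f
      rw [hE', ← E0_sum]
      congr 1
      funext ω
      rw [← Finset.sum_mul, sum_PBI, one_mul]
    rw [hone, hone φ, Finset.mul_sum]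
    refine Finset.sum_le_sum fun B0 hB0 => ?_
    rw [Finset.mem_powerset] at hB0
    have hnn : 0 ≤ E' (fun ω => PBI D B0 ω * φ ω) :=
      E0_nonneg hc fun ω _ => mul_nonneg (PBI_nonneg _ _ _) (hφ0 ω)
    by_cases hB : ball o (d + 1) ⊆ B0 ∧ ∃ ω, PBI D B0 ω ≠ 0
    · obtain ⟨hB, ω1, hω1⟩ := hB
      have hPB : ∀ ω, PBI D B0 ω ≠ 0 → PB D ω = B0 := by
        intro ω h1
        by_contra h2
        apply h1
        unfold Hf702.PBI
        rw [if_neg h2]
      have hWsc : SC B0 := by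
        rw [← hPB ω1 hω1]
        exact sc_Bg _ (sc_ball o (M + 1))
      have hVF : VF B0 ⊆ Λ' := by
        intro v hv
        obtain ⟨t, ht, hvt⟩ := mem_VF.1 hv
        have h1 : v ∈ ball o (M + 2) := ball_tri' (up_ball1 hvt) (hB0 ht) (by omega)
        refine hbΛ' (ball_mono o ?_ h1)
        have : 4 * M ≤ K * M := Nat.mul_le_mul_right _ hK
        omega
      have hAnc : Anc N B0 := ⟨hΛ, u0, hu0N, fun h1 => hu0 (hVF (IV_sub_VF _ h1))⟩
      have hv0 : ((o.1, o.2 + (r1 j : ℤ)) : P2) ∈ N := by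
        refine (H.fr j hj).strip _ ?_ ?_ ?_ ?_
        · simp
          positivity
        · simp
        · intro h1
          rw [mem_ball] at h1
          have h2 : 1 ≤ mg K (n j) := by unfold mg; omega
          have h3 := h1.2.1
          simp only [add_sub_cancel_left, abs_le] at h3
          omega
        · rw [mem_ball]
          simp only [sub_self, add_sub_cancel_left, abs_le, zero_add]
          omega
      have hv0b : ((o.1, o.2 + (r1 j : ℤ)) : P2) ∈ ball o (d + 1) := by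
        rw [mem_ball]
        simp only [sub_self, add_sub_cancel_left, abs_le, zero_add]
        push_cast
        omega
      have hdecay := H.decay hc hR hA hq0 hq1 hq hWsc hAnc
        ((ball_mono o (Nat.le_succ d)).trans hB)
      have hst := stepW hc (ξ := fun _ => 1) hWsc hVF hAnc hht
        (fun t ht => hB (ball_mono o (Nat.le_succ d) (H.XS_sub hK t ht)))
        (conn_ball o (d + 1)) (fun t ht => hB (Finset.mem_coe.1 ht)) (Finset.mem_coe.2 hv0b)
        (base_mem_up _) hv0 (PBI_nonneg D B0) (offTZ_PBI D B0)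
        (fun ω hω hw hg => by
          refine lay_of' hVF hw fun t ht hvt => ?_
          obtain ⟨v, hv, hvt⟩ := hvt
          obtain ⟨t', ht', hvt'⟩ := mem_VF.1 hv
          have hne : t' ≠ t := fun h1 => ht (h1 ▸ ht')
          exact pLay_of_PBI hg t' ht' t ht (adj_of_site hne hvt' hvt))
        (χ := χ) (fun ω ω' hh => ind_congr (cross_loc hsd fun v hv =>
          hh v (Finset.mem_coe.2 hv) v (base_mem_up v))) hdecay
      refine le_trans ?_ hst
      refine E0_mono hc fun ω _ _ => ?_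
      refine mul_le_mul_of_nonneg_left ?_ (PBI_nonneg _ _ _)
      exact mul_le_mul_of_nonneg_left (mul_le_of_le_one_left (ind_nonneg _ _) (ind_le_one _ _)) (hφ0 ω)
    · have h1 : E' (fun ω => PBI D B0 ω * (φ ω * (ind (BlkP o m M) ω * χ ω))) = E' (fun _ => 0) := by
        rw [hE']
        congr 1
        funext ω
        by_cases hP : PBI D B0 ω = 0
        · rw [hP, zero_mul]
        · have h2 : ω ∉ BlkP o m M := by
            intro h2
            apply hB
            refine ⟨?_, ω, hP⟩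
            have h3 : PB D ω = B0 := by
              by_contra h4
              apply hP
              unfold Hf702.PBI
              rw [if_neg h4]
            rw [← h3]
            exact ball_sub_Bg (by omega) hmM h2
          rw [ind_of_not_mem h2]
          ring
      rw [h1, hE', E0_const hc (lip_const 1)]
      exact mul_nonneg hρ0 hnn
  -- conclusion
  have hfin : E' (fun ω => φ ω * χ ω) ≤ (C * ((m : ℝ) / M) ^ α + ρ) * E' φ := by
    have h1 : E' (fun ω => φ ω * χ ω) ≤ E' (fun ω => φ ω * ind (BlkP o m M)ᶜ ω +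
        φ ω * (ind (BlkP o m M) ω * χ ω)) := by
      refine E0_mono hc fun ω _ _ => ?_
      rw [← mul_add]
      refine mul_le_mul_of_nonneg_left ?_ (hφ0 ω)
      rw [ind_compl]
      by_cases h2 : ω ∈ BlkP o m M
      · rw [ind_of_mem h2]; linarith
      · rw [ind_of_not_mem h2]
        have := ind_le_one (Cross N o s d) ω
        simp only [hχdef]
        linarith
    rw [hE', E0_add] at h1
    rw [add_mul]
    exact h1.trans (add_le_add hs2 hs3)
  exact le_of_mul_le_mul_right (hs1.trans hfin) hpos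


/-- **(F3), the far arc**, with the joining condition `hfar`. -/
theorem far_arc {x : ℝ} (hx0 : 0 < x) (hx1 : x ≤ 1) {K : ℕ} {p : ℝ} (hR : RSW ((x ^ 2)⁻¹) K p) :
    ∃ C α : ℝ, 1 ≤ C ∧ 0 < α ∧ ∀ {A R L km : ℕ} {q : ℕ → ℝ}, LemA ((x ^ 2)⁻¹) K A R q →
      ∀ {q0 : ℝ}, 0 ≤ q0 → q0 ≤ 1 → (∀ i ≤ km, q0 ≤ q i) →
      ∀ (Λ : Finset P2) (τ : P2 → ℤ) (o : P2) (s d m M d1 d2 : ℕ) {ι : Type} [DecidableEq ι]
        (S : Finset ι) {n r1 r2 k : ι → ℕ} {h : ι → ℤ} {b y : ι → Bool → P2} {a : ι → ℕ → P2},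
        Scs K A R L km {v | v ∉ Λ} o s d S n r1 r2 k h b y a →
        IsConn ((Λ : Set P2)ᶜ) → Lip τ → (∀ v, v ∉ Λ → τ v = 0 ∨ τ v = 1) →
        (∀ v, v ∉ Λ → v ∈ ball o d2 → τ v = 0) →
        (∀ u v, u ∉ Λ → v ∉ Λ → u ∉ ball o d2 → v ∉ ball o d2 →
          Relation.ReflTransGen (StepIn {w | w ∉ Λ ∧ w ∉ ball o d1}) u v) →
        d + 2 ≤ m → m ≤ M → K * M ≤ d1 → d1 ≤ d2 →
        ex x Λ τ (KI (CrH {v | v ∉ Λ} o s d)) ≤
          C * ((m : ℝ) / M) ^ α + (1 - q0 * p ^ ((2 * L + 1) ^ 2)) ^ S.card := by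
  obtain ⟨C, α, hC, hα, H⟩ := far_core hx0 hx1 hR
  refine ⟨C, α, hC, hα, ?_⟩
  intro A R L km q hA q0 hq0 hq1 hq Λ τ o s d m M d1 d2 ι _ S n r1 r2 k h b y a hS hΛ hτ h01 h0 hfar
    hdm hmM hMd hd
  refine H hA hq0 hq1 hq Λ (Lnear Λ o d1 d2) τ o s d m M S hS hΛ hτ h01 (sub_Lnear hd)
    (conn_Nfar hd hfar) ((ball_mono o hMd).trans (ball_sub_Lnear hd)) (fun v hv hv' => ?_) hdm hmM
  refine h0 v hv ?_
  by_contra h4
  exact (mem_Lnear.1 hv') ⟨v, hv, h4, Relation.ReflTransGen.refl⟩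

end Crest.Agent.R144.Ef725
end
end

-- ▼ part R144/Fh1_353
section

/-! R144 (helper353), BND (F3): from the geometric far set `Nf` (F3g, helper617) to the side
condition `hfar` of `Ef725.far_arc`, and the choice of the radii. -/

set_option autoImplicit false

open Set Topology Filter

namespace Crest.Agent.R144.Fh353

open Crest.ProbabilityR.HexHeights (Adj centre)
open Crest.Agent.R144.It844 (P2 Lip ex)
open Crest.Agent.R144.Zg349 (StepIn IsConn)
open Crest.Agent.R144.Rsw867 (ball RSW ind)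
open Crest.Agent.R144.Bnd991
open Relation (ReflTransGen)

/-- close sites are in a lattice ball -/
theorem mem_ball_of {δ : ℝ} (hδ : 0 < δ) {σ : P2 ≃ P2}
    (hdist : ∀ v w, dist (centre δ (σ v)) (centre δ (σ w)) = dist (centre δ v) (centre δ w))
    {o : P2} {p : ℂ} (ho : dist (centre δ (σ o)) p ≤ δ) {v : P2} {r : ℝ} {d : ℕ}
    (hv : dist (centre δ (σ v)) p ≤ r) (h2 : (r + δ) * (6 / 5) ≤ δ * d) : v ∈ ball o d := by
  refine Fr353.mem_ball_of_dist hδ ?_
  rw [← Fr353.dist_centre_eq, ← hdist]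
  have := dist_triangle_right (centre δ (σ v)) (centre δ (σ o)) p
  nlinarith

/-- sites of a lattice ball are close -/
theorem dist_of_mem {δ : ℝ} (hδ : 0 < δ) {σ : P2 ≃ P2}
    (hdist : ∀ v w, dist (centre δ (σ v)) (centre δ (σ w)) = dist (centre δ v) (centre δ w))
    {o : P2} {p : ℂ} (ho : dist (centre δ (σ o)) p ≤ δ) {v : P2} {d : ℕ} (hv : v ∈ ball o d) :
    dist (centre δ (σ v)) p ≤ (d + 1) * δ := by
  have h1 := dist_triangle (centre δ (σ v)) (centre δ (σ o)) p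
  rw [hdist, Fr353.dist_centre_eq] at h1
  have h2 := Fr353.dist_of_mem_ball hδ.le hv
  nlinarith

/-- **`hfar`** from the far set -/
theorem hfar_of {δ : ℝ} (hδ : 0 < δ) {Λ : Finset P2} {p : ℂ} {r ρ : ℝ} {Nf : Set P2}
    (hN : ∀ v ∈ Nf, v ∉ Λ) (hc : IsConn Nf) (hρ : ∀ v ∈ Nf, ρ < dist (centre δ v) p)
    (hr : ∀ v, v ∉ Λ → v ∉ Nf → dist (centre δ v) p ≤ r)
    {σ : P2 ≃ P2} (hadj : ∀ v w, Adj (σ v) (σ w) ↔ Adj v w)
    (hdist : ∀ v w, dist (centre δ (σ v)) (centre δ (σ w)) = dist (centre δ v) (centre δ w))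
    {o : P2} (ho : dist (centre δ (σ o)) p ≤ δ) {d1 d2 : ℕ} (h1 : (d1 + 1) * δ ≤ ρ)
    (h2 : (r + δ) * (6 / 5) ≤ δ * d2) {u v : P2} (hu : σ u ∉ Λ) (hv : σ v ∉ Λ)
    (hu2 : u ∉ ball o d2) (hv2 : v ∉ ball o d2) :
    ReflTransGen (StepIn {w | σ w ∉ Λ ∧ w ∉ ball o d1}) u v := by
  have hin : ∀ w, σ w ∉ Λ → w ∉ ball o d2 → σ w ∈ Nf := by
    intro w hw hw2
    by_contra h3
    exact hw2 (mem_ball_of hδ hdist ho (hr _ hw h3) h2)
  have hj := hc _ (hin u hu hu2) _ (hin v hv hv2)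
  have hstep : ∀ w : P2, w ∈ Nf → σ.symm w ∈ {w | σ w ∉ Λ ∧ w ∉ ball o d1} := by
    intro w hw
    refine ⟨?_, fun hb => ?_⟩
    · rw [σ.apply_symm_apply]; exact hN w hw
    · have h3 := dist_of_mem hδ hdist ho hb
      rw [σ.apply_symm_apply] at h3
      have := hρ w hw
      linarith
  have key : ∀ w w' : P2, ReflTransGen (StepIn Nf) w w' →
      ReflTransGen (StepIn {w | σ w ∉ Λ ∧ w ∉ ball o d1}) (σ.symm w) (σ.symm w') := by
    intro w w' hw
    induction hw with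
    | refl => exact ReflTransGen.refl
    | tail _ h1 ih =>
      refine ih.tail ⟨hstep _ h1.1, hstep _ h1.2.1, ?_⟩
      rw [← hadj, σ.apply_symm_apply, σ.apply_symm_apply]
      exact h1.2.2
  have := key _ _ hj
  rwa [σ.symm_apply_apply, σ.symm_apply_apply] at this

/-- **F3g**, literal of msg 11991 -/
def F3g (D : Set ℂ) (δ : ℕ → ℝ) (Λ : ℕ → Finset (ℤ × ℤ)) : Prop :=
  ∀ p ∈ frontier D, ∀ r > 0, ∃ ρ > 0, ∀ᶠ n in atTop, ∃ Nf : Set P2,
    (∀ v ∈ Nf, v ∉ Λ n) ∧ IsConn Nf ∧ Nfᶜ.Finite ∧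
    (∀ v ∈ Nf, ρ < dist (centre (δ n) v) p) ∧
    (∀ v, v ∉ Λ n → v ∉ Nf → dist (centre (δ n) v) p ≤ r)

end Crest.Agent.R144.Fh353
end

-- ▼ part R144/Par_400
section

/-!
# R144, block B5 of doc 1945 (helper400): parity on the triangular lattice

A closed walk in `K` crossing the half line "between the columns `o.1` and `o.1 + 1` above `o`"
exactly once separates `ball o r1` from the outside of `ball o r2`.
-/

set_option autoImplicit false

noncomputable section

namespace Crest.Agent.R144.Par400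

open Crest.Agent.R144.It844 (P2 adj_iff)
open Crest.Agent.R144.Zg349 (StepIn IsConn SC)
open Crest.Agent.R144.Rsw867 (ball mem_ball sc_ball path_mono)
open Crest.ProbabilityR.HexHeights (Adj)

/-- the edge `a b` crosses the ray above `v` -/
def cr (v a b : P2) : ZMod 2 :=
  if (a.1 = v.1 ∧ b.1 = v.1 + 1 ∧ v.2 < a.2) ∨ (b.1 = v.1 ∧ a.1 = v.1 + 1 ∧ v.2 < b.2) then 1
  else 0

/-- indicator of the half column above `v` -/
def hU (v a : P2) : ZMod 2 := if a.1 = v.1 ∧ v.2 < a.2 then 1 else 0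

theorem cr_up {v a b : P2} (ha : a ≠ (v.1, v.2 + 1)) (hb : b ≠ (v.1, v.2 + 1)) :
    cr v a b = cr (v.1, v.2 + 1) a b := by
  have ha' : ¬ (a.1 = v.1 ∧ a.2 = v.2 + 1) := fun h => ha (Prod.ext h.1 h.2)
  have hb' : ¬ (b.1 = v.1 ∧ b.2 = v.2 + 1) := fun h => hb (Prod.ext h.1 h.2)
  unfold cr
  refine if_congr ?_ rfl rfl
  simp only
  omega

theorem cr_right {v v' a b : P2} (hv : v' = (v.1 + 1, v.2) ∨ v' = (v.1 + 1, v.2 - 1))
    (hab : Adj a b) (ha : a ≠ v) (ha' : a ≠ v') (hb : b ≠ v) (hb' : b ≠ v') :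
    cr v a b + cr v' a b = hU v' a + hU v' b := by
  have h1 : ¬ (a.1 = v.1 ∧ a.2 = v.2) := fun h => ha (Prod.ext h.1 h.2)
  have h2 : ¬ (a.1 = v'.1 ∧ a.2 = v'.2) := fun h => ha' (Prod.ext h.1 h.2)
  have h3 : ¬ (b.1 = v.1 ∧ b.2 = v.2) := fun h => hb (Prod.ext h.1 h.2)
  have h4 : ¬ (b.1 = v'.1 ∧ b.2 = v'.2) := fun h => hb' (Prod.ext h.1 h.2)
  rw [adj_iff] at hab
  unfold cr hU
  rcases hv with hv | hv <;> subst hv <;> rcases hab with h | h | h | h | h | h <;> subst h <;>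
    simp only at * <;> split_ifs <;> first | decide | (exfalso; omega)

/-! ### closed walks -/

theorem exists_fun {r : P2 → P2 → Prop} {a b : P2} (h : Relation.ReflTransGen r a b) :
    ∃ (n : ℕ) (w : ℕ → P2), w 0 = a ∧ w n = b ∧ ∀ i < n, r (w i) (w (i + 1)) := by
  induction h with
  | refl => exact ⟨0, fun _ => a, rfl, rfl, fun i hi => absurd hi (Nat.not_lt_zero i)⟩
  | @tail b c _ hbc ih =>
    obtain ⟨n, w, h0, hn, hs⟩ := ih
    refine ⟨n + 1, fun i => if i ≤ n then w i else c, ?_, ?_, ?_⟩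
    · simp [h0]
    · simp
    · intro i hi
      rcases Nat.lt_succ_iff_lt_or_eq.1 hi with h | h
      · have h1 : i ≤ n := h.le
        have h2 : i + 1 ≤ n := h
        simp only [h1, h2, if_true]
        exact hs i h
      · subst h
        have h2 : ¬ i + 1 ≤ i := by omega
        simp only [le_refl, if_true, h2, if_false, hn]
        exact hbc

/-- total crossing parity of the closed walk `w 0, .., w n, w 0` with the ray above `v` -/
def tot (n : ℕ) (w : ℕ → P2) (v : P2) : ZMod 2 :=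
  (∑ i ∈ Finset.range n, cr v (w i) (w (i + 1))) + cr v (w n) (w 0)

theorem sum_tel (n : ℕ) (f : ℕ → ZMod 2) :
    ∑ i ∈ Finset.range n, (f i + f (i + 1)) = f 0 + f n := by
  induction n with
  | zero =>
    have : ∀ x : ZMod 2, x + x = 0 := by decide
    simp [this]
  | succ n ih =>
    rw [Finset.sum_range_succ, ih]
    have : ∀ x y z : ZMod 2, x + y + (y + z) = x + z := by decide
    exact this _ _ _

theorem z2 {x y : ZMod 2} (h : x + y = 0) : x = y := by
  revert x y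
  decide

/-- the parity does not change when the base point moves off the walk -/
theorem tot_adj {n : ℕ} {w : ℕ → P2} {K : Set P2} (hw : ∀ i ≤ n, w i ∈ K)
    (hs : ∀ i < n, Adj (w i) (w (i + 1))) (hc : Adj (w n) (w 0)) {v v' : P2} (hv : v ∉ K)
    (hv' : v' ∉ K) (h : Adj v v') : tot n w v = tot n w v' := by
  have key_up : ∀ v v' : P2, v ∉ K → v' ∉ K → v' = (v.1, v.2 + 1) → tot n w v = tot n w v' := by
    intro v v' _ hv' e
    subst e
    have hne : ∀ i ≤ n, w i ≠ (v.1, v.2 + 1) := fun i hi h => hv' (h ▸ hw i hi)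
    unfold tot
    congr 1
    · refine Finset.sum_congr rfl fun i hi => ?_
      have hi := Finset.mem_range.1 hi
      exact cr_up (hne i hi.le) (hne (i + 1) hi)
    · exact cr_up (hne n le_rfl) (hne 0 (Nat.zero_le _))
  have key_r : ∀ v v' : P2, v ∉ K → v' ∉ K → (v' = (v.1 + 1, v.2) ∨ v' = (v.1 + 1, v.2 - 1)) →
      tot n w v = tot n w v' := by
    intro v v' hv hv' e
    have hne : ∀ i ≤ n, w i ≠ v := fun i hi h => hv (h ▸ hw i hi)
    have hne' : ∀ i ≤ n, w i ≠ v' := fun i hi h => hv' (h ▸ hw i hi)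
    apply z2
    unfold tot
    have e1 : (∑ i ∈ Finset.range n, cr v (w i) (w (i + 1))) + cr v (w n) (w 0) +
        ((∑ i ∈ Finset.range n, cr v' (w i) (w (i + 1))) + cr v' (w n) (w 0)) =
        (∑ i ∈ Finset.range n, (cr v (w i) (w (i + 1)) + cr v' (w i) (w (i + 1)))) +
          (cr v (w n) (w 0) + cr v' (w n) (w 0)) := by
      rw [Finset.sum_add_distrib]
      ring
    rw [e1, cr_right e hc (hne n le_rfl) (hne' n le_rfl) (hne 0 (Nat.zero_le _))
      (hne' 0 (Nat.zero_le _))]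
    have e2 : ∑ i ∈ Finset.range n, (cr v (w i) (w (i + 1)) + cr v' (w i) (w (i + 1))) =
        ∑ i ∈ Finset.range n, (hU v' (w i) + hU v' (w (i + 1))) := by
      refine Finset.sum_congr rfl fun i hi => ?_
      have hi := Finset.mem_range.1 hi
      exact cr_right e (hs i hi) (hne i hi.le) (hne' i hi.le) (hne (i + 1) hi) (hne' (i + 1) hi)
    rw [e2, sum_tel n fun i => hU v' (w i)]
    have : ∀ x y : ZMod 2, x + y + (y + x) = 0 := by decide
    exact this _ _
  rw [adj_iff] at h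
  rcases h with h | h | h | h | h | h
  · exact key_r v v' hv hv' (Or.inl h)
  · refine (key_r v' v hv' hv (Or.inl ?_)).symm
    subst h
    ext <;> simp
  · exact key_up v v' hv hv' h
  · refine (key_up v' v hv' hv ?_).symm
    subst h
    ext <;> simp
  · exact key_r v v' hv hv' (Or.inr h)
  · refine (key_r v' v hv' hv (Or.inr ?_)).symm
    subst h
    ext <;> simp

theorem tot_path {n : ℕ} {w : ℕ → P2} {K : Set P2} (hw : ∀ i ≤ n, w i ∈ K)
    (hs : ∀ i < n, Adj (w i) (w (i + 1))) (hc : Adj (w n) (w 0)) {v v' : P2}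
    (h : Relation.ReflTransGen (StepIn Kᶜ) v v') : tot n w v = tot n w v' := by
  induction h with
  | refl => rfl
  | tail _ hbc ih => exact ih.trans (tot_adj hw hs hc hbc.1 hbc.2.1 hbc.2.2)

/-- steps inside `K` avoiding the edge `e e'` -/
def StepEx (K : Set P2) (e e' : P2) (a b : P2) : Prop :=
  StepIn K a b ∧ ¬ (a = e ∧ b = e') ∧ ¬ (a = e' ∧ b = e)

/-- **parity lemma** (B5 of doc 1945) -/
theorem parity {o : P2} {r1 r2 : ℕ} {y : ℤ} {K : Set P2} (hK1 : ∀ v ∈ K, v ∉ ball o r1)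
    (hK2 : ∀ v ∈ K, v ∈ ball o r2) (hy : o.2 < y) (hl : (o.1, y) ∈ K)
    (hcol : ∀ v ∈ K, v.1 = o.1 ∨ v.1 = o.1 + 1 → o.2 ≤ v.2 → v = (o.1, y) ∨ v = (o.1 + 1, y - 1))
    (hpath : Relation.ReflTransGen (StepEx K (o.1, y) (o.1 + 1, y - 1)) (o.1 + 1, y - 1) (o.1, y))
    {u v : P2} (hu : u ∈ ball o r1) (hv : v ∉ ball o r2) :
    ¬ Relation.ReflTransGen (StepIn Kᶜ) u v := by
  intro hp
  obtain ⟨n, w, h0, hn, hs⟩ := exists_fun hpath
  have hwK : ∀ i ≤ n, w i ∈ K := by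
    intro i hi
    rcases Nat.lt_or_ge i n with h | h
    · exact (hs i h).1.1
    · have : i = n := le_antisymm hi h
      rw [this, hn]
      exact hl
  have hwA : ∀ i < n, Adj (w i) (w (i + 1)) := fun i hi => (hs i hi).1.2.2
  have hc : Adj (w n) (w 0) := by
    rw [hn, h0, adj_iff]
    simp
  -- at `o`
  have hTo : tot n w o = 1 := by
    unfold tot
    have e1 : ∀ i ∈ Finset.range n, cr o (w i) (w (i + 1)) = 0 := by
      intro i hi
      have hi := Finset.mem_range.1 hi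
      obtain ⟨⟨ha, hb, hab⟩, hx1, hx2⟩ := hs i hi
      unfold cr
      rw [if_neg]
      rintro (⟨h1, h2, h3⟩ | ⟨h1, h2, h3⟩)
      · have h4 := hcol _ ha (Or.inl h1) h3.le
        have h5 : o.2 ≤ (w (i + 1)).2 := by
          rw [adj_iff] at hab
          rcases hab with h | h | h | h | h | h <;> rw [h] at h2 ⊢ <;> simp only at h2 ⊢ <;> omega
        have h6 := hcol _ hb (Or.inr h2) h5
        rcases h4 with h4 | h4
        · rcases h6 with h6 | h6
          · rw [h6] at h2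
            simp only at h2
            omega
          · exact hx1 ⟨h4, h6⟩
        · rw [h4] at h1
          simp only at h1
          omega
      · have h4 := hcol _ hb (Or.inl h1) h3.le
        have h5 : o.2 ≤ (w i).2 := by
          rw [adj_iff] at hab
          rcases hab with h | h | h | h | h | h <;> rw [h] at h1 h3 <;> simp only at h1 h3 <;> omega
        have h6 := hcol _ ha (Or.inr h2) h5
        rcases h4 with h4 | h4
        · rcases h6 with h6 | h6
          · rw [h6] at h2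
            simp only at h2
            omega
          · exact hx2 ⟨h6, h4⟩
        · rw [h4] at h1
          simp only at h1
          omega
    rw [Finset.sum_eq_zero e1, zero_add, hn, h0]
    unfold cr
    rw [if_pos]
    left
    exact ⟨rfl, rfl, hy⟩
  -- far away
  set z : P2 := (o.1, o.2 + (r2 + 1)) with hz
  have hzb : z ∉ ball o r2 := by
    rw [mem_ball]
    simp only [hz, abs_le]
    omega
  have hTz : tot n w z = 0 := by
    have hne : ∀ a ∈ K, a.2 ≤ o.2 + r2 := by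
      intro a ha
      have := hK2 a ha
      rw [mem_ball] at this
      simp only [abs_le] at this
      omega
    have h1 : ∀ a ∈ K, ∀ b ∈ K, cr z a b = 0 := by
      intro a ha b hb
      unfold cr
      rw [if_neg]
      have h2 := hne a ha
      have h3 := hne b hb
      rintro (⟨_, _, h4⟩ | ⟨_, _, h4⟩) <;> simp only [hz] at h4 <;> omega
    unfold tot
    rw [Finset.sum_eq_zero, zero_add]
    · exact h1 _ (hwK n le_rfl) _ (hwK 0 (Nat.zero_le _))
    · intro i hi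
      have hi := Finset.mem_range.1 hi
      exact h1 _ (hwK i hi.le) _ (hwK (i + 1) hi)
  have hKout : ((ball o r2 : Finset P2) : Set P2)ᶜ ⊆ Kᶜ := fun a ha h => ha (by simpa using hK2 a h)
  have hKin : ((ball o r1 : Finset P2) : Set P2) ⊆ Kᶜ := fun a ha h => hK1 a h (by simpa using ha)
  have p1 : Relation.ReflTransGen (StepIn Kᶜ) v z :=
    path_mono hKout (sc_ball o r2 v (by simpa using hv) z (by simpa using hzb))
  have ho : o ∈ ball o r1 := by
    rw [mem_ball]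
    simp
  have p0 : Relation.ReflTransGen (StepIn Kᶜ) o u :=
    path_mono hKin (Crest.Agent.R144.Hf702.conn_ball o r1 o (by simpa using ho) u (by simpa using hu))
  have h3 := tot_path hwK hwA hc (p0.trans (hp.trans p1))
  rw [hTo, hTz] at h3
  exact absurd h3 (by decide)

/-- the same for a path inside any set `Q` disjoint from `K` -/
theorem parity' {o : P2} {r1 r2 : ℕ} {y : ℤ} {K Q : Set P2} (hK1 : ∀ v ∈ K, v ∉ ball o r1)
    (hK2 : ∀ v ∈ K, v ∈ ball o r2) (hy : o.2 < y) (hl : (o.1, y) ∈ K)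
    (hcol : ∀ v ∈ K, v.1 = o.1 ∨ v.1 = o.1 + 1 → o.2 ≤ v.2 → v = (o.1, y) ∨ v = (o.1 + 1, y - 1))
    (hpath : Relation.ReflTransGen (StepEx K (o.1, y) (o.1 + 1, y - 1)) (o.1 + 1, y - 1) (o.1, y))
    (hQ : Disjoint K Q) {u v : P2} (hu : u ∈ ball o r1) (hv : v ∉ ball o r2) :
    ¬ Relation.ReflTransGen (StepIn Q) u v := fun hp =>
  parity hK1 hK2 hy hl hcol hpath hu hv
    (path_mono (fun _ ha hk => Set.disjoint_left.1 hQ hk ha) hp)

/-! ### building the walk -/

theorem ex_of_left {K A : Set P2} {e e' a b : P2} (hA : A ⊆ K) (he : e ∉ A)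
    (h : Relation.ReflTransGen (StepIn A) a b) : Relation.ReflTransGen (StepEx K e e') a b :=
  Relation.ReflTransGen.mono (fun _ _ hs => ⟨⟨hA hs.1, hA hs.2.1, hs.2.2⟩,
    fun h => he (h.1 ▸ hs.1), fun h => he (h.2 ▸ hs.2.1)⟩) _ _ h

theorem ex_of_right {K A : Set P2} {e e' a b : P2} (hA : A ⊆ K) (he : e' ∉ A)
    (h : Relation.ReflTransGen (StepIn A) a b) : Relation.ReflTransGen (StepEx K e e') a b :=
  Relation.ReflTransGen.mono (fun _ _ hs => ⟨⟨hA hs.1, hA hs.2.1, hs.2.2⟩,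
    fun h => he (h.2 ▸ hs.2.1), fun h => he (h.1 ▸ hs.1)⟩) _ _ h

theorem StepEx.symm {K : Set P2} {e e' a b : P2} (h : StepEx K e e' a b) : StepEx K e e' b a :=
  ⟨Crest.Agent.R144.Pst967.stepIn_symm h.1, fun h' => h.2.2 ⟨h'.2, h'.1⟩,
    fun h' => h.2.1 ⟨h'.2, h'.1⟩⟩

theorem ex_symm {K : Set P2} {e e' a b : P2} (h : Relation.ReflTransGen (StepEx K e e') a b) :
    Relation.ReflTransGen (StepEx K e e') b a := by
  induction h with
  | refl => exact Relation.ReflTransGen.refl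
  | tail _ hbc ih => exact ih.head hbc.symm


end Crest.Agent.R144.Par400
end
end

-- ▼ part R144/Bd3a_856
section

/-!
# R144: Janiszewski's theorem on the triangular lattice (helper856)

* `janis` : `A`, `B` sets of sites of the triangular lattice without contact, `A` finite.  If two points are joined
  off `A` and joined off `B` then they are joined off `A ∪ B`;
* `sepr_or` : if `A ∪ B` separates `ball a m` from the outside of `ball a N`, `A` and `B` without contact, then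
  `A` does or `B` does (`1 ≤ m ≤ N`).
-/

set_option autoImplicit false
set_option linter.unusedSimpArgs false

noncomputable section

namespace Crest.Agent.R144.Bd3856

open Finset
open Crest.Agent.R144.It844 (P2 adj_iff adj_symm)
open Crest.Agent.R144.Zg349
open Crest.Agent.R144.Pst967 (hexB conn_in_hexB path_symm)
open Crest.Agent.R144.Rsw867
open Crest.ProbabilityR.HexHeights (Adj)

section janis
variable {A B : Set P2} {u v : P2}

/-- the sites joined to `u` off `A ∪ B` -/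
def Uc (A B : Set P2) (u : P2) : Set P2 := {w | Relation.ReflTransGen (StepIn (A ∪ B)ᶜ) u w}

open Classical in
/-- crossing form -/
def wf (A B : Set P2) (u x y : P2) : ℤ :=
  (if x ∈ Uc A B u ∧ y ∈ A then 1 else 0) - (if x ∈ A ∧ y ∈ Uc A B u then 1 else 0)

theorem uc_not {hu : u ∉ A ∪ B} {w : P2} (h : w ∈ Uc A B u) : w ∉ A ∪ B := by
  have h' : Relation.ReflTransGen (StepIn (A ∪ B)ᶜ) u w := h
  induction h' with
  | refl => exact hu
  | tail _ h2 _ => exact h2.2.1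

theorem uc_step {x y : P2} (hu : u ∉ A ∪ B) (hx : x ∈ Uc A B u) (hxy : Adj x y) (hy : y ∉ A ∪ B) :
    y ∈ Uc A B u :=
  Relation.ReflTransGen.tail (show Relation.ReflTransGen (StepIn (A ∪ B)ᶜ) u x from hx)
    ⟨uc_not (hu := hu) hx, hy, hxy⟩

theorem wf_anti (x y : P2) : wf A B u y x = - wf A B u x y := by
  unfold wf
  by_cases h1 : x ∈ Uc A B u <;> by_cases h2 : y ∈ Uc A B u <;> by_cases h3 : x ∈ A <;>
    by_cases h4 : y ∈ A <;> simp [h1, h2, h3, h4]

theorem wf_zero {x y : P2} (hx : x ∉ A) (hy : y ∉ A) : wf A B u x y = 0 := by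
  unfold wf
  rw [if_neg fun h => hy h.2, if_neg fun h => hx h.1]
  rfl

/-- closed on triangles -/
theorem wf_closed (hu : u ∉ A ∪ B) (hAB : ∀ x ∈ A, ∀ y ∈ B, ¬ Adj x y) {x y z : P2} (hxy : Adj x y)
    (hyz : Adj y z) (hzx : Adj z x) : wf A B u x y + wf A B u y z + wf A B u z x = 0 := by
  have hd : ∀ w, w ∈ Uc A B u → w ∉ A := fun w hw h => uc_not (hu := hu) hw (Or.inl h)
  have key : ∀ p q r : P2, Adj p q → Adj q r → Adj r p → p ∈ Uc A B u → q ∈ A →
      r ∈ A ∨ r ∈ Uc A B u := by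
    intro p q r h1 h2 h3 h4 h5
    by_cases hr : r ∈ A
    · exact Or.inl hr
    · refine Or.inr (uc_step hu h4 (adj_symm h3) ?_)
      rintro (h | h)
      · exact hr h
      · exact hAB q h5 r h h2
  have k1 := key x y z hxy hyz hzx
  have k2 := key y z x hyz hzx hxy
  have k3 := key z x y hzx hxy hyz
  have k4 := key y x z (adj_symm hxy) (adj_symm hzx) (adj_symm hyz)
  have k5 := key z y x (adj_symm hyz) (adj_symm hxy) (adj_symm hzx)
  have k6 := key x z y (adj_symm hzx) (adj_symm hyz) (adj_symm hxy)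
  have dx := hd x
  have dy := hd y
  have dz := hd z
  unfold wf
  by_cases ax : x ∈ A <;> by_cases ay : y ∈ A <;> by_cases az : z ∈ A <;>
    by_cases ux : x ∈ Uc A B u <;> by_cases uy : y ∈ Uc A B u <;> by_cases uz : z ∈ Uc A B u <;>
    simp only [ax, ay, az, ux, uy, uz, not_true_eq_false, not_false_eq_true, imp_false, forall_const,
      or_false, or_true, or_self, and_true, and_false, and_self, if_true, if_false, true_and, false_and,
      false_implies, implies_true, true_implies] at * <;> norm_num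

/-- **Janiszewski's theorem.** -/
theorem janis (hA : A.Finite) (hAB : ∀ x ∈ A, ∀ y ∈ B, ¬ Adj x y) (hu : u ∉ A ∪ B)
    (pA : Relation.ReflTransGen (StepIn Aᶜ) u v) (pB : Relation.ReflTransGen (StepIn Bᶜ) u v) :
    Relation.ReflTransGen (StepIn (A ∪ B)ᶜ) u v := by
  classical
  obtain ⟨N, hN⟩ : ∃ N : ℤ, ∀ t ∈ A, N + 1 < t.1 := by
    rcases (hA.toFinset.image fun t => t.1).eq_empty_or_nonempty with h | h
    · refine ⟨0, fun t ht => ?_⟩
      have : t.1 ∈ hA.toFinset.image fun t => t.1 :=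
        Finset.mem_image_of_mem _ (hA.mem_toFinset.2 ht)
      rw [h] at this
      exact absurd this (by simp)
    · refine ⟨Finset.min' _ h - 2, fun t ht => ?_⟩
      have := Finset.min'_le _ t.1
        (Finset.mem_image_of_mem (fun t : P2 => t.1) (hA.mem_toFinset.2 ht))
      omega
  have far : ∀ x : P2, x.1 ≤ N + 1 → x ∉ A := fun x hx h => by
    have := hN x h
    omega
  have cl := fun {x y z : P2} => wf_closed (A := A) (B := B) (u := u) hu hAB (x := x) (y := y) (z := z)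
  obtain ⟨g, hg1, hg2, -⟩ := Crest.Agent.R161.Geo729.poincare
    (fun p : P2 => wf A B u p (p.1 + 1, p.2)) (fun p : P2 => wf A B u p (p.1, p.2 + 1)) N
    (fun i j h => wf_zero (far _ (by simp only; omega)) (far _ (by simp only; omega)))
    (fun i j h => wf_zero (far _ (by simp only; omega)) (far _ (by simp only; omega)))
    (fun i j => by
      have h1 := cl (x := (i, j)) (y := (i + 1, j)) (z := (i, j + 1)) (by rw [adj_iff]; simp)
        (by rw [adj_iff]; simp) (by rw [adj_iff]; simp)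
      have h2 := cl (x := (i + 1, j)) (y := (i + 1, j + 1)) (z := (i, j + 1)) (by rw [adj_iff]; simp)
        (by rw [adj_iff]; simp) (by rw [adj_iff]; simp)
      have a1 := wf_anti (A := A) (B := B) (u := u) (i, j) (i, j + 1)
      have a2 := wf_anti (A := A) (B := B) (u := u) (i + 1, j) (i, j + 1)
      have a3 := wf_anti (A := A) (B := B) (u := u) (i, j + 1) (i + 1, j + 1)
      simp only
      linarith)
  have hg3 : ∀ x y : P2, Adj x y → g y = g x + wf A B u x y := by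
    intro x y hxy
    have b1 : ∀ p : P2, g (p.1 + 1, p.2) = g p + wf A B u p (p.1 + 1, p.2) := fun p => hg1 p.1 p.2
    have b2 : ∀ p : P2, g (p.1, p.2 + 1) = g p + wf A B u p (p.1, p.2 + 1) := fun p => hg2 p.1 p.2
    have b3 : ∀ p : P2, g (p.1, p.2 + 1) = g (p.1 + 1, p.2) +
        wf A B u (p.1 + 1, p.2) (p.1, p.2 + 1) := by
      intro p
      have h1 := cl (x := p) (y := (p.1 + 1, p.2)) (z := (p.1, p.2 + 1)) (by rw [adj_iff]; simp)
        (by rw [adj_iff]; simp) (by rw [adj_iff]; simp [Prod.ext_iff])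
      have a1 := wf_anti (A := A) (B := B) (u := u) p (p.1, p.2 + 1)
      have := b1 p
      have := b2 p
      linarith
    rcases adj_iff.1 hxy with h | h | h | h | h | h
    · rw [h]; exact b1 x
    · have h1 := b1 y
      have e : ((y.1 + 1, y.2) : P2) = x := by rw [h]; ext <;> simp
      rw [e] at h1
      have := wf_anti (A := A) (B := B) (u := u) x y
      linarith
    · rw [h]; exact b2 x
    · have h1 := b2 y
      have e : ((y.1, y.2 + 1) : P2) = x := by rw [h]; ext <;> simp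
      rw [e] at h1
      have := wf_anti (A := A) (B := B) (u := u) x y
      linarith
    · -- y = x + (1, -1): p = (x.1, x.2 - 1)
      have h1 := b3 (x.1, x.2 - 1)
      have e : (((x.1, x.2 - 1) : P2).1, ((x.1, x.2 - 1) : P2).2 + 1) = x := by ext <;> simp
      have e' : ((((x.1, x.2 - 1) : P2).1 + 1, ((x.1, x.2 - 1) : P2).2) : P2) = y := by rw [h]
      rw [e, e'] at h1
      have := wf_anti (A := A) (B := B) (u := u) x y
      linarith
    · have h1 := b3 (x.1 - 1, x.2)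
      have e : (((x.1 - 1, x.2) : P2).1 + 1, ((x.1 - 1, x.2) : P2).2) = x := by ext <;> simp
      have e' : ((((x.1 - 1, x.2) : P2).1, ((x.1 - 1, x.2) : P2).2 + 1) : P2) = y := by rw [h]
      rw [e, e'] at h1
      exact h1
  have h1 : g v = g u := by
    clear pB
    induction pA with
    | refl => rfl
    | tail _ h2 ih => rw [hg3 _ _ h2.2.2, ih, wf_zero h2.1 h2.2.1, add_zero]
  have h2 : ∀ w, Relation.ReflTransGen (StepIn Bᶜ) u w →
      g w = g u + (if w ∈ Uc A B u then 0 else 1) := by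
    intro w hw
    induction hw with
    | refl =>
      rw [if_pos (show u ∈ Uc A B u from Relation.ReflTransGen.refl), add_zero]
    | @tail x y _ h2 ih =>
      obtain ⟨hxB, hyB, hxy⟩ := h2
      rw [hg3 _ _ hxy, ih]
      have hd : ∀ w, w ∈ Uc A B u → w ∉ A := fun w hw h => uc_not (hu := hu) hw (Or.inl h)
      unfold wf
      by_cases hx : x ∈ Uc A B u <;> by_cases hy : y ∈ Uc A B u
      · rw [if_pos hx, if_pos hy, if_neg fun h => hd _ hy h.2, if_neg fun h => hd _ hx h.1]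
        ring
      · have hyA : y ∈ A := by
          by_contra hyA
          exact hy (uc_step hu hx hxy fun h => h.elim hyA hyB)
        rw [if_pos hx, if_neg hy, if_pos ⟨hx, hyA⟩, if_neg fun h => hd _ hx h.1]
        ring
      · have hxA : x ∈ A := by
          by_contra hxA
          exact hx (uc_step hu hy (adj_symm hxy) fun h => h.elim hxA hxB)
        rw [if_neg hx, if_pos hy, if_neg fun h => hd _ hy h.2, if_pos ⟨hxA, hy⟩]
        ring
      · rw [if_neg hx, if_neg hy, if_neg fun h => hx h.1, if_neg fun h => hy h.2]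
        ring
  have h3 := h2 v pB
  by_contra h4
  rw [if_neg (show v ∉ Uc A B u from h4), h1] at h3
  omega

end janis

/-! ### annuli -/

theorem self_mem_ball (a : P2) (n : ℕ) : a ∈ ball a n := by
  rw [mem_ball]; simp

theorem conn_ball (a : P2) (n : ℕ) : IsConn ((ball a n : Finset P2) : Set P2) := by
  have h := conn_shift a (S := ((hexB n : Finset P2) : Set P2)) fun u hu v hv =>
    (conn_in_hexB n (by simpa using hu)).trans (path_symm (conn_in_hexB n (by simpa using hv)))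
  have e : {v : P2 | v - a ∈ ((hexB n : Finset P2) : Set P2)} = ((ball a n : Finset P2) : Set P2) := by
    ext v
    show (v - a ∈ ((hexB n : Finset P2) : Set P2)) ↔ v ∈ ((ball a n : Finset P2) : Set P2)
    simp only [Finset.mem_coe, mem_ball']
  rw [e] at h
  exact h

/-- a site outside `ball a N` has a neighbour outside `ball a (N + 1)` or is outside itself -/
theorem out_step {a u : P2} {N : ℕ} (hu : u ∉ ball a N) :
    ∃ u', u' ∉ ball a (N + 1) ∧ (u' = u ∨ Adj u u') := by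
  by_contra hcon
  push Not at hcon
  apply hu
  have k0 := hcon u
  have k1 := hcon (u.1 + 1, u.2)
  have k2 := hcon (u.1 - 1, u.2)
  have k3 := hcon (u.1, u.2 + 1)
  have k4 := hcon (u.1, u.2 - 1)
  have k5 := hcon (u.1 + 1, u.2 - 1)
  have k6 := hcon (u.1 - 1, u.2 + 1)
  have m : ∀ w : P2, Adj u w → w ∈ ball a (N + 1) := fun w hw => by
    by_contra h
    exact (hcon w h).2 hw
  have m0 : u ∈ ball a (N + 1) := by
    by_contra h
    exact (hcon u h).1 rfl
  have m1 := m (u.1 + 1, u.2) (adj_iff.2 (by simp))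
  have m2 := m (u.1 - 1, u.2) (adj_iff.2 (by simp))
  have m3 := m (u.1, u.2 + 1) (adj_iff.2 (by simp))
  have m4 := m (u.1, u.2 - 1) (adj_iff.2 (by simp))
  rw [mem_ball] at m0 m1 m2 m3 m4 ⊢
  simp only [abs_le] at *
  push_cast at *
  omega

/-- a site of `ball a (m + 1)` has a neighbour in `ball a m` or is in it -/
theorem in_step {a v : P2} {m : ℕ} (hv : v ∈ ball a (m + 1)) :
    ∃ v', v' ∈ ball a m ∧ (v' = v ∨ Adj v' v) := by
  by_contra hcon
  push Not at hcon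
  have m0 : v ∉ ball a m := fun h => (hcon v h).1 rfl
  have mm : ∀ w : P2, Adj w v → w ∉ ball a m := fun w hw h => (hcon w h).2 hw
  have m1 := mm (v.1 + 1, v.2) (adj_symm (adj_iff.2 (by simp)))
  have m2 := mm (v.1 - 1, v.2) (adj_symm (adj_iff.2 (by simp)))
  have m3 := mm (v.1, v.2 + 1) (adj_symm (adj_iff.2 (by simp)))
  have m4 := mm (v.1, v.2 - 1) (adj_symm (adj_iff.2 (by simp)))
  have m5 := mm (v.1 + 1, v.2 - 1) (adj_symm (adj_iff.2 (by simp)))
  have m6 := mm (v.1 - 1, v.2 + 1) (adj_symm (adj_iff.2 (by simp)))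
  rw [mem_ball] at m0 m1 m2 m3 m4 m5 m6 hv
  simp only [abs_le] at *
  push_cast at *
  omega

/-- **Janiszewski for the annulus.** -/
theorem sepr_or {A B : Set P2} (hAB : ∀ x ∈ A, ∀ y ∈ B, ¬ Adj x y) {a : P2} {m N : ℕ} (hm : 1 ≤ m)
    (hmN : m ≤ N) (h : Sepr (A ∪ B) a m N) : Sepr A a m N ∨ Sepr B a m N := by
  obtain ⟨m, rfl⟩ : ∃ k, m = k + 1 := ⟨m - 1, by omega⟩
  set R : Set P2 := {t | t ∈ ball a (N + 1) ∧ t ∉ ball a m} with hR
  -- restrict to the annulus
  have hred : ∀ S : Set P2, Sepr S a (m + 1) N → Sepr (S ∩ R) a (m + 1) N := by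
    intro S hS
    refine Sepr.congr hmN (fun t ht h1 h2 => ⟨h2, ht, h1 m le_rfl⟩) hS
  have hred' : ∀ S : Set P2, Sepr (S ∩ R) a (m + 1) N → Sepr S a (m + 1) N := fun S hS =>
    Sepr.mono Set.inter_subset_left hS
  by_contra hcon
  rw [not_or] at hcon
  have hA : ¬ Sepr (A ∩ R) a (m + 1) N := fun h1 => hcon.1 (hred' A h1)
  have hB : ¬ Sepr (B ∩ R) a (m + 1) N := fun h1 => hcon.2 (hred' B h1)
  -- a far point
  obtain ⟨z, hz⟩ : ∃ z : P2, z ∉ ball a (N + 1) := by
    refine ⟨(a.1 + N + 2, a.2), fun h1 => ?_⟩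
    rw [mem_ball] at h1
    have := abs_le.1 h1.1
    simp only at this
    push_cast at this
    omega
  -- extend paths
  have ext : ∀ S : Set P2, ¬ Sepr (S ∩ R) a (m + 1) N →
      Relation.ReflTransGen (StepIn (S ∩ R)ᶜ) z a := by
    intro S hS
    unfold Sepr at hS
    push Not at hS
    obtain ⟨u, v, hu, hv, p⟩ := hS
    have huv : u ≠ v := fun e => hu (ball_mono a hmN (e ▸ hv))
    have hu0 : u ∈ (S ∩ R)ᶜ := by
      rcases Relation.ReflTransGen.cases_head p with h1 | ⟨w, h1, _⟩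
      · exact absurd h1 huv
      · exact h1.1
    have hv0 : v ∈ (S ∩ R)ᶜ := by
      rcases Relation.ReflTransGen.cases_tail p with h1 | ⟨w, _, h1⟩
      · exact absurd h1.symm huv
      · exact h1.2.1
    obtain ⟨u', hu', hu''⟩ := out_step hu
    obtain ⟨v', hv', hv''⟩ := in_step hv
    have c1 : Relation.ReflTransGen (StepIn (S ∩ R)ᶜ) z u' := by
      have := sc_ball a (N + 1) z (by simpa using hz) u' (by simpa using hu')
      refine path_mono ?_ this
      intro t ht h1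
      exact ht (by simpa using h1.2.1)
    have c2 : Relation.ReflTransGen (StepIn (S ∩ R)ᶜ) v' a := by
      have := conn_ball a m v' (by simpa using hv') a (by simpa using self_mem_ball a m)
      refine path_mono ?_ this
      intro t ht h1
      exact h1.2.2 (by simpa using ht)
    have c3 : Relation.ReflTransGen (StepIn (S ∩ R)ᶜ) u' u := by
      rcases hu'' with h1 | h1
      · rw [h1]
      · exact Relation.ReflTransGen.single ⟨fun h2 => hu' h2.2.1, hu0, adj_symm h1⟩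
    have c4 : Relation.ReflTransGen (StepIn (S ∩ R)ᶜ) v v' := by
      rcases hv'' with h1 | h1
      · rw [h1]
      · exact Relation.ReflTransGen.single ⟨hv0, fun h2 => h2.2.2 hv', adj_symm h1⟩
    exact c1.trans (c3.trans (p.trans (c4.trans c2)))
  have hfin : (A ∩ R).Finite := by
    refine Set.Finite.subset (Finset.finite_toSet (ball a (N + 1))) ?_
    intro t ht
    exact ht.2.1
  have key := janis (A := A ∩ R) (B := B ∩ R) (u := z) (v := a) hfin
    (fun x hx y hy => hAB x hx.1 y hy.1)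
    (fun h1 => hz (by rcases h1 with h1 | h1 <;> exact h1.2.1)) (ext A hA) (ext B hB)
  have h5 := hred (A ∪ B) h
  have e : (A ∪ B) ∩ R = A ∩ R ∪ B ∩ R := Set.union_inter_distrib_right A B R
  rw [e] at h5
  exact h5 z a (fun h1 => hz (ball_mono a (Nat.le_succ N) h1)) (self_mem_ball a _) key

end Crest.Agent.R144.Bd3856
end
end

-- ▼ part R144/Bd3_856
section

/-!
# R144, BND block B3 (helper856): BULK

Under `E c Q`, given any `(s1, z)` information off `ball a (K n)`, with probability at least `p / 2` no path of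
sites with height `≥ 1` crosses from outside `ball a (2 n + 2)` to `ball a n` (`Hb a n`); the same with
probability `≥ p / 2` for heights `≤ 0` (`Hb' a n`).

* `Hb a n`, `Hb' a n` : no crossing of `{h ≥ 1}` / `{h ≤ 0}`;
* `bulk` : `(p / 2) E c Q g ≤ E c Q (g * ind (Hb a n))` for `g ≥ 0` off `ball a (K n)`.
-/

set_option autoImplicit false

noncomputable section

namespace Crest.Agent.R144.Bd3856

open Finset
open Crest.Agent.R144.It844 (P2 adj_iff adj_symm adj_up)
open Crest.Agent.R144.Zg349 Crest.Agent.R144.Zk349 Crest.Agent.R144.Zd349 Crest.Agent.R144.Zm349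
open Crest.Agent.R144.Ze349
open Crest.Agent.R144.Pst967 (conn_in_hexB path_symm adj_of_share E_pos_congr wt_ne_zero)
open Crest.Agent.R144.Rsw867
open Crest.Agent.R144.Pos561 (Good E_pos_mono E_pos_congr' rf rf_of_mem rf_of_notMem rf_rf rf_valid E_rf)
open Crest.ProbabilityR.HexHeights (Adj)

/-- no path of sites with `h ≥ 1` from outside `ball a (2 n + 2)` to `ball a n` -/
def Hb (a : P2) (n : ℕ) : Set Cfg :=
  {ω | ∀ u v, u ∉ ball a (2 * n + 2) → v ∈ ball a n →
    ¬ Relation.ReflTransGen (StepIn {x | 1 ≤ ω.1 x}) u v}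


/-- minus closed triangles of negative height -/
def Sn (ω : Cfg) : Set P2 := {t | mC ω t ∧ ω.1 t ≤ -1}
/-- minus closed triangles of positive height -/
def Sp (ω : Cfg) : Set P2 := {t | mC ω t ∧ 2 ≤ ω.1 t}

theorem s1_false_cases {x : ℤ} (h : s1 x = false) : x ≤ -1 ∨ 2 ≤ x := by
  rw [s1_false] at h
  omega

theorem sn_union (ω : Cfg) : {t | mC ω t} = Sn ω ∪ Sp ω := by
  ext t
  constructor
  · intro h
    rcases s1_false_cases h.2 with h1 | h1
    · exact Or.inl ⟨h, h1⟩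
    · exact Or.inr ⟨h, h1⟩
  · rintro (h | h)
    · exact h.1
    · exact h.1

variable {Q : Finset P2} {ω : Cfg}

theorem mc_mem (hv : Valid Q ω) {t : P2} (h : mC ω t) : t ∈ Q := by
  by_contra ht
  have h1 : t ∉ IV Q := fun h2 => ht (IV_sub Q h2)
  have h2 := hv.ht.s1_bd h1
  rw [h.2] at h2
  exact absurd h2 (by decide)

/-- on a minus closed triangle all corners have the same sign of the height -/
theorem mc_corner (hv : Valid Q ω) (hg : Good Q ω) {t v : P2} (h : mC ω t) (hvt : v ∈ up t) :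
    (ω.1 t ≤ -1 → ω.1 v ≤ -1) ∧ (2 ≤ ω.1 t → 2 ≤ ω.1 v) := by
  have htQ := mc_mem hv h
  obtain ⟨h1, h2⟩ := (hg t htQ).1 h.1
  obtain ⟨i, rfl⟩ := mem_up_iff.1 hvt
  have hl := abs_le.1 (hv.ht.lip t htQ i 0)
  have hs : s1 (ω.1 (cr t i)) = false := by
    have h0 : s1 (ω.1 (cr t 0)) = false := h.2
    fin_cases i
    · exact h0
    · show s1 (ω.1 (cr t 1)) = false
      rw [← h1]; exact h0
    · show s1 (ω.1 (cr t 2)) = false
      rw [← h2]; exact h0
  have h3 := s1_false_cases hs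
  rw [cr0] at hl
  constructor <;> intro h4 <;> rcases h3 with h3 | h3 <;> omega

theorem no_contact (hv : Valid Q ω) (hg : Good Q ω) : ∀ x ∈ Sn ω, ∀ y ∈ Sp ω, ¬ Adj x y := by
  intro x hx y hy hxy
  obtain ⟨w, h1, h2⟩ := adj_site hxy
  have h3 := (mc_corner hv hg hx.1 h1).1 hx.2
  have h4 := (mc_corner hv hg hy.1 h2).2 hy.2
  omega

theorem rf_s1 (hv : Valid Q ω) (v : P2) : s1 ((rf Q ω).1 v) = s1 (ω.1 v) := by
  by_cases h : v ∈ VF Q
  · rw [rf_of_mem h, s1_refl]
  · rw [rf_of_notMem h, hv.ht.off v h]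

theorem rf_mC (hv : Valid Q ω) (t : P2) : mC (rf Q ω) t ↔ mC ω t := by
  unfold mC
  rw [rf_s1 hv]
  rfl

theorem rf_Sn (hv : Valid Q ω) : Sn (rf Q ω) = Sp ω := by
  ext t
  unfold Sn Sp
  simp only [Set.mem_setOf_eq]
  rw [rf_mC hv]
  refine and_congr_right fun h => ?_
  have h1 : t ∈ VF Q := mem_VF.2 ⟨t, mc_mem hv h, base_mem_up t⟩
  rw [rf_of_mem h1]
  omega

/-- an up triangle containing two adjacent sites -/
theorem edge_tri {u v : P2} (h : Adj u v) : ∃ t, u ∈ up t ∧ v ∈ up t := by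
  obtain ⟨w, h1 | h1 | h1 | h1 | h1 | h1⟩ := adj_up h <;> refine ⟨w, ?_, ?_⟩ <;>
    rw [mem_up] <;> simp [h1.1, h1.2]

theorem tri_adj {t t' v : P2} (h1 : v ∈ up t) (h2 : v ∈ up t') (hne : t ≠ t') : Adj t t' := by
  rw [mem_up'] at h1 h2
  obtain ⟨a, b⟩ := t
  obtain ⟨a', b'⟩ := t'
  obtain ⟨x, y⟩ := v
  rw [adj_iff]
  simp only [Prod.mk.injEq, ne_eq] at *
  omega

/-- a path of sites of `X` gives a path of triangles touching `X` -/
theorem tri_path {X : Set P2} {S : Set P2} (hS : ∀ t ∈ S, ∀ v ∈ up t, v ∉ X) {u v : P2}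
    (hu : u ∈ X) (p : Relation.ReflTransGen (StepIn X) u v) :
    Relation.ReflTransGen (StepIn Sᶜ) u v := by
  have hb : ∀ w ∈ X, w ∈ Sᶜ := fun w hw h => hS w h w (base_mem_up w) hw
  induction p with
  | refl => exact Relation.ReflTransGen.refl
  | @tail x y _ h2 ih =>
    obtain ⟨hx, hy, hxy⟩ := h2
    obtain ⟨t, h3, h4⟩ := edge_tri hxy
    have ht : t ∈ Sᶜ := fun h => hS t h x h3 hx
    have s1 : Relation.ReflTransGen (StepIn Sᶜ) x t := by
      by_cases e : x = t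
      · rw [e]
      · exact Relation.ReflTransGen.single ⟨hb x hx, ht, tri_adj (base_mem_up x) h3 e⟩
    have s2 : Relation.ReflTransGen (StepIn Sᶜ) t y := by
      by_cases e : t = y
      · rw [e]
      · exact Relation.ReflTransGen.single ⟨ht, hb y hy, tri_adj h4 (base_mem_up y) e⟩
    exact ih.trans (s1.trans s2)

theorem hb_of_sepr (hv : Valid Q ω) (hg : Good Q ω) {a : P2} {n : ℕ} (h : Sepr (Sn ω) a n (2 * n)) :
    ω ∈ Hb a n := by
  intro u v hu hv' p
  have huv : u ≠ v := fun e => hu (ball_mono a (by omega) (e ▸ hv'))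
  have hu1 : u ∈ {x : P2 | 1 ≤ ω.1 x} := by
    rcases Relation.ReflTransGen.cases_head p with h1 | ⟨w, h1, _⟩
    · exact absurd h1 huv
    · exact h1.1
  refine h u v (fun h1 => hu (ball_mono a (by omega) h1)) hv' (tri_path ?_ hu1 p)
  intro t ht w hw h1
  have h2 := (mc_corner hv hg ht.1 hw).1 ht.2
  have h3 : 1 ≤ ω.1 w := h1
  omega


/-- events of the two signs -/
def An (a : P2) (n : ℕ) : Set Cfg := {ω | Sepr (Sn ω) a n (2 * n)}
def Ap (a : P2) (n : ℕ) : Set Cfg := {ω | Sepr (Sp ω) a n (2 * n)}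

/-- **fair sign of the level of a minus closed layer** -/
theorem fair {c : ℝ} (hc : 1 ≤ c) {g : Cfg → ℝ} (hg0 : ∀ ω, 0 ≤ g ω) (hg : TZ g) {a : P2} {n : ℕ}
    (hn : 1 ≤ n) :
    E c Q (fun ω => g ω * ind (Blk a n (2 * n)) ω) / 2 ≤ E c Q (fun ω => g ω * ind (An a n) ω) ∧
    E c Q (fun ω => g ω * ind (Blk a n (2 * n)) ω) / 2 ≤ E c Q (fun ω => g ω * ind (Ap a n) ω) := by
  have e1 : E c Q (fun ω => g ω * ind (An a n) ω) = E c Q (fun ω => g ω * ind (Ap a n) ω) := by
    rw [← E_rf c Q (fun ω => g ω * ind (An a n) ω)]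
    refine E_congr fun ω hω => ?_
    have h1 : g (rf Q ω) = g ω := hg _ _ (fun v => rf_s1 hω v) (fun t => rfl)
    rw [h1]
    congr 1
    refine ind_congr ?_
    show Sepr (Sn (rf Q ω)) a n (2 * n) ↔ Sepr (Sp ω) a n (2 * n)
    rw [rf_Sn hω]
  have e2 : E c Q (fun ω => g ω * ind (Blk a n (2 * n)) ω) ≤
      E c Q (fun ω => g ω * ind (An a n) ω) + E c Q (fun ω => g ω * ind (Ap a n) ω) := by
    rw [← E_add]
    refine E_pos_mono hc fun ω hω hgd => ?_
    rw [← mul_add]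
    refine mul_le_mul_of_nonneg_left ?_ (hg0 ω)
    by_cases h : ω ∈ Blk a n (2 * n)
    · have h' : Sepr (Sn ω ∪ Sp ω) a n (2 * n) := by
        rw [← sn_union]; exact h
      rw [ind_of_mem h]
      rcases sepr_or (no_contact hω hgd) hn (by omega) h' with h1 | h1
      · have : ind (An a n) ω = 1 := ind_of_mem h1
        rw [this]
        linarith [ind_nonneg (Ap a n) ω]
      · have : ind (Ap a n) ω = 1 := ind_of_mem h1
        rw [this]
        linarith [ind_nonneg (An a n) ω]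
    · rw [ind_of_not_mem h]
      exact add_nonneg (ind_nonneg _ _) (ind_nonneg _ _)
  constructor <;> linarith

/-- **B3 (BULK)**, for a general function of `(s1, z)` off `ball a (K n)`. -/
theorem bulk {c : ℝ} (hc : 1 ≤ c) {K : ℕ} {p : ℝ} (h : RSW c K p) {n : ℕ} (hn : 1 ≤ n) {a : P2}
    (hQ : SC Q) (hB : ball a (K * n) ⊆ Q) {g : Cfg → ℝ} (hg0 : ∀ ω, 0 ≤ g ω)
    (hg : OffTZ (ball a (K * n)) g) :
    p / 2 * E c Q g ≤ E c Q (fun ω => g ω * ind (Hb a n) ω) := by
  have h1 := h.minus n hn a Q hQ hB g hg0 hg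
  have h2 := (fair (Q := Q) hc hg0 hg.tz (a := a) hn).1
  have h3 : E c Q (fun ω => g ω * ind (An a n) ω) ≤ E c Q (fun ω => g ω * ind (Hb a n) ω) := by
    refine E_pos_mono hc fun ω hω hgd => mul_le_mul_of_nonneg_left ?_ (hg0 ω)
    exact ind_le_ind fun h4 => hb_of_sepr hω hgd h4
  linarith


end Crest.Agent.R144.Bd3856
end
end

-- ▼ part R144/Bd3b_856
section

/-!
# R144, BND block B3 (helper856): `BulkH` literally (991's definitions)
-/

set_option autoImplicit false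

noncomputable section

namespace Crest.Agent.R144.Bd3856

open Finset
open Crest.Agent.R144.It844 (P2 adj_iff adj_symm)
open Crest.Agent.R144.Zg349 Crest.Agent.R144.Zd349 Crest.Agent.R144.Zm349 Crest.Agent.R144.Ze349
open Crest.Agent.R144.Rsw867
open Crest.Agent.R144.Bnd991 (Cn Cn_nonneg offTZ_Cn Hs BulkH)
open Crest.ProbabilityR.HexHeights (Adj)

theorem hb_sub_hs {a : P2} {n : ℕ} : Hb a n = Hs a n := by
  have e : ∀ ω : Cfg, {v : P2 | ω.1 v ≤ 0}ᶜ = {x : P2 | 1 ≤ ω.1 x} := by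
    intro ω
    ext x
    show ¬ (ω.1 x ≤ 0) ↔ 1 ≤ ω.1 x
    omega
  ext ω
  show (∀ u v, u ∉ ball a (2 * n + 2) → v ∈ ball a n →
    ¬ Relation.ReflTransGen (StepIn {x | 1 ≤ ω.1 x}) u v) ↔
    (∀ u v, u ∉ ball a (2 * n + 2) → v ∈ ball a n →
      ¬ Relation.ReflTransGen (StepIn {v : P2 | ω.1 v ≤ 0}ᶜ) u v)
  rw [e ω]

/-- **B3 (BULK).** -/
theorem bulkH {c : ℝ} (hc : 1 ≤ c) {K : ℕ} {p : ℝ} (h : RSW c K p) : BulkH c K p := by
  intro N Q a n hQ hn hB hN
  have h1 := bulk hc h hn (a := a) hQ hB (g := Cn N) (fun ω => Cn_nonneg N ω)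
    (offTZ_Cn fun v hv h2 => hN v (IV_sub _ h2) hv)
  rw [hb_sub_hs] at h1
  exact h1


end Crest.Agent.R144.Bd3856
end
end

-- ▼ part R144/Bd7_856
section

/-!
# R144, block BND, B7 (helper856): LEMMA A

`lemA` : from `RSW c K p`, `FKGh c` (B4), `BulkH c K p` (B3), `LemB c K A R c1` (B2):
`LemA c K A R (fun k => (p / 2) ^ (k + 1) * c1 ^ 2)`.

* `no_cross` : the deterministic part (parity lemma of helper400);
* `fkg_step`, `fkg_prod` : iteration of the FKG inequality.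
-/

set_option autoImplicit false
set_option linter.unusedSimpArgs false

noncomputable section

namespace Crest.Agent.R144.Bd7856

open Finset
open Crest.Agent.R144.It844 (P2 adj_iff adj_symm)
open Crest.Agent.R144.Zg349 Crest.Agent.R144.Zd349 Crest.Agent.R144.Zm349 Crest.Agent.R144.Ze349
open Crest.Agent.R144.Rsw867
open Crest.Agent.R144.Bnd991
open Crest.Agent.R144.Pst967 (path_symm)
open Crest.Agent.R144.Bd3856 (conn_ball self_mem_ball)
open Crest.Agent.R144.Par400 (StepEx parity' ex_of_left ex_of_right ex_symm)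
open Crest.ProbabilityR.HexHeights (Adj)

/-! ### FKG iteration -/

section fkg
variable {c : ℝ} {N : Set P2} {Q : Finset P2}

theorem fkg_step (hF : FKGh c) (hQ : SC Q) (hN : Anc N Q) (hZ : 0 < E c Q (Cn N))
    {f g : (P2 → ℤ) → ℝ} (hf : Antitone f) (hg : Antitone g) (hf0 : ∀ h, 0 ≤ f h)
    (hg0 : ∀ h, 0 ≤ g h) {α : ℝ} (h1 : α * E c Q (Cn N) ≤ E c Q (fun ω => Cn N ω * f ω.1))
    (h2 : 0 ≤ E c Q (fun ω => Cn N ω * g ω.1)) :
    α * E c Q (fun ω => Cn N ω * g ω.1) ≤ E c Q (fun ω => Cn N ω * (f ω.1 * g ω.1)) := by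
  have h3 := hF N Q hQ hN f g hf hg hf0 hg0
  have h4 : α * E c Q (Cn N) * E c Q (fun ω => Cn N ω * g ω.1) ≤
      E c Q (Cn N) * E c Q (fun ω => Cn N ω * (f ω.1 * g ω.1)) :=
    (mul_le_mul_of_nonneg_right h1 h2).trans h3
  have h5 : E c Q (Cn N) * (α * E c Q (fun ω => Cn N ω * g ω.1)) ≤
      E c Q (Cn N) * E c Q (fun ω => Cn N ω * (f ω.1 * g ω.1)) := by
    calc E c Q (Cn N) * (α * E c Q (fun ω => Cn N ω * g ω.1))
        = α * E c Q (Cn N) * E c Q (fun ω => Cn N ω * g ω.1) := by ring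
      _ ≤ _ := h4
  exact le_of_mul_le_mul_left h5 hZ

theorem anti_mul {f g : (P2 → ℤ) → ℝ} (hf : Antitone f) (hg : Antitone g) (hf0 : ∀ h, 0 ≤ f h)
    (hg0 : ∀ h, 0 ≤ g h) : Antitone fun h => f h * g h := fun a b hab =>
  mul_le_mul (hf hab) (hg hab) (hg0 _) (hf0 _)

theorem anti_prod {ι : Type*} (s : Finset ι) {f : ι → (P2 → ℤ) → ℝ} (hf : ∀ i ∈ s, Antitone (f i))
    (hf0 : ∀ i ∈ s, ∀ h, 0 ≤ f i h) : Antitone fun h => ∏ i ∈ s, f i h := fun a b hab =>
  Finset.prod_le_prod (fun i hi => hf0 i hi b) fun i hi => hf i hi hab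

theorem fkg_prod (hc : 1 ≤ c) (hF : FKGh c) (hQ : SC Q) (hN : Anc N Q) (hZ : 0 < E c Q (Cn N))
    {ι : Type*} (s : Finset ι) {f : ι → (P2 → ℤ) → ℝ} (hf : ∀ i ∈ s, Antitone (f i))
    (hf0 : ∀ i ∈ s, ∀ h, 0 ≤ f i h) {α : ι → ℝ} (hα : ∀ i ∈ s, 0 ≤ α i)
    (h1 : ∀ i ∈ s, α i * E c Q (Cn N) ≤ E c Q (fun ω => Cn N ω * f i ω.1)) :
    (∏ i ∈ s, α i) * E c Q (Cn N) ≤ E c Q (fun ω => Cn N ω * ∏ i ∈ s, f i ω.1) := by
  classical
  induction s using Finset.induction_on with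
  | empty =>
    simp only [Finset.prod_empty, one_mul, mul_one]
    exact le_rfl
  | insert j s hj ih =>
    have hf' : ∀ i ∈ s, Antitone (f i) := fun i hi => hf i (Finset.mem_insert_of_mem hi)
    have hf0' : ∀ i ∈ s, ∀ h, 0 ≤ f i h := fun i hi => hf0 i (Finset.mem_insert_of_mem hi)
    have ih' := ih hf' hf0' (fun i hi => hα i (Finset.mem_insert_of_mem hi))
      (fun i hi => h1 i (Finset.mem_insert_of_mem hi))
    have hj' := Finset.mem_insert_self j s
    have h2 : 0 ≤ E c Q (fun ω => Cn N ω * ∏ i ∈ s, f i ω.1) := E_nonneg hc fun ω _ =>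
      mul_nonneg (Cn_nonneg N ω) (Finset.prod_nonneg fun i hi => hf0' i hi _)
    have h3 := fkg_step hF hQ hN hZ (hf j hj') (anti_prod s hf' hf0') (hf0 j hj')
      (fun h => Finset.prod_nonneg fun i hi => hf0' i hi h) (h1 j hj') h2
    rw [Finset.prod_insert hj, mul_assoc]
    calc α j * ((∏ i ∈ s, α i) * E c Q (Cn N))
        ≤ α j * E c Q (fun ω => Cn N ω * ∏ i ∈ s, f i ω.1) :=
          mul_le_mul_of_nonneg_left ih' (hα j hj')
      _ ≤ _ := h3
      _ = _ := by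
          congr 1
          funext ω
          rw [Finset.prod_insert hj]

end fkg

/-! ### the events as functions of the heights -/

/-- configuration with all triangles closed -/
def cf (h : P2 → ℤ) : Cfg := (h, fun _ => true)

theorem ind_Hs (a : P2) (n : ℕ) (ω : Cfg) : ind (Hs a n) ω = ind (Hs a n) (cf ω.1) :=
  ind_congr Iff.rfl

theorem ind_Arm0 (N : Set P2) (y : P2) (n : ℕ) (b : P2) (R : ℕ) (ω : Cfg) :
    ind (Arm0 N y n b R) ω = ind (Arm0 N y n b R) (cf ω.1) := ind_congr Iff.rfl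

theorem anti_Hs (a : P2) (n : ℕ) : Antitone fun h => ind (Hs a n) (cf h) := by
  intro h h' hh
  refine ind_le_ind fun h1 => ?_
  refine Sepr.mono (fun v hv => ?_) h1
  exact (hh v).trans hv

theorem anti_Arm0 (N : Set P2) (y : P2) (n : ℕ) (b : P2) (R : ℕ) :
    Antitone fun h => ind (Arm0 N y n b R) (cf h) := by
  intro h h' hh
  refine ind_le_ind fun h1 => ?_
  obtain ⟨u, hu, v, hv, hvN, p⟩ := h1
  refine ⟨u, hu, v, hv, hvN, path_mono ?_ p⟩
  intro w hw
  exact ⟨(hh w).trans hw.1, hw.2⟩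

/-! ### the deterministic part -/

section det
variable {K A R n r1 r2 k : ℕ} {N : Set P2} {o : P2} {q : ℤ} {b y : Bool → P2} {a : ℕ → P2}


/-- free balls avoid the columns of the strip -/
theorem strip_N (hF : Frame K A R n r1 r2 k N o q b y a) {v : P2} (h1 : v.1 = o.1 ∨ v.1 = o.1 + 1)
    (h2 : o.2 ≤ v.2) (h3 : v ∈ ball o r2) (h4 : v ∉ ball o r1) : v ∈ N := by
  refine hF.strip v ?_ h2 (fun h => h4 (ball_mono o (Nat.sub_le _ _) h))
    (ball_mono o (Nat.le_add_right _ _) h3)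
  have : (0 : ℤ) ≤ wd K n := Int.natCast_nonneg _
  rw [abs_le]
  rcases h1 with h1 | h1 <;> rw [h1] <;> constructor <;> linarith

theorem ball_n_sub (hK : 4 ≤ K) {x : P2} : ball x n ⊆ ball x (K * n) :=
  ball_mono x (Nat.le_mul_of_pos_left n (by omega))

/-- path inside the chain of balls -/
theorem chain_path (hF : Frame K A R n r1 r2 k N o q b y a) {j : ℕ} (hj : j ≤ k) :
    Relation.ReflTransGen (StepIn {w | ∃ i ≤ k, w ∈ ball (a i) n}) (a j) (a 0) := by
  induction j with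
  | zero => exact Relation.ReflTransGen.refl
  | succ j ih =>
    have h1 := ih (by omega)
    have h2 := conn_ball (a j) n (a (j + 1)) (by simpa using hF.chain j (by omega)) (a j)
      (by simpa using self_mem_ball (a j) n)
    refine Relation.ReflTransGen.trans ?_ h1
    refine path_mono ?_ h2
    intro w hw
    exact ⟨j, by omega, by simpa using hw⟩

theorem ends_mem {S : Set P2} {u v : P2} (huv : u ≠ v) (p : Relation.ReflTransGen (StepIn S) u v) :
    u ∈ S ∧ v ∈ S := by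
  constructor
  · rcases Relation.ReflTransGen.cases_head p with h1 | ⟨w, h1, _⟩
    · exact absurd h1 huv
    · exact h1.1
  · rcases Relation.ReflTransGen.cases_tail p with h1 | ⟨w, _, h1⟩
    · exact absurd h1.symm huv
    · exact h1.2.1

/-- **No crossing**: the two arms, the free balls without crossing of `{h ≥ 1}` and the exterior strip
form a closed circuit. -/
theorem no_cross (hK : 4 ≤ K) (hF : Frame K A R n r1 r2 k N o q b y a) {ω : Cfg}
    (hH : ∀ i ≤ k, ω ∈ Hs (a i) n) (hA : ∀ s, ω ∈ Arm0 N (y s) n (b s) (R * n)) :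
    ω ∉ Cross N o r1 r2 := by
  intro hcr
  have hn := hF.n1
  -- the crossing path
  have hcr' : ¬ Sepr {v | v ∈ N ∨ ω.1 v ≤ 0} o r1 r2 := hcr
  unfold Sepr at hcr'
  push Not at hcr'
  obtain ⟨u, v, hu, hv, p⟩ := hcr'
  set S : Set P2 := {v | v ∈ N ∨ ω.1 v ≤ 0}ᶜ with hS
  set Pi : Set P2 := {w | Relation.ReflTransGen (StepIn S) u w} with hPi
  have hp : Relation.ReflTransGen (StepIn Pi) u v := by
    have key : ∀ w, Relation.ReflTransGen (StepIn S) u w →
        Relation.ReflTransGen (StepIn Pi) u w := by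
      intro w hw
      induction hw with
      | refl => exact Relation.ReflTransGen.refl
      | @tail x y h1 h2 ih => exact ih.tail ⟨h1, h1.tail h2, h2.2.2⟩
    exact key v p
  -- the free balls
  have hfree : ∀ i ≤ k, ∀ w ∈ ball (a i) n, w ∉ N := fun i hi w hw =>
    hF.free i hi w (ball_n_sub hK hw)
  have hinA : ∀ i ≤ k, ∀ w ∈ ball (a i) n, w ∈ ball o r2 ∧ w ∉ ball o r1 := fun i hi w hw =>
    hF.inA i hi w (ball_n_sub hK hw)
  have hy : ∀ s, ∃ i ≤ k, y s = a i := by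
    intro s
    cases s
    · exact ⟨0, Nat.zero_le _, hF.a0.symm⟩
    · exact ⟨k, le_rfl, hF.ak.symm⟩
  -- the pieces
  set Bs : Bool → Set P2 := fun s => {w | ω.1 w ≤ 0 ∧ w ∈ ball (b s) (R * n)} with hBs
  set Ch : Set P2 := {w | ∃ i ≤ k, w ∈ ball (a i) n} with hCh
  set Nl : Set P2 := {w | w ∈ N ∧ w ∈ ball o r2 ∧ w ∉ ball o r1 ∧ (w.1 < o.1 ∨ w = (o.1, q))} with hNl
  set Nr : Set P2 := {w | w ∈ N ∧ w ∈ ball o r2 ∧ w ∉ ball o r1 ∧
    (o.1 + 1 < w.1 ∨ w = (o.1 + 1, q - 1))} with hNr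
  set KK : Set P2 := {w | (∃ s, w ∈ Bs s) ∨ w ∈ Ch ∨ w ∈ Nl ∨ w ∈ Nr} with hKK
  have sB : ∀ s, Bs s ⊆ KK := fun s w hw => Or.inl ⟨s, hw⟩
  have sC : Ch ⊆ KK := fun w hw => Or.inr (Or.inl hw)
  have sNl : Nl ⊆ KK := fun w hw => Or.inr (Or.inr (Or.inl hw))
  have sNr : Nr ⊆ KK := fun w hw => Or.inr (Or.inr (Or.inr hw))
  have hann : ∀ w ∈ KK, w ∈ ball o r2 ∧ w ∉ ball o r1 := by
    rintro w (⟨s, hw⟩ | ⟨i, hi, hw⟩ | hw | hw)
    · exact hF.ballb s w hw.2
    · exact hinA i hi w hw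
    · exact ⟨hw.2.1, hw.2.2.1⟩
    · exact ⟨hw.2.1, hw.2.2.1⟩
  have hBcol : ∀ s, ∀ w ∈ Bs s, w.1 ≠ o.1 ∧ w.1 ≠ o.1 + 1 := by
    intro s w hw
    cases s
    · have := hF.left w hw.2
      constructor <;> omega
    · have := hF.right w hw.2
      constructor <;> omega
  have heN : (o.1, q) ∈ N := strip_N hF (Or.inl rfl) (by have := hF.q0; simp only; omega) hF.q1.1 hF.q1.2
  have he'N : (o.1 + 1, q - 1) ∈ N :=
    strip_N hF (Or.inr rfl) (by have := hF.q0; simp only; omega) hF.q2.1 hF.q2.2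
  have heNl : (o.1, q) ∈ Nl := ⟨heN, hF.q1.1, hF.q1.2, Or.inr rfl⟩
  have he'Nr : (o.1 + 1, q - 1) ∈ Nr := ⟨he'N, hF.q2.1, hF.q2.2, Or.inr rfl⟩
  have hcol : ∀ w ∈ KK, w.1 = o.1 ∨ w.1 = o.1 + 1 → o.2 ≤ w.2 →
      w = (o.1, q) ∨ w = (o.1 + 1, q - 1) := by
    rintro w (⟨s, hw⟩ | ⟨i, hi, hw⟩ | hw | hw) h1 h2
    · have := hBcol s w hw
      rcases h1 with h1 | h1
      · exact absurd h1 this.1
      · exact absurd h1 this.2
    · have h3 := hinA i hi w hw
      exact absurd (strip_N hF h1 h2 h3.1 h3.2) (hfree i hi w hw)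
    · rcases hw.2.2.2 with h3 | h3
      · omega
      · exact Or.inl h3
    · rcases hw.2.2.2 with h3 | h3
      · omega
      · exact Or.inr h3
  -- the arms
  have harm : ∀ s, ∃ u' ∈ ball (y s) n, ∃ v' ∈ ball (b s) (R * n), v' ∈ N ∧
      Relation.ReflTransGen (StepIn (Bs s)) u' v' := hA
  -- disjointness
  have hdis : Disjoint KK Pi := by
    rw [Set.disjoint_left]
    intro w hw hwP
    have hwann := hann w hw
    have hwu : u ≠ w := fun e => hu (e ▸ hwann.1)
    have hwS : w ∈ S := (ends_mem hwu hwP).2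
    have hwN : w ∉ N := fun h => hwS (Or.inl h)
    have hwh : ¬ ω.1 w ≤ 0 := fun h => hwS (Or.inr h)
    rcases hw with ⟨s, hw⟩ | ⟨i, hi, hw⟩ | hw | hw
    · exact hwh hw.1
    · have h1 : ω ∈ Hs (a i) n := hH i hi
      have h2 : u ∉ ball (a i) (2 * n + 2) := by
        intro h3
        refine hu (hF.inA i hi u (ball_mono _ ?_ h3)).1
        nlinarith
      refine h1 u w h2 hw (path_mono ?_ hwP)
      intro x hx h3
      exact hx (Or.inr h3)
    · exact hwN hw.1
    · exact hwN hw.1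
  -- the walk
  have hpath : Relation.ReflTransGen (StepEx KK (o.1, q) (o.1 + 1, q - 1)) (o.1 + 1, q - 1) (o.1, q) := by
    obtain ⟨ul, hul, vl, hvl, hvlN, pl⟩ := harm false
    obtain ⟨ur, hur, vr, hvr, hvrN, pr⟩ := harm true
    have w1 : Relation.ReflTransGen (StepIn Nr) (o.1 + 1, q - 1) vr := path_symm (hF.pr vr hvrN hvr)
    have w2 : Relation.ReflTransGen (StepIn (Bs true)) vr ur := path_symm pr
    have w5 : Relation.ReflTransGen (StepIn (Bs false)) ul vl := pl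
    have w6 : Relation.ReflTransGen (StepIn Nl) vl (o.1, q) := hF.pl vl hvlN hvl
    have w3 : Relation.ReflTransGen (StepIn Ch) ur (a k) := by
      rw [← hF.ak] at hur
      have := conn_ball (a k) n ur (by simpa using hur) (a k) (by simpa using self_mem_ball (a k) n)
      refine path_mono ?_ this
      intro w hw
      exact ⟨k, le_rfl, by simpa using hw⟩
    have w4 : Relation.ReflTransGen (StepIn Ch) (a k) ul := by
      refine (chain_path hF le_rfl).trans ?_
      rw [← hF.a0] at hul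
      have := conn_ball (a 0) n (a 0) (by simpa using self_mem_ball (a 0) n) ul (by simpa using hul)
      refine path_mono ?_ this
      intro w hw
      exact ⟨0, Nat.zero_le _, by simpa using hw⟩
    have n1 : (o.1, q) ∉ Nr := by
      rintro ⟨_, _, _, h | h⟩
      · simp only at h; omega
      · have := congrArg Prod.fst h
        simp only at this
        omega
    have n2 : ∀ s, (o.1, q) ∉ Bs s := fun s h => (hBcol s _ h).1 rfl
    have n3 : (o.1, q) ∉ Ch := by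
      rintro ⟨i, hi, h⟩
      exact hfree i hi _ h heN
    have n4 : (o.1 + 1, q - 1) ∉ Nl := by
      rintro ⟨_, _, _, h | h⟩
      · simp only at h; omega
      · have := congrArg Prod.fst h
        simp only at this
        omega
    exact (ex_of_left sNr n1 w1).trans ((ex_of_left (sB true) (n2 true) w2).trans
      ((ex_of_left sC n3 (w3.trans w4)).trans ((ex_of_left (sB false) (n2 false) w5).trans
        (ex_of_right sNl n4 w6))))
  exact parity' (fun w hw => (hann w hw).2) (fun w hw => (hann w hw).1)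
    (by have := hF.q0; omega) (sNl heNl) hcol hpath hdis hv hu (path_symm hp)

end det

/-! ### Lemma A -/

/-- **LEMMA A.** -/
theorem lemA {c : ℝ} (hc : 1 ≤ c) {K A R : ℕ} {p c1 : ℝ} (hR : RSW c K p) (hF : FKGh c)
    (hB : BulkH c K p) (hc1 : 0 ≤ c1) (hL : LemB c K A R c1) :
    LemA c K A R (fun k => (p / 2) ^ (k + 1) * c1 ^ 2) := by
  intro n r1 r2 k N o q b y a hFr Q hQ hN hQ1 hQ2
  have hK := hR.K4
  have hp0 := hR.p0
  have hZ0 : 0 ≤ E c Q (Cn N) := E_nonneg hc fun ω _ => Cn_nonneg N ω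
  have hcrle : E c Q (fun ω => Cn N ω * ind (Cross N o r1 r2) ω) ≤ E c Q (Cn N) :=
    E_mono hc fun ω _ => mul_le_of_le_one_right (Cn_nonneg N ω) (ind_le_one _ _)
  rcases hZ0.lt_or_eq with hZ | hZ
  swap
  · rw [← hZ] at hcrle ⊢
    rw [mul_zero]
    exact hcrle
  have hwdr : (wd K n : ℤ) ≤ r1 := by
    have := hFr.rin
    omega
  -- points of the annulus off `N` are in `Q`
  have hYs : ∀ v : P2, v ∈ ball o r2 → v ∉ ball o r1 → v ∉ N → v ∈ Q := by
    intro v h1 h2 h3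
    refine hQ1 v (ball_mono o (Nat.le_succ _) h1) (fun h => h2 (ball_mono o (Nat.sub_le _ _) h)) ?_
    have hm1 : v ∉ ball o (r1 - mg K n) := fun h => h2 (ball_mono o (Nat.sub_le _ _) h)
    have hm2 : v ∈ ball o (r2 + mg K n) := ball_mono o (Nat.le_add_right _ _) h1
    rintro ((h4 | h4) | h4)
    · exact h3 (hFr.strip v (by have := h4.1; omega) h4.2 hm1 hm2)
    · exact h3 (hFr.slit false v (by rw [h4.1]) (by rw [h4.1]; omega) h4.2 hm2)
    · exact h3 (hFr.slit true v (by rw [h4.1]) (by rw [h4.1]; omega) h4.2 hm2)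
  -- bulk balls
  have h1 : ∀ i ≤ k, p / 2 * E c Q (Cn N) ≤ E c Q (fun ω => Cn N ω * ind (Hs (a i) n) (cf ω.1)) := by
    intro i hi
    have := hB N Q (a i) n hQ hFr.n1 (fun v hv => hYs v (hFr.inA i hi v hv).1 (hFr.inA i hi v hv).2
      (hFr.free i hi v hv)) (hFr.free i hi)
    refine this.trans (le_of_eq (E_congr fun ω _ => ?_))
    rw [ind_Hs]
  -- arms
  have h2 : ∀ s, c1 * E c Q (Cn N) ≤
      E c Q (fun ω => Cn N ω * ind (Arm0 N (y s) n (b s) (R * n)) (cf ω.1)) := by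
    intro s
    have hbs : b s ∈ ball (b s) (R * n) := self_mem_ball _ _
    have hside : ∀ t ∈ ball (b s) (R * n), ¬ (|t.1 - o.1| ≤ (r1 : ℤ) + 2) := by
      intro t ht h
      rw [abs_le] at h
      cases s
      · have := hFr.left t ht
        omega
      · have := hFr.right t ht
        omega
    have hother : ∀ t ∈ ball (b s) (R * n), t ∈ ray (b (!s)) → False := by
      intro t ht h
      have h3 : b (!s) ∈ ball (b (!s)) (R * n) := self_mem_ball _ _
      cases s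
      · have h4 := hFr.left t ht
        have h5 := hFr.right (b true) h3
        have h6 : t.1 = (b true).1 := h.1
        omega
      · have h4 := hFr.right t ht
        have h5 := hFr.left (b false) h3
        have h6 : t.1 = (b false).1 := h.1
        omega
    have := hL N Q (b s) (y s) n hFr.n1 hQ hN ?_ ?_ (hFr.yb s) ?_
    · refine this.trans (le_of_eq (E_congr fun ω _ => ?_))
      rw [ind_Arm0]
    · intro t ht
      constructor
      · intro h h3
        refine hQ2 t h ?_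
        cases s
        · exact Or.inl (Or.inr h3)
        · exact Or.inr h3
      · intro h
        have h3 := hFr.ballb s t ht
        refine hQ1 t (ball_mono o (Nat.le_succ _) h3.1)
          (fun h => h3.2 (ball_mono o (Nat.sub_le _ _) h)) ?_
        rintro ((h4 | h4) | h4)
        · exact hside t ht (by have := h4.1; omega)
        · cases s
          · exact h h4
          · exact hother t ht h4
        · cases s
          · exact hother t ht h4
          · exact h h4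
    · intro t ht h v hv
      have h3 := (hFr.ballb s t ht).1
      have h4 : v ∈ ball o (r2 + mg K n) := by
        have h5 : v ∈ ball o (r2 + 1) := by
          rw [mem_up] at hv
          rcases hv with rfl | rfl | rfl
          · exact ball_mono o (Nat.le_succ _) h3
          · exact adj_ball h3 (adj_iff.2 (by simp))
          · exact adj_ball h3 (adj_iff.2 (by simp))
        refine ball_mono o ?_ h5
        unfold mg
        omega
      refine hFr.slit s v ?_ ?_ ?_ h4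
      · rw [mem_up] at hv
        rcases hv with rfl | rfl | rfl <;> have h5 := h.1 <;> (try simp only) <;> omega
      · rw [mem_up] at hv
        rcases hv with rfl | rfl | rfl <;> have h5 := h.1 <;> (try simp only) <;> omega
      · rw [mem_up] at hv
        have := h.2
        rcases hv with rfl | rfl | rfl <;> (try simp only) <;> omega
    · intro v hv
      cases s
      · rw [← hFr.a0] at hv
        exact hFr.free 0 (Nat.zero_le _) v hv
      · rw [← hFr.ak] at hv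
        exact hFr.free k le_rfl v hv
  -- FKG
  have hα : 0 ≤ p / 2 := by linarith
  have g1 := fkg_prod hc hF hQ hN hZ (Finset.range (k + 1)) (f := fun i h => ind (Hs (a i) n) (cf h))
    (fun i _ => anti_Hs _ _) (fun i _ h => ind_nonneg _ _) (α := fun _ => p / 2) (fun _ _ => hα)
    (fun i hi => h1 i (by have := Finset.mem_range.1 hi; omega))
  have hG : Antitone fun h => ∏ i ∈ Finset.range (k + 1), ind (Hs (a i) n) (cf h) :=
    anti_prod _ (fun i _ => anti_Hs _ _) fun i _ h => ind_nonneg _ _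
  have hG0 : ∀ h, 0 ≤ ∏ i ∈ Finset.range (k + 1), ind (Hs (a i) n) (cf h) := fun h =>
    Finset.prod_nonneg fun i _ => ind_nonneg _ _
  have g2 := fkg_step hF hQ hN hZ (anti_Arm0 N (y true) n (b true) (R * n)) hG
    (fun h => ind_nonneg _ _) hG0 (h2 true)
    (E_nonneg hc fun ω _ => mul_nonneg (Cn_nonneg N ω) (hG0 _))
  have g3 := fkg_step hF hQ hN hZ (anti_Arm0 N (y false) n (b false) (R * n))
    (anti_mul (anti_Arm0 N (y true) n (b true) (R * n)) hG (fun h => ind_nonneg _ _) hG0)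
    (fun h => ind_nonneg _ _) (fun h => mul_nonneg (ind_nonneg _ _) (hG0 _)) (h2 false)
    (E_nonneg hc fun ω _ => mul_nonneg (Cn_nonneg N ω) (mul_nonneg (ind_nonneg _ _) (hG0 _)))
  -- total
  have g4 : (p / 2) ^ (k + 1) * c1 ^ 2 * E c Q (Cn N) ≤
      E c Q (fun ω => Cn N ω * (ind (Arm0 N (y false) n (b false) (R * n)) (cf ω.1) *
        (ind (Arm0 N (y true) n (b true) (R * n)) (cf ω.1) *
          ∏ i ∈ Finset.range (k + 1), ind (Hs (a i) n) (cf ω.1)))) := by
    refine le_trans ?_ g3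
    have e : (p / 2) ^ (k + 1) * c1 ^ 2 * E c Q (Cn N) =
        c1 * (c1 * ((p / 2) ^ (k + 1) * E c Q (Cn N))) := by ring
    rw [e]
    refine mul_le_mul_of_nonneg_left (le_trans ?_ g2) hc1
    refine mul_le_mul_of_nonneg_left ?_ hc1
    rw [Finset.prod_const, Finset.card_range] at g1
    exact g1
  -- pointwise
  have g5 : E c Q (fun ω => Cn N ω * ind (Cross N o r1 r2) ω) +
      E c Q (fun ω => Cn N ω * (ind (Arm0 N (y false) n (b false) (R * n)) (cf ω.1) *
        (ind (Arm0 N (y true) n (b true) (R * n)) (cf ω.1) *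
          ∏ i ∈ Finset.range (k + 1), ind (Hs (a i) n) (cf ω.1)))) ≤ E c Q (Cn N) := by
    rw [← E_add]
    refine E_mono hc fun ω _ => ?_
    rw [← mul_add]
    refine mul_le_of_le_one_right (Cn_nonneg N ω) ?_
    by_cases hall : (∀ i ≤ k, ω ∈ Hs (a i) n) ∧ ∀ s, ω ∈ Arm0 N (y s) n (b s) (R * n)
    · have h3 := no_cross hK hFr hall.1 hall.2
      rw [ind_of_not_mem h3, zero_add]
      refine mul_le_one₀ (ind_le_one _ _) (mul_nonneg (ind_nonneg _ _) (hG0 _)) ?_
      refine mul_le_one₀ (ind_le_one _ _) (hG0 _) ?_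
      exact Finset.prod_le_one (fun i _ => ind_nonneg _ _) fun i _ => ind_le_one _ _
    · have h3 : ind (Arm0 N (y false) n (b false) (R * n)) (cf ω.1) *
          (ind (Arm0 N (y true) n (b true) (R * n)) (cf ω.1) *
            ∏ i ∈ Finset.range (k + 1), ind (Hs (a i) n) (cf ω.1)) = 0 := by
        rw [not_and_or] at hall
        rcases hall with hall | hall
        · push Not at hall
          obtain ⟨i, hi, h4⟩ := hall
          have h5 : ∏ i ∈ Finset.range (k + 1), ind (Hs (a i) n) (cf ω.1) = 0 := by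
            refine Finset.prod_eq_zero (Finset.mem_range.2 (Nat.lt_succ_of_le hi)) ?_
            rw [← ind_Hs]
            exact ind_of_not_mem h4
          rw [h5, mul_zero, mul_zero]
        · push Not at hall
          obtain ⟨s, h4⟩ := hall
          cases s
          · rw [← ind_Arm0, ind_of_not_mem h4, zero_mul]
          · rw [← ind_Arm0 N (y true), ind_of_not_mem h4, zero_mul, mul_zero]
      rw [h3, add_zero]
      exact ind_le_one _ _
  simp only
  linarith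

end Crest.Agent.R144.Bd7856
end
end

-- ▼ part R144/Bd7b_856
section

/-!
# R144, block BND, B7 (helper856): LEMMA A, only Lemma B left as hypothesis
-/

set_option autoImplicit false

namespace Crest.Agent.R144.Bd7856

open Crest.Agent.R144.Rsw867
open Crest.Agent.R144.Bnd991

/-- **LEMMA A**, from RSW and Lemma B. -/
theorem lemA_of {c : ℝ} (hc : 1 ≤ c) {K A R : ℕ} {p c1 : ℝ} (hR : RSW c K p) (hc1 : 0 ≤ c1)
    (hL : LemB c K A R c1) : LemA c K A R (fun k => (p / 2) ^ (k + 1) * c1 ^ 2) :=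
  lemA hc hR (Crest.Agent.R144.Bx695.fkgh hc) (Crest.Agent.R144.Bd3856.bulkH hc hR) hc1 hL

end Crest.Agent.R144.Bd7856
end

-- ▼ part R144/Bnd9_991
section

/-!
# R144, block BND, part 9 (helper991): the planar facts `GM` of a frame, from 400's `Gm_400`
-/

set_option autoImplicit false

noncomputable section

namespace Crest.Agent.R144.Bnd991

open Crest.Agent.R144.It844 (P2)
open Crest.Agent.R144.Zg349
open Crest.Agent.R144.Rsw867 (ball)

theorem Frame.gm {K A R n r1 r2 k : ℕ} {N : Set P2} {o : P2} {h : ℤ} {b y : Bool → P2} {a : ℕ → P2}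
    (hF : Frame K A R n r1 r2 k N o h b y a) (hR : 1 ≤ R) : GM K n r1 r2 o b where
  scB := Gm400.sc_col o (r1 - ((K + 1) * n + 10)) (r2 + ((K + 1) * n + 10)) fun t => by
    rw [mem_Bk, and_assoc]
  scD := Gm400.sc_Ys K n o b (r1 - (3 * n + 4)) (r2 + (3 * n + 4)) fun t => by
    rw [Finset.mem_sdiff, mem_Yk, mem_Dk]
    tauto
  Mc := Gm400.frame_connF hF hR (r := r1 - 1) (s := r2 + 1) (by omega)
    (by have := hF.rin; unfold mg at this; omega) (by omega) (by have := hF.r12; omega) fun t => by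
    rw [mem_Mk, and_assoc]

end Crest.Agent.R144.Bnd991
end
end

-- ▼ part R144/Bnd10_991
section

/-!
# R144, block BND, part 10 (helper991): crossing near a boundary point, discrete form

* `cross_zero` : data `≤ 0`, `cross_far` : data in `{0, 1}`, zero in `ball o d2`;
* `cross_sgn` : the law `ex x Λ τ` with `τ ∈ {-1, 0}` off `Λ`, `τ = k` near the point, in the coordinates
  given by an automorphism `σ`.
-/

set_option autoImplicit false
set_option linter.unusedSectionVars false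
set_option linter.unusedVariables false

noncomputable section

namespace Crest.Agent.R144.Bnd991

open Finset
open Crest.Agent.R144.It844 (P2 Lip adj_iff adj_symm lip_iff upT mem_upT ex conf mem_conf nbhd)
open Crest.Agent.R144.Zg349 Crest.Agent.R144.Zd349 Crest.Agent.R144.Zm349 Crest.Agent.R144.Ze349
open Crest.Agent.R144.Rsw867 (ball mem_ball ball_mono adj_ball sc_ball Sepr Blk BlkP ind ind_nonneg ind_le_one
  RSW ind_congr ind_le_ind ind_of_mem ind_of_not_mem)
open Crest.Agent.R144.Bx695 (KI KI_of KI_of_not KI_nonneg KI_le_one)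
open Crest.Agent.R144.Rw146 (Aut)
open Crest.ProbabilityR.HexHeights (Adj)

/-- a function with values in `{j, j+1}` is Lipschitz -/
theorem lip_of_two {ξ : P2 → ℤ} {j : ℤ} (h : ∀ v, ξ v = j ∨ ξ v = j + 1) : Lip ξ := by
  intro u v _
  rcases h u with h1 | h1 <;> rcases h v with h2 | h2 <;> rw [h1, h2] <;> simp

/-- paths to the inside and the values of free sites -/
theorem crH_iff {N : Set P2} {o : P2} {s d : ℕ} {h : P2 → ℤ} : h ∈ CrH N o s d ↔
    ∃ u v, u ∉ ball o d ∧ v ∈ ball o s ∧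
      Relation.ReflTransGen (StepIn {w | w ∉ N ∧ 1 ≤ h w}) u v := by
  have e : ({v | v ∈ N ∨ h v ≤ 0}ᶜ : Set P2) = {w | w ∉ N ∧ 1 ≤ h w} := by
    ext w
    simp only [Set.mem_compl_iff, Set.mem_ofPred_eq, not_or, not_le]
    exact and_congr_right fun _ => ⟨fun h => by omega, fun h => by omega⟩
  unfold CrH Sepr
  rw [Set.mem_ofPred_eq, e]
  constructor
  · intro H
    by_contra H2
    refine H fun u v hu hv hp => H2 ⟨u, v, hu, hv, hp⟩
  · rintro ⟨u, v, hu, hv, hp⟩ H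
    exact H u v hu hv hp

/-- the crossing event depends on the free sites only -/
theorem crH_congr {N : Set P2} {o : P2} {s d : ℕ} {h h' : P2 → ℤ} (e : ∀ v, v ∉ N → h v = h' v) :
    KI (CrH N o s d) h = KI (CrH N o s d) h' := by
  have : h ∈ CrH N o s d ↔ h' ∈ CrH N o s d := by
    rw [crH_iff, crH_iff]
    have e2 : ({w | w ∉ N ∧ 1 ≤ h w} : Set P2) = {w | w ∉ N ∧ 1 ≤ h' w} := by
      ext w
      simp only [Set.mem_ofPred_eq]
      exact and_congr_right fun hw => by rw [e w hw]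
    rw [e2]
  by_cases hh : h ∈ CrH N o s d
  · rw [KI_of hh, KI_of (this.1 hh)]
  · rw [KI_of_not hh, KI_of_not fun h2 => hh (this.2 h2)]

theorem compl_eq (Λ : Finset P2) : ((Λ : Set P2)ᶜ) = {v | v ∉ Λ} := by
  ext v; simp

/-- the constants of the boundary decay -/
structure Kst (x : ℝ) (K A R L km : ℕ) (q : ℕ → ℝ) (q0 p : ℝ) : Prop where
  hx0 : 0 < x
  hx1 : x ≤ 1
  hR : RSW ((x ^ 2)⁻¹) K p
  hA : LemA ((x ^ 2)⁻¹) K A R q
  hq0 : 0 ≤ q0
  hq1 : q0 ≤ 1
  hq : ∀ i ≤ km, q0 ≤ q i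

/-- the decay factor of one scale -/
def fac (q0 p : ℝ) (L : ℕ) : ℝ := 1 - q0 * p ^ ((2 * L + 1) ^ 2)

section
variable {x : ℝ} {K A R L km : ℕ} {q : ℕ → ℝ} {q0 p : ℝ}

theorem Kst.fac0 (H : Kst x K A R L km q q0 p) : 0 ≤ fac q0 p L := by
  have h1 : p ^ ((2 * L + 1) ^ 2) ≤ 1 := pow_le_one₀ H.hR.p0.le (by linarith [H.hR.p1])
  have h2 : 0 ≤ p ^ ((2 * L + 1) ^ 2) := pow_nonneg H.hR.p0.le _
  have := H.hq0
  have := H.hq1
  unfold fac
  nlinarith

/-- the constants of the far arc -/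
def FarC (x : ℝ) (K A R L km : ℕ) (q0 p C α : ℝ) : Prop :=
  ∀ (Λ : Finset P2) (τ : P2 → ℤ) (o : P2) (s d m M d1 d2 : ℕ)
    (S : Finset ℕ) {n r1 r2 k : ℕ → ℕ} {h : ℕ → ℤ} {b y : ℕ → Bool → P2} {a : ℕ → ℕ → P2},
    Scs K A R L km {v | v ∉ Λ} o s d S n r1 r2 k h b y a →
    IsConn ((Λ : Set P2)ᶜ) → (∀ v, τ v = 0 ∨ τ v = 1) →
    (∀ v, v ∉ Λ → v ∈ ball o d2 → τ v = 0) →
    (∀ u v, u ∉ Λ → v ∉ Λ → u ∉ ball o d2 → v ∉ ball o d2 →
      Relation.ReflTransGen (StepIn {w | w ∉ Λ ∧ w ∉ ball o d1}) u v) →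
    d + 2 ≤ m → m ≤ M → K * M + 2 ≤ d1 → d1 ≤ d2 →
    ex x Λ τ (KI (CrH {v | v ∉ Λ} o s d)) ≤ C * ((m : ℝ) / M) ^ α + fac q0 p L ^ S.card

theorem exists_far {x : ℝ} (hx0 : 0 < x) (hx1 : x ≤ 1) {K : ℕ} {p : ℝ} (hR : RSW ((x ^ 2)⁻¹) K p) :
    ∃ C α : ℝ, 1 ≤ C ∧ 0 < α ∧ ∀ {A R L km : ℕ} {q : ℕ → ℝ} {q0 : ℝ},
      Kst x K A R L km q q0 p → FarC x K A R L km q0 p C α := by
  obtain ⟨C, α, hC, hα, H⟩ := Ef725.far_arc hx0 hx1 hR
  refine ⟨C, α, hC, hα, fun {A R L km q q0} hk Λ τ o s d m M d1 d2 S n r1 r2 k h b y a hS hΛ hτ h0 hfar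
    hm hM hKM hd => ?_⟩
  rw [← compl_eq] at hS ⊢
  have h1 := H hk.hA hk.hq0 hk.hq1 hk.hq Λ τ o s d m M d1 d2 S hS hΛ
    (lip_of_two (j := 0) fun v => by simpa using hτ v) (fun v _ => hτ v) h0 hfar hm hM (by omega) hd
  refine le_trans (le_of_eq ?_) h1
  exact It844.ex_congr fun g _ => ki_cross _ o s d (g, fun _ => true)

/-- data on the free sites only -/
theorem zero_le' (hk : Kst x K A R L km q q0 p) {Λ : Finset P2} {o : P2} {s d : ℕ} {S : Finset ℕ}
    {n r1 r2 k : ℕ → ℕ} {h : ℕ → ℤ} {b y : ℕ → Bool → P2} {a : ℕ → ℕ → P2}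
    (H : Scs K A R L km {v | v ∉ Λ} o s d S n r1 r2 k h b y a) (hΛ : IsConn ((Λ : Set P2)ᶜ))
    {τ : P2 → ℤ} (hτ : ∀ v, τ v = -1 ∨ τ v = 0) :
    ex x Λ τ (KI (CrH {v | v ∉ Λ} o s d)) ≤ fac q0 p L ^ S.card :=
  H.zero hk.hx0 hk.hx1 hk.hR hk.hA hk.hq0 hk.hq1 hk.hq hΛ
    (lip_of_two (j := -1) fun v => by simpa using hτ v) fun v _ => by
      rcases hτ v with h | h
      · rw [h]; norm_num
      · rw [h]

/-- the free set in the coordinates given by `σ` -/
def pull (σ : P2 ≃ P2) (Λ : Finset P2) : Finset P2 := Λ.map σ.symm.toEmbedding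

theorem mem_pull {σ : P2 ≃ P2} {Λ : Finset P2} {v : P2} : v ∈ pull σ Λ ↔ σ v ∈ Λ := by
  unfold pull
  rw [Finset.mem_map]
  constructor
  · rintro ⟨w, hw, rfl⟩
    simpa using hw
  · intro h
    exact ⟨σ v, h, by simp⟩

theorem map_pull (σ : P2 ≃ P2) (Λ : Finset P2) : (pull σ Λ).map σ.toEmbedding = Λ := by
  ext v
  rw [Finset.mem_map]
  constructor
  · rintro ⟨w, hw, rfl⟩
    exact mem_pull.1 hw
  · intro h
    exact ⟨σ.symm v, mem_pull.2 (by simpa using h), by simp⟩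

theorem compl_pull (σ : P2 ≃ P2) (Λ : Finset P2) : ({v | v ∉ pull σ Λ} : Set P2) = {v | σ v ∉ Λ} := by
  ext v
  simp only [Set.mem_ofPred_eq, mem_pull]

theorem path_pull {σ : P2 ≃ P2} (hadj : ∀ v w, Adj (σ v) (σ w) ↔ Adj v w) {X : Set P2} {u v : P2}
    (h : Relation.ReflTransGen (StepIn X) (σ u) (σ v)) :
    Relation.ReflTransGen (StepIn {w | σ w ∈ X}) u v := by
  have : ∀ a b, Relation.ReflTransGen (StepIn X) a b →
      Relation.ReflTransGen (StepIn {w | σ w ∈ X}) (σ.symm a) (σ.symm b) := by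
    intro a b hab
    induction hab with
    | refl => exact Relation.ReflTransGen.refl
    | tail _ hcd ih =>
      refine ih.tail ⟨by simpa using hcd.1, by simpa using hcd.2.1, ?_⟩
      rw [← hadj]
      simpa using hcd.2.2
  simpa using this _ _ h

theorem isConn_pull {σ : P2 ≃ P2} (hadj : ∀ v w, Adj (σ v) (σ w) ↔ Adj v w) {X : Set P2}
    (h : IsConn X) : IsConn {w | σ w ∈ X} := fun u hu v hv => path_pull hadj (h (σ u) hu (σ v) hv)

/-- **Crossing of `{e (h - k) ≥ 1}` near a boundary point where the data is `k`.** -/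
theorem cross_sgn (hk : Kst x K A R L km q q0 p) {C α : ℝ} (hC : 0 ≤ C)
    (hF : FarC x K A R L km q0 p C α) {σ τ' : P2 ≃ P2} (hA : Aut σ τ')
    (hadj : ∀ v w, Adj (σ v) (σ w) ↔ Adj v w) {Λ : Finset P2} (hΛ : IsConn ((Λ : Set P2)ᶜ))
    {o : P2} {s d m M d1 d2 : ℕ} {S : Finset ℕ}
    {n r1 r2 k : ℕ → ℕ} {h : ℕ → ℤ} {b y : ℕ → Bool → P2} {a : ℕ → ℕ → P2}
    (H : Scs K A R L km {v | σ v ∉ Λ} o s d S n r1 r2 k h b y a)
    {τ : P2 → ℤ} (hτ : ∀ v, τ v = -1 ∨ τ v = 0) {κ : ℤ} (hκ : κ = -1 ∨ κ = 0)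
    (hnear : ∀ v, v ∈ ball o d2 → σ v ∉ Λ → σ v ∈ nbhd Λ → τ (σ v) = κ)
    (hfar : ∀ u v, σ u ∉ Λ → σ v ∉ Λ → u ∉ ball o d2 → v ∉ ball o d2 →
      Relation.ReflTransGen (StepIn {w | σ w ∉ Λ ∧ w ∉ ball o d1}) u v)
    (hm : d + 2 ≤ m) (hmM : m ≤ M) (hd1 : K * M + 2 ≤ d1) (hd : d1 ≤ d2) {e : ℤ}
    (he : e = 1 ∨ e = -1) :
    ex x Λ τ (fun g => KI (CrH {v | σ v ∉ Λ} o s d) (fun v => e * (g (σ v) - κ))) ≤
      C * ((m : ℝ) / M) ^ α + fac q0 p L ^ S.card := by
  have hlip : Lip τ := lip_of_two (j := -1) fun v => by simpa using hτ v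
  -- data in the coordinates
  set ξ : P2 → ℤ := fun v => if v ∈ ball o d2 then 0 else e * (τ (σ v) - κ) with hξ
  have hξl : Lip ξ := by
    intro u v _
    simp only [hξ]
    rcases he with rfl | rfl <;> rcases hκ with rfl | rfl <;> rcases hτ (σ u) with h1 | h1 <;>
      rcases hτ (σ v) with h2 | h2 <;> rw [h1, h2] <;> split_ifs <;> simp
  have e1 : ex x Λ τ (fun g => KI (CrH {v | σ v ∉ Λ} o s d) (fun v => e * (g (σ v) - κ))) =
      ex x (pull σ Λ) ξ (KI (CrH {v | v ∉ pull σ Λ} o s d)) := by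
    rw [compl_pull]
    have e2 : ex x Λ τ (fun g => KI (CrH {v | σ v ∉ Λ} o s d) (fun v => e * (g (σ v) - κ))) =
        ex x Λ (fun v => e * (τ v - κ)) (fun g => KI (CrH {v | σ v ∉ Λ} o s d) (g ∘ σ)) := by
      rcases he with rfl | rfl
      · have h1 := It844.ex_add_const x Λ τ (-κ) (fun g => KI (CrH {v | σ v ∉ Λ} o s d) (g ∘ σ))
        simp only [one_mul, sub_eq_add_neg]
        exact h1.symm
      · have h1 := It844.ex_add_const x Λ τ (-κ)
          (fun g => KI (CrH {v | σ v ∉ Λ} o s d) ((fun v => - g v) ∘ σ))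
        have h2 := It844.ex_neg x Λ (fun v => τ v + -κ)
          (fun g => KI (CrH {v | σ v ∉ Λ} o s d) (g ∘ σ))
        simp only [neg_one_mul, sub_eq_add_neg]
        exact (h2.trans h1).symm
    rw [e2]
    have h3 := ex_aut hA x (pull σ Λ) (fun v => e * (τ v - κ)) (KI (CrH {v | σ v ∉ Λ} o s d))
    rw [map_pull] at h3
    rw [h3]
    refine It844.ex_local x ?_ hξl ?_ _ ?_
    · intro u v _
      simp only [Function.comp_apply]
      rcases he with rfl | rfl <;> rcases hκ with rfl | rfl <;> rcases hτ (σ u) with h1 | h1 <;>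
        rcases hτ (σ v) with h2 | h2 <;> rw [h1, h2] <;> simp
    · intro v hv hvn
      simp only [Function.comp_apply, hξ]
      split_ifs with h1
      · rw [mem_pull] at hv
        rw [hnear v h1 hv ?_]
        · simp
        · rcases hvn with hvn | ⟨w, hw, hwv⟩
          · exact absurd (mem_pull.1 hvn) hv
          · exact Or.inr ⟨σ w, mem_pull.1 hw, (hadj w v).2 hwv⟩
      · rfl
    · intro u v huv
      refine crH_congr fun w hw => huv w ?_
      rw [Set.mem_ofPred_eq, not_not] at hw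
      exact mem_pull.2 hw
  rw [e1]
  have hΛ' : IsConn ((pull σ Λ : Set P2)ᶜ) := by
    have h1 := isConn_pull hadj hΛ
    have e3 : ({w | σ w ∈ (Λ : Set P2)ᶜ} : Set P2) = ((pull σ Λ : Set P2)ᶜ) := by
      ext w
      simp only [Set.mem_ofPred_eq, Set.mem_compl_iff, Finset.mem_coe, mem_pull]
    rwa [e3] at h1
  rw [← compl_pull] at H
  have hfac : 0 ≤ fac q0 p L ^ S.card := pow_nonneg hk.fac0 _
  have hCa : 0 ≤ C * ((m : ℝ) / M) ^ α := mul_nonneg hC (Real.rpow_nonneg (by positivity) _)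
  have hcase : (∀ v, ξ v = -1 ∨ ξ v = 0) ∨ (∀ v, ξ v = 0 ∨ ξ v = 1) := by
    rcases he with rfl | rfl
    · rcases hκ with rfl | rfl
      · right
        intro v
        simp only [hξ]
        rcases hτ (σ v) with h1 | h1 <;> rw [h1] <;> split_ifs <;> simp
      · left
        intro v
        simp only [hξ]
        rcases hτ (σ v) with h1 | h1 <;> rw [h1] <;> split_ifs <;> simp
    · rcases hκ with rfl | rfl
      · left
        intro v
        simp only [hξ]
        rcases hτ (σ v) with h1 | h1 <;> rw [h1] <;> split_ifs <;> simp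
      · right
        intro v
        simp only [hξ]
        rcases hτ (σ v) with h1 | h1 <;> rw [h1] <;> split_ifs <;> simp
  rcases hcase with h0 | h0
  · exact (zero_le' hk H hΛ' h0).trans (by linarith)
  · refine hF (pull σ Λ) ξ o s d m M d1 d2 S H hΛ' h0 ?_ ?_ hm hmM hd1 hd
    · intro v _ hv
      simp only [hξ, if_pos hv]
    · intro u v hu hv hu2 hv2
      have h1 := hfar u v (fun h => hu (mem_pull.2 h)) (fun h => hv (mem_pull.2 h)) hu2 hv2
      have e4 : ({w | w ∉ pull σ Λ ∧ w ∉ ball o d1} : Set P2) = {w | σ w ∉ Λ ∧ w ∉ ball o d1} := by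
        ext w
        simp only [Set.mem_ofPred_eq, mem_pull]
      rwa [e4]

end

end Crest.Agent.R144.Bnd991
end
end

-- ▼ part R144/Fh2_353

/-! R144 (helper353), BND: **`cross_top`**, the crossing bound near a boundary point at the level of
268's `Setup`. -/

set_option autoImplicit false

open Set Topology Filter

namespace Crest.Agent.R144.Fh353

open Crest.ProbabilityR.HexHeights (Adj centre)
open Crest.Agent.R144.It844 (P2 Lip ex pr nbhd)
open Crest.Agent.R144.Zg349 (StepIn IsConn)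
open Crest.Agent.R144.Rsw867 (ball RSW)
open Crest.Agent.R144.Rw146 (Aut)
open Crest.Agent.R144.Bx695 (KI KI_of KI_of_not KI_nonneg KI_le_one)
open Crest.Agent.R144.Set268
open Crest.Agent.R144.Bnd991
open Relation (ReflTransGen)

/-- scale selection (F4, helper400) -/
def Sel (D : Set ℂ) (δ : ℕ → ℝ) (Λ : ℕ → Finset (ℤ × ℤ)) (K A R : ℕ) : Prop :=
  ∃ L km : ℕ, ∀ p ∈ frontier D, ∃ (σ τ' : P2 ≃ P2) (o : ℕ → P2), Aut σ τ' ∧
    (∀ v w, Adj (σ v) (σ w) ↔ Adj v w) ∧
    (∀ ε v w, dist (centre ε (σ v)) (centre ε (σ w)) = dist (centre ε v) (centre ε w)) ∧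
    (∀ n, dist (centre (δ n) (σ (o n))) p ≤ δ n) ∧
    ∀ J : ℕ, ∀ d0 : ℝ, 0 < d0 → ∃ η : ℝ, 0 < η ∧ ∀ᶠ n in atTop, ∃ (s d : ℕ) (n' r1 r2 k : ℕ → ℕ)
      (h : ℕ → ℤ) (b y : ℕ → Bool → P2) (a : ℕ → ℕ → P2),
      Scs K A R L km {v | σ v ∉ Λ n} (o n) s d (Finset.range J) n' r1 r2 k h b y a ∧
      (d : ℝ) * δ n ≤ d0 ∧ ∀ v, dist (centre (δ n) (σ v)) p ≤ η → v ∈ ball (o n) s

theorem path_rev {X : Set P2} {u v : P2} (h : ReflTransGen (StepIn X) u v) :
    ReflTransGen (StepIn X) v u := by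
  induction h with
  | refl => exact ReflTransGen.refl
  | tail _ h1 ih => exact ReflTransGen.head ⟨h1.2.1, h1.1, It844.adj_symm h1.2.2⟩ ih

/-- paths in the free sites are crossings in the coordinates `σ` -/
theorem pr_le {x : ℝ} {Λ : Finset P2} {τ : P2 → ℤ} {σ : P2 ≃ P2}
    (hadj : ∀ v w, Adj (σ v) (σ w) ↔ Adj v w) {δ : ℝ} {p : ℂ} {η r2 : ℝ} {o : P2} {s d : ℕ}
    (hs : ∀ v, dist (centre δ (σ v)) p ≤ η → v ∈ ball o s)
    (hd : ∀ v, v ∈ ball o d → dist (centre δ (σ v)) p < r2) (e κ : ℤ) :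
    pr x Λ τ {h | ∃ u ∈ Λ, dist (centre δ u) p ≤ η ∧ ∃ v ∈ Λ, r2 ≤ dist (centre δ v) p ∧
      ReflTransGen (StepIn {w | w ∈ Λ ∧ 1 ≤ e * (h w - κ)}) u v} ≤
    ex x Λ τ (fun g => KI (CrH {v | σ v ∉ Λ} o s d) (fun v => e * (g (σ v) - κ))) := by
  unfold pr
  refine It844.ex_mono fun g _ => ?_
  split_ifs with h
  · obtain ⟨u, hu, hu2, v, hv, hv2, hp⟩ := h
    rw [KI_of]
    rw [crH_iff]
    refine ⟨σ.symm v, σ.symm u, fun hb => ?_, hs _ ?_, ?_⟩
    · have := hd _ hb
      rw [σ.apply_symm_apply] at this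
      linarith
    · rw [σ.apply_symm_apply]; exact hu2
    · have h1 : ReflTransGen (StepIn {w | w ∈ Λ ∧ 1 ≤ e * (g w - κ)}) (σ (σ.symm v))
          (σ (σ.symm u)) := by
        rw [σ.apply_symm_apply, σ.apply_symm_apply]
        exact path_rev hp
      have hsub : ({w | σ w ∈ ({w | w ∈ Λ ∧ 1 ≤ e * (g w - κ)} : Set P2)} : Set P2) ⊆
          {w | w ∉ ({v | σ v ∉ Λ} : Set P2) ∧ 1 ≤ e * (g (σ w) - κ)} :=
        fun w hw => ⟨fun h2 => h2 hw.1, hw.2⟩
      exact Rsw867.path_mono hsub (path_pull hadj h1)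
  · exact KI_nonneg _ _

theorem exists_small {C α ε : ℝ} (hC : 1 ≤ C) (hα : 0 < α) (hε : 0 < ε) :
    ∃ t0 : ℝ, 0 < t0 ∧ t0 ≤ 1 ∧ ∀ t, 0 ≤ t → t ≤ t0 → C * t ^ α ≤ ε := by
  refine ⟨min 1 ((ε / C) ^ (1 / α)), by positivity, min_le_left _ _, fun t ht h => ?_⟩
  have h1 : t ^ α ≤ ((ε / C) ^ (1 / α)) ^ α :=
    Real.rpow_le_rpow ht (h.trans (min_le_right _ _)) hα.le
  rw [← Real.rpow_mul (by positivity), one_div, inv_mul_cancel₀ hα.ne', Real.rpow_one] at h1
  calc C * t ^ α ≤ C * (ε / C) := mul_le_mul_of_nonneg_left h1 (by linarith)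
    _ = ε := by field_simp

variable {D : Set ℂ} {γ : ℝ → ℂ} {P : Finset ℂ} {δ : ℕ → ℝ} {Λ : ℕ → Finset (ℤ × ℤ)}
  {τ : ℕ → ℤ × ℤ → ℤ}

set_option maxHeartbeats 800000 in
/-- **the crossing bound at a boundary point** -/
theorem cross_top (h : Setup D γ P δ Λ τ) (hg : F3g D δ Λ) {x : ℝ} (hx0 : 0 < x) (hx1 : x ≤ 1)
    {K A R : ℕ} {p0 : ℝ} {q : ℕ → ℝ} (hR : RSW ((x ^ 2)⁻¹) K p0) (hLA : LemA ((x ^ 2)⁻¹) K A R q)
    (hq0 : ∀ i, 0 < q i) (hq1 : ∀ i, q i ≤ 1) (hsel : Sel D δ Λ K A R) {p : ℂ}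
    (hp : p ∈ frontier D) (hpP : p ∉ P) :
    ∃ k : ℤ, (k = -1 ∨ k = 0) ∧ ∃ r1 > 0, (∀ᶠ n in atTop, ∀ v, Bd (Λ n) v →
      dist (centre (δ n) v) p ≤ r1 → τ n v = k) ∧ ∀ ε > 0, ∀ r2 > 0, ∃ η > 0, ∀ᶠ n in atTop,
      ∀ e : ℤ, e = 1 ∨ e = -1 → pr x (Λ n) (τ n) {h | ∃ u ∈ Λ n, dist (centre (δ n) u) p ≤ η ∧
        ∃ v ∈ Λ n, r2 ≤ dist (centre (δ n) v) p ∧
        ReflTransGen (StepIn {w | w ∈ Λ n ∧ 1 ≤ e * (h w - k)}) u v} ≤ ε := by
  obtain ⟨r1, hr1, κ, hκ, hcst⟩ := h.cst p hp hpP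
  refine ⟨κ, hκ, r1, hr1, hcst, fun ε hε r2 hr2 => ?_⟩
  obtain ⟨C, α, hC, hα, hF⟩ := exists_far hx0 hx1 hR
  obtain ⟨L, km, hsel⟩ := hsel
  obtain ⟨σ, τ', o, hAut, hadj, hdist, ho, hJ⟩ := hsel p hp
  -- the blocking probability
  obtain ⟨i0, hi0, hmin⟩ := Finset.exists_min_image (Finset.range (km + 1)) q ⟨0, by simp⟩
  have hk : Kst x K A R L km q (q i0) p0 :=
    ⟨hx0, hx1, hR, hLA, (hq0 i0).le, hq1 i0, fun i hi => hmin i (by simp; omega)⟩
  have hF' := hF hk
  set θ := fac (q i0) p0 L with hθ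
  have hθ1 : θ < 1 := by
    rw [hθ]
    unfold fac
    have := mul_pos (hq0 i0) (pow_pos hR.p0 ((2 * L + 1) ^ 2))
    linarith
  obtain ⟨J, hJ1⟩ := exists_pow_lt_of_lt_one (show 0 < ε / 2 by linarith) hθ1
  obtain ⟨t0, ht0, ht1, htt⟩ := exists_small hC hα (show 0 < ε / 2 by linarith)
  -- the far set
  obtain ⟨ρ0, hρ0, hfar⟩ := hg p hp (r1 / 2) (by positivity)
  set ρ := min ρ0 (r1 / 2) with hρdef
  have hρ : 0 < ρ := lt_min hρ0 (by positivity)
  have hρ1 : ρ ≤ ρ0 := min_le_left _ _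
  have hρ2 : ρ ≤ r1 / 2 := min_le_right _ _
  have hK : (4 : ℝ) ≤ K := by exact_mod_cast hR.K4
  have hKp : (0 : ℝ) < K := by linarith
  set d0 := min (r2 / 2) (t0 * ρ / (8 * K)) with hd0def
  have hd0 : 0 < d0 := lt_min (by positivity) (by positivity)
  have hd01 : d0 ≤ r2 / 2 := min_le_left _ _
  have hd02 : d0 * (8 * K) ≤ t0 * ρ := by
    rw [← le_div_iff₀ (by positivity)]
    exact min_le_right _ _
  obtain ⟨η, hη, hev⟩ := hJ J d0 hd0
  refine ⟨η, hη, ?_⟩
  have hsm : 0 < min (d0 / 2) (ρ / (8 * K)) := lt_min (by positivity) (by positivity)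
  filter_upwards [hev, hfar, hcst, h.sites.small hsm] with n hn1 hn2 hn3 hn4 e he
  obtain ⟨s, d, n', ra, rb, kk, hh, b, y, a, hScs, hdd, hball⟩ := hn1
  obtain ⟨Nf, hN1, hN2, hN3, hN4, hN5⟩ := hn2
  have hδ := h.sites.pos n
  have hδ1 : δ n < d0 / 2 := hn4.trans_le (min_le_left _ _)
  have hδ2 : δ n * (8 * K) < ρ := by
    rw [← lt_div_iff₀ (by positivity)]
    exact hn4.trans_le (min_le_right _ _)
  have hδ3 : 32 * δ n < ρ := by nlinarith
  -- the radii
  set M := ⌊ρ / (2 * K * δ n)⌋₊ with hM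
  have hM1 : (M : ℝ) * (2 * K * δ n) ≤ ρ := by
    have := Nat.floor_le (show 0 ≤ ρ / (2 * K * δ n) by positivity)
    rwa [le_div_iff₀ (by positivity)] at this
  have hM2 : ρ < (M + 1) * (2 * K * δ n) := by
    have := Nat.lt_floor_add_one (ρ / (2 * K * δ n))
    rwa [div_lt_iff₀ (by positivity)] at this
  set d2 := ⌈(r1 / 2 + δ n) * (6 / 5) / δ n⌉₊ with hd2
  have h21 : (r1 / 2 + δ n) * (6 / 5) ≤ δ n * d2 := by
    have := Nat.le_ceil ((r1 / 2 + δ n) * (6 / 5) / δ n)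
    rw [div_le_iff₀ hδ] at this
    linarith
  have h22 : δ n * d2 ≤ (r1 / 2 + δ n) * (6 / 5) + δ n := by
    have := (Nat.ceil_lt_add_one (show 0 ≤ (r1 / 2 + δ n) * (6 / 5) / δ n by positivity)).le
    have h5 : (d2 : ℝ) * δ n ≤ ((r1 / 2 + δ n) * (6 / 5) / δ n + 1) * δ n :=
      mul_le_mul_of_nonneg_right this hδ.le
    rw [add_mul, div_mul_cancel₀ _ hδ.ne'] at h5
    linarith
  have hd1 : (((K * M + 2 : ℕ) : ℝ) + 1) * δ n ≤ ρ0 := by
    push_cast
    nlinarith
  have hd12 : K * M + 2 ≤ d2 := by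
    have : ((K * M + 2 : ℕ) : ℝ) * δ n ≤ (d2 : ℝ) * δ n := by
      push_cast
      nlinarith
    exact_mod_cast le_of_mul_le_mul_right this hδ
  have hmM : d + 2 ≤ M := by
    rw [hM]
    refine Nat.le_floor ?_
    rw [le_div_iff₀ (by positivity)]
    push_cast
    have h5 : (d : ℝ) * δ n + 2 * δ n ≤ 2 * d0 := by linarith
    have h6 : ((d : ℝ) * δ n + 2 * δ n) * (2 * K) ≤ 2 * d0 * (2 * K) :=
      mul_le_mul_of_nonneg_right h5 (by positivity)
    have h7 : t0 * ρ ≤ 1 * ρ := mul_le_mul_of_nonneg_right ht1 hρ.le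
    nlinarith
  have hMpos : (0 : ℝ) < M := by
    have : (2 : ℝ) ≤ M := by exact_mod_cast le_trans (by omega) hmM
    linarith
  have hfrac : ((d + 2 : ℕ) : ℝ) / M ≤ t0 := by
    rw [div_le_iff₀ hMpos]
    have h5 : ((d + 2 : ℕ) : ℝ) * δ n ≤ 2 * d0 := by push_cast; linarith
    have h6 : ρ / (4 * K) ≤ M * δ n := by
      rw [div_le_iff₀ (by positivity)]
      nlinarith
    have h7 : 2 * d0 ≤ t0 * (M * δ n) := by
      have h8 : t0 * (ρ / (4 * K)) ≤ t0 * (M * δ n) := mul_le_mul_of_nonneg_left h6 ht0.le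
      have h9 : 2 * d0 ≤ t0 * (ρ / (4 * K)) := by
        rw [← mul_div_assoc, le_div_iff₀ (by positivity)]
        linarith
      exact h9.trans h8
    have h10 : ((d + 2 : ℕ) : ℝ) * δ n ≤ (t0 * M) * δ n := by linarith
    exact le_of_mul_le_mul_right h10 hδ
  -- the bound
  have key := cross_sgn hk (by linarith : (0 : ℝ) ≤ C) hF' hAut hadj (Λ := Λ n)
    (fun u hu v hv => h.compl n u hu v hv) hScs (τ := τ n) (h.data n) hκ (d2 := d2)
    (d1 := K * M + 2) (m := d + 2) (M := M)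
    (fun v hv hv1 hv2 => hn3 (σ v) ⟨hv1, (hv2.resolve_left hv1)⟩ (by
      have h5 := dist_of_mem hδ (hdist (δ n)) (ho n) hv
      nlinarith))
    (fun u v hu hv hu2 hv2 => hfar_of hδ hN1 hN2 hN4 hN5 hadj (hdist (δ n)) (ho n) hd1 h21
      hu hv hu2 hv2) le_rfl hmM le_rfl hd12 he
  refine (pr_le hadj hball (r2 := r2) (fun v hv => ?_) e κ).trans (key.trans ?_)
  · have h5 := dist_of_mem hδ (hdist (δ n)) (ho n) hv
    nlinarith
  · have h5 := htt _ (by positivity) hfrac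
    rw [Finset.card_range]
    linarith

end Crest.Agent.R144.Fh353
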