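import Crest.Agent.Lib.PrekopaLeindler

-- ▼ part R144/Fi1_865
section

/-!
# R144, static functional inequalities (helper865), file 1: Poincaré from Prékopa–Leindler

`E` a finite dimensional inner product space, `W : E → ℝ` a nonnegative measurable weight.

* `SLC lam W` : `√W(x) √W(y) ≤ exp(-lam |x-y|²/8) W((x+y)/2)` (`W = exp(-H)` on a convex set with
  `H - lam |x|²/2` convex);
* `poinc_step` : the Poincaré inequality with a local Lipschitz constant at scale `r`.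
-/

set_option autoImplicit false
set_option linter.unusedSectionVars false

open MeasureTheory Set Filter Topology
open scoped ENNReal NNReal RealInnerProductSpace

namespace Crest.Agent.R144.Fi865

open Crest.Agent.Lib.PrekopaLeindler

noncomputable section

/-! ### elementary -/

/-- third order Taylor bound for `exp` -/
theorem abs_exp_sub_two {x : ℝ} (hx : |x| ≤ 1) : |Real.exp x - (1 + x + x ^ 2 / 2)| ≤ |x| ^ 3 := by
  have h := Real.exp_bound (x := x) hx (n := 3) (by norm_num)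
  have e : ∑ m ∈ Finset.range 3, x ^ m / (m.factorial : ℝ) = 1 + x + x ^ 2 / 2 := by
    simp [Finset.sum_range_succ]
  rw [e] at h
  refine h.trans ?_
  have h3 : (0 : ℝ) ≤ |x| ^ 3 := by positivity
  have : ((Nat.succ 3 : ℕ) : ℝ) / ((Nat.factorial 3 : ℝ) * (3 : ℕ)) ≤ 1 := by
    norm_num [Nat.factorial]
  calc |x| ^ 3 * (((Nat.succ 3 : ℕ) : ℝ) / ((Nat.factorial 3 : ℝ) * (3 : ℕ)))
      ≤ |x| ^ 3 * 1 := mul_le_mul_of_nonneg_left this h3
    _ = |x| ^ 3 := mul_one _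

/-- the second order comparison -/
theorem second_order {Z A B D K e₀ c : ℝ} (he₀ : 0 < e₀)
    (h : ∀ e : ℝ, 0 < e → e ≤ e₀ →
      Z * (Z + e * A + e ^ 2 * B / 2 - K * e ^ 3) ≤
        (Z + e * A / 2 + e ^ 2 * (c * D + B / 8) + K * e ^ 3) ^ 2) :
    Z * B - A ^ 2 ≤ 8 * c * Z * D := by
  have h2 : ∀ e : ℝ, 0 < e → e ≤ e₀ → 0 ≤ (A ^ 2 / 4 + 2 * Z * (c * D + B / 8) - Z * B / 2) +
      e * (2 * Z * K + A * (c * D + B / 8) + Z * K) +
      e ^ 2 * ((c * D + B / 8) ^ 2 + A * K) + e ^ 3 * (2 * (c * D + B / 8) * K) +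
      e ^ 4 * K ^ 2 := by
    intro e he he'
    have h1 := h e he he'
    have he2 : 0 < e ^ 2 := by positivity
    have h3 : 0 ≤ e ^ 2 * ((A ^ 2 / 4 + 2 * Z * (c * D + B / 8) - Z * B / 2) +
      e * (2 * Z * K + A * (c * D + B / 8) + Z * K) +
      e ^ 2 * ((c * D + B / 8) ^ 2 + A * K) + e ^ 3 * (2 * (c * D + B / 8) * K) +
      e ^ 4 * K ^ 2) := by nlinarith [h1]
    exact nonneg_of_mul_nonneg_right h3 he2
  have hlim : Tendsto (fun e : ℝ => (A ^ 2 / 4 + 2 * Z * (c * D + B / 8) - Z * B / 2) +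
      e * (2 * Z * K + A * (c * D + B / 8) + Z * K) +
      e ^ 2 * ((c * D + B / 8) ^ 2 + A * K) + e ^ 3 * (2 * (c * D + B / 8) * K) +
      e ^ 4 * K ^ 2) (𝓝[>] 0) (𝓝 (A ^ 2 / 4 + 2 * Z * (c * D + B / 8) - Z * B / 2)) := by
    have hc : Continuous (fun e : ℝ => (A ^ 2 / 4 + 2 * Z * (c * D + B / 8) - Z * B / 2) +
      e * (2 * Z * K + A * (c * D + B / 8) + Z * K) +
      e ^ 2 * ((c * D + B / 8) ^ 2 + A * K) + e ^ 3 * (2 * (c * D + B / 8) * K) +
      e ^ 4 * K ^ 2) := by fun_prop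
    have := (hc.tendsto 0).mono_left (nhdsWithin_le_nhds (s := Ioi 0))
    simpa using this
  have h4 : 0 ≤ A ^ 2 / 4 + 2 * Z * (c * D + B / 8) - Z * B / 2 := by
    refine ge_of_tendsto hlim ?_
    filter_upwards [Ioc_mem_nhdsGT he₀] with e he
    exact h2 e he.1 he.2
  nlinarith

/-- linear combination of four integrals -/
theorem int_comb {α : Type*} [MeasurableSpace α] {μ : Measure α} {u v w y : α → ℝ}
    (hu : Integrable u μ) (hv : Integrable v μ) (hw : Integrable w μ) (hy : Integrable y μ)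
    (a b c d : ℝ) :
    Integrable (fun x => a * u x + b * v x + c * w x + d * y x) μ ∧
    ∫ x, (a * u x + b * v x + c * w x + d * y x) ∂μ =
      a * ∫ x, u x ∂μ + b * ∫ x, v x ∂μ + c * ∫ x, w x ∂μ + d * ∫ x, y x ∂μ := by
  have h1 : Integrable (fun x => a * u x + b * v x) μ := (hu.const_mul a).add (hv.const_mul b)
  have h2 : Integrable (fun x => a * u x + b * v x + c * w x) μ := h1.add (hw.const_mul c)
  refine ⟨h2.add (hy.const_mul d), ?_⟩
  rw [integral_add h2 (hy.const_mul d), integral_add h1 (hw.const_mul c),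
    integral_add (hu.const_mul a) (hv.const_mul b), integral_const_mul, integral_const_mul,
    integral_const_mul, integral_const_mul]

section main

variable {E : Type*} [NormedAddCommGroup E] [InnerProductSpace ℝ E] [FiniteDimensional ℝ E]
  [MeasurableSpace E] [BorelSpace E]

theorem PL_fd : PL E (volume : Measure E) := by
  refine PL.of_measurePreserving (fun x => (stdOrthonormalBasis ℝ E).repr.symm x)
    (LinearIsometryEquiv.measurePreserving (stdOrthonormalBasis ℝ E).repr.symm) ?_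
    (PL_euclidean (Module.finrank ℝ E))
  intro a b x y
  simp

/-- midpoint form of Prékopa–Leindler for real functions -/
theorem pl_mid {U V H : E → ℝ} (hU : ∀ x, 0 ≤ U x) (hV : ∀ x, 0 ≤ V x) (hH : ∀ x, 0 ≤ H x)
    (mU : Integrable U) (mV : Integrable V) (mH : Integrable H)
    (sU : Measurable U) (sV : Measurable V) (sH : Measurable H)
    (h : ∀ x y, √(U x) * √(V y) ≤ H ((1 / 2 : ℝ) • (x + y))) :
    (∫ x, U x) * ∫ x, V x ≤ (∫ x, H x) ^ 2 := by
  have key := (PL_fd (E := E)) (1 / 2) (by norm_num) (by norm_num) (fun x => ENNReal.ofReal (U x))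
    (fun x => ENNReal.ofReal (V x)) (fun x => ENNReal.ofReal (H x)) sU.ennreal_ofReal
    sV.ennreal_ofReal sH.ennreal_ofReal ?_
  · rw [← ofReal_integral_eq_lintegral_ofReal mU (ae_of_all _ hU),
      ← ofReal_integral_eq_lintegral_ofReal mV (ae_of_all _ hV),
      ← ofReal_integral_eq_lintegral_ofReal mH (ae_of_all _ hH)] at key
    have i1 : 0 ≤ ∫ x, U x := integral_nonneg hU
    have i2 : 0 ≤ ∫ x, V x := integral_nonneg hV
    have i3 : 0 ≤ ∫ x, H x := integral_nonneg hH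
    rw [ENNReal.ofReal_rpow_of_nonneg i1 (by norm_num),
      ENNReal.ofReal_rpow_of_nonneg i2 (by norm_num), ← ENNReal.ofReal_mul (by positivity),
      ENNReal.ofReal_le_ofReal_iff i3] at key
    have e : (1 - 1 / 2 : ℝ) = 1 / 2 := by norm_num
    rw [e, ← Real.sqrt_eq_rpow, ← Real.sqrt_eq_rpow, ← Real.sqrt_mul i1] at key
    have h5 := Real.sqrt_le_left i3 |>.1 key
    exact h5
  · intro x y
    have hx := hU x
    have hy := hV y
    rw [ENNReal.ofReal_rpow_of_nonneg hx (by norm_num),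
      ENNReal.ofReal_rpow_of_nonneg hy (by norm_num), ← ENNReal.ofReal_mul (by positivity)]
    refine ENNReal.ofReal_le_ofReal ?_
    have e : (1 - 1 / 2 : ℝ) = 1 / 2 := by norm_num
    rw [e, ← Real.sqrt_eq_rpow, ← Real.sqrt_eq_rpow, ← smul_add]
    exact h x y

/-- strong log-concavity (midpoint form) -/
def SLC (lam : ℝ) (W : E → ℝ) : Prop :=
  ∀ x y, √(W x) * √(W y) ≤ Real.exp (-(lam / 8 * ‖x - y‖ ^ 2)) * W ((1 / 2 : ℝ) • (x + y))

variable {lam : ℝ} {W : E → ℝ}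

set_option maxHeartbeats 2000000 in
/-- **Poincaré inequality at scale `r`** -/
theorem poinc_step (hl : 0 < lam) (hW0 : ∀ x, 0 ≤ W x) (mW : Measurable W) (iW : Integrable W)
    (hW : SLC lam W) {f g : E → ℝ} (mf : Measurable f) (mg : Measurable g) {M L r : ℝ}
    (hM : ∀ x, W x ≠ 0 → |f x| ≤ M) (hg0 : ∀ x, 0 ≤ g x) (hgL : ∀ x, g x ≤ L) (hr : 0 < r)
    (h1 : ∀ z w, ‖w‖ ≤ r → f (z + w) - f z ≤ g z * ‖w‖)
    (h2 : ∀ z w, f (z + w) - f z ≤ L * ‖w‖) :
    (∫ x, W x) * (∫ x, f x ^ 2 * W x) - (∫ x, f x * W x) ^ 2 ≤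
      lam⁻¹ * (∫ x, W x) * ∫ x, g x ^ 2 * W x := by
  -- we may enlarge `M` and `L`
  obtain ⟨M', hM'1, hM'⟩ : ∃ M', 1 ≤ M' ∧ ∀ x, W x ≠ 0 → |f x| ≤ M' :=
    ⟨max M 1, le_max_right _ _, fun x hx => (hM x hx).trans (le_max_left _ _)⟩
  obtain ⟨L', hL'1, hL'L⟩ : ∃ L', 1 ≤ L' ∧ L ≤ L' := ⟨max L 1, le_max_right _ _, le_max_left _ _⟩
  have hgL' : ∀ x, g x ≤ L' := fun x => (hgL x).trans hL'L
  have h2' : ∀ z w, f (z + w) - f z ≤ L' * ‖w‖ := fun z w =>
    (h2 z w).trans (mul_le_mul_of_nonneg_right hL'L (norm_nonneg _))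
  clear hM hgL h2
  -- integrability helper
  have hint : ∀ φ : E → ℝ, Measurable φ → ∀ C : ℝ, (∀ x, W x ≠ 0 → |φ x| ≤ C) →
      Integrable (fun x => φ x * W x) := by
    intro φ mφ C hC
    refine (iW.const_mul C).mono' (mφ.mul mW).aestronglyMeasurable (ae_of_all _ fun x => ?_)
    by_cases hx : W x = 0
    · simp [hx]
    · rw [Real.norm_eq_abs, abs_mul, abs_of_nonneg (hW0 x)]
      exact mul_le_mul_of_nonneg_right (hC x hx) (hW0 x)
  set Z := ∫ x, W x with hZ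
  set A := ∫ x, f x * W x with hA
  set B := ∫ x, f x ^ 2 * W x with hB
  set D := ∫ x, g x ^ 2 * W x with hD
  set c₀ : ℝ := 1 / (8 * lam) with hc₀
  have hc₀0 : 0 < c₀ := by positivity
  -- the bound on the exponent
  set Q : ℝ := M' + L' ^ 2 * c₀ + 1 with hQ
  have hQ1 : 1 ≤ Q := by
    have : 0 ≤ L' ^ 2 * c₀ := by positivity
    rw [hQ]; linarith
  have hQ0 : 0 < Q := by linarith
  set e₀ : ℝ := min (1 / Q) (min 1 (r * lam / L')) with he₀
  have he₀0 : 0 < e₀ := by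
    rw [he₀]
    refine lt_min (by positivity) (lt_min one_pos ?_)
    have : 0 < L' := by linarith
    positivity
  have hZ0 : 0 ≤ Z := integral_nonneg hW0
  have hmain := second_order (Z := Z) (A := A) (B := B) (D := D)
    (K := (Q ^ 3 + Q ^ 2 + L' ^ 2 * c₀ * Q) * (Z + 1)) (c := c₀) he₀0 ?_
  · have e1 : 8 * c₀ * Z * D = lam⁻¹ * Z * D := by
      rw [hc₀]
      field_simp
    rw [e1] at hmain
    exact hmain
  intro e he he'
  have heQ : e * Q ≤ 1 := by
    have h3 : e ≤ 1 / Q := he'.trans (min_le_left _ _)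
    rwa [le_div_iff₀ hQ0] at h3
  have he1 : e ≤ 1 := he'.trans ((min_le_right _ _).trans (min_le_left _ _))
  have her : e * L' ≤ r * lam := by
    have h3 : e ≤ r * lam / L' := he'.trans ((min_le_right _ _).trans (min_le_right _ _))
    rwa [le_div_iff₀ (by linarith)] at h3
  set s : E → ℝ := fun x => e * f x / 2 + e ^ 2 * (c₀ * g x ^ 2) with hs
  have ms : Measurable s := by
    rw [hs]
    fun_prop
  have hs_abs : ∀ x, W x ≠ 0 → |s x| ≤ e * Q := by
    intro x hx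
    have h3 : |e * f x / 2| ≤ e * M' := by
      rw [abs_div, abs_mul, abs_of_pos he, abs_of_pos (by norm_num : (0 : ℝ) < 2)]
      have := hM' x hx
      have h4 : e * |f x| ≤ e * M' := mul_le_mul_of_nonneg_left this he.le
      have h5 : 0 ≤ e * |f x| := by positivity
      linarith
    have h4 : |e ^ 2 * (c₀ * g x ^ 2)| ≤ e * (L' ^ 2 * c₀) := by
      rw [abs_of_nonneg (by positivity)]
      have h5 : g x ^ 2 ≤ L' ^ 2 := pow_le_pow_left₀ (hg0 x) (hgL' x) 2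
      have h6 : e ^ 2 ≤ e := by nlinarith
      calc e ^ 2 * (c₀ * g x ^ 2) ≤ e * (c₀ * L' ^ 2) := by
            apply mul_le_mul h6 (mul_le_mul_of_nonneg_left h5 hc₀0.le) (by positivity) he.le
        _ = e * (L' ^ 2 * c₀) := by ring
    calc |s x| ≤ |e * f x / 2| + |e ^ 2 * (c₀ * g x ^ 2)| := abs_add_le _ _
      _ ≤ e * M' + e * (L' ^ 2 * c₀) := add_le_add h3 h4
      _ ≤ e * Q := by
          have h7 : e * Q = e * M' + e * (L' ^ 2 * c₀) + e := by rw [hQ]; ring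
          linarith
  have hs1 : ∀ x, W x ≠ 0 → |s x| ≤ 1 := fun x hx => (hs_abs x hx).trans heQ
  have hf1 : ∀ x, W x ≠ 0 → |e * f x| ≤ e * Q := by
    intro x hx
    rw [abs_mul, abs_of_pos he]
    refine mul_le_mul_of_nonneg_left ((hM' x hx).trans ?_) he.le
    have : 0 ≤ L' ^ 2 * c₀ := by positivity
    rw [hQ]; linarith
  -- Prékopa–Leindler
  have hexpf : ∀ x, W x ≠ 0 → |Real.exp (e * f x)| ≤ Real.exp 1 := by
    intro x hx
    rw [abs_of_pos (Real.exp_pos _)]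
    exact Real.exp_le_exp.2 ((le_abs_self _).trans ((hf1 x hx).trans heQ))
  have hexps : ∀ x, W x ≠ 0 → |Real.exp (s x)| ≤ Real.exp 1 := by
    intro x hx
    rw [abs_of_pos (Real.exp_pos _)]
    exact Real.exp_le_exp.2 ((le_abs_self _).trans (hs1 x hx))
  have iU := hint (fun x => Real.exp (e * f x)) (by fun_prop) _ hexpf
  have iH := hint (fun x => Real.exp (s x)) (by fun_prop) _ hexps
  have hPL := pl_mid (U := fun x => Real.exp (e * f x) * W x) (V := W)
    (H := fun x => Real.exp (s x) * W x)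
    (fun x => mul_nonneg (Real.exp_pos _).le (hW0 x)) hW0
    (fun x => mul_nonneg (Real.exp_pos _).le (hW0 x)) iU iW iH (by fun_prop) mW
    (by fun_prop) ?_
  swap
  · intro x y
    set z := (1 / 2 : ℝ) • (x + y) with hz
    set w := (1 / 2 : ℝ) • (x - y) with hw
    have hxzw : x = z + w := by rw [hz, hw]; module
    have hxy : ‖x - y‖ ^ 2 = 4 * ‖w‖ ^ 2 := by
      rw [hw, norm_smul, Real.norm_of_nonneg (by norm_num)]
      ring
    have h3 := hW x y
    rw [← hz, hxy] at h3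
    have h4 : e / 2 * (f x - f z) ≤ e ^ 2 * (c₀ * g z ^ 2) + lam / 2 * ‖w‖ ^ 2 := by
      have hpos : 0 ≤ e ^ 2 * (c₀ * g z ^ 2) := by positivity
      rcases le_total ‖w‖ r with hwr | hwr
      · have h5 := h1 z w hwr
        rw [← hxzw] at h5
        have h6 : e / 2 * (g z * ‖w‖) ≤ e ^ 2 * (c₀ * g z ^ 2) + lam / 2 * ‖w‖ ^ 2 := by
          have h7 : e ^ 2 * (c₀ * g z ^ 2) + lam / 2 * ‖w‖ ^ 2 - e / 2 * (g z * ‖w‖) =
              (lam / 2) * (‖w‖ - e * g z / (2 * lam)) ^ 2 := by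
            rw [hc₀]
            field_simp
            ring
          have h8 : 0 ≤ (lam / 2) * (‖w‖ - e * g z / (2 * lam)) ^ 2 := by positivity
          linarith
        have h9 : e / 2 * (f x - f z) ≤ e / 2 * (g z * ‖w‖) :=
          mul_le_mul_of_nonneg_left h5 (by positivity)
        exact h9.trans h6
      · have h5 := h2' z w
        rw [← hxzw] at h5
        have h6 : e / 2 * (f x - f z) ≤ e / 2 * (L' * ‖w‖) :=
          mul_le_mul_of_nonneg_left h5 (by positivity)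
        have h7 : e / 2 * (L' * ‖w‖) ≤ lam / 2 * ‖w‖ ^ 2 := by
          have h8 : e * L' ≤ lam * ‖w‖ := by
            refine her.trans ?_
            rw [mul_comm r]
            exact mul_le_mul_of_nonneg_left hwr hl.le
          have h9 := mul_le_mul_of_nonneg_right h8 (norm_nonneg w)
          calc e / 2 * (L' * ‖w‖) = (e * L' * ‖w‖) / 2 := by ring
            _ ≤ (lam * ‖w‖ * ‖w‖) / 2 := by linarith
            _ = lam / 2 * ‖w‖ ^ 2 := by ring
        linarith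
    have e1 : √(Real.exp (e * f x) * W x) = Real.exp (e * f x / 2) * √(W x) := by
      rw [Real.sqrt_mul (Real.exp_pos _).le, ← Real.exp_half]
    rw [e1]
    calc Real.exp (e * f x / 2) * √(W x) * √(W y)
        = Real.exp (e * f x / 2) * (√(W x) * √(W y)) := by ring
      _ ≤ Real.exp (e * f x / 2) * (Real.exp (-(lam / 8 * (4 * ‖w‖ ^ 2))) * W z) :=
          mul_le_mul_of_nonneg_left h3 (Real.exp_pos _).le
      _ = Real.exp (e * f x / 2 + -(lam / 8 * (4 * ‖w‖ ^ 2))) * W z := by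
          rw [Real.exp_add]; ring
      _ ≤ Real.exp (s z) * W z := by
          refine mul_le_mul_of_nonneg_right (Real.exp_le_exp.2 ?_) (hW0 z)
          show _ ≤ e * f z / 2 + e ^ 2 * (c₀ * g z ^ 2)
          linarith
  -- Taylor expansions
  have iA := hint f mf M' hM'
  have iB := hint (fun x => f x ^ 2) (by fun_prop) (M' ^ 2) (fun x hx => by
    rw [abs_pow]; exact pow_le_pow_left₀ (abs_nonneg _) (hM' x hx) 2)
  have iD := hint (fun x => g x ^ 2) (by fun_prop) (L' ^ 2) (fun x hx => by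
    rw [abs_pow, abs_of_nonneg (hg0 x)]; exact pow_le_pow_left₀ (hg0 x) (hgL' x) 2)
  have hlow : Z + e * A + e ^ 2 * B / 2 - (e * Q) ^ 3 * Z ≤
      ∫ x, Real.exp (e * f x) * W x := by
    obtain ⟨i1, e2⟩ := int_comb iW iA iB iW 1 e (e ^ 2 / 2) (-(e * Q) ^ 3)
    have e3 : Z + e * A + e ^ 2 * B / 2 - (e * Q) ^ 3 * Z =
        1 * Z + e * A + e ^ 2 / 2 * B + -(e * Q) ^ 3 * Z := by ring
    rw [e3, ← e2]
    refine integral_mono i1 iU fun x => ?_
    by_cases hx : W x = 0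
    · simp [hx]
    · have h3 := abs_exp_sub_two ((hf1 x hx).trans heQ)
      have h4 : |e * f x| ^ 3 ≤ (e * Q) ^ 3 := pow_le_pow_left₀ (abs_nonneg _) (hf1 x hx) 3
      have h5 := (abs_le.1 h3).1
      have h6 : 1 + e * f x + (e * f x) ^ 2 / 2 - (e * Q) ^ 3 ≤ Real.exp (e * f x) := by linarith
      have h7 := mul_le_mul_of_nonneg_right h6 (hW0 x)
      beta_reduce
      calc _ = (1 + e * f x + (e * f x) ^ 2 / 2 - (e * Q) ^ 3) * W x := by ring
        _ ≤ _ := h7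
  have hupp : ∫ x, Real.exp (s x) * W x ≤
      Z + e * A / 2 + e ^ 2 * (c₀ * D + B / 8) +
        ((e * Q) ^ 3 + e ^ 3 * (Q ^ 2 + L' ^ 2 * c₀ * Q)) * Z := by
    obtain ⟨i1, e2⟩ := int_comb iW iA iD iB
      (1 + ((e * Q) ^ 3 + e ^ 3 * (Q ^ 2 + L' ^ 2 * c₀ * Q))) (e / 2) (e ^ 2 * c₀) (e ^ 2 / 8)
    have e3 : Z + e * A / 2 + e ^ 2 * (c₀ * D + B / 8) +
        ((e * Q) ^ 3 + e ^ 3 * (Q ^ 2 + L' ^ 2 * c₀ * Q)) * Z =
        (1 + ((e * Q) ^ 3 + e ^ 3 * (Q ^ 2 + L' ^ 2 * c₀ * Q))) * Z + e / 2 * A +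
          (e ^ 2 * c₀) * D + e ^ 2 / 8 * B := by ring
    rw [e3, ← e2]
    refine integral_mono iH i1 fun x => ?_
    by_cases hx : W x = 0
    · simp [hx]
    · have h3 := abs_exp_sub_two (hs1 x hx)
      have h4 : |s x| ^ 3 ≤ (e * Q) ^ 3 := pow_le_pow_left₀ (abs_nonneg _) (hs_abs x hx) 3
      have h5 := (abs_le.1 h3).2
      have hsq : s x ^ 2 / 2 ≤ e ^ 2 * f x ^ 2 / 8 + e ^ 3 * (Q ^ 2 + L' ^ 2 * c₀ * Q) := by
        have hg2 : g x ^ 2 ≤ L' ^ 2 := pow_le_pow_left₀ (hg0 x) (hgL' x) 2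
        have hk0 : 0 ≤ c₀ * g x ^ 2 := by positivity
        have hk1 : c₀ * g x ^ 2 ≤ L' ^ 2 * c₀ := by
          rw [mul_comm (L' ^ 2)]
          exact mul_le_mul_of_nonneg_left hg2 hc₀0.le
        have hkQ : c₀ * g x ^ 2 ≤ Q := by rw [hQ]; linarith
        have hfQ : |f x| ≤ Q := by
          refine (hM' x hx).trans ?_
          have : 0 ≤ L' ^ 2 * c₀ := by positivity
          rw [hQ]; linarith
        have h6 : s x ^ 2 / 2 = e ^ 2 * f x ^ 2 / 8 + e ^ 3 * (f x * (c₀ * g x ^ 2)) / 2 +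
            e ^ 4 * (c₀ * g x ^ 2) ^ 2 / 2 := by
          show (e * f x / 2 + e ^ 2 * (c₀ * g x ^ 2)) ^ 2 / 2 = _
          ring
        have h7 : f x * (c₀ * g x ^ 2) ≤ Q * (L' ^ 2 * c₀) :=
          (mul_le_mul_of_nonneg_right ((le_abs_self _).trans hfQ) hk0).trans
            (mul_le_mul_of_nonneg_left hk1 hQ0.le)
        have h8 : (c₀ * g x ^ 2) ^ 2 ≤ Q ^ 2 := pow_le_pow_left₀ hk0 hkQ 2
        have he3 : 0 < e ^ 3 := by positivity
        have he4 : e ^ 4 ≤ e ^ 3 := pow_le_pow_of_le_one he.le he1 (by norm_num)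
        have h9 : e ^ 3 * (f x * (c₀ * g x ^ 2)) ≤ e ^ 3 * (Q * (L' ^ 2 * c₀)) :=
          mul_le_mul_of_nonneg_left h7 he3.le
        have h10 : e ^ 4 * (c₀ * g x ^ 2) ^ 2 ≤ e ^ 3 * Q ^ 2 :=
          mul_le_mul he4 h8 (by positivity) he3.le
        have h11 : 0 ≤ e ^ 3 * (Q * (L' ^ 2 * c₀)) := by positivity
        have h12 : 0 ≤ e ^ 3 * Q ^ 2 := by positivity
        rw [h6]
        have h13 : e ^ 3 * (Q ^ 2 + L' ^ 2 * c₀ * Q) =
            e ^ 3 * Q ^ 2 + e ^ 3 * (Q * (L' ^ 2 * c₀)) := by ring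
        linarith
      have h6 : Real.exp (s x) ≤ 1 + s x + e ^ 2 * f x ^ 2 / 8 +
          ((e * Q) ^ 3 + e ^ 3 * (Q ^ 2 + L' ^ 2 * c₀ * Q)) := by linarith
      have h7 := mul_le_mul_of_nonneg_right h6 (hW0 x)
      beta_reduce
      calc Real.exp (s x) * W x ≤ _ := h7
        _ = _ := by
          show (1 + (e * f x / 2 + e ^ 2 * (c₀ * g x ^ 2)) + e ^ 2 * f x ^ 2 / 8 +
            ((e * Q) ^ 3 + e ^ 3 * (Q ^ 2 + L' ^ 2 * c₀ * Q))) * W x = _
          ring
  have hK1 : (e * Q) ^ 3 * Z ≤ (Q ^ 3 + Q ^ 2 + L' ^ 2 * c₀ * Q) * (Z + 1) * e ^ 3 := by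
    have h3 : 0 ≤ Q ^ 3 * e ^ 3 := by positivity
    have h4 : 0 ≤ (Q ^ 2 + L' ^ 2 * c₀ * Q) * (Z + 1) * e ^ 3 := by positivity
    have h5 : (Q ^ 3 + Q ^ 2 + L' ^ 2 * c₀ * Q) * (Z + 1) * e ^ 3 = (e * Q) ^ 3 * Z +
        Q ^ 3 * e ^ 3 + (Q ^ 2 + L' ^ 2 * c₀ * Q) * (Z + 1) * e ^ 3 := by ring
    linarith
  have hK2 : ((e * Q) ^ 3 + e ^ 3 * (Q ^ 2 + L' ^ 2 * c₀ * Q)) * Z ≤
      (Q ^ 3 + Q ^ 2 + L' ^ 2 * c₀ * Q) * (Z + 1) * e ^ 3 := by
    have h4 : 0 ≤ (Q ^ 3 + Q ^ 2 + L' ^ 2 * c₀ * Q) * e ^ 3 := by positivity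
    have h5 : (Q ^ 3 + Q ^ 2 + L' ^ 2 * c₀ * Q) * (Z + 1) * e ^ 3 =
        ((e * Q) ^ 3 + e ^ 3 * (Q ^ 2 + L' ^ 2 * c₀ * Q)) * Z +
          (Q ^ 3 + Q ^ 2 + L' ^ 2 * c₀ * Q) * e ^ 3 := by ring
    linarith
  have hupp2 : ∫ x, Real.exp (s x) * W x ≤ Z + e * A / 2 + e ^ 2 * (c₀ * D + B / 8) +
      (Q ^ 3 + Q ^ 2 + L' ^ 2 * c₀ * Q) * (Z + 1) * e ^ 3 := by linarith
  have hlow2 : Z + e * A + e ^ 2 * B / 2 - (Q ^ 3 + Q ^ 2 + L' ^ 2 * c₀ * Q) * (Z + 1) * e ^ 3 ≤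
      ∫ x, Real.exp (e * f x) * W x := by linarith
  have hH0 : 0 ≤ ∫ x, Real.exp (s x) * W x :=
    integral_nonneg fun x => mul_nonneg (Real.exp_pos _).le (hW0 x)
  calc Z * (Z + e * A + e ^ 2 * B / 2 - (Q ^ 3 + Q ^ 2 + L' ^ 2 * c₀ * Q) * (Z + 1) * e ^ 3)
      ≤ Z * ∫ x, Real.exp (e * f x) * W x := mul_le_mul_of_nonneg_left hlow2 hZ0
    _ = (∫ x, Real.exp (e * f x) * W x) * Z := mul_comm _ _
    _ ≤ (∫ x, Real.exp (s x) * W x) ^ 2 := hPL
    _ ≤ _ := pow_le_pow_left₀ hH0 hupp2 2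

end main

end

end Crest.Agent.R144.Fi865
end

-- ▼ part R144/Fi2_865

/-!
# R144, static functional inequalities (helper865), file 2: Poincaré and Payne–Weinberger

* `poincare_lip` : `lam Var(f) ≤ E|Df|²` for a strongly log-concave weight, `f` Lipschitz;
* `pw_weight`, `pw_convex` : Payne–Weinberger with constant `2 d²` for a log-concave weight carried by
  a ball of radius `d`, and for the uniform law of a bounded convex set.
-/

set_option autoImplicit false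
set_option linter.unusedSectionVars false

open MeasureTheory Set Filter Topology
open scoped ENNReal NNReal RealInnerProductSpace

namespace Crest.Agent.R144.Fi865

noncomputable section

/-! ### truncation -/

/-- truncation at height `M` -/
def trc (M t : ℝ) : ℝ := max (-M) (min M t)

theorem trc_lip (M : ℝ) : LipschitzWith 1 (trc M) := by
  have h := (LipschitzWith.id (α := ℝ)).const_min M
  exact h.const_max (-M)

theorem trc_sub_le (M a b : ℝ) : |trc M a - trc M b| ≤ |a - b| := by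
  have h := (trc_lip M).dist_le_mul a b
  rwa [NNReal.coe_one, one_mul, Real.dist_eq, Real.dist_eq] at h

theorem abs_trc_le {M : ℝ} (hM : 0 ≤ M) (t : ℝ) : |trc M t| ≤ M := by
  rw [abs_le]
  unfold trc
  refine ⟨le_max_left _ _, max_le (by linarith) (min_le_left _ _)⟩

theorem trc_zero {M : ℝ} (hM : 0 ≤ M) : trc M 0 = 0 := by
  unfold trc
  rw [min_eq_right hM, max_eq_right (by linarith)]

theorem abs_trc_le_abs {M : ℝ} (hM : 0 ≤ M) (t : ℝ) : |trc M t| ≤ |t| := by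
  have h := trc_sub_le M t 0
  rwa [trc_zero hM, sub_zero, sub_zero] at h

theorem trc_eq {M t : ℝ} (h : |t| ≤ M) : trc M t = t := by
  unfold trc
  rw [abs_le] at h
  rw [min_eq_right h.2, max_eq_right h.1]

theorem tendsto_trc (t : ℝ) : Tendsto (fun n : ℕ => trc n t) atTop (𝓝 t) := by
  refine tendsto_const_nhds.congr' ?_
  filter_upwards [eventually_ge_atTop ⌈|t|⌉₊] with n hn
  exact (trc_eq ((Nat.le_ceil _).trans (Nat.cast_le.2 hn))).symm

section main

variable {E : Type*} [NormedAddCommGroup E] [InnerProductSpace ℝ E] [FiniteDimensional ℝ E]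
  [MeasurableSpace E] [BorelSpace E] {lam : ℝ} {W : E → ℝ}

/-- integrability of `f W` from `f² W` and `W` -/
theorem integrable_mul_of_sq (hW0 : ∀ x, 0 ≤ W x) (mW : Measurable W) (iW : Integrable W)
    {f : E → ℝ} (mf : Measurable f) (if2 : Integrable fun x => f x ^ 2 * W x) :
    Integrable fun x => f x * W x := by
  refine (iW.add if2).mono' (mf.mul mW).aestronglyMeasurable (ae_of_all _ fun x => ?_)
  rw [Real.norm_eq_abs, abs_mul, abs_of_nonneg (hW0 x), Pi.add_apply]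
  have h1 : |f x| ≤ 1 + f x ^ 2 := by
    rw [← sq_abs (f x)]
    nlinarith [abs_nonneg (f x), sq_nonneg (|f x| - 1)]
  calc |f x| * W x ≤ (1 + f x ^ 2) * W x := mul_le_mul_of_nonneg_right h1 (hW0 x)
    _ = W x + f x ^ 2 * W x := by ring

/-- Poincaré at scale `r`, without boundedness of `f` -/
theorem poinc_step' (hl : 0 < lam) (hW0 : ∀ x, 0 ≤ W x) (mW : Measurable W) (iW : Integrable W)
    (hW : SLC lam W) {f g : E → ℝ} (mf : Measurable f) (mg : Measurable g) {L r : ℝ}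
    (if2 : Integrable fun x => f x ^ 2 * W x) (hg0 : ∀ x, 0 ≤ g x) (hgL : ∀ x, g x ≤ L)
    (hr : 0 < r) (h1 : ∀ z w, ‖w‖ ≤ r → |f (z + w) - f z| ≤ g z * ‖w‖)
    (h2 : ∀ z w, |f (z + w) - f z| ≤ L * ‖w‖) :
    (∫ x, W x) * (∫ x, f x ^ 2 * W x) - (∫ x, f x * W x) ^ 2 ≤
      lam⁻¹ * (∫ x, W x) * ∫ x, g x ^ 2 * W x := by
  have hstep : ∀ n : ℕ, (∫ x, W x) * (∫ x, trc n (f x) ^ 2 * W x) -
      (∫ x, trc n (f x) * W x) ^ 2 ≤ lam⁻¹ * (∫ x, W x) * ∫ x, g x ^ 2 * W x := by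
    intro n
    refine poinc_step hl hW0 mW iW hW (f := fun x => trc n (f x))
      ((trc_lip n).continuous.measurable.comp mf) mg
      (fun x _ => abs_trc_le (Nat.cast_nonneg n) (f x)) hg0 hgL hr (fun z w hw => ?_)
      fun z w => ?_
    · exact (le_abs_self _).trans ((trc_sub_le _ _ _).trans (h1 z w hw))
    · exact (le_abs_self _).trans ((trc_sub_le _ _ _).trans (h2 z w))
  have if1 := integrable_mul_of_sq hW0 mW iW mf if2
  have t1 : Tendsto (fun n : ℕ => ∫ x, trc n (f x) ^ 2 * W x) atTop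
      (𝓝 (∫ x, f x ^ 2 * W x)) := by
    refine tendsto_integral_of_dominated_convergence (fun x => f x ^ 2 * W x) (fun n => ?_) if2
      (fun n => ae_of_all _ fun x => ?_) (ae_of_all _ fun x => ?_)
    · exact ((((trc_lip n).continuous.measurable.comp mf).pow_const 2).mul mW).aestronglyMeasurable
    · rw [Real.norm_eq_abs, abs_mul, abs_of_nonneg (hW0 x), abs_pow]
      refine mul_le_mul_of_nonneg_right ?_ (hW0 x)
      rw [← sq_abs (f x)]
      exact pow_le_pow_left₀ (abs_nonneg _) (abs_trc_le_abs (Nat.cast_nonneg n) _) 2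
    · exact ((tendsto_trc (f x)).pow 2).mul_const _
  have t2 : Tendsto (fun n : ℕ => ∫ x, trc n (f x) * W x) atTop (𝓝 (∫ x, f x * W x)) := by
    refine tendsto_integral_of_dominated_convergence (fun x => |f x * W x|) (fun n => ?_)
      if1.abs (fun n => ae_of_all _ fun x => ?_) (ae_of_all _ fun x => ?_)
    · exact (((trc_lip n).continuous.measurable.comp mf).mul mW).aestronglyMeasurable
    · rw [Real.norm_eq_abs, abs_mul, abs_mul]
      exact mul_le_mul_of_nonneg_right (abs_trc_le_abs (Nat.cast_nonneg n) _) (abs_nonneg _)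
    · exact (tendsto_trc (f x)).mul_const _
  exact le_of_tendsto' ((t1.const_mul _).sub (t2.pow 2)) hstep

/-- local Lipschitz constant at scale `r` -/
def lipr (f : E → ℝ) (r : ℝ) (z : E) : ℝ :=
  max ‖fderiv ℝ f z‖ (⨆ w : {w : E // w ≠ 0 ∧ ‖w‖ ≤ r}, |f (z + w) - f z| / ‖(w : E)‖)

section lipr

variable {f : E → ℝ} {L : ℝ≥0} (hf : LipschitzWith L f)

include hf

theorem lip_le (z w : E) : |f (z + w) - f z| ≤ L * ‖w‖ := by
  have h := hf.dist_le_mul (z + w) z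
  rwa [Real.dist_eq, dist_eq_norm, add_sub_cancel_left] at h

theorem lipr_bdd (r : ℝ) (z : E) : BddAbove (range fun w : {w : E // w ≠ 0 ∧ ‖w‖ ≤ r} =>
    |f (z + w) - f z| / ‖(w : E)‖) := by
  refine ⟨L, ?_⟩
  rintro _ ⟨w, rfl⟩
  have : 0 < ‖(w : E)‖ := norm_pos_iff.2 w.2.1
  rw [div_le_iff₀ this]
  exact lip_le hf z w

theorem lipr_le (r : ℝ) (z : E) : lipr f r z ≤ L := by
  refine max_le (norm_fderiv_le_of_lipschitz ℝ hf) ?_
  refine Real.iSup_le (fun w => ?_) L.2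
  have : 0 < ‖(w : E)‖ := norm_pos_iff.2 w.2.1
  rw [div_le_iff₀ this]
  exact lip_le hf z w

omit hf in
theorem lipr_nonneg (r : ℝ) (z : E) : 0 ≤ lipr f r z :=
  (norm_nonneg _).trans (le_max_left _ _)

theorem lipr_spec {r : ℝ} (z w : E) (hw : ‖w‖ ≤ r) : |f (z + w) - f z| ≤ lipr f r z * ‖w‖ := by
  by_cases h0 : w = 0
  · simp [h0]
  · have : 0 < ‖w‖ := norm_pos_iff.2 h0
    rw [← div_le_iff₀ this]
    exact (le_ciSup (lipr_bdd hf r z) ⟨w, h0, hw⟩).trans (le_max_right _ _)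

theorem measurable_lipr (r : ℝ) : Measurable (lipr f r) := by
  refine (measurable_fderiv ℝ f).norm.max ?_
  by_cases hne : Nonempty {w : E // w ≠ 0 ∧ ‖w‖ ≤ r}
  · have : LowerSemicontinuous fun z => ⨆ w : {w : E // w ≠ 0 ∧ ‖w‖ ≤ r},
        |f (z + w) - f z| / ‖(w : E)‖ := by
      refine lowerSemicontinuous_ciSup (fun z => lipr_bdd hf r z) fun w => ?_
      have hc := hf.continuous
      exact Continuous.lowerSemicontinuous (by fun_prop)
    exact this.measurable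
  · have he : IsEmpty {w : E // w ≠ 0 ∧ ‖w‖ ≤ r} := not_nonempty_iff.1 hne
    simp only [Real.iSup_of_isEmpty]
    exact measurable_const

theorem tendsto_lipr {z : E} (hz : DifferentiableAt ℝ f z) :
    Tendsto (fun n : ℕ => lipr f (1 / ((n : ℝ) + 1)) z) atTop (𝓝 ‖fderiv ℝ f z‖) := by
  rw [Metric.tendsto_atTop]
  intro ε hε
  have h1 := hz.hasFDerivAt.isLittleO
  have h2 := h1.def (half_pos hε)
  rw [Metric.eventually_nhds_iff] at h2
  obtain ⟨δ, hδ, h2⟩ := h2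
  obtain ⟨N, hN⟩ := exists_nat_one_div_lt hδ
  refine ⟨N, fun n hn => ?_⟩
  have h3 : 1 / ((n : ℝ) + 1) < δ := by
    refine lt_of_le_of_lt ?_ hN
    apply one_div_le_one_div_of_le (by positivity)
    have : (N : ℝ) ≤ n := Nat.cast_le.2 hn
    linarith
  have h4 : lipr f (1 / ((n : ℝ) + 1)) z ≤ ‖fderiv ℝ f z‖ + ε / 2 := by
    refine max_le (by linarith) (Real.iSup_le (fun w => ?_) (by positivity))
    have hw : 0 < ‖(w : E)‖ := norm_pos_iff.2 w.2.1
    rw [div_le_iff₀ hw]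
    have h5 := h2 (y := z + w) (by
      rw [dist_eq_norm, add_sub_cancel_left]; exact w.2.2.trans_lt h3)
    rw [add_sub_cancel_left, Real.norm_eq_abs] at h5
    have h6 : |fderiv ℝ f z w| ≤ ‖fderiv ℝ f z‖ * ‖(w : E)‖ := (fderiv ℝ f z).le_opNorm _
    calc |f (z + w) - f z| = |(f (z + w) - f z - fderiv ℝ f z w) + fderiv ℝ f z w| := by
          rw [sub_add_cancel]
      _ ≤ |f (z + w) - f z - fderiv ℝ f z w| + |fderiv ℝ f z w| := abs_add_le _ _
      _ ≤ ε / 2 * ‖(w : E)‖ + ‖fderiv ℝ f z‖ * ‖(w : E)‖ := add_le_add h5 h6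
      _ = (‖fderiv ℝ f z‖ + ε / 2) * ‖(w : E)‖ := by ring
  have h5 : ‖fderiv ℝ f z‖ ≤ lipr f (1 / ((n : ℝ) + 1)) z := le_max_left _ _
  rw [Real.dist_eq, abs_lt]
  constructor <;> linarith

end lipr

/-- **Poincaré inequality** for strongly log-concave weights, Lipschitz functions -/
theorem poincare_lip (hl : 0 < lam) (hW0 : ∀ x, 0 ≤ W x) (mW : Measurable W) (iW : Integrable W)
    (hW : SLC lam W) {f : E → ℝ} {L : ℝ≥0} (hf : LipschitzWith L f)
    (if2 : Integrable fun x => f x ^ 2 * W x) :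
    (∫ x, W x) * (∫ x, f x ^ 2 * W x) - (∫ x, f x * W x) ^ 2 ≤
      lam⁻¹ * (∫ x, W x) * ∫ x, ‖fderiv ℝ f x‖ ^ 2 * W x := by
  have mf : Measurable f := hf.continuous.measurable
  have hstep : ∀ n : ℕ, (∫ x, W x) * (∫ x, f x ^ 2 * W x) - (∫ x, f x * W x) ^ 2 ≤
      lam⁻¹ * (∫ x, W x) * ∫ x, lipr f (1 / ((n : ℝ) + 1)) x ^ 2 * W x := fun n =>
    poinc_step' hl hW0 mW iW hW mf (measurable_lipr hf _) if2 (lipr_nonneg _)
      (lipr_le hf _) (by positivity) (lipr_spec hf) (lip_le hf)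
  have t1 : Tendsto (fun n : ℕ => ∫ x, lipr f (1 / ((n : ℝ) + 1)) x ^ 2 * W x) atTop
      (𝓝 (∫ x, ‖fderiv ℝ f x‖ ^ 2 * W x)) := by
    refine tendsto_integral_of_dominated_convergence (fun x => (L : ℝ) ^ 2 * W x) (fun n => ?_)
      (iW.const_mul _) (fun n => ae_of_all _ fun x => ?_) ?_
    · exact (((measurable_lipr hf _).pow_const 2).mul mW).aestronglyMeasurable
    · rw [Real.norm_eq_abs, abs_mul, abs_of_nonneg (hW0 x), abs_pow,
        abs_of_nonneg (lipr_nonneg _ _)]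
      exact mul_le_mul_of_nonneg_right
        (pow_le_pow_left₀ (lipr_nonneg _ _) (lipr_le hf _ _) 2) (hW0 x)
    · filter_upwards [hf.ae_differentiableAt] with x hx
      exact ((tendsto_lipr hf hx).pow 2).mul_const _
  exact ge_of_tendsto' (t1.const_mul _) hstep

/-! ### perturbation: Payne–Weinberger -/

/-- variance as a minimum over constants -/
theorem var_le_const (hW0 : ∀ x, 0 ≤ W x) (mW : Measurable W) (iW : Integrable W) {f : E → ℝ}
    (mf : Measurable f) (if2 : Integrable fun x => f x ^ 2 * W x) (c : ℝ) :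
    (Integrable fun x => (f x - c) ^ 2 * W x) ∧
    (∫ x, W x) * (∫ x, (f x - c) ^ 2 * W x) =
      ((∫ x, W x) * (∫ x, f x ^ 2 * W x) - (∫ x, f x * W x) ^ 2) +
        ((∫ x, f x * W x) - c * ∫ x, W x) ^ 2 := by
  have if1 := integrable_mul_of_sq hW0 mW iW mf if2
  obtain ⟨i1, e1⟩ := int_comb if2 if1 iW iW 1 (-2 * c) (c ^ 2) 0
  have e2 : (fun x => (f x - c) ^ 2 * W x) =
      fun x => 1 * (f x ^ 2 * W x) + -2 * c * (f x * W x) + c ^ 2 * W x + 0 * W x := by
    funext x; ring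
  rw [e2]
  refine ⟨i1, ?_⟩
  rw [e1]
  ring

/-- the Gaussian factor is strongly log-concave -/
theorem slc_gauss {a : ℝ} (x₀ : E) {W : E → ℝ} (hW0 : ∀ x, 0 ≤ W x) (h : SLC 0 W) :
    SLC a fun x => W x * Real.exp (-(a / 2 * ‖x - x₀‖ ^ 2)) := by
  intro x y
  have h1 := h x y
  rw [zero_div, zero_mul, neg_zero, Real.exp_zero, one_mul] at h1
  set m := (1 / 2 : ℝ) • (x + y) with hm
  have e1 : ‖x - x₀‖ ^ 2 + ‖y - x₀‖ ^ 2 = 2 * ‖m - x₀‖ ^ 2 + ‖x - y‖ ^ 2 / 2 := by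
    have h2 := parallelogram_law_with_norm ℝ (x - x₀) (y - x₀)
    have h3 : x - x₀ + (y - x₀) = (2 : ℝ) • (m - x₀) := by rw [hm]; module
    have h4 : x - x₀ - (y - x₀) = x - y := by abel
    rw [h3, h4, norm_smul, Real.norm_of_nonneg (by norm_num)] at h2
    nlinarith
  beta_reduce
  rw [Real.sqrt_mul (hW0 x), Real.sqrt_mul (hW0 y), ← Real.exp_half, ← Real.exp_half]
  calc √(W x) * Real.exp (-(a / 2 * ‖x - x₀‖ ^ 2) / 2) *
        (√(W y) * Real.exp (-(a / 2 * ‖y - x₀‖ ^ 2) / 2))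
      = (√(W x) * √(W y)) * (Real.exp (-(a / 2 * ‖x - x₀‖ ^ 2) / 2) *
        Real.exp (-(a / 2 * ‖y - x₀‖ ^ 2) / 2)) := by ring
    _ ≤ W m * (Real.exp (-(a / 2 * ‖x - x₀‖ ^ 2) / 2) *
        Real.exp (-(a / 2 * ‖y - x₀‖ ^ 2) / 2)) :=
      mul_le_mul_of_nonneg_right h1 (by positivity)
    _ = W m * (Real.exp (-(a / 8 * ‖x - y‖ ^ 2)) * Real.exp (-(a / 2 * ‖m - x₀‖ ^ 2))) := by
      rw [← Real.exp_add, ← Real.exp_add]
      congr 2
      linear_combination (-(a / 4)) * e1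
    _ = _ := by ring

/-- **Payne–Weinberger** (constant `2 d²`) for a log-concave weight carried by a ball of radius
`d` -/
theorem pw_weight {d : ℝ} (hd : 0 < d) (x₀ : E) (hW0 : ∀ x, 0 ≤ W x) (mW : Measurable W)
    (iW : Integrable W) (hW : SLC 0 W) (hsupp : ∀ x, W x ≠ 0 → ‖x - x₀‖ ≤ d) {f : E → ℝ}
    {L : ℝ≥0} (hf : LipschitzWith L f) :
    (∫ x, W x) * (∫ x, f x ^ 2 * W x) - (∫ x, f x * W x) ^ 2 ≤
      2 * d ^ 2 * (∫ x, W x) * ∫ x, ‖fderiv ℝ f x‖ ^ 2 * W x := by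
  have mf : Measurable f := hf.continuous.measurable
  set a : ℝ := (d ^ 2)⁻¹ with ha
  have ha0 : 0 < a := by positivity
  set V : E → ℝ := fun x => W x * Real.exp (-(a / 2 * ‖x - x₀‖ ^ 2)) with hV
  have hV0 : ∀ x, 0 ≤ V x := fun x => mul_nonneg (hW0 x) (Real.exp_pos _).le
  have mV : Measurable V := mW.mul (by fun_prop)
  have hVW : ∀ x, V x ≤ W x := by
    intro x
    show W x * Real.exp (-(a / 2 * ‖x - x₀‖ ^ 2)) ≤ W x
    have : Real.exp (-(a / 2 * ‖x - x₀‖ ^ 2)) ≤ 1 := by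
      rw [Real.exp_le_one_iff]
      have : 0 ≤ a / 2 * ‖x - x₀‖ ^ 2 := by positivity
      linarith
    nlinarith [hW0 x]
  have hWV : ∀ x, W x ≤ 2 * V x := by
    intro x
    by_cases hx : W x = 0
    · have : V x = 0 := by show W x * _ = 0; rw [hx, zero_mul]
      rw [hx, this, mul_zero]
    · have h1 : ‖x - x₀‖ ^ 2 ≤ d ^ 2 := pow_le_pow_left₀ (norm_nonneg _) (hsupp x hx) 2
      have h2 : a / 2 * ‖x - x₀‖ ^ 2 ≤ 1 / 2 := by
        calc a / 2 * ‖x - x₀‖ ^ 2 ≤ a / 2 * d ^ 2 := mul_le_mul_of_nonneg_left h1 (by positivity)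
          _ = 1 / 2 := by rw [ha]; field_simp
      have h3 : (1 / 2 : ℝ) ≤ Real.exp (-(a / 2 * ‖x - x₀‖ ^ 2)) := by
        have := Real.add_one_le_exp (-(a / 2 * ‖x - x₀‖ ^ 2))
        linarith
      show W x ≤ 2 * (W x * Real.exp (-(a / 2 * ‖x - x₀‖ ^ 2)))
      nlinarith [hW0 x]
  have iV : Integrable V := iW.mono' mV.aestronglyMeasurable (ae_of_all _ fun x => by
    rw [Real.norm_of_nonneg (hV0 x)]; exact hVW x)
  -- `f` is bounded on the support
  obtain ⟨M, hM⟩ : ∃ M : ℝ, ∀ x, W x ≠ 0 → |f x| ≤ M := by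
    refine ⟨|f x₀| + L * d, fun x hx => ?_⟩
    have h1 := hf.dist_le_mul x x₀
    rw [Real.dist_eq, dist_eq_norm] at h1
    have h2 : (L : ℝ) * ‖x - x₀‖ ≤ L * d := mul_le_mul_of_nonneg_left (hsupp x hx) L.2
    have h3 : |f x| ≤ |f x - f x₀| + |f x₀| := by
      calc |f x| = |f x - f x₀ + f x₀| := by rw [sub_add_cancel]
        _ ≤ _ := abs_add_le _ _
    linarith
  have bdd : ∀ U : E → ℝ, (∀ x, 0 ≤ U x) → Measurable U → Integrable U → (∀ x, U x ≤ W x) →
      Integrable fun x => f x ^ 2 * U x := by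
    intro U hU0 mU iU hUW
    refine (iU.const_mul (M ^ 2)).mono' ((mf.pow_const 2).mul mU).aestronglyMeasurable
      (ae_of_all _ fun x => ?_)
    rw [Real.norm_eq_abs, abs_mul, abs_of_nonneg (hU0 x), abs_pow]
    by_cases hx : W x = 0
    · have : U x = 0 := le_antisymm ((hUW x).trans hx.le) (hU0 x)
      rw [this, mul_zero, mul_zero]
    · exact mul_le_mul_of_nonneg_right (pow_le_pow_left₀ (abs_nonneg _) (hM x hx) 2) (hU0 x)
  have if2 := bdd W hW0 mW iW fun x => le_rfl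
  have jf2 := bdd V hV0 mV iV hVW
  have hP := poincare_lip ha0 hV0 mV iV (slc_gauss x₀ hW0 hW) hf jf2
  have hZV0 : 0 ≤ ∫ x, V x := integral_nonneg hV0
  have hZ0 : 0 ≤ ∫ x, W x := integral_nonneg hW0
  have iD : Integrable fun x => ‖fderiv ℝ f x‖ ^ 2 * W x := by
    refine (iW.const_mul ((L : ℝ) ^ 2)).mono'
      ((((measurable_fderiv ℝ f).norm).pow_const 2).mul mW).aestronglyMeasurable
      (ae_of_all _ fun x => ?_)
    rw [Real.norm_eq_abs, abs_mul, abs_of_nonneg (hW0 x), abs_pow, abs_norm]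
    exact mul_le_mul_of_nonneg_right
      (pow_le_pow_left₀ (norm_nonneg _) (norm_fderiv_le_of_lipschitz ℝ hf) 2) (hW0 x)
  have iDV : Integrable fun x => ‖fderiv ℝ f x‖ ^ 2 * V x := by
    refine iD.mono' ((((measurable_fderiv ℝ f).norm).pow_const 2).mul mV).aestronglyMeasurable
      (ae_of_all _ fun x => ?_)
    rw [Real.norm_eq_abs, abs_mul, abs_of_nonneg (hV0 x), abs_pow, abs_norm]
    exact mul_le_mul_of_nonneg_left (hVW x) (by positivity)
  have hDVW : ∫ x, ‖fderiv ℝ f x‖ ^ 2 * V x ≤ ∫ x, ‖fderiv ℝ f x‖ ^ 2 * W x :=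
    integral_mono iDV iD fun x => mul_le_mul_of_nonneg_left (hVW x) (by positivity)
  rcases hZV0.eq_or_lt with hz | hz
  · -- degenerate case
    have h1 : V =ᵐ[volume] 0 := (integral_eq_zero_iff_of_nonneg hV0 iV).1 hz.symm
    have h2 : W =ᵐ[volume] 0 := by
      filter_upwards [h1] with x hx
      have h3 : V x = 0 := hx
      show W x = 0
      exact le_antisymm ((hWV x).trans (by rw [h3, mul_zero])) (hW0 x)
    have h3 : ∀ φ : E → ℝ, ∫ x, φ x * W x = 0 := fun φ => by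
      rw [integral_congr_ae (g := fun _ => (0 : ℝ)) (h2.mono fun x hx => by
        have h3 : W x = 0 := hx
        show φ x * W x = 0
        rw [h3, mul_zero]), integral_zero]
    rw [h3, h3, h3]
    simp
  · set c : ℝ := (∫ x, f x * V x) / ∫ x, V x with hc
    obtain ⟨iW2, eW⟩ := var_le_const hW0 mW iW mf if2 c
    obtain ⟨iV2, eV⟩ := var_le_const hV0 mV iV mf jf2 c
    have h0 : (∫ x, f x * V x) - c * ∫ x, V x = 0 := by
      rw [hc, div_mul_cancel₀ _ hz.ne', sub_self]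
    rw [h0, zero_pow two_ne_zero, add_zero] at eV
    have h1 : ∫ x, (f x - c) ^ 2 * V x ≤ d ^ 2 * ∫ x, ‖fderiv ℝ f x‖ ^ 2 * V x := by
      rw [← eV] at hP
      have h2 : (∫ x, V x) * (∫ x, (f x - c) ^ 2 * V x) ≤
          (∫ x, V x) * (d ^ 2 * ∫ x, ‖fderiv ℝ f x‖ ^ 2 * V x) := by
        refine hP.trans (le_of_eq ?_)
        rw [ha, inv_inv]
        ring
      exact le_of_mul_le_mul_left h2 hz
    have h2 : ∫ x, (f x - c) ^ 2 * W x ≤ 2 * ∫ x, (f x - c) ^ 2 * V x := by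
      rw [← integral_const_mul]
      refine integral_mono iW2 (iV2.const_mul 2) fun x => ?_
      have := mul_le_mul_of_nonneg_left (hWV x) (sq_nonneg (f x - c))
      beta_reduce
      linarith
    have h3 : ∫ x, (f x - c) ^ 2 * W x ≤ 2 * (d ^ 2 * ∫ x, ‖fderiv ℝ f x‖ ^ 2 * W x) := by
      refine h2.trans (mul_le_mul_of_nonneg_left (h1.trans ?_) zero_le_two)
      exact mul_le_mul_of_nonneg_left hDVW (by positivity)
    have h4 := mul_le_mul_of_nonneg_left h3 hZ0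
    have h5 : 0 ≤ ((∫ x, f x * W x) - c * ∫ x, W x) ^ 2 := sq_nonneg _
    nlinarith

end main

end

end Crest.Agent.R144.Fi865
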