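import Crest.Agent.R144.Fib1_674
import Mathlib.Analysis.Calculus.Rademacher

-- ▼ part R144/Fib2_674
section

/-!
# R144 (S0197), helper674: disintegration over a block, file 2 (conditional expectation)

`W : (F → ℝ) → ℝ` a nonnegative weight (for the hammock: `W = (ham F E ξ).indicator w`).

* `Ebz F I W g z` : fibre average of `g`; `Eb F I W g y = Ebz F I W g (outr F I y)`;
* pointwise rules on a good fibre (`OkF F I W g z`): `Ebz_add`, `Ebz_sub`, `Ebz_const_mul`, `Ebz_pull`,
  `Ebz_const`, `Ebz_mono`, `abs_Ebz_le`, `Ebz_sq_le` (Jensen), `Ebz_cs` (Cauchy–Schwarz);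
* `ae_okF` : almost every fibre is good;
* `tower` : `∫ φ(outer) g W = ∫ φ(outer) (Eb g) W`; `integrable_Eb`, `Eb_sq_int`, `pyth`;
* `fibre_sum` : fibrewise inequalities integrate.
-/

set_option autoImplicit false

open MeasureTheory Set
open scoped ENNReal

noncomputable section

namespace Crest.Agent.R144.Fib674

open Crest.Agent.R144.Ham560

variable {U : Type*} [DecidableEq U] {F I : Finset U}

theorem int3 {α : Type*} [MeasurableSpace α] {μ : Measure α} {a b c : α → ℝ} (k : ℝ)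
    (ia : Integrable a μ) (ib : Integrable b μ) (ic : Integrable c μ) :
    Integrable (fun x => (a x - k * b x) + c x) μ ∧
      ∫ x, ((a x - k * b x) + c x) ∂μ = (∫ x, a x ∂μ) - k * (∫ x, b x ∂μ) + ∫ x, c x ∂μ := by
  have ib' : Integrable (fun x => k * b x) μ := ib.const_mul k
  have i1 : Integrable (fun x => a x - k * b x) μ := ia.sub ib'
  refine ⟨i1.add ic, ?_⟩
  rw [integral_add i1 ic, integral_sub ia ib', integral_const_mul]

/-- fibre average, as a function of the outer coordinates -/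
def Ebz (F I : Finset U) (W g : (↥F → ℝ) → ℝ) (z : ↥(F \ I) → ℝ) : ℝ :=
  (∫ x : ↥I → ℝ, g (glue F I z x) * W (glue F I z x)) / ∫ x : ↥I → ℝ, W (glue F I z x)

/-- conditional expectation given the coordinates outside the block -/
def Eb (F I : Finset U) (W g : (↥F → ℝ) → ℝ) (y : ↥F → ℝ) : ℝ := Ebz F I W g (outr F I y)

@[simp] theorem Eb_glue (W g : (↥F → ℝ) → ℝ) (z : ↥(F \ I) → ℝ) (x : ↥I → ℝ) :
    Eb F I W g (glue F I z x) = Ebz F I W g z := by simp [Eb]

/-- good fibre -/
structure OkF (F I : Finset U) (W g : (↥F → ℝ) → ℝ) (z : ↥(F \ I) → ℝ) : Prop where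
  gW : Integrable fun x : ↥I → ℝ => g (glue F I z x) * W (glue F I z x)
  W1 : Integrable fun x : ↥I → ℝ => W (glue F I z x)

/-! ### measurability -/

theorem measurable_Ebz {W g : (↥F → ℝ) → ℝ} (mW : Measurable W) (mg : Measurable g) :
    Measurable (Ebz F I W g) := by
  have h1 : StronglyMeasurable fun z : ↥(F \ I) → ℝ => ∫ x : ↥I → ℝ, g (glue F I z x) * W (glue F I z x) := by
    have : StronglyMeasurable (fun p : (↥(F \ I) → ℝ) × (↥I → ℝ) =>
        g (glue F I p.1 p.2) * W (glue F I p.1 p.2)) :=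
      ((mg.comp measurable_glue).mul (mW.comp measurable_glue)).stronglyMeasurable
    exact this.integral_prod_right
  have h2 : StronglyMeasurable fun z : ↥(F \ I) → ℝ => ∫ x : ↥I → ℝ, W (glue F I z x) := by
    have : StronglyMeasurable (fun p : (↥(F \ I) → ℝ) × (↥I → ℝ) => W (glue F I p.1 p.2)) :=
      (mW.comp measurable_glue).stronglyMeasurable
    exact this.integral_prod_right
  exact h1.measurable.div h2.measurable

theorem measurable_Eb {W g : (↥F → ℝ) → ℝ} (mW : Measurable W) (mg : Measurable g) :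
    Measurable (Eb F I W g) := (measurable_Ebz mW mg).comp measurable_outr

/-! ### pointwise rules -/

section point

variable {W g g' : (↥F → ℝ) → ℝ} {z : ↥(F \ I) → ℝ}

/-- zero mass: the weight vanishes almost everywhere on the fibre -/
theorem fibre_zero (hW0 : ∀ y, 0 ≤ W y) (iW : Integrable fun x : ↥I → ℝ => W (glue F I z x))
    (h : ∫ x : ↥I → ℝ, W (glue F I z x) = 0) (g : (↥F → ℝ) → ℝ) :
    ∫ x : ↥I → ℝ, g (glue F I z x) * W (glue F I z x) = 0 := by
  have h1 := (integral_eq_zero_iff_of_nonneg (fun x => hW0 _) iW).1 h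
  refine integral_eq_zero_of_ae ?_
  filter_upwards [h1] with x hx
  have hx' : W (glue F I z x) = 0 := hx
  show g (glue F I z x) * W (glue F I z x) = 0
  rw [hx', mul_zero]

/-- the fibre integral is the average times the mass -/
theorem fibre_int (hW0 : ∀ y, 0 ≤ W y) (iW : Integrable fun x : ↥I → ℝ => W (glue F I z x))
    (g : (↥F → ℝ) → ℝ) :
    ∫ x : ↥I → ℝ, g (glue F I z x) * W (glue F I z x) =
      Ebz F I W g z * ∫ x : ↥I → ℝ, W (glue F I z x) := by
  by_cases h : ∫ x : ↥I → ℝ, W (glue F I z x) = 0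
  · rw [h, mul_zero, fibre_zero hW0 iW h]
  · rw [Ebz, div_mul_cancel₀ _ h]







theorem Ebz_nonneg (hW0 : ∀ y, 0 ≤ W y) (hg : ∀ x, 0 ≤ g (glue F I z x)) :
    0 ≤ Ebz F I W g z :=
  div_nonneg (integral_nonneg fun x => mul_nonneg (hg x) (hW0 _)) (integral_nonneg fun _ => hW0 _)



/-- fibrewise variance identity -/
theorem fibre_var (hW0 : ∀ y, 0 ≤ W y) (h : OkF F I W g z) (h2 : OkF F I W (fun y => g y ^ 2) z)
    (c : ℝ) :
    Integrable (fun x : ↥I → ℝ => (g (glue F I z x) - c) ^ 2 * W (glue F I z x)) ∧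
    ∫ x : ↥I → ℝ, (g (glue F I z x) - c) ^ 2 * W (glue F I z x) =
      (Ebz F I W (fun y => g y ^ 2) z - 2 * c * Ebz F I W g z + c ^ 2) *
        ∫ x : ↥I → ℝ, W (glue F I z x) := by
  have e : (fun x : ↥I → ℝ => (g (glue F I z x) - c) ^ 2 * W (glue F I z x)) = fun x =>
      (g (glue F I z x) ^ 2 * W (glue F I z x) - 2 * c * (g (glue F I z x) * W (glue F I z x))) +
        c ^ 2 * W (glue F I z x) := by
    funext x; ring
  have i1 : Integrable fun x : ↥I → ℝ => g (glue F I z x) ^ 2 * W (glue F I z x) := h2.gW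
  have i3 : Integrable fun x : ↥I → ℝ => c ^ 2 * W (glue F I z x) := h.W1.const_mul (c ^ 2)
  obtain ⟨j1, j2⟩ := int3 (2 * c) i1 h.gW i3
  rw [e]
  refine ⟨j1, ?_⟩
  rw [j2, integral_const_mul, fibre_int hW0 h.W1 g]
  have := fibre_int hW0 h.W1 (fun y => g y ^ 2)
  beta_reduce at this
  rw [this]
  ring

/-- Jensen -/
theorem Ebz_sq_le (hW0 : ∀ y, 0 ≤ W y) (h : OkF F I W g z) (h2 : OkF F I W (fun y => g y ^ 2) z) :
    Ebz F I W g z ^ 2 ≤ Ebz F I W (fun y => g y ^ 2) z := by
  by_cases h0 : ∫ x : ↥I → ℝ, W (glue F I z x) = 0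
  · simp [Ebz, h0]
  have hpos : 0 < ∫ x : ↥I → ℝ, W (glue F I z x) :=
    lt_of_le_of_ne (integral_nonneg fun x => hW0 _) (Ne.symm h0)
  have h3 := (fibre_var hW0 h h2 (Ebz F I W g z)).2
  have h4 : 0 ≤ ∫ x : ↥I → ℝ, (g (glue F I z x) - Ebz F I W g z) ^ 2 * W (glue F I z x) :=
    integral_nonneg fun x => mul_nonneg (sq_nonneg _) (hW0 _)
  rw [h3] at h4
  have h5 := nonneg_of_mul_nonneg_left h4 hpos
  nlinarith

end point

/-! ### almost every fibre -/

section global

variable {W g : (↥F → ℝ) → ℝ}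

theorem ae_okF (hI : I ⊆ F) (iW : Integrable W) (ig : Integrable fun y => g y * W y) :
    ∀ᵐ z : ↥(F \ I) → ℝ, OkF F I W g z := by
  have h1 := (integrable_prod_iff ((integrable_glue hI).2 ig).aestronglyMeasurable).1
    ((integrable_glue hI).2 ig)
  have h2 := (integrable_prod_iff ((integrable_glue hI).2 iW).aestronglyMeasurable).1
    ((integrable_glue hI).2 iW)
  filter_upwards [h1.1, h2.1] with z hz1 hz2
  exact ⟨hz1, hz2⟩

/-- products with functions of the outer coordinates -/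
theorem integrable_Eb_mul (hI : I ⊆ F) (hW0 : ∀ y, 0 ≤ W y) (mW : Measurable W)
    (iW : Integrable W) (mg : Measurable g) (ig : Integrable fun y => g y * W y)
    {φ : (↥(F \ I) → ℝ) → ℝ} (mφ : Measurable φ)
    (iφ : Integrable fun y => φ (outr F I y) * g y * W y) :
    Integrable fun y => φ (outr F I y) * Eb F I W g y * W y := by
  have m1 : Measurable fun y => φ (outr F I y) * Eb F I W g y * W y :=
    ((mφ.comp measurable_outr).mul (measurable_Eb mW mg)).mul mW
  rw [← integrable_glue hI]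
  have m2 : Measurable fun p : (↥(F \ I) → ℝ) × (↥I → ℝ) =>
      φ (outr F I (glue F I p.1 p.2)) * Eb F I W g (glue F I p.1 p.2) * W (glue F I p.1 p.2) :=
    m1.comp (measurable_glue (F := F) (I := I))
  rw [integrable_prod_iff m2.aestronglyMeasurable]
  have hok := ae_okF hI iW ig
  have hφ := (integrable_prod_iff ((integrable_glue hI).2 iφ).aestronglyMeasurable).1
    ((integrable_glue hI).2 iφ)
  constructor
  · filter_upwards [hok] with z hz
    simp only [Eb_glue, outr_glue]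
    exact hz.W1.const_mul (φ z * Ebz F I W g z)
  · refine hφ.2.mono' ?_ ?_
    · exact (m2.norm.stronglyMeasurable.integral_prod_right).aestronglyMeasurable
    · filter_upwards [hok, hφ.1] with z hz hz2
      rw [Real.norm_of_nonneg (integral_nonneg fun _ => norm_nonneg _)]
      simp only [Eb_glue, outr_glue, norm_mul, Real.norm_eq_abs]
      have e1 : ∫ x : ↥I → ℝ, |φ z| * |Ebz F I W g z| * |W (glue F I z x)| =
          |φ z| * |∫ x : ↥I → ℝ, g (glue F I z x) * W (glue F I z x)| := by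
        rw [fibre_int hW0 hz.W1 g, integral_const_mul, abs_mul]
        have : ∫ x : ↥I → ℝ, |W (glue F I z x)| = |∫ x : ↥I → ℝ, W (glue F I z x)| := by
          rw [abs_of_nonneg (integral_nonneg fun x => hW0 _)]
          exact integral_congr_ae (ae_of_all _ fun x => abs_of_nonneg (hW0 _))
        rw [this]; ring
      have e2 : ∫ x : ↥I → ℝ, |φ z| * |g (glue F I z x)| * |W (glue F I z x)| =
          |φ z| * ∫ x : ↥I → ℝ, |g (glue F I z x) * W (glue F I z x)| := by
        rw [← integral_const_mul]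
        refine integral_congr_ae (ae_of_all _ fun x => ?_)
        beta_reduce
        rw [abs_mul]; ring
      rw [e1, e2]
      refine mul_le_mul_of_nonneg_left ?_ (abs_nonneg _)
      exact abs_integral_le_integral_abs

theorem integrable_Eb (hI : I ⊆ F) (hW0 : ∀ y, 0 ≤ W y) (mW : Measurable W)
    (iW : Integrable W) (mg : Measurable g) (ig : Integrable fun y => g y * W y) :
    Integrable fun y => Eb F I W g y * W y := by
  have := integrable_Eb_mul hI hW0 mW iW mg ig (φ := fun _ => 1) measurable_const (by simpa using ig)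
  simpa using this

/-- **tower property** -/
theorem tower (hI : I ⊆ F) (hW0 : ∀ y, 0 ≤ W y) (mW : Measurable W)
    (iW : Integrable W) (mg : Measurable g) (ig : Integrable fun y => g y * W y)
    {φ : (↥(F \ I) → ℝ) → ℝ} (mφ : Measurable φ)
    (iφ : Integrable fun y => φ (outr F I y) * g y * W y) :
    ∫ y, φ (outr F I y) * g y * W y = ∫ y, φ (outr F I y) * Eb F I W g y * W y := by
  rw [integral_glue hI iφ, integral_glue hI (integrable_Eb_mul hI hW0 mW iW mg ig mφ iφ)]
  refine integral_congr_ae ?_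
  filter_upwards [ae_okF hI iW ig] with z hz
  simp only [Eb_glue, outr_glue, mul_assoc]
  rw [integral_const_mul, integral_const_mul, integral_const_mul, fibre_int hW0 hz.W1 g]

theorem tower_one (hI : I ⊆ F) (hW0 : ∀ y, 0 ≤ W y) (mW : Measurable W)
    (iW : Integrable W) (mg : Measurable g) (ig : Integrable fun y => g y * W y) :
    ∫ y, g y * W y = ∫ y, Eb F I W g y * W y := by
  have := tower hI hW0 mW iW mg ig (φ := fun _ => 1) measurable_const (by simpa using ig)
  simpa using this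

/-- fibrewise inequalities integrate -/
theorem fibre_sum (hI : I ⊆ F) {G G' : (↥F → ℝ) → ℝ} (i1 : Integrable G) (i2 : Integrable G')
    (h : ∀ᵐ z : ↥(F \ I) → ℝ, ∫ x : ↥I → ℝ, G (glue F I z x) ≤ ∫ x : ↥I → ℝ, G' (glue F I z x)) :
    ∫ y, G y ≤ ∫ y, G' y := by
  rw [integral_glue hI i1, integral_glue hI i2]
  exact integral_mono_ae ((integrable_glue hI).2 i1).integral_prod_left
    ((integrable_glue hI).2 i2).integral_prod_left h

omit [DecidableEq U] in
/-- square integrable `g`: `g` is integrable -/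
theorem integrable_of_sq (mW : Measurable W) (hW0 : ∀ y, 0 ≤ W y) (iW : Integrable W)
    (mg : Measurable g) (ig2 : Integrable fun y => g y ^ 2 * W y) :
    Integrable fun y => g y * W y := by
  refine (iW.add ig2).mono' (mg.mul mW).aestronglyMeasurable (ae_of_all _ fun y => ?_)
  rw [Real.norm_eq_abs, abs_mul, abs_of_nonneg (hW0 y)]
  have h1 : |g y| ≤ 1 + g y ^ 2 := by
    have := sq_abs (g y)
    nlinarith [sq_nonneg (|g y| - 1), abs_nonneg (g y)]
  have h2 := mul_le_mul_of_nonneg_right h1 (hW0 y)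
  simp only [Pi.add_apply]
  linarith [h2]

/-- Jensen, integrated -/
theorem Eb_sq_int (hI : I ⊆ F) (hW0 : ∀ y, 0 ≤ W y) (mW : Measurable W)
    (iW : Integrable W) (mg : Measurable g) (ig2 : Integrable fun y => g y ^ 2 * W y) :
    (Integrable fun y => Eb F I W g y ^ 2 * W y) ∧
      ∫ y, Eb F I W g y ^ 2 * W y ≤ ∫ y, g y ^ 2 * W y := by
  have ig := integrable_of_sq mW hW0 iW mg ig2
  have m1 : Measurable fun y => Eb F I W g y ^ 2 * W y := ((measurable_Eb mW mg).pow_const 2).mul mW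
  have mg2 : Measurable fun y => g y ^ 2 := mg.pow_const 2
  have hok := ae_okF hI iW ig
  have hok2 := ae_okF hI iW ig2
  have iE2 := integrable_Eb hI hW0 mW iW mg2 ig2
  have key : Integrable fun y => Eb F I W g y ^ 2 * W y := by
    rw [← integrable_glue hI] at iE2 ⊢
    refine iE2.mono' (m1.comp measurable_glue).aestronglyMeasurable ?_
    have h3 : ∀ᵐ q ∂((volume : Measure (↥(F \ I) → ℝ)).prod (volume : Measure (↥I → ℝ))),
        OkF F I W g q.1 ∧ OkF F I W (fun y => g y ^ 2) q.1 :=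
      Measure.quasiMeasurePreserving_fst.ae (hok.and hok2)
    filter_upwards [h3] with q hq
    rw [Real.norm_of_nonneg (mul_nonneg (sq_nonneg _) (hW0 _))]
    simp only [Eb_glue]
    exact mul_le_mul_of_nonneg_right (Ebz_sq_le hW0 hq.1 hq.2) (hW0 _)
  refine ⟨key, ?_⟩
  rw [tower_one hI hW0 mW iW mg2 ig2]
  refine fibre_sum hI key (integrable_Eb hI hW0 mW iW mg2 ig2) ?_
  filter_upwards [hok, hok2] with z hz hz2
  simp only [Eb_glue]
  rw [integral_const_mul, integral_const_mul]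
  exact mul_le_mul_of_nonneg_right (Ebz_sq_le hW0 hz hz2) (integral_nonneg fun x => hW0 _)


end global

end Crest.Agent.R144.Fib674
end
end

-- ▼ part R144/Fib3_674
section

/-!
# R144 (S0197), helper674: disintegration over a block, file 3 (probability form)

* `wl F E ξ l` : weight `1_{ham} e^l`;
* `IsLaw P W` : `P` is the probability with density proportional to `W`; `isLaw_tilted`
  (`(hamP F E ξ).tilted l`), `isLaw_hamP`;
* `IsLaw.integral`, `IsLaw.integrable_iff`, `IsLaw.tower`, `IsLaw.tower_one`, `IsLaw.integral_Eb_sq_le`,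
  `IsLaw.pyth`, `IsLaw.condExp_eq` (`Eb` is Mathlib's conditional expectation given the outer
  coordinates);
* `Ebz_tilted`, `Ebz_hamP` : `Ebz` is the integral against the fibre law
  `(hamP I (Ein I E) (ext (F \ I) ξ z)).tilted (l (glue F I z ·))`.
-/

set_option autoImplicit false
set_option linter.unusedSectionVars false

open MeasureTheory Set
open scoped ENNReal

noncomputable section

namespace Crest.Agent.R144.Fib674

open Crest.Agent.R144.Ham560

variable {U : Type*} [DecidableEq U] {F I : Finset U} {E : Finset (U × U)} {ξ : U → ℝ}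

/-- weight of the tilted law -/
def wl (F : Finset U) (E : Finset (U × U)) (ξ : U → ℝ) (l : (↥F → ℝ) → ℝ) (y : ↥F → ℝ) : ℝ :=
  (ham F E ξ).indicator (fun y => Real.exp (l y)) y

theorem wl_nonneg (l : (↥F → ℝ) → ℝ) (y : ↥F → ℝ) : 0 ≤ wl F E ξ l y :=
  indicator_nonneg (fun _ _ => (Real.exp_pos _).le) _

theorem wl_of_mem {l : (↥F → ℝ) → ℝ} {y : ↥F → ℝ} (h : y ∈ ham F E ξ) :
    wl F E ξ l y = Real.exp (l y) := indicator_of_mem h _

theorem wl_of_notMem {l : (↥F → ℝ) → ℝ} {y : ↥F → ℝ} (h : y ∉ ham F E ξ) :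
    wl F E ξ l y = 0 := indicator_of_notMem h _

theorem measurable_wl {l : (↥F → ℝ) → ℝ} (ml : Measurable l) : Measurable (wl F E ξ l) :=
  (Real.measurable_exp.comp ml).indicator measurableSet_ham

theorem integral_mul_wl (l g : (↥F → ℝ) → ℝ) :
    ∫ y, g y * wl F E ξ l y = ∫ y in ham F E ξ, g y * Real.exp (l y) := by
  rw [← integral_indicator measurableSet_ham]
  refine integral_congr_ae (ae_of_all _ fun y => ?_)
  beta_reduce
  by_cases h : y ∈ ham F E ξ
  · rw [indicator_of_mem h, wl_of_mem h]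
  · rw [indicator_of_notMem h, wl_of_notMem h, mul_zero]

theorem integral_wl (l : (↥F → ℝ) → ℝ) :
    ∫ y, wl F E ξ l y = ∫ y in ham F E ξ, Real.exp (l y) := by
  have := integral_mul_wl (F := F) (E := E) (ξ := ξ) l fun _ => 1
  simpa using this

theorem integrable_wl {l : (↥F → ℝ) → ℝ} (il : IntegrableOn (fun y => Real.exp (l y)) (ham F E ξ)) :
    Integrable (wl F E ξ l) := (integrable_indicator_iff measurableSet_ham).2 il

/-- the weight on a fibre -/
theorem wl_glue (hI : I ⊆ F) (l : (↥F → ℝ) → ℝ) (z : ↥(F \ I) → ℝ) (x : ↥I → ℝ) :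
    wl F E ξ l (glue F I z x) =
      wl I E (ext (F \ I) ξ z) (fun x => l (glue F I z x)) x := by
  by_cases h : glue F I z x ∈ ham F E ξ
  · rw [wl_of_mem h, wl_of_mem ((glue_mem_ham hI).1 h)]
  · rw [wl_of_notMem h, wl_of_notMem fun h1 => h ((glue_mem_ham hI).2 h1)]

/-- `P` is the law with density proportional to `W` -/
structure IsLaw (P : Measure (↥F → ℝ)) (W : (↥F → ℝ) → ℝ) : Prop where
  nonneg : ∀ y, 0 ≤ W y
  meas : Measurable W
  int : Integrable W
  pos : 0 < ∫ y, W y
  eq : P = (ENNReal.ofReal (∫ y, W y))⁻¹ • volume.withDensity fun y => ENNReal.ofReal (W y)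

namespace IsLaw

variable {P : Measure (↥F → ℝ)} {W : (↥F → ℝ) → ℝ}

theorem integrable_iff (h : IsLaw P W) {g : (↥F → ℝ) → ℝ} :
    Integrable g P ↔ Integrable fun y => g y * W y := by
  have hc0 : ENNReal.ofReal (∫ y, W y) ≠ 0 := (ENNReal.ofReal_pos.2 h.pos).ne'
  have hct : ENNReal.ofReal (∫ y, W y) ≠ ∞ := ENNReal.ofReal_ne_top
  rw [h.eq, integrable_smul_measure (ENNReal.inv_ne_zero.2 hct) (ENNReal.inv_ne_top.2 hc0),
    integrable_withDensity_iff_integrable_smul' h.meas.ennreal_ofReal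
      (ae_of_all _ fun _ => ENNReal.ofReal_lt_top)]
  have e : (fun y => (ENNReal.ofReal (W y)).toReal • g y) = fun y => g y * W y := by
    funext y
    rw [ENNReal.toReal_ofReal (h.nonneg y), smul_eq_mul, mul_comm]
  rw [e]

theorem integral (h : IsLaw P W) (g : (↥F → ℝ) → ℝ) :
    ∫ y, g y ∂P = (∫ y, g y * W y) / ∫ y, W y := by
  rw [h.eq, integral_smul_measure,
    integral_withDensity_eq_integral_toReal_smul h.meas.ennreal_ofReal
      (ae_of_all _ fun _ => ENNReal.ofReal_lt_top), ENNReal.toReal_inv,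
    ENNReal.toReal_ofReal h.pos.le, smul_eq_mul, div_eq_inv_mul]
  congr 1
  refine integral_congr_ae (ae_of_all _ fun y => ?_)
  beta_reduce
  rw [ENNReal.toReal_ofReal (h.nonneg y), smul_eq_mul, mul_comm]

theorem prob (h : IsLaw P W) : IsProbabilityMeasure P := by
  constructor
  rw [h.eq, Measure.smul_apply, withDensity_apply _ MeasurableSet.univ, Measure.restrict_univ,
    ← ofReal_integral_eq_lintegral_ofReal h.int (ae_of_all _ h.nonneg), smul_eq_mul]
  exact ENNReal.inv_mul_cancel (ENNReal.ofReal_pos.2 h.pos).ne' ENNReal.ofReal_ne_top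


theorem integral_le (h : IsLaw P W) {g g' : (↥F → ℝ) → ℝ} (hg : ∫ y, g y * W y ≤ ∫ y, g' y * W y) :
    ∫ y, g y ∂P ≤ ∫ y, g' y ∂P := by
  rw [h.integral, h.integral]
  exact div_le_div_of_nonneg_right hg h.pos.le









end IsLaw

/-! ### the hammock laws -/

theorem isLaw_tilted (hv0 : volume (ham F E ξ) ≠ 0) (hvt : volume (ham F E ξ) ≠ ∞)
    {l : (↥F → ℝ) → ℝ} (ml : Measurable l)
    (il : IntegrableOn (fun y => Real.exp (l y)) (ham F E ξ)) :
    IsLaw ((hamP F E ξ).tilted l) (wl F E ξ l) := by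
  have hZ : 0 < ∫ y in ham F E ξ, Real.exp (l y) := by
    rw [setIntegral_pos_iff_support_of_nonneg_ae (ae_of_all _ fun y => (Real.exp_pos _).le) il]
    have : Function.support (fun y : ↥F → ℝ => Real.exp (l y)) = Set.univ := by
      ext y; simp [Real.exp_ne_zero]
    rw [this, univ_inter]
    exact pos_iff_ne_zero.2 hv0
  refine ⟨wl_nonneg l, measurable_wl ml, integrable_wl il, by rw [integral_wl]; exact hZ, ?_⟩
  rw [integral_wl]
  set Z := ∫ y in ham F E ξ, Real.exp (l y) with hZd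
  set c : ℝ≥0∞ := (volume (ham F E ξ))⁻¹ with hc
  have hc0 : c ≠ 0 := ENNReal.inv_ne_zero.2 hvt
  have hct : c ≠ ∞ := ENNReal.inv_ne_top.2 hv0
  have hc' : 0 < c.toReal := ENNReal.toReal_pos hc0 hct
  have h1 : ∫ y, Real.exp (l y) ∂(hamP F E ξ) = c.toReal * Z := by
    rw [hamP, integral_smul_measure, smul_eq_mul]
  rw [Measure.tilted, h1, hamP, ← hc, withDensity_smul_measure]
  have h2 : (fun y => ENNReal.ofReal (Real.exp (l y) / (c.toReal * Z))) =
      (ENNReal.ofReal (c.toReal * Z))⁻¹ • fun y => ENNReal.ofReal (Real.exp (l y)) := by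
    funext y
    rw [Pi.smul_apply, smul_eq_mul, ENNReal.ofReal_div_of_pos (mul_pos hc' hZ), div_eq_mul_inv,
      mul_comm]
  have mexp : Measurable fun y => ENNReal.ofReal (Real.exp (l y)) :=
    (Real.measurable_exp.comp ml).ennreal_ofReal
  rw [h2, withDensity_smul _ mexp, smul_smul, ENNReal.ofReal_mul hc'.le, ENNReal.ofReal_toReal hct,
    ENNReal.mul_inv (Or.inl hc0) (Or.inl hct), ← mul_assoc, ENNReal.mul_inv_cancel hc0 hct, one_mul]
  congr 1
  rw [← withDensity_indicator measurableSet_ham]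
  congr 1
  funext y
  by_cases h : y ∈ ham F E ξ
  · rw [indicator_of_mem h, wl_of_mem h]
  · rw [indicator_of_notMem h, wl_of_notMem h, ENNReal.ofReal_zero]

theorem isLaw_hamP (hv0 : volume (ham F E ξ) ≠ 0) (hvt : volume (ham F E ξ) ≠ ∞) :
    IsLaw (hamP F E ξ) (wl F E ξ 0) := by
  have hp : IsProbabilityMeasure (hamP F E ξ) := by
    constructor
    rw [hamP, Measure.smul_apply, Measure.restrict_apply_univ, smul_eq_mul]
    exact ENNReal.inv_mul_cancel hv0 hvt
  have h0 : IntegrableOn (fun y => Real.exp ((0 : (↥F → ℝ) → ℝ) y)) (ham F E ξ) := by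
    have : IntegrableOn (fun _ : ↥F → ℝ => (1 : ℝ)) (ham F E ξ) := integrableOn_const (C := (1 : ℝ)) hvt
    simpa using this
  have h := isLaw_tilted (F := F) (E := E) (ξ := ξ) hv0 hvt (l := 0) measurable_const h0
  rwa [tilted_zero] at h

/-- continuous tilts of anchored systems -/
theorem isLaw_tilted' (hA : Anch F E) (hξ : ∀ u, |ξ u| ≤ 1 / 2) {l : (↥F → ℝ) → ℝ}
    (cl : Continuous l) : IsLaw ((hamP F E ξ).tilted l) (wl F E ξ l) :=
  isLaw_tilted (volume_ham_ne_zero hξ) (volume_ham_lt_top hA).ne cl.measurable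
    ((Real.continuous_exp.comp cl).continuousOn.integrableOn_compact (isCompact_ham hA))

theorem isLaw_hamP' (hA : Anch F E) (hξ : ∀ u, |ξ u| ≤ 1 / 2) : IsLaw (hamP F E ξ) (wl F E ξ 0) :=
  isLaw_hamP (volume_ham_ne_zero hξ) (volume_ham_lt_top hA).ne

/-! ### the fibre law -/

theorem Ebz_eq (hI : I ⊆ F) (l g : (↥F → ℝ) → ℝ) (z : ↥(F \ I) → ℝ) :
    Ebz F I (wl F E ξ l) g z =
      (∫ x in ham I E (ext (F \ I) ξ z), g (glue F I z x) * Real.exp (l (glue F I z x))) /
        ∫ x in ham I E (ext (F \ I) ξ z), Real.exp (l (glue F I z x)) := by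
  unfold Ebz
  simp only [wl_glue hI]
  rw [integral_mul_wl, integral_wl]

theorem Ebz_eq_io (hI : I ⊆ F) (l g : (↥F → ℝ) → ℝ) {z : ↥(F \ I) → ℝ}
    (hz : z ∈ ham (F \ I) (Eout I E) ξ) :
    Ebz F I (wl F E ξ l) g z =
      (∫ x in ham I (Ein I E) (ext (F \ I) ξ z), g (glue F I z x) * Real.exp (l (glue F I z x))) /
        ∫ x in ham I (Ein I E) (ext (F \ I) ξ z), Real.exp (l (glue F I z x)) := by
  rw [Ebz_eq hI, fibre_eq hz]

theorem nbr_Ein {a b : U} (ha : a ∈ I) (h : b ∈ nbr E a) : b ∈ nbr (Ein I E) a := by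
  rw [mem_nbr] at h ⊢
  refine ⟨h.1, h.2.imp (fun h => mem_Ein.2 ⟨h, Or.inl ha⟩) fun h => mem_Ein.2 ⟨h, Or.inr ha⟩⟩

theorem Anch.ein (hA : Anch I E) : Anch I (Ein I E) := by
  intro v hv
  obtain ⟨u, hu, hp⟩ := hA v hv
  have key : ∃ u', u' ∉ I ∧ Relation.ReflTransGen (fun a b => b ∈ nbr (Ein I E) a) v u' := by
    refine Relation.ReflTransGen.head_induction_on hp ⟨u, hu, .refl⟩ ?_
    rintro a b hab - ⟨u', hu', hp'⟩
    by_cases ha : a ∈ I
    · exact ⟨u', hu', Relation.ReflTransGen.head (nbr_Ein ha hab) hp'⟩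
    · exact ⟨a, ha, .refl⟩
  exact key


theorem Ebz_hamP (hI : I ⊆ F) (hA : Anch I E) (g : (↥F → ℝ) → ℝ) {z : ↥(F \ I) → ℝ}
    (hz : z ∈ ham (F \ I) (Eout I E) ξ) :
    Ebz F I (wl F E ξ 0) g z = ∫ x, g (glue F I z x) ∂(hamP I (Ein I E) (ext (F \ I) ξ z)) := by
  have hA' := Anch.ein hA
  rw [Ebz_eq_io hI 0 g hz, integral_hamP_real]
  simp [Measure.real]

end Crest.Agent.R144.Fib674
end
end

-- ▼ part R144/Fib4_674

/-!
# R144 (S0197), helper674: disintegration over a block, file 4 (block Poincaré, abstract part)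

* `pd v g y = fderiv ℝ g y (Pi.single v 1)`, `gI hI g y = ∑ v : I, (pd v g y)²`;
* `fderiv_glue` : chain rule on a fibre; `lip_glue`;
* `ae_diff_ham` : Lipschitz functions on the polytope are differentiable at almost every point of it;
* `block_of_fibre` : fibrewise Poincaré (product form) gives `∫ (g - Eb g)² W ≤ K ∫ D W`.
-/

set_option autoImplicit false
set_option linter.unusedSectionVars false

open MeasureTheory Set
open scoped ENNReal NNReal

noncomputable section

namespace Crest.Agent.R144.Fib674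

open Crest.Agent.R144.Ham560

variable {U : Type*} [DecidableEq U] {F I : Finset U} {E : Finset (U × U)} {ξ : U → ℝ}

/-! ### abstract integration of fibre inequalities -/

theorem block_of_fibre (hI : I ⊆ F) {W g D : (↥F → ℝ) → ℝ} {K : ℝ}
    (hW0 : ∀ y, 0 ≤ W y) (mW : Measurable W) (iW : Integrable W) (mg : Measurable g)
    (ig2 : Integrable fun y => g y ^ 2 * W y) (iD : Integrable fun y => D y * W y)
    (hD0 : ∀ y, 0 ≤ D y) (hK : 0 ≤ K)
    (h : ∀ᵐ z : ↥(F \ I) → ℝ,
      (∫ x : ↥I → ℝ, W (glue F I z x)) * (∫ x : ↥I → ℝ, g (glue F I z x) ^ 2 * W (glue F I z x)) -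
        (∫ x : ↥I → ℝ, g (glue F I z x) * W (glue F I z x)) ^ 2 ≤
      K * (∫ x : ↥I → ℝ, W (glue F I z x)) * ∫ x : ↥I → ℝ, D (glue F I z x) * W (glue F I z x)) :
    Integrable (fun y => (g y - Eb F I W g y) ^ 2 * W y) ∧
      ∫ y, (g y - Eb F I W g y) ^ 2 * W y ≤ K * ∫ y, D y * W y := by
  have ig := integrable_of_sq mW hW0 iW mg ig2
  obtain ⟨iE2, -⟩ := Eb_sq_int hI hW0 mW iW mg ig2
  have mE := measurable_Eb (I := I) mW mg
  have i1 : Integrable fun y => (g y - Eb F I W g y) ^ 2 * W y := by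
    refine ((ig2.const_mul 2).add (iE2.const_mul 2)).mono'
      (((mg.sub mE).pow_const 2).mul mW).aestronglyMeasurable (ae_of_all _ fun y => ?_)
    rw [Real.norm_of_nonneg (mul_nonneg (sq_nonneg _) (hW0 y))]
    simp only [Pi.add_apply]
    nlinarith [mul_nonneg (sq_nonneg (g y + Eb F I W g y)) (hW0 y)]
  refine ⟨i1, ?_⟩
  rw [← integral_const_mul]
  refine fibre_sum hI i1 (iD.const_mul K) ?_
  filter_upwards [ae_okF hI iW ig, ae_okF hI iW ig2, h] with z hz hz2 hzP
  have h3 := (fibre_var hW0 hz hz2 (Ebz F I W g z)).2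
  have hM0 : 0 ≤ ∫ x : ↥I → ℝ, W (glue F I z x) := integral_nonneg fun _ => hW0 _
  have hD1 : 0 ≤ ∫ x : ↥I → ℝ, D (glue F I z x) * W (glue F I z x) :=
    integral_nonneg fun _ => mul_nonneg (hD0 _) (hW0 _)
  simp only [Eb_glue]
  rw [h3, integral_const_mul]
  have hf1 := fibre_int hW0 hz.W1 g
  have hf2 := fibre_int hW0 hz.W1 (fun y => g y ^ 2)
  beta_reduce at hf2
  rw [hf1, hf2] at hzP
  set M := ∫ x : ↥I → ℝ, W (glue F I z x) with hM
  set A := Ebz F I W g z
  set B := Ebz F I W (fun y => g y ^ 2) z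
  set T := ∫ x : ↥I → ℝ, D (glue F I z x) * W (glue F I z x)
  by_cases h0 : M = 0
  · rw [h0, mul_zero]
    exact mul_nonneg hK hD1
  · have hpos : 0 < M := lt_of_le_of_ne hM0 (Ne.symm h0)
    have h4 : M * ((B - 2 * A * A + A ^ 2) * M) ≤ M * (K * T) := by nlinarith [hzP]
    exact le_of_mul_le_mul_left h4 hpos

/-! ### derivatives on a fibre -/

/-- partial derivative -/
def pd (v : ↥F) (g : (↥F → ℝ) → ℝ) (y : ↥F → ℝ) : ℝ := fderiv ℝ g y (Pi.single v 1)

/-- squared gradient in the directions of the block -/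
def gI (hI : I ⊆ F) (g : (↥F → ℝ) → ℝ) (y : ↥F → ℝ) : ℝ := ∑ v : ↥I, pd ⟨(v : U), hI v.2⟩ g y ^ 2

theorem gI_nonneg (hI : I ⊆ F) (g : (↥F → ℝ) → ℝ) (y : ↥F → ℝ) : 0 ≤ gI hI g y :=
  Finset.sum_nonneg fun _ _ => sq_nonneg _

/-- linear part of `glue` -/
def glueL (F I : Finset U) : (↥I → ℝ) →L[ℝ] (↥F → ℝ) :=
  LinearMap.toContinuousLinearMap
    { toFun := fun x => glue F I 0 x
      map_add' := fun x y => by
        funext v
        by_cases h : (v : U) ∈ I <;> simp [glue, h]
      map_smul' := fun c x => by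
        funext v
        by_cases h : (v : U) ∈ I <;> simp [glue, h] }

@[simp] theorem glueL_apply (x : ↥I → ℝ) : glueL F I x = glue F I 0 x := rfl

theorem glue_eq (z : ↥(F \ I) → ℝ) (x : ↥I → ℝ) :
    glue F I z x = glueL F I x + glue F I z 0 := by
  funext v
  by_cases h : (v : U) ∈ I <;> simp [glue, h]

theorem hasFDerivAt_glue (z : ↥(F \ I) → ℝ) (x : ↥I → ℝ) :
    HasFDerivAt (glue F I z) (glueL F I) x := by
  have e : glue F I z = fun x => glueL F I x + glue F I z 0 := by
    funext x; exact glue_eq z x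
  rw [e]
  exact (glueL F I).hasFDerivAt.add_const _

theorem glueL_single (hI : I ⊆ F) (v : ↥I) :
    glueL F I (Pi.single v 1) = Pi.single (⟨(v : U), hI v.2⟩ : ↥F) 1 := by
  funext u
  by_cases h : (u : U) ∈ I
  · rw [glueL_apply, glue_in h]
    by_cases huv : (u : U) = v
    · have e1 : (⟨(u : U), h⟩ : ↥I) = v := Subtype.ext huv
      have e2 : u = ⟨(v : U), hI v.2⟩ := Subtype.ext huv
      rw [e1, e2, Pi.single_eq_same, Pi.single_eq_same]
    · have e1 : (⟨(u : U), h⟩ : ↥I) ≠ v := fun h' => huv (congrArg Subtype.val h')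
      have e2 : u ≠ ⟨(v : U), hI v.2⟩ := fun h' => huv (congrArg Subtype.val h')
      rw [Pi.single_eq_of_ne e1, Pi.single_eq_of_ne e2]
  · rw [glueL_apply, glue_out h]
    have e2 : u ≠ ⟨(v : U), hI v.2⟩ := by
      rintro rfl
      exact h v.2
    rw [Pi.single_eq_of_ne e2]
    rfl

/-- chain rule on a fibre -/
theorem fderiv_glue (hI : I ⊆ F) {g : (↥F → ℝ) → ℝ} {z : ↥(F \ I) → ℝ} {x : ↥I → ℝ}
    (hg : DifferentiableAt ℝ g (glue F I z x)) (v : ↥I) :
    fderiv ℝ (fun x => g (glue F I z x)) x (Pi.single v 1) =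
      pd ⟨(v : U), hI v.2⟩ g (glue F I z x) := by
  have h := hg.hasFDerivAt.comp x (hasFDerivAt_glue z x)
  have h' : HasFDerivAt (fun x => g (glue F I z x)) ((fderiv ℝ g (glue F I z x)).comp (glueL F I)) x := h
  rw [h'.fderiv, ContinuousLinearMap.comp_apply, glueL_single hI]
  rfl

theorem gI_glue (hI : I ⊆ F) {g : (↥F → ℝ) → ℝ} {z : ↥(F \ I) → ℝ} {x : ↥I → ℝ}
    (hg : DifferentiableAt ℝ g (glue F I z x)) :
    ∑ v : ↥I, fderiv ℝ (fun x => g (glue F I z x)) x (Pi.single v 1) ^ 2 =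
      gI hI g (glue F I z x) := by
  unfold gI
  exact Finset.sum_congr rfl fun v _ => by rw [fderiv_glue hI hg]

theorem lip_glue_right (z : ↥(F \ I) → ℝ) : LipschitzWith 1 (glue F I z) := by
  refine LipschitzWith.of_dist_le_mul fun x y => ?_
  rw [NNReal.coe_one, one_mul]
  refine (dist_pi_le_iff dist_nonneg).2 fun v => ?_
  by_cases h : (v : U) ∈ I
  · rw [glue_in h, glue_in h]
    exact dist_le_pi_dist x y _
  · rw [glue_out h, glue_out h, dist_self]
    exact dist_nonneg

/-- restriction to a fibre of a Lipschitz function on the polytope -/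
theorem lip_fibre (hI : I ⊆ F) {g : (↥F → ℝ) → ℝ} {L : ℝ≥0} (hg : LipschitzOnWith L g (ham F E ξ))
    (z : ↥(F \ I) → ℝ) :
    LipschitzOnWith L (fun x => g (glue F I z x)) (ham I E (ext (F \ I) ξ z)) := by
  have h := hg.comp ((lip_glue_right (F := F) (I := I) z).lipschitzOnWith
    (s := ham I E (ext (F \ I) ξ z))) fun x hx => (glue_mem_ham hI).2 hx
  rwa [mul_one] at h

/-- Lipschitz functions on the polytope are differentiable at almost every point of it -/
theorem ae_diff_ham {g : (↥F → ℝ) → ℝ} {L : ℝ≥0} (hg : LipschitzOnWith L g (ham F E ξ)) :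
    ∀ᵐ y, y ∈ ham F E ξ → DifferentiableAt ℝ g y := by
  have h0 : volume (frontier (ham F E ξ)) = 0 :=
    (convex_ham (F := F) (E := E) (ξ := ξ)).addHaar_frontier _
  have h1 : ∀ᵐ y, y ∉ frontier (ham F E ξ) := measure_eq_zero_iff_ae_notMem.1 h0
  filter_upwards [h1, hg.ae_differentiableWithinAt_of_mem] with y hy1 hy2 hy
  have hyi : y ∈ interior (ham F E ξ) := by
    by_contra hyi
    exact hy1 ⟨subset_closure hy, hyi⟩
  exact (hy2 hy).differentiableAt (mem_interior_iff_mem_nhds.1 hyi)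

/-- squared gradient is bounded for Lipschitz functions, at interior points -/
theorem abs_pd_le {g : (↥F → ℝ) → ℝ} {L : ℝ≥0} (hg : LipschitzOnWith L g (ham F E ξ))
    {y : ↥F → ℝ} (hy : y ∈ interior (ham F E ξ)) (v : ↥F) : |pd v g y| ≤ L := by
  have h1 : ‖fderiv ℝ g y‖ ≤ L := norm_fderiv_le_of_lipschitzOn ℝ (mem_interior_iff_mem_nhds.1 hy) hg
  have h2 : ‖(Pi.single v 1 : ↥F → ℝ)‖ ≤ 1 := by
    rw [pi_norm_le_iff_of_nonneg zero_le_one]
    intro u
    by_cases h : u = v
    · rw [h, Pi.single_eq_same]; simp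
    · rw [Pi.single_eq_of_ne h]; simp
  calc |pd v g y| = ‖fderiv ℝ g y (Pi.single v 1)‖ := (Real.norm_eq_abs _).symm
    _ ≤ ‖fderiv ℝ g y‖ * ‖(Pi.single v 1 : ↥F → ℝ)‖ := ContinuousLinearMap.le_opNorm _ _
    _ ≤ L * 1 := mul_le_mul h1 h2 (norm_nonneg _) L.2
    _ = L := mul_one _

theorem measurable_pd (g : (↥F → ℝ) → ℝ) (v : ↥F) : Measurable (pd v g) :=
  measurable_fderiv_apply_const ℝ g _

theorem measurable_gI (hI : I ⊆ F) (g : (↥F → ℝ) → ℝ) : Measurable (gI hI g) :=
  Finset.measurable_sum _ fun _ _ => (measurable_pd g _).pow_const 2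

end Crest.Agent.R144.Fib674
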