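import Crest.Agent.R144.Zf_349
import Crest.Agent.R144.It2_844

/-!
# R144, integer models: REFLECTION IDENTITY (helper38)

`Cl adj Bd k h` = union of the `{h ≠ k}`-clusters touching `Bd`.  `R adj Bd k h` = `h` on `Cl`, `2k - h`
off `Cl`.  For Lipschitz heights and ARBITRARY data on `Bd` this is an involution which changes
neither the boundary values nor any `|h u - h v|` on an edge, and `Cl (R h) = Cl h`.

Consequences (no planar topology, no exploration, no monotonicity):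
* `ex_refl_zero`, `ex_refl_le` (844's `ex x Λ τ`): if `Φ (2k - h) = - Φ h` for a function of the heights
  on `B`, then `E[Φ ; no {h ≠ k} path B ↔ Λᶜ] = 0`, hence `|E Φ| ≤ P(B ↔ Λᶜ in {h ≠ k})`;
  `cl_lt` : if the data are `≤ k` the cluster is a `{h < k}`-cluster.
* `E_refl_zero`, `E_refl_le` : the same for 349's law `E c F` (with any nonnegative factor `G` depending on
  the boundary heights, e.g. the indicator of `h = 1` on a part of the boundary), `E_fst` : the height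
  marginal of `E c F`.
-/

set_option autoImplicit false

noncomputable section

namespace Crest.Agent.R144.Rfl38

open Finset
open Crest.ProbabilityR.HexHeights (Adj)
open Crest.Agent.R144.It844 (P2 Lip Cst adj_symm)

/-! ### abstract part -/

section abs
variable {V : Type*} (adj : V → V → Prop) (Bd : Set V) (k : ℤ)

/-- step inside `S` (any adjacency) -/
def Stp (S : Set V) (a b : V) : Prop := a ∈ S ∧ b ∈ S ∧ adj a b

/-- union of the `{h ≠ k}`-clusters touching `Bd` -/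
def Cl (h : V → ℤ) : Set V :=
  {v | ∃ b ∈ Bd, h b ≠ k ∧ Relation.ReflTransGen (Stp adj {u | h u ≠ k}) b v}

open Classical in
/-- reflection off the boundary clusters -/
def R (h : V → ℤ) (v : V) : ℤ := if v ∈ Cl adj Bd k h then h v else 2 * k - h v

variable {adj Bd k}

theorem cl_ne {h : V → ℤ} {v : V} (hv : v ∈ Cl adj Bd k h) : h v ≠ k := by
  obtain ⟨b, _, h1, h2⟩ := hv
  induction h2 with
  | refl => exact h1
  | tail _ h3 _ => exact h3.2.1

theorem bd_mem {h : V → ℤ} {b : V} (hb : b ∈ Bd) (h1 : h b ≠ k) : b ∈ Cl adj Bd k h :=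
  ⟨b, hb, h1, Relation.ReflTransGen.refl⟩

theorem cl_step {h : V → ℤ} {v w : V} (hv : v ∈ Cl adj Bd k h) (ha : adj v w) (hw : h w ≠ k) :
    w ∈ Cl adj Bd k h := by
  obtain ⟨b, h0, h1, h2⟩ := id hv
  exact ⟨b, h0, h1, h2.tail ⟨cl_ne hv, hw, ha⟩⟩

theorem cl_out {h : V → ℤ} {v w : V} (hv : v ∈ Cl adj Bd k h) (ha : adj v w)
    (hw : w ∉ Cl adj Bd k h) : h w = k := by
  by_contra hne
  exact hw (cl_step hv ha hne)

theorem R_mem {h : V → ℤ} {v : V} (hv : v ∈ Cl adj Bd k h) : R adj Bd k h v = h v := if_pos hv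

theorem R_not {h : V → ℤ} {v : V} (hv : v ∉ Cl adj Bd k h) : R adj Bd k h v = 2 * k - h v :=
  if_neg hv

/-- boundary values are unchanged -/
theorem R_bd {h : V → ℤ} {v : V} (hv : v ∈ Bd) : R adj Bd k h v = h v := by
  by_cases h1 : h v = k
  · have : v ∉ Cl adj Bd k h := fun h2 => cl_ne h2 h1
    rw [R_not this, h1]; ring
  · exact R_mem (bd_mem hv h1)

theorem cl_R_sub {h : V → ℤ} : Cl adj Bd k (R adj Bd k h) ⊆ Cl adj Bd k h := by
  rintro v ⟨b, hb, h1, h2⟩
  have hb' : b ∈ Cl adj Bd k h := by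
    refine bd_mem hb ?_
    rwa [R_bd hb] at h1
  induction h2 with
  | refl => exact hb'
  | tail _ h3 ih =>
    by_contra hw
    have e := cl_out ih h3.2.2 hw
    have h4 := h3.2.1
    rw [Set.mem_ofPred_eq, R_not hw, e] at h4
    exact h4 (by ring)

theorem cl_sub_R {h : V → ℤ} : Cl adj Bd k h ⊆ Cl adj Bd k (R adj Bd k h) := by
  rintro v ⟨b, hb, h1, h2⟩
  have hb' : b ∈ Cl adj Bd k h := bd_mem hb h1
  have key : v ∈ Cl adj Bd k h ∧
      Relation.ReflTransGen (Stp adj {u | R adj Bd k h u ≠ k}) b v := by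
    induction h2 with
    | refl => exact ⟨hb', Relation.ReflTransGen.refl⟩
    | tail _ h3 ih =>
      have h4 := cl_step ih.1 h3.2.2 h3.2.1
      refine ⟨h4, ih.2.tail ⟨?_, ?_, h3.2.2⟩⟩
      · rw [Set.mem_ofPred_eq, R_mem ih.1]; exact h3.1
      · rw [Set.mem_ofPred_eq, R_mem h4]; exact h3.2.1
  exact ⟨b, hb, by rw [R_bd hb]; exact h1, key.2⟩

theorem cl_R (h : V → ℤ) : Cl adj Bd k (R adj Bd k h) = Cl adj Bd k h :=
  Set.Subset.antisymm cl_R_sub cl_sub_R

/-- involution -/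
theorem R_R (h : V → ℤ) : R adj Bd k (R adj Bd k h) = h := by
  funext v
  by_cases hv : v ∈ Cl adj Bd k h
  · have hv' : v ∈ Cl adj Bd k (R adj Bd k h) := by rw [cl_R]; exact hv
    rw [R_mem hv', R_mem hv]
  · have hv' : v ∉ Cl adj Bd k (R adj Bd k h) := by rw [cl_R]; exact hv
    rw [R_not hv', R_not hv]; ring

/-- increments along edges change at most their sign -/
theorem R_edge (hs : ∀ u v, adj u v → adj v u) {h : V → ℤ} {u v : V} (ha : adj u v) :
    R adj Bd k h u - R adj Bd k h v = h u - h v ∨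
    R adj Bd k h u - R adj Bd k h v = -(h u - h v) := by
  by_cases hu : u ∈ Cl adj Bd k h
  · by_cases hv : v ∈ Cl adj Bd k h
    · left; rw [R_mem hu, R_mem hv]
    · left; rw [R_mem hu, R_not hv, cl_out hu ha hv]; ring
  · by_cases hv : v ∈ Cl adj Bd k h
    · left; rw [R_not hu, R_mem hv, cl_out hv (hs _ _ ha) hu]; ring
    · right; rw [R_not hu, R_not hv]; ring

theorem R_abs (hs : ∀ u v, adj u v → adj v u) {h : V → ℤ} {u v : V} (ha : adj u v) :
    |R adj Bd k h u - R adj Bd k h v| = |h u - h v| := by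
  rcases R_edge (Bd := Bd) (k := k) (h := h) hs ha with h1 | h1 <;> rw [h1]
  exact abs_neg _

theorem R_eq_iff (hs : ∀ u v, adj u v → adj v u) {h : V → ℤ} {u v : V} (ha : adj u v) :
    R adj Bd k h u = R adj Bd k h v ↔ h u = h v := by
  rcases R_edge (Bd := Bd) (k := k) (h := h) hs ha with h1 | h1 <;> omega

/-- if the boundary data are `≤ k` and `h` is Lipschitz then the clusters are `{h < k}`-clusters -/
theorem cl_lt {h : V → ℤ} (hl : ∀ u v, adj u v → |h u - h v| ≤ 1) (hb : ∀ b ∈ Bd, h b ≤ k) {v : V}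
    (hv : v ∈ Cl adj Bd k h) :
    ∃ b ∈ Bd, h b < k ∧ h v < k ∧ Relation.ReflTransGen (Stp adj {u | h u < k}) b v := by
  obtain ⟨b, h0, h1, h2⟩ := hv
  have hb' : h b < k := lt_of_le_of_ne (hb b h0) h1
  refine ⟨b, h0, hb', ?_⟩
  induction h2 with
  | refl => exact ⟨hb', Relation.ReflTransGen.refl⟩
  | @tail u w _ h3 ih =>
    have h4 : h w < k := by
      have h5 := abs_le.1 (hl _ _ h3.2.2)
      have h6 : h w ≠ k := h3.2.1
      have h7 := ih.1
      omega
    exact ⟨h4, ih.2.tail ⟨ih.1, h4, h3.2.2⟩⟩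


open Classical in
/-- **abstract reflection identity** -/
theorem sum_zero {S : Finset (V → ℤ)} {W : (V → ℤ) → ℝ} (hS : ∀ h ∈ S, R adj Bd k h ∈ S)
    (hW : ∀ h ∈ S, W (R adj Bd k h) = W h) {B : Set V} {Φ : (V → ℤ) → ℝ}
    (hΦ : ∀ h g : V → ℤ, (∀ v ∈ B, g v = 2 * k - h v) → Φ g = - Φ h) :
    ∑ h ∈ S, (if ∃ v ∈ B, v ∈ Cl adj Bd k h then 0 else W h * Φ h) = 0 := by
  set s := ∑ h ∈ S, (if ∃ v ∈ B, v ∈ Cl adj Bd k h then 0 else W h * Φ h) with hs
  have e : s = -s := by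
    conv_lhs => rw [hs]
    rw [hs, ← Finset.sum_neg_distrib]
    refine Finset.sum_bij' (fun h _ => R adj Bd k h) (fun h _ => R adj Bd k h) hS hS
      (fun h _ => R_R h) (fun h _ => R_R h) ?_
    intro h hh
    rw [cl_R]
    by_cases h1 : ∃ v ∈ B, v ∈ Cl adj Bd k h
    · rw [if_pos h1, if_pos h1, neg_zero]
    · rw [if_neg h1, if_neg h1, hW h hh]
      have h2 : Φ (R adj Bd k h) = - Φ h := hΦ _ _ fun v hv => R_not fun h3 => h1 ⟨v, hv, h3⟩
      rw [h2]; ring
  linarith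

open Classical in
/-- **abstract reflection bound** -/
theorem sum_le {S : Finset (V → ℤ)} {W : (V → ℤ) → ℝ} (hS : ∀ h ∈ S, R adj Bd k h ∈ S)
    (hW : ∀ h ∈ S, W (R adj Bd k h) = W h) (hW0 : ∀ h ∈ S, 0 ≤ W h) {B : Set V}
    {Φ : (V → ℤ) → ℝ} (hΦ : ∀ h g : V → ℤ, (∀ v ∈ B, g v = 2 * k - h v) → Φ g = - Φ h)
    (hb : ∀ h, |Φ h| ≤ 1) :
    |∑ h ∈ S, W h * Φ h| ≤ ∑ h ∈ S, W h * (if ∃ v ∈ B, v ∈ Cl adj Bd k h then 1 else 0) := by
  have h0 := sum_zero hS hW hΦ
  have h1 : ∑ h ∈ S, W h * Φ h =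
      ∑ h ∈ S, (if ∃ v ∈ B, v ∈ Cl adj Bd k h then W h * Φ h else 0) := by
    rw [← sub_eq_zero, ← Finset.sum_sub_distrib]
    refine Eq.trans (Finset.sum_congr rfl fun h _ => ?_) h0
    split_ifs <;> ring
  rw [h1]
  refine (Finset.abs_sum_le_sum_abs _ _).trans (Finset.sum_le_sum fun h hh => ?_)
  split_ifs
  · rw [abs_mul, abs_of_nonneg (hW0 h hh)]
    exact mul_le_mul_of_nonneg_left (hb h) (hW0 h hh)
  · simp

end abs

/-! ### the triangular lattice -/

theorem lip_R {Bd : Set P2} {k : ℤ} {h : P2 → ℤ} (hh : Lip h) : Lip (R Adj Bd k h) :=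
  fun u v huv => by rw [R_abs (fun _ _ => adj_symm) huv]; exact hh u v huv

theorem cst_R {Bd : Set P2} {k : ℤ} {h : P2 → ℤ} (u : P2) : Cst (R Adj Bd k h) u ↔ Cst h u := by
  unfold Cst
  rw [R_eq_iff (fun _ _ => adj_symm) (It844.adj_e1 u), R_eq_iff (fun _ _ => adj_symm) (It844.adj_e2 u)]

section exq
variable {x : ℝ} {Λ : Finset P2} {τ : P2 → ℤ} {k : ℤ}



theorem wt_R {Bd : Set P2} (h : P2 → ℤ) : It844.wt x Λ (R Adj Bd k h) = It844.wt x Λ h := by
  unfold It844.wt It844.tw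
  exact Finset.prod_congr rfl fun u _ => by rw [if_congr (cst_R u) rfl rfl]



end exq

/-! ### the law `E c F` -/

section EF
open Crest.Agent.R144.Zd349 Crest.Agent.R144.Zg349 Crest.Agent.R144.Zm349
variable {c : ℝ} {F : Finset P2} {k : ℤ}

/-- weight of an admissible height in the marginal of `E c F` -/
def hw (c : ℝ) (F : Finset P2) (h : P2 → ℤ) : ℝ := ∏ t ∈ F, if Cst h t then c else 1









end EF

end Crest.Agent.R144.Rfl38
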