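import Crest.Agent.R144.Zo5_349
import Crest.Agent.R144.Ccn2_311
import Crest.Agent.R144.Bnd0_991
import Crest.Agent.R144.Hf10_702
import Crest.Agent.R144.Rfl_38
import Crest.Agent.R144.Bx1_695
import Crest.Agent.R144.Bnd1_991
import Crest.Agent.R144.Hf7_702
import Crest.Agent.R144.It3_844
import Crest.Agent.R144.Lc1_830
import Crest.Agent.R144.Zg_349
import Crest.Agent.R144.Gm_400
import Crest.Agent.R144.Bnd5_991
import Crest.Agent.R144.Bnd7_991
import Crest.Agent.R144.Fr4_353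

-- ▼ part R144/LmB1_702
section

/-!
# R144, block BND / B2 (helper702), part 1: lower comparison for the law with fixed boundary heights in the
presence of an increasing observable

`lower0u` : `ξ ∈ {0, 1}` off `Λ`, `f1, f2 ≥ 0` increasing and seen in `B`, `g ≥ 0` off `B`:
`E0 [g f1] * Em_B [f2] ≤ E0 [g f1 f2]` (349's `lower0` with the extra factor `f1`).
-/

set_option autoImplicit false
set_option linter.unusedSectionVars false
set_option linter.unusedSimpArgs false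

noncomputable section

namespace Crest.Agent.R144.LmB702

open Finset
open Crest.Agent.R144.It844 (P2 Lip Cst adj_iff adj_symm lip_iff upT mem_upT tw adj_up exists_exit)
open Crest.Agent.R144.Zg349 Crest.Agent.R144.Zk349 Crest.Agent.R144.Zd349 Crest.Agent.R144.Zm349
open Crest.Agent.R144.HyA349 Crest.Agent.R144.HyB349 Crest.Agent.R144.HyC349
open Crest.Agent.R144.Ze349 Crest.Agent.R144.Zs349 Crest.Agent.R144.Zf349 Crest.Agent.R144.Zo349
open Crest.Agent.R144.Ccn2311 (incP_mul inTZ_mul Em)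
open Crest.ProbabilityR.HexHeights (Adj)

/-- **Lower comparison in the presence of an increasing observable**, boundary heights `ξ ∈ {0, 1}`. -/
theorem lower0u {c : ℝ} (hc : 1 ≤ c) {Λ B : Finset P2} {ξ : P2 → ℤ} (hΛ : IsConn ((Λ : Set P2)ᶜ))
    (hξ : Bv Λ ξ) (hB : SC B) (hBK : B ⊆ upT Λ) (hIV : IV B ⊆ Λ) (hLip : Lip ξ)
    {f1 f2 g : Cfg → ℝ} (hf1 : IncP f1) (hin1 : InTZ B f1) (h10 : ∀ ω, 0 ≤ f1 ω)
    (hf2 : IncP f2) (hin2 : InTZ B f2) (h20 : ∀ ω, 0 ≤ f2 ω)
    (hg0 : ∀ ω, 0 ≤ g ω) (hg : OffTZ B g) :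
    E0 c Λ ξ (fun ω => g ω * f1 ω) * Em c B f2 ≤ E0 c Λ ξ (fun ω => g ω * (f1 ω * f2 ω)) := by
  set f1B : Finset P2 → Finset P2 → Finset P2 → ℝ := fun T P M => f1 (mk B T P M) with hf1B
  set f2B : Finset P2 → Finset P2 → Finset P2 → ℝ := fun T P M => f2 (mk B T P M) with hf2B
  have hinc1 : Inc f1B := mkG_inc B hf1
  have hinc2 : Inc f2B := mkG_inc B hf2
  set mf := EBL c Λ B (minL Λ B) f2B with hmf
  set m1 := EBL c Λ B (minL Λ B) (fun _ _ _ => 1) with hm1
  have hm1pos : 0 < m1 := EBL_one_pos hc (minL_ok Λ B)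
  have hloc : ∀ T1 ⊆ Λ \ IV B, ∀ Z1 ⊆ upT Λ \ B, (∀ t ∈ Z1, Cs up T1 t) →
      EBL c Λ B (etaL T1 Z1) (fun T P M => cJ Λ ξ T1 Z1 P * f1B T P M) * mf ≤
        EBL c Λ B (etaL T1 Z1) (fun T P M => cJ Λ ξ T1 Z1 P * (f1B T P M * f2B T P M)) * m1 := by
    intro T1 hT1 Z1 hZ1 hs
    have hle : (minL Λ B).Le (etaL T1 Z1) := by
      refine ⟨?_, Finset.empty_subset _, ?_⟩
      · intro v hv
        have h := Finset.mem_sdiff.1 (hT1 hv)
        exact Finset.mem_sdiff.2 ⟨Finset.mem_union_left _ h.1, h.2⟩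
      · intro e he
        obtain ⟨t, ht, rfl⟩ := mem_emb.1 he
        rw [Finset.mem_filter] at ht
        refine Finset.mem_union_left _ (t_mem_emb.2 (Finset.mem_filter.2 ⟨hZ1 ht.1, fun v hv => ?_⟩))
        have h := Finset.mem_sdiff.1 (hT1 (cs_minus (hs t ht.1) ht.2 v hv))
        exact Finset.mem_sdiff.2 ⟨Finset.mem_union_left _ h.1, h.2⟩
    have hok := etaL_ok (B := B) hT1 hZ1
    have hincu : Inc (fun T P M => cJ Λ ξ T1 Z1 P * f1B T P M) := by
      intro T T' P P' M M' hT hP hM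
      exact mul_le_mul (cJ_inc Λ ξ T1 Z1 T T' P P' M M' hT hP hM) (hinc1 T T' P P' M M' hT hP hM)
        (h10 _) (cJ_nonneg Λ ξ T1 Z1 P')
    have h1 := EBL_mono hc (Λ := Λ) (minL_ok Λ B) hok hle hinc2
    have h2 := EBL_fkg hc (Λ := Λ) hok hincu hinc2
    have o1 : 0 < EBL c Λ B (etaL T1 Z1) (fun _ _ _ => 1) := EBL_one_pos hc hok
    have hA : 0 ≤ EBL c Λ B (etaL T1 Z1) (fun T P M => cJ Λ ξ T1 Z1 P * f1B T P M) :=
      EBL_nonneg hc fun T P M => mul_nonneg (cJ_nonneg Λ ξ T1 Z1 P) (h10 _)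
    have e : (fun T P M => cJ Λ ξ T1 Z1 P * (f1B T P M * f2B T P M)) =
        fun T P M => cJ Λ ξ T1 Z1 P * f1B T P M * f2B T P M := by
      funext T P M; ring
    rw [e]
    set o := EBL c Λ B (etaL T1 Z1) (fun _ _ _ => 1)
    set a := EBL c Λ B (etaL T1 Z1) (fun T P M => cJ Λ ξ T1 Z1 P * f1B T P M)
    set b := EBL c Λ B (etaL T1 Z1) f2B
    set d := EBL c Λ B (etaL T1 Z1) (fun T P M => cJ Λ ξ T1 Z1 P * f1B T P M * f2B T P M)
    have h3 : a * (mf * o) ≤ a * (m1 * b) := mul_le_mul_of_nonneg_left h1 hA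
    have h4 : m1 * (a * b) ≤ m1 * (o * d) := mul_le_mul_of_nonneg_left h2 hm1pos.le
    have h5 : o * (a * mf) ≤ o * (d * m1) := by linarith
    exact le_of_mul_le_mul_left h5 o1
  have s1 := envL c hΛ hξ hBK hIV (incP_mul hf1 hf2 h10 h20) (inTZ_mul hin1 hin2) hg
  have s2 := envL c hΛ hξ hBK hIV hf1 hin1 hg
  have p2 := nL_pos Λ ∅
  have hmain : S0 c Λ ξ (fun ω => g ω * f1 ω) * mf ≤ S0 c Λ ξ (fun ω => g ω * (f1 ω * f2 ω)) * m1 := by
    have h7 := sum_envL_le hc (Λ := Λ) (B := B) (K := upT Λ) hg0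
      (a := fun T1 Z1 => EBL c Λ B (etaL T1 Z1) (fun T P M => cJ Λ ξ T1 Z1 P * f1B T P M) * mf)
      (b := fun T1 Z1 => EBL c Λ B (etaL T1 Z1)
        (fun T P M => cJ Λ ξ T1 Z1 P * (f1B T P M * f2B T P M)) * m1) hloc
    refine le_of_mul_le_mul_left ?_ p2
    rw [← mul_assoc, ← mul_assoc, s1, s2, mul_assoc, mul_assoc, Finset.sum_mul, Finset.sum_mul]
    simp only [Finset.sum_mul, mul_assoc] at h7 ⊢
    exact h7
  have e1 := EBL_min c (Λ := Λ) hB hBK hIV hf2 hin2
  have e2 := EBL_min c (Λ := Λ) hB hBK hIV incP_one (inTZ_one B)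
  rw [S_one] at e2
  have hZ0 := Z0_pos hc (Λ := Λ) hLip
  have hZB := Z_pos hc B
  have hn := Nm_pos B
  have hratio : Em c B f2 = mf / m1 := by
    unfold Em
    rw [E_eq_S, div_eq_div_iff hZB.ne' hm1pos.ne']
    have h8 : nL Λ ∅ * Nm B * (S c B (fun ω => f2 (addH 2 ω)) * m1) =
        nL Λ ∅ * Nm B * (mf * Z c B) := by
      calc _ = (nL Λ ∅ * S c B (fun ω => f2 (addH 2 ω))) * (m1 * Nm B) := by ring
        _ = (mf * Nm B) * (nL Λ ∅ * Z c B) := by rw [← e1, e2]
        _ = _ := by ring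
    exact mul_left_cancel₀ (by positivity) h8
  unfold E0
  rw [hratio, div_mul_div_comm, div_le_div_iff₀ (mul_pos hZ0 hm1pos) hZ0]
  nlinarith [mul_le_mul_of_nonneg_left hmain hZ0.le]

end Crest.Agent.R144.LmB702
end
end

-- ▼ part R144/LmB2_702
section

/-!
# R144, block BND / B2 (helper702), part 2: plus-closed layers under the law with fixed boundary heights, in
the presence of the constraints `Cn N`, `Kn X`

* `iter_abs` : abstract iteration over the scales `(K+1)^k n`;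
* `circ0` : one scale, `E0 c L ξ`, `ξ ∈ {0, 1}`;
* `decay0` : several scales;
* `circE` : one scale, `E c Q`, constraint `Cn N`.
-/

set_option autoImplicit false
set_option linter.unusedSectionVars false

noncomputable section

namespace Crest.Agent.R144.LmB702

open Finset
open Crest.Agent.R144.It844 (P2 Lip Cst adj_iff adj_symm lip_iff upT mem_upT)
open Crest.Agent.R144.Zg349 Crest.Agent.R144.Zk349 Crest.Agent.R144.Zd349 Crest.Agent.R144.Zm349
open Crest.Agent.R144.Ze349 Crest.Agent.R144.Zs349 Crest.Agent.R144.Zo349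
open Crest.Agent.R144.Ccn2311 (incP_mul inTZ_mul Em lower2)
open Crest.Agent.R144.Rsw867
open Crest.Agent.R144.Bnd991
open Crest.ProbabilityR.HexHeights (Adj)

/-- triangles of the ray in a ball are interior -/
theorem mem_IV_ray {b t : P2} {r : ℕ} (hr : 1 ≤ r) (h : t ∈ ray b) (ht : t ∈ ball b r) :
    t ∈ IV (ball b r) := by
  obtain ⟨h1, h2⟩ := h
  rw [mem_ball] at ht
  rw [mem_IV, mem_ball, mem_ball, mem_ball]
  simp only [abs_le] at *
  omega

/-- `ind BlkPᶜ` at a large scale is below the product over two scales -/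
theorem ind_two {a : P2} {K k n : ℕ} (hK : 4 ≤ K) (hn : 1 ≤ n) (ω : Cfg) :
    ind (BlkP a n (2 * ((K + 1) ^ (k + 1) * n)))ᶜ ω ≤
      ind (BlkP a ((K + 1) ^ (k + 1) * n) (2 * ((K + 1) ^ (k + 1) * n)))ᶜ ω *
        ind (BlkP a n (2 * ((K + 1) ^ k * n)))ᶜ ω := by
  set n' := (K + 1) ^ (k + 1) * n with hn'
  have hst := scale_step (K := K) hn hn'
  have h2n : n ≤ n' := by rw [hn']; exact Nat.le_mul_of_pos_left _ (by positivity)
  have i1 : ind (BlkP a n (2 * n'))ᶜ ω ≤ ind (BlkP a n' (2 * n'))ᶜ ω :=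
    ind_le_ind fun hω hω' => hω (blkP_anti h2n le_rfl hω')
  have i2 : ind (BlkP a n (2 * n'))ᶜ ω ≤ ind (BlkP a n (2 * ((K + 1) ^ k * n)))ᶜ ω := by
    refine ind_le_ind fun hω hω' => hω (blkP_anti le_rfl ?_ hω')
    have : (K + 1) ^ k * n ≤ K * ((K + 1) ^ k * n) := Nat.le_mul_of_pos_left _ (by omega)
    omega
  have : ind (BlkP a n (2 * n'))ᶜ ω =
      ind (BlkP a n (2 * n'))ᶜ ω * ind (BlkP a n (2 * n'))ᶜ ω := by
    by_cases hω : ω ∈ (BlkP a n (2 * n'))ᶜ
    · rw [ind_of_mem hω]; norm_num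
    · rw [ind_of_not_mem hω]; norm_num
  rw [this]
  exact mul_le_mul i1 i2 (ind_nonneg _ _) (ind_nonneg _ _)

/-- **abstract iteration** -/
theorem iter_abs {Ef : (Cfg → ℝ) → ℝ} (mono : ∀ f g : Cfg → ℝ, (∀ ω, f ω ≤ g ω) → Ef f ≤ Ef g)
    {G : Cfg → ℝ} (hG : ∀ ω, 0 ≤ G ω) {K : ℕ} (hK : 4 ≤ K) {p : ℝ} (hp1 : p ≤ 1) {a : P2} {M : ℕ}
    (one : ∀ n, 1 ≤ n → K * n ≤ M → ∀ g : Cfg → ℝ, (∀ ω, 0 ≤ g ω) → OffTZ (ball a (K * n)) g →
      Ef (fun ω => g ω * G ω * ind (BlkP a n (2 * n))ᶜ ω) ≤ (1 - p) * Ef (fun ω => g ω * G ω))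
    (k : ℕ) {n : ℕ} (hn : 1 ≤ n) (hM : K * ((K + 1) ^ k * n) ≤ M) {g : Cfg → ℝ}
    (hg0 : ∀ ω, 0 ≤ g ω) (hg : OffTZ (ball a (K * ((K + 1) ^ k * n))) g) :
    Ef (fun ω => g ω * G ω * ind (BlkP a n (2 * ((K + 1) ^ k * n)))ᶜ ω) ≤
      (1 - p) ^ (k + 1) * Ef (fun ω => g ω * G ω) := by
  induction k generalizing g with
  | zero =>
    simp only [pow_zero, one_mul, zero_add, pow_one] at hM hg ⊢
    exact one n hn hM g hg0 hg
  | succ k ih =>
    set n' := (K + 1) ^ (k + 1) * n with hn'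
    have h1n : 1 ≤ n' := Nat.mul_pos (by positivity) hn
    have hst := scale_step (K := K) hn hn'
    have hle : K * ((K + 1) ^ k * n) ≤ K * n' := by
      have : n' ≤ K * n' := Nat.le_mul_of_pos_left _ (by omega)
      omega
    have hsub : ball a (K * ((K + 1) ^ k * n)) ⊆ ball a (K * n') := ball_mono a hle
    set g' : Cfg → ℝ := fun ω => g ω * ind (BlkP a n' (2 * n'))ᶜ ω with hg'
    have hg'0 : ∀ ω, 0 ≤ g' ω := fun ω => mul_nonneg (hg0 ω) (ind_nonneg _ _)
    have hg'off : OffTZ (ball a (K * ((K + 1) ^ k * n))) g' :=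
      offTZ_mul (offTZ_mono hsub hg) (offTZ_compl (offTZ_blkP a (by omega) hst (Finset.Subset.refl _)))
    have e1 := ih (hle.trans hM) hg'0 hg'off
    have e2 := one n' h1n hM g hg0 hg
    have e3 : Ef (fun ω => g ω * G ω * ind (BlkP a n (2 * n'))ᶜ ω) ≤
        Ef (fun ω => g' ω * G ω * ind (BlkP a n (2 * ((K + 1) ^ k * n)))ᶜ ω) := by
      refine mono _ _ fun ω => ?_
      have i3 := ind_two (a := a) (K := K) (k := k) (n := n) hK hn ω
      calc g ω * G ω * ind (BlkP a n (2 * n'))ᶜ ω ≤ g ω * G ω * (ind (BlkP a n' (2 * n'))ᶜ ω *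
            ind (BlkP a n (2 * ((K + 1) ^ k * n)))ᶜ ω) :=
            mul_le_mul_of_nonneg_left i3 (mul_nonneg (hg0 ω) (hG ω))
        _ = _ := by rw [hg']; ring
    have hp : (0 : ℝ) ≤ (1 - p) ^ (k + 1) := by
      have : (0 : ℝ) ≤ 1 - p := by linarith
      positivity
    have e4 : Ef (fun ω => g' ω * G ω) = Ef (fun ω => g ω * G ω * ind (BlkP a n' (2 * n'))ᶜ ω) := by
      congr 1; funext ω; rw [hg']; ring
    calc _ ≤ _ := e3
      _ ≤ (1 - p) ^ (k + 1) * Ef (fun ω => g' ω * G ω) := e1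
      _ ≤ (1 - p) ^ (k + 1) * ((1 - p) * Ef (fun ω => g ω * G ω)) := by
          rw [e4]; exact mul_le_mul_of_nonneg_left e2 hp
      _ = (1 - p) ^ (k + 1 + 1) * Ef (fun ω => g ω * G ω) := by ring

/-- the constraint -/
def CK (N X : Set P2) (ω : Cfg) : ℝ := Cn N ω * Kn X ω

theorem CK_nonneg (N X : Set P2) (ω : Cfg) : 0 ≤ CK N X ω := mul_nonneg (Cn_nonneg _ _) (Kn_nonneg _ _)


/-- part off `B` -/
def CKo (N X : Set P2) (B : Finset P2) (ω : Cfg) : ℝ :=
  Cn (N \ (IV B : Set P2)) ω * Kn (X \ (B : Set P2)) ω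
/-- part in `B` -/
def CKi (N X : Set P2) (B : Finset P2) (ω : Cfg) : ℝ :=
  Cn (N ∩ (IV B : Set P2)) ω * Kn (X ∩ (B : Set P2)) ω

theorem CK_split (N X : Set P2) (B : Finset P2) (ω : Cfg) : CK N X ω = CKo N X B ω * CKi N X B ω := by
  unfold CK CKo CKi
  rw [Cn_split N B, Kn_split X B]
  ring

theorem CKo_nonneg (N X : Set P2) (B : Finset P2) (ω : Cfg) : 0 ≤ CKo N X B ω :=
  mul_nonneg (Cn_nonneg _ _) (Kn_nonneg _ _)
theorem CKi_nonneg (N X : Set P2) (B : Finset P2) (ω : Cfg) : 0 ≤ CKi N X B ω :=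
  mul_nonneg (Cn_nonneg _ _) (Kn_nonneg _ _)

theorem offTZ_CKo (N X : Set P2) (B : Finset P2) : OffTZ B (CKo N X B) :=
  offTZ_mul (offTZ_Cn_diff N B) (offTZ_Kn fun _ h => h.2)

theorem inTZ_CKi {N X : Set P2} {B : Finset P2} (h : ∀ t ∈ X, t ∈ B → t ∈ IV B) :
    InTZ B (CKi N X B) := inTZ_mul (inTZ_Cn_inter N B) (inTZ_Kn fun t ht => h t ht.1 ht.2)

theorem incP_CKi (N X : Set P2) (B : Finset P2) : IncP (CKi N X B) :=
  incP_mul (incP_Cn _) (incP_Kn _) (Cn_nonneg _) (Kn_nonneg _)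

theorem em_blkP {c : ℝ} {K : ℕ} {p : ℝ} (hc : 1 ≤ c) (hR : RSW c K p) {n : ℕ} (hn : 1 ≤ n) (b : P2) :
    p ≤ Em c (ball b (K * n)) (ind (BlkP b n (2 * n))) := by
  unfold Em
  have e : E c (ball b (K * n)) (fun ω => ind (BlkP b n (2 * n)) (addH 2 ω)) =
      E c (ball b (K * n)) (ind (Blk b n (2 * n))) := E_congr fun ω _ => ind_congr blkP_addH2
  rw [e]
  have h := hR.minus n hn b (ball b (K * n)) (sc_ball _ _) (Finset.Subset.refl _) (fun _ => 1)
    (fun _ => zero_le_one) (fun _ _ _ _ => rfl)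
  rw [E_const hc, mul_one] at h
  simpa using h

/-- **one scale, fixed boundary heights in `{0, 1}`** -/
theorem circ0 {c : ℝ} {K : ℕ} {p : ℝ} (hc : 1 ≤ c) (hR : RSW c K p) {L : Finset P2} {ξ : P2 → ℤ}
    (hL : IsConn ((L : Set P2)ᶜ)) (hξ : Bv L ξ) (hLip : Lip ξ) {N X : Set P2} {b : P2} {n : ℕ} (hn : 1 ≤ n)
    (hV : VF (ball b (K * n)) ⊆ L) (hX : ∀ t ∈ X, t ∈ ball b (K * n) → t ∈ ray b)
    {g : Cfg → ℝ} (hg0 : ∀ ω, 0 ≤ g ω) (hg : OffTZ (ball b (K * n)) g) :
    E0 c L ξ (fun ω => g ω * CK N X ω * ind (BlkP b n (2 * n))ᶜ ω) ≤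
      (1 - p) * E0 c L ξ (fun ω => g ω * CK N X ω) := by
  set B := ball b (K * n) with hB
  have hKn : 1 ≤ K * n := by have := hR.K4; nlinarith
  have hBK : B ⊆ upT L := fun t ht =>
    mem_upT_iff.2 ⟨t, hV (mem_VF.2 ⟨t, ht, base_mem_up t⟩), base_mem_up t⟩
  have hIV : IV B ⊆ L := (IV_sub_VF B).trans hV
  have h := lower0u hc hL hξ (sc_ball b (K * n)) hBK hIV hLip (f1 := CKi N X B)
    (f2 := ind (BlkP b n (2 * n))) (g := fun ω => g ω * CKo N X B ω) (incP_CKi N X B)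
    (inTZ_CKi fun t ht htB => mem_IV_ray hKn (hX t ht htB) htB) (CKi_nonneg N X B)
    (incP_blkP b n (2 * n)) (inTZ_blkP b (by omega) (ball_sub_scale b hR.K4 hn)) (ind_nonneg _)
    (fun ω => mul_nonneg (hg0 ω) (CKo_nonneg N X B ω)) (offTZ_mul hg (offTZ_CKo N X B))
  have hp := em_blkP hc hR hn b
  have e1 : E0 c L ξ (fun ω => g ω * CKo N X B ω * CKi N X B ω) =
      E0 c L ξ (fun ω => g ω * CK N X ω) := by
    congr 1; funext ω; rw [CK_split N X B]; ring
  have e2 : E0 c L ξ (fun ω => g ω * CKo N X B ω * (CKi N X B ω * ind (BlkP b n (2 * n)) ω)) =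
      E0 c L ξ (fun ω => g ω * CK N X ω * ind (BlkP b n (2 * n)) ω) := by
    congr 1; funext ω; rw [CK_split N X B]; ring
  rw [e1, e2] at h
  have e3 : E0 c L ξ (fun ω => g ω * CK N X ω * ind (BlkP b n (2 * n))ᶜ ω) =
      E0 c L ξ (fun ω => g ω * CK N X ω) -
        E0 c L ξ (fun ω => g ω * CK N X ω * ind (BlkP b n (2 * n)) ω) := by
    rw [← E0_sub]
    congr 1; funext ω; rw [ind_compl]; ring
  have h0 : 0 ≤ E0 c L ξ (fun ω => g ω * CK N X ω) :=
    E0_nonneg hc fun ω _ => mul_nonneg (hg0 ω) (CK_nonneg N X ω)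
  rw [e3]
  have := mul_le_mul_of_nonneg_left hp h0
  linarith

/-- **several scales, fixed boundary heights in `{0, 1}`** -/
theorem decay0 {c : ℝ} {K : ℕ} {p : ℝ} (hc : 1 ≤ c) (hR : RSW c K p) {L : Finset P2} {ξ : P2 → ℤ}
    (hL : IsConn ((L : Set P2)ᶜ)) (hξ : Bv L ξ) (hLip : Lip ξ) {N X : Set P2} {b : P2} (k : ℕ) {n : ℕ}
    (hn : 1 ≤ n) (hV : VF (ball b (K * ((K + 1) ^ k * n))) ⊆ L)
    (hX : ∀ t ∈ X, t ∈ ball b (K * ((K + 1) ^ k * n)) → t ∈ ray b) :
    E0 c L ξ (fun ω => CK N X ω * ind (BlkP b n (2 * ((K + 1) ^ k * n)))ᶜ ω) ≤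
      (1 - p) ^ (k + 1) * E0 c L ξ (CK N X) := by
  have h := iter_abs (Ef := E0 c L ξ) (fun f g hfg => E0_mono hc fun ω _ _ => hfg ω)
    (CK_nonneg N X) hR.K4 (by linarith [hR.p1] : p ≤ 1) (a := b) (M := K * ((K + 1) ^ k * n))
    (fun m hm hmM g hg0 hg => circ0 hc hR hL hξ hLip hm
      ((VF_mono (ball_mono b hmM)).trans hV) (fun t ht htB => hX t ht (ball_mono b hmM htB)) hg0 hg)
    k hn le_rfl (g := fun _ => 1) (fun _ => zero_le_one) (fun _ _ _ _ => rfl)
  simp only [one_mul] at h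
  exact h

/-- **one scale, F-type law, constraint `Cn N`** -/
theorem circE {c : ℝ} {K : ℕ} {p : ℝ} (hc : 1 ≤ c) (hR : RSW c K p) {Q : Finset P2} (hQ : SC Q)
    (N : Set P2) (b : P2) {n : ℕ} (hn : 1 ≤ n) :
    p * E c Q (Cn N) ≤ E c Q (fun ω => Cn N ω * ind (BlkP b n (2 * n)) ω) := by
  set B := ball b (K * n) with hB
  have h := lower2 hc hQ (sc_ball b (K * n)) (f1 := Cn (N ∩ (IV B : Set P2)))
    (f2 := ind (BlkP b n (2 * n))) (g := Cn (N \ (IV B : Set P2))) (incP_Cn _) (inTZ_Cn_inter N B)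
    (Cn_nonneg _) (incP_blkP b n (2 * n)) (inTZ_blkP b (by omega) (ball_sub_scale b hR.K4 hn))
    (ind_nonneg _) (Cn_nonneg _) (offTZ_Cn_diff N B)
  have hp := em_blkP hc hR hn b
  have e1 : E c Q (fun ω => Cn (N \ (IV B : Set P2)) ω * Cn (N ∩ (IV B : Set P2)) ω) = E c Q (Cn N) := by
    congr 1; funext ω; rw [← Cn_split N B]
  have e2 : E c Q (fun ω => Cn (N \ (IV B : Set P2)) ω *
      (Cn (N ∩ (IV B : Set P2)) ω * ind (BlkP b n (2 * n)) ω)) =
      E c Q (fun ω => Cn N ω * ind (BlkP b n (2 * n)) ω) := by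
    congr 1; funext ω; rw [Cn_split N B]; ring
  rw [e1, e2] at h
  have h0 : 0 ≤ E c Q (Cn N) := E_nonneg hc fun ω _ => Cn_nonneg N ω
  have := mul_le_mul_of_nonneg_left hp h0
  linarith

end Crest.Agent.R144.LmB702
end
end

-- ▼ part R144/LmB3_702
section

/-!
# R144, block BND / B2 (helper702), part 3: the height law with data `1` far away and `{0, 1}` on the near
non-free sites

`U` up triangles (weights), `N` constrained sites, `L` sites; `IF U N` = free sites `IV U \ N`;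
`LL U N L` = Lipschitz heights equal to `1` off `L` and `∈ {0, 1}` off `IF U N`;
`EL x U N L f` = expectation with the weights of the triangles of `U`.

* `EI_le_EL`  : `EI x U (IF U N) f ≤ EL x U N L f`, `f` increasing (Holley);
* `EL_refl`   : reflection at height `1`;
* `EL_le_of`  : `EL f ≤ C` if `ex x (IF U N) η f ≤ C` for all data `η ∈ {0, 1}`;
* `S0_eq`     : `E0 c L 1 [CK f]` is a multiple of `EL f`.
-/

set_option autoImplicit false
set_option linter.unusedSectionVars false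
set_option linter.unusedVariables false

noncomputable section

namespace Crest.Agent.R144.LmB702

open Finset
open Crest.Agent.R161.Lsm375 (LSM)
open Crest.Agent.R144.It844 (P2 Lip Cst adj_iff adj_symm lip_iff upT mem_upT tw E3 E3_eq_tw lsm_E3 holley
  lip_const)
open Crest.Agent.R144.Zg349 Crest.Agent.R144.Zk349 Crest.Agent.R144.Zd349 Crest.Agent.R144.Zm349
open Crest.Agent.R144.Ze349 Crest.Agent.R144.Zs349 Crest.Agent.R144.Zo349
open Crest.Agent.R144.Hf702 (htsI mem_htsI SI EI SI_one_pos tw_nonneg tw_mul iv_of_upT cr_mem)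
open Crest.Agent.R144.Rsw867
open Crest.Agent.R144.Bnd991
open Crest.Agent.R144.Bx695 (cw KcI)
open Crest.ProbabilityR.HexHeights (Adj)

open Classical in
/-- free sites -/
def IF (U : Finset P2) (N : Set P2) : Finset P2 := (IV U).filter fun v => v ∉ N

theorem mem_IF {U : Finset P2} {N : Set P2} {v : P2} : v ∈ IF U N ↔ v ∈ IV U ∧ v ∉ N := by
  classical
  unfold IF
  rw [Finset.mem_filter]

theorem IF_sub (U : Finset P2) (N : Set P2) : IF U N ⊆ IV U := fun v hv => (mem_IF.1 hv).1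

open Classical in
/-- heights `1` off `L`, `{0, 1}` off the free sites -/
def LL (U : Finset P2) (N : Set P2) (L : Finset P2) : Finset (P2 → ℤ) :=
  (It844.conf L fun _ => 1).filter fun h => ∀ v, v ∉ IF U N → h v = 0 ∨ h v = 1

theorem mem_LL {U : Finset P2} {N : Set P2} {L : Finset P2} {h : P2 → ℤ} :
    h ∈ LL U N L ↔ Lip h ∧ (∀ v, v ∉ L → h v = 1) ∧ ∀ v, v ∉ IF U N → h v = 0 ∨ h v = 1 := by
  classical
  unfold LL
  rw [Finset.mem_filter, It844.mem_conf, and_assoc]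

/-- unnormalised -/
def SL (x : ℝ) (U : Finset P2) (N : Set P2) (L : Finset P2) (f : (P2 → ℤ) → ℝ) : ℝ :=
  ∑ h ∈ LL U N L, (∏ t ∈ U, tw x h t) * f h
/-- expectation -/
def EL (x : ℝ) (U : Finset P2) (N : Set P2) (L : Finset P2) (f : (P2 → ℤ) → ℝ) : ℝ :=
  SL x U N L f / SL x U N L fun _ => 1

variable {x : ℝ} {U : Finset P2} {N : Set P2} {L : Finset P2}

theorem SL_one_pos (hx : 0 < x) : 0 < SL x U N L fun _ => 1 := by
  unfold SL
  refine Finset.sum_pos (fun h _ => ?_) ⟨fun _ => 1, mem_LL.2 ⟨lip_const 1, fun _ _ => rfl,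
    fun _ _ => Or.inr rfl⟩⟩
  rw [mul_one]
  exact Finset.prod_pos fun t _ => It844.tw_pos hx _ _

theorem EL_mono (hx : 0 < x) {f g : (P2 → ℤ) → ℝ} (h : ∀ a ∈ LL U N L, f a ≤ g a) :
    EL x U N L f ≤ EL x U N L g := by
  unfold EL
  refine div_le_div_of_nonneg_right ?_ (SL_one_pos hx).le
  exact Finset.sum_le_sum fun a ha => mul_le_mul_of_nonneg_left (h a ha)
    (Finset.prod_nonneg fun t _ => tw_nonneg x a t)

theorem EL_neg (f : (P2 → ℤ) → ℝ) : EL x U N L (fun h => -f h) = -EL x U N L f := by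
  unfold EL SL
  rw [← neg_div, ← Finset.sum_neg_distrib]
  congr 1
  exact Finset.sum_congr rfl fun h _ => by ring

/-- **Holley comparison** -/
theorem EI_le_EL (hx0 : 0 < x) (hx1 : x ≤ 1) (hL : ∀ v, v ∉ L → v ∉ IF U N)
    {f : (P2 → ℤ) → ℝ} (hf : ∀ a b : P2 → ℤ, a ≤ b → f a ≤ f b) :
    EI x U (IF U N) f ≤ EL x U N L f := by
  classical
  set I := IF U N with hI
  set μ : (P2 → ℤ) → ℝ := fun h => ∏ t ∈ U, E3 x h t with hμ
  have hμl : LSM μ := LSM.prod _ fun _ _ => lsm_E3 hx0.le hx1 _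
  have e1 : ∀ h ∈ LL U N L, μ h = ∏ t ∈ U, tw x h t := fun h hh =>
    Finset.prod_congr rfl fun t _ => E3_eq_tw x (mem_LL.1 hh).1 t
  have e2 : ∀ h ∈ htsI U I, μ h = ∏ t ∈ U, tw x h t := fun h hh =>
    Finset.prod_congr rfl fun t _ => E3_eq_tw x (mem_htsI.1 hh).1.toLip t
  have z1 : ∑ h ∈ LL U N L, μ h = SL x U N L fun _ => 1 := by
    unfold SL
    exact Finset.sum_congr rfl fun h hh => by rw [e1 h hh, mul_one]
  have z2 : ∑ h ∈ htsI U I, μ h = SI x U I fun _ => 1 := by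
    unfold SI
    exact Finset.sum_congr rfl fun h hh => by rw [e2 h hh, mul_one]
  have key := holley hμl (htsI U I) (LL U N L) (by rw [z2]; exact SI_one_pos x U I)
    (by rw [z1]; exact SL_one_pos hx0) (fun a ha b hb => ?_) (f := f) (fun a _ b _ h => hf a b h)
  · have l1 : EL x U N L f = (∑ a ∈ LL U N L, μ a * f a) / ∑ a ∈ LL U N L, μ a := by
      unfold EL
      rw [z1]
      congr 1
      unfold SL
      exact Finset.sum_congr rfl fun h hh => by rw [e1 h hh]
    have l2 : EI x U I f = (∑ b ∈ htsI U I, μ b * f b) / ∑ b ∈ htsI U I, μ b := by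
      unfold EI
      rw [z2]
      congr 1
      unfold SI
      exact Finset.sum_congr rfl fun h hh => by rw [e2 h hh]
    rw [l1, l2]
    exact key
  · rw [mem_htsI] at ha
    rw [mem_LL] at hb
    obtain ⟨hbL, hb1, hb2⟩ := hb
    have haL := ha.1.toLip
    refine ⟨mem_htsI.2 ⟨⟨fun t _ i j => lip_cr (haL.inf hbL) t i j, fun v hv => ?_, fun v hv => ?_⟩,
      fun v hv => ?_⟩, mem_LL.2 ⟨haL.sup hbL, fun v hv => ?_, fun v hv => ?_⟩⟩
    · have hv' : v ∉ I := fun h => hv (IF_sub U N h)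
      simp only [Pi.inf_apply]
      rcases ha.1.bd v hv with h | h <;> rcases hb2 v hv' with h' | h' <;> rw [h, h'] <;> decide
    · have hv' : v ∉ I := fun h => hv (IV_sub_VF U (IF_sub U N h))
      simp only [Pi.inf_apply, ha.1.off v hv]
      rcases hb2 v hv' with h' | h' <;> rw [h'] <;> decide
    · simp only [Pi.inf_apply]
      rcases ha.2 v hv with h | h <;> rcases hb2 v hv with h' | h' <;> rw [h, h'] <;> decide
    · simp only [Pi.sup_apply, hb1 v hv]
      rcases ha.2 v (hL v hv) with h | h <;> rw [h] <;> decide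
    · simp only [Pi.sup_apply]
      rcases ha.2 v hv with h | h <;> rcases hb2 v hv with h' | h' <;> rw [h, h'] <;> decide

theorem EL_le_EI (hx0 : 0 < x) (hx1 : x ≤ 1) (hL : ∀ v, v ∉ L → v ∉ IF U N)
    {f : (P2 → ℤ) → ℝ} (hf : ∀ a b : P2 → ℤ, a ≤ b → f b ≤ f a) :
    EL x U N L f ≤ EI x U (IF U N) f := by
  have h := EI_le_EL hx0 hx1 hL (f := fun h => -f h) fun a b hab => neg_le_neg (hf a b hab)
  have e : EI x U (IF U N) (fun h => -f h) = -EI x U (IF U N) f := by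
    unfold EI SI
    rw [← neg_div, ← Finset.sum_neg_distrib]
    congr 1
    exact Finset.sum_congr rfl fun h _ => by ring
  rw [EL_neg, e] at h
  linarith

/-! ### reflection at height `1` -/

theorem R_LL (hL : ∀ v, v ∉ L → v ∉ IF U N) {h : P2 → ℤ} (hh : h ∈ LL U N L) :
    Rfl38.R Adj {v | v ∉ IF U N} 1 h ∈ LL U N L := by
  rw [mem_LL] at hh ⊢
  obtain ⟨h1, h2, h3⟩ := hh
  refine ⟨Rfl38.lip_R h1, fun v hv => ?_, fun v hv => ?_⟩
  · rw [Rfl38.R_bd (show v ∈ {v | v ∉ IF U N} from hL v hv)]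
    exact h2 v hv
  · rw [Rfl38.R_bd (show v ∈ {v | v ∉ IF U N} from hv)]
    exact h3 v hv

open Classical in
/-- **reflection bound**: `Φ` odd under `h ↦ 2 - h` on `B` -/
theorem EL_refl (hx : 0 < x) (hL : ∀ v, v ∉ L → v ∉ IF U N) (B : Set P2) {Φ : (P2 → ℤ) → ℝ}
    (hΦ : ∀ h g : P2 → ℤ, (∀ v ∈ B, g v = 2 * 1 - h v) → Φ g = - Φ h) (hb : ∀ h, |Φ h| ≤ 1) :
    EL x U N L Φ ≤ EL x U N L fun h =>
      if ∃ v ∈ B, v ∈ Rfl38.Cl Adj {v | v ∉ IF U N} 1 h then 1 else 0 := by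
  have h0 := Rfl38.sum_le (adj := Adj) (Bd := {v | v ∉ IF U N}) (k := 1) (S := LL U N L)
    (W := fun h => ∏ t ∈ U, tw x h t) (B := B) (Φ := Φ) (fun h hh => R_LL hL hh)
    (fun h _ => Finset.prod_congr rfl fun u _ => by
      unfold tw; rw [if_congr (Rfl38.cst_R u) rfl rfl])
    (fun h _ => Finset.prod_nonneg fun t _ => tw_nonneg x h t) hΦ hb
  unfold EL
  refine div_le_div_of_nonneg_right ?_ (SL_one_pos hx).le
  exact (le_abs_self _).trans h0

/-! ### spatial Markov property -/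

theorem conf_comm {I : Finset P2} {h g : P2 → ℤ} (hh : Lip h) (hg : g ∈ It844.conf I h) :
    h ∈ It844.conf I g := by
  rw [It844.mem_conf] at *
  exact ⟨hh, fun v hv => (hg.2 v hv).symm⟩

theorem LL_of_conf (hL : ∀ v, v ∉ L → v ∉ IF U N) {h g : P2 → ℤ} (hh : h ∈ LL U N L)
    (hg : g ∈ It844.conf (IF U N) h) : g ∈ LL U N L := by
  rw [mem_LL] at *
  rw [It844.mem_conf] at hg
  refine ⟨hg.1, fun v hv => ?_, fun v hv => ?_⟩
  · rw [hg.2 v (hL v hv)]; exact hh.2.1 v hv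
  · rw [hg.2 v hv]; exact hh.2.2 v hv

theorem upT_IF (U : Finset P2) (N : Set P2) : upT (IF U N) ⊆ U := by
  intro t ht
  obtain ⟨v, hv, hvt⟩ := mem_upT_iff.1 ht
  exact mem_IV'.1 (IF_sub U N hv) t hvt

theorem EL_le_of (hx : 0 < x) (hL : ∀ v, v ∉ L → v ∉ IF U N) {f : (P2 → ℤ) → ℝ} {C : ℝ}
    (hC : ∀ η : P2 → ℤ, Lip η → (∀ v, v ∉ IF U N → η v = 0 ∨ η v = 1) →
      It844.ex x (IF U N) η f ≤ C) : EL x U N L f ≤ C := by
  classical
  set I := IF U N with hI
  set rest : (P2 → ℤ) → ℝ := fun h => ∏ t ∈ U \ upT I, tw x h t with hrest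
  have hsplit : ∀ h : P2 → ℤ, ∏ t ∈ U, tw x h t = rest h * It844.wt x I h := by
    intro h
    unfold It844.wt
    rw [← Finset.prod_sdiff (upT_IF U N)]
  have hrc : ∀ h g : P2 → ℤ, g ∈ It844.conf I h → rest g = rest h := by
    intro h g hg
    rw [It844.mem_conf] at hg
    refine Finset.prod_congr rfl fun t ht => ?_
    obtain ⟨-, ht2⟩ := Finset.mem_sdiff.1 ht
    have hc : ∀ v ∈ up t, g v = h v := fun v hv => hg.2 v fun hvI => ht2 (mem_upT_iff.2 ⟨v, hvI, hv⟩)
    have k1 := hc t (base_mem_up t)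
    have k2 := hc (t.1 + 1, t.2) (Zg349.mem_up.2 (Or.inr (Or.inl rfl)))
    have k3 := hc (t.1, t.2 + 1) (Zg349.mem_up.2 (Or.inr (Or.inr rfl)))
    have k : Cst g t ↔ Cst h t := by
      unfold Cst
      rw [k1, k2, k3]
    unfold tw
    exact if_congr k rfl rfl
  have hZc : ∀ h g : P2 → ℤ, g ∈ It844.conf I h → It844.Z x I g = It844.Z x I h := by
    intro h g hg
    unfold It844.Z
    rw [It844.conf_congr fun v hv => (It844.mem_conf.1 hg).2 v hv]
  have hZp : ∀ h ∈ LL U N L, 0 < It844.Z x I h := fun h hh => It844.Z_pos hx (mem_LL.1 hh).1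
  -- symmetric double sum
  have s1 : SL x U N L f = ∑ h ∈ LL U N L, ∑ g ∈ It844.conf I h,
      rest h * It844.wt x I h * It844.wt x I g * (It844.Z x I h)⁻¹ * f h := by
    unfold SL
    refine Finset.sum_congr rfl fun h hh => ?_
    have : ∑ g ∈ It844.conf I h, rest h * It844.wt x I h * It844.wt x I g * (It844.Z x I h)⁻¹ * f h =
        rest h * It844.wt x I h * f h * ((It844.Z x I h)⁻¹ * ∑ g ∈ It844.conf I h, It844.wt x I g) := by
      rw [Finset.mul_sum, Finset.mul_sum]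
      exact Finset.sum_congr rfl fun g _ => by ring
    rw [this]
    have hz : (It844.Z x I h)⁻¹ * ∑ g ∈ It844.conf I h, It844.wt x I g = 1 :=
      inv_mul_cancel₀ (hZp h hh).ne'
    rw [hz, hsplit]
    ring
  have s2 : ∑ h ∈ LL U N L, ∑ g ∈ It844.conf I h,
      rest h * It844.wt x I h * It844.wt x I g * (It844.Z x I h)⁻¹ * f h =
      ∑ g ∈ LL U N L, ∑ h ∈ It844.conf I g,
        rest h * It844.wt x I h * It844.wt x I g * (It844.Z x I h)⁻¹ * f h := by
    refine Finset.sum_comm' fun h g => ?_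
    constructor
    · rintro ⟨h1, h2⟩
      exact ⟨conf_comm (mem_LL.1 h1).1 h2, LL_of_conf hL h1 h2⟩
    · rintro ⟨h1, h2⟩
      exact ⟨LL_of_conf hL h2 h1, conf_comm (mem_LL.1 h2).1 h1⟩
  have s3 : ∑ g ∈ LL U N L, ∑ h ∈ It844.conf I g,
        rest h * It844.wt x I h * It844.wt x I g * (It844.Z x I h)⁻¹ * f h ≤
      ∑ g ∈ LL U N L, rest g * It844.wt x I g * C := by
    refine Finset.sum_le_sum fun g hg => ?_
    have e : ∑ h ∈ It844.conf I g,
        rest h * It844.wt x I h * It844.wt x I g * (It844.Z x I h)⁻¹ * f h =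
        rest g * It844.wt x I g * It844.ex x I g f := by
      unfold It844.ex
      rw [smul_eq_mul, Finset.mul_sum, Finset.mul_sum]
      refine Finset.sum_congr rfl fun h hh => ?_
      rw [hrc g h hh, hZc g h hh, smul_eq_mul]
      ring
    rw [e]
    have hg' := mem_LL.1 hg
    refine mul_le_mul_of_nonneg_left (hC g hg'.1 hg'.2.2) (mul_nonneg ?_ (It844.wt_nonneg _ _ _))
    exact Finset.prod_nonneg fun t _ => tw_nonneg x g t
  have s4 : ∑ g ∈ LL U N L, rest g * It844.wt x I g * C = C * SL x U N L fun _ => 1 := by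
    unfold SL
    rw [Finset.mul_sum]
    exact Finset.sum_congr rfl fun g _ => by rw [hsplit]; ring
  unfold EL
  rw [div_le_iff₀ (SL_one_pos hx), s1, s2, ← s4]
  exact s3

/-! ### the law with closed triangles -/

theorem sum_zs_kc' (c : ℝ) {F X : Finset P2} {h : P2 → ℤ} (hh : Lip h) (hX : X ⊆ F)
    (hC : ∀ t ∈ X, C1 h t) :
    ∑ z ∈ zs F, wt c F (h, z) * KcI X (h, z) = ∏ t ∈ F \ X, cw c h t := by
  classical
  rw [sum_zs]
  set A : P2 → ℝ := fun t => if C1 h t then (1 : ℝ) else 0 with hA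
  set B : P2 → ℝ := fun t => if t ∈ X then (0 : ℝ) else
    (if C2 h t then (if C1 h t then c - 1 else 1) else 0) with hB
  have h1 : ∀ t ∈ F, A t + B t = if t ∈ X then (if C1 h t then (1 : ℝ) else 0) else cw c h t := by
    intro t ht
    have k1 := cst_iff (h := h) (t := t) (lip_cr hh t)
    have k2 := c1_or_c2 (h := h) (t := t) (lip_cr hh t)
    simp only [hA, hB, cw]
    by_cases hX : t ∈ X
    · rw [if_pos hX, if_pos hX, add_zero]
    · rw [if_neg hX, if_neg hX]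
      by_cases a : C1 h t
      · by_cases b : C2 h t
        · rw [if_pos (k1.2 ⟨a, b⟩), if_pos a, if_pos b, if_pos a]; ring
        · rw [if_neg (fun e => b (k1.1 e).2), if_pos a, if_neg b]; ring
      · have b := k2.resolve_left a
        rw [if_neg (fun e => a (k1.1 e).1), if_neg a, if_pos b, if_neg a]; ring
  have h2 : (∏ t ∈ F \ X, cw c h t) = ∏ t ∈ F, (A t + B t) := by
    rw [Finset.prod_congr rfl h1, ← Finset.prod_sdiff hX]
    have e : ∏ t ∈ X, (if t ∈ X then (if C1 h t then (1 : ℝ) else 0) else cw c h t) = 1 :=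
      Finset.prod_eq_one fun t ht => by rw [if_pos ht, if_pos (hC t ht)]
    rw [e, mul_one]
    exact Finset.prod_congr rfl fun t ht => (if_neg (Finset.mem_sdiff.1 ht).2).symm
  rw [h2, Finset.prod_add]
  refine Finset.sum_congr rfl fun Z hZ => ?_
  rw [Finset.mem_powerset] at hZ
  have h3 : KcI X (h, zb F Z) = ∏ t ∈ F \ Z, if t ∈ X then (0 : ℝ) else 1 := by
    rw [show (∏ t ∈ F \ Z, if t ∈ X then (0 : ℝ) else 1) = ∏ t ∈ F \ Z, if t ∉ X then (1 : ℝ) else 0 from
      Finset.prod_congr rfl fun t _ => by by_cases hX : t ∈ X <;> simp [hX], Finset.prod_ite_zero]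
    unfold KcI
    have e2 : (∀ t ∈ X, zb F Z t = true) ↔ ∀ t ∈ F \ Z, t ∉ X := by
      constructor
      · intro a t ht hX
        have := a t hX
        unfold zb at this
        rw [decide_eq_true_eq] at this
        rw [Finset.mem_sdiff] at ht
        rcases this with h | h
        · exact h ht.1
        · exact ht.2 h
      · intro a t hX
        unfold zb
        rw [decide_eq_true_eq]
        by_contra hcon
        push Not at hcon
        exact a t (Finset.mem_sdiff.2 hcon) hX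
    by_cases hc : ∀ t ∈ X, zb F Z t = true
    · rw [if_pos hc, if_pos (e2.1 hc)]; simp
    · rw [if_neg hc, if_neg fun a => hc (e2.2 a)]
  rw [h3]
  unfold wt
  rw [← Finset.prod_inter_mul_prod_sdiff F Z, Finset.inter_eq_right.2 hZ, mul_assoc,
    ← Finset.prod_mul_distrib]
  congr 1
  · refine Finset.prod_congr rfl fun t ht => ?_
    have : zb F Z t = true := by unfold zb; rw [decide_eq_true_eq]; exact Or.inr ht
    unfold ew
    rw [if_pos this]
  · refine Finset.prod_congr rfl fun t ht => ?_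
    obtain ⟨h1, h2⟩ := Finset.mem_sdiff.1 ht
    have : ¬ zb F Z t = true := by
      unfold zb; rw [decide_eq_true_eq]; push Not; exact ⟨h1, h2⟩
    unfold ew
    rw [if_neg this]
    simp only [hB]
    by_cases hX : t ∈ X
    · rw [if_pos hX, if_pos hX, mul_zero]
    · rw [if_neg hX, if_neg hX, mul_one]

/-- the extra triangles -/
def XX (U L : Finset P2) : Set P2 := {t | t ∈ upT L ∧ t ∉ U}

/-- geometric data: `N` connected with a site off `L`, non-free sites of `L` in `N` -/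
structure Geo (U : Finset P2) (N : Set P2) (L : Finset P2) : Prop where
  conn : IsConn N
  out : ∃ v ∈ N, v ∉ L
  nonfree : ∀ v, v ∉ L → v ∉ IF U N
  near : ∀ v ∈ L, v ∉ IV U → v ∈ N

/-- heights on `N` -/
theorem Geo.ht01 (hG : Geo U N L) {h : P2 → ℤ} (hl : Lip h) (h1 : ∀ v, v ∉ L → h v = 1)
    (hC : ∀ v ∈ N, s1 (h v) = true) {v : P2} (hv : v ∈ N) : h v = 0 ∨ h v = 1 := by
  obtain ⟨u, hu, hu'⟩ := hG.out
  have hp := hG.conn u hu v hv
  induction hp with
  | refl => exact Or.inr (h1 u hu')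
  | @tail b d _ hbd ih =>
    have i1 := ih hbd.1
    have i2 := s1_true.1 (hC d hbd.2.1)
    have i3 := abs_le.1 (lip_adj hl hbd.2.2)
    omega

theorem Geo.mem_LL_iff (hG : Geo U N L) {h : P2 → ℤ} (hh : h ∈ It844.conf L fun _ => 1) :
    h ∈ LL U N L ↔ ∀ v ∈ N, s1 (h v) = true := by
  rw [It844.mem_conf] at hh
  rw [mem_LL]
  constructor
  · rintro ⟨_, _, h3⟩ v hv
    exact s1_true.2 (by rcases h3 v (fun h' => (mem_IF.1 h').2 hv) with h | h <;> rw [h] <;> norm_num)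
  · intro hC
    refine ⟨hh.1, hh.2, fun v hv => ?_⟩
    by_cases hL : v ∈ L
    · rw [mem_IF, not_and_not_right] at hv
      by_cases hI : v ∈ IV U
      · exact hG.ht01 hh.1 hh.2 hC (hv hI)
      · exact hG.ht01 hh.1 hh.2 hC (hG.near v hL hI)
    · exact Or.inr (hh.2 v hL)

/-- **the law with fixed data and closed triangles, as a height law** -/
theorem S0_eq {c : ℝ} (hcx : c * x ^ 2 = 1) (hG : Geo U N L) (f : (P2 → ℤ) → ℝ) :
    S0 c L (fun _ => 1) (fun ω => CK N (XX U L) ω * f ω.1) =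
      c ^ (upT L \ (upT L \ U)).card * SL x U N L f := by
  classical
  unfold S0 cf
  rw [Finset.sum_product]
  have key : ∀ h ∈ It844.conf L fun _ => 1, ∑ z ∈ zs (upT L), wt c (upT L) (h, z) *
      (CK N (XX U L) (h, z) * f h) =
      if h ∈ LL U N L then c ^ (upT L \ (upT L \ U)).card * ((∏ t ∈ U, tw x h t) * f h) else 0 := by
    intro h hh
    by_cases hm : h ∈ LL U N L
    · rw [if_pos hm]
      have hC := (hG.mem_LL_iff hh).1 hm
      obtain ⟨hl, h1, h3⟩ := mem_LL.1 hm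
      have hXc : ∀ t ∈ upT L \ U, ∀ v ∈ up t, h v = 0 ∨ h v = 1 := fun t ht v hv =>
        h3 v fun hI => (Finset.mem_sdiff.1 ht).2 (mem_IV'.1 (IF_sub U N hI) t hv)
      have hC1 : ∀ t ∈ upT L \ U, C1 h t := fun t ht => by
        have k : ∀ i, s1 (h (cr t i)) = true := fun i =>
          s1_true.2 (by rcases hXc t ht _ (cr_mem_up t i) with h | h <;> rw [h] <;> norm_num)
        exact ⟨by rw [k, k], by rw [k, k]⟩
      have e1 : ∀ z : P2 → Bool, CK N (XX U L) (h, z) = KcI (upT L \ U) (h, z) := by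
        intro z
        unfold CK
        rw [Cn_of (N := N) (ω := ((h, z) : Cfg)) hC, one_mul]
        unfold Kn KcI
        refine if_congr ?_ rfl rfl
        constructor
        · intro a t ht
          rw [Finset.mem_sdiff] at ht
          exact (a t ht).1
        · intro a t ht
          have ht' : t ∈ upT L \ U := Finset.mem_sdiff.2 ht
          exact ⟨a t ht', s1_true.2 (by
            rcases hXc t ht' t (base_mem_up t) with h | h <;> simp only [h] <;> norm_num)⟩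
      have e2 := sum_zs_kc' c (F := upT L) hl Finset.sdiff_subset hC1
      calc ∑ z ∈ zs (upT L), wt c (upT L) (h, z) * (CK N (XX U L) (h, z) * f h)
          = (∑ z ∈ zs (upT L), wt c (upT L) (h, z) * KcI (upT L \ U) (h, z)) * f h := by
            rw [Finset.sum_mul]
            exact Finset.sum_congr rfl fun z _ => by rw [e1 z]; ring
        _ = (∏ t ∈ upT L \ (upT L \ U), cw c h t) * f h := by rw [e2]
        _ = (c ^ (upT L \ (upT L \ U)).card * ∏ t ∈ U, tw x h t) * f h := by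
            congr 1
            have hsub : upT L \ (upT L \ U) ⊆ U := fun t ht => by
              rw [Finset.mem_sdiff, Finset.mem_sdiff] at ht
              by_contra hn
              exact ht.2 ⟨ht.1, hn⟩
            have hone : ∏ t ∈ U \ (upT L \ (upT L \ U)), tw x h t = 1 := by
              refine Finset.prod_eq_one fun t ht => ?_
              rw [Finset.mem_sdiff, Finset.mem_sdiff, Finset.mem_sdiff] at ht
              have htL : t ∉ upT L := fun h' => ht.2 ⟨h', fun h'' => h''.2 ht.1⟩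
              have hc : ∀ v ∈ up t, h v = 1 := fun v hv => h1 v fun hvL =>
                htL (mem_upT_iff.2 ⟨v, hvL, hv⟩)
              have k1 := hc t (base_mem_up t)
              have k2 := hc (t.1 + 1, t.2) (Zg349.mem_up.2 (Or.inr (Or.inl rfl)))
              have k3 := hc (t.1, t.2 + 1) (Zg349.mem_up.2 (Or.inr (Or.inr rfl)))
              unfold tw
              exact if_pos ⟨by rw [k1, k2], by rw [k1, k3]⟩
            rw [← Finset.prod_sdiff hsub, hone, one_mul, ← Finset.prod_const,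
              ← Finset.prod_mul_distrib]
            refine Finset.prod_congr rfl fun t _ => ?_
            unfold cw tw
            split_ifs
            · ring
            · exact hcx.symm
        _ = _ := by ring
    · rw [if_neg hm]
      have hC : ¬ ∀ v ∈ N, s1 (h v) = true := fun h' => hm ((hG.mem_LL_iff hh).2 h')
      refine Finset.sum_eq_zero fun z _ => ?_
      unfold CK
      rw [Cn_of_not (N := N) (ω := ((h, z) : Cfg)) hC]
      ring
  refine (Finset.sum_congr rfl key).trans ?_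
  rw [← Finset.sum_filter]
  unfold SL
  rw [Finset.mul_sum]
  refine Finset.sum_congr ?_ fun _ _ => rfl
  ext h
  rw [Finset.mem_filter]
  refine ⟨fun a => a.2, fun a => ⟨?_, a⟩⟩
  obtain ⟨a1, a2, -⟩ := mem_LL.1 a
  exact It844.mem_conf.2 ⟨a1, a2⟩

/-- `E0 [CK f] = E0 [CK] * EL f` -/
theorem E0_eq {c : ℝ} (hc : 1 ≤ c) (hx : 0 < x) (hcx : c * x ^ 2 = 1) (hG : Geo U N L)
    (f : (P2 → ℤ) → ℝ) :
    E0 c L (fun _ => 1) (fun ω => CK N (XX U L) ω * f ω.1) =
      E0 c L (fun _ => 1) (CK N (XX U L)) * EL x U N L f := by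
  have h1 := S0_eq hcx hG f
  have h2 := S0_eq hcx hG fun _ => 1
  simp only [mul_one] at h2
  have hp := SL_one_pos (U := U) (N := N) (L := L) hx
  unfold E0 EL
  rw [h1, h2]
  field_simp

end Crest.Agent.R144.LmB702
end
end

-- ▼ part R144/LmB4_702
section

/-!
# R144, block BND / B2 (helper702), part 4: lower bound of the mean of a bounded odd function under the law
with data `1`

* `E_rfl` : `E c B` is invariant under `h ↦ 1 - h` (with the closed triangles unchanged);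
* `E0_piece` : the conditioned law with data `1`, explored from outside until a plus closed layer;
* `EL_ge` : `EL [clip ((1 - Y) / T)] ≥ (1 - ε - C / (T - 1/2)²) / (2 T) - ε`.
-/

set_option autoImplicit false
set_option linter.unusedSectionVars false
set_option linter.unusedVariables false

noncomputable section

namespace Crest.Agent.R144.LmB702

open Finset
open Crest.Agent.R144.It844 (P2 Lip Cst adj_iff adj_symm lip_iff upT mem_upT tw)
open Crest.Agent.R144.Zg349 Crest.Agent.R144.Zk349 Crest.Agent.R144.Zd349 Crest.Agent.R144.Zm349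
open Crest.Agent.R144.Ze349 Crest.Agent.R144.Zs349 Crest.Agent.R144.Zo349
open Crest.Agent.R144.Hf702 (htsI mem_htsI htsI_self rfl1 rfl1_invol rfl1_mem flat_mem Ln PB PBI PBI_nonneg
  offTZ_PBI sum_PBI PLay pLay_of_PBI Bg_sub conn_ball self_mem_ball sc_of_PBI ind_le_sum sum_filter_le_one
  cr_mem)
open Crest.Agent.R144.Rsw867
open Crest.Agent.R144.Bnd991 hiding ht01 lev0
open Crest.ProbabilityR.HexHeights (Adj)

/-! ### the reflection `h ↦ 1 - h` -/

/-- `h ↦ 1 - h` on the sites of `B` -/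
def rflc (B : Finset P2) (ω : Cfg) : Cfg := (rfl1 B ω.1, ω.2)

theorem rflc_invol (B : Finset P2) (ω : Cfg) : rflc B (rflc B ω) = ω :=
  Prod.ext (rfl1_invol B ω.1) rfl

theorem s1_rfl1 (B : Finset P2) (h : P2 → ℤ) (v : P2) : s1 (rfl1 B h v) = s1 (h v) := by
  unfold rfl1
  split_ifs
  · exact s1_refl _
  · rfl

theorem valid_rflc {B : Finset P2} {ω : Cfg} (h : Valid B ω) : Valid B (rflc B ω) := by
  have h1 : ω.1 ∈ htsI B (IV B) := by rw [htsI_self]; exact mem_hts.2 h.ht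
  have h2 := rfl1_mem h1
  rw [htsI_self, mem_hts] at h2
  exact ⟨h2, h.cl⟩

theorem ew_rflc (c : ℝ) {B : Finset P2} {ω : Cfg} {t : P2} (ht : t ∈ B) :
    ew c (rflc B ω) t = ew c ω t := by
  have e1 : C1 (rfl1 B ω.1) t ↔ C1 ω.1 t := by
    unfold C1
    rw [s1_rfl1, s1_rfl1, s1_rfl1]
  have e2 : C2 (rfl1 B ω.1) t ↔ C2 ω.1 t := by
    have k : ∀ i, s2 (rfl1 B ω.1 (cr t i)) = !s2 (ω.1 (cr t i)) := fun i => by
      unfold rfl1
      rw [if_pos (cr_mem ht i), s2_refl]
    unfold C2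
    rw [k, k, k]
    simp only [Bool.not_eq_eq_eq_not, Bool.not_not]
  unfold ew rflc
  simp only [e1, e2]

theorem E_rfl (c : ℝ) (B : Finset P2) (f : Cfg → ℝ) : E c B (fun ω => f (rflc B ω)) = E c B f := by
  rw [E_eq_div, E_eq_div]
  congr 1
  refine Finset.sum_nbij' (i := rflc B) (j := rflc B) (fun ω hω => ?_) (fun ω hω => ?_)
    (fun ω _ => rflc_invol B ω) (fun ω _ => rflc_invol B ω) fun ω hω => ?_
  · rw [mem_conf] at *; exact valid_rflc hω
  · rw [mem_conf] at *; exact valid_rflc hω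
  · congr 1
    unfold wt
    exact (Finset.prod_congr rfl fun t ht => ew_rflc c ht).symm

theorem CKi_rflc (N X : Set P2) (B : Finset P2) (ω : Cfg) : CKi N X B (rflc B ω) = CKi N X B ω := by
  unfold CKi
  congr 1
  · refine Cn_congr ⟨fun h v hv => ?_, fun h v hv => ?_⟩
    · rw [← s1_rfl1 B]; exact h v hv
    · show s1 (rfl1 B ω.1 v) = true
      rw [s1_rfl1 B]; exact h v hv
  · refine Kn_congr ⟨fun h v hv => ?_, fun h v hv => ?_⟩
    · refine ⟨(h v hv).1, ?_⟩
      rw [← s1_rfl1 B]; exact (h v hv).2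
    · refine ⟨(h v hv).1, ?_⟩
      show s1 (rfl1 B ω.1 v) = true
      rw [s1_rfl1 B]; exact (h v hv).2

/-! ### the clipped function -/

/-- `(1 - y) / T` clipped to `[-1, 1]` -/
def clp (T y : ℝ) : ℝ := max (-1) (min 1 ((1 - y) / T))

theorem clp_abs (T y : ℝ) : |clp T y| ≤ 1 := by
  unfold clp
  rw [abs_le]
  exact ⟨le_max_left _ _, max_le (by norm_num) (min_le_left _ _)⟩

theorem clp_odd (T y : ℝ) : clp T (2 - y) = -clp T y := by
  unfold clp
  have e : (1 - (2 - y)) / T = -((1 - y) / T) := by ring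
  rw [e]
  generalize (1 - y) / T = a
  rcases le_total a 1 with h1 | h1 <;> rcases le_total (-1) a with h2 | h2
  · rw [min_eq_right h1, max_eq_right h2, min_eq_right (by linarith), max_eq_right (by linarith)]
  · rw [min_eq_right h1, max_eq_left h2, min_eq_left (by linarith), max_eq_right (by linarith), neg_neg]
  · have e1 : min (1 : ℝ) (-a) = -a := min_eq_right (by linarith)
    have e2 : max (-1 : ℝ) (-a) = -1 := max_eq_left (by linarith)
    have e3 : max (-1 : ℝ) 1 = 1 := max_eq_right (by norm_num)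
    rw [min_eq_left h1, e1, e2, e3]
  · linarith

theorem clp_pair {T : ℝ} (y : ℝ) (hT : 1 ≤ T) :
    1 / T * (1 - (y - 1 / 2) ^ 2 / (T - 1 / 2) ^ 2) ≤ clp T y + clp T (1 - y) := by
  have hT0 : 0 < T := by linarith
  have hT2 : 0 < (T - 1 / 2) ^ 2 := by
    have : 0 < T - 1 / 2 := by linarith
    positivity
  have big : (T - 1 / 2) ^ 2 ≤ (y - 1 / 2) ^ 2 →
      1 / T * (1 - (y - 1 / 2) ^ 2 / (T - 1 / 2) ^ 2) ≤ 0 := by
    intro h
    refine mul_nonpos_of_nonneg_of_nonpos (by positivity) ?_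
    rw [sub_nonpos, le_div_iff₀ hT2, one_mul]
    exact h
  have lo : ∀ z, -1 ≤ clp T z := fun z => le_max_left _ _
  by_cases h1 : T < y
  · have e : clp T (1 - y) = 1 := by
      unfold clp
      have : (1 : ℝ) ≤ (1 - (1 - y)) / T := by rw [le_div_iff₀ hT0]; linarith
      rw [min_eq_left this, max_eq_right (by norm_num)]
    have := big (by nlinarith)
    have := lo y
    rw [e]; linarith
  by_cases h2 : T < 1 - y
  · have e : clp T y = 1 := by
      unfold clp
      have : (1 : ℝ) ≤ (1 - y) / T := by rw [le_div_iff₀ hT0]; linarith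
      rw [min_eq_left this, max_eq_right (by norm_num)]
    have := big (by nlinarith)
    have := lo (1 - y)
    rw [e]; linarith
  · have a1 : (1 - y) / T ≤ 1 := by rw [div_le_iff₀ hT0]; linarith
    have a2 : -1 ≤ (1 - y) / T := by rw [le_div_iff₀ hT0]; linarith
    have a3 : (1 - (1 - y)) / T ≤ 1 := by rw [div_le_iff₀ hT0]; linarith
    have a4 : -1 ≤ (1 - (1 - y)) / T := by rw [le_div_iff₀ hT0]; linarith
    unfold clp
    rw [min_eq_right a1, max_eq_right a2, min_eq_right a3, max_eq_right a4]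
    have e : (1 - y) / T + (1 - (1 - y)) / T = 1 / T := by ring
    rw [e]
    have h3 : 0 ≤ (y - 1 / 2) ^ 2 / (T - 1 / 2) ^ 2 := by positivity
    have h4 : 0 ≤ 1 / T := by positivity
    nlinarith

/-! ### gluing -/

/-- the flat configuration -/
def flt : Cfg := (fun _ => 0, fun _ => true)

theorem valid_flt (B : Finset P2) : Valid B flt := ⟨mem_hts.1 (flat_mem B), fun _ _ => rfl⟩

variable {x : ℝ} {U : Finset P2} {N X : Set P2} {L B : Finset P2}

theorem CKi_glue {ω ω' : Cfg} (hB : SC B) (hl : Lip ω.1) (hL : Lay true B ω) :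
    CKi N X B (glue true B ω ω') = CKi N X B ω' := by
  have key : ∀ v ∈ VF B, (s1 ((glue true B ω ω').1 v) = true ↔ s1 (ω'.1 v) = true) := fun v hv => by
    rw [glue_in hv, s1_lev (lev_mod hB hl hL hv)]
  unfold CKi
  congr 1
  · exact Cn_congr ⟨fun h v hv => (key v (IV_sub_VF B hv.2)).1 (h v hv),
      fun h v hv => (key v (IV_sub_VF B hv.2)).2 (h v hv)⟩
  · refine Kn_congr ⟨fun h t ht => ?_, fun h t ht => ?_⟩
    · obtain ⟨h1, h2⟩ := h t ht
      rw [glue_z (show t ∈ B from ht.2)] at h1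
      exact ⟨h1, (key t (mem_VF.2 ⟨t, ht.2, base_mem_up t⟩)).1 h2⟩
    · obtain ⟨h1, h2⟩ := h t ht
      refine ⟨?_, (key t (mem_VF.2 ⟨t, ht.2, base_mem_up t⟩)).2 h2⟩
      rw [glue_z (show t ∈ B from ht.2)]
      exact h1

/-- the level is `0` at the sites of `N` -/
theorem lev0_E0 (hG : Geo U N L) (hB : SC B) (hBL : VF B ⊆ L) {ω : Cfg}
    (hω : ω ∈ cf L fun _ => 1) (hL : Lay true B ω) (hC : CKo N X B ω ≠ 0) {v : P2} (hv : v ∈ N)
    (hvB : v ∈ VF B) : lev true B ω v = 0 := by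
  have hl := (mem_cf.1 hω).1.1
  have hval := valid_flt B
  have hg := glue_mem_cf hB hBL hω hL hval
  have hgl := (mem_cf.1 hg).1
  have hCn : ∀ v ∈ N, s1 ((glue true B ω flt).1 v) = true := by
    have h1 : Cn (N \ (IV B : Set P2)) ω ≠ 0 := left_ne_zero_of_mul hC
    rw [Cn_ne] at h1
    intro v hv
    by_cases h2 : v ∈ IV B
    · have h3 := IV_sub_VF B h2
      rw [glue_in h3, s1_lev (lev_mod hB hl hL h3)]
      show s1 0 = true
      decide
    · rw [glue_s1_off hB hl hL hval h2]; exact h1 v ⟨hv, h2⟩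
  have h01 := hG.ht01 hgl.1 (fun v hv => hgl.2 v hv) hCn hv
  rw [glue_in hvB] at h01
  have h3 : lev true B ω v % 4 = 0 := lev_mod hB hl hL hvB
  have h4 : flt.1 v = 0 := rfl
  rw [h4] at h01
  omega

/-- the level is constant on a connected region -/
theorem lev_reg {W : Finset P2} (hW : SC W) {ω : Cfg} (hl : Lip ω.1) (hL : Lay true W ω) {M : Set P2}
    (hM : IsConn M) (hMW : ∀ t ∈ M, t ∈ W) {t0 v0 : P2} (ht0 : t0 ∈ M) (hv0 : v0 ∈ up t0)
    (h0 : lev true W ω v0 = 0) {t v : P2} (ht : t ∈ M) (hv : v ∈ up t) : lev true W ω v = 0 := by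
  have key : ∀ t, Relation.ReflTransGen (StepIn M) t0 t → ∀ v ∈ up t, lev true W ω v = 0 := by
    intro t hp
    induction hp with
    | refl =>
      intro v hv
      obtain ⟨i, rfl⟩ := mem_up_iff.1 hv0
      obtain ⟨j, rfl⟩ := mem_up_iff.1 hv
      rw [← lev_tri hW hl hL (hMW t0 ht0) i j]
      exact h0
    | @tail b d _ hbd ih =>
      intro v hv
      obtain ⟨w, hw1, hw2⟩ := adj_site hbd.2.2
      obtain ⟨i, rfl⟩ := mem_up_iff.1 hw2
      obtain ⟨j, rfl⟩ := mem_up_iff.1 hv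
      rw [← lev_tri hW hl hL (hMW d hbd.2.1) i j]
      exact ih _ hw1
  exact key t (hM t0 ht0 t ht) v hv

/-- the layer event of the exploration -/
theorem lay_of_PBI {c : ℝ} {D : Finset P2} {ξ : P2 → ℤ} (hBL : VF B ⊆ L) {ω : Cfg}
    (hw : wt c (upT L) ω ≠ 0) (h : PBI D B ω ≠ 0) : Lay true B ω := by
  refine lay_of' hBL hw fun t ht h1 => ?_
  obtain ⟨v, hv, hvt⟩ := h1
  obtain ⟨t', ht', hv'⟩ := mem_VF.1 hv
  exact pLay_of_PBI h t' ht' t ht (adj_of_site (fun e => ht (e ▸ ht')) hv' hvt)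

/-- **the conditioned law on one unexplored domain** -/
theorem E0_piece {c : ℝ} (hc : 1 ≤ c) (hG : Geo U N L) {D : Finset P2} (hB : SC B)
    (hBL : VF B ⊆ L) {M : Finset P2} (hM : IsConn (M : Set P2)) (hMB : M ⊆ B)
    {t0 v0 : P2} (ht0 : t0 ∈ M) (hv0 : v0 ∈ up t0) (hv0N : v0 ∈ N) {S : Finset P2} (hS : S ⊆ VF M)
    {f : (P2 → ℤ) → ℝ} (hf : ∀ h g : P2 → ℤ, (∀ v ∈ S, h v = g v) → f h = f g) :
    E0 c L (fun _ => 1) (fun ω => PBI D B ω * (CK N X ω * f ω.1)) =
      E0 c L (fun _ => 1) (fun ω => PBI D B ω * CKo N X B ω) *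
        E c B (fun ω => CKi N X B ω * f ω.1) := by
  have e := E0_dec (c := c) (Λ := L) (ξ := fun _ => 1) (e := true) hc hB hBL
    (Ψ := fun ω => PBI D B ω * (CK N X ω * f ω.1)) (g := fun ω => PBI D B ω * CKo N X B ω)
    (φ := fun _ ω' => CKi N X B ω' * f ω'.1) (fun ω hω hw hL => by
      have h0 : PBI D B ω = 0 := by
        by_contra h
        exact hL (lay_of_PBI (ξ := fun _ => 1) hBL hw h)
      simp only [h0, zero_mul, and_self]) (fun ω ω' hω hw hL hω' => by
      have hl := (mem_cf.1 hω).1.1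
      have e1 := offTZ_glue hB hl hL hω' (offTZ_PBI D B)
      have e2 := offTZ_glue hB hl hL hω' (offTZ_CKo N X B)
      have e3 : CKi N X B (glue true B ω ω') = CKi N X B ω' := CKi_glue hB hl hL
      simp only [CK_split N X B (glue true B ω ω'), e1, e2, e3]
      by_cases hC : CKo N X B ω = 0
      · rw [hC]; ring
      · have h0 : lev true B ω v0 = 0 := lev0_E0 hG hB hBL hω hL hC hv0N
          (mem_VF.2 ⟨t0, hMB ht0, hv0⟩)
        have h1 : f (glue true B ω ω').1 = f ω'.1 := by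
          refine hf _ _ fun v hv => ?_
          obtain ⟨t, ht, hvt⟩ := mem_VF.1 (hS hv)
          rw [glue_in (mem_VF.2 ⟨t, hMB ht, hvt⟩),
            lev_reg hB hl hL hM (fun t ht => hMB (Finset.mem_coe.1 ht)) (Finset.mem_coe.2 ht0) hv0 h0
              (Finset.mem_coe.2 ht) hvt, zero_add]
        rw [h1]; ring)
  rw [e]
  have e' : (fun ω => PBI D B ω * CKo N X B ω * E c B (fun ω' => CKi N X B ω' * f ω'.1)) =
      fun ω => E c B (fun ω' => CKi N X B ω' * f ω'.1) * (PBI D B ω * CKo N X B ω) := by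
    funext ω; ring
  rw [e', E0_smul, mul_comm]

/-- one domain: comparison through the reflection -/
theorem E0_block {c : ℝ} (hc : 1 ≤ c) (hG : Geo U N L) {D : Finset P2} (hB : SC B)
    (hBL : VF B ⊆ L) {M : Finset P2} (hM : IsConn (M : Set P2)) (hMB : M ⊆ B)
    {t0 v0 : P2} (ht0 : t0 ∈ M) (hv0 : v0 ∈ up t0) (hv0N : v0 ∈ N) {S : Finset P2} (hS : S ⊆ VF M)
    {f g : (P2 → ℤ) → ℝ} (hf : ∀ h k : P2 → ℤ, (∀ v ∈ S, h v = k v) → f h = f k)
    (hg : ∀ h k : P2 → ℤ, (∀ v ∈ S, h v = k v) → g h = g k)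
    (hfg : ∀ h, 2 * g h ≤ f h + f (rfl1 B h)) :
    E0 c L (fun _ => 1) (fun ω => PBI D B ω * (CK N X ω * g ω.1)) ≤
      E0 c L (fun _ => 1) (fun ω => PBI D B ω * (CK N X ω * f ω.1)) := by
  rw [E0_piece hc hG hB hBL hM hMB ht0 hv0 hv0N hS hf, E0_piece hc hG hB hBL hM hMB ht0 hv0 hv0N hS hg]
  have h0 : 0 ≤ E0 c L (fun _ => 1) (fun ω => PBI D B ω * CKo N X B ω) :=
    E0_nonneg hc fun ω _ => mul_nonneg (PBI_nonneg _ _ _) (CKo_nonneg _ _ _ _)
  refine mul_le_mul_of_nonneg_left ?_ h0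
  have h1 : E c B (fun ω => CKi N X B ω * f (rfl1 B ω.1)) = E c B (fun ω => CKi N X B ω * f ω.1) := by
    rw [← E_rfl c B fun ω => CKi N X B ω * f ω.1]
    refine congrArg _ ?_
    funext ω
    rw [CKi_rflc]
    rfl
  have h2 : E c B (fun ω => CKi N X B ω * (2 * g ω.1)) ≤
      E c B (fun ω => CKi N X B ω * f ω.1 + CKi N X B ω * f (rfl1 B ω.1)) :=
    E_mono hc fun ω _ => by
      rw [← mul_add]
      exact mul_le_mul_of_nonneg_left (hfg ω.1) (CKi_nonneg _ _ _ _)
  rw [E_add, h1] at h2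
  have h3 : E c B (fun ω => CKi N X B ω * (2 * g ω.1)) = 2 * E c B (fun ω => CKi N X B ω * g ω.1) := by
    rw [← E_smul]
    refine congrArg _ ?_
    funext ω; ring
  linarith

theorem Ln_congr {S : Finset P2} {w : P2 → ℝ} {h k : P2 → ℤ} (e : ∀ v ∈ S, h v = k v) :
    Ln S w h = Ln S w k := by
  unfold Hf702.Ln
  exact Finset.sum_congr rfl fun v hv => by rw [e v hv]

theorem Ln_rfl {S : Finset P2} {w : P2 → ℝ} (hw : ∑ v ∈ S, w v = 1) (hS : S ⊆ VF B) (h : P2 → ℤ) :
    Ln S w (rfl1 B h) = 1 - Ln S w h := by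
  unfold Hf702.Ln
  rw [← hw, ← Finset.sum_sub_distrib]
  refine Finset.sum_congr rfl fun v hv => ?_
  unfold rfl1
  rw [if_pos (hS hv)]
  push_cast
  ring

theorem E0_CK_pos {c : ℝ} (hc : 1 ≤ c) (hx : 0 < x) (hcx : c * x ^ 2 = 1) (hG : Geo U N L) :
    0 < E0 c L (fun _ => 1) (CK N (XX U L)) := by
  have h := S0_eq hcx hG fun _ => 1
  simp only [mul_one] at h
  unfold E0
  refine div_pos ?_ (Z0_pos hc (It844.lip_const 1))
  rw [show (CK N (XX U L) : Cfg → ℝ) = fun ω => CK N (XX U L) ω from rfl, h]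
  exact mul_pos (by positivity) (SL_one_pos hx)

/-- **lower bound for the clipped average** -/
theorem EL_ge (hx0 : 0 < x) (hx1 : x ≤ 1) {K : ℕ} {p : ℝ} (hR : RSW ((x ^ 2)⁻¹) K p)
    (hG : Geo U N L) (hLc : IsConn ((L : Set P2)ᶜ)) {b : P2} {k n r : ℕ} (hn : 1 ≤ n) (hr : r + 1 ≤ n)
    (hV : VF (ball b (K * ((K + 1) ^ k * n))) ⊆ L)
    (hX : ∀ t ∈ XX U L, t ∈ ball b (K * ((K + 1) ^ k * n)) → t ∈ ray b) (hbN : b ∈ N)
    {S : Finset P2} (hS : S ⊆ VF (ball b r)) {w : P2 → ℝ} (hw : ∑ v ∈ S, w v = 1) {T C : ℝ}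
    (hT : 1 ≤ T) (hC : EL x U N L (fun h => (Ln S w h - 1 / 2) ^ 2) ≤ C) :
    1 / (2 * T) * (1 - (1 - p) ^ (k + 1) - C / (T - 1 / 2) ^ 2) - (1 - p) ^ (k + 1) ≤
      EL x U N L (fun h => clp T (Ln S w h)) := by
  classical
  have hx2 : 0 < x ^ 2 := by positivity
  have hc : 1 ≤ (x ^ 2)⁻¹ := (one_le_inv₀ hx2).2 (pow_le_one₀ hx0.le hx1)
  have hcx : (x ^ 2)⁻¹ * x ^ 2 = 1 := inv_mul_cancel₀ hx2.ne'
  set c := (x ^ 2)⁻¹ with hcdef
  set X := XX U L with hXdef
  set N0 := 2 * ((K + 1) ^ k * n) with hN0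
  set D := ball b (N0 + 1) with hD
  set ε := (1 - p) ^ (k + 1) with hε
  have hξ : Bv L (fun _ => 1) := fun _ _ => Or.inr rfl
  have h1n : 1 ≤ (K + 1) ^ k * n := Nat.mul_pos (by positivity) hn
  have hnN : n ≤ N0 := by
    have : n ≤ (K + 1) ^ k * n := Nat.le_mul_of_pos_left _ (by positivity)
    omega
  have hDK : D ⊆ ball b (K * ((K + 1) ^ k * n)) := by
    refine ball_mono b ?_
    have := hR.K4
    have : 4 * ((K + 1) ^ k * n) ≤ K * ((K + 1) ^ k * n) := Nat.mul_le_mul_right _ hR.K4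
    omega
  have hdec := decay0 hc hR hLc hξ (It844.lip_const 1) (N := N) (X := X) (b := b) k hn hV hX
  set A := E0 c L (fun _ => 1) (CK N X) with hA
  have hApos : 0 < A := E0_CK_pos hc hx0 hcx hG
  set 𝒢 := D.powerset.filter fun B => ball b r ⊆ B with h𝒢
  set gI : Cfg → ℝ := fun ω => ∑ B ∈ 𝒢, PBI D B ω with hgI
  have gI0 : ∀ ω, 0 ≤ gI ω := fun ω => Finset.sum_nonneg fun B _ => PBI_nonneg _ _ _
  have gI1 : ∀ ω, gI ω ≤ 1 := fun ω => sum_filter_le_one b r N0 ω
  have gIb : ∀ ω, 1 - gI ω ≤ ind (BlkP b n N0)ᶜ ω := fun ω => by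
    rw [ind_compl]
    have := ind_le_sum (a := b) hr hnN ω
    have e : (∑ B ∈ (ball b (N0 + 1)).powerset with ball b r ⊆ B, PBI (ball b (N0 + 1)) B ω) = gI ω := by
      simp only [hgI, h𝒢, hD]
    rw [← e]
    linarith
  set Y : (P2 → ℤ) → ℝ := fun h => Ln S w h with hY
  set Φ : (P2 → ℤ) → ℝ := fun h => clp T (Y h) with hΦ
  set q : (P2 → ℤ) → ℝ := fun h => (Y h - 1 / 2) ^ 2 / (T - 1 / 2) ^ 2 with hq
  have hT2 : 0 < (T - 1 / 2) ^ 2 := by
    have : 0 < T - 1 / 2 := by linarith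
    positivity
  have hq0 : ∀ h, 0 ≤ q h := fun h => by simp only [hq]; positivity
  set g : (P2 → ℤ) → ℝ := fun h => 1 / (2 * T) * (1 - q h) with hg
  have hT0 : 0 < T := by linarith
  -- the blocks
  have hblock : ∀ B ∈ 𝒢, E0 c L (fun _ => 1) (fun ω => PBI D B ω * (CK N X ω * g ω.1)) ≤
      E0 c L (fun _ => 1) (fun ω => PBI D B ω * (CK N X ω * Φ ω.1)) := by
    intro B hB
    rw [h𝒢, Finset.mem_filter, Finset.mem_powerset] at hB
    obtain ⟨hBD, hrB⟩ := hB
    by_cases hsc : SC B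
    · have hBL : VF B ⊆ L := (VF_mono (hBD.trans hDK)).trans hV
      refine E0_block hc hG hsc hBL (conn_ball b r) hrB (self_mem_ball b r) (base_mem_up b) hbN hS
        (fun h k e => ?_) (fun h k e => ?_) fun h => ?_
      · simp only [hΦ, hY, Ln_congr e]
      · simp only [hg, hq, hY, Ln_congr e]
      · have e : Y (rfl1 B h) = 1 - Y h := Ln_rfl hw (hS.trans (VF_mono hrB)) h
        have := clp_pair (Y h) hT
        simp only [hΦ, hg, hq, e]
        calc 2 * (1 / (2 * T) * (1 - (Y h - 1 / 2) ^ 2 / (T - 1 / 2) ^ 2))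
            = 1 / T * (1 - (Y h - 1 / 2) ^ 2 / (T - 1 / 2) ^ 2) := by field_simp
          _ ≤ _ := this
    · have h0 : ∀ ω, PBI D B ω = 0 := fun ω => by
        by_contra h
        exact hsc (sc_of_PBI (sc_ball b (N0 + 1)) h)
      simp only [h0, zero_mul]
      exact le_rfl
  -- sum over the blocks
  have hsum : E0 c L (fun _ => 1) (fun ω => gI ω * (CK N X ω * g ω.1)) ≤
      E0 c L (fun _ => 1) (fun ω => gI ω * (CK N X ω * Φ ω.1)) := by
    have e : ∀ f : Cfg → ℝ, E0 c L (fun _ => 1) (fun ω => gI ω * f ω) =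
        ∑ B ∈ 𝒢, E0 c L (fun _ => 1) (fun ω => PBI D B ω * f ω) := by
      intro f
      rw [← E0_sum]
      refine congrArg _ ?_
      funext ω
      rw [hgI, Finset.sum_mul]
    rw [e, e]
    exact Finset.sum_le_sum hblock
  -- estimates
  have l1 : E0 c L (fun _ => 1) (fun ω => gI ω * (CK N X ω * Φ ω.1)) ≤
      E0 c L (fun _ => 1) (fun ω => CK N X ω * Φ ω.1 +
        CK N X ω * ind (BlkP b n N0)ᶜ ω) := by
    refine E0_mono hc fun ω _ _ => ?_
    have a1 := abs_le.1 (clp_abs T (Y ω.1))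
    have a2 := CK_nonneg N X ω
    have a3 := gIb ω
    have a4 : (1 - gI ω) * (1 + Φ ω.1) ≥ 0 :=
      mul_nonneg (by linarith [gI1 ω]) (by simp only [hΦ]; linarith)
    nlinarith [mul_nonneg a2 a4, mul_nonneg a2 (sub_nonneg.2 a3)]
  have l2 : E0 c L (fun _ => 1) (fun ω => 1 / (2 * T) * (CK N X ω - CK N X ω * ind (BlkP b n N0)ᶜ ω -
      CK N X ω * q ω.1)) ≤ E0 c L (fun _ => 1) (fun ω => gI ω * (CK N X ω * g ω.1)) := by
    refine E0_mono hc fun ω _ _ => ?_
    have a2 := CK_nonneg N X ω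
    have a3 := gIb ω
    have a4 := hq0 ω.1
    have a5 := gI1 ω
    have a6 : gI ω * (CK N X ω * g ω.1) = 1 / (2 * T) * (CK N X ω * (gI ω * (1 - q ω.1))) := by
      simp only [hg]; ring
    rw [a6]
    refine mul_le_mul_of_nonneg_left ?_ (by positivity)
    have a7 : 1 - ind (BlkP b n N0)ᶜ ω - q ω.1 ≤ gI ω * (1 - q ω.1) := by
      nlinarith [mul_nonneg (sub_nonneg.2 a5) a4]
    have := mul_le_mul_of_nonneg_left a7 a2
    linarith
  have l3 : E0 c L (fun _ => 1) (fun ω => CK N X ω * q ω.1) = A * (EL x U N L fun h => q h) :=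
    E0_eq hc hx0 hcx hG q
  have l4 : E0 c L (fun _ => 1) (fun ω => CK N X ω * Φ ω.1) = A * EL x U N L Φ :=
    E0_eq hc hx0 hcx hG Φ
  have l5 : EL x U N L (fun h => q h) ≤ C / (T - 1 / 2) ^ 2 := by
    have e : EL x U N L (fun h => q h) =
        EL x U N L (fun h => (Ln S w h - 1 / 2) ^ 2) / (T - 1 / 2) ^ 2 := by
      unfold EL SL
      rw [div_right_comm]
      congr 1
      rw [Finset.sum_div]
      exact Finset.sum_congr rfl fun h _ => by simp only [hq, hY]; ring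
    rw [e]
    exact div_le_div_of_nonneg_right hC hT2.le
  rw [E0_add, l4] at l1
  rw [E0_smul, E0_sub, E0_sub, l3] at l2
  have l6 : E0 c L (fun _ => 1) (fun ω => CK N X ω * ind (BlkP b n N0)ᶜ ω) ≤ ε * A := hdec
  have l7 : E0 c L (fun _ => 1) (fun ω => CK N X ω) = A := rfl
  rw [l7] at l2
  have l8 : 1 / (2 * T) * (A - ε * A - A * (C / (T - 1 / 2) ^ 2)) ≤
      1 / (2 * T) * (A - E0 c L (fun _ => 1) (fun ω => CK N X ω * ind (BlkP b n N0)ᶜ ω) -
        A * EL x U N L fun h => q h) := by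
    refine mul_le_mul_of_nonneg_left ?_ (by positivity)
    have := mul_le_mul_of_nonneg_left l5 hApos.le
    linarith
  have l9 : A * (1 / (2 * T) * (1 - ε - C / (T - 1 / 2) ^ 2) - ε) ≤ A * EL x U N L Φ := by
    have e : A * (1 / (2 * T) * (1 - ε - C / (T - 1 / 2) ^ 2) - ε) =
        1 / (2 * T) * (A - ε * A - A * (C / (T - 1 / 2) ^ 2)) - ε * A := by ring
    rw [e]
    linarith
  exact le_of_mul_le_mul_left l9 hApos

end Crest.Agent.R144.LmB702
end
end

-- ▼ part R144/LmB5_702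
section

/-!
# R144, block BND / B2 (helper702), part 5: the core estimate

`U` up triangles, `N` non-free sites, `L` sites (`Geo U N L`); near the end `b` of a ray of triangles not in `U`:
`c0 * E c U (Cn N) ≤ E c U (Cn N ; arm of free sites with h ≤ 0 from `ball y n` to a site of `N` with h ≤ 0)`.
-/

set_option autoImplicit false
set_option linter.unusedSectionVars false
set_option linter.unusedVariables false

noncomputable section

namespace Crest.Agent.R144.LmB702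

open Finset MeasureTheory
open Crest.Agent.R144.It844 (P2 Lip Cst adj_iff adj_symm lip_iff upT mem_upT tw)
open Crest.Agent.R144.Pst967 (Hz GObs FLim path_symm)
open Crest.Agent.R144.Zg349 Crest.Agent.R144.Zk349 Crest.Agent.R144.Zd349 Crest.Agent.R144.Zm349
open Crest.Agent.R144.Ze349 Crest.Agent.R144.Zs349 Crest.Agent.R144.Zo349
open Crest.Agent.R144.Hf702 (htsI mem_htsI SI EI SI_one_pos SH EH SH_one_pos E_eq_EH Ln PSq hf_ex InB
  tw_nonneg EI_smul)
open Crest.Agent.R144.Rsw867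
open Crest.Agent.R144.Bnd991 hiding lev0
open Crest.ProbabilityR.HexHeights (Adj)

variable {x : ℝ} {U : Finset P2} {N : Set P2} {L : Finset P2}

/-! ### geometry of balls -/

theorem ball_trans {a b v : P2} {m k : ℕ} (h1 : v ∈ ball b m) (h2 : b ∈ ball a k) :
    v ∈ ball a (m + k) := by
  rw [mem_ball] at *
  simp only [abs_le] at *
  push_cast
  omega

theorem up_ball {v t : P2} (h : v ∈ up t) : t ∈ ball v 1 := by
  rw [mem_ball]
  rw [Zg349.mem_up] at h
  rcases h with rfl | rfl | rfl <;> simp only [abs_le] <;> push_cast <;> omega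

theorem ball_up {v t : P2} (h : v ∈ up t) : v ∈ ball t 1 := by
  rw [mem_ball]
  rw [Zg349.mem_up] at h
  rcases h with rfl | rfl | rfl <;> simp only [abs_le] <;> push_cast <;> omega

theorem le_card_ball (a : P2) (n : ℕ) : ((n : ℝ)) ^ 2 ≤ (ball a n).card := by
  have h1 : Finset.Ico a.1 (a.1 + n) ×ˢ Finset.Ico (a.2 - n + 1) (a.2 + 1) ⊆ ball a n := by
    intro v hv
    rw [Finset.mem_product, Finset.mem_Ico, Finset.mem_Ico] at hv
    rw [mem_ball]
    simp only [abs_le]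
    omega
  have h2 : (Finset.Ico a.1 (a.1 + n) ×ˢ Finset.Ico (a.2 - n + 1) (a.2 + 1)).card = n ^ 2 := by
    rw [Finset.card_product, Int.card_Ico, Int.card_Ico,
      show (a.1 + n - a.1).toNat = n by omega, show (a.2 + 1 - (a.2 - n + 1)).toNat = n by omega]
    ring
  have h3 := Finset.card_le_card h1
  rw [h2] at h3
  exact_mod_cast h3

/-! ### second moments -/

theorem ex_sq01 {C : ℝ} (hx : 0 < x) {S : Finset P2} {w : P2 → ℝ}
    (hC : ∀ ξ : P2 → ℤ, (∀ v, ξ v = -1 ∨ ξ v = 0) →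
      It844.ex x (IF U N) ξ (fun h => Ln S w h ^ 2) ≤ C) {η : P2 → ℤ}
    (h01 : ∀ v, v ∉ IF U N → η v = 0 ∨ η v = 1) :
    It844.ex x (IF U N) η (fun h => (Ln S w h - 1 / 2) ^ 2) ≤ 2 * C + 1 / 2 := by
  classical
  set ξ : P2 → ℤ := fun v => if v ∈ IF U N then 0 else - η v with hξ
  have hξ1 : ∀ v, ξ v = -1 ∨ ξ v = 0 := fun v => by
    simp only [hξ]
    split_ifs with h
    · exact Or.inr rfl
    · rcases h01 v h with h' | h' <;> rw [h'] <;> decide
  have hξl : Lip ξ := by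
    intro u v _
    rcases hξ1 u with h | h <;> rcases hξ1 v with h' | h' <;> rw [h, h'] <;> decide
  have e1 : It844.ex x (IF U N) η (fun h => (Ln S w h - 1 / 2) ^ 2) =
      It844.ex x (IF U N) (fun v => - ξ v) (fun h => (Ln S w h - 1 / 2) ^ 2) := by
    refine It844.ex_congr_bc x (fun v hv => ?_) _
    simp only [hξ, if_neg hv, neg_neg]
  have e2 := It844.ex_neg x (IF U N) ξ (fun h => (Ln S w h - 1 / 2) ^ 2)
  rw [e1, e2]
  have e3 : It844.ex x (IF U N) ξ (fun h => (2 : ℝ) • (Ln S w h ^ 2) + (1 / 2 : ℝ)) ≤ 2 * C + 1 / 2 := by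
    rw [It844.ex_add, It844.ex_smul, It844.ex_const hx hξl, smul_eq_mul]
    linarith [hC ξ hξ1]
  refine le_trans (It844.ex_mono fun h _ => ?_) e3
  have e4 : Ln S w (fun v => - h v) = - Ln S w h := by
    unfold Hf702.Ln
    rw [← Finset.sum_neg_distrib]
    refine Finset.sum_congr rfl fun v _ => ?_
    push_cast; ring
  rw [e4, smul_eq_mul]
  nlinarith [sq_nonneg (Ln S w h - 1 / 2)]

/-! ### the conditioned F-type law -/

open Classical in
/-- indicator of `s1 = +` on `N` as a function of the heights -/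
def CH (N : Set P2) (h : P2 → ℤ) : ℝ := if ∀ v ∈ N, s1 (h v) = true then 1 else 0

theorem SH_CH (hA : Anc N U) (f : (P2 → ℤ) → ℝ) : SH x U (fun h => CH N h * f h) = SI x U (IF U N) f := by
  classical
  unfold SH SI
  have hsub : htsI U (IF U N) ⊆ hts U := fun h hh => mem_hts.2 (mem_htsI.1 hh).1
  rw [← Finset.sum_subset hsub (fun h hh hh' => ?_)]
  · refine Finset.sum_congr rfl fun h hh => ?_
    obtain ⟨h1, h2⟩ := mem_htsI.1 hh
    have : CH N h = 1 := if_pos fun v hv => s1_true.2 (by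
      rcases h2 v (fun h' => (mem_IF.1 h').2 hv) with h3 | h3 <;> rw [h3] <;> norm_num)
    simp only [this, one_mul]
  · have hV : Valid U ((h, fun _ => true) : Cfg) := ⟨mem_hts.1 hh, fun _ _ => rfl⟩
    have : CH N h = 0 := if_neg fun hC => hh' (mem_htsI.2 ⟨mem_hts.1 hh, fun v hv => by
      rw [mem_IF, not_and_not_right] at hv
      by_cases hI : v ∈ IV U
      · exact ht01 hA hV hC (hv hI)
      · exact hV.ht.bd v hI⟩)
    simp only [this, zero_mul, mul_zero]

/-- **the conditioned law of the heights** -/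
theorem E_Cn_eq (hx : x ≠ 0) (hA : Anc N U) (f : (P2 → ℤ) → ℝ) :
    E ((x ^ 2)⁻¹) U (fun ω => Cn N ω * f ω.1) = E ((x ^ 2)⁻¹) U (Cn N) * EI x U (IF U N) f := by
  have e1 : E ((x ^ 2)⁻¹) U (fun ω => Cn N ω * f ω.1) = EH x U fun h => CH N h * f h :=
    E_eq_EH hx U fun h => CH N h * f h
  have e2 : E ((x ^ 2)⁻¹) U (Cn N) = EH x U fun h => CH N h * 1 := by
    have := E_eq_EH hx U fun h => CH N h * 1
    rw [← this]
    refine congrArg _ ?_
    funext ω
    rw [mul_one]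
    rfl
  rw [e1, e2]
  unfold EH EI
  rw [SH_CH hA f, SH_CH hA fun _ => 1]
  have h1 := SI_one_pos x U (IF U N)
  have h2 := SH_one_pos x U
  field_simp

/-! ### the arm event -/

/-- an arm of free sites with `h ≤ 0` from `S` to a site of `N` with `h ≤ 0` -/
def ArmF (U : Finset P2) (N : Set P2) (L S : Finset P2) (h : P2 → ℤ) : Prop :=
  ∃ v ∈ S, ∃ u w, u ∈ IF U N ∧ h u ≤ 0 ∧ w ∈ N ∧ w ∈ L ∧ h w ≤ 0 ∧ Adj u w ∧
    Relation.ReflTransGen (StepIn {z | z ∈ IF U N ∧ h z ≤ 0}) v u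

theorem ArmF.anti {L S : Finset P2} {h g : P2 → ℤ} (hgh : g ≤ h) (H : ArmF U N L S h) : ArmF U N L S g := by
  obtain ⟨v, hv, u, w, h1, h2, h3, h4, h5, h6, h7⟩ := H
  exact ⟨v, hv, u, w, h1, (hgh u).trans h2, h3, h4, (hgh w).trans h5, h6,
    path_mono (T := {z | z ∈ IF U N ∧ g z ≤ 0}) (fun z hz => ⟨hz.1, (hgh z).trans hz.2⟩) h7⟩

/-- cut a path at its first exit of `F` -/
theorem cut {S F : Set P2} {v b : P2} (hv : v ∈ F)
    (p : Relation.ReflTransGen (StepIn S) v b) :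
    (b ∈ F ∧ Relation.ReflTransGen (StepIn (F ∩ S)) v b) ∨
      ∃ u w, u ∈ F ∧ u ∈ S ∧ w ∉ F ∧ w ∈ S ∧ Adj u w ∧ Relation.ReflTransGen (StepIn (F ∩ S)) v u := by
  induction p with
  | refl => exact Or.inl ⟨hv, Relation.ReflTransGen.refl⟩
  | @tail b d _ hbd ih =>
    rcases ih with ⟨hb, hp⟩ | h
    · by_cases hd : d ∈ F
      · exact Or.inl ⟨hd, hp.tail ⟨⟨hb, hbd.1⟩, ⟨hd, hbd.2.1⟩, hbd.2.2⟩⟩
      · exact Or.inr ⟨b, d, hb, hbd.1, hd, hbd.2.1, hbd.2.2, hp⟩
    · exact Or.inr h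

theorem armF_of_cl (hG : Geo U N L) {S : Finset P2} (hS : S ⊆ IF U N) {h : P2 → ℤ} (hh : h ∈ LL U N L)
    (hc : ∃ v ∈ (S : Set P2), v ∈ Rfl38.Cl Adj {v | v ∉ IF U N} 1 h) : ArmF U N L S h := by
  obtain ⟨v, hvS, hv⟩ := hc
  obtain ⟨hl, h1, h01⟩ := mem_LL.1 hh
  obtain ⟨b, hb, hb1, hv1, hp⟩ := Rfl38.cl_lt (adj := Adj) (Bd := {v | v ∉ IF U N}) (k := 1)
    (fun u v ha => lip_adj hl ha) (fun b hb => by
      rcases h01 b hb with h | h <;> rw [h]
      norm_num) hv
  have hp' : Relation.ReflTransGen (StepIn {u | h u < 1}) v b :=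
    path_symm (Relation.ReflTransGen.mono (fun a b hab => ⟨hab.1, hab.2.1, hab.2.2⟩) _ _ hp)
  rcases cut (F := {z | z ∈ IF U N}) (hS hvS) hp' with ⟨hbF, _⟩ | ⟨u, w, hu, hu1, hw, hw1, ha, hq⟩
  · exact absurd hbF hb
  · have hu1' : h u < 1 := hu1
    have hw1' : h w < 1 := hw1
    have hwL : w ∈ L := by
      by_contra hn
      rw [h1 w hn] at hw1'
      omega
    have hwN : w ∈ N := by
      by_contra hn
      exact hn (hG.near w hwL fun hI => hw (mem_IF.2 ⟨hI, hn⟩))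
    refine ⟨v, hvS, u, w, hu, by omega, hwN, hwL, by omega, ha, path_mono ?_ hq⟩
    rintro z ⟨hz1, hz2⟩
    have hz2' : h z < 1 := hz2
    exact ⟨hz1, by omega⟩

open Classical in
/-- **arm from the mean** -/
theorem EI_arm_ge (hx0 : 0 < x) (hx1 : x ≤ 1) (hG : Geo U N L) {S : Finset P2} (hS : S ⊆ IF U N)
    {w : P2 → ℝ} (hw : ∑ v ∈ S, w v = 1) (T : ℝ) :
    EL x U N L (fun h => clp T (Ln S w h)) ≤
      EI x U (IF U N) fun h => if ArmF U N L S h then 1 else 0 := by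
  have h1 := EL_refl (x := x) hx0 hG.nonfree (B := (S : Set P2)) (Φ := fun h => clp T (Ln S w h))
    (fun h g hgh => by
      have e : Ln S w g = 2 - Ln S w h := by
        unfold Hf702.Ln
        rw [show (2 : ℝ) = ∑ v ∈ S, w v * 2 by rw [← Finset.sum_mul, hw, one_mul],
          ← Finset.sum_sub_distrib]
        refine Finset.sum_congr rfl fun v hv => ?_
        rw [hgh v hv]
        push_cast; ring
      simp only [e, clp_odd]) (fun h => clp_abs _ _)
  refine h1.trans (le_trans (EL_mono hx0 fun h hh => ?_) (EL_le_EI hx0 hx1 hG.nonfree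
    (f := fun h => if ArmF U N L S h then 1 else 0) fun a b hab => ?_))
  · by_cases hc : ∃ v ∈ (S : Set P2), v ∈ Rfl38.Cl Adj {v | v ∉ IF U N} 1 h
    · rw [if_pos hc, if_pos (armF_of_cl hG hS hh hc)]
    · rw [if_neg hc]; split_ifs <;> norm_num
  · by_cases hb : ArmF U N L S b
    · simp only [if_pos hb, if_pos (hb.anti hab)]; exact le_rfl
    · simp only [if_neg hb]; split_ifs <;> norm_num

/-- **core estimate** -/
theorem core {K : ℕ} {p : ℝ} (hx0 : 0 < x) (hx1 : x ≤ 1) (hR : RSW ((x ^ 2)⁻¹) K p)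
    {P : Measure Hz} (hPS : PSq P)
    (hFL : ∀ f : Hz → ℝ, GObs f → FLim ((x ^ 2)⁻¹) f (∫ h, f h ∂P)) (A : ℕ) :
    ∃ (M : ℕ) (c0 : ℝ), 0 < c0 ∧ A + 3 ≤ M ∧ ∀ (U : Finset P2) (N : Set P2) (L : Finset P2) (b y : P2)
      (n : ℕ), 1 ≤ n → SC U → Geo U N L → Anc N U → IsConn ((L : Set P2)ᶜ) → b ∈ N → b ∉ U →
      VF (ball b (M * n)) ⊆ L → (∀ t ∈ ball b (M * n), t ∉ U → t ∈ ray b) → y ∈ ball b (A * n) →
      ball y n ⊆ IF U N →
        c0 * E ((x ^ 2)⁻¹) U (Cn N) ≤
          E ((x ^ 2)⁻¹) U (fun ω => Cn N ω * ind {ω | ArmF U N L (ball y n) ω.1} ω) := by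
  classical
  have hx2 : 0 < x ^ 2 := by positivity
  have hc : 1 ≤ (x ^ 2)⁻¹ := (one_le_inv₀ hx2).2 (pow_le_one₀ hx0.le hx1)
  obtain ⟨C, hC0, hC⟩ := hf_ex hx0 hx1 hR hPS hFL ((A + 3) ^ 2)
  set C1 : ℝ := 2 * C + 1 / 2 with hC1
  set T : ℝ := 3 + 2 * C1 with hT
  have hC1' : 0 ≤ C1 := by rw [hC1]; positivity
  have hT1 : 1 ≤ T := by rw [hT]; linarith
  have hT0 : 0 < T := by linarith
  have hp1 : (1 - p) < 1 := by linarith [hR.p0]
  have hp0 : 0 ≤ 1 - p := by linarith [hR.p1]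
  obtain ⟨k, hk⟩ := exists_pow_lt_of_lt_one (show (0 : ℝ) < 1 / (8 * T) by positivity) hp1
  have hk' : (1 - p) ^ (k + 1) ≤ 1 / (8 * T) := by
    rw [pow_succ]
    have : (1 - p) ^ k * (1 - p) ≤ (1 - p) ^ k * 1 :=
      mul_le_mul_of_nonneg_left hp1.le (pow_nonneg hp0 k)
    linarith
  have hK1 : 1 ≤ K * (K + 1) ^ k := Nat.mul_pos (by have := hR.K4; omega) (by positivity)
  refine ⟨K * (K + 1) ^ k * (A + 3), 1 / (8 * T), by positivity, Nat.le_mul_of_pos_left _ hK1,
    fun U N L b y n hn hU hG hA hL hbN hbU hV hray hy hyI => ?_⟩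
  set n' := (A + 3) * n with hn'
  have hn1 : 1 ≤ n' := Nat.mul_pos (by omega) hn
  have eM : K * (K + 1) ^ k * (A + 3) * n = K * ((K + 1) ^ k * n') := by rw [hn']; ring
  rw [eM] at hV hray
  set S := ball y n with hS
  set w : P2 → ℝ := fun _ => 1 / (S.card : ℝ) with hw
  have hnR : (1 : ℝ) ≤ n := by exact_mod_cast hn
  have hcard : (n : ℝ) ^ 2 ≤ S.card := le_card_ball y n
  have hcard0 : (0 : ℝ) < S.card := lt_of_lt_of_le (by positivity) hcard
  have hw1 : ∑ v ∈ S, w v = 1 := by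
    simp only [hw, Finset.sum_const, nsmul_eq_mul]
    field_simp
  have hIn : InB b (n' - 1) S := by
    intro v hv t hvt
    have h1 := ball_trans (up_ball hvt) (ball_trans hv hy)
    refine ball_mono b ?_ h1
    have : n' = A * n + 3 * n := by rw [hn']; ring
    omega
  have hwA : ∀ v ∈ S, |w v| ≤ (((A + 3) ^ 2 : ℕ) : ℝ) / (n' : ℝ) ^ 2 := by
    intro v _
    simp only [hw]
    rw [abs_of_pos (by positivity), div_le_div_iff₀ hcard0 (by positivity), hn']
    push_cast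
    nlinarith [mul_le_mul_of_nonneg_left hcard (show (0 : ℝ) ≤ ((A : ℝ) + 3) ^ 2 by positivity)]
  have hm : EL x U N L (fun h => (Ln S w h - 1 / 2) ^ 2) ≤ C1 :=
    EL_le_of hx0 hG.nonfree fun η _ h01 => ex_sq01 hx0 (fun ξ hξ =>
      hC n' hn1 b (IF U N) U hU (upT_IF U N) hbU ξ hξ S w hyI hIn hwA) h01
  have hge := EL_ge hx0 hx1 hR hG hL (b := b) (k := k) (n := n') (r := n' - 1) hn1 (by omega) hV
    (fun t ht htb => hray t htb ht.2) hbN hIn.vf hw1 hT1 hm
  have harm := EI_arm_ge hx0 hx1 hG hyI hw1 T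
  have hlow : 1 / (8 * T) ≤ EI x U (IF U N) fun h => if ArmF U N L S h then 1 else 0 := by
    refine le_trans ?_ (hge.trans harm)
    have hq : C1 / (T - 1 / 2) ^ 2 ≤ 1 / 4 := by
      rw [div_le_iff₀ (by
        have : 0 < T - 1 / 2 := by linarith
        positivity)]
      rw [hT]
      nlinarith
    have h8 : 1 / (8 * T) ≤ 1 / 8 := by
      rw [div_le_div_iff₀ (by positivity) (by norm_num)]
      linarith
    set ε := (1 - p) ^ (k + 1) with hε
    have h9 : 1 / (2 * T) * (5 / 8) ≤ 1 / (2 * T) * (1 - ε - C1 / (T - 1 / 2) ^ 2) :=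
      mul_le_mul_of_nonneg_left (by linarith) (by positivity)
    have e1 : 1 / (2 * T) * (5 / 8) = 5 / 2 * (1 / (8 * T)) := by field_simp
    have h10 : 0 < 1 / (8 * T) := by positivity
    linarith
  have hE := E_Cn_eq (x := x) hx0.ne' hA fun h => if ArmF U N L S h then 1 else 0
  have e3 : (fun ω : Cfg => Cn N ω * ind {ω | ArmF U N L S ω.1} ω) =
      fun ω => Cn N ω * (fun h => if ArmF U N L S h then (1 : ℝ) else 0) ω.1 := by
    funext ω
    rfl
  rw [e3, hE, mul_comm (1 / (8 * T))]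
  exact mul_le_mul_of_nonneg_left hlow (E_nonneg hc fun ω _ => Cn_nonneg N ω)

end Crest.Agent.R144.LmB702
end
end

-- ▼ part R144/LmB6_702
section

/-!
# R144, block BND / B2 (helper702), part 6: **Lemma B** (`LemB` of DOC 1945 / Bnd0_991)

* `isConn_IV`, `sc_fill` : connectedness of complements;
* `piece` : one unexplored domain;
* `lemB` : for every `A` there are `R, c1 > 0` with `LemB ((x²)⁻¹) K A R c1`.
-/

set_option autoImplicit false
set_option linter.unusedSectionVars false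
set_option linter.unusedVariables false

noncomputable section

namespace Crest.Agent.R144.LmB702

open Finset MeasureTheory
open Crest.Agent.R144.It844 (P2 Lip Cst adj_iff adj_symm lip_iff upT mem_upT tw)
open Crest.Agent.R144.Pst967 (Hz GObs FLim path_symm)
open Crest.Agent.R144.Zg349 Crest.Agent.R144.Zk349 Crest.Agent.R144.Zd349 Crest.Agent.R144.Zm349
open Crest.Agent.R144.Ze349 Crest.Agent.R144.Zs349 Crest.Agent.R144.Zo349
open Crest.Agent.R144.Hf702 (PSq PB PBI PBI_nonneg offTZ_PBI sum_PBI pLay_of_PBI Bg_sub sc_of_PBI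
  ind_le_sum sum_filter_le_one eq_of_PBI sc_inter self_mem_ball)
open Crest.Agent.R144.Rsw867
open Crest.Agent.R144.Bnd991
open Crest.ProbabilityR.HexHeights (Adj)

/-! ### connectedness -/

theorem corners_adj {t u v : P2} (hu : u ∈ up t) (hv : v ∈ up t) : u = v ∨ Adj u v := by
  obtain ⟨a, b⟩ := t
  obtain ⟨c, d⟩ := u
  obtain ⟨p, q⟩ := v
  simp only [mem_up, Prod.mk.injEq] at hu hv
  simp only [Adj, Prod.mk.injEq]
  omega

theorem adj_common {u v : P2} (ha : Adj u v) : ∃ t, u ∈ up t ∧ v ∈ up t := by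
  obtain ⟨a, b⟩ := u
  simp only [mem_up]
  rcases adj_iff.1 ha with rfl | rfl | rfl | rfl | rfl | rfl
  · exact ⟨(a, b), by simp⟩
  · exact ⟨(a - 1, b), by simp⟩
  · exact ⟨(a, b), by simp⟩
  · exact ⟨(a, b - 1), by simp⟩
  · exact ⟨(a, b - 1), by simp⟩
  · exact ⟨(a - 1, b), by simp⟩

/-- the sites that are not interior form a connected set -/
theorem isConn_IV {F : Finset P2} (hF : SC F) : IsConn (((IV F : Finset P2) : Set P2)ᶜ) := by
  set T : Set P2 := ((IV F : Finset P2) : Set P2)ᶜ with hT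
  have hcor : ∀ t, t ∉ F → ∀ v ∈ up t, v ∈ T := fun t ht v hv hI =>
    ht (mem_IV'.1 (Finset.mem_coe.1 hI) t hv)
  have tri : ∀ t, t ∉ F → ∀ u ∈ up t, ∀ v ∈ up t, Relation.ReflTransGen (StepIn T) u v := by
    intro t ht u hu v hv
    rcases corners_adj hu hv with rfl | ha
    · exact Relation.ReflTransGen.refl
    · exact Relation.ReflTransGen.single ⟨hcor t ht u hu, hcor t ht v hv, ha⟩
  intro u hu v hv
  have hex : ∀ w ∈ T, ∃ t, t ∉ F ∧ w ∈ up t := by
    intro w hw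
    have hw' : w ∉ IV F := fun h => hw (Finset.mem_coe.2 h)
    rw [mem_IV'] at hw'
    push Not at hw'
    obtain ⟨t, h1, h2⟩ := hw'
    exact ⟨t, h2, h1⟩
  obtain ⟨t, ht, hut⟩ := hex u hu
  obtain ⟨t', ht', hvt'⟩ := hex v hv
  have hp := hF t (fun h => ht (Finset.mem_coe.1 h)) t' (fun h => ht' (Finset.mem_coe.1 h))
  have key : ∀ s, Relation.ReflTransGen (StepIn ((F : Set P2)ᶜ)) t s → s ∉ F →
      ∀ w ∈ up s, Relation.ReflTransGen (StepIn T) u w := by
    intro s hs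
    induction hs with
    | refl => exact fun h w hw => tri t h u hut w hw
    | @tail b d _ hbd ih =>
      intro hd w hw
      have hb : b ∉ F := fun h => hbd.1 (Finset.mem_coe.2 h)
      obtain ⟨z, hz1, hz2⟩ := adj_site hbd.2.2
      exact (ih hb z hz1).trans (tri d hd z hz2 w hw)
  exact key t' hp ht' v hvt'

/-- filling a ball around the end of the ray -/
theorem sc_fill {Q : Finset P2} (hQ : SC Q) {b : P2} {m R : ℕ} (hm : m + 1 ≤ R)
    (hr : ∀ t ∈ ball b R, t ∉ Q → t ∈ ray b) : SC (Q ∪ ball b m) := by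
  classical
  set T : Set P2 := ((Q ∪ ball b m : Finset P2) : Set P2)ᶜ with hT
  have hmem : ∀ t, t ∈ T ↔ t ∉ Q ∧ t ∉ ball b m := fun t => by
    rw [hT, Set.mem_compl_iff, Finset.mem_coe, Finset.mem_union, not_or]
  set e0 : P2 := (b.1, b.2 + (m + 1)) with he0
  have key0 : ∀ z z' : P2, z ∉ ball b m → z ∉ Q → z' ∈ ball b m → Adj z z' → z = e0 := by
    intro z z' h1 h2 h3 h4
    have h5 : z ∈ ball b (m + 1) := adj_ball h3 (adj_symm h4)
    obtain ⟨h6, h7⟩ := hr z (ball_mono b hm h5) h2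
    rw [mem_ball] at h1 h5
    obtain ⟨z1, z2⟩ := z
    obtain ⟨b1, b2⟩ := b
    simp only [abs_le] at h1 h5
    simp only at h6 h7
    rw [he0, Prod.mk.injEq]
    push_cast at h1 h5
    omega
  intro u hu v hv
  rw [hmem] at hu hv
  have hp := hQ u (fun h => hu.1 (Finset.mem_coe.1 h)) v (fun h => hv.1 (Finset.mem_coe.1 h))
  have key : ∀ z, Relation.ReflTransGen (StepIn ((Q : Set P2)ᶜ)) u z →
      (z ∉ ball b m → Relation.ReflTransGen (StepIn T) u z) ∧
        (z ∈ ball b m → Relation.ReflTransGen (StepIn T) u e0) := by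
    intro z hz
    induction hz with
    | refl => exact ⟨fun _ => Relation.ReflTransGen.refl, fun h => absurd h hu.2⟩
    | @tail c d _ hcd ih =>
      have hc : c ∉ Q := fun h => hcd.1 (Finset.mem_coe.2 h)
      have hd : d ∉ Q := fun h => hcd.2.1 (Finset.mem_coe.2 h)
      refine ⟨fun hdm => ?_, fun hdm => ?_⟩
      · by_cases hcm : c ∈ ball b m
        · rw [key0 d c hdm hd hcm (adj_symm hcd.2.2)]
          exact ih.2 hcm
        · exact (ih.1 hcm).tail ⟨(hmem c).2 ⟨hc, hcm⟩, (hmem d).2 ⟨hd, hdm⟩, hcd.2.2⟩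
      · by_cases hcm : c ∈ ball b m
        · exact ih.2 hcm
        · have := ih.1 hcm
          rwa [key0 c d hcm hc hdm hcd.2.2] at this
  exact (key v hp).1 hv.2

/-! ### one domain -/

theorem E_mono' {c : ℝ} (hc : 1 ≤ c) {F : Finset P2} {f g : Cfg → ℝ}
    (h : ∀ ω, Valid F ω → wt c F ω ≠ 0 → f ω ≤ g ω) : E c F f ≤ E c F g := by
  rw [E_eq_div, E_eq_div]
  refine div_le_div_of_nonneg_right (Finset.sum_le_sum fun ω hω => ?_) (Z_pos hc F).le
  by_cases hw : wt c F ω = 0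
  · rw [hw, zero_mul, zero_mul]
  · exact mul_le_mul_of_nonneg_left (h ω (mem_conf.1 hω) hw) (wt_nonneg hc _ _)

/-- the true heights have an arm -/
theorem arm0_of {U Q : Finset P2} {N : Set P2} {L : Finset P2} (hU : SC U) (hUQ : U ⊆ Q) {ω ω' : Cfg}
    (hω : Valid Q ω) (hL : Lay true U ω) (hω' : Valid U ω') (hN : Anc N Q)
    (hC : Cn N (glue true U ω ω') ≠ 0) {b y : P2} {n r : ℕ} (hI : ∀ z ∈ IV U, z ∈ ball b r)
    (hLr : ∀ z ∈ L, z ∈ ball b r) (hA : ArmF U N L (ball y n) ω'.1) :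
    glue true U ω ω' ∈ Arm0 N y n b r := by
  have hl := hω.ht.toLip
  obtain ⟨v, hv, u, w, hu, hu0, hwN, hwL, hw0, ha, hp⟩ := hA
  have huI := IF_sub U N hu
  have levstep : ∀ z z', z ∈ IV U → Adj z z' → z' ∈ VF U ∧ lev true U ω z' = lev true U ω z := by
    intro z z' hz h
    obtain ⟨t, h1, h2⟩ := adj_common h
    have htU : t ∈ U := mem_IV'.1 hz t h1
    refine ⟨mem_VF.2 ⟨t, htU, h2⟩, ?_⟩
    obtain ⟨i, rfl⟩ := mem_up_iff.1 h1
    obtain ⟨j, rfl⟩ := mem_up_iff.1 h2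
    exact lev_tri hU hl hL htU j i
  obtain ⟨hwV, hlw⟩ := levstep u w huI ha
  have hw1 : lev true U ω w = 0 := Bnd991.lev0 hU hUQ hω hL hω' hN hC hwN hwV
  have hu1 : lev true U ω u = 0 := by rw [← hlw]; exact hw1
  set T : Set P2 := {w | (glue true U ω ω').1 w ≤ 0 ∧ w ∈ ball b r} with hT
  have inT : ∀ z, z ∈ IF U N → ω'.1 z ≤ 0 → lev true U ω z = 0 → z ∈ T := by
    intro z h1 h2 h3
    refine ⟨?_, hI z (IF_sub U N h1)⟩
    rw [glue_in (IV_sub_VF U (IF_sub U N h1)), h3, zero_add]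
    exact h2
  have key : ∀ z, Relation.ReflTransGen (StepIn {z | z ∈ IF U N ∧ ω'.1 z ≤ 0}) u z →
      lev true U ω z = 0 ∧ Relation.ReflTransGen (StepIn T) u z := by
    intro z hz
    induction hz with
    | refl => exact ⟨hu1, Relation.ReflTransGen.refl⟩
    | @tail c d _ hcd ih =>
      obtain ⟨⟨h1, h2⟩, ⟨h3, h4⟩, h5⟩ := hcd
      have h6 : lev true U ω d = 0 := by rw [(levstep c d (IF_sub U N h1) h5).2]; exact ih.1
      exact ⟨h6, ih.2.tail ⟨inT c h1 h2 ih.1, inT d h3 h4 h6, h5⟩⟩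
  have hwT : w ∈ T := by
    refine ⟨?_, hLr w hwL⟩
    rw [glue_in hwV, hw1, zero_add]
    exact hw0
  refine ⟨v, hv, w, hLr w hwL, hwN, ?_⟩
  exact (path_symm (key v (path_symm hp)).2).tail ⟨inT u hu hu0 hu1, hwT, ha⟩

/-- **one unexplored domain** -/
theorem piece {c : ℝ} (hc : 1 ≤ c) {Q D B : Finset P2} {N : Set P2} {L : Finset P2} (hQ : SC Q)
    (hB : SC B) (hN : Anc N Q) {b y : P2} {n r : ℕ} (hI : ∀ z ∈ IV (B ∩ Q), z ∈ ball b r)
    (hLr : ∀ z ∈ L, z ∈ ball b r) {c0 : ℝ}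
    (hcore : c0 * E c (B ∩ Q) (Cn N) ≤
      E c (B ∩ Q) (fun ω => Cn N ω * ind {ω | ArmF (B ∩ Q) N L (ball y n) ω.1} ω)) :
    c0 * E c Q (fun ω => PBI D B ω * Cn N ω) ≤
      E c Q (fun ω => PBI D B ω * (Cn N ω * ind (Arm0 N y n b r) ω)) := by
  classical
  set U := B ∩ Q with hU
  have hUsc : SC U := sc_inter hB hQ
  have hUQ : U ⊆ Q := Finset.inter_subset_right
  have hUB : U ⊆ B := Finset.inter_subset_left
  have hlay : ∀ ω, Valid Q ω → wt c Q ω ≠ 0 → PBI D B ω ≠ 0 → Lay true U ω := by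
    intro ω hω hw h
    refine lay_of hω hw fun t ht h1 => ?_
    by_cases htQ : t ∈ Q
    · have htB : t ∉ B := fun h => ht (Finset.mem_inter.2 ⟨h, htQ⟩)
      obtain ⟨v, hv, hvt⟩ := h1
      obtain ⟨t', ht', hv'⟩ := mem_VF.1 hv
      exact pLay_of_PBI h t' (hUB ht') t htB (adj_of_site (fun e => ht (e ▸ ht')) hv' hvt)
    · exact ⟨hω.cl t htQ, hω.ht.s1_bd fun h2 => htQ (IV_sub Q h2)⟩
  have offP : OffTZ U (PBI D B) := offTZ_mono hUB (offTZ_PBI D B)
  set g : Cfg → ℝ := fun ω => PBI D B ω * Cn (N \ (IV U : Set P2)) ω with hg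
  have g0 : ∀ ω, 0 ≤ g ω := fun ω => mul_nonneg (PBI_nonneg _ _ _) (Cn_nonneg _ _)
  have gL : ∀ ω, Valid Q ω → wt c Q ω ≠ 0 → g ω ≠ 0 → Lay true U ω := fun ω hω hw h =>
    hlay ω hω hw (left_ne_zero_of_mul h)
  -- the two decompositions
  have e1 : E c Q (fun ω => PBI D B ω * Cn N ω) = E c Q (fun ω => g ω * E c U (Cn N)) := by
    refine E_dec (e := true) hc hUsc hUQ (φ := fun _ => Cn N) (fun ω hω hw hL => ?_)
      (fun ω ω' hω hw hL hω' => ?_)
    · have h0 : PBI D B ω = 0 := by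
        by_contra h
        exact hL (hlay ω hω hw h)
      simp only [hg, h0, zero_mul, and_self]
    · rw [offTZ_glue hUsc hω.ht.toLip hL hω' offP, cn_glue hUsc hUQ hω hL hω']
      simp only [hg]; ring
  have e2 : E c Q (fun ω => PBI D B ω * (Cn N ω * ind (Arm0 N y n b r) ω)) =
      E c Q (fun ω => g ω * E c U (fun ω' => Cn N ω' * ind (Arm0 N y n b r) (glue true U ω ω'))) := by
    refine E_dec (e := true) hc hUsc hUQ
      (φ := fun ω ω' => Cn N ω' * ind (Arm0 N y n b r) (glue true U ω ω')) (fun ω hω hw hL => ?_)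
      (fun ω ω' hω hw hL hω' => ?_)
    · have h0 : PBI D B ω = 0 := by
        by_contra h
        exact hL (hlay ω hω hw h)
      simp only [hg, h0, zero_mul, and_self]
    · rw [offTZ_glue hUsc hω.ht.toLip hL hω' offP, cn_glue hUsc hUQ hω hL hω']
      simp only [hg]; ring
  rw [e1, e2, ← E_smul]
  refine E_mono' hc fun ω hω hw => ?_
  by_cases hgω : g ω = 0
  · rw [hgω]; simp
  have hL := gL ω hω hw hgω
  have h1 : E c U (fun ω' => Cn N ω' * ind {ω | ArmF U N L (ball y n) ω.1} ω') ≤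
      E c U (fun ω' => Cn N ω' * ind (Arm0 N y n b r) (glue true U ω ω')) := by
    refine E_mono hc fun ω' hω' => ?_
    by_cases hC : Cn N ω' = 0
    · rw [hC, zero_mul, zero_mul]
    refine mul_le_mul_of_nonneg_left ?_ (Cn_nonneg N ω')
    refine ind_le_ind fun hA => ?_
    have hC' : Cn N (glue true U ω ω') ≠ 0 := by
      rw [cn_glue hUsc hUQ hω hL hω']
      exact mul_ne_zero (right_ne_zero_of_mul hgω) hC
    exact arm0_of hUsc hUQ hω hL hω' hN hC' hI hLr hA
  calc c0 * (g ω * E c U (Cn N)) = g ω * (c0 * E c U (Cn N)) := by ring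
    _ ≤ g ω * E c U (fun ω' => Cn N ω' * ind (Arm0 N y n b r) (glue true U ω ω')) :=
        mul_le_mul_of_nonneg_left (hcore.trans h1) (g0 ω)

/-- **Lemma B.** -/
theorem lemB {x : ℝ} (hx0 : 0 < x) (hx1 : x ≤ 1) {K : ℕ} {p : ℝ} (hR : RSW ((x ^ 2)⁻¹) K p)
    {P : Measure Hz} (hPS : PSq P)
    (hFL : ∀ f : Hz → ℝ, GObs f → FLim ((x ^ 2)⁻¹) f (∫ h, f h ∂P)) (A : ℕ) :
    ∃ (R : ℕ) (c1 : ℝ), 0 < c1 ∧ ∀ R' : ℕ, R ≤ R' → LemB ((x ^ 2)⁻¹) K A R' c1 := by
  classical
  have hx2 : 0 < x ^ 2 := by positivity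
  have hc : 1 ≤ (x ^ 2)⁻¹ := (one_le_inv₀ hx2).2 (pow_le_one₀ hx0.le hx1)
  obtain ⟨M, c0, hc0, hAM, hcore⟩ := core hx0 hx1 hR hPS hFL A
  refine ⟨2 * M + 8, c0 * p, mul_pos hc0 hR.p0, fun R hR' N Q b y n hn hQ hN hray hrN hy hyN => ?_⟩
  set c := (x ^ 2)⁻¹ with hcdef
  set m := M * n + 3 with hm
  set m1 := M * n + 2 with hm1
  set D := ball b (2 * m + 1) with hD
  have hRn : 2 * m + 2 ≤ R * n := by
    have h1 : (2 * M + 8) * n ≤ R * n := Nat.mul_le_mul_right _ hR'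
    have h2 : (2 * M + 8) * n = 2 * (M * n) + 8 * n := by ring
    omega
  have hAn : A * n + 3 * n ≤ M * n := by
    have := Nat.mul_le_mul_right n hAM
    have e : (A + 3) * n = A * n + 3 * n := by ring
    omega
  have hnray : ∀ t ∈ ball b (R * n), t ∉ Q → t ∈ ray b := fun t ht h => by
    by_contra h'
    exact h ((hray t ht).2 h')
  have hbray : b ∈ ray b := ⟨rfl, le_rfl⟩
  have hbB : ∀ k, b ∈ ball b k := fun k => self_mem_ball b k
  have hbN : b ∈ N := hrN b (hbB _) hbray b (base_mem_up b)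
  have hbQ : b ∉ Q := fun h => (hray b (hbB _)).1 h hbray
  -- one domain
  have hpiece : ∀ B ∈ D.powerset.filter (fun B => ball b (m - 1) ⊆ B),
      c0 * E c Q (fun ω => PBI D B ω * Cn N ω) ≤
        E c Q (fun ω => PBI D B ω * (Cn N ω * ind (Arm0 N y n b (R * n)) ω)) := by
    intro B hB
    obtain ⟨hBD, hmB⟩ := Finset.mem_filter.1 hB
    rw [Finset.mem_powerset] at hBD
    by_cases hsc : SC B
    swap
    · have h0 : ∀ ω, PBI D B ω = 0 := fun ω => by
        by_contra h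
        exact hsc (sc_of_PBI (sc_ball b _) h)
      simp only [h0, zero_mul]
      rw [E_const hc, mul_zero]
    set U := B ∩ Q with hU
    set Q' := Q ∪ ball b m1 with hQ'
    set B' := B ∩ Q' with hB'
    set L := IV B' with hL
    have hQ'sc : SC Q' := sc_fill hQ (R := R * n) (by omega) hnray
    have hB'sc : SC B' := sc_inter hsc hQ'sc
    have hUB' : U ⊆ B' := fun t ht => by
      rw [hU, Finset.mem_inter] at ht
      rw [hB', hQ', Finset.mem_inter, Finset.mem_union]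
      exact ⟨ht.1, Or.inl ht.2⟩
    have hmb : ball b m1 ⊆ B := (ball_mono b (by omega)).trans hmB
    have hG : Geo U N L := by
      refine ⟨hN.conn, ?_, fun v hv hI => hv ?_, fun v hv hvI => ?_⟩
      · set e0 : P2 := (b.1, b.2 + (m1 + 1)) with he0
        have he : e0 ∈ ball b (R * n) := by
          rw [mem_ball]
          simp only [he0, abs_le]
          have : ((m1 + 1 : ℕ) : ℤ) ≤ ((R * n : ℕ) : ℤ) := by exact_mod_cast (by omega : m1 + 1 ≤ R * n)
          push_cast at this ⊢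
          refine ⟨⟨?_, ?_⟩, ⟨?_, ?_⟩, ⟨?_, ?_⟩⟩ <;> nlinarith
        have her : e0 ∈ ray b := ⟨rfl, by simp only [he0]; omega⟩
        have heb : e0 ∉ ball b m1 := by
          rw [mem_ball]
          simp only [he0, abs_le]
          push_cast
          omega
        have heQ : e0 ∉ Q := fun h => (hray e0 he).1 h her
        refine ⟨e0, hrN e0 he her e0 (base_mem_up e0), fun h => ?_⟩
        have h1 := IV_sub B' h
        rw [hB', hQ', Finset.mem_inter, Finset.mem_union] at h1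
        rcases h1.2 with h2 | h2
        · exact heQ h2
        · exact heb h2
      · exact IV_mono hUB' (IF_sub U N hI)
      · rw [mem_IV'] at hvI
        push Not at hvI
        obtain ⟨t, ht, htU⟩ := hvI
        have h1 : t ∈ B' := mem_IV'.1 hv t ht
        rw [hB', hQ', Finset.mem_inter, Finset.mem_union] at h1
        have htQ : t ∉ Q := fun h => htU (Finset.mem_inter.2 ⟨h1.1, h⟩)
        have htb : t ∈ ball b m1 := h1.2.resolve_left htQ
        have htR : t ∈ ball b (R * n) := ball_mono b (by omega) htb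
        exact hrN t htR (hnray t htR htQ) v ht
    have hAU : Anc N U := hN.mono Finset.inter_subset_right
    have hVL : VF (ball b (M * n)) ⊆ L := by
      intro v hv
      obtain ⟨t, ht, hvt⟩ := mem_VF.1 hv
      rw [hL, mem_IV']
      intro t' ht'
      have h1 : t' ∈ ball b m1 := by
        have := ball_trans (up_ball ht') (ball_trans (ball_up hvt) ht)
        exact ball_mono b (by omega) this
      rw [hB', hQ', Finset.mem_inter, Finset.mem_union]
      exact ⟨hmb h1, Or.inr h1⟩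
    have hrayU : ∀ t ∈ ball b (M * n), t ∉ U → t ∈ ray b := by
      intro t ht htU
      have h1 : t ∈ B := hmb (ball_mono b (by omega) ht)
      have h2 : t ∉ Q := fun h => htU (Finset.mem_inter.2 ⟨h1, h⟩)
      exact hnray t (ball_mono b (by omega) ht) h2
    have hyI : ball y n ⊆ IF U N := by
      intro v hv
      have hvN : v ∉ N := hyN v (ball_mono y (Nat.le_mul_of_pos_left _ (by have := hR.K4; omega)) hv)
      refine mem_IF.2 ⟨?_, hvN⟩
      rw [mem_IV']
      intro t ht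
      have h1 : t ∈ ball b m1 := by
        have := ball_trans (up_ball ht) (ball_trans hv hy)
        exact ball_mono b (by omega) this
      have htQ : t ∈ Q := by
        by_contra h
        have h2 : t ∈ ball b (R * n) := ball_mono b (by omega) h1
        exact hvN (hrN t h2 (hnray t h2 h) v ht)
      exact Finset.mem_inter.2 ⟨hmb h1, htQ⟩
    have hbU : b ∉ U := fun h => hbQ (Finset.mem_inter.1 h).2
    have hc1 := hcore U N L b y n hn (sc_inter hsc hQ) hG hAU (isConn_IV hB'sc) hbN hbU hVL hrayU hy hyI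
    have hDR : ∀ z ∈ D, z ∈ ball b (R * n) := fun z hz => ball_mono b (by omega) hz
    exact piece hc hQ hsc hN (fun z hz => hDR z (hBD (Finset.mem_inter.1 (IV_sub _ hz)).1))
      (fun z hz => hDR z (hBD (Finset.mem_inter.1 (IV_sub _ hz)).1)) hc1
  -- sum
  set 𝒢 := D.powerset.filter (fun B => ball b (m - 1) ⊆ B) with h𝒢
  have hsum : c0 * E c Q (fun ω => (∑ B ∈ 𝒢, PBI D B ω) * Cn N ω) ≤
      E c Q (fun ω => (∑ B ∈ 𝒢, PBI D B ω) * (Cn N ω * ind (Arm0 N y n b (R * n)) ω)) := by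
    have e : ∀ f : Cfg → ℝ, E c Q (fun ω => (∑ B ∈ 𝒢, PBI D B ω) * f ω) =
        ∑ B ∈ 𝒢, E c Q (fun ω => PBI D B ω * f ω) := by
      intro f
      rw [← E_sum]
      refine congrArg _ ?_
      funext ω
      rw [Finset.sum_mul]
    rw [e, e, Finset.mul_sum]
    exact Finset.sum_le_sum hpiece
  have hcirc := circE hc hR hQ N b (n := m) (by omega)
  have l1 : E c Q (fun ω => Cn N ω * ind (BlkP b m (2 * m)) ω) ≤
      E c Q (fun ω => (∑ B ∈ 𝒢, PBI D B ω) * Cn N ω) := by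
    refine E_mono hc fun ω _ => ?_
    have h1 := ind_le_sum (a := b) (r := m - 1) (m := m) (N := 2 * m) (by omega) (by omega) ω
    have e : (∑ B ∈ (ball b (2 * m + 1)).powerset with ball b (m - 1) ⊆ B,
        PBI (ball b (2 * m + 1)) B ω) = ∑ B ∈ 𝒢, PBI D B ω := by
      simp only [h𝒢, hD]
    rw [← e]
    have := mul_le_mul_of_nonneg_right h1 (Cn_nonneg N ω)
    linarith
  have l2 : E c Q (fun ω => (∑ B ∈ 𝒢, PBI D B ω) * (Cn N ω * ind (Arm0 N y n b (R * n)) ω)) ≤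
      E c Q (fun ω => Cn N ω * ind (Arm0 N y n b (R * n)) ω) := by
    refine E_mono hc fun ω _ => ?_
    have h1 : ∑ B ∈ 𝒢, PBI D B ω ≤ 1 := sum_filter_le_one b (m - 1) (2 * m) ω
    have h2 : 0 ≤ Cn N ω * ind (Arm0 N y n b (R * n)) ω := mul_nonneg (Cn_nonneg _ _) (ind_nonneg _ _)
    have := mul_le_mul_of_nonneg_right h1 h2
    linarith
  calc c0 * p * E c Q (Cn N) = c0 * (p * E c Q (Cn N)) := by ring
    _ ≤ c0 * E c Q (fun ω => Cn N ω * ind (BlkP b m (2 * m)) ω) :=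
        mul_le_mul_of_nonneg_left hcirc hc0.le
    _ ≤ c0 * E c Q (fun ω => (∑ B ∈ 𝒢, PBI D B ω) * Cn N ω) := mul_le_mul_of_nonneg_left l1 hc0.le
    _ ≤ _ := hsum.trans l2

end Crest.Agent.R144.LmB702
end
end

-- ▼ part R144/Fg1_617
section

/-!
# R144, BND, F3g: geometry of the far arc (helper617)

`far_arc` : near a frontier point `p`, the non-free sites outside a small ball around `p` contain a
connected set `Nf` which leaves out only free sites and sites at distance `≤ r` of `p`.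
-/

set_option autoImplicit false

open Set Topology Filter Metric

namespace Crest.Agent.R144.Fg617

open Crest.ProbabilityR.HexHeights Crest.ProbabilityR.TriHeights Crest.Agent.R144.HexTil353
  Crest.Agent.R144.Geo268 Crest.Agent.R144.Cnt268 Crest.Agent.R144.Set268
open Crest.Agent.R144.Lc830 (Jn join_of_preconn first_entry LC)
open Crest.Agent.R144.Zg349 (IsConn StepIn)

theorem cell_dist {δ : ℝ} (hδ : 0 < δ) {u : ℤ × ℤ} {z : ℂ} (hz : z ∈ cell δ u) :
    dist z (centre δ u) ≤ δ := by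
  have h1 := dist_le_of_mem_cell hδ hz
  have h2 : dist z (centre δ u) ^ 2 ≤ δ ^ 2 := by nlinarith [sq_nonneg (dist z (centre δ u))]
  exact (sq_le_sq₀ dist_nonneg hδ.le).1 h2

theorem centre_mem_cell (δ : ℝ) (u : ℤ × ℤ) : centre δ u ∈ cell δ u := by
  intro v
  rw [dist_self]
  exact dist_nonneg

theorem infDist_le_of_cth {D : Set ℂ} {e : ℝ} (he : 0 ≤ e) {z : ℂ} (hz : z ∈ cthickening e D) :
    infDist z D ≤ e :=
  ENNReal.toReal_le_of_le_ofReal he (by simpa [cthickening] using hz)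

theorem adj_symm' {u v : ℤ × ℤ} (h : Adj u v) : Adj v u := Crest.Agent.R144.It844.adj_symm h

theorem jn_symm {S : Set (ℤ × ℤ)} {u v : ℤ × ℤ} (h : Jn S u v) : Jn S v u := by
  induction h with
  | refl => exact Relation.ReflTransGen.refl
  | tail _ hbc ih => exact (Relation.ReflTransGen.single ⟨hbc.2.1, hbc.1, adj_symm' hbc.2.2⟩).trans ih

theorem jn_mono {S T : Set (ℤ × ℤ)} (hST : S ⊆ T) {u v : ℤ × ℤ} (h : Jn S u v) : Jn T u v := by
  induction h with
  | refl => exact Relation.ReflTransGen.refl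
  | tail _ hbc ih => exact ih.tail ⟨hST hbc.1, hST hbc.2.1, hbc.2.2⟩

/-! ### continuum -/

/-- outside a disc -/
theorem far_preconn (p : ℂ) {R : ℝ} (hR : 0 < R) : IsPreconnected {z : ℂ | R ≤ dist z p} := by
  have h1 : IsPreconnected (sphere p R) :=
    isPreconnected_sphere (by rw [Complex.rank_real_complex]; exact Nat.one_lt_ofNat) p R
  have h2 : {z : ℂ | R ≤ dist z p} =
      (fun a : ℝ × ℂ => p + (a.1 : ℂ) * (a.2 - p)) '' (Ici 1 ×ˢ sphere p R) := by
    ext z
    constructor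
    · intro hz
      have hz' : R ≤ dist z p := hz
      have hd : 0 < dist z p := hR.trans_le hz'
      have hdc : (dist z p : ℂ) ≠ 0 := by exact_mod_cast hd.ne'
      have hRc : (R : ℂ) ≠ 0 := by exact_mod_cast hR.ne'
      refine ⟨(dist z p / R, p + ((R / dist z p : ℝ) : ℂ) * (z - p)), ⟨?_, ?_⟩, ?_⟩
      · show 1 ≤ dist z p / R
        rw [le_div_iff₀ hR]
        linarith
      · show p + ((R / dist z p : ℝ) : ℂ) * (z - p) ∈ sphere p R
        rw [mem_sphere, dist_eq_norm, add_sub_cancel_left, norm_mul, Complex.norm_real,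
          Real.norm_eq_abs, abs_of_pos (by positivity), ← dist_eq_norm]
        field_simp
      · show p + ((dist z p / R : ℝ) : ℂ) * (p + ((R / dist z p : ℝ) : ℂ) * (z - p) - p) = z
        push_cast
        field_simp
        ring
    · rintro ⟨⟨t, w⟩, ⟨ht, hw⟩, rfl⟩
      have ht' : (1 : ℝ) ≤ t := ht
      have hw' : dist w p = R := hw
      show R ≤ dist (p + (t : ℂ) * (w - p)) p
      rw [dist_eq_norm, add_sub_cancel_left, norm_mul, Complex.norm_real, Real.norm_eq_abs,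
        abs_of_pos (by linarith), ← dist_eq_norm, hw']
      nlinarith
  rw [h2]
  refine (isPreconnected_Ici.prod h1).image _ ?_
  exact Continuous.continuousOn (by fun_prop)

/-- a segment on a ray from `p` -/
theorem seg_ray {p d : ℂ} {s t : ℝ} (hs : 1 ≤ s) (ht : 1 ≤ t) {x : ℂ}
    (hx : x ∈ segment ℝ (p + (s : ℂ) * d) (p + (t : ℂ) * d)) : ‖d‖ ≤ dist x p := by
  obtain ⟨a, b, ha, hb, hab, rfl⟩ := hx
  have e : a • (p + (s : ℂ) * d) + b • (p + (t : ℂ) * d) - p = ((a * s + b * t : ℝ) : ℂ) * d := by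
    have : (a : ℂ) + b = 1 := by exact_mod_cast hab
    simp only [Complex.real_smul]
    push_cast
    linear_combination p * this
  have h1 : 1 ≤ a * s + b * t := by nlinarith
  rw [dist_eq_norm, e, norm_mul, Complex.norm_real, Real.norm_eq_abs, abs_of_pos (by linarith)]
  nlinarith [norm_nonneg d]

/-- the ray itself -/
theorem ray_preconn (p d : ℂ) : IsPreconnected ((fun t : ℝ => p + (t : ℂ) * d) '' Ici 1) :=
  isPreconnected_Ici.image _ (Continuous.continuousOn (by fun_prop))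

theorem ray_dist {p d : ℂ} {t : ℝ} (ht : 1 ≤ t) : dist (p + (t : ℂ) * d) p = t * ‖d‖ := by
  rw [dist_eq_norm, add_sub_cancel_left, norm_mul, Complex.norm_real, Real.norm_eq_abs,
    abs_of_pos (by linarith)]

/-- the frontier without a neighbourhood of `p` lies on an arc which avoids `p` -/
theorem arc {D : Set ℂ} {γ : ℝ → ℂ} (h : Dom D γ) {p : ℂ} (hp : p ∈ frontier D) {r : ℝ}
    (hr : 0 < r) : ∃ A : Set ℂ, IsPreconnected A ∧ A ⊆ frontier D ∧
      (∃ ρ > 0, ∀ q ∈ A, ρ ≤ dist q p) ∧ ∀ q ∈ frontier D, r ≤ dist q p → q ∈ A := by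
  rw [← h.fr] at hp ⊢
  obtain ⟨s, rfl⟩ := hp
  have hc : Continuous γ := h.reg.cd.continuous
  have hper := h.reg.per
  obtain ⟨t, ht, htb⟩ := Metric.continuousAt_iff.1 (hc.continuousAt (x := s)) r hr
  have hpi := Real.pi_pos
  set t1 := min t Real.pi / 2 with ht1
  have ht1p : 0 < t1 := by rw [ht1]; positivity
  have ht1t : t1 < t := by
    have := min_le_left t Real.pi
    have h3 : 0 < min t Real.pi := lt_min ht hpi
    rw [ht1]; linarith
  have ht1pi : t1 ≤ Real.pi / 2 := by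
    have := min_le_right t Real.pi
    rw [ht1]; linarith
  have hcomp : IsCompact (γ '' Icc (s + t1) (s + 2 * Real.pi - t1)) := isCompact_Icc.image hc
  have hne : (γ '' Icc (s + t1) (s + 2 * Real.pi - t1)).Nonempty :=
    ⟨γ (s + t1), s + t1, ⟨le_rfl, by linarith⟩, rfl⟩
  refine ⟨γ '' Icc (s + t1) (s + 2 * Real.pi - t1), isPreconnected_Icc.image _ hc.continuousOn,
    image_subset_range _ _, ?_, ?_⟩
  · obtain ⟨q0, hq0, hmin⟩ := hcomp.exists_isMinOn hne
      (f := fun q => dist q (γ s)) (by fun_prop)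
    refine ⟨dist q0 (γ s), ?_, fun q hq => hmin hq⟩
    obtain ⟨x, hx, rfl⟩ := hq0
    exact dist_pos.2 (ne_of_Ioo hper h.reg.inj (by linarith [hx.1]) (by linarith [hx.2]))
  · rintro _ ⟨x, rfl⟩ hx
    obtain ⟨y, hy, hxy⟩ := hper.exists_mem_Ico (by positivity) x s
    rw [hxy] at hx ⊢
    refine ⟨y, ⟨?_, ?_⟩, rfl⟩
    · by_contra hcon
      push Not at hcon
      have : dist y s < t := by
        rw [Real.dist_eq, abs_of_nonneg (by linarith [hy.1])]
        linarith
      exact absurd (htb this) (not_lt.2 hx)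
    · by_contra hcon
      push Not at hcon
      have h3 : γ (y - 2 * Real.pi) = γ y := hper.sub_eq y
      have : dist (y - 2 * Real.pi) s < t := by
        rw [Real.dist_eq, abs_lt]
        constructor <;> linarith [hy.2]
      have h4 := htb this
      rw [h3] at h4
      exact absurd h4 (not_lt.2 hx)

/-! ### chaining along a connected set -/

theorem chain {δ : ℝ} {A : Set ℂ} (hA : IsPreconnected A) {S N : Set (ℤ × ℤ)} {e : ℝ} (he : 0 < e)
    (hex : ∀ q ∈ A, ∃ w ∈ N, dist (centre δ w) q ≤ e / 2)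
    (hJ : ∀ q ∈ A, ∀ u ∈ N, ∀ v ∈ N, dist (centre δ u) q ≤ e → dist (centre δ v) q ≤ e → Jn S u v)
    {q q' : ℂ} (hq : q ∈ A) (hq' : q' ∈ A) {u v : ℤ × ℤ} (hu : u ∈ N) (hv : v ∈ N)
    (huq : dist (centre δ u) q ≤ e) (hvq : dist (centre δ v) q' ≤ e) : Jn S u v := by
  have key := hA.induction₂ (fun q q' => ∀ u ∈ N, ∀ v ∈ N, dist (centre δ u) q ≤ e →
    dist (centre δ v) q' ≤ e → Jn S u v) ?_ ?_ ?_ hq hq'
  · exact key u hu v hv huq hvq
  · intro x hx
    obtain ⟨w, hw, hwx⟩ := hex x hx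
    filter_upwards [self_mem_nhdsWithin,
      mem_nhdsWithin_of_mem_nhds (ball_mem_nhds x (half_pos he))] with y hy hyx u hu v hv hux hvy
    have h1 : dist (centre δ w) y ≤ e := by
      have h2 := dist_triangle (centre δ w) x y
      have h3 : dist y x < e / 2 := hyx
      rw [dist_comm] at h3
      linarith
    exact (hJ x hx u hu w hw hux (by linarith)).trans (hJ y hy w hw v hv h1 hvy)
  · intro x y z _ hy _ h1 h2 u hu v hv hux hvz
    obtain ⟨w, hw, hwy⟩ := hex y hy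
    exact (h1 u hu w hw hux (by linarith)).trans (h2 w hw v hv (by linarith) hvz)
  · intro x y _ _ h1 u hu v hv hux hvy
    exact jn_symm (h1 v hv u hu hvy hux)

/-! ### towards the domain -/

/-- from a site far from `D` towards a point close to `D` -/
theorem toward {D : Set ℂ} (hop : IsOpen D) (hne : D.Nonempty) {δ a e : ℝ} (hδ : 0 < δ) (he : 0 < e)
    {p : ℂ} {S : Set (ℤ × ℤ)}
    (hG : ∀ u, (cell δ u ∩ {y | e / 4 ≤ infDist y D ∧ a ≤ dist y p}).Nonempty → u ∈ S)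
    {u : ℤ × ℤ} {z y : ℂ} (hzu : z ∈ cell δ u) (hz : e / 4 ≤ infDist z D)
    (hy : infDist y D < e / 4) (hseg : ∀ x ∈ segment ℝ z y, a ≤ dist x p) :
    ∃ (u1 : ℤ × ℤ) (w q : ℂ), Jn S u u1 ∧ w ∈ cell δ u1 ∧ w ∈ segment ℝ z y ∧ u1 ∈ S ∧
      q ∈ frontier D ∧ dist w q < e / 2 := by
  set O : Set ℂ := thickening (e / 4) D with hO
  have hmem : ∀ x, x ∈ O ↔ infDist x D < e / 4 := fun x => by
    rw [hO, mem_thickening_iff_infDist_lt hne]
  have hzO : z ∉ O := fun h1 => absurd ((hmem z).1 h1) (not_lt.2 hz)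
  obtain ⟨w, hw, hwf, hwseg⟩ := first_entry isOpen_thickening hzO ((hmem y).2 hy)
  obtain ⟨u1, hu1⟩ := exists_cell hδ w
  have hsub : segment ℝ z w ⊆ segment ℝ z y :=
    (convex_segment z y).segment_subset (left_mem_segment ℝ z y) hw
  have hK : ∀ u', (cell δ u' ∩ segment ℝ z w).Nonempty → u' ∈ S := by
    rintro u' ⟨x, hxu, hx⟩
    refine hG u' ⟨x, hxu, ?_, hseg x (hsub hx)⟩
    by_contra hcon
    exact hwseg hx ((hmem x).2 (not_le.1 hcon))
  have h1 : Jn S u u1 := join_of_preconn hδ (convex_segment z w).isPreconnected hK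
    ⟨z, hzu, left_mem_segment ℝ z w⟩ ⟨w, hu1, right_mem_segment ℝ z w⟩
  have h2 : u1 ∈ S := hK u1 ⟨w, hu1, right_mem_segment ℝ z w⟩
  have h3 : infDist w D ≤ e / 4 :=
    infDist_le_of_cth (by positivity) (closure_thickening_subset_cthickening _ _ hwf.1)
  have hwO : w ∉ D := fun h4 => hwseg (right_mem_segment ℝ z w) (self_subset_thickening (by positivity) D h4)
  obtain ⟨y', hy', hwy'⟩ := (infDist_lt_iff hne).1 (lt_of_le_of_lt h3 (show e / 4 < e / 2 by linarith))
  obtain ⟨q, hq, hqf, _⟩ := first_entry hop hwO hy'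
  refine ⟨u1, w, q, h1, hu1, hw, h2, hqf, lt_of_le_of_lt ?_ hwy'⟩
  have h5 := (convex_closedBall w (dist w y')).segment_subset (mem_closedBall_self dist_nonneg)
    (by rw [mem_closedBall, dist_comm]) hq
  rw [mem_closedBall, dist_comm] at h5
  exact h5

/-! ### the far arc -/

/-- **the far arc**: near a frontier point `p`, the non-free sites outside a small ball around `p`
contain a connected set which misses only non-free sites at distance `≤ r` of `p` -/
theorem far_arc {D : Set ℂ} {γ : ℝ → ℂ} {P : Finset ℂ} {δ : ℕ → ℝ} {Λ : ℕ → Finset (ℤ × ℤ)}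
    {τ : ℕ → ℤ × ℤ → ℤ} (h : Setup D γ P δ Λ τ) (hLC : LC D δ Λ) {p : ℂ} (hp : p ∈ frontier D)
    {r : ℝ} (hr : 0 < r) :
    ∃ ρ > 0, ρ ≤ r ∧ ∀ᶠ n in atTop, ∃ Nf : Set (ℤ × ℤ), (∀ v ∈ Nf, v ∉ Λ n) ∧ IsConn Nf ∧
      Nfᶜ.Finite ∧ (∀ v ∈ Nf, ρ < dist (centre (δ n) v) p) ∧
      ∀ v, v ∉ Λ n → v ∉ Nf → dist (centre (δ n) v) p ≤ r := by
  obtain ⟨C, hC1, hLC⟩ := hLC
  have hDne : D.Nonempty := h.dom.conn.nonempty
  have hpD : p ∉ D := fun h1 => by
    have h2 := hp.2
    rw [h.dom.op.interior_eq] at h2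
    exact h2 h1
  obtain ⟨q0, hq0⟩ := hDne
  have hq0p : 0 < dist q0 p := dist_pos.2 fun h1 => hpD (h1 ▸ hq0)
  obtain ⟨M, hM⟩ := h.dom.bdd.subset_closedBall p
  -- the scale
  set r1 := min r (dist q0 p) / 2 with hr1
  have hr1p : 0 < r1 := by rw [hr1]; have := lt_min hr hq0p; positivity
  have hr1r : 2 * r1 ≤ r := by rw [hr1]; have := min_le_left r (dist q0 p); linarith
  have hr1q : 2 * r1 ≤ dist q0 p := by rw [hr1]; have := min_le_right r (dist q0 p); linarith
  obtain ⟨A, hA, hAf, ⟨ρ1, hρ1, hAρ⟩, hAr⟩ := arc h.dom hp (show 0 < r1 / 2 by positivity)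
  obtain ⟨r0, hr0, hballs⟩ := exists_balls h.dom h.c2
  set ρ := min ρ1 r1 / 4 with hρ
  have hρp : 0 < ρ := by rw [hρ]; have := lt_min hρ1 hr1p; positivity
  have hρ1' : 4 * ρ ≤ ρ1 := by rw [hρ]; have := min_le_left ρ1 r1; linarith
  have hρr : 4 * ρ ≤ r1 := by rw [hρ]; have := min_le_right ρ1 r1; linarith
  -- the mesh `e`
  set e := min (min (ρ / C) r0) (r1 / 8) with he
  have hCp : 0 < C := by linarith
  have hep : 0 < e := lt_min (lt_min (by positivity) hr0) (by positivity)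
  have heC : C * e ≤ ρ := by
    have h1 : e ≤ ρ / C := (min_le_left _ _).trans (min_le_left _ _)
    have h2 := (le_div_iff₀ hCp).1 h1
    linarith
  have her0 : e ≤ r0 := (min_le_left _ _).trans (min_le_right _ _)
  have her1 : e ≤ r1 / 8 := min_le_right _ _
  refine ⟨ρ, hρp, by linarith, ?_⟩
  -- the compact core
  set K : Set ℂ := {z | z ∈ closure D ∧ e / 2 ≤ infDist z Dᶜ} with hK
  have hDc : (Dᶜ).Nonempty := ⟨p, hpD⟩
  have hKc : IsCompact K := by
    refine (isCompact_of_isClosed_isBounded isClosed_closure h.dom.bdd.closure).inter_right ?_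
    exact isClosed_le continuous_const (continuous_infDist_pt _)
  have hKD : K ⊆ D := by
    intro z hz
    by_contra h1
    have h2 := hz.2
    rw [infDist_zero_of_mem h1] at h2
    linarith
  filter_upwards [h.sites.small (show 0 < e / 16 by positivity), hLC e hep,
    h.sites.out (e / 8) (by positivity), h.sites.inn K hKc hKD] with n hδ hL hout hinn
  have hδp := h.sites.pos n
  set S : Set (ℤ × ℤ) := {w | w ∉ Λ n ∧ ρ < dist (centre (δ n) w) p} with hS
  set N : Set (ℤ × ℤ) := {w | w ∉ Λ n} with hN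
  -- good cells
  have hfar : ∀ u, ∀ z ∈ cell (δ n) u, e / 4 ≤ infDist z D → u ∉ Λ n := by
    intro u z hz hzD hu
    have h1 := infDist_le_of_cth (by positivity) (hout u hu)
    have h2 := infDist_le_infDist_add_dist (s := D) (x := z) (y := centre (δ n) u)
    have h3 := cell_dist hδp hz
    linarith
  have hG : ∀ u, (cell (δ n) u ∩ {y | e / 4 ≤ infDist y D ∧ 2 * r1 - e ≤ dist y p}).Nonempty →
      u ∈ S := by
    rintro u ⟨z, hz, hz1, hz2⟩
    refine ⟨hfar u z hz hz1, ?_⟩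
    have h2 := cell_dist hδp hz
    have h3 := dist_triangle z (centre (δ n) u) p
    have h4 : 2 * r1 - e ≤ dist z p := hz2
    linarith
  -- existence of non-free sites near the frontier
  have hex : ∀ q ∈ A, ∃ w ∈ N, dist (centre (δ n) w) q ≤ e / 2 := by
    intro q hq
    obtain ⟨ν, hν, hb⟩ := hballs q (hAf hq)
    have h1 := (hb (e / 4) (by positivity) (by linarith)).2
    obtain ⟨w, hw⟩ := exists_cell hδp (q - ((e / 4 : ℝ) : ℂ) * ν)
    have h2 : e / 4 ≤ infDist (q - ((e / 4 : ℝ) : ℂ) * ν) D := by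
      refine (le_infDist ⟨q0, hq0⟩).2 fun y hy => ?_
      by_contra hcon
      push Not at hcon
      exact Set.disjoint_left.1 h1 (by rw [mem_ball, dist_comm]; exact hcon) (subset_closure hy)
    refine ⟨w, hfar w _ hw h2, ?_⟩
    have h3 := cell_dist hδp hw
    have h4 : dist (q - ((e / 4 : ℝ) : ℂ) * ν) q = e / 4 := by
      rw [dist_eq_norm, sub_sub_cancel_left, norm_neg, norm_mul, hν, mul_one, Complex.norm_real,
        Real.norm_eq_abs, abs_of_pos (by positivity)]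
    have h5 := dist_triangle (centre (δ n) w) (q - ((e / 4 : ℝ) : ℂ) * ν) q
    rw [dist_comm] at h3
    linarith
  have hJ : ∀ q ∈ A, ∀ u ∈ N, ∀ v ∈ N, dist (centre (δ n) u) q ≤ e →
      dist (centre (δ n) v) q ≤ e → Jn S u v := by
    intro q hq u hu v hv hu1 hv1
    refine jn_mono ?_ (hL q (hAf hq) u v hu hv hu1 hv1)
    rintro w ⟨hw1, hw2⟩
    refine ⟨hw1, ?_⟩
    have h1 := hAρ q hq
    have h2 := dist_triangle q (centre (δ n) w) p
    have h3 := dist_comm q (centre (δ n) w)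
    have h4 : dist (centre (δ n) w) q ≤ C * e := hw2
    linarith
  -- the far point
  set R : ℝ := M + e + 2 * r1 with hR
  have hM0 : 0 ≤ M := by
    have := hM hq0
    rw [mem_closedBall] at this
    linarith
  have hRp : 0 < R := by rw [hR]; linarith
  have hfarG : {z : ℂ | R ≤ dist z p} ⊆ {y | e / 4 ≤ infDist y D ∧ 2 * r1 - e ≤ dist y p} := by
    intro z hz
    have hz' : R ≤ dist z p := hz
    refine ⟨(le_infDist ⟨q0, hq0⟩).2 fun y hy => ?_, by show 2 * r1 - e ≤ dist z p; linarith⟩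
    have h1 := hM hy
    rw [mem_closedBall] at h1
    have h2 := dist_triangle z y p
    linarith
  set T : ℝ := max 1 (R / dist q0 p) with hT
  have hT1 : 1 ≤ T := le_max_left _ _
  have hTR : R ≤ T * dist q0 p := by
    have h1 : R / dist q0 p ≤ T := le_max_right _ _
    exact (div_le_iff₀ hq0p).1 h1
  have hnq : ‖q0 - p‖ = dist q0 p := (dist_eq_norm _ _).symm
  have hzinf : R ≤ dist (p + (T : ℂ) * (q0 - p)) p := by
    rw [ray_dist hT1, hnq]
    exact hTR
  obtain ⟨w0, hw0⟩ := exists_cell hδp (p + (T : ℂ) * (q0 - p))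
  have hw0S : w0 ∈ S := hG w0 ⟨_, hw0, hfarG hzinf⟩
  -- sites close to the arc are joined to the far point
  have harc : ∀ u ∈ N, ∀ q ∈ A, dist (centre (δ n) u) q ≤ e → Jn S u w0 := by
    intro u hu q hq huq
    have hq0e : q0 = p + ((1 : ℝ) : ℂ) * (q0 - p) := by push_cast; ring
    obtain ⟨u1, w, q1, h1, h2, h3, h4, h5, h6⟩ := toward (p := p) (S := S) (a := 2 * r1 - e)
      h.dom.op ⟨q0, hq0⟩ hδp hep hG hw0 (hfarG hzinf).1
      (y := q0) (by rw [infDist_zero_of_mem hq0]; positivity) (by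
        intro x hx
        have hx' : x ∈ segment ℝ (p + (T : ℂ) * (q0 - p)) (p + ((1 : ℝ) : ℂ) * (q0 - p)) := by
          rwa [← hq0e]
        have := seg_ray hT1 le_rfl hx'
        rw [hnq] at this
        linarith)
    have h7 : dist q0 p ≤ dist w p := by
      have h3' : w ∈ segment ℝ (p + (T : ℂ) * (q0 - p)) (p + ((1 : ℝ) : ℂ) * (q0 - p)) := by
        rwa [← hq0e]
      have := seg_ray hT1 le_rfl h3'
      rwa [hnq] at this
    have h8 : q1 ∈ A := by
      refine hAr q1 h5 ?_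
      have := dist_triangle w q1 p
      linarith
    have h9 : dist (centre (δ n) u1) q1 ≤ e := by
      have h10 := cell_dist hδp h2
      have h11 := dist_triangle (centre (δ n) u1) w q1
      rw [dist_comm] at h10
      linarith
    exact (chain hA hep hex hJ hq h8 hu h4.1 huq h9).trans (jn_symm h1)
  -- every non-free site at distance `> r` is joined to the far point
  have hmain : ∀ v ∈ N, r < dist (centre (δ n) v) p → Jn S v w0 := by
    intro v hv hvr
    by_cases hq : ∃ q ∈ frontier D, dist (centre (δ n) v) q ≤ e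
    · obtain ⟨q, hqf, hqd⟩ := hq
      refine harc v hv q (hAr q hqf ?_) hqd
      have := dist_triangle (centre (δ n) v) q p
      linarith
    · push Not at hq
      set z := centre (δ n) v with hz
      have hzD : z ∉ D := by
        intro h1
        have h2 : infDist z Dᶜ < e / 2 := by
          by_contra hcon
          push Not at hcon
          exact hv (hinn v ⟨subset_closure h1, hcon⟩)
        obtain ⟨y, hy, hzy⟩ := (infDist_lt_iff hDc).1 h2
        obtain ⟨q, hq1, hqf, _⟩ := first_entry h.dom.op hy h1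
        have h5 := (convex_closedBall z (dist z y)).segment_subset
          (by rw [mem_closedBall, dist_comm]) (mem_closedBall_self dist_nonneg) hq1
        rw [mem_closedBall, dist_comm] at h5
        linarith [hq q hqf]
      have hzfar : e / 4 ≤ infDist z D := by
        by_contra hcon
        push Not at hcon
        obtain ⟨y, hy, hzy⟩ := (infDist_lt_iff ⟨q0, hq0⟩).1 hcon
        obtain ⟨q, hq1, hqf, _⟩ := first_entry h.dom.op hzD hy
        have h5 := (convex_closedBall z (dist z y)).segment_subset (mem_closedBall_self dist_nonneg)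
          (by rw [mem_closedBall, dist_comm]) hq1
        rw [mem_closedBall, dist_comm] at h5
        linarith [hq q hqf]
      have hze : z = p + ((1 : ℝ) : ℂ) * (z - p) := by push_cast; ring
      have hnz : ‖z - p‖ = dist z p := (dist_eq_norm _ _).symm
      by_cases hray : ∀ y ∈ (fun t : ℝ => p + (t : ℂ) * (z - p)) '' Ici 1, e / 4 ≤ infDist y D
      · -- the ray misses the domain
        have hpre : IsPreconnected
            ((fun t : ℝ => p + (t : ℂ) * (z - p)) '' Ici 1 ∪ {x : ℂ | R ≤ dist x p}) := by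
          have hzp : 0 < dist z p := by linarith
          refine IsPreconnected.union (p + ((max 1 (R / dist z p) : ℝ) : ℂ) * (z - p)) ?_ ?_
            (ray_preconn p (z - p)) (far_preconn p hRp)
          · exact ⟨_, mem_Ici.2 (le_max_left _ _), rfl⟩
          · show R ≤ dist (p + ((max 1 (R / dist z p) : ℝ) : ℂ) * (z - p)) p
            rw [ray_dist (le_max_left _ _), hnz]
            exact (div_le_iff₀ hzp).1 (le_max_right _ _)
        refine join_of_preconn hδp hpre ?_ ⟨z, centre_mem_cell _ _, Or.inl ⟨1, mem_Ici.2 le_rfl, hze.symm⟩⟩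
          ⟨_, hw0, Or.inr hzinf⟩
        rintro u ⟨x, hxu, hx⟩
        rcases hx with hx | hx
        · refine hG u ⟨x, hxu, hray x hx, ?_⟩
          obtain ⟨t, ht, rfl⟩ := hx
          show 2 * r1 - e ≤ dist (p + (t : ℂ) * (z - p)) p
          have ht' : (1 : ℝ) ≤ t := ht
          rw [ray_dist ht', hnz]
          nlinarith
        · exact hG u ⟨x, hxu, hfarG hx⟩
      · -- the ray meets the domain
        push Not at hray
        obtain ⟨y, ⟨t, ht, rfl⟩, hy⟩ := hray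
        have ht' : (1 : ℝ) ≤ t := ht
        have hsegd : ∀ x ∈ segment ℝ z (p + (t : ℂ) * (z - p)), dist z p ≤ dist x p := by
          intro x hx
          have hx' : x ∈ segment ℝ (p + ((1 : ℝ) : ℂ) * (z - p)) (p + (t : ℂ) * (z - p)) := by
            rwa [← hze]
          have := seg_ray le_rfl ht' hx'
          rwa [hnz] at this
        obtain ⟨u1, w, q1, h1, h2, h3, h4, h5, h6⟩ := toward (p := p) (S := S) (a := 2 * r1 - e)
          h.dom.op ⟨q0, hq0⟩ hδp hep hG (centre_mem_cell (δ n) v) hzfar hy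
          (fun x hx => by have := hsegd x hx; linarith)
        have h7 : dist z p ≤ dist w p := hsegd w h3
        have h8 : q1 ∈ A := by
          refine hAr q1 h5 ?_
          have := dist_triangle w q1 p
          linarith
        have h9 : dist (centre (δ n) u1) q1 ≤ e := by
          have h10 := cell_dist hδp h2
          have h11 := dist_triangle (centre (δ n) u1) w q1
          rw [dist_comm] at h10
          linarith
        exact h1.trans (harc u1 h4.1 q1 h8 h9)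
  -- the component of the far point
  refine ⟨{w | w ∈ S ∧ Jn S w0 w}, fun v hv => hv.1.1, ?_, ?_, fun v hv => hv.1.2, ?_⟩
  · have key : ∀ w, Jn S w0 w → Relation.ReflTransGen (StepIn {w | w ∈ S ∧ Jn S w0 w}) w0 w := by
      intro w hw
      induction hw with
      | refl => exact Relation.ReflTransGen.refl
      | tail hb hbc ih => exact ih.tail ⟨⟨hbc.1, hb⟩, ⟨hbc.2.1, hb.tail hbc⟩, hbc.2.2⟩
    have hsym : ∀ {a b : ℤ × ℤ}, Relation.ReflTransGen (StepIn {w | w ∈ S ∧ Jn S w0 w}) a b →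
        Relation.ReflTransGen (StepIn {w | w ∈ S ∧ Jn S w0 w}) b a := by
      intro a b hab
      induction hab with
      | refl => exact Relation.ReflTransGen.refl
      | tail _ hbc ih =>
        exact (Relation.ReflTransGen.single ⟨hbc.2.1, hbc.1, adj_symm' hbc.2.2⟩).trans ih
    exact fun u hu v hv => (hsym (key u hu.2)).trans (key v hv.2)
  · refine ((Λ n).finite_toSet.union (finite_near hδp p r)).subset fun v hv => ?_
    by_cases h1 : v ∈ Λ n
    · exact Or.inl h1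
    · right
      by_contra h2
      have h3 : r < dist (centre (δ n) v) p := by
        by_contra h4
        exact h2 (by
          show dist p (centre (δ n) v) ≤ r
          rw [dist_comm]
          exact not_lt.1 h4)
      exact hv ⟨⟨h1, by linarith⟩, jn_symm (hmain v h1 h3)⟩
  · intro v hv hvN
    by_contra h1
    push Not at h1
    exact hvN ⟨⟨hv, by linarith⟩, jn_symm (hmain v hv h1)⟩

end Crest.Agent.R144.Fg617
end

-- ▼ part R144/Gm2_400
section

/-!
# R144, block BND, GM literal (helper400): `gm : Frame → GM`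
-/

set_option autoImplicit false

noncomputable section

namespace Crest.Agent.R144.Gm400

open Crest.Agent.R144.It844 (P2 adj_iff)
open Crest.Agent.R144.Zg349
open Crest.Agent.R144.Rsw867 (ball mem_ball sc_ball path_mono)
open Crest.Agent.R144.Bnd991

theorem gm_scB (K n r1 r2 : ℕ) (o : P2) : SC (Bk K n r1 r2 o) :=
  sc_col o _ _ fun t => (mem_Bk (t := t)).trans ⟨fun h => ⟨h.1.1, h.1.2, h.2⟩, fun h => ⟨⟨h.1, h.2.1⟩, h.2.2⟩⟩

theorem gm_scD (K n r1 r2 : ℕ) (o : P2) (b : Bool → P2) : SC (Dk n r1 r2 o \ Yk K n r1 r2 o b) :=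
  sc_Ys K n o b _ _ fun t => by
    rw [Finset.mem_sdiff]
    constructor
    · rintro ⟨h1, h2⟩
      have h3 := mem_Dk.1 h1
      exact ⟨h3.1, h3.2, fun h4 => h2 (mem_Yk.2 ⟨h1, h4⟩)⟩
    · rintro ⟨h1, h2, h3⟩
      exact ⟨mem_Dk.2 ⟨h1, h2⟩, fun h4 => h3 (mem_Yk.1 h4).2⟩

theorem gm_Mc {K A R n r1 r2 k : ℕ} {N : Set P2} {o : P2} {h : ℤ} {b y : Bool → P2} {a : ℕ → P2}
    (hF : Frame K A R n r1 r2 k N o h b y a) : IsConn (Mk K n r1 r2 o b : Set P2) := by
  have hrin := hF.rin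
  have hr12 := hF.r12
  have hcol := hF.colb
  have h1 : IsConn {t | t ∈ ball o (r2 + 1) ∧ t ∉ ball o (r1 - 1) ∧ t ∉ Ys K n o b} := by
    have hmg : 1 ≤ mg K n := by unfold mg; omega
    refine conn_Ys (by omega) (by omega) fun e => ⟨?_, ?_⟩
    · rw [lt_abs]
      cases e with
      | false => right; omega
      | true => left; omega
    · have h2 := (hF.ballb e _ (Hf702.self_mem_ball _ _)).1
      rw [mem_ball_iff] at h2 ⊢
      simp only [] at h2 ⊢
      push_cast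
      omega
  have e : (Mk K n r1 r2 o b : Set P2) =
      {t | t ∈ ball o (r2 + 1) ∧ t ∉ ball o (r1 - 1) ∧ t ∉ Ys K n o b} := by
    ext t
    rw [Finset.mem_coe, mem_Mk]
    exact ⟨fun h => ⟨h.1.1, h.1.2, h.2⟩, fun h => ⟨⟨h.1, h.2.1⟩, h.2.2⟩⟩
  rw [e]
  exact h1

/-- **GM**, literal -/
theorem gm {K A R n r1 r2 k : ℕ} {N : Set P2} {o : P2} {h : ℤ} {b y : Bool → P2} {a : ℕ → P2}
    (hF : Frame K A R n r1 r2 k N o h b y a) : GM K n r1 r2 o b :=
  ⟨gm_scB K n r1 r2 o, gm_scD K n r1 r2 o b, gm_Mc hF⟩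

end Crest.Agent.R144.Gm400
end
end

-- ▼ part R144/Sel_400

/-!
# R144, block BND, F4 (helper400): scale selection

* `FP` : 353's statement at one boundary point (frames at all small scales);
* `sel` : `J` separated frames around `o n` between `s` and `d` (991's `Scs`), with `s ≥ 2 η` and
  `d ≤ d0` in Euclid distance to `p`;
* `scales` : the same from `Setup` and `LC`, uniformly in the boundary point.
-/

set_option autoImplicit false
set_option linter.unusedSectionVars false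
set_option linter.unusedVariables false

noncomputable section

namespace Crest.Agent.R144.Sel400

open Finset Filter Topology
open Crest.Agent.R144.It844 (P2)
open Crest.Agent.R144.Rsw867 (ball mem_ball ball_mono)
open Crest.Agent.R144.Bnd991 (Frame Scs GM wd mg)
open Crest.ProbabilityR.HexHeights (Adj centre)

/-- **Frames at all small scales around the boundary point `p`** (353's theorem at `p`). -/
structure FP (K A R M1 M2 cst : ℕ) (ρ1 : ℝ) (δ : ℕ → ℝ) (Λ : ℕ → Finset P2) (p : ℂ) (σ : P2 ≃ P2)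
    (o : ℕ → P2) : Prop where
  dst : ∀ (r : ℝ) (v w : P2), dist (centre r (σ v)) (centre r (σ w)) = dist (centre r v) (centre r w)
  near : ∀ n, dist (centre (δ n) (σ (o n))) p ≤ δ n
  fr : ∀ ρ, 0 < ρ → ρ ≤ ρ1 → ∀ᶠ n in atTop, ∃ k ≤ cst, ∃ h b y a,
    Frame K A R ⌊ρ / δ n⌋₊ (M1 * ⌊ρ / δ n⌋₊) (M2 * ⌊ρ / δ n⌋₊) k {v | σ v ∉ Λ n} (o n) h b y a

section
variable {K A R M1 M2 cst : ℕ} {ρ1 : ℝ} {δ : ℕ → ℝ} {Λ : ℕ → Finset P2} {p : ℂ} {σ : P2 ≃ P2}
    {o : ℕ → P2} (h : FP K A R M1 M2 cst ρ1 δ Λ p σ o)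
include h

theorem FP.dist_eq (n : ℕ) (v : P2) :
    dist (centre (δ n) (σ v)) (centre (δ n) (σ (o n))) = ‖centre (δ n) (v - o n)‖ := by
  rw [h.dst, Fr353.dist_centre_eq]

/-- sites of a lattice ball are close to `p` -/
theorem FP.dist_le {n : ℕ} (hδ : 0 < δ n) {v : P2} {d : ℕ} (hv : v ∈ ball (o n) d) :
    dist (centre (δ n) (σ v)) p ≤ δ n * d + δ n := by
  have h1 := dist_triangle (centre (δ n) (σ v)) (centre (δ n) (σ (o n))) p
  rw [h.dist_eq] at h1
  rw [mem_ball] at hv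
  have h2 : ‖centre (δ n) (v - o n)‖ ≤ δ n * d := Fr353.norm_centre_le hδ.le hv.1 hv.2.1 hv.2.2
  have h3 := h.near n
  linarith

/-- sites close to `p` are in a lattice ball -/
theorem FP.mem_ball_of {n : ℕ} (hδ : 0 < δ n) {v : P2} {s : ℕ} {η : ℝ}
    (hv : dist (centre (δ n) (σ v)) p ≤ 2 * η) (hs : 4 * η + 2 * δ n ≤ δ n * s) :
    v ∈ ball (o n) s := by
  have h1 := dist_triangle_right (centre (δ n) (σ v)) (centre (δ n) (σ (o n))) p
  rw [h.dist_eq] at h1
  have h3 := h.near n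
  have h4 : ‖centre (δ n) (v - o n)‖ ≤ δ n * s / 2 := by linarith
  have h5 := Fr353.norm_centre_sq (δ n) (v - o n)
  have h6 : ‖centre (δ n) (v - o n)‖ ^ 2 ≤ (δ n * s / 2) ^ 2 := pow_le_pow_left₀ (norm_nonneg _) h4 2
  rw [h5] at h6
  set x : ℤ := (v - o n).1 with hx
  set y : ℤ := (v - o n).2 with hy
  have h7 : (x : ℝ) ^ 2 + x * y + (y : ℝ) ^ 2 ≤ (s : ℝ) ^ 2 / 4 := by
    have e : (δ n * s / 2) ^ 2 = δ n ^ 2 * ((s : ℝ) ^ 2 / 4) := by ring
    rw [e] at h6
    exact le_of_mul_le_mul_left h6 (by positivity)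
  have h8 : 4 * (x ^ 2 + x * y + y ^ 2) ≤ (s : ℤ) ^ 2 := by
    have : 4 * ((x : ℝ) ^ 2 + x * y + (y : ℝ) ^ 2) ≤ (s : ℝ) ^ 2 := by linarith
    exact_mod_cast this
  have hs0 : (0 : ℤ) ≤ s := Int.natCast_nonneg _
  rw [mem_ball]
  have ex : v.1 - (o n).1 = x := rfl
  have ey : v.2 - (o n).2 = y := rfl
  rw [ex, ey]
  refine ⟨abs_le_of_sq_le_sq ?_ hs0, abs_le_of_sq_le_sq ?_ hs0, abs_le_of_sq_le_sq ?_ hs0⟩
  · nlinarith [sq_nonneg (x + 2 * y), sq_nonneg x]
  · nlinarith [sq_nonneg (2 * x + y), sq_nonneg y]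
  · nlinarith [sq_nonneg (x - y), sq_nonneg (x + y)]

end

/-- separation of two consecutive (or more) scales -/
theorem sep_num {K M1 M2 m m' : ℕ} (h1 : wd K m + mg K m ≤ M1 * m)
    (h2 : (M2 + K + 1) * m' + 9 ≤ (K + 1) * m) :
    M2 * m' + mg K m' < M1 * m - mg K m := by
  unfold wd mg at *
  have e : (M2 + K + 1) * m' = M2 * m' + (K + 1) * m' := by ring
  rw [e] at h2
  omega

/-- **Scale selection.** -/
theorem sel {K A R M1 M2 cst : ℕ} {ρ1 : ℝ} (hρ1 : 0 < ρ1) {δ : ℕ → ℝ} (hδ : ∀ n, 0 < δ n)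
    (hδ0 : Tendsto δ atTop (𝓝 0)) {Λ : ℕ → Finset P2} (J : ℕ) {d0 : ℝ} (hd0 : 0 < d0) :
    ∃ η > 0, ∀ (p : ℂ) (σ : P2 ≃ P2) (o : ℕ → P2), FP K A R M1 M2 cst ρ1 δ Λ p σ o →
      ∀ᶠ n in atTop, ∃ (s d : ℕ) (m k : ℕ → ℕ) (h : ℕ → ℤ) (b y : ℕ → Bool → P2)
        (a : ℕ → ℕ → P2), 1 ≤ s ∧ s ≤ d ∧ (d : ℝ) * δ n ≤ d0 ∧
        Scs K A R (M2 + 4) cst {v | σ v ∉ Λ n} (o n) s d (Finset.range J) m (fun j => M1 * m j)
          (fun j => M2 * m j) k h b y a ∧
        (∀ v, dist (centre (δ n) (σ v)) p ≤ 2 * η → v ∈ ball (o n) s) ∧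
        (∀ v ∈ ball (o n) d, dist (centre (δ n) (σ v)) p ≤ d0) := by
  -- constants
  set B : ℝ := 2 * (M2 + K + 2) with hB
  have hB0 : 4 ≤ B := by
    have h1 : (0 : ℝ) ≤ M2 := Nat.cast_nonneg _
    have h2 : (0 : ℝ) ≤ K := Nat.cast_nonneg _
    rw [hB]; linarith
  set q : ℝ := B⁻¹ with hq
  have hq0 : 0 < q := by rw [hq]; positivity
  have hq1 : q ≤ 1 := by
    rw [hq]
    exact inv_le_one_of_one_le₀ (by linarith)
  have hqB : B * q = 1 := mul_inv_cancel₀ (by positivity)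
  set ρs : ℝ := min ρ1 (d0 / B) with hρs
  have hρs0 : 0 < ρs := lt_min hρ1 (by positivity)
  have hρs1 : ρs ≤ ρ1 := min_le_left _ _
  have hρs2 : B * ρs ≤ d0 := by
    have := min_le_right ρ1 (d0 / B)
    rw [← hρs, le_div_iff₀ (by positivity)] at this
    linarith
  set ρ : ℕ → ℝ := fun j => ρs * q ^ j with hρ
  have hρ0 : ∀ j, 0 < ρ j := fun j => by rw [hρ]; positivity
  have hρle : ∀ j, ρ j ≤ ρ1 := fun j =>
    (mul_le_of_le_one_right hρs0.le (pow_le_one₀ hq0.le hq1)).trans hρs1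
  have hρanti : ∀ i j, i ≤ j → ρ j ≤ ρ i := fun i j hij =>
    mul_le_mul_of_nonneg_left (pow_le_pow_of_le_one hq0.le hq1 hij) hρs0.le
  have hρstep : ∀ i j, i < j → B * ρ j ≤ ρ i := by
    intro i j hij
    have h1 : ρ (i + 1) = ρ i * q := by simp only [hρ]; ring
    have h2 := hρanti (i + 1) j hij
    calc B * ρ j ≤ B * ρ (i + 1) := mul_le_mul_of_nonneg_left h2 (by linarith)
      _ = (B * q) * ρ i := by rw [h1]; ring
      _ = ρ i := by rw [hqB, one_mul]
  refine ⟨ρ J / 8, by have := hρ0 J; positivity, fun p σ o H => ?_⟩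
  -- eventual facts
  have hsmall : ∀ t : ℝ, 0 < t → ∀ᶠ n in atTop, δ n < t := fun t ht =>
    (tendsto_order.1 hδ0).2 t ht
  have hfr : ∀ᶠ n in atTop, ∀ j ∈ Finset.range (J + 1), ∃ k ≤ cst, ∃ h b y a,
      Frame K A R ⌊ρ j / δ n⌋₊ (M1 * ⌊ρ j / δ n⌋₊) (M2 * ⌊ρ j / δ n⌋₊) k {v | σ v ∉ Λ n} (o n)
        h b y a := by
    rw [Finset.eventually_all]
    exact fun j _ => H.fr (ρ j) (hρ0 j) (hρle j)
  filter_upwards [hfr, hsmall (ρ J / (4 * (K + 10))) (by have := hρ0 J; positivity),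
    hsmall (d0 / 26) (by positivity)] with n hn hn1 hn2
  have hδn := hδ n
  -- the numbers `m j`
  set m : ℕ → ℕ := fun j => ⌊ρ j / δ n⌋₊ with hm
  have hm_le : ∀ j, (m j : ℝ) * δ n ≤ ρ j := by
    intro j
    have := Nat.floor_le (show 0 ≤ ρ j / δ n by have := hρ0 j; positivity)
    rw [le_div_iff₀ hδn] at this
    exact this
  have hm_ge : ∀ j, ρ j < (m j + 1) * δ n := by
    intro j
    have := Nat.lt_floor_add_one (ρ j / δ n)
    rw [div_lt_iff₀ hδn] at this
    exact this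
  have hm_anti : ∀ i j, i ≤ j → m j ≤ m i := by
    intro i j hij
    exact Nat.floor_le_floor (div_le_div_of_nonneg_right (hρanti i j hij) hδn.le)
  have hK0 : (0 : ℝ) ≤ K := Nat.cast_nonneg _
  have hM0 : (0 : ℝ) ≤ M2 := Nat.cast_nonneg _
  have hn1' : δ n * (4 * (K + 10)) < ρ J := by
    rwa [lt_div_iff₀ (by positivity)] at hn1
  choose! k hk h b y a hF using hn
  have hF' : ∀ j ∈ Finset.range (J + 1), Frame K A R (m j) (M1 * m j) (M2 * m j) (k j)
      {v | σ v ∉ Λ n} (o n) (h j) (b j) (y j) (a j) := fun j hj => hF j hj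
  -- the key separation
  have hkey : ∀ i j, i < j → j ≤ J → M2 * m j + mg K (m j) < M1 * m i - mg K (m i) := by
    intro i j hij hj
    refine sep_num (hF' i (Finset.mem_range.2 (by omega))).rin ?_
    have h1 := hm_le j
    have h2 := hm_ge i
    have h3 := hρstep i j hij
    have h4 := hρanti i J (by omega)
    have h5 : ((M2 + K + 1) * m j + 9 : ℝ) ≤ (K + 1) * m i := by
      refine le_of_mul_le_mul_right ?_ hδn
      have e1 : ((M2 + K + 1) * m j + 9 : ℝ) * δ n = (M2 + K + 1) * (m j * δ n) + 9 * δ n := by ring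
      have e2 : ((K + 1) * m i : ℝ) * δ n = (K + 1) * ((m i + 1) * δ n) - (K + 1) * δ n := by ring
      rw [e1, e2]
      have h6 : (M2 + K + 1 : ℝ) * (m j * δ n) ≤ ρ i / 2 := by
        have h7 : (M2 + K + 1 : ℝ) * (m j * δ n) ≤ (M2 + K + 1) * ρ j :=
          mul_le_mul_of_nonneg_left h1 (by linarith)
        have h8 : (M2 + K + 1 : ℝ) * ρ j ≤ B * ρ j / 2 := by
          have := hρ0 j
          rw [hB]; nlinarith
        linarith
      have h9 : (K + 1 : ℝ) * ρ i ≤ (K + 1) * ((m i + 1) * δ n) :=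
        mul_le_mul_of_nonneg_left h2.le (by linarith)
      have h10 : (K : ℝ) * ρ i ≥ 0 := mul_nonneg hK0 (hρ0 i).le
      have h11 : (K + 10 : ℝ) * δ n ≤ ρ i / 2 := by nlinarith
      nlinarith
    exact_mod_cast h5
  have hm1 : ∀ j, j ≤ J → 1 ≤ m j := fun j hj => (hF' j (Finset.mem_range.2 (by omega))).n1
  have hM1 : 1 ≤ M1 := by
    have h1 := (hF' 0 (Finset.mem_range.2 (by omega))).rin
    rcases Nat.eq_zero_or_pos M1 with h2 | h2
    · rw [h2] at h1; unfold wd mg at h1; omega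
    · exact h2
  have hM12 : M1 * m 0 < M2 * m 0 := (hF' 0 (Finset.mem_range.2 (by omega))).r12
  have hd : ((M2 * m 0 + mg K (m 0) : ℕ) : ℝ) * δ n + δ n ≤ d0 := by
    have h1 := hm_le 0
    have h2 : ρ 0 = ρs := by simp only [hρ, pow_zero, mul_one]
    rw [h2] at h1
    have e : ((M2 * m 0 + mg K (m 0) : ℕ) : ℝ) = (M2 + K + 1) * m 0 + 12 := by
      unfold mg
      push_cast
      ring
    rw [e]
    have h3 : (M2 + K + 1 : ℝ) * (m 0 * δ n) ≤ (M2 + K + 1) * ρs :=
      mul_le_mul_of_nonneg_left h1 (by linarith)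
    have h4 : (M2 + K + 1 : ℝ) * ρs ≤ B * ρs / 2 := by
      rw [hB]; nlinarith
    nlinarith
  refine ⟨M1 * m J, M2 * m 0 + mg K (m 0), m, k, h, b, y, a, ?_, ?_, ?_, ?_, ?_, ?_⟩
  · exact Nat.mul_pos hM1 (hm1 J le_rfl)
  · have h1 : M1 * m J ≤ M1 * m 0 := Nat.mul_le_mul_left _ (hm_anti 0 J (by omega))
    omega
  · linarith
  · refine ⟨?_, ?_, ?_, ?_, ?_, ?_, ?_⟩
    · intro j hj
      rw [Finset.mem_range] at hj
      exact hF' j (Finset.mem_range.2 (by omega))
    · intro j hj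
      rw [Finset.mem_range] at hj
      exact Gm400.gm (hF' j (Finset.mem_range.2 (by omega)))
    · intro j hj
      rw [Finset.mem_range] at hj
      have h1 := hm1 j hj.le
      have e : (M2 + 4) * m j = M2 * m j + 4 * m j := by ring
      show M2 * m j + 3 + m j ≤ (M2 + 4) * m j
      omega
    · intro j hj
      rw [Finset.mem_range] at hj
      exact hk j (Finset.mem_range.2 (by omega))
    · intro i hi j hj hij
      rw [Finset.mem_range] at hi hj
      rcases Nat.lt_or_gt_of_ne hij with h1 | h1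
      · exact Or.inr (hkey i j h1 hj.le)
      · exact Or.inl (hkey j i h1 hi.le)
    · intro j hj
      rw [Finset.mem_range] at hj
      exact Nat.mul_le_mul_left _ (hm_anti j J hj.le)
    · intro j hj
      have h1 : M2 * m j ≤ M2 * m 0 := Nat.mul_le_mul_left _ (hm_anti 0 j (by omega))
      have h2 : (K + 1) * m j ≤ (K + 1) * m 0 := Nat.mul_le_mul_left _ (hm_anti 0 j (by omega))
      show M2 * m j + mg K (m j) ≤ M2 * m 0 + mg K (m 0)
      unfold mg
      omega
  · intro v hv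
    refine H.mem_ball_of hδn hv ?_
    have h1 := hm_ge J
    have h2 : (m J : ℝ) ≤ (M1 * m J : ℕ) := by
      exact_mod_cast Nat.le_mul_of_pos_left _ hM1
    have h3 : δ n * (m J : ℝ) ≤ δ n * (M1 * m J : ℕ) := mul_le_mul_of_nonneg_left h2 hδn.le
    have h4 := hρ0 J
    nlinarith
  · intro v hv
    refine (H.dist_le hδn hv).trans ?_
    rw [mul_comm (δ n)]
    exact hd

section
variable {D : Set ℂ} {γ : ℝ → ℂ} {P : Finset ℂ} {δ : ℕ → ℝ} {Λ : ℕ → Finset (ℤ × ℤ)}
  {τ : ℕ → ℤ × ℤ → ℤ}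

/-- **F4: separated scales around every boundary point.** `L`, `km` and `η` do not depend on the
point; `σ`, `o` do not depend on `J`, `d0`. -/
theorem scales (h : Set268.Setup D γ P δ Λ τ) (hLC : Lc830.LC D δ Λ) (K A R : ℕ)
    (hA : 2 * K + 8 ≤ A) :
    ∃ L km : ℕ, ∃ η : ℕ → ℝ → ℝ, (∀ J d0, 0 < d0 → 0 < η J d0) ∧
      ∀ p ∈ frontier D, ∃ (σ τ' : P2 ≃ P2) (o : ℕ → P2), Rw146.Aut σ τ' ∧
        (∀ v w, σ (v + w) = σ v + σ w) ∧ (∀ v w, Adj (σ v) (σ w) ↔ Adj v w) ∧
        (∀ ε v w, dist (centre ε (σ v)) (centre ε (σ w)) = dist (centre ε v) (centre ε w)) ∧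
        (∀ n, dist (centre (δ n) (σ (o n))) p ≤ δ n) ∧
        (∀ (n N : ℕ), ∀ v ∈ ball (o n) N,
          dist (centre (δ n) (σ v)) (centre (δ n) (σ (o n))) ≤ N * δ n) ∧
        ∀ (J : ℕ) (d0 : ℝ), 0 < d0 → ∀ᶠ n in atTop, ∃ (s d : ℕ) (m r1 r2 k : ℕ → ℕ) (h : ℕ → ℤ)
          (b y : ℕ → Bool → P2) (a : ℕ → ℕ → P2), 1 ≤ s ∧ s ≤ d ∧ (d : ℝ) * δ n ≤ d0 ∧
          Scs K A R L km {v | σ v ∉ Λ n} (o n) s d (Finset.range J) m r1 r2 k h b y a ∧
          (∀ v, dist (centre (δ n) (σ v)) p ≤ η J d0 → v ∈ ball (o n) s) ∧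
          (∀ v ∈ ball (o n) d, dist (centre (δ n) (σ v)) p ≤ d0) := by
  obtain ⟨C1, C2, k0, ρ1, hρ1, hfr⟩ := Fr353.exists_frame h hLC K A R hA
  have hδ := h.sites.pos
  have hδ0 := h.sites.lim
  have hsel := fun (J : ℕ) (d0 : ℝ) (hd0 : 0 < d0) =>
    sel (K := K) (A := A) (R := R) (M1 := C1) (M2 := C2) (cst := k0) hρ1 hδ hδ0 (Λ := Λ) J hd0
  choose! η hη0 hη using hsel
  refine ⟨C2 + 4, k0, fun J d0 => 2 * η J d0, fun J d0 hd0 => by
    have := hη0 J d0 hd0
    positivity, fun p hp => ?_⟩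
  obtain ⟨σ, o, ⟨τ', hτ'⟩, hadd, hadj, hdst, hnear, k, hk, hF⟩ := hfr p hp
  have H : FP K A R C1 C2 k0 ρ1 δ Λ p σ o :=
    ⟨hdst, hnear, fun ρ hρ hρ' => (hF ρ hρ hρ').mono fun n hn => ⟨k, hk, hn⟩⟩
  refine ⟨σ, τ', o, hτ', hadd, hadj, hdst, hnear, fun n N v hv => ?_, fun J d0 hd0 => ?_⟩
  · rw [H.dist_eq, mul_comm]
    exact Fr353.dist_of_mem_ball (hδ n).le hv
  · filter_upwards [hη J d0 hd0 p σ o H] with n hn
    obtain ⟨s, d, m, k, h, b, y, a, h1, h2, h3, h4, h5, h6⟩ := hn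
    exact ⟨s, d, m, _, _, k, h, b, y, a, h1, h2, h3, h4, h5, h6⟩

end

end Crest.Agent.R144.Sel400
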