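import Crest.Agent.R144.Wc3_856
import Crest.Agent.R144.Fin4_830
import Crest.Agent.R144.Fh2_353
import Crest.Agent.R144.Sel_400_Mg
import Crest.Agent.R144.Ca1_867_Mg
import Crest.Agent.R144.Ctg_830_Mg
import Crest.Agent.R144.Cd3_617
import Crest.Agent.R144.Cpl_311
import Crest.Agent.R144.Cd1_169
import Crest.Agent.R144.Lyf3_792
import Crest.Agent.R144.Gi2_643

-- ▼ part R144/Wc4_856
section

/-!
# R144, block BND: `C2 x` from the crossing bound (helper856)

`CrossTop x` : for every plane layer, setup, environment and local connectivity, the crossing bound `CrossAt`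
holds at every unmarked boundary point.  `C2_of : CrossTop x → Fin830.C2 x`.
-/

set_option autoImplicit false

noncomputable section

open Set Topology Filter Metric MeasureTheory

namespace Crest.Agent.R144.Wc2856

open Crest.Agent.R144.It844 (P2)
open Crest.Agent.R144.Pst967 (Hz)
open Crest.Agent.R144.Set268 (Setup)
open Crest.Agent.R144.Env702 (Env)
open Crest.Agent.R144.Lc830 (LC)
open Crest.Agent.R144.Fin830 (Plane C2)

/-- the crossing bound at all unmarked boundary points -/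
def CrossTop (x : ℝ) : Prop :=
  ∀ (P : Measure Hz) (κ : ℝ), Plane x P κ →
  ∀ (D : Set ℂ) (γ : ℝ → ℂ) (Q : Finset ℂ) (δ : ℕ → ℝ) (Λ : ℕ → Finset (ℤ × ℤ))
    (τ : ℕ → ℤ × ℤ → ℤ), Setup D γ Q δ Λ τ → Env D δ Λ → LC D δ Λ →
    ∀ p ∈ frontier D, p ∉ Q → CrossAt x δ Λ τ p

/-- **boundary decay from the crossing bound** -/
theorem C2_of {x : ℝ} (h : CrossTop x) : C2 x := by
  intro P κ hP D γ Q δ Λ τ hS hE hL M K hK hKD p hp hpQ ε hε
  exact c2_of hP.x0 hS hp (h P κ hP D γ Q δ Λ τ hS hE hL p hp hpQ) (mom4_of hP.hyp hS hE) hK hKD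
    (Hf702.bd_of hP.hyp hS hE hK hKD) M hε

end Crest.Agent.R144.Wc2856
end
end

-- ▼ part R144/Fh3_353
section

/-! R144 (helper353), BND: **`CrossTop`** and **`C2`** are theorems (all inputs instantiated). -/

set_option autoImplicit false

open Set Topology Filter

namespace Crest.Agent.R144.Fh353

open Crest.ProbabilityR.HexHeights (Adj centre)
open Crest.Agent.R144.It844 (P2)
open Crest.Agent.R144.Zg349 (SC)
open Crest.Agent.R144.Rsw867 (RSW)
open Crest.Agent.R144.Set268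
open Crest.Agent.R144.Bnd991

theorem lemB_mono {c : ℝ} (hc : 1 ≤ c) {K A R : ℕ} {c1 c2 : ℝ} (h12 : c2 ≤ c1)
    (h : LemB c K A R c1) : LemB c K A R c2 := by
  intro N Q b y n h1 h2 h3 h4 h5 h6 h7
  refine le_trans (mul_le_mul_of_nonneg_right h12 ?_) (h N Q b y n h1 h2 h3 h4 h5 h6 h7)
  exact Zm349.E_nonneg hc fun ω _ => Cn_nonneg _ _

variable {D : Set ℂ} {γ : ℝ → ℂ} {P : Finset ℂ} {δ : ℕ → ℝ} {Λ : ℕ → Finset (ℤ × ℤ)}
  {τ : ℕ → ℤ × ℤ → ℤ}

theorem f3g_of (h : Setup D γ P δ Λ τ) (hLC : Lc830.LC D δ Λ) : F3g D δ Λ := by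
  intro p hp r hr
  obtain ⟨ρ, hρ, _, hev⟩ := Fg617.far_arc h hLC hp hr
  exact ⟨ρ, hρ, hev⟩

theorem sel_of (h : Setup D γ P δ Λ τ) (hLC : Lc830.LC D δ Λ) (K A R : ℕ) (hA : 2 * K + 8 ≤ A) :
    Sel D δ Λ K A R := by
  obtain ⟨L, km, η, hη, H⟩ := Sel400.scales h hLC K A R hA
  refine ⟨L, km, fun p hp => ?_⟩
  obtain ⟨σ, τ', o, h1, _, h3, h4, h5, _, h7⟩ := H p hp
  refine ⟨σ, τ', o, h1, h3, h4, h5, fun J d0 hd0 => ⟨η J d0, hη J d0 hd0, ?_⟩⟩
  filter_upwards [h7 J d0 hd0] with n hn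
  obtain ⟨s, d, m, r1, r2, k, hh, b, y, a, _, _, g3, g4, g5, _⟩ := hn
  exact ⟨s, d, m, r1, r2, k, hh, b, y, a, g4, g3, g5⟩

/-- **`CrossTop`** -/
theorem crossTop (x : ℝ) : Wc2856.CrossTop x := by
  intro Pm κ hP D γ Q δ Λ τ hS _ hLC p hp hpQ
  obtain ⟨K, p0, P', hR, hPS, hFL⟩ := hP.hyp.ex
  have hc := Pst967.one_le_c hP.x0 hP.x1
  obtain ⟨R, c1, hc1, hB⟩ := LmB702.lemB hP.x0 hP.x1 hR hPS hFL (2 * K + 8)
  have hB1 := lemB_mono hc (min_le_left c1 1) (hB R le_rfl)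
  have hm0 : 0 < min c1 1 := lt_min hc1 one_pos
  have hm1 : min c1 1 ≤ 1 := min_le_right _ _
  have hLA := Bd7856.lemA_of hc hR hm0.le hB1
  have hp0 := hR.p0
  have hp1 := hR.p1
  refine cross_top hS (f3g_of hS hLC) hP.x0 hP.x1 hR hLA (fun i => by positivity) (fun i => ?_)
    (sel_of hS hLC K _ R le_rfl) hp hpQ
  have h1 : (p0 / 2) ^ (i + 1) ≤ 1 := pow_le_one₀ (by positivity) (by linarith)
  have h2 : (min c1 1) ^ 2 ≤ 1 := pow_le_one₀ hm0.le hm1
  exact mul_le_one₀ h1 (by positivity) h2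

/-- **boundary decay `C2` is a theorem** -/
theorem c2 (x : ℝ) : Fin830.C2 x := Wc2856.C2_of (crossTop x)

end Crest.Agent.R144.Fh353
end

-- ▼ part R144/Fin6_830
section

/-! R144 (helper830): final wiring of S0195 / S0196 from the cell bound.

* `p1_of_cell` : interior Gaussianity from the cell bound (helpers 617, 349, 136 and `Ctg830.domContig`);
* `s0195_of_cell`, `s0196_of_cell` : everything except the cell bound is a theorem. -/

set_option autoImplicit false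

open Topology Filter MeasureTheory
open scoped ContDiff

namespace Crest.Agent.R144.Fin830

/-- the cell bound for every plane layer -/
def Cell (x : ℝ) : Prop :=
  ∀ (P : Measure Pst967.Hz) (κ : ℝ), Plane x P κ → ∀ δ : ℕ → ℝ, (∀ n, 0 < δ n) →
    Tendsto δ atTop (𝓝 0) → Cd617.CellBd P δ

/-- interior Gaussianity from the cell bound -/
theorem p1_of_cell {x : ℝ} (h : Cell x) : P1 x :=
  Dom136.P1_of (Gb349.planeGauss fun P κ hP δ hδ hδ0 =>
    Cd617.ccw_of_cell hP hδ hδ0 (h P κ hP δ hδ hδ0)) (Ctg830.domContig x)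

/-- **S0195 from the cell bound** -/
theorem s0195_of_cell {x : ℝ} (hC : Cell x) (hx : 1 / Real.sqrt 2 ≤ x) (hx1 : x ≤ 1) :
    ∃ σ : ℝ, 0 < σ ∧ ∀ (D : Set ℂ) (γ : ℝ → ℂ) (φ : ℂ → ℂ),
      Crest.ProbabilityR.HexHeights.IsC2JordanDomain D γ → DifferentiableOn ℂ φ D →
      Set.BijOn φ D (Metric.ball (0 : ℂ) 1) →
      ∀ (δ : ℕ → ℝ) (F : ℕ → Finset (ℤ × ℤ)),
        Crest.ProbabilityR.HexHeights.IsInsideApprox D γ δ F →
      ∀ f : ℂ → ℝ, ContDiff ℝ ∞ f → HasCompactSupport f → tsupport f ⊆ D →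
        (∀ t : ℝ, Filter.Tendsto (fun n : ℕ => Crest.ProbabilityR.HexHeights.heightExpect (F n) x
            (fun h => Complex.exp (Complex.I *
              (t * Crest.ProbabilityR.HexHeights.pairing (δ n) f h / σ : ℝ))))
          Filter.atTop
          (nhds (Complex.exp
            (-(Crest.ProbabilityR.HexHeights.domainGreenForm φ f * t ^ 2 / 2 : ℝ))))) ∧
        ∀ k : ℕ, Filter.Tendsto (fun n : ℕ => Crest.ProbabilityR.HexHeights.heightExpect (F n) x
            (fun h => ((Crest.ProbabilityR.HexHeights.pairing (δ n) f h / σ) ^ k : ℝ)))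
          Filter.atTop
          (nhds ((if Even k then Crest.ProbabilityR.HexHeights.domainGreenForm φ f ^ (k / 2) *
              ((k - 1).doubleFactorial : ℝ) else 0 : ℝ) : ℂ)) :=
  s0195_of_top Rfin216.rswz hx hx1 (p1_of_cell hC) (Fh353.c2 x)

/-- **S0196 from the cell bound** -/
theorem s0196_of_cell (hC : Cell 1) :
    ∃ σ : ℝ, 0 < σ ∧ ∀ (D : Set ℂ) (γ : ℝ → ℂ) (θ : ℝ) (φ : ℂ → ℂ),
      Crest.ProbabilityR.TriHeights.IsSmoothMarkedDomain D γ θ → DifferentiableOn ℂ φ D →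
      Set.BijOn φ D (Metric.ball (0 : ℂ) 1) →
      ∀ (δ : ℕ → ℝ) (T : ℕ → Finset Crest.ProbabilityR.TriHeights.Tri) (ea eb : ℕ → (ℤ × ℤ) × (ℤ × ℤ)) (c : ℕ → ℝ → ℂ),
        Crest.ProbabilityR.TriHeights.IsMarkedApprox γ θ δ T ea eb c →
      ∀ f : ℂ → ℝ, ContDiff ℝ ∞ f → HasCompactSupport f → tsupport f ⊆ D →
        (∀ t : ℝ, Filter.Tendsto (fun n : ℕ => Crest.ProbabilityR.TriHeights.twoArcExpect (T n) (Crest.ProbabilityR.TriHeights.arcPlus (δ n) (T n) (c n) θ) (Crest.ProbabilityR.TriHeights.arcMinus (δ n) (T n) (c n) θ)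
            (fun H => Complex.exp (Complex.I *
              (t * (Crest.ProbabilityR.TriHeights.affinePairing (δ n) (T n) f (Crest.ProbabilityR.TriHeights.oddHeight H) -
              (Crest.ProbabilityR.TriHeights.twoArcExpect (T n) (Crest.ProbabilityR.TriHeights.arcPlus (δ n) (T n) (c n) θ) (Crest.ProbabilityR.TriHeights.arcMinus (δ n) (T n) (c n) θ) (fun H' => (Crest.ProbabilityR.TriHeights.affinePairing (δ n) (T n) f (Crest.ProbabilityR.TriHeights.oddHeight H') : ℂ))).re) / σ : ℝ))))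
          Filter.atTop
          (nhds (Complex.exp (-(Crest.ProbabilityR.HexHeights.domainGreenForm φ f * t ^ 2 / 2 : ℝ))))) ∧
        ∀ k : ℕ, Filter.Tendsto (fun n : ℕ => Crest.ProbabilityR.TriHeights.twoArcExpect (T n) (Crest.ProbabilityR.TriHeights.arcPlus (δ n) (T n) (c n) θ) (Crest.ProbabilityR.TriHeights.arcMinus (δ n) (T n) (c n) θ)
            (fun H => (((Crest.ProbabilityR.TriHeights.affinePairing (δ n) (T n) f (Crest.ProbabilityR.TriHeights.oddHeight H) -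
              (Crest.ProbabilityR.TriHeights.twoArcExpect (T n) (Crest.ProbabilityR.TriHeights.arcPlus (δ n) (T n) (c n) θ) (Crest.ProbabilityR.TriHeights.arcMinus (δ n) (T n) (c n) θ) (fun H' => (Crest.ProbabilityR.TriHeights.affinePairing (δ n) (T n) f (Crest.ProbabilityR.TriHeights.oddHeight H') : ℂ))).re) / σ) ^ k : ℝ)))
          Filter.atTop
          (nhds ((if Even k then Crest.ProbabilityR.HexHeights.domainGreenForm φ f ^ (k / 2) *
              ((k - 1).doubleFactorial : ℝ) else 0 : ℝ) : ℂ)) :=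
  s0196_of_top Rfin216.rswz (p1_of_cell hC) (Fh353.c2 1)

end Crest.Agent.R144.Fin830
end

-- ▼ part R144/Cell_311
section

/-!
# R144, CCW: the cell bound from step A (helper311)

`StepA P δ` : the functional `XX (δ n) u` is asymptotically uncorrelated with the gradient functions of the layers of
helper169's strips `gp`; `cellBd_of_stepA` : helper617's `CellBd` (by `planeB`).
-/

set_option autoImplicit false
set_option linter.unusedSectionVars false

noncomputable section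

namespace Crest.Agent.R144.Cell311

open Finset Filter Topology MeasureTheory Metric
open Crest.Agent.R144.It844 (P2)
open Crest.ProbabilityR.HexHeights (Adj centre)
open Crest.Agent.R144.HexTil353 (ca cb)
open Crest.Agent.R144.Zg349
open Crest.Agent.R144.Pst967 (Hz LocZ NeutZ GObs toR PinnedZ FLim)
open Crest.Agent.R144.Gi643 (XX XX_eq XX_box exists_R wt_Dop Dop_ne_zero gobs_lin)
open Crest.Agent.R144.Ga5885 (Tst)
open Crest.Agent.R144.Cw643
open Crest.Agent.R144.Ps643 (lin lin_loc)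
open Crest.Agent.R144.Cgeo311 Crest.Agent.R144.Cpl311
open Crest.Agent.R144.Rsw867 (RSW RSWZ)
open Crest.Agent.R144.Cd169 (gp sc abs_cab_sub ca1_centre cb1_centre mem_TT TT_sub SL_disc)

/-- **Step (A)** along the strips `gp` -/
def StepA (P : Measure Hz) (δ : ℕ → ℝ) : Prop :=
  ∀ (K L : ℕ) (hK : 4 ≤ K) (hL : 1 ≤ L) (m : ℕ) (η : ℝ) (z0 : ℂ) (u : ℂ → ℝ), 0 < η → Tst u →
    tsupport u ⊆ closedBall z0 (2 * η) → ∀ ε > 0, ∀ᶠ n in atTop,
      ∀ Y : Hz → ℝ, LocZ (VF (gp hK hL m η (δ n) z0).Lay : Set P2) Y → NeutZ Y → (∀ h, |Y h| ≤ 1) →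
        |∫ h, XX (δ n) u (toR h) * Y h ∂P| ≤ ε

/-- support of the weights -/
theorem dop_v0 {K L : ℕ} (hK : 4 ≤ K) (hL : 1 ≤ L) (m : ℕ) {η d : ℝ} {z0 : ℂ} {u : ℂ → ℝ} (hd : 0 < d)
    (hsm : 1024 * d ≤ η) (hs : tsupport u ⊆ closedBall z0 (2 * η)) {v : P2}
    (hv : v ∉ (gp hK hL m η d z0).V0) : Dop (fun v => u (centre d v)) v = 0 := by
  by_contra h
  obtain ⟨w, hw, hdw⟩ := Dop_ne_zero hd.le h
  have h1 := Metric.mem_closedBall.1 (hs (subset_tsupport _ hw))
  have h2 : ‖centre d v - z0‖ ≤ 3 * η := by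
    rw [dist_eq_norm] at h1
    have h3 : centre d v - z0 = (centre d v - w) + (w - z0) := by ring
    rw [h3]
    exact (norm_add_le _ _).trans (by linarith)
  obtain ⟨h3, h4⟩ := abs_cab_sub (centre d v) z0
  rw [ca1_centre] at h3
  rw [cb1_centre] at h4
  exact hv (TT_sub (mem_TT hd (by linarith) (by linarith)))

/-- the functional only sees the strip -/
theorem xx_loc {K L : ℕ} (hK : 4 ≤ K) (hL : 1 ≤ L) (m : ℕ) {η d : ℝ} {z0 : ℂ} {u : ℂ → ℝ} (hd : 0 < d)
    (hsm : 1024 * d ≤ η) (hs : tsupport u ⊆ closedBall z0 (2 * η)) :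
    LocZ (VF (gp hK hL m η d z0).V0 : Set P2) (fun h : Hz => XX d u (toR h)) := by
  intro h h' hh'
  simp only
  rw [XX_eq (s := (gp hK hL m η d z0).V0) (fun p hp => dop_v0 hK hL m hd hsm hs hp),
    XX_eq (s := (gp hK hL m η d z0).V0) (fun p hp => dop_v0 hK hL m hd hsm hs hp)]
  refine lin_loc _ _ _ _ fun v hv => ?_
  show ((h v : ℤ) : ℝ) = h' v
  rw [hh' v (Finset.mem_coe.2 (mem_VF'.2 (Or.inl hv)))]

/-- `XX` is a gradient observable -/
theorem xx_gobs {d : ℝ} (hd : 0 < d) {u : ℂ → ℝ} (hu : Tst u) : GObs (fun h : Hz => XX d u (toR h)) := by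
  obtain ⟨R, _, hR⟩ := exists_R hu
  have h1 := gobs_lin (wt_Dop hd hR).2
  have e : (fun h : Hz => XX d u (toR h)) =
      fun h : Hz => lin (BX (mm R d)) (Dop fun v => u (centre d v)) (toR h) :=
    funext fun h => XX_box hd hR (toR h)
  rw [e]
  exact h1

/-- **the cell bound from step A** -/
theorem cellBd_of_stepA {x κ : ℝ} {P : Measure Hz} (h : Fin830.Plane x P κ) {δ : ℕ → ℝ}
    (hδ : ∀ n, 0 < δ n) (hδ0 : Tendsto δ atTop (𝓝 0)) (hA : StepA P δ) : Cd617.CellBd P δ := by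
  have hc := Pst967.one_le_c h.x0 h.x1
  have hcx := Pst967.c_mul h.x0
  have hB := Pos561.block_of_rswz hc h.rsw
  obtain ⟨K, p, hR⟩ := h.rsw.rsw hc
  obtain ⟨L, C, α, hL, hC, hα, key⟩ := planeB h.x0 hc hcx hR hB h.pin h.flim 4
  refine ⟨500, 64 * ((2 * K + 3) + (2 * L + 1) * (2 * K + 1)), C, α, by norm_num,
    by positivity, hC, hα, ?_⟩
  intro m η z0 u hm hη hu hs ε hε
  have hsm : ∀ᶠ n in atTop, 1024 * δ n ≤ η := by
    filter_upwards [hδ0.eventually (gt_mem_nhds (show (0 : ℝ) < η / 1024 by positivity))] with n hn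
    linarith
  filter_upwards [hsm, hA K L hR.K4 hL m η z0 u hη hu hs ε hε] with n hn hAn
  intro Y hY hYl hY1 t ht
  have h1 := key (gp hR.K4 hL m η (δ n) z0) rfl rfl rfl (fun h => XX (δ n) u (toR h))
    (xx_loc hR.K4 hL m (hδ n) hn hs) (xx_gobs (hδ n) hu).neut Y hY (hYl.mono fun v hv => ?_)
    hY1 ε (fun Y' a1 a2 a3 => hAn Y' a2 a1 a3) t ht
  · have e : (gp hR.K4 hL m η (δ n) z0).m = m := rfl
    rw [e] at h1
    linarith
  · intro hv'
    refine hv ?_
    rw [Metric.mem_ball, dist_eq_norm]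
    have := SL_disc hη (hδ n) hn hv'
    linarith

/-- the literal of `Fin830.Cell x` from step A -/
theorem cell_of {x : ℝ} (hA : ∀ (P : Measure Hz) (κ : ℝ), Fin830.Plane x P κ → ∀ δ : ℕ → ℝ,
    (∀ n, 0 < δ n) → Tendsto δ atTop (𝓝 0) → StepA P δ) :
    ∀ (P : Measure Hz) (κ : ℝ), Fin830.Plane x P κ → ∀ δ : ℕ → ℝ, (∀ n, 0 < δ n) →
      Tendsto δ atTop (𝓝 0) → Cd617.CellBd P δ := fun P κ h δ hδ hδ0 =>
  cellBd_of_stepA h hδ hδ0 (hA P κ h δ hδ hδ0)

end Crest.Agent.R144.Cell311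
end
end

-- ▼ part R144/Cd2_169
section

/-!
# R144 (CCW, cell theorem), step A for the strips `gp` (helper169)

`stepA` : for functions `Y` of the gradients over the two layers of the strip, `|Y| ≤ 1`,
`|∫ XX(δ n) u * Y| ≤ ε` for all large `n` (helper435's `joint_seq3`, the density bound `ui_rct`, helper830's levels,
helper867's / helper643's `a1_inst`).
-/

set_option autoImplicit false
set_option linter.unusedSectionVars false
set_option linter.unusedSimpArgs false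

noncomputable section

namespace Crest.Agent.R144.Cd169

open Finset Filter Topology MeasureTheory
open Crest.Agent.R144.It844 (P2 Lip adj_iff adj_symm nbhd)
open Crest.ProbabilityR.HexHeights (Adj centre)
open Crest.Agent.R144.Zg349 Crest.Agent.R144.Zk349 Crest.Agent.R144.Zd349 Crest.Agent.R144.Zm349
open Crest.Agent.R144.Ze349
open Crest.Agent.R144.Pst967 (Hz LocZ NeutZ GObs toR measurable_toR)
open Crest.Agent.R144.HexTil353 (ca cb cen)
open Crest.Agent.R144.Cgeo311 (GP Box mem_Box col row)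
open Crest.Agent.R144.Rsw867 (ball mem_ball)
open Crest.Agent.R144.Den435 (rct mem_rct)
open Crest.Agent.R144.Tp952
open Crest.Agent.R144.Cw643
open Crest.Agent.R144.Ps643 (lin lin_loc)
open Crest.Agent.R144.Gi643 (XX XX_eq XX_box wt_Dop exists_R Dop_ne_zero gobs_lin)
open Crest.Agent.R144.Ga5885 (Tst)
open Crest.Agent.R144.Lev830 (lev lev_Lev lev_tight)
open Crest.Agent.R144.Ccw435 (Lev joint_seq3 ChgZ DLR pat pats)

/-! ### rectangles around the lower layer -/

/-- rectangle around the lower layer, enlarged by `e` -/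
def rr (K L m : ℕ) (a : P2) (s e : ℕ) : Finset P2 :=
  rct (a.1 - (128 * (len K L m * s) + 2) - (e : ℤ)) (a.1 + (128 * (len K L m * s) + 2) + (e : ℤ))
    (a.2 - 512 * s - (e : ℤ)) (a.2 + (e : ℤ))

/-- contour -/
def Lc (K L m : ℕ) (a : P2) (s : ℕ) : Finset P2 := rr K L m a s (16 * s) \ rr K L m a s (8 * s)

theorem mem_rr {K L m : ℕ} {a : P2} {s e : ℕ} {v : P2} : v ∈ rr K L m a s e ↔
    |v.1 - a.1| ≤ 128 * (len K L m * s : ℤ) + 2 + e ∧ -(512 * (s : ℤ)) - e ≤ v.2 - a.2 ∧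
      v.2 - a.2 ≤ e := by
  unfold rr
  rw [mem_rct, abs_le]
  constructor
  · intro h; omega
  · intro h; omega

theorem disj_Lc (K L m : ℕ) (a : P2) (s : ℕ) : Disjoint (Lc K L m a s) (rr K L m a s (8 * s)) :=
  Finset.sdiff_disjoint

theorem nbhd_rr (K L m : ℕ) (a : P2) {s : ℕ} (hs : 1 ≤ s) :
    nbhd (rr K L m a s (8 * s)) ⊆ rr K L m a s (8 * s) ∪ Lc K L m a s := by
  intro v hv
  by_cases h : v ∈ rr K L m a s (8 * s)
  · exact Or.inl h
  · rcases hv with hv | ⟨u, hu, huv⟩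
    · exact Or.inl hv
    · refine Or.inr ?_
      rw [Finset.mem_coe]
      unfold Lc
      rw [Finset.mem_sdiff]
      refine ⟨?_, h⟩
      rw [mem_rr] at hu ⊢
      rw [abs_le] at hu ⊢
      rw [adj_iff] at huv
      push_cast at *
      rcases huv with h1 | h1 | h1 | h1 | h1 | h1 <;> subst h1 <;> simp only <;> omega

section
variable {K L : ℕ} {hK : 4 ≤ K} {hL : 1 ≤ L} {m : ℕ} {η d : ℝ} {z0 : ℂ}

theorem S1_sub_rr : S1 (gp hK hL m η d z0) ⊆ rr K L m (gp hK hL m η d z0).a (sc η d) 0 := by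
  intro v hv
  rw [mem_rr]
  have := mem_S1 hv
  push_cast
  omega

theorem rr_mono {K L m : ℕ} {a : P2} {s e e' : ℕ} (h : e ≤ e') : rr K L m a s e ⊆ rr K L m a s e' := by
  intro v hv
  rw [mem_rr] at *
  omega

theorem disj_S2r : Disjoint (S2 (gp hK hL m η d z0))
    (rr K L m (gp hK hL m η d z0).a (sc η d) (8 * sc η d)) := by
  rw [Finset.disjoint_left]
  intro v h1 h2
  have h3 := mem_S2 h1
  rw [mem_rr] at h2
  have := sc_pos η d
  push_cast at h2
  omega

theorem disj_TTr : Disjoint (TT (gp hK hL m η d z0) (sc η d))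
    (rr K L m (gp hK hL m η d z0).a (sc η d) (8 * sc η d)) := by
  rw [Finset.disjoint_left]
  intro v h1 h2
  rw [mem_rr] at h2
  unfold TT at h1
  rw [mem_Box] at h1
  unfold row at h1
  have := sc_pos η d
  push_cast at h2
  omega

theorem bo_subr : bo (gp hK hL m η d z0) (sc η d) ⊆ Lc K L m (gp hK hL m η d z0).a (sc η d) := by
  intro v hv
  unfold bo at hv
  rw [mem_ball] at hv
  have hs := sc_pos η d
  have hl := len_ge η d K L m
  unfold Lc
  rw [Finset.mem_sdiff, mem_rr, mem_rr]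
  simp only [abs_le] at hv ⊢
  push_cast
  omega

/-- conditions of `a1_inst` for the contour -/
theorem Lc_low (hd : 0 < d) {v : P2} (hv : v ∈ Lc K L m (gp hK hL m η d z0).a (sc η d)) :
    d * v.2 ≤ cb 1 z0 - 2 * (4 * η) ∧ |d * v.1 - ca 1 z0| ≤ (200 * len K L m) * (d * sc η d) ∧
      |d * v.2 - cb 1 z0| ≤ 1000 * (d * sc η d) := by
  have h0 : v ∈ rr K L m (gp hK hL m η d z0).a (sc η d) (16 * sc η d) := (Finset.mem_sdiff.1 hv).1
  obtain ⟨h1, h2, h3⟩ := mem_rr.1 h0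
  obtain ⟨p1, p2⟩ := a_1 (hK := hK) (hL := hL) (m := m) (η := η) (z0 := z0) hd
  obtain ⟨q1, q2⟩ := a_2 (hK := hK) (hL := hL) (m := m) (η := η) (z0 := z0) hd
  have hge := sc_ge (η := η) hd
  have hlen : (1 : ℝ) ≤ len K L m := by exact_mod_cast len_pos K L m
  have hs0 : (1 : ℝ) ≤ sc η d := by exact_mod_cast sc_pos η d
  have hs1 : d ≤ d * sc η d := by nlinarith
  have hs2 : d * sc η d ≤ len K L m * (d * sc η d) := by
    have : 0 ≤ d * (sc η d : ℝ) := by positivity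
    nlinarith
  rw [abs_le] at h1
  obtain ⟨h1a, h1b⟩ := h1
  have r1 : (((-(128 * (len K L m * sc η d : ℤ) + 2 + (16 * sc η d : ℕ)) : ℤ)) : ℝ) ≤
      ((v.1 - (gp hK hL m η d z0).a.1 : ℤ) : ℝ) := by exact_mod_cast h1a
  have r2 : ((v.1 - (gp hK hL m η d z0).a.1 : ℤ) : ℝ) ≤
      (((128 * (len K L m * sc η d : ℤ) + 2 + (16 * sc η d : ℕ)) : ℤ) : ℝ) := by exact_mod_cast h1b
  have r3 : (((-(512 * (sc η d : ℤ)) - (16 * sc η d : ℕ) : ℤ)) : ℝ) ≤
      ((v.2 - (gp hK hL m η d z0).a.2 : ℤ) : ℝ) := by exact_mod_cast h2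
  have r4 : ((v.2 - (gp hK hL m η d z0).a.2 : ℤ) : ℝ) ≤ (((16 * sc η d : ℕ) : ℤ) : ℝ) := by
    exact_mod_cast h3
  push_cast at r1 r2 r3 r4
  have m1 := mul_le_mul_of_nonneg_left r1 hd.le
  have m2 := mul_le_mul_of_nonneg_left r2 hd.le
  have m3 := mul_le_mul_of_nonneg_left r3 hd.le
  have m4 := mul_le_mul_of_nonneg_left r4 hd.le
  refine ⟨?_, ?_, ?_⟩
  · nlinarith
  · rw [abs_le]
    constructor <;> nlinarith
  · rw [abs_le]
    constructor <;> nlinarith

/-! ### the functional -/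

theorem near_supp {u : ℂ → ℝ} (supp : tsupport u ⊆ Metric.closedBall z0 (2 * η)) {z : ℂ} (hz : u z ≠ 0) :
    ‖z - z0‖ ≤ 2 * η := by
  have := supp (subset_tsupport _ hz)
  rwa [Metric.mem_closedBall, dist_eq_norm] at this

theorem Dop_TT (_hη : 0 < η) (hd : 0 < d) (hsm : 1024 * d ≤ η) {u : ℂ → ℝ}
    (supp : tsupport u ⊆ Metric.closedBall z0 (2 * η)) {v : P2}
    (hv : v ∉ TT (gp hK hL m η d z0) (sc η d)) : Dop (fun v => u (centre d v)) v = 0 := by
  by_contra h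
  apply hv
  obtain ⟨w, hw, hw'⟩ := Dop_ne_zero hd.le h
  have h1 := near_supp supp hw
  have h2 : ‖centre d v - z0‖ ≤ d + 2 * η := by
    have e : centre d v - z0 = (centre d v - w) + (w - z0) := by ring
    rw [e]
    exact (norm_add_le _ _).trans (add_le_add hw' h1)
  obtain ⟨h3, h4⟩ := abs_cab_sub (centre d v) z0
  rw [ca1_centre] at h3
  rw [cb1_centre] at h4
  exact mem_TT hd (h3.trans (by linarith)) (h4.trans (by linarith))

theorem XX_loc (hη : 0 < η) (hd : 0 < d) (hsm : 1024 * d ≤ η) {u : ℂ → ℝ}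
    (supp : tsupport u ⊆ Metric.closedBall z0 (2 * η)) :
    LocZ (TT (gp hK hL m η d z0) (sc η d) : Set P2) (fun h => XX d u (toR h)) := by
  intro h g hg
  have e := fun (f : Hz) => XX_eq (d := d) (φ := u) (s := TT (gp hK hL m η d z0) (sc η d))
    (fun v hv => Dop_TT hη hd hsm supp hv) (toR f)
  simp only [e]
  refine lin_loc _ _ _ _ fun v hv => ?_
  show ((h v : ℤ) : ℝ) = g v
  rw [hg v hv]

theorem XX_gobs (hd : 0 < d) {u : ℂ → ℝ} (hu : Tst u) : GObs (fun h : Hz => XX d u (toR h)) := by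
  obtain ⟨R, hR0, hR⟩ := exists_R hu
  have e : (fun h : Hz => XX d u (toR h)) =
      fun h => lin (BX (mm R d)) (Dop fun v => u (centre d v)) (toR h) := by
    funext h
    exact XX_box hd hR _
  rw [e]
  exact gobs_lin (wt_Dop hd hR).2

end

/-! ### levels -/

theorem Lev.mono {S S' : Finset P2} {l : Hz → ℤ} (h : Lev S l) (hS : S ⊆ S') : Lev S' l :=
  ⟨h.loc.mono (Finset.coe_subset.2 hS), h.shift, h.bdd⟩

theorem ball_ne (a : P2) (r : ℕ) : (ball a r).Nonempty := ⟨a, self_mem_ball a r⟩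

/-! ### step A -/

set_option maxHeartbeats 1000000 in
/-- **step A** -/
theorem stepA {x κ : ℝ} {P : Measure Hz} (h : Fin830.Plane x P κ) {δ : ℕ → ℝ} (hδ : ∀ n, 0 < δ n)
    (hδ0 : Tendsto δ atTop (𝓝 0)) {K L : ℕ} (hK : 4 ≤ K) (hL : 1 ≤ L) (m : ℕ) {η : ℝ} (hη : 0 < η)
    {z0 : ℂ} {u : ℂ → ℝ} (hu : Tst u) (supp : tsupport u ⊆ Metric.closedBall z0 (2 * η)) :
    ∀ ε > 0, ∀ᶠ n in atTop, ∀ Y : Hz → ℝ, LocZ (VF (gp hK hL m η (δ n) z0).Lay : Set P2) Y →
      NeutZ Y → (∀ h, |Y h| ≤ 1) → |∫ h, XX (δ n) u (toR h) * Y h ∂P| ≤ ε := by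
  have hc := Pst967.one_le_c h.x0 h.x1
  obtain ⟨K', p, hR⟩ := h.rsw.rsw hc
  have hLF := Lyf792.layf h.x0 h.x1 hR
  have hD : DLR x P := fun Λ F hF => Pst967.ZeroLim.dlr h.x0 Pst967.cls_scs h.pin h.zlim Λ hF
  obtain ⟨V, hV0, hV⟩ := Ca1867.sq_bdd h.st h.lim2 hδ hδ0 hu
  have hsm : ∀ᶠ n in atTop, 1024 * δ n ≤ η := by
    filter_upwards [hδ0.eventually (gt_mem_nhds (show (0 : ℝ) < η / 1024 by positivity))] with n hn
    linarith
  obtain ⟨N0, hN0⟩ := eventually_atTop.1 (hV.and hsm)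
  set δ' : ℕ → ℝ := fun n => δ (n + N0) with hδ'
  have hδ'p : ∀ n, 0 < δ' n := fun n => hδ _
  have hδ'0 : Tendsto δ' atTop (𝓝 0) := hδ0.comp (tendsto_add_atTop_nat N0)
  have hδ's : ∀ n, 1024 * δ' n ≤ η := fun n => (hN0 (n + N0) (Nat.le_add_left _ _)).2
  have hδ'V : ∀ n, ∫ h, XX (δ' n) u h ^ 2 ∂(P.map toR) ≤ V :=
    fun n => (hN0 (n + N0) (Nat.le_add_left _ _)).1
  set g : ℕ → GP := fun n => gp hK hL m η (δ' n) z0 with hg
  set s : ℕ → ℕ := fun n => sc η (δ' n) with hs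
  have hs1 : ∀ n, 1 ≤ s n := fun n => sc_pos _ _
  -- the lattice unit tends to infinity
  have hsinf : ∀ s0 : ℕ, ∀ᶠ n in atTop, s0 ≤ s n := by
    intro s0
    filter_upwards [hδ'0.eventually (gt_mem_nhds (show (0 : ℝ) < η / (4 * (s0 + 1)) by positivity))]
      with n hn
    have h1 := sc_ge (η := η) (hδ'p n)
    rw [lt_div_iff₀ (by positivity)] at hn
    by_contra h2
    push Not at h2
    have h3 : (s n : ℝ) ≤ s0 + 1 := by
      have : (s n : ℝ) < s0 := by exact_mod_cast h2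
      linarith
    have h4 : δ' n * s n ≤ δ' n * (s0 + 1) := mul_le_mul_of_nonneg_left h3 (hδ'p n).le
    have h5 : 4 * (δ' n * s n) < η := by linarith
    linarith
  have key := joint_seq3 h.x0 h.pin hD (Λ := fun n => rr K L m (g n).a (s n) (8 * s n))
    (S1 := fun n => S1 (g n)) (L := fun n => Lc K L m (g n).a (s n)) (S2 := fun n => S2 (g n))
    (T := fun n => TT (g n) (s n)) (lo := fun n => lev (bo (g n) (s n)))
    (lb := fun n => lev (b2 (g n) (s n))) (l1 := fun n => lev (b1 (g n) (s n)))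
    (o1 := fun n => ((g n).a.1, (g n).a.2 - 2 * s n))
    (fun n => Lev.mono (lev_Lev (ball_ne _ _)) bo_subr)
    (fun n => Lev.mono (lev_Lev (ball_ne _ _)) b2_sub)
    (fun n => Lev.mono (lev_Lev (ball_ne _ _)) b1_sub)
    (fun n => b1_sub (self_mem_ball _ _))
    (fun n => disj_Lc K L m (g n).a (s n))
    (fun n => S1_sub_rr.trans (rr_mono (Nat.zero_le _)))
    (fun n => nbhd_rr K L m (g n).a (hs1 n))
    (fun n => disj_S2r) (fun n => disj_TTr)
    (X := fun n h => XX (δ' n) u (toR h))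
    (fun n => XX_loc hη (hδ'p n) (hδ's n) supp)
    (fun n => (XX_gobs (hδ'p n) hu).neut) (V := V) ?_ ?_ ?_ ?_ ?_
  · intro ε hε
    obtain ⟨n1, hn1⟩ := eventually_atTop.1 (key ε hε)
    refine eventually_atTop.2 ⟨n1 + N0, fun n hn Y hY hYn hY1 => ?_⟩
    have h1 := hn1 (n - N0) (by omega) Y
    have e : n - N0 + N0 = n := by omega
    simp only [hg, hδ', e] at h1
    refine h1 ?_ hYn hY1
    rw [VF_Lay, Finset.coe_union] at hY
    exact hY
  · -- second moments
    intro n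
    have hm : Measurable fun h : Ps643.Ht => XX (δ' n) u h := (Gi643.mdl_plane h hδ'p hδ'0).meas n u hu
    have e2 : ∫ ω, XX (δ' n) u ω ^ 2 ∂(P.map toR) = ∫ h, XX (δ' n) u (toR h) ^ 2 ∂P :=
      integral_map measurable_toR.aemeasurable (hm.pow_const 2).aestronglyMeasurable
    rw [← e2]
    exact hδ'V n
  · -- density bound
    intro η' hη'
    obtain ⟨C, s0, hC, H⟩ := Den435.ui_rct hc hR hLF h.pin h.flim (128 * len K L m + 1024) hη'
    refine ⟨C, hC, ?_⟩
    filter_upwards [hsinf s0] with n hn B hB1 hB2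
    refine H (s n) hn (g n).a ((g n).a.1 - (128 * (len K L m * s n) + 2))
      ((g n).a.1 + (128 * (len K L m * s n) + 2)) ((g n).a.2 - 512 * s n) (g n).a.2 ?_ ?_ ?_
      (Lc K L m (g n).a (s n)) ?_ (S1 (g n)) ?_ _ (b1_sub (self_mem_ball _ _)) B hB1 hB2
    · have : (0 : ℤ) ≤ len K L m * s n := by positivity
      omega
    · omega
    · intro v hv
      rw [mem_rct] at hv
      have h1 := hs1 n
      have e : ((((128 * len K L m + 1024) * s n : ℕ)) : ℤ) =
          128 * ((len K L m : ℤ) * (s n : ℤ)) + 1024 * (s n : ℤ) := by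
        push_cast
        ring
      rw [mem_ball, e]
      simp only [abs_le]
      omega
    · intro v hv
      exact (Finset.mem_sdiff.1 hv).2
    · intro v hv
      have h2 : v ∈ rr K L m (g n).a (s n) 0 := S1_sub_rr hv
      rw [mem_rr, abs_le] at h2
      rw [mem_rct]
      push_cast at h2
      omega
  · -- tightness, lower level
    intro η' hη'
    obtain ⟨M, hM⟩ := lev_tight h.pin h.st h.lim2 256 η' hη'
    refine ⟨M, Eventually.of_forall fun n => hM (s n) (hs1 n) _ _ ?_⟩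
    have h1 := hs1 n
    rw [mem_ball]
    simp only [abs_le]
    push_cast
    omega
  · -- tightness, upper level
    intro η' hη'
    obtain ⟨M, hM⟩ := lev_tight h.pin h.st h.lim2 256 η' hη'
    refine ⟨M, Eventually.of_forall fun n => hM (s n) (hs1 n) _ _ ?_⟩
    have h1 := hs1 n
    rw [mem_ball]
    simp only [abs_le]
    push_cast
    omega
  · -- charged functionals
    intro ε hε
    have hlen0 : (0 : ℝ) ≤ len K L m := by positivity
    have hA := Ca1867.a1_inst h.pin h.st h.lim2 hδ'p hδ'0 hu (s0 := ca 1 z0) (t0 := cb 1 z0)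
      (ρ := 4 * η) (L := |ca 1 z0| + |cb 1 z0| + (100 * len K L m + 1000) * η) (by positivity)
      (fun z hz => by
        have h1 := near_supp supp hz
        obtain ⟨h2, h3⟩ := abs_cab_sub z z0
        exact ⟨h2.trans (by linarith), h3.trans (by linarith)⟩)
      (by nlinarith) ε hε
    have hb : ∀ n (v : P2), (|δ' n * v.1 - ca 1 z0| ≤ (200 * len K L m) * (δ' n * s n)) →
        (|δ' n * v.2 - cb 1 z0| ≤ 1000 * (δ' n * s n)) →
        |δ' n * v.1| ≤ |ca 1 z0| + |cb 1 z0| + (100 * len K L m + 1000) * η ∧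
        |δ' n * v.2| ≤ |ca 1 z0| + |cb 1 z0| + (100 * len K L m + 1000) * η := by
      intro n v h1 h2
      have hle := sc_le hη (hδ'p n) (hδ's n)
      have h3 : (200 * (len K L m : ℝ)) * (δ' n * s n) ≤ (200 * len K L m) * (η / 2) :=
        mul_le_mul_of_nonneg_left (by linarith) (by positivity)
      have h4 : |δ' n * (v.1 : ℝ)| ≤ |δ' n * v.1 - ca 1 z0| + |ca 1 z0| := by
        have := abs_add_le (δ' n * (v.1 : ℝ) - ca 1 z0) (ca 1 z0)
        rwa [sub_add_cancel] at this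
      have h5 : |δ' n * (v.2 : ℝ)| ≤ |δ' n * v.2 - cb 1 z0| + |cb 1 z0| := by
        have := abs_add_le (δ' n * (v.2 : ℝ) - cb 1 z0) (cb 1 z0)
        rwa [sub_add_cancel] at this
      have h6 := abs_nonneg (ca 1 z0)
      have h7 := abs_nonneg (cb 1 z0)
      have h8 : 0 ≤ len K L m * η := by positivity
      constructor <;> nlinarith
    filter_upwards [hA] with n hn α Z1 Z2 a1 a2 a3 a4 a5 a6
    refine hn (Lc K L m (g n).a (s n)) (S2 (g n)) ((ball_ne _ _).mono bo_subr)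
      ((ball_ne _ _).mono b2_sub) ?_ ?_ α Z1 Z2 a1 a2 a3 a4 a5 a6
    · intro v hv
      obtain ⟨b1, b2, b3⟩ := Lc_low (hδ'p n) hv
      obtain ⟨b4, b5⟩ := hb n v b2 b3
      exact ⟨b4, b5, b1⟩
    · intro v hv
      obtain ⟨b1, b2, b3⟩ := S2_high (hδ'p n) hv
      obtain ⟨b4, b5⟩ := hb n v b2 b3
      exact ⟨b4, b5, b1⟩

end Crest.Agent.R144.Cd169
end
end

-- ▼ part R144/Fin7_830

/-!
# R144: the cell theorem, from helper169's `stepA` and helper311's `cell_of`
-/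

set_option autoImplicit false

noncomputable section

namespace Crest.Agent.R144.Fin830

/-- **the cell theorem** -/
theorem cell (x : ℝ) : Cell x := Cell311.cell_of fun P κ h δ hδ hδ0 K L hK hL m η z0 u hη hu hs =>
  Cd169.stepA h hδ hδ0 hK hL m hη hu hs

end Crest.Agent.R144.Fin830
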