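import Crest.Agent.R144.Ham3_560

/-!
R144 (S0197), helper560.  Clusters of `ε`-tight edges: exponential tails from LEMMA T by walk
encoding.

* `newE w` : the new edges of a walk (a list of vertices, head = present position);
* `tadj`, `clus` : tight adjacency inside a set `G` of free vertices and the cluster of a vertex;
* `exists_walk` : a cluster with `≥ k+1` vertices contains a closed walk of length `2k` with `k+1`
  vertices;
* `clus_tail` : `μ (k+1 ≤ |clus v|) ≤ (n² c)^k B` if `μ (S tight) ≤ c^|S| B` for fresh `S`;
* `clus_tail_joint` : the same for several disjoint clusters;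
* `vol_clus_le`, `vol_clus_joint_le` : for the volume on `ham F E ξ`, `c = 64 n² ε`.
-/

set_option autoImplicit false

open MeasureTheory Set
open scoped ENNReal

noncomputable section

namespace Crest.Agent.R144.Ham560

variable {U : Type*} [DecidableEq U] {F : Finset U} {E : Finset (U × U)} {ξ : U → ℝ}





















/-! ### Several disjoint clusters -/

theorem Fresh.append {S₁ S₂ : List (U × U)} (h1 : Fresh F E S₁) (h2 : Fresh F E S₂)
    (hd : ∀ q ∈ S₁, ∀ q' ∈ S₂, q'.1 ≠ q.1 ∧ q'.2 ≠ q.1) : Fresh F E (S₁ ++ S₂) := by
  induction h1 with
  | nil => exact h2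
  | @cons v u S hS hv hu hf ih =>
    refine Fresh.cons (ih fun q hq => hd q (List.mem_cons_of_mem _ hq)) hv hu fun q hq => ?_
    rcases List.mem_append.mp hq with hq | hq
    · exact hf q hq
    · exact hd (v, u) List.mem_cons_self q hq










end Crest.Agent.R144.Ham560
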