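import Crest.Agent.R144.Pst5_967
import Crest.Agent.R161.Topo_374

/-!
# R144, planar input X1 on the triangular lattice (helper585)

Sites `P2 = ℤ × ℤ`, adjacency `HexHeights.Adj`, walks `ReflTransGen (StepIn S)`.
`xx w = 2 * w.1 + w.2` is (twice) the horizontal coordinate; `w.2` is the row.

* `cross` : a walk in `W` from `a` to `b` and a walk in `C` from `p` to `q` share a site, if the rows of
  `W` are between the rows of `p`, `q` and the abscissae of `C` are between those of `a`, `b`.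
* `cross_par` : the same with the slanted coordinate `w.1` in place of `xx w`.
* `rot` : rotation by 120 degrees, `rfl'` : reflection in a vertical line.
-/

set_option autoImplicit false

noncomputable section

namespace Crest.Agent.R144.Hex585

open Crest.Agent.R144.It844 (P2 adj_iff)
open Crest.Agent.R144.Zg349 (StepIn)
open Crest.Agent.R144.Pst967 (path_symm stepIn_symm)
open Crest.ProbabilityR.HexHeights (Adj)
open Crest.Agent.R161.Topo374 (Nbr Walk)

/-- walk inside a set of sites -/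
abbrev Path (S : Set P2) (u v : P2) : Prop := Relation.ReflTransGen (StepIn S) u v

/-- twice the horizontal coordinate -/
def xx (w : P2) : ℤ := 2 * w.1 + w.2

/-- the brick of a site -/
def brick (w : P2) : Set (ℤ × ℤ) := {c | c.2 = w.2 ∧ (c.1 = xx w ∨ c.1 = xx w + 1)}

def bricks (S : Set P2) : Set (ℤ × ℤ) := {c | ∃ w ∈ S, c ∈ brick w}

theorem brick_inj {u v : P2} {c : ℤ × ℤ} (hu : c ∈ brick u) (hv : c ∈ brick v) : u = v := by
  obtain ⟨a, b⟩ := u
  obtain ⟨d, e⟩ := v
  obtain ⟨h1, h2⟩ := hu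
  obtain ⟨h3, h4⟩ := hv
  simp only [xx] at *
  have : b = e := by omega
  subst this
  have : a = d := by omega
  subst this
  rfl

theorem left_mem (w : P2) : (xx w, w.2) ∈ brick w := ⟨rfl, Or.inl rfl⟩
theorem right_mem (w : P2) : (xx w + 1, w.2) ∈ brick w := ⟨rfl, Or.inr rfl⟩

theorem brick_walk {S : Set P2} {w : P2} (hw : w ∈ S) {c d : ℤ × ℤ} (hc : c ∈ brick w)
    (hd : d ∈ brick w) : Walk (bricks S) c d := by
  have hc' : c ∈ bricks S := ⟨w, hw, hc⟩
  have hd' : d ∈ bricks S := ⟨w, hw, hd⟩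
  obtain ⟨c1, c2⟩ := c
  obtain ⟨d1, d2⟩ := d
  obtain ⟨h1, h2⟩ := hc
  obtain ⟨h3, h4⟩ := hd
  simp only at h1 h2 h3 h4
  by_cases h : c1 = d1
  · have : c2 = d2 := by omega
    subst h
    subst this
    exact Walk.refl hc'
  · refine Walk.step hc' hd' ?_
    unfold Nbr
    simp only
    omega

theorem step_walk {S : Set P2} {u v : P2} (hu : u ∈ S) (hv : v ∈ S) (h : Adj u v) {c d : ℤ × ℤ}
    (hc : c ∈ brick u) (hd : d ∈ brick v) : Walk (bricks S) c d := by
  have key : ∃ c' ∈ brick u, ∃ d' ∈ brick v, Nbr c' d' := by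
    obtain ⟨a, b⟩ := u
    rcases adj_iff.1 h with h | h | h | h | h | h <;> subst h
    · exact ⟨_, right_mem _, _, left_mem _, Or.inl ⟨rfl, Or.inl (by simp only [xx]; ring)⟩⟩
    · exact ⟨_, left_mem _, _, right_mem _, Or.inl ⟨rfl, Or.inr (by simp only [xx]; ring)⟩⟩
    · exact ⟨_, right_mem _, _, left_mem _, Or.inr ⟨by simp only [xx]; ring, Or.inl rfl⟩⟩
    · exact ⟨_, left_mem _, _, right_mem _,
        Or.inr ⟨by simp only [xx]; ring, Or.inr (by simp only; ring)⟩⟩
    · exact ⟨_, right_mem _, _, left_mem _,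
        Or.inr ⟨by simp only [xx]; ring, Or.inr (by simp only; ring)⟩⟩
    · exact ⟨_, left_mem _, _, right_mem _, Or.inr ⟨by simp only [xx]; ring, Or.inl rfl⟩⟩
  obtain ⟨c', hc', d', hd', hn⟩ := key
  exact ((brick_walk hu hc hc').trans (Walk.step ⟨u, hu, hc'⟩ ⟨v, hv, hd'⟩ hn)).trans
    (brick_walk hv hd' hd)

theorem path_walk {S : Set P2} {u v : P2} (hu : u ∈ S) (h : Path S u v) {c d : ℤ × ℤ}
    (hc : c ∈ brick u) (hd : d ∈ brick v) : Walk (bricks S) c d := by
  induction h generalizing d with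
  | refl => exact brick_walk hu hc hd
  | @tail w x _ h2 ih => exact (ih (left_mem w)).trans (step_walk h2.1 h2.2.1 h2.2.2 (left_mem w) hd)


/-- **X1**, horizontal coordinate form. -/
theorem cross {W C : Set P2} {a b p q : P2} (ha : a ∈ W) (hab : Path W a b) (hp : p ∈ C)
    (hpq : Path C p q) (hW : ∀ w ∈ W, p.2 ≤ w.2 ∧ w.2 ≤ q.2)
    (hC : ∀ w ∈ C, xx a ≤ xx w ∧ xx w ≤ xx b) : (W ∩ C).Nonempty := by
  have h1 : Walk (bricks W) (xx a, a.2) (xx b + 1, b.2) :=
    path_walk ha hab (left_mem a) (right_mem b)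
  have h2 : Walk (bricks C) (xx p, p.2) (xx q, q.2) := path_walk hp hpq (left_mem p) (left_mem q)
  obtain ⟨c, ⟨u, hu, hcu⟩, ⟨v, hv, hcv⟩⟩ := Crest.Agent.R161.Topo374.cross h1 h2
    (by
      rintro c ⟨w, hw, hc⟩
      have := hW w hw
      simp only [hc.1]
      exact this)
    (by
      rintro c ⟨w, hw, hc⟩
      have := hC w hw
      rcases hc.2 with h | h <;> simp only [h] <;> omega)
  exact ⟨u, hu, by rw [brick_inj hcu hcv]; exact hv⟩


theorem path_mono {S T : Set P2} (h : S ⊆ T) {u v : P2} (p : Path S u v) : Path T u v :=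
  Relation.ReflTransGen.mono (fun _ _ hab => ⟨h hab.1, h hab.2.1, hab.2.2⟩) _ _ p






/-- **X1** in the form of 1941: a connected set touching the lowest and the highest row of a strip
meets every walk of the strip from its left to its right. -/
theorem x1 {W C : Set P2} {a b p q : P2} {j0 j1 : ℤ} (hp : p ∈ C) (hp0 : p.2 = j0)
    (hq1 : q.2 = j1) (hpq : Path C p q) (ha : a ∈ W) (hab : Path W a b)
    (hW : ∀ w ∈ W, j0 ≤ w.2 ∧ w.2 ≤ j1) (hC : ∀ w ∈ C, xx a ≤ xx w ∧ xx w ≤ xx b) :
    (W ∩ C).Nonempty := by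
  subst hp0
  subst hq1
  exact cross ha hab hp hpq hW hC

/-! ### symmetries -/

/-- rotation by 120 degrees -/
def rot : P2 ≃ P2 where
  toFun w := (-w.1 - w.2, w.1)
  invFun w := (w.2, -w.1 - w.2)
  left_inv w := Prod.ext rfl (by simp only; ring)
  right_inv w := Prod.ext (by simp only; ring) rfl





/-- a graph isomorphism carries walks to walks -/
theorem path_map {S T : Set P2} (g : P2 → P2) (hg : ∀ u v, Adj u v → Adj (g u) (g v))
    (hS : ∀ w ∈ S, g w ∈ T) {u v : P2} (p : Path S u v) : Path T (g u) (g v) := by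
  induction p with
  | refl => exact .refl
  | tail _ h ih => exact ih.tail ⟨hS _ h.1, hS _ h.2.1, hg _ _ h.2.2⟩

end Crest.Agent.R144.Hex585
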