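import Mathlib
import Crest.Agent.R144.Fi3_865

-- ▼ part R144/Hs1_865
section

/-!
# R144, static functional inequalities (helper865), file 4: calculus of `Lφ = Δφ − ⟨∇H, ∇φ⟩`

On `ι → ℝ` with `pd i f x = fderiv ℝ f x (Pi.single i 1)`:

* `ibp`      : `∫ (Lφ) G e^{-H} = - ∫ ⟨∇φ, ∇G⟩ e^{-H}` (`φ` `C²` with compact support, `G`, `H` `C¹`);
* `bochner`  : `∫ (Lφ)² e^{-H} = ∫ (‖D²φ‖² + D²H(∇φ, ∇φ)) e^{-H}` (`φ` `C³` with compact support,
  `H` `C²`).
-/

set_option autoImplicit false
set_option linter.unusedSectionVars false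

open MeasureTheory Set Filter Topology
open scoped ENNReal NNReal ContDiff

namespace Crest.Agent.R144.Hs865

noncomputable section

variable {ι : Type*} [Fintype ι] [DecidableEq ι]

/-- the `i`-th partial derivative -/
def pd (i : ι) (f : (ι → ℝ) → ℝ) (x : ι → ℝ) : ℝ := fderiv ℝ f x (Pi.single i 1)

/-- the generator `Δφ − ⟨∇H, ∇φ⟩` -/
def Lp (H φ : (ι → ℝ) → ℝ) (x : ι → ℝ) : ℝ := ∑ i, (pd i (pd i φ) x - pd i H x * pd i φ x)

variable {f g : (ι → ℝ) → ℝ} {x : ι → ℝ} {i j : ι}

theorem pd_add (hf : DifferentiableAt ℝ f x) (hg : DifferentiableAt ℝ g x) :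
    pd i (fun y => f y + g y) x = pd i f x + pd i g x := by
  unfold pd; rw [fderiv_fun_add hf hg]; rfl

theorem pd_sub (hf : DifferentiableAt ℝ f x) (hg : DifferentiableAt ℝ g x) :
    pd i (fun y => f y - g y) x = pd i f x - pd i g x := by
  unfold pd; rw [fderiv_fun_sub hf hg]; rfl

theorem pd_mul (hf : DifferentiableAt ℝ f x) (hg : DifferentiableAt ℝ g x) :
    pd i (fun y => f y * g y) x = f x * pd i g x + pd i f x * g x := by
  unfold pd; rw [fderiv_fun_mul hf hg]
  simp only [add_apply, smul_apply, smul_eq_mul]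
  ring

theorem pd_const (c : ℝ) : pd i (fun _ => c) x = 0 := by
  unfold pd; rw [fderiv_fun_const]; rfl

theorem pd_sum {κ : Type*} (s : Finset κ) {F : κ → (ι → ℝ) → ℝ}
    (hF : ∀ k ∈ s, DifferentiableAt ℝ (F k) x) :
    pd i (fun y => ∑ k ∈ s, F k y) x = ∑ k ∈ s, pd i (F k) x := by
  unfold pd
  rw [fderiv_fun_sum hF, sum_apply]

theorem pd_exp (hf : DifferentiableAt ℝ f x) :
    pd i (fun y => Real.exp (f y)) x = Real.exp (f x) * pd i f x := by
  unfold pd; rw [fderiv_exp hf]; rfl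

theorem pd_neg : pd i (fun y => - f y) x = - pd i f x := by
  unfold pd; rw [fderiv_fun_neg]; rfl

theorem pd_exp_neg (hf : DifferentiableAt ℝ f x) :
    pd i (fun y => Real.exp (-f y)) x = - (pd i f x * Real.exp (-f x)) := by
  rw [pd_exp (f := fun y => - f y) hf.fun_neg, pd_neg]; ring

theorem contDiff_pd {n m : WithTop ℕ∞} (hf : ContDiff ℝ n f) (hmn : m + 1 ≤ n) (i : ι) :
    ContDiff ℝ m (pd i f) :=
  (hf.fderiv_right hmn).clm_apply contDiff_const

theorem continuous_pd (hf : ContDiff ℝ 1 f) (i : ι) : Continuous (pd i f) :=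
  (contDiff_pd (m := 0) hf (by norm_num) i).continuous

theorem hcs_pd (hf : HasCompactSupport f) (i : ι) : HasCompactSupport (pd i f) :=
  hf.fderiv_apply ℝ (Pi.single i 1)

theorem pd_comm (hf : ContDiff ℝ 2 f) (i j : ι) (x : ι → ℝ) :
    pd i (pd j f) x = pd j (pd i f) x := by
  have h1 : ∀ k l : ι, pd k (pd l f) x =
      fderiv ℝ (fderiv ℝ f) x (Pi.single k 1) (Pi.single l 1) := by
    intro k l
    have hd : DifferentiableAt ℝ (fderiv ℝ f) x :=
      ((hf.fderiv_right (m := 1) (by norm_num)).differentiable (by norm_num)) x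
    unfold pd
    rw [fderiv_clm_apply hd (differentiableAt_const _)]
    simp
  rw [h1, h1]
  exact (hf.contDiffAt.isSymmSndFDerivAt (by simp)) _ _

theorem int_cc (hf : Continuous f) (hg : Continuous g) (hc : HasCompactSupport f) :
    Integrable (fun x => f x * g x) :=
  (hf.mul hg).integrable_of_hasCompactSupport hc.mul_right

theorem ibp0 (hf : ContDiff ℝ 1 f) (hg : ContDiff ℝ 1 g) (hc : HasCompactSupport f) (i : ι) :
    ∫ x, f x * pd i g x = - ∫ x, pd i f x * g x :=
  integral_mul_fderiv_eq_neg_fderiv_mul_of_integrable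
    (int_cc (continuous_pd hf i) hg.continuous (hcs_pd hc i))
    (int_cc hf.continuous (continuous_pd hg i) hc)
    (int_cc hf.continuous hg.continuous hc)
    (fun x _ => hf.differentiable (by norm_num) x) (fun x _ => hg.differentiable (by norm_num) x)

variable {H φ G : (ι → ℝ) → ℝ}

theorem contDiff_expneg {n : WithTop ℕ∞} (hH : ContDiff ℝ n H) :
    ContDiff ℝ n fun x => Real.exp (-H x) := Real.contDiff_exp.comp hH.neg

theorem continuous_Lp (hH : ContDiff ℝ 1 H) (hφ : ContDiff ℝ 2 φ) : Continuous (Lp H φ) := by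
  unfold Lp
  refine continuous_finsetSum _ fun i _ => ?_
  exact (continuous_pd (contDiff_pd hφ (by norm_num) i) i).sub
    ((continuous_pd hH i).mul (continuous_pd (hφ.of_le (by norm_num)) i))

theorem hcs_Lp (hc : HasCompactSupport φ) : HasCompactSupport (Lp H φ) := by
  have : ∀ s : Finset ι, HasCompactSupport
      fun x => ∑ i ∈ s, (pd i (pd i φ) x - pd i H x * pd i φ x) := by
    intro s
    induction s using Finset.induction_on with
    | empty => simp only [Finset.sum_empty]; exact HasCompactSupport.zero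
    | insert a s ha ih =>
      simp only [Finset.sum_insert ha]
      have h1 : HasCompactSupport fun x => pd a (pd a φ) x := hcs_pd (hcs_pd hc a) a
      have h2 : HasCompactSupport fun x => pd a H x * pd a φ x := (hcs_pd hc a).mul_left
      exact (h1.sub h2).add ih
  exact this Finset.univ

theorem contDiff_Lp {n : WithTop ℕ∞} (hH : ContDiff ℝ (n + 1) H) (hφ : ContDiff ℝ (n + 2) φ) :
    ContDiff ℝ n (Lp H φ) := by
  unfold Lp
  refine ContDiff.sum fun i _ => ?_
  have h1 : ContDiff ℝ (n + 1) (pd i φ) := contDiff_pd hφ (by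
    rw [add_assoc]; norm_num) i
  exact (contDiff_pd h1 le_rfl i).sub ((contDiff_pd hH le_rfl i).mul (h1.of_le le_self_add))

/-- **integration by parts** -/
theorem ibp (hH : ContDiff ℝ 1 H) (hφ : ContDiff ℝ 2 φ) (hc : HasCompactSupport φ)
    (hG : ContDiff ℝ 1 G) :
    ∫ x, Lp H φ x * G x * Real.exp (-H x) =
      - ∫ x, (∑ i, pd i φ x * pd i G x) * Real.exp (-H x) := by
  have hE := contDiff_expneg hH
  have hGE : ContDiff ℝ 1 fun x => G x * Real.exp (-H x) := hG.mul hE
  have hp1 : ∀ i, ContDiff ℝ 1 (pd i φ) := fun i => contDiff_pd hφ (by norm_num) i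
  have hdG : ∀ x, DifferentiableAt ℝ G x := fun x => hG.differentiable (by norm_num) x
  have hdH : ∀ x, DifferentiableAt ℝ H x := fun x => hH.differentiable (by norm_num) x
  have hdE : ∀ x, DifferentiableAt ℝ (fun x => Real.exp (-H x)) x :=
    fun x => hE.differentiable (by norm_num) x
  have key : ∀ i, ∫ x, (pd i (pd i φ) x - pd i H x * pd i φ x) * G x * Real.exp (-H x) =
      - ∫ x, pd i φ x * pd i G x * Real.exp (-H x) := by
    intro i
    have h1 := ibp0 (hp1 i) hGE (hcs_pd hc i) i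
    have h2 : ∀ x, pd i (fun x => G x * Real.exp (-H x)) x =
        pd i G x * Real.exp (-H x) - G x * pd i H x * Real.exp (-H x) := by
      intro x
      rw [pd_mul (hdG x) (hdE x), pd_exp_neg (hdH x)]; ring
    simp_rw [h2] at h1
    have i1 : Integrable fun x => pd i φ x * (pd i G x * Real.exp (-H x)) :=
      int_cc (hp1 i).continuous ((continuous_pd hG i).mul hE.continuous) (hcs_pd hc i)
    have i2 : Integrable fun x => pd i φ x * (G x * pd i H x * Real.exp (-H x)) :=
      int_cc (hp1 i).continuous ((hG.continuous.mul (continuous_pd hH i)).mul hE.continuous)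
        (hcs_pd hc i)
    have i3 : Integrable fun x => pd i (pd i φ) x * (G x * Real.exp (-H x)) :=
      int_cc (continuous_pd (hp1 i) i) hGE.continuous (hcs_pd (hcs_pd hc i) i)
    have h3 : ∫ x, pd i φ x * (pd i G x * Real.exp (-H x) -
        G x * pd i H x * Real.exp (-H x)) =
        (∫ x, pd i φ x * (pd i G x * Real.exp (-H x))) -
          ∫ x, pd i φ x * (G x * pd i H x * Real.exp (-H x)) := by
      rw [← integral_sub i1 i2]
      exact integral_congr_ae (ae_of_all _ fun x => by ring)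
    rw [h3] at h1
    have h4 : ∫ x, (pd i (pd i φ) x - pd i H x * pd i φ x) * G x * Real.exp (-H x) =
        (∫ x, pd i (pd i φ) x * (G x * Real.exp (-H x))) -
          ∫ x, pd i φ x * (G x * pd i H x * Real.exp (-H x)) := by
      rw [← integral_sub i3 i2]
      exact integral_congr_ae (ae_of_all _ fun x => by ring)
    rw [h4]
    have h5 : ∫ x, pd i φ x * pd i G x * Real.exp (-H x) =
        ∫ x, pd i φ x * (pd i G x * Real.exp (-H x)) :=
      integral_congr_ae (ae_of_all _ fun x => by ring)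
    rw [h5]
    linarith
  have e1 : ∫ x, Lp H φ x * G x * Real.exp (-H x) =
      ∑ i, ∫ x, (pd i (pd i φ) x - pd i H x * pd i φ x) * G x * Real.exp (-H x) := by
    rw [← integral_finsetSum]
    · refine integral_congr_ae (ae_of_all _ fun x => ?_)
      show Lp H φ x * G x * Real.exp (-H x) = _
      unfold Lp
      rw [Finset.sum_mul, Finset.sum_mul]
    · intro i _
      have c1 : Continuous fun x => pd i (pd i φ) x - pd i H x * pd i φ x :=
        (continuous_pd (hp1 i) i).sub ((continuous_pd hH i).mul (hp1 i).continuous)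
      have s1 : HasCompactSupport fun x => pd i (pd i φ) x - pd i H x * pd i φ x := by
        have h1 : HasCompactSupport fun x => pd i (pd i φ) x := hcs_pd (hcs_pd hc i) i
        have h2 : HasCompactSupport fun x => pd i H x * pd i φ x := (hcs_pd hc i).mul_left
        exact h1.sub h2
      exact ((c1.mul hG.continuous).mul hE.continuous).integrable_of_hasCompactSupport
        (s1.mul_right.mul_right)
  have e2 : ∫ x, (∑ i, pd i φ x * pd i G x) * Real.exp (-H x) =
      ∑ i, ∫ x, pd i φ x * pd i G x * Real.exp (-H x) := by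
    rw [← integral_finsetSum]
    · refine integral_congr_ae (ae_of_all _ fun x => ?_)
      show (∑ i, pd i φ x * pd i G x) * Real.exp (-H x) = _
      rw [Finset.sum_mul]
    · intro i _
      exact (((hp1 i).continuous.mul (continuous_pd hG i)).mul hE.continuous
        ).integrable_of_hasCompactSupport ((hcs_pd hc i).mul_right.mul_right)
  rw [e1, e2, ← Finset.sum_neg_distrib]
  exact Finset.sum_congr rfl fun i _ => key i

theorem pd_Lp (hH : ContDiff ℝ 2 H) (hφ : ContDiff ℝ 3 φ) (j : ι) (x : ι → ℝ) :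
    pd j (Lp H φ) x = Lp H (pd j φ) x - ∑ i, pd j (pd i H) x * pd i φ x := by
  have hφ2 : ContDiff ℝ 2 φ := hφ.of_le (by norm_num)
  have hp2 : ∀ i, ContDiff ℝ 2 (pd i φ) := fun i => contDiff_pd hφ (by norm_num) i
  have hp1 : ∀ i, ContDiff ℝ 1 (pd i (pd i φ)) := fun i => contDiff_pd (hp2 i) (by norm_num) i
  have hH1 : ∀ i, ContDiff ℝ 1 (pd i H) := fun i => contDiff_pd hH (by norm_num) i
  have d1 : ∀ i, DifferentiableAt ℝ (pd i (pd i φ)) x :=
    fun i => (hp1 i).differentiable (by norm_num) x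
  have d2 : ∀ i, DifferentiableAt ℝ (pd i H) x := fun i => (hH1 i).differentiable (by norm_num) x
  have d3 : ∀ i, DifferentiableAt ℝ (pd i φ) x := fun i => (hp2 i).differentiable (by norm_num) x
  have e : pd j (Lp H φ) x = ∑ i, (pd j (pd i (pd i φ)) x -
      (pd i H x * pd j (pd i φ) x + pd j (pd i H) x * pd i φ x)) := by
    have : Lp H φ = fun y => ∑ i, (pd i (pd i φ) y - pd i H y * pd i φ y) := rfl
    rw [this, pd_sum]
    · refine Finset.sum_congr rfl fun i _ => ?_
      rw [pd_sub (f := pd i (pd i φ)) (g := fun y => pd i H y * pd i φ y) (d1 i)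
        ((d2 i).fun_mul (d3 i)), pd_mul (d2 i) (d3 i)]
    · intro i _
      exact (d1 i).fun_sub ((d2 i).fun_mul (d3 i))
  rw [e]
  unfold Lp
  rw [← Finset.sum_sub_distrib]
  refine Finset.sum_congr rfl fun i _ => ?_
  have c1 : pd j (pd i (pd i φ)) x = pd i (pd i (pd j φ)) x := by
    rw [pd_comm (hp2 i)]
    have : pd j (pd i φ) = pd i (pd j φ) := funext fun y => pd_comm hφ2 j i y
    rw [this]
  rw [c1, pd_comm hφ2 j i]
  ring

/-- **Bochner's identity** -/
theorem bochner (hH : ContDiff ℝ 2 H) (hφ : ContDiff ℝ 3 φ) (hc : HasCompactSupport φ) :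
    ∫ x, Lp H φ x ^ 2 * Real.exp (-H x) =
      ∫ x, ((∑ i, ∑ j, pd i (pd j φ) x ^ 2) +
        ∑ i, ∑ j, pd i (pd j H) x * pd i φ x * pd j φ x) * Real.exp (-H x) := by
  have hH1 : ContDiff ℝ 1 H := hH.of_le (by norm_num)
  have hφ2 : ContDiff ℝ 2 φ := hφ.of_le (by norm_num)
  have hp2 : ∀ i, ContDiff ℝ 2 (pd i φ) := fun i => contDiff_pd hφ (by norm_num) i
  have hE := contDiff_expneg hH1
  have hL1 : ContDiff ℝ 1 (Lp H φ) := contDiff_Lp (n := 1) (hH.of_le (by norm_num))
    (hφ.of_le (by norm_num))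
  have h1 := ibp hH1 hφ2 hc hL1
  have h2 : ∫ x, Lp H φ x ^ 2 * Real.exp (-H x) =
      ∫ x, Lp H φ x * Lp H φ x * Real.exp (-H x) :=
    integral_congr_ae (ae_of_all _ fun x => by
      show Lp H φ x ^ 2 * Real.exp (-H x) = Lp H φ x * Lp H φ x * Real.exp (-H x)
      ring)
  rw [h2, h1]
  have iA : ∀ j, Integrable (fun x => Lp H (pd j φ) x * pd j φ x * Real.exp (-H x)) volume := by
    intro j
    exact (((continuous_Lp hH1 (hp2 j)).mul (hp2 j).continuous).mul hE.continuous
      ).integrable_of_hasCompactSupport ((hcs_Lp (hcs_pd hc j)).mul_right.mul_right)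
  have iB : ∀ i j, Integrable (fun x => pd i (pd j H) x * pd i φ x * pd j φ x *
      Real.exp (-H x)) volume := by
    intro i j
    have hcc : Continuous fun x => pd i (pd j H) x * pd i φ x * pd j φ x * Real.exp (-H x) :=
      (((continuous_pd (contDiff_pd hH (by norm_num) j) i).mul (hp2 i).continuous).mul
        (hp2 j).continuous).mul hE.continuous
    exact hcc.integrable_of_hasCompactSupport ((hcs_pd hc i).mul_left.mul_right.mul_right)
  have iC : ∀ i j, Integrable fun x => pd i (pd j φ) x ^ 2 * Real.exp (-H x) := by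
    intro i j
    have hcc : Continuous fun x => pd i (pd j φ) x * pd i (pd j φ) x * Real.exp (-H x) :=
      ((continuous_pd ((hp2 j).of_le (by norm_num)) i).mul
        (continuous_pd ((hp2 j).of_le (by norm_num)) i)).mul hE.continuous
    have h3 : Integrable (fun x => pd i (pd j φ) x * pd i (pd j φ) x * Real.exp (-H x)) volume :=
      hcc.integrable_of_hasCompactSupport ((hcs_pd (hcs_pd hc j) i).mul_right.mul_right)
    refine h3.congr (ae_of_all _ fun x => ?_)
    show pd i (pd j φ) x * pd i (pd j φ) x * Real.exp (-H x) = _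
    ring
  have key : ∀ j, ∫ x, Lp H (pd j φ) x * pd j φ x * Real.exp (-H x) =
      - ∑ i, ∫ x, pd i (pd j φ) x ^ 2 * Real.exp (-H x) := by
    intro j
    rw [ibp hH1 (hp2 j) (hcs_pd hc j) ((hp2 j).of_le (by norm_num)),
      ← integral_finsetSum _ fun i _ => iC i j]
    congr 1
    refine integral_congr_ae (ae_of_all _ fun x => ?_)
    show (∑ i, pd i (pd j φ) x * pd i (pd j φ) x) * Real.exp (-H x) = _
    rw [Finset.sum_mul]
    exact Finset.sum_congr rfl fun i _ => by ring
  have e1 : ∫ x, (∑ i, pd i φ x * pd i (Lp H φ) x) * Real.exp (-H x) =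
      ∑ j, ((∫ x, Lp H (pd j φ) x * pd j φ x * Real.exp (-H x)) -
        ∑ i, ∫ x, pd i (pd j H) x * pd i φ x * pd j φ x * Real.exp (-H x)) := by
    have : ∀ j, (∫ x, Lp H (pd j φ) x * pd j φ x * Real.exp (-H x)) -
        ∑ i, ∫ x, pd i (pd j H) x * pd i φ x * pd j φ x * Real.exp (-H x) =
        ∫ x, (Lp H (pd j φ) x * pd j φ x * Real.exp (-H x) -
          ∑ i, pd i (pd j H) x * pd i φ x * pd j φ x * Real.exp (-H x)) := by
      intro j
      rw [integral_sub (iA j) (integrable_finsetSum _ fun i _ => iB i j),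
        integral_finsetSum _ fun i _ => iB i j]
    simp_rw [this]
    have iD : ∀ j, Integrable (fun x => Lp H (pd j φ) x * pd j φ x * Real.exp (-H x) -
        ∑ i, pd i (pd j H) x * pd i φ x * pd j φ x * Real.exp (-H x)) volume := fun j =>
      (iA j).sub (integrable_finsetSum _ fun i _ => iB i j)
    rw [← integral_finsetSum _ fun j _ => iD j]
    refine integral_congr_ae (ae_of_all _ fun x => ?_)
    show (∑ i, pd i φ x * pd i (Lp H φ) x) * Real.exp (-H x) = _
    rw [Finset.sum_mul]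
    refine Finset.sum_congr rfl fun j _ => ?_
    rw [pd_Lp hH hφ j x, mul_sub, sub_mul, Finset.mul_sum, Finset.sum_mul]
    congr 1
    · ring
    · refine Finset.sum_congr rfl fun i _ => ?_
      rw [pd_comm hH j i]
      ring
  rw [e1, Finset.sum_sub_distrib]
  simp_rw [key]
  have e2 : ∫ x, ((∑ i, ∑ j, pd i (pd j φ) x ^ 2) +
        ∑ i, ∑ j, pd i (pd j H) x * pd i φ x * pd j φ x) * Real.exp (-H x) =
      (∑ j, ∑ i, ∫ x, pd i (pd j φ) x ^ 2 * Real.exp (-H x)) +
      ∑ j, ∑ i, ∫ x, pd i (pd j H) x * pd i φ x * pd j φ x * Real.exp (-H x) := by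
    have a1 : ∀ j, ∑ i, ∫ x, pd i (pd j φ) x ^ 2 * Real.exp (-H x) =
        ∫ x, ∑ i, pd i (pd j φ) x ^ 2 * Real.exp (-H x) := fun j =>
      (integral_finsetSum _ fun i _ => iC i j).symm
    have a2 : ∀ j, ∑ i, ∫ x, pd i (pd j H) x * pd i φ x * pd j φ x * Real.exp (-H x) =
        ∫ x, ∑ i, pd i (pd j H) x * pd i φ x * pd j φ x * Real.exp (-H x) := fun j =>
      (integral_finsetSum _ fun i _ => iB i j).symm
    simp_rw [a1, a2]
    rw [← integral_finsetSum _ fun j _ => integrable_finsetSum _ fun i _ => iC i j,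
      ← integral_finsetSum _ fun j _ => integrable_finsetSum _ fun i _ => iB i j,
      ← integral_add (integrable_finsetSum _ fun j _ => integrable_finsetSum _ fun i _ => iC i j)
        (integrable_finsetSum _ fun j _ => integrable_finsetSum _ fun i _ => iB i j)]
    refine integral_congr_ae (ae_of_all _ fun x => ?_)
    show ((∑ i, ∑ j, pd i (pd j φ) x ^ 2) +
        ∑ i, ∑ j, pd i (pd j H) x * pd i φ x * pd j φ x) * Real.exp (-H x) = _
    rw [add_mul]
    congr 1
    · rw [Finset.sum_comm, Finset.sum_mul]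
      exact Finset.sum_congr rfl fun j _ => by rw [Finset.sum_mul]
    · rw [Finset.sum_comm, Finset.sum_mul]
      exact Finset.sum_congr rfl fun j _ => by rw [Finset.sum_mul]
  rw [e2, Finset.sum_neg_distrib]
  ring

end

end Crest.Agent.R144.Hs865
end

-- ▼ part R144/Hs2_865
section

/-!
# R144, static functional inequalities (helper865), file 5: mollification
-/

set_option autoImplicit false
set_option linter.unusedSectionVars false

open MeasureTheory Set Filter Topology
open scoped ENNReal NNReal ContDiff Convolution Pointwise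

namespace Crest.Agent.R144.Hs865

noncomputable section

variable {ι : Type*} [Fintype ι] [DecidableEq ι]

/-- convolution -/
def cv (g ρ : (ι → ℝ) → ℝ) (x : ι → ℝ) : ℝ := ∫ t, g t * ρ (x - t)

variable {g ρ θ κ ψ H : (ι → ℝ) → ℝ}

theorem cv_eq (g ρ : (ι → ℝ) → ℝ) :
    cv g ρ = (g ⋆[ContinuousLinearMap.mul ℝ ℝ, volume] ρ) := rfl

theorem cv_comm (g ρ : (ι → ℝ) → ℝ) : cv g ρ = cv ρ g := by
  funext x
  rw [cv_eq, convolution_mul_swap]
  exact integral_congr_ae (ae_of_all _ fun t => mul_comm _ _)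

theorem contDiff_cv {n : ℕ∞} (hg : LocallyIntegrable g) (hρ : ContDiff ℝ n ρ)
    (hc : HasCompactSupport ρ) : ContDiff ℝ n (cv g ρ) :=
  hc.contDiff_convolution_right (ContinuousLinearMap.mul ℝ ℝ) hg hρ

theorem continuous_cv (hg : LocallyIntegrable g) (hρ : Continuous ρ)
    (hc : HasCompactSupport ρ) : Continuous (cv g ρ) :=
  hc.continuous_convolution_right (ContinuousLinearMap.mul ℝ ℝ) hg hρ

theorem hcs_cv (hg : HasCompactSupport g) (hc : HasCompactSupport ρ) :
    HasCompactSupport (cv g ρ) := by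
  rw [cv_eq]
  exact HasCompactSupport.convolution _ hg hc

theorem pd_cv (hg : LocallyIntegrable g) (hρ : ContDiff ℝ 1 ρ) (hc : HasCompactSupport ρ)
    (i : ι) (x : ι → ℝ) : pd i (cv g ρ) x = cv g (pd i ρ) x := by
  have h := (hc.hasFDerivAt_convolution_right (ContinuousLinearMap.mul ℝ ℝ) hg hρ x).fderiv
  unfold pd
  rw [cv_eq, h, convolution_precompR_apply _ hg (hc.fderiv ℝ)
    (hρ.continuous_fderiv one_ne_zero)]
  rfl

/-- product of a locally integrable function and a compactly supported continuous function -/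
theorem int_lc (hg : LocallyIntegrable g) (hρ : Continuous ρ) (hc : HasCompactSupport ρ) :
    Integrable (fun x => g x * ρ x) := by
  have h := hg.integrable_smul_left_of_hasCompactSupport hρ hc
  refine h.congr (ae_of_all _ fun x => ?_)
  show ρ x • g x = g x * ρ x
  rw [smul_eq_mul, mul_comm]

theorem int_lc' (hg : LocallyIntegrable g) (hρ : Continuous ρ) (hc : HasCompactSupport ρ)
    (x : ι → ℝ) : Integrable (fun t => g t * ρ (x - t)) :=
  int_lc hg (hρ.comp (continuous_const.sub continuous_id))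
    (hc.comp_homeomorph (Homeomorph.subLeft x))

/-- **adjoint of the convolution** -/
theorem adj (hg : LocallyIntegrable g) (hθ : Continuous θ) (cθ : HasCompactSupport θ)
    (hκ : Continuous κ) (cκ : HasCompactSupport κ) :
    ∫ x, g x * cv θ κ x = ∫ t, θ t * cv g (fun s => κ (-s)) t := by
  set K : Set (ι → ℝ) := tsupport κ + tsupport θ with hK
  have cK : IsCompact K := cκ.isCompact.add cθ.isCompact
  have iK : Integrable (K.indicator g) :=
    (integrable_indicator_iff cK.measurableSet).2 (hg.integrableOn_isCompact cK)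
  obtain ⟨M, hM⟩ := hκ.bounded_above_of_compact_support cκ
  have hi0 : Integrable (fun p : (ι → ℝ) × (ι → ℝ) => K.indicator g p.1 * θ p.2)
      (volume.prod volume) := iK.mul_prod (hθ.integrable_of_hasCompactSupport cθ)
  have hi1 : Integrable (fun p : (ι → ℝ) × (ι → ℝ) => K.indicator g p.1 * θ p.2 *
      κ (p.1 - p.2)) (volume.prod volume) := by
    refine hi0.mul_bdd (c := M) ?_ (ae_of_all _ fun p => hM _)
    exact (hκ.comp (continuous_fst.sub continuous_snd)).aestronglyMeasurable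
  have hpt : ∀ x t, K.indicator g x * θ t * κ (x - t) = g x * (θ t * κ (x - t)) := by
    intro x t
    by_cases hx : x ∈ K
    · rw [indicator_of_mem hx]; ring
    · rw [indicator_of_notMem hx, zero_mul, zero_mul]
      by_cases h1 : θ t = 0
      · rw [h1]; ring
      · by_cases h2 : κ (x - t) = 0
        · rw [h2]; ring
        · exfalso
          refine hx ?_
          have : x = (x - t) + t := by abel
          rw [this]
          exact Set.add_mem_add (subset_tsupport _ h2) (subset_tsupport _ h1)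
  have hi2 : Integrable (Function.uncurry fun x t : ι → ℝ => g x * (θ t * κ (x - t)))
      (volume.prod volume) := by
    refine hi1.congr (ae_of_all _ fun p => ?_)
    exact hpt p.1 p.2
  have h := integral_integral_swap hi2
  have e1 : ∫ x, g x * cv θ κ x = ∫ x, ∫ t, g x * (θ t * κ (x - t)) := by
    refine integral_congr_ae (ae_of_all _ fun x => ?_)
    show g x * cv θ κ x = ∫ t, g x * (θ t * κ (x - t))
    rw [integral_const_mul]; rfl
  have e2 : ∫ t, θ t * cv g (fun s => κ (-s)) t = ∫ t, ∫ x, g x * (θ t * κ (x - t)) := by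
    refine integral_congr_ae (ae_of_all _ fun t => ?_)
    show θ t * cv g (fun s => κ (-s)) t = _
    unfold cv
    rw [← integral_const_mul]
    refine integral_congr_ae (ae_of_all _ fun x => ?_)
    show θ t * (g x * κ (-(t - x))) = g x * (θ t * κ (x - t))
    rw [neg_sub]; ring
  rw [e1, e2, h]

theorem int_sub_left (x : ι → ℝ) : ∫ t, ρ (x - t) = ∫ t, ρ t :=
  integral_sub_left_eq_self (fun t => ρ t) volume x

/-- Jensen with varying integrand -/
theorem jensen {h : (ι → ℝ) → ℝ} (hg : LocallyIntegrable h)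
    (hg2 : LocallyIntegrable fun t => h t ^ 2) (hρ : Continuous ρ) (hc : HasCompactSupport ρ)
    (h0 : ∀ x, 0 ≤ ρ x) (h1 : ∫ x, ρ x = 1) (x : ι → ℝ) :
    cv h ρ x ^ 2 ≤ cv (fun t => h t ^ 2) ρ x := by
  set m := cv h ρ x with hm
  have i1 := int_lc' hg hρ hc x
  have i2 := int_lc' hg2 hρ hc x
  have i3 : Integrable fun t => ρ (x - t) :=
    (hρ.comp (continuous_const.sub continuous_id)).integrable_of_hasCompactSupport
      (hc.comp_homeomorph (Homeomorph.subLeft x))
  have h2 : 0 ≤ ∫ t, (h t - m) ^ 2 * ρ (x - t) :=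
    integral_nonneg fun t => mul_nonneg (sq_nonneg _) (h0 _)
  have h3 : ∫ t, (h t - m) ^ 2 * ρ (x - t) =
      (∫ t, h t ^ 2 * ρ (x - t)) - 2 * m * (∫ t, h t * ρ (x - t)) + m ^ 2 * ∫ t, ρ (x - t) := by
    have i4 : Integrable (fun t => h t ^ 2 * ρ (x - t) - 2 * m * (h t * ρ (x - t))) volume :=
      i2.sub (i1.const_mul _)
    rw [← integral_const_mul, ← integral_const_mul, ← integral_sub i2 (i1.const_mul _),
      ← integral_add i4 (i3.const_mul _)]
    refine integral_congr_ae (ae_of_all _ fun t => ?_)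
    show (h t - m) ^ 2 * ρ (x - t) =
      h t ^ 2 * ρ (x - t) - 2 * m * (h t * ρ (x - t)) + m ^ 2 * ρ (x - t)
    ring
  have h4 : ∫ t, h t * ρ (x - t) = m := rfl
  have h5 : ∫ t, h t ^ 2 * ρ (x - t) = cv (fun t => h t ^ 2) ρ x := rfl
  rw [h3, h4, h5, int_sub_left, h1] at h2
  nlinarith [h2]

theorem cv_mono {h k : (ι → ℝ) → ℝ} (hρ : Continuous ρ) (hc : HasCompactSupport ρ)
    (hh : LocallyIntegrable h) (hk : LocallyIntegrable k) (x : ι → ℝ)
    (hle : ∀ t, h t * ρ (x - t) ≤ k t * ρ (x - t)) : cv h ρ x ≤ cv k ρ x :=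
  integral_mono (int_lc' hh hρ hc x) (int_lc' hk hρ hc x) hle

/-- **the weak equation of the mollified function** -/
theorem weak_eq (hH : ContDiff ℝ 1 H) (hg : LocallyIntegrable g)
    (hF : ∀ φ : (ι → ℝ) → ℝ, ContDiff ℝ ∞ φ → HasCompactSupport φ →
      ∫ x, g x * Lp H φ x = 0)
    (hρ : ContDiff ℝ ∞ ρ) (hc : HasCompactSupport ρ) (hev : ∀ x, ρ (-x) = ρ x)
    (hψ : ContDiff ℝ 1 ψ) (cψ : HasCompactSupport ψ) :
    ∑ i, ∫ x, (pd i (cv g ρ) x + cv (fun t => g t * pd i H t) ρ x) * pd i ψ x = 0 := by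
  have hρ1 : ContDiff ℝ 1 ρ := hρ.of_le (by exact_mod_cast le_top)
  have hgb : ∀ i, LocallyIntegrable fun t => g t * pd i H t := fun i =>
    hg.mul_continuous (continuous_pd hH i)
  have hψl : LocallyIntegrable ψ := hψ.continuous.locallyIntegrable
  have hρl : LocallyIntegrable ρ := hρ.continuous.locallyIntegrable
  have hpl : ∀ i, LocallyIntegrable (pd i ψ) := fun i =>
    (continuous_pd hψ i).locallyIntegrable
  -- derivatives of `φ = ψ ⋆ ρ`
  have d1 : ∀ i, pd i (cv ψ ρ) = cv (pd i ψ) ρ := by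
    intro i
    rw [cv_comm ψ ρ]
    funext x
    rw [pd_cv hρl hψ cψ i x, cv_comm]
  have d2 : ∀ i x, pd i (pd i (cv ψ ρ)) x = cv (pd i ψ) (pd i ρ) x := by
    intro i x
    rw [d1, pd_cv (hpl i) hρ1 hc]
  have h := hF (cv ψ ρ) (contDiff_cv hψl hρ hc) (hcs_cv cψ hc)
  have pev : ∀ i x, pd i ρ (-x) = - pd i ρ x := by
    intro i x
    have h1 : (fun y => ρ (-y)) = ρ := funext hev
    have h2 : pd i (fun y => ρ (-y)) x = - pd i ρ (-x) := by
      unfold pd
      have h3 : HasFDerivAt (fun y : ι → ℝ => ρ (-y))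
          ((fderiv ℝ ρ (-x)).comp (-(ContinuousLinearMap.id ℝ (ι → ℝ)))) x :=
        ((hρ1.differentiable (by norm_num) (-x)).hasFDerivAt).comp x (hasFDerivAt_id x).neg
      rw [h3.fderiv]
      simp
    rw [h1] at h2
    linarith
  have e : ∫ x, g x * Lp H (cv ψ ρ) x = ∑ i, ((∫ x, g x * cv (pd i ψ) (pd i ρ) x) -
      ∫ x, (g x * pd i H x) * cv (pd i ψ) ρ x) := by
    have i1 : ∀ i, Integrable fun x => g x * cv (pd i ψ) (pd i ρ) x := fun i =>
      int_lc hg (continuous_cv (hpl i) (continuous_pd hρ1 i) (hcs_pd hc i))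
        (hcs_cv (hcs_pd cψ i) (hcs_pd hc i))
    have i2 : ∀ i, Integrable fun x => (g x * pd i H x) * cv (pd i ψ) ρ x := fun i =>
      int_lc (hgb i) (continuous_cv (hpl i) hρ.continuous hc)
        (hcs_cv (hcs_pd cψ i) hc)
    have e1 : ∀ i, (∫ x, g x * cv (pd i ψ) (pd i ρ) x) -
      ∫ x, (g x * pd i H x) * cv (pd i ψ) ρ x =
      ∫ x, (g x * cv (pd i ψ) (pd i ρ) x - (g x * pd i H x) * cv (pd i ψ) ρ x) := fun i =>
      (integral_sub (i1 i) (i2 i)).symm
    have i3 : ∀ i, Integrable (fun x => g x * cv (pd i ψ) (pd i ρ) x -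
      (g x * pd i H x) * cv (pd i ψ) ρ x) volume := fun i => (i1 i).sub (i2 i)
    simp_rw [e1]
    rw [← integral_finsetSum _ fun i _ => i3 i]
    refine integral_congr_ae (ae_of_all _ fun x => ?_)
    show g x * Lp H (cv ψ ρ) x = _
    unfold Lp
    rw [Finset.mul_sum]
    refine Finset.sum_congr rfl fun i _ => ?_
    rw [d2, d1]; ring
  rw [e] at h
  have key : ∀ i, (∫ x, g x * cv (pd i ψ) (pd i ρ) x) -
      ∫ x, (g x * pd i H x) * cv (pd i ψ) ρ x =
      - ∫ x, (pd i (cv g ρ) x + cv (fun t => g t * pd i H t) ρ x) * pd i ψ x := by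
    intro i
    rw [adj hg (continuous_pd hψ i) (hcs_pd cψ i) (continuous_pd hρ1 i) (hcs_pd hc i),
      adj (hgb i) (continuous_pd hψ i) (hcs_pd cψ i) hρ.continuous hc]
    have e1 : (fun s => ρ (-s)) = ρ := funext hev
    have e2 : cv g (fun s => pd i ρ (-s)) = fun x => - pd i (cv g ρ) x := by
      funext x
      have : (fun s => pd i ρ (-s)) = fun s => - pd i ρ s := funext (pev i)
      rw [this, pd_cv hg hρ1 hc]
      unfold cv
      rw [← integral_neg]
      exact integral_congr_ae (ae_of_all _ fun t => by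
        show g t * -pd i ρ (x - t) = -(g t * pd i ρ (x - t))
        ring)
    rw [e1, e2]
    have c1 : Continuous (pd i (cv g ρ)) :=
      continuous_pd (contDiff_cv (n := 1) hg hρ1 hc) i
    have i1 : Integrable fun x => pd i ψ x * - pd i (cv g ρ) x :=
      int_cc (continuous_pd hψ i) c1.neg (hcs_pd cψ i)
    have i2 : Integrable fun x => pd i ψ x * cv (fun t => g t * pd i H t) ρ x :=
      int_cc (continuous_pd hψ i) (continuous_cv (hgb i) hρ.continuous hc) (hcs_pd cψ i)
    rw [← integral_sub i1 i2, ← integral_neg]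
    refine integral_congr_ae (ae_of_all _ fun x => ?_)
    show pd i ψ x * - pd i (cv g ρ) x - pd i ψ x * cv (fun t => g t * pd i H t) ρ x =
      -((pd i (cv g ρ) x + cv (fun t => g t * pd i H t) ρ x) * pd i ψ x)
    ring
  simp_rw [key] at h
  rw [Finset.sum_neg_distrib] at h
  linarith

end

end Crest.Agent.R144.Hs865
end

-- ▼ part R144/Hs3_865
section

/-!
# R144, static functional inequalities (helper865), file 6: the Caccioppoli estimate
-/

set_option autoImplicit false
set_option linter.unusedSectionVars false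

open MeasureTheory Set Filter Topology
open scoped ENNReal NNReal ContDiff Convolution

namespace Crest.Agent.R144.Hs865

noncomputable section

variable {ι : Type*} [Fintype ι] [DecidableEq ι]

variable {g ρ θ κ ψ χ H : (ι → ℝ) → ℝ}

theorem int_sq_eq (hg2 : LocallyIntegrable fun t => g t ^ 2)
    (hρ : Continuous ρ) (hc : HasCompactSupport ρ) (hev : ∀ x, ρ (-x) = ρ x)
    (hκ : Continuous κ) (cκ : HasCompactSupport κ) :
    ∫ x, κ x * cv (fun t => g t ^ 2) ρ x = ∫ x, g x ^ 2 * cv κ ρ x := by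
  rw [adj (g := fun t => g t ^ 2) hg2 hκ cκ hρ hc]
  have : (fun s => ρ (-s)) = ρ := funext hev
  rw [this]

theorem cacc_pt {w e D r a c F : ℝ} (hwe : w * e = 1) (hw : 0 ≤ w) (he : 0 ≤ e) :
    1 / 2 * (w * a ^ 2 * D ^ 2) - 5 * (w * c ^ 2 * F ^ 2) - 2 * (a ^ 2 * r ^ 2 * e) ≤
      (w * D + r) * (a ^ 2 * D + 2 * a * c * F) := by
  have h1 : (w * D + r) * (a ^ 2 * D + 2 * a * c * F) -
      (1 / 2 * (w * a ^ 2 * D ^ 2) - 5 * (w * c ^ 2 * F ^ 2) - 2 * (a ^ 2 * r ^ 2 * e)) =
      w * (1 / 2 * a * D + 2 * c * F) ^ 2 + e * (1 / 2 * w * a * D + a * r) ^ 2 +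
        e * (w * c * F + a * r) ^ 2 := by
    linear_combination (-(1 / 4 * w * a ^ 2 * D ^ 2) - a ^ 2 * D * r - w * c ^ 2 * F ^ 2 -
      2 * c * F * a * r) * hwe
  have h2 : 0 ≤ w * (1 / 2 * a * D + 2 * c * F) ^ 2 := mul_nonneg hw (sq_nonneg _)
  have h3 : 0 ≤ e * (1 / 2 * w * a * D + a * r) ^ 2 := mul_nonneg he (sq_nonneg _)
  have h4 : 0 ≤ e * (w * c * F + a * r) ^ 2 := mul_nonneg he (sq_nonneg _)
  linarith

theorem r_sq (hH : ContDiff ℝ 1 H) (hg : LocallyIntegrable g)
    (hg2 : LocallyIntegrable fun t => g t ^ 2) {C : ℝ} (i : ι)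
    (hL : ∀ x y, |pd i H x - pd i H y| ≤ C * ‖x - y‖)
    (hρ : Continuous ρ) (hc : HasCompactSupport ρ) (h0 : ∀ x, 0 ≤ ρ x) (h1 : ∫ x, ρ x = 1)
    {r : ℝ} (hr : ∀ x, ρ x ≠ 0 → ‖x‖ ≤ r) (hC : 0 ≤ C) (x : ι → ℝ) :
    (cv (fun t => g t * pd i H t) ρ x - pd i H x * cv g ρ x) ^ 2 ≤
      (C * r) ^ 2 * cv (fun t => g t ^ 2) ρ x := by
  have hgb : LocallyIntegrable fun t => g t * pd i H t := hg.mul_continuous (continuous_pd hH i)
  have cb : Continuous fun t => pd i H t - pd i H x := (continuous_pd hH i).sub continuous_const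
  have hgd : LocallyIntegrable fun t => g t * (pd i H t - pd i H x) := hg.mul_continuous cb
  have hgd2 : LocallyIntegrable fun t => (g t * (pd i H t - pd i H x)) ^ 2 := by
    have : (fun t => (g t * (pd i H t - pd i H x)) ^ 2) =
        fun t => g t ^ 2 * (pd i H t - pd i H x) ^ 2 := by
      funext t; ring
    rw [this]
    exact hg2.mul_continuous (cb.pow 2)
  have e1 : cv (fun t => g t * pd i H t) ρ x - pd i H x * cv g ρ x =
      cv (fun t => g t * (pd i H t - pd i H x)) ρ x := by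
    unfold cv
    rw [← integral_const_mul, ← integral_sub (int_lc' hgb hρ hc x)
      ((int_lc' hg hρ hc x).const_mul _)]
    refine integral_congr_ae (ae_of_all _ fun t => ?_)
    show g t * pd i H t * ρ (x - t) - pd i H x * (g t * ρ (x - t)) =
      g t * (pd i H t - pd i H x) * ρ (x - t)
    ring
  rw [e1]
  refine (jensen hgd hgd2 hρ hc h0 h1 x).trans ?_
  have e2 : (C * r) ^ 2 * cv (fun t => g t ^ 2) ρ x =
      cv (fun t => g t ^ 2 * (C * r) ^ 2) ρ x := by
    unfold cv
    rw [← integral_const_mul]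
    refine integral_congr_ae (ae_of_all _ fun t => ?_)
    show (C * r) ^ 2 * (g t ^ 2 * ρ (x - t)) = g t ^ 2 * (C * r) ^ 2 * ρ (x - t)
    ring
  rw [e2]
  refine cv_mono hρ hc hgd2 (hg2.mul_continuous continuous_const) x fun t => ?_
  by_cases ht : ρ (x - t) = 0
  · rw [ht, mul_zero, mul_zero]
  · refine mul_le_mul_of_nonneg_right ?_ (h0 _)
    rw [mul_pow]
    refine mul_le_mul_of_nonneg_left ?_ (sq_nonneg _)
    have h2 : |pd i H t - pd i H x| ≤ C * r := by
      refine (hL t x).trans (mul_le_mul_of_nonneg_left ?_ hC)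
      rw [norm_sub_rev]
      exact hr _ ht
    rw [← sq_abs]
    exact pow_le_pow_left₀ (abs_nonneg _) h2 2

/-- **Caccioppoli** for the mollified weak solution -/
theorem cacc (hH : ContDiff ℝ 1 H) (hg : LocallyIntegrable g)
    (hg2 : LocallyIntegrable fun t => g t ^ 2) {C : ℝ} (hC : 0 ≤ C)
    (hL : ∀ i x y, |pd i H x - pd i H y| ≤ C * ‖x - y‖)
    (hF : ∀ φ : (ι → ℝ) → ℝ, ContDiff ℝ ∞ φ → HasCompactSupport φ →
      ∫ x, g x * Lp H φ x = 0)
    (hρ : ContDiff ℝ ∞ ρ) (hc : HasCompactSupport ρ) (hev : ∀ x, ρ (-x) = ρ x)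
    (h0 : ∀ x, 0 ≤ ρ x) (h1 : ∫ x, ρ x = 1)
    {r : ℝ} (hr : ∀ x, ρ x ≠ 0 → ‖x‖ ≤ r)
    (hχ : ContDiff ℝ 1 χ) (cχ : HasCompactSupport χ) :
    ∑ i, ∫ x, Real.exp (-H x) * χ x ^ 2 * pd i (fun y => cv g ρ y * Real.exp (H y)) x ^ 2 ≤
      10 * (∑ i, ∫ x, g x ^ 2 * cv (fun y => Real.exp (H y) * pd i χ y ^ 2) ρ x) +
      4 * Fintype.card ι * (C * r) ^ 2 *
        (∫ x, g x ^ 2 * cv (fun y => Real.exp (H y) * χ y ^ 2) ρ x) := by
  have hρc : Continuous ρ := hρ.continuous
  have hρ1 : ContDiff ℝ 1 ρ := hρ.of_le (by exact_mod_cast le_top)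
  have hG : ContDiff ℝ 1 (cv g ρ) := contDiff_cv (n := 1) hg hρ1 hc
  have hEp : ContDiff ℝ 1 fun x => Real.exp (H x) := Real.contDiff_exp.comp hH
  have hEn : ContDiff ℝ 1 fun x => Real.exp (-H x) := contDiff_expneg hH
  set F : (ι → ℝ) → ℝ := fun y => cv g ρ y * Real.exp (H y) with hFdef
  have hFc : ContDiff ℝ 1 F := hG.mul hEp
  have hgb : ∀ i, LocallyIntegrable fun t => g t * pd i H t := fun i =>
    hg.mul_continuous (continuous_pd hH i)
  set R : ι → (ι → ℝ) → ℝ := fun i x =>
    cv (fun t => g t * pd i H t) ρ x - pd i H x * cv g ρ x with hR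
  have cR : ∀ i, Continuous (R i) := fun i =>
    (continuous_cv (hgb i) hρc hc).sub ((continuous_pd hH i).mul hG.continuous)
  have dH : ∀ x, DifferentiableAt ℝ H x := fun x => hH.differentiable (by norm_num) x
  have dG : ∀ x, DifferentiableAt ℝ (cv g ρ) x := fun x => hG.differentiable (by norm_num) x
  have dEp : ∀ x, DifferentiableAt ℝ (fun x => Real.exp (H x)) x :=
    fun x => hEp.differentiable (by norm_num) x
  have dχ : ∀ x, DifferentiableAt ℝ χ x := fun x => hχ.differentiable (by norm_num) x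
  have dF : ∀ x, DifferentiableAt ℝ F x := fun x => hFc.differentiable (by norm_num) x
  have hwe : ∀ x, Real.exp (-H x) * Real.exp (H x) = 1 := fun x => by
    rw [← Real.exp_add]; simp
  -- derivative of `F`
  have e1 : ∀ i x, pd i (cv g ρ) x + cv (fun t => g t * pd i H t) ρ x =
      Real.exp (-H x) * pd i F x + R i x := by
    intro i x
    have h2 : pd i F x = cv g ρ x * (Real.exp (H x) * pd i H x) +
        pd i (cv g ρ) x * Real.exp (H x) := by
      rw [hFdef, pd_mul (dG x) (dEp x), pd_exp (dH x)]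
    rw [h2, hR]
    show _ = Real.exp (-H x) * (cv g ρ x * (Real.exp (H x) * pd i H x) +
      pd i (cv g ρ) x * Real.exp (H x)) +
      (cv (fun t => g t * pd i H t) ρ x - pd i H x * cv g ρ x)
    linear_combination (-(cv g ρ x * pd i H x) - pd i (cv g ρ) x) * hwe x
  -- test function
  set ψ : (ι → ℝ) → ℝ := fun x => χ x * χ x * F x with hψdef
  have hψ : ContDiff ℝ 1 ψ := (hχ.mul hχ).mul hFc
  have cψ : HasCompactSupport ψ := cχ.mul_right.mul_right
  have e2 : ∀ i x, pd i ψ x = χ x ^ 2 * pd i F x + 2 * χ x * pd i χ x * F x := by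
    intro i x
    rw [hψdef, pd_mul (f := fun y => χ y * χ y) (g := F) ((dχ x).fun_mul (dχ x)) (dF x),
      pd_mul (dχ x) (dχ x)]
    ring
  have hw := weak_eq hH hg hF hρ hc hev hψ cψ
  -- integrability
  have I1 : ∀ i, Integrable (fun x => Real.exp (-H x) * χ x ^ 2 * pd i F x ^ 2) volume := by
    intro i
    have c1 : Continuous fun x => Real.exp (-H x) * χ x ^ 2 * pd i F x ^ 2 :=
      (hEn.continuous.mul (hχ.continuous.pow 2)).mul ((continuous_pd hFc i).pow 2)
    refine c1.integrable_of_hasCompactSupport ?_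
    have h2 : HasCompactSupport fun x => χ x * (Real.exp (-H x) * χ x * pd i F x ^ 2) :=
      cχ.mul_right
    have h3 : (fun x => Real.exp (-H x) * χ x ^ 2 * pd i F x ^ 2) =
        fun x => χ x * (Real.exp (-H x) * χ x * pd i F x ^ 2) := by funext x; ring
    rw [h3]; exact h2
  have I2 : ∀ i, Integrable (fun x => Real.exp (-H x) * pd i χ x ^ 2 * F x ^ 2) volume := by
    intro i
    have c1 : Continuous fun x => Real.exp (-H x) * pd i χ x ^ 2 * F x ^ 2 :=
      (hEn.continuous.mul ((continuous_pd hχ i).pow 2)).mul (hFc.continuous.pow 2)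
    refine c1.integrable_of_hasCompactSupport ?_
    have h2 : HasCompactSupport fun x => pd i χ x * (Real.exp (-H x) * pd i χ x * F x ^ 2) :=
      (hcs_pd cχ i).mul_right
    have h3 : (fun x => Real.exp (-H x) * pd i χ x ^ 2 * F x ^ 2) =
        fun x => pd i χ x * (Real.exp (-H x) * pd i χ x * F x ^ 2) := by funext x; ring
    rw [h3]; exact h2
  have I3 : ∀ i, Integrable (fun x => χ x ^ 2 * R i x ^ 2 * Real.exp (H x)) volume := by
    intro i
    have c1 : Continuous fun x => χ x ^ 2 * R i x ^ 2 * Real.exp (H x) :=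
      ((hχ.continuous.pow 2).mul ((cR i).pow 2)).mul hEp.continuous
    refine c1.integrable_of_hasCompactSupport ?_
    have h2 : HasCompactSupport fun x => χ x * (χ x * R i x ^ 2 * Real.exp (H x)) :=
      cχ.mul_right
    have h3 : (fun x => χ x ^ 2 * R i x ^ 2 * Real.exp (H x)) =
        fun x => χ x * (χ x * R i x ^ 2 * Real.exp (H x)) := by funext x; ring
    rw [h3]; exact h2
  have I4 : ∀ i, Integrable (fun x => (pd i (cv g ρ) x +
      cv (fun t => g t * pd i H t) ρ x) * pd i ψ x) volume := by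
    intro i
    exact (((continuous_pd hG i).add (continuous_cv (hgb i) hρc hc)).mul
      (continuous_pd hψ i)).integrable_of_hasCompactSupport (hcs_pd cψ i).mul_left
  -- lower bound
  have low : ∀ i, 1 / 2 * (∫ x, Real.exp (-H x) * χ x ^ 2 * pd i F x ^ 2) -
      5 * (∫ x, Real.exp (-H x) * pd i χ x ^ 2 * F x ^ 2) -
      2 * (∫ x, χ x ^ 2 * R i x ^ 2 * Real.exp (H x)) ≤
      ∫ x, (pd i (cv g ρ) x + cv (fun t => g t * pd i H t) ρ x) * pd i ψ x := by
    intro i
    have I5 : Integrable (fun x => 1 / 2 * (Real.exp (-H x) * χ x ^ 2 * pd i F x ^ 2) -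
        5 * (Real.exp (-H x) * pd i χ x ^ 2 * F x ^ 2)) volume :=
      ((I1 i).const_mul _).sub ((I2 i).const_mul _)
    rw [← integral_const_mul, ← integral_const_mul, ← integral_const_mul,
      ← integral_sub ((I1 i).const_mul _) ((I2 i).const_mul _),
      ← integral_sub I5 ((I3 i).const_mul _)]
    refine integral_mono (I5.sub ((I3 i).const_mul _)) (I4 i) fun x => ?_
    show 1 / 2 * (Real.exp (-H x) * χ x ^ 2 * pd i F x ^ 2) -
        5 * (Real.exp (-H x) * pd i χ x ^ 2 * F x ^ 2) -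
        2 * (χ x ^ 2 * R i x ^ 2 * Real.exp (H x)) ≤
      (pd i (cv g ρ) x + cv (fun t => g t * pd i H t) ρ x) * pd i ψ x
    rw [e1, e2]
    exact cacc_pt (hwe x) (Real.exp_pos _).le (Real.exp_pos _).le
  have hsum : ∑ i, (1 / 2 * (∫ x, Real.exp (-H x) * χ x ^ 2 * pd i F x ^ 2) -
      5 * (∫ x, Real.exp (-H x) * pd i χ x ^ 2 * F x ^ 2) -
      2 * (∫ x, χ x ^ 2 * R i x ^ 2 * Real.exp (H x))) ≤ 0 := by
    rw [← hw]
    exact Finset.sum_le_sum fun i _ => low i
  rw [Finset.sum_sub_distrib, Finset.sum_sub_distrib, ← Finset.mul_sum, ← Finset.mul_sum,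
    ← Finset.mul_sum] at hsum
  -- the two error terms
  have b1 : ∀ i, ∫ x, Real.exp (-H x) * pd i χ x ^ 2 * F x ^ 2 ≤
      ∫ x, g x ^ 2 * cv (fun y => Real.exp (H y) * pd i χ y ^ 2) ρ x := by
    intro i
    have cκ : Continuous fun y => Real.exp (H y) * pd i χ y ^ 2 :=
      hEp.continuous.mul ((continuous_pd hχ i).pow 2)
    have sκ : HasCompactSupport fun y => Real.exp (H y) * pd i χ y ^ 2 := by
      have h2 : HasCompactSupport fun x => pd i χ x * (Real.exp (H x) * pd i χ x) :=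
        (hcs_pd cχ i).mul_right
      have h3 : (fun x => Real.exp (H x) * pd i χ x ^ 2) =
          fun x => pd i χ x * (Real.exp (H x) * pd i χ x) := by funext x; ring
      rw [h3]; exact h2
    rw [← int_sq_eq hg2 hρc hc hev cκ sκ]
    refine integral_mono (I2 i) (int_cc cκ (continuous_cv hg2 hρc hc) sκ) fun x => ?_
    show Real.exp (-H x) * pd i χ x ^ 2 * F x ^ 2 ≤
      Real.exp (H x) * pd i χ x ^ 2 * cv (fun t => g t ^ 2) ρ x
    have h2 : Real.exp (-H x) * pd i χ x ^ 2 * F x ^ 2 =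
        Real.exp (H x) * pd i χ x ^ 2 * cv g ρ x ^ 2 := by
      show Real.exp (-H x) * pd i χ x ^ 2 * (cv g ρ x * Real.exp (H x)) ^ 2 = _
      linear_combination (Real.exp (H x) * pd i χ x ^ 2 * cv g ρ x ^ 2) * hwe x
    rw [h2]
    exact mul_le_mul_of_nonneg_left (jensen hg hg2 hρc hc h0 h1 x)
      (mul_nonneg (Real.exp_pos _).le (sq_nonneg _))
  have b2 : ∀ i, ∫ x, χ x ^ 2 * R i x ^ 2 * Real.exp (H x) ≤
      (C * r) ^ 2 * ∫ x, g x ^ 2 * cv (fun y => Real.exp (H y) * χ y ^ 2) ρ x := by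
    intro i
    have cκ : Continuous fun y => Real.exp (H y) * χ y ^ 2 :=
      hEp.continuous.mul (hχ.continuous.pow 2)
    have sκ : HasCompactSupport fun y => Real.exp (H y) * χ y ^ 2 := by
      have h2 : HasCompactSupport fun x => χ x * (Real.exp (H x) * χ x) := cχ.mul_right
      have h3 : (fun x => Real.exp (H x) * χ x ^ 2) =
          fun x => χ x * (Real.exp (H x) * χ x) := by funext x; ring
      rw [h3]; exact h2
    rw [← int_sq_eq hg2 hρc hc hev cκ sκ, ← integral_const_mul]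
    refine integral_mono (I3 i) ((int_cc cκ (continuous_cv hg2 hρc hc) sκ).const_mul _)
      fun x => ?_
    show χ x ^ 2 * R i x ^ 2 * Real.exp (H x) ≤
      (C * r) ^ 2 * (Real.exp (H x) * χ x ^ 2 * cv (fun t => g t ^ 2) ρ x)
    have h2 := r_sq hH hg hg2 i (hL i) hρc hc h0 h1 hr hC x
    have h3 : 0 ≤ Real.exp (H x) * χ x ^ 2 := mul_nonneg (Real.exp_pos _).le (sq_nonneg _)
    have h4 := mul_le_mul_of_nonneg_left h2 h3
    calc χ x ^ 2 * R i x ^ 2 * Real.exp (H x) =
        Real.exp (H x) * χ x ^ 2 * (cv (fun t => g t * pd i H t) ρ x -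
          pd i H x * cv g ρ x) ^ 2 := by rw [hR]; ring
      _ ≤ _ := h4
      _ = _ := by ring
  have s1 := Finset.sum_le_sum fun i (_ : i ∈ Finset.univ) => b1 i
  have s2 : ∑ i, ∫ x, χ x ^ 2 * R i x ^ 2 * Real.exp (H x) ≤
      Fintype.card ι * ((C * r) ^ 2 *
        ∫ x, g x ^ 2 * cv (fun y => Real.exp (H y) * χ y ^ 2) ρ x) := by
    have := Finset.sum_le_sum fun i (_ : i ∈ Finset.univ) => b2 i
    rwa [Finset.sum_const, Finset.card_univ, nsmul_eq_mul] at this
  linarith

end

end Crest.Agent.R144.Hs865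
end

-- ▼ part R144/Hs4_865

/-!
# R144, static functional inequalities (helper865), file 7: Liouville theorem in `L²(e^{-H})`
-/

set_option autoImplicit false
set_option linter.unusedSectionVars false

open MeasureTheory Set Filter Topology
open scoped ENNReal NNReal ContDiff Convolution Pointwise

namespace Crest.Agent.R144.Hs865

noncomputable section

variable {ι : Type*} [Fintype ι] [DecidableEq ι]

variable {g ρ θ κ ψ χ H : (ι → ℝ) → ℝ}

/-- standard bumps -/
def bmp (ι : Type*) [Fintype ι] (n : ℕ) : ContDiffBump (0 : ι → ℝ) where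
  rIn := 1 / (2 * (n + 1))
  rOut := 1 / (n + 1)
  rIn_pos := by positivity
  rIn_lt_rOut := by
    have h : (0 : ℝ) < n + 1 := by positivity
    exact one_div_lt_one_div_of_lt h (by linarith)

/-- standard mollifiers -/
def rho (n : ℕ) : (ι → ℝ) → ℝ := (bmp ι n).normed volume

theorem contDiff_rho (n : ℕ) : ContDiff ℝ ∞ (rho (ι := ι) n) := (bmp ι n).contDiff_normed

theorem continuous_rho (n : ℕ) : Continuous (rho (ι := ι) n) := (contDiff_rho n).continuous

theorem hcs_rho (n : ℕ) : HasCompactSupport (rho (ι := ι) n) := (bmp ι n).hasCompactSupport_normed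

theorem rho_nonneg (n : ℕ) (x : ι → ℝ) : 0 ≤ rho n x := (bmp ι n).nonneg_normed x

theorem rho_int (n : ℕ) : ∫ x, rho (ι := ι) n x = 1 := (bmp ι n).integral_normed

theorem rho_even (n : ℕ) (x : ι → ℝ) : rho n (-x) = rho n x := (bmp ι n).normed_neg x

theorem rho_supp (n : ℕ) (x : ι → ℝ) (h : rho n x ≠ 0) : ‖x‖ ≤ 1 / (n + 1) := by
  have h1 : x ∈ Function.support ((bmp ι n).normed volume) := h
  rw [(bmp ι n).support_normed_eq, mem_ball_zero_iff] at h1
  exact h1.le

theorem tendsto_rOut : Tendsto (fun n => (bmp ι n).rOut) atTop (𝓝 0) :=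
  tendsto_one_div_add_atTop_nhds_zero_nat

theorem cv_rho_eq (g : (ι → ℝ) → ℝ) (n : ℕ) :
    cv g (rho n) = ((bmp ι n).normed volume ⋆[ContinuousLinearMap.lsmul ℝ ℝ, volume] g) := by
  rw [cv_comm]
  rfl

theorem cv_rho_tendsto (hκ : Continuous κ) (x : ι → ℝ) :
    Tendsto (fun n => cv κ (rho n) x) atTop (𝓝 (κ x)) := by
  simp_rw [cv_rho_eq]
  exact ContDiffBump.convolution_tendsto_right_of_continuous tendsto_rOut hκ x

theorem cv_rho_ae (hg : LocallyIntegrable g) :
    ∀ᵐ x, Tendsto (fun n => cv g (rho n) x) atTop (𝓝 (g x)) := by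
  simp_rw [cv_rho_eq]
  refine ContDiffBump.ae_convolution_tendsto_right_of_locallyIntegrable (K := 2) tendsto_rOut
    (Eventually.of_forall fun n => ?_) hg
  show (1 : ℝ) / (n + 1) ≤ 2 * (1 / (2 * (n + 1)))
  have h : (0 : ℝ) < n + 1 := by positivity
  rw [le_iff_eq_or_lt]
  left
  field_simp

theorem cv_rho_bdd {M : ℝ} (hM : ∀ x, |κ x| ≤ M) (n : ℕ) (x : ι → ℝ) :
    |cv κ (rho n) x| ≤ M := by
  have i1 : Integrable fun t => rho n (x - t) :=
    ((continuous_rho n).comp (continuous_const.sub continuous_id)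
      ).integrable_of_hasCompactSupport ((hcs_rho n).comp_homeomorph (Homeomorph.subLeft x))
  have h1 : |cv κ (rho n) x| ≤ ∫ t, |κ t * rho n (x - t)| := by
    unfold cv
    exact abs_integral_le_integral_abs
  have h2 : ∫ t, |κ t * rho n (x - t)| ≤ ∫ t, M * rho n (x - t) := by
    refine integral_mono_of_nonneg (ae_of_all _ fun t => abs_nonneg _) (i1.const_mul _)
      (ae_of_all _ fun t => ?_)
    show |κ t * rho n (x - t)| ≤ M * rho n (x - t)
    rw [abs_mul, abs_of_nonneg (rho_nonneg n _)]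
    exact mul_le_mul_of_nonneg_right (hM t) (rho_nonneg n _)
  have h3 : ∫ t, M * rho n (x - t) = M := by
    rw [integral_const_mul, int_sub_left, rho_int, mul_one]
  linarith

theorem cv_rho_zero {x : ι → ℝ} {n : ℕ}
    (hx : x ∉ tsupport κ + Metric.closedBall (0 : ι → ℝ) 1) : cv κ (rho n) x = 0 := by
  have h0 : ∀ t, κ t * rho n (x - t) = 0 := by
    intro t
    by_cases h1 : κ t = 0
    · rw [h1, zero_mul]
    · by_cases h2 : rho n (x - t) = 0
      · rw [h2, mul_zero]
      · exfalso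
        refine hx ?_
        have h3 : x = t + (x - t) := by abel
        rw [h3]
        refine Set.add_mem_add (subset_tsupport _ h1) ?_
        rw [mem_closedBall_zero_iff]
        refine (rho_supp n _ h2).trans ?_
        rw [div_le_one (by positivity)]
        have : (0 : ℝ) ≤ n := Nat.cast_nonneg n
        linarith
  unfold cv
  simp_rw [h0]
  simp

theorem tendsto_kernel (hg2 : LocallyIntegrable fun t => g t ^ 2) (hκ : Continuous κ)
    (cκ : HasCompactSupport κ) :
    Tendsto (fun n => ∫ x, g x ^ 2 * cv κ (rho n) x) atTop (𝓝 (∫ x, g x ^ 2 * κ x)) := by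
  obtain ⟨M, hM⟩ := hκ.bounded_above_of_compact_support cκ
  set K : Set (ι → ℝ) := tsupport κ + Metric.closedBall (0 : ι → ℝ) 1 with hK
  have cK : IsCompact K := cκ.isCompact.add (isCompact_closedBall _ _)
  have iK : Integrable (K.indicator fun t => g t ^ 2) :=
    (integrable_indicator_iff cK.measurableSet).2 (hg2.integrableOn_isCompact cK)
  refine tendsto_integral_of_dominated_convergence
    (fun x => M * K.indicator (fun t => g t ^ 2) x) ?_ (iK.const_mul M) ?_ ?_
  · intro n
    exact (int_lc hg2 (continuous_cv hκ.locallyIntegrable (continuous_rho n) (hcs_rho n))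
      (hcs_cv cκ (hcs_rho n))).aestronglyMeasurable
  · intro n
    refine ae_of_all _ fun x => ?_
    by_cases hx : x ∈ K
    · rw [indicator_of_mem hx, Real.norm_eq_abs, abs_mul, abs_of_nonneg (sq_nonneg (g x)),
        mul_comm]
      exact mul_le_mul_of_nonneg_right (cv_rho_bdd (fun x => hM x) n x) (sq_nonneg _)
    · rw [indicator_of_notMem hx, cv_rho_zero hx, mul_zero, mul_zero, norm_zero]
  · refine ae_of_all _ fun x => ?_
    exact (cv_rho_tendsto hκ x).const_mul _

/-- the cutoff -/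
def cut (ι : Type*) [Fintype ι] : ContDiffBump (0 : ι → ℝ) where
  rIn := 1
  rOut := 2
  rIn_pos := by norm_num
  rIn_lt_rOut := by norm_num

/-- the cutoff at scale `R` -/
def cutR (R : ℝ) (x : ι → ℝ) : ℝ := cut ι (R⁻¹ • x)

theorem contDiff_cutR (R : ℝ) : ContDiff ℝ ∞ (cutR (ι := ι) R) :=
  (cut ι).contDiff.comp (contDiff_const_smul _)

theorem hcs_cutR {R : ℝ} (hR : 0 < R) : HasCompactSupport (cutR (ι := ι) R) := by
  have h : HasCompactSupport (cut ι : (ι → ℝ) → ℝ) := (cut ι).hasCompactSupport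
  exact h.comp_smul (inv_ne_zero hR.ne')

theorem cutR_one {R : ℝ} (hR : 0 < R) {x : ι → ℝ} (hx : ‖x‖ ≤ R) : cutR R x = 1 := by
  unfold cutR
  refine (cut ι).one_of_mem_closedBall ?_
  rw [mem_closedBall_zero_iff, norm_smul, norm_inv, Real.norm_eq_abs, abs_of_pos hR]
  show R⁻¹ * ‖x‖ ≤ 1
  rw [inv_mul_le_iff₀ hR, mul_one]
  exact hx

theorem pd_cutR (R : ℝ) (i : ι) (x : ι → ℝ) :
    pd i (cutR R) x = R⁻¹ * pd i (cut ι) (R⁻¹ • x) := by
  have h1 : HasFDerivAt (cut ι : (ι → ℝ) → ℝ) (fderiv ℝ (cut ι) (R⁻¹ • x)) (R⁻¹ • x) :=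
    ((cut ι).contDiff (n := 1)).differentiable (by norm_num) _ |>.hasFDerivAt
  have h2 : HasFDerivAt (fun y : ι → ℝ => R⁻¹ • y) (R⁻¹ • ContinuousLinearMap.id ℝ (ι → ℝ)) x :=
    (R⁻¹ • ContinuousLinearMap.id ℝ (ι → ℝ)).hasFDerivAt
  have h3 := (h1.comp x h2).fderiv
  have h4 : cutR R = (cut ι : (ι → ℝ) → ℝ) ∘ fun y : ι → ℝ => R⁻¹ • y := rfl
  unfold pd
  rw [h4, h3]
  simp

theorem exists_pd_cut : ∃ M : ℝ, 0 ≤ M ∧ ∀ (i : ι) (x : ι → ℝ), pd i (cut ι) x ^ 2 ≤ M := by
  have h1 : ∀ i : ι, ∃ M : ℝ, ∀ x, ‖pd i (cut ι) x‖ ≤ M := fun i =>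
    (continuous_pd (cut ι).contDiff i).bounded_above_of_compact_support
      (hcs_pd (cut ι).hasCompactSupport i)
  choose M hM using h1
  refine ⟨∑ i, M i ^ 2, Finset.sum_nonneg fun i _ => sq_nonneg _, fun i x => ?_⟩
  have h2 : pd i (cut ι) x ^ 2 ≤ M i ^ 2 := by
    rw [← sq_abs, ← Real.norm_eq_abs]
    exact pow_le_pow_left₀ (norm_nonneg _) (hM i x) 2
  exact h2.trans (Finset.single_le_sum (f := fun i => M i ^ 2) (fun i _ => sq_nonneg _)
    (Finset.mem_univ i))

theorem grad_tendsto (hH : ContDiff ℝ 1 H) (hg : LocallyIntegrable g)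
    (hg2 : LocallyIntegrable fun t => g t ^ 2)
    (hg3 : Integrable fun t => g t ^ 2 * Real.exp (H t)) {C : ℝ} (hC : 0 ≤ C)
    (hL : ∀ i x y, |pd i H x - pd i H y| ≤ C * ‖x - y‖)
    (hF : ∀ φ : (ι → ℝ) → ℝ, ContDiff ℝ ∞ φ → HasCompactSupport φ →
      ∫ x, g x * Lp H φ x = 0) {R0 : ℝ} (hR0 : 0 < R0) :
    Tendsto (fun n => ∫ x in Metric.closedBall (0 : ι → ℝ) R0,
      ∑ i, pd i (fun y => cv g (rho n) y * Real.exp (H y)) x ^ 2) atTop (𝓝 0) := by
  obtain ⟨M1, hM1, hM⟩ := exists_pd_cut (ι := ι)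
  set M3 := ∫ t, g t ^ 2 * Real.exp (H t) with hM3
  have hM30 : 0 ≤ M3 := integral_nonneg fun t => mul_nonneg (sq_nonneg _) (Real.exp_pos _).le
  set B : Set (ι → ℝ) := Metric.closedBall (0 : ι → ℝ) R0 with hB
  have cB : IsCompact B := isCompact_closedBall _ _
  have mB : MeasurableSet B := cB.measurableSet
  have cE : Continuous fun x => Real.exp (-H x) := (contDiff_expneg hH).continuous
  obtain ⟨x0, -, hx0⟩ := cB.exists_isMinOn (Metric.nonempty_closedBall.2 hR0.le) cE.continuousOn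
  set c := Real.exp (-H x0) with hc
  have hc0 : 0 < c := Real.exp_pos _
  have hcB : ∀ x ∈ B, c ≤ Real.exp (-H x) := fun x hx => hx0 hx
  have hn0 : ∀ n, 0 ≤ ∫ x in B, ∑ i, pd i (fun y => cv g (rho n) y * Real.exp (H y)) x ^ 2 :=
    fun n => setIntegral_nonneg mB fun x _ => Finset.sum_nonneg fun i _ => sq_nonneg _
  have hEp : ContDiff ℝ 1 fun x => Real.exp (H x) := Real.contDiff_exp.comp hH
  have hFc : ∀ n, ContDiff ℝ 1 fun y => cv g (rho n) y * Real.exp (H y) := fun n =>
    (contDiff_cv (n := 1) hg ((contDiff_rho n).of_le (by exact_mod_cast le_top))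
      (hcs_rho n)).mul hEp
  rw [Metric.tendsto_nhds]
  intro ε hε
  -- choice of the scale
  set A := 10 * (Fintype.card ι * (M1 * M3)) with hA
  have hA0 : 0 ≤ A := by positivity
  set R := max (max 1 R0) (A / (c * ε) + 1) with hR
  have hR1 : 1 ≤ R := (le_max_left _ _).trans (le_max_left _ _)
  have hRR0 : R0 ≤ R := (le_max_right _ _).trans (le_max_left _ _)
  have hRA : A / (c * ε) < R := lt_of_lt_of_le (by linarith) (le_max_right _ _)
  have hRpos : 0 < R := by linarith
  have hlim : A / R ^ 2 < c * ε := by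
    have h1 : A < R * (c * ε) := (div_lt_iff₀ (by positivity)).1 hRA
    rw [div_lt_iff₀ (by positivity)]
    have h2 : R * (c * ε) ≤ R ^ 2 * (c * ε) := by
      refine mul_le_mul_of_nonneg_right ?_ (by positivity)
      nlinarith
    linarith
  set χ : (ι → ℝ) → ℝ := cutR R with hχ
  have hχ1 : ContDiff ℝ 1 χ := (contDiff_cutR R).of_le (by exact_mod_cast le_top)
  have cχ : HasCompactSupport χ := hcs_cutR hRpos
  -- kernels
  have cκ : ∀ i, Continuous fun y => Real.exp (H y) * pd i χ y ^ 2 := fun i =>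
    hEp.continuous.mul ((continuous_pd hχ1 i).pow 2)
  have sκ : ∀ i, HasCompactSupport fun y => Real.exp (H y) * pd i χ y ^ 2 := by
    intro i
    have h2 : HasCompactSupport fun x => pd i χ x * (Real.exp (H x) * pd i χ x) :=
      (hcs_pd cχ i).mul_right
    have h3 : (fun x => Real.exp (H x) * pd i χ x ^ 2) =
        fun x => pd i χ x * (Real.exp (H x) * pd i χ x) := by funext x; ring
    rw [h3]; exact h2
  have cκ' : Continuous fun y => Real.exp (H y) * χ y ^ 2 :=
    hEp.continuous.mul (hχ1.continuous.pow 2)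
  have sκ' : HasCompactSupport fun y => Real.exp (H y) * χ y ^ 2 := by
    have h2 : HasCompactSupport fun x => χ x * (Real.exp (H x) * χ x) := cχ.mul_right
    have h3 : (fun x => Real.exp (H x) * χ x ^ 2) =
        fun x => χ x * (Real.exp (H x) * χ x) := by funext x; ring
    rw [h3]; exact h2
  -- upper bound and its limit
  set U : ℕ → ℝ := fun n =>
    10 * (∑ i, ∫ x, g x ^ 2 * cv (fun y => Real.exp (H y) * pd i χ y ^ 2) (rho n) x) +
      4 * Fintype.card ι * (C * (1 / (n + 1))) ^ 2 *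
        (∫ x, g x ^ 2 * cv (fun y => Real.exp (H y) * χ y ^ 2) (rho n) x) with hU
  have hUlim : Tendsto U atTop (𝓝 (10 * (∑ i, ∫ x, g x ^ 2 *
      (Real.exp (H x) * pd i χ x ^ 2)) + 4 * Fintype.card ι * (C * 0) ^ 2 *
      (∫ x, g x ^ 2 * (Real.exp (H x) * χ x ^ 2)))) := by
    refine Tendsto.add ?_ ?_
    · refine Tendsto.const_mul _ ?_
      exact tendsto_finsetSum _ fun i _ => tendsto_kernel hg2 (cκ i) (sκ i)
    · refine Tendsto.mul ?_ (tendsto_kernel hg2 cκ' sκ')
      refine Tendsto.const_mul _ ?_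
      exact (tendsto_one_div_add_atTop_nhds_zero_nat.const_mul C).pow 2
  have hle : 10 * (∑ i, ∫ x, g x ^ 2 *
      (Real.exp (H x) * pd i χ x ^ 2)) + 4 * Fintype.card ι * (C * 0) ^ 2 *
      (∫ x, g x ^ 2 * (Real.exp (H x) * χ x ^ 2)) < c * ε := by
    refine lt_of_le_of_lt ?_ hlim
    have h1 : ∀ i, ∫ x, g x ^ 2 * (Real.exp (H x) * pd i χ x ^ 2) ≤ M1 / R ^ 2 * M3 := by
      intro i
      rw [hM3, ← integral_const_mul]
      refine integral_mono (int_lc hg2 (cκ i) (sκ i)) (hg3.const_mul _) fun x => ?_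
      show g x ^ 2 * (Real.exp (H x) * pd i χ x ^ 2) ≤
        M1 / R ^ 2 * (g x ^ 2 * Real.exp (H x))
      have h2 : pd i χ x ^ 2 ≤ M1 / R ^ 2 := by
        rw [hχ, pd_cutR, mul_pow, inv_pow, inv_mul_eq_div]
        exact div_le_div_of_nonneg_right (hM i _) (by positivity)
      calc g x ^ 2 * (Real.exp (H x) * pd i χ x ^ 2) =
          (g x ^ 2 * Real.exp (H x)) * pd i χ x ^ 2 := by ring
        _ ≤ (g x ^ 2 * Real.exp (H x)) * (M1 / R ^ 2) :=
            mul_le_mul_of_nonneg_left h2 (mul_nonneg (sq_nonneg _) (Real.exp_pos _).le)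
        _ = _ := by ring
    have h2 := Finset.sum_le_sum fun i (_ : i ∈ Finset.univ) => h1 i
    rw [Finset.sum_const, Finset.card_univ, nsmul_eq_mul] at h2
    have h3 : A / R ^ 2 = 10 * (Fintype.card ι * (M1 / R ^ 2 * M3)) := by
      rw [hA]; ring
    rw [h3]
    have h4 : 4 * Fintype.card ι * (C * 0) ^ 2 *
      (∫ x, g x ^ 2 * (Real.exp (H x) * χ x ^ 2)) = 0 := by ring
    rw [h4]
    linarith
  have hev := hUlim.eventually (eventually_lt_nhds hle)
  filter_upwards [hev] with n hn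
  rw [dist_zero_right, Real.norm_eq_abs, abs_of_nonneg (hn0 n)]
  have hcc := cacc hH hg hg2 hC hL hF (contDiff_rho n) (hcs_rho n) (rho_even n) (rho_nonneg n)
    (rho_int n) (r := 1 / (n + 1)) (rho_supp n) hχ1 cχ
  have hcc2 : ∑ i, ∫ x, Real.exp (-H x) * χ x ^ 2 *
      pd i (fun y => cv g (rho n) y * Real.exp (H y)) x ^ 2 < c * ε := lt_of_le_of_lt hcc hn
  have hlow : c * (∫ x in B, ∑ i, pd i (fun y => cv g (rho n) y * Real.exp (H y)) x ^ 2) ≤
      ∑ i, ∫ x, Real.exp (-H x) * χ x ^ 2 *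
      pd i (fun y => cv g (rho n) y * Real.exp (H y)) x ^ 2 := by
    have cD : ∀ i, Continuous (pd i fun y => cv g (rho n) y * Real.exp (H y)) := fun i =>
      continuous_pd (hFc n) i
    have i1 : ∀ i, IntegrableOn (fun x =>
        pd i (fun y => cv g (rho n) y * Real.exp (H y)) x ^ 2) B volume := fun i =>
      ((cD i).pow 2).continuousOn.integrableOn_compact cB
    rw [integral_finsetSum _ fun i _ => i1 i, Finset.mul_sum]
    refine Finset.sum_le_sum fun i _ => ?_
    rw [← integral_const_mul]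
    have i2 : Integrable (fun x => Real.exp (-H x) * χ x ^ 2 *
        pd i (fun y => cv g (rho n) y * Real.exp (H y)) x ^ 2) volume := by
      have c1 : Continuous fun x => Real.exp (-H x) * χ x ^ 2 *
          pd i (fun y => cv g (rho n) y * Real.exp (H y)) x ^ 2 :=
        (cE.mul (hχ1.continuous.pow 2)).mul ((cD i).pow 2)
      refine c1.integrable_of_hasCompactSupport ?_
      have h2 : HasCompactSupport fun x => χ x * (Real.exp (-H x) * χ x *
          pd i (fun y => cv g (rho n) y * Real.exp (H y)) x ^ 2) := cχ.mul_right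
      have h3 : (fun x => Real.exp (-H x) * χ x ^ 2 *
          pd i (fun y => cv g (rho n) y * Real.exp (H y)) x ^ 2) =
          fun x => χ x * (Real.exp (-H x) * χ x *
          pd i (fun y => cv g (rho n) y * Real.exp (H y)) x ^ 2) := by funext x; ring
      rw [h3]; exact h2
    calc ∫ x in B, c * pd i (fun y => cv g (rho n) y * Real.exp (H y)) x ^ 2 ≤
        ∫ x in B, Real.exp (-H x) * χ x ^ 2 *
          pd i (fun y => cv g (rho n) y * Real.exp (H y)) x ^ 2 := by
          refine setIntegral_mono_on ((i1 i).const_mul _) i2.integrableOn mB fun x hx => ?_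
          have h1 : χ x = 1 := cutR_one hRpos (by
            have := mem_closedBall_zero_iff.1 hx
            linarith)
          rw [h1, one_pow, mul_one]
          exact mul_le_mul_of_nonneg_right (hcB x hx) (sq_nonneg _)
      _ ≤ _ := setIntegral_le_integral i2 (ae_of_all _ fun x =>
          mul_nonneg (mul_nonneg (Real.exp_pos _).le (sq_nonneg _)) (sq_nonneg _))
  have h5 : c * (∫ x in B, ∑ i, pd i (fun y => cv g (rho n) y * Real.exp (H y)) x ^ 2) <
      c * ε := lt_of_le_of_lt hlow hcc2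
  exact lt_of_mul_lt_mul_left h5 hc0.le

end

end Crest.Agent.R144.Hs865
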