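import Crest.Agent.R144.Hsu1_498

-- ▼ part R144/Hsu2_498
section

/-!
# R144 (S0197), block HSU (helper498), file 2: capacity of the corners

* `packing`, `vol_slab`, `vol_two`, `vol_pair` : slabs have volume `≤ C t`, intersections of two
  slabs of different walls have volume `≤ C t²`;
* `cut N ρ` : a cut-off with `N` scales, `cut_deriv`;
* `exists_mlt` : a smooth multiplier with small Dirichlet energy on the polytope which vanishes where
  two different walls are almost tight.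
-/

set_option autoImplicit false
set_option linter.unusedSectionVars false

open MeasureTheory Set Filter Topology
open scoped ENNReal NNReal RealInnerProductSpace

namespace Crest.Agent.R144.Hsu498

noncomputable section

section vol

variable {E : Type*} [NormedAddCommGroup E] [InnerProductSpace ℝ E] [FiniteDimensional ℝ E]
  [MeasurableSpace E] [BorelSpace E]

/-- disjoint translates of a set inside a set -/
theorem packing {ι : Type*} {S B : Set E} (hS : MeasurableSet S) (I : Finset ι) (w : ι → E)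
    (hd : ∀ i ∈ I, ∀ j ∈ I, ∀ x ∈ S, ∀ y ∈ S, x + w i = y + w j → i = j)
    (hB : ∀ i ∈ I, ∀ x ∈ S, x + w i ∈ B) : (I.card : ℝ≥0∞) * volume S ≤ volume B := by
  have hm : ∀ i, MeasurableSet ((fun x => x + -w i) ⁻¹' S) := fun i =>
    (measurable_add_const _) hS
  have h1 : volume (⋃ i ∈ I, (fun x => x + -w i) ⁻¹' S) = (I.card : ℝ≥0∞) * volume S := by
    rw [measure_biUnion_finset _ fun i _ => hm i]
    · simp only [measure_preimage_add_right]
      rw [Finset.sum_const, nsmul_eq_mul]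
    · intro i hi j hj hij
      rw [Function.onFun, Set.disjoint_left]
      intro x hx hx'
      refine hij (hd i hi j hj _ hx _ hx' ?_)
      simp
  rw [← h1]
  refine measure_mono (iUnion₂_subset fun i hi x hx => ?_)
  have := hB i hi _ hx
  simpa using this

variable {K : Set E}

theorem vol_slab (hK : Bornology.IsBounded K) (hKm : MeasurableSet K) {j : E × ℝ}
    (hj : ‖j.1‖ = 1) :
    ∃ C : ℝ≥0∞, C ≠ ∞ ∧ ∀ t : ℝ, 0 < t →
      volume (K ∩ {x | 0 ≤ sl j x ∧ sl j x ≤ t}) ≤ C * ENNReal.ofReal t := by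
  obtain ⟨R, hR⟩ := hK.subset_closedBall (0 : E)
  have hjj : ⟪j.1, j.1⟫ = 1 := by rw [real_inner_self_eq_norm_sq, hj]; norm_num
  refine ⟨volume (Metric.closedBall (0 : E) (R + 4)) , measure_closedBall_lt_top.ne, ?_⟩
  intro t ht
  rcases le_or_gt t 1 with h1 | h1
  · set N : ℕ := ⌈1 / t⌉₊ with hN
    have hN1 : 1 / t ≤ N := Nat.le_ceil _
    have hN2 : (N : ℝ) < 1 / t + 1 := Nat.ceil_lt_add_one (by positivity)
    have hN3 : t * N ≤ 2 := by
      have : t * N ≤ t * (1 / t + 1) := mul_le_mul_of_nonneg_left hN2.le ht.le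
      have e : t * (1 / t + 1) = 1 + t := by field_simp
      linarith
    have hN4 : 1 ≤ t * N := by
      have := mul_le_mul_of_nonneg_left hN1 ht.le
      have e : t * (1 / t) = 1 := by field_simp
      linarith
    have key := packing (S := K ∩ {x | 0 ≤ sl j x ∧ sl j x ≤ t})
      (B := Metric.closedBall (0 : E) (R + 4)) ?_ (Finset.range N)
      (fun i => (2 * t * i) • j.1) ?_ ?_
    · rw [Finset.card_range] at key
      have e1 : (1 : ℝ≥0∞) ≤ ENNReal.ofReal t * N := by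
        rw [← ENNReal.ofReal_natCast, ← ENNReal.ofReal_mul ht.le, ← ENNReal.ofReal_one]
        exact ENNReal.ofReal_le_ofReal hN4
      calc volume (K ∩ {x | 0 ≤ sl j x ∧ sl j x ≤ t})
          ≤ (ENNReal.ofReal t * N) * volume (K ∩ {x | 0 ≤ sl j x ∧ sl j x ≤ t}) := by
            conv_lhs => rw [← one_mul (volume _)]
            gcongr
        _ = (N * volume (K ∩ {x | 0 ≤ sl j x ∧ sl j x ≤ t})) * ENNReal.ofReal t := by ring
        _ ≤ _ := by gcongr
    · exact hKm.inter ((measurableSet_le measurable_const (continuous_sl j).measurable).inter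
        (measurableSet_le (continuous_sl j).measurable measurable_const))
    · intro i _ i' _ x hx y hy hxy
      have h2 : sl j (x + (2 * t * i) • j.1) = sl j (y + (2 * t * i') • j.1) := by rw [hxy]
      rw [sl_add_smul, sl_add_smul, hjj, mul_one, mul_one] at h2
      obtain ⟨_, hx1, hx2⟩ := hx
      obtain ⟨_, hy1, hy2⟩ := hy
      have h3 : |(i : ℝ) - i'| < 1 := by
        rw [abs_lt]
        constructor
        · nlinarith
        · nlinarith
      have h4 : |(i : ℤ) - i'| < 1 := by exact_mod_cast h3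
      have h5 := Int.abs_lt_one_iff.1 h4
      omega
    · intro i hi x hx
      rw [mem_closedBall_zero_iff]
      have h2 : ‖x‖ ≤ R := by simpa using hR hx.1
      have h3 : (i : ℝ) ≤ N := by exact_mod_cast (Finset.mem_range.1 hi).le
      have h4 : ‖(2 * t * i) • j.1‖ ≤ 4 := by
        rw [norm_smul, hj, mul_one, Real.norm_of_nonneg (by positivity)]
        nlinarith
      exact (norm_add_le _ _).trans (add_le_add h2 h4)
  · calc volume (K ∩ {x | 0 ≤ sl j x ∧ sl j x ≤ t}) ≤ volume (Metric.closedBall (0 : E) (R + 4)) :=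
          measure_mono (inter_subset_left.trans
            (hR.trans (Metric.closedBall_subset_closedBall (by linarith))))
      _ = volume (Metric.closedBall (0 : E) (R + 4)) * 1 := by rw [mul_one]
      _ ≤ _ := by
          gcongr
          rw [← ENNReal.ofReal_one]
          exact ENNReal.ofReal_le_ofReal h1.le

theorem exists_dual {a b : E} (ha : ‖a‖ = 1) (hb : ‖b‖ = 1) (hab : ⟪a, b⟫ ^ 2 < 1) :
    ∃ p q : E, ⟪a, p⟫ = 1 ∧ ⟪b, p⟫ = 0 ∧ ⟪a, q⟫ = 0 ∧ ⟪b, q⟫ = 1 := by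
  have hbb : ⟪b, b⟫ = 1 := by rw [real_inner_self_eq_norm_sq, hb]; norm_num
  have haa : ⟪a, a⟫ = 1 := by rw [real_inner_self_eq_norm_sq, ha]; norm_num
  have he' : ⟪b, a⟫ = ⟪a, b⟫ := real_inner_comm _ _
  have hD : 1 - ⟪a, b⟫ ^ 2 ≠ 0 := by linarith
  refine ⟨(1 / (1 - ⟪a, b⟫ ^ 2)) • (a - ⟪a, b⟫ • b), (1 / (1 - ⟪a, b⟫ ^ 2)) • (b - ⟪a, b⟫ • a),
    ?_, ?_, ?_, ?_⟩
  · rw [inner_smul_right, inner_sub_right, inner_smul_right, haa]; field_simp
  · rw [inner_smul_right, inner_sub_right, inner_smul_right, hbb, he']; ring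
  · rw [inner_smul_right, inner_sub_right, inner_smul_right, haa]; ring
  · rw [inner_smul_right, inner_sub_right, inner_smul_right, hbb, he']; field_simp

theorem sl_expand (l : E × ℝ) (z p q : E) (a b : ℝ) : sl l (z + (a • p + b • q)) =
    sl l z - a * ⟪l.1, p⟫ - b * ⟪l.1, q⟫ := by
  unfold sl
  rw [inner_add_right, inner_add_right, inner_smul_right, inner_smul_right]; ring

theorem nat_eq_of_abs_lt {a b : ℕ} (hab : |(a : ℝ) - b| < 1) : a = b := by
  have h4 : |(a : ℤ) - b| < 1 := by exact_mod_cast hab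
  have h5 := Int.abs_lt_one_iff.1 h4
  omega

theorem vol_two (hK : Bornology.IsBounded K) (hKm : MeasurableSet K) {i j : E × ℝ}
    (hi : ‖i.1‖ = 1) (hj : ‖j.1‖ = 1) (hij : ⟪i.1, j.1⟫ ^ 2 < 1) :
    ∃ C : ℝ≥0∞, C ≠ ∞ ∧ ∀ t : ℝ, 0 < t →
      volume (K ∩ {x | (0 ≤ sl i x ∧ sl i x ≤ t) ∧ (0 ≤ sl j x ∧ sl j x ≤ t)}) ≤
        C * ENNReal.ofReal (t ^ 2) := by
  obtain ⟨R, hR⟩ := hK.subset_closedBall (0 : E)
  obtain ⟨p, q, hip, hjp, hiq, hjq⟩ := exists_dual hi hj hij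
  have hB0 : 0 ≤ ‖p‖ + ‖q‖ := by positivity
  refine ⟨volume (Metric.closedBall (0 : E) (R + 4 * (‖p‖ + ‖q‖))),
    measure_closedBall_lt_top.ne, ?_⟩
  intro t ht
  rcases le_or_gt t 1 with h1 | h1
  · obtain ⟨N, hN3, hN4⟩ : ∃ N : ℕ, t * N ≤ 2 ∧ 1 ≤ t * N := by
      have hN1 : 1 / t ≤ (⌈1 / t⌉₊ : ℝ) := Nat.le_ceil _
      have hN2 : (⌈1 / t⌉₊ : ℝ) < 1 / t + 1 := Nat.ceil_lt_add_one (by positivity)
      refine ⟨⌈1 / t⌉₊, ?_, ?_⟩
      · have : t * (⌈1 / t⌉₊ : ℝ) ≤ t * (1 / t + 1) := mul_le_mul_of_nonneg_left hN2.le ht.le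
        have e : t * (1 / t + 1) = 1 + t := by field_simp
        linarith
      · have := mul_le_mul_of_nonneg_left hN1 ht.le
        have e : t * (1 / t) = 1 := by field_simp
        linarith
    have hSm : MeasurableSet
        (K ∩ {x | (0 ≤ sl i x ∧ sl i x ≤ t) ∧ (0 ≤ sl j x ∧ sl j x ≤ t)}) :=
      hKm.inter (((measurableSet_le measurable_const (continuous_sl i).measurable).inter
        (measurableSet_le (continuous_sl i).measurable measurable_const)).inter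
        ((measurableSet_le measurable_const (continuous_sl j).measurable).inter
        (measurableSet_le (continuous_sl j).measurable measurable_const)))
    have key := packing hSm (B := Metric.closedBall (0 : E) (R + 4 * (‖p‖ + ‖q‖)))
      (Finset.range N ×ˢ Finset.range N)
      (fun m => (2 * t * m.1) • p + (2 * t * m.2) • q) ?_ ?_
    · rw [Finset.card_product, Finset.card_range] at key
      have e1 : (1 : ℝ≥0∞) ≤ ENNReal.ofReal (t ^ 2) * ((N * N : ℕ) : ℝ≥0∞) := by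
        rw [← ENNReal.ofReal_natCast, ← ENNReal.ofReal_mul (by positivity), ← ENNReal.ofReal_one]
        refine ENNReal.ofReal_le_ofReal ?_
        push_cast
        nlinarith
      calc volume (K ∩ {x | (0 ≤ sl i x ∧ sl i x ≤ t) ∧ (0 ≤ sl j x ∧ sl j x ≤ t)})
          ≤ (ENNReal.ofReal (t ^ 2) * ((N * N : ℕ) : ℝ≥0∞)) *
            volume (K ∩ {x | (0 ≤ sl i x ∧ sl i x ≤ t) ∧ (0 ≤ sl j x ∧ sl j x ≤ t)}) := by
            conv_lhs => rw [← one_mul (volume _)]
            gcongr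
        _ = (((N * N : ℕ) : ℝ≥0∞) * volume (K ∩ {x | (0 ≤ sl i x ∧ sl i x ≤ t) ∧
            (0 ≤ sl j x ∧ sl j x ≤ t)})) * ENNReal.ofReal (t ^ 2) := by ring
        _ ≤ _ := by gcongr
    · rintro ⟨m, n⟩ _ ⟨m', n'⟩ _ x hx y hy hxy
      have h2 : sl i (x + ((2 * t * m) • p + (2 * t * n) • q)) =
          sl i (y + ((2 * t * m') • p + (2 * t * n') • q)) := congrArg (sl i) hxy
      have h2' : sl j (x + ((2 * t * m) • p + (2 * t * n) • q)) =
          sl j (y + ((2 * t * m') • p + (2 * t * n') • q)) := congrArg (sl j) hxy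
      rw [sl_expand, sl_expand, hip, hiq, mul_one, mul_one, mul_zero, mul_zero, sub_zero,
        sub_zero] at h2
      rw [sl_expand, sl_expand, hjp, hjq, mul_one, mul_one, mul_zero, mul_zero, sub_zero,
        sub_zero] at h2'
      obtain ⟨_, ⟨hx1, hx2⟩, hx3, hx4⟩ := hx
      obtain ⟨_, ⟨hy1, hy2⟩, hy3, hy4⟩ := hy
      have h3 : m = m' := nat_eq_of_abs_lt (by rw [abs_lt]; constructor <;> nlinarith)
      have h4 : n = n' := nat_eq_of_abs_lt (by rw [abs_lt]; constructor <;> nlinarith)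
      rw [h3, h4]
    · rintro ⟨m, n⟩ hmn x hx
      rw [mem_closedBall_zero_iff]
      obtain ⟨hm, hn⟩ := Finset.mem_product.1 hmn
      have h2 : ‖x‖ ≤ R := by simpa using hR hx.1
      have h3 : (m : ℝ) ≤ N := by exact_mod_cast (Finset.mem_range.1 hm).le
      have h4 : (n : ℝ) ≤ N := by exact_mod_cast (Finset.mem_range.1 hn).le
      have e3 : 2 * t * (m : ℝ) ≤ 4 := by nlinarith
      have e4 : 2 * t * (n : ℝ) ≤ 4 := by nlinarith
      have h5 : ‖(2 * t * m) • p‖ ≤ 4 * ‖p‖ := by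
        rw [norm_smul, Real.norm_of_nonneg (by positivity)]
        exact mul_le_mul_of_nonneg_right e3 (norm_nonneg _)
      have h6 : ‖(2 * t * n) • q‖ ≤ 4 * ‖q‖ := by
        rw [norm_smul, Real.norm_of_nonneg (by positivity)]
        exact mul_le_mul_of_nonneg_right e4 (norm_nonneg _)
      have h7 := norm_add_le ((2 * t * m) • p) ((2 * t * n) • q)
      have h8 := norm_add_le x ((2 * t * m) • p + (2 * t * n) • q)
      show ‖x + ((2 * t * m) • p + (2 * t * n) • q)‖ ≤ R + 4 * (‖p‖ + ‖q‖)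
      linarith
  · calc volume (K ∩ {x | (0 ≤ sl i x ∧ sl i x ≤ t) ∧ (0 ≤ sl j x ∧ sl j x ≤ t)})
        ≤ volume (Metric.closedBall (0 : E) (R + 4 * (‖p‖ + ‖q‖))) :=
          measure_mono (inter_subset_left.trans
            (hR.trans (Metric.closedBall_subset_closedBall (by linarith))))
      _ = volume (Metric.closedBall (0 : E) (R + 4 * (‖p‖ + ‖q‖))) * 1 := by rw [mul_one]
      _ ≤ _ := by
          gcongr
          rw [← ENNReal.ofReal_one]
          exact ENNReal.ofReal_le_ofReal (by nlinarith)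

theorem vol_far {κ : ℝ} (hκ : 0 < κ) {S : ℝ → Set E} (hK : volume K ≠ ∞)
    (h : ∀ t, ∀ x ∈ K ∩ S t, κ ≤ t) :
    ∃ C : ℝ≥0∞, C ≠ ∞ ∧ ∀ t : ℝ, 0 < t → volume (K ∩ S t) ≤ C * ENNReal.ofReal (t ^ 2) := by
  refine ⟨volume K / ENNReal.ofReal (κ ^ 2), ENNReal.div_ne_top hK (by
    rw [Ne, ENNReal.ofReal_eq_zero, not_le]; positivity), fun t ht => ?_⟩
  rcases (K ∩ S t).eq_empty_or_nonempty with h0 | ⟨x, hx⟩
  · rw [h0, measure_empty]; exact zero_le
  · have h1 := h t x hx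
    have h2 : (1 : ℝ≥0∞) ≤ (ENNReal.ofReal (κ ^ 2))⁻¹ * ENNReal.ofReal (t ^ 2) := by
      rw [mul_comm, ← div_eq_mul_inv, ENNReal.le_div_iff_mul_le (Or.inl (by
        rw [Ne, ENNReal.ofReal_eq_zero, not_le]; positivity)) (Or.inl ENNReal.ofReal_ne_top),
        one_mul]
      exact ENNReal.ofReal_le_ofReal (by nlinarith)
    calc volume (K ∩ S t) ≤ volume K * 1 := by rw [mul_one]; exact measure_mono inter_subset_left
      _ ≤ volume K * ((ENNReal.ofReal (κ ^ 2))⁻¹ * ENNReal.ofReal (t ^ 2)) := by gcongr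
      _ = _ := by rw [div_eq_mul_inv, mul_assoc]

theorem vol_pair {J : Finset (E × ℝ)} (hJ : ∀ j ∈ J, ‖j.1‖ = 1)
    (hb : Bornology.IsBounded (poly J)) (hv : volume (poly J) ≠ 0) {i j : E × ℝ} (hi : i ∈ J)
    (hj : j ∈ J) (hij : i ≠ j) :
    ∃ C : ℝ≥0∞, C ≠ ∞ ∧ ∀ t : ℝ, 0 < t →
      volume (poly J ∩ {x | sl i x ≤ t ∧ sl j x ≤ t}) ≤ C * ENNReal.ofReal (t ^ 2) := by
  have hfin : volume (poly J) ≠ ∞ := hb.measure_lt_top.ne
  have hcs := abs_real_inner_le_norm i.1 j.1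
  rw [hJ i hi, hJ j hj, mul_one] at hcs
  have hcs2 : ⟪i.1, j.1⟫ ^ 2 ≤ 1 := by
    rw [← sq_abs]; exact pow_le_one₀ (abs_nonneg _) hcs
  rcases hcs2.lt_or_eq with h1 | h1
  · obtain ⟨C, hC, h⟩ := vol_two hb isClosed_poly.measurableSet (hJ i hi) (hJ j hj) h1
    refine ⟨C, hC, fun t ht => (measure_mono ?_).trans (h t ht)⟩
    rintro x ⟨hx, h2, h3⟩
    exact ⟨hx, ⟨hx i hi, h2⟩, hx j hj, h3⟩
  · rcases mul_self_eq_one_iff.1 ((sq _).symm.trans h1) with h2 | h2
    · have he : i.1 = j.1 := (inner_eq_one_iff_of_norm_eq_one (hJ i hi) (hJ j hj)).1 h2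
      have hne : i.2 ≠ j.2 := fun h => hij (Prod.ext he h)
      refine vol_far (κ := |i.2 - j.2|) (abs_pos.2 (sub_ne_zero.2 hne)) hfin ?_
      rintro t x ⟨hx, h3, h4⟩
      have h5 := hx i hi
      have h6 := hx j hj
      have h7 : i.2 - j.2 = sl i x - sl j x := by unfold sl; rw [he]; ring
      rw [h7, abs_le]
      constructor <;> linarith
    · have he : i.1 = -j.1 := by
        have hn : ‖-j.1‖ = 1 := by rw [norm_neg]; exact hJ j hj
        refine (inner_eq_one_iff_of_norm_eq_one (𝕜 := ℝ) (hJ i hi) hn).1 ?_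
        rw [inner_neg_right, h2, neg_neg]
      have hsum : ∀ x, sl i x + sl j x = i.2 + j.2 := by
        intro x; unfold sl; rw [he, inner_neg_left]; ring
      have hpos : 0 < i.2 + j.2 := by
        by_contra hcon
        push Not at hcon
        obtain ⟨C, hC, h⟩ := vol_slab hb isClosed_poly.measurableSet (hJ i hi)
        apply hv
        have h3 : ∀ t : ℝ, 0 < t → volume (poly J) ≤ C * ENNReal.ofReal t := by
          intro t ht
          refine (measure_mono ?_).trans (h t ht)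
          intro x hx
          have h5 := hx i hi
          have h6 := hx j hj
          have h7 := hsum x
          exact ⟨hx, h5, by linarith⟩
        have h4 : Tendsto (fun t : ℝ => C * ENNReal.ofReal t) (𝓝[>] 0) (𝓝 0) := by
          have h5 : Tendsto (fun t : ℝ => C * ENNReal.ofReal t) (𝓝 0)
              (𝓝 (C * ENNReal.ofReal 0)) :=
            ENNReal.Tendsto.const_mul (ENNReal.continuous_ofReal.tendsto 0) (Or.inr hC)
          rw [ENNReal.ofReal_zero, mul_zero] at h5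
          exact h5.mono_left nhdsWithin_le_nhds
        have h5 : volume (poly J) ≤ 0 := by
          refine ge_of_tendsto h4 ?_
          filter_upwards [self_mem_nhdsWithin] with t ht
          exact h3 t ht
        exact le_antisymm h5 zero_le
      refine vol_far (κ := (i.2 + j.2) / 2) (by linarith) hfin ?_
      rintro t x ⟨hx, h3, h4⟩
      have h7 := hsum x
      linarith

end vol

/-! ### cut-offs with many scales -/

section cut

/-- a cut-off with `N` scales: `1` for `q ≤ ρ² / 4^N`, `0` for `q ≥ 2 ρ²` -/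
def cut (N : ℕ) (ρ q : ℝ) : ℝ :=
  (1 / (N : ℝ)) * ∑ m ∈ Finset.range N, Real.smoothTransition (2 - 4 ^ m * q / ρ ^ 2)

theorem contDiff_cut (N : ℕ) (ρ : ℝ) {n : ℕ∞} : ContDiff ℝ n (cut N ρ) := by
  unfold cut
  refine contDiff_const.mul (ContDiff.sum fun m _ => ?_)
  refine Real.smoothTransition.contDiff.comp ?_
  fun_prop

theorem cut_nonneg (N : ℕ) (ρ q : ℝ) : 0 ≤ cut N ρ q := by
  unfold cut
  exact mul_nonneg (by positivity) (Finset.sum_nonneg fun _ _ => Real.smoothTransition.nonneg _)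

theorem cut_le_one (N : ℕ) (ρ q : ℝ) : cut N ρ q ≤ 1 := by
  unfold cut
  have h : ∑ m ∈ Finset.range N, Real.smoothTransition (2 - 4 ^ m * q / ρ ^ 2) ≤ N := by
    calc ∑ m ∈ Finset.range N, Real.smoothTransition (2 - 4 ^ m * q / ρ ^ 2)
        ≤ ∑ m ∈ Finset.range N, (1 : ℝ) :=
          Finset.sum_le_sum fun _ _ => Real.smoothTransition.le_one _
      _ = N := by simp
  rcases Nat.eq_zero_or_pos N with rfl | hN
  · simp
  · have hN' : (0 : ℝ) < N := by exact_mod_cast hN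
    rw [one_div, inv_mul_le_iff₀ hN', mul_one]; exact h

theorem cut_eq_one {N : ℕ} (hN : 0 < N) {ρ q : ℝ} (hρ : 0 < ρ) (h : 4 ^ N * q ≤ ρ ^ 2) :
    cut N ρ q = 1 := by
  unfold cut
  have h1 : ∀ m ∈ Finset.range N, Real.smoothTransition (2 - 4 ^ m * q / ρ ^ 2) = 1 := by
    intro m hm
    refine Real.smoothTransition.one_of_one_le ?_
    have hm' := Finset.mem_range.1 hm
    have h2 : 4 ^ m * q ≤ ρ ^ 2 := by
      rcases le_total q 0 with hq | hq
      · exact (mul_nonpos_of_nonneg_of_nonpos (by positivity) hq).trans (by positivity)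
      · exact (mul_le_mul_of_nonneg_right (pow_le_pow_right₀ (by norm_num) hm'.le) hq).trans h
    have h3 : 4 ^ m * q / ρ ^ 2 ≤ 1 := by rw [div_le_one (by positivity)]; exact h2
    linarith
  rw [Finset.sum_congr rfl h1]
  have hN' : (N : ℝ) ≠ 0 := by exact_mod_cast hN.ne'
  simp [hN']

theorem cut_eq_zero {N : ℕ} {ρ q : ℝ} (hρ : 0 < ρ) (h : 2 * ρ ^ 2 ≤ q) : cut N ρ q = 0 := by
  unfold cut
  have hq : 0 ≤ q := le_trans (by positivity) h
  have h1 : ∀ m ∈ Finset.range N, Real.smoothTransition (2 - 4 ^ m * q / ρ ^ 2) = 0 := by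
    intro m _
    refine Real.smoothTransition.zero_of_nonpos ?_
    have h2 : q ≤ 4 ^ m * q := le_mul_of_one_le_left hq (one_le_pow₀ (by norm_num))
    have h3 : 2 ≤ 4 ^ m * q / ρ ^ 2 := by
      rw [le_div_iff₀ (by positivity)]; linarith
    linarith
  rw [Finset.sum_congr rfl h1]; simp

theorem deriv_smoothTransition_eq_zero {t : ℝ} (h : t < 0 ∨ 1 < t) :
    deriv Real.smoothTransition t = 0 := by
  rcases h with h | h
  · have : Real.smoothTransition =ᶠ[𝓝 t] fun _ => 0 := by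
      filter_upwards [Iio_mem_nhds h] with s hs
      exact Real.smoothTransition.zero_of_nonpos (le_of_lt hs)
    rw [this.deriv_eq, deriv_const]
  · have : Real.smoothTransition =ᶠ[𝓝 t] fun _ => 1 := by
      filter_upwards [Ioi_mem_nhds h] with s hs
      exact Real.smoothTransition.one_of_one_le (le_of_lt hs)
    rw [this.deriv_eq, deriv_const]

theorem exists_bound_deriv : ∃ C : ℝ, 0 ≤ C ∧ ∀ t, deriv Real.smoothTransition t ^ 2 ≤ C := by
  have hc : Continuous (deriv Real.smoothTransition) :=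
    (Real.smoothTransition.contDiff (n := 1)).continuous_deriv le_rfl
  obtain ⟨C, hC⟩ := isCompact_Icc.exists_bound_of_continuousOn (s := Icc (0 : ℝ) 1)
    (hc.pow 2).continuousOn
  refine ⟨max C 0, le_max_right _ _, fun t => ?_⟩
  by_cases ht : t ∈ Icc (0 : ℝ) 1
  · have := hC t ht
    rw [Real.norm_eq_abs, abs_of_nonneg (sq_nonneg _)] at this
    exact this.trans (le_max_left _ _)
  · have h : t < 0 ∨ 1 < t := by
      rw [mem_Icc, not_and_or, not_le, not_le] at ht; exact ht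
    rw [deriv_smoothTransition_eq_zero h]
    simp

theorem sq_sum_le_of_disjoint {ι : Type*} (s : Finset ι) (t : ι → ℝ)
    (h : ∀ i ∈ s, ∀ j ∈ s, i ≠ j → t i * t j = 0) : (∑ i ∈ s, t i) ^ 2 = ∑ i ∈ s, t i ^ 2 := by
  rw [sq, Finset.sum_mul_sum]
  refine Finset.sum_congr rfl fun i hi => ?_
  rw [Finset.sum_eq_single i]
  · rw [sq]
  · intro j hj hji
    exact h i hi j hj hji.symm
  · intro h'; exact absurd hi h'

theorem hasDerivAt_cut (N : ℕ) (ρ q : ℝ) : HasDerivAt (cut N ρ)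
    ((1 / (N : ℝ)) * ∑ m ∈ Finset.range N,
      deriv Real.smoothTransition (2 - 4 ^ m * q / ρ ^ 2) * (-(4 ^ m / ρ ^ 2))) q := by
  unfold cut
  refine HasDerivAt.const_mul _ (HasDerivAt.fun_sum fun m _ => ?_)
  have h1 : HasDerivAt (fun q : ℝ => 2 - 4 ^ m * q / ρ ^ 2) (-(4 ^ m / ρ ^ 2)) q := by
    have h2 := (((hasDerivAt_id q).const_mul ((4 : ℝ) ^ m)).div_const (ρ ^ 2)).const_sub 2
    simpa using h2
  have h3 : HasDerivAt Real.smoothTransition
      (deriv Real.smoothTransition (2 - 4 ^ m * q / ρ ^ 2)) (2 - 4 ^ m * q / ρ ^ 2) :=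
    (((Real.smoothTransition.contDiff (n := 1)).differentiable (by norm_num)) _).hasDerivAt
  exact h3.comp q h1

/-- the derivative of the cut-off, squared -/
theorem cut_deriv : ∃ C : ℝ, 0 ≤ C ∧ ∀ (N : ℕ) (ρ q : ℝ), 0 < ρ → 0 ≤ q →
    q * deriv (cut N ρ) q ^ 2 ≤ C / (N : ℝ) ^ 2 * ∑ m ∈ Finset.range N,
      4 ^ m / ρ ^ 2 * (if ρ ^ 2 ≤ 4 ^ m * q ∧ 4 ^ m * q ≤ 2 * ρ ^ 2 then 1 else 0) := by
  obtain ⟨C, hC0, hC⟩ := exists_bound_deriv
  refine ⟨2 * C, by positivity, fun N ρ q hρ hq => ?_⟩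
  rw [(hasDerivAt_cut N ρ q).deriv]
  set t : ℕ → ℝ := fun m =>
    deriv Real.smoothTransition (2 - 4 ^ m * q / ρ ^ 2) * (-(4 ^ m / ρ ^ 2)) with ht
  have hsupp : ∀ m, t m ≠ 0 → ρ ^ 2 ≤ 4 ^ m * q ∧ 4 ^ m * q ≤ 2 * ρ ^ 2 := by
    intro m hm
    by_contra hcon
    apply hm
    rw [ht]
    show deriv Real.smoothTransition (2 - 4 ^ m * q / ρ ^ 2) * (-(4 ^ m / ρ ^ 2)) = 0
    rw [deriv_smoothTransition_eq_zero, zero_mul]
    rw [not_and_or, not_le, not_le] at hcon
    rcases hcon with h | h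
    · right
      have : 4 ^ m * q / ρ ^ 2 < 1 := by rw [div_lt_one (by positivity)]; exact h
      linarith
    · left
      have : 2 < 4 ^ m * q / ρ ^ 2 := by rw [lt_div_iff₀ (by positivity)]; exact h
      linarith
  have hdis : ∀ i ∈ Finset.range N, ∀ j ∈ Finset.range N, i ≠ j → t i * t j = 0 := by
    have aux : ∀ i j : ℕ, i < j → t i * t j = 0 := by
      intro i j hij
      by_contra hcon
      obtain ⟨h1, h2⟩ := mul_ne_zero_iff.1 hcon
      obtain ⟨h3, _⟩ := hsupp i h1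
      obtain ⟨_, h4⟩ := hsupp j h2
      have h5 : (4 : ℝ) ^ (i + 1) ≤ 4 ^ j := pow_le_pow_right₀ (by norm_num) hij
      have h6 : 4 ^ (i + 1) * q ≤ 4 ^ j * q := mul_le_mul_of_nonneg_right h5 hq
      rw [pow_succ] at h6
      have h7 : 0 < ρ ^ 2 := by positivity
      nlinarith
    intro i _ j _ hij
    rcases lt_or_gt_of_ne hij with h | h
    · exact aux i j h
    · rw [mul_comm]; exact aux j i h
  rw [mul_pow, sq_sum_le_of_disjoint _ _ hdis]
  have hterm : ∀ m ∈ Finset.range N, q * t m ^ 2 ≤ 2 * C * (4 ^ m / ρ ^ 2 *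
      (if ρ ^ 2 ≤ 4 ^ m * q ∧ 4 ^ m * q ≤ 2 * ρ ^ 2 then 1 else 0)) := by
    intro m _
    by_cases h : t m = 0
    · rw [h]
      have : (0 : ℝ) ≤ (if ρ ^ 2 ≤ 4 ^ m * q ∧ 4 ^ m * q ≤ 2 * ρ ^ 2 then 1 else 0) := by
        split_ifs <;> norm_num
      have : 0 ≤ 2 * C * (4 ^ m / ρ ^ 2 *
        (if ρ ^ 2 ≤ 4 ^ m * q ∧ 4 ^ m * q ≤ 2 * ρ ^ 2 then 1 else 0)) := by positivity
      simpa using this
    · have h1 := hsupp m h
      rw [if_pos h1, mul_one]
      have e : t m ^ 2 = deriv Real.smoothTransition (2 - 4 ^ m * q / ρ ^ 2) ^ 2 *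
          (4 ^ m / ρ ^ 2) ^ 2 := by rw [ht]; ring
      rw [e]
      have h2 : deriv Real.smoothTransition (2 - 4 ^ m * q / ρ ^ 2) ^ 2 ≤ C := hC _
      have h3 : q * (4 ^ m / ρ ^ 2) ≤ 2 := by
        rw [← mul_div_assoc, div_le_iff₀ (by positivity)]; linarith [h1.2]
      have h4 : 0 ≤ (4 : ℝ) ^ m / ρ ^ 2 := by positivity
      calc q * (deriv Real.smoothTransition (2 - 4 ^ m * q / ρ ^ 2) ^ 2 * (4 ^ m / ρ ^ 2) ^ 2)
          = deriv Real.smoothTransition (2 - 4 ^ m * q / ρ ^ 2) ^ 2 *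
              ((q * (4 ^ m / ρ ^ 2)) * (4 ^ m / ρ ^ 2)) := by ring
        _ ≤ C * (2 * (4 ^ m / ρ ^ 2)) := by
            refine mul_le_mul h2 (mul_le_mul_of_nonneg_right h3 h4) (by positivity) hC0
        _ = 2 * C * (4 ^ m / ρ ^ 2) := by ring
  calc q * ((1 / (N : ℝ)) ^ 2 * ∑ m ∈ Finset.range N, t m ^ 2)
      = (1 / (N : ℝ)) ^ 2 * ∑ m ∈ Finset.range N, q * t m ^ 2 := by
        rw [Finset.mul_sum, Finset.mul_sum, Finset.mul_sum]
        exact Finset.sum_congr rfl fun m _ => by ring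
    _ ≤ (1 / (N : ℝ)) ^ 2 * ∑ m ∈ Finset.range N, 2 * C * (4 ^ m / ρ ^ 2 *
        (if ρ ^ 2 ≤ 4 ^ m * q ∧ 4 ^ m * q ≤ 2 * ρ ^ 2 then 1 else 0)) :=
        mul_le_mul_of_nonneg_left (Finset.sum_le_sum hterm) (by positivity)
    _ = _ := by
        rw [← Finset.mul_sum]
        ring

end cut

end

end Crest.Agent.R144.Hsu498
end

-- ▼ part R144/Hsu3_498
section

/-!
# R144 (S0197), block HSU (helper498), file 3: the multiplier at the corners and the truncation
-/

set_option autoImplicit false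
set_option linter.unusedSectionVars false

open MeasureTheory Set Filter Topology
open scoped ENNReal NNReal RealInnerProductSpace

namespace Crest.Agent.R144.Hsu498

noncomputable section

section mlt

variable {E : Type*} [NormedAddCommGroup E] [InnerProductSpace ℝ E] [FiniteDimensional ℝ E]
  [MeasurableSpace E] [BorelSpace E]

/-- a smooth multiplier vanishing where the two walls of a pair in `P` are almost tight -/
structure Mlt (J : Finset (E × ℝ)) (P : Finset ((E × ℝ) × (E × ℝ))) (η : ℝ) (g : E → ℝ)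
    (ρ : ℝ) : Prop where
  smooth : ContDiff ℝ ((⊤ : ℕ∞) : WithTop ℕ∞) g
  nonneg : ∀ x, 0 ≤ g x
  le_one : ∀ x, g x ≤ 1
  pos : 0 < ρ
  zero : ∀ x ∈ poly J, ∀ p ∈ P, sl p.1 x ≤ ρ → sl p.2 x ≤ ρ → g x = 0
  energy : ∫⁻ x in poly J, ENNReal.ofReal (‖fderiv ℝ g x‖ ^ 2) ≤ ENNReal.ofReal η
  mass : ∫⁻ x in poly J, ENNReal.ofReal (1 - g x) ≤ ENNReal.ofReal η

variable {J : Finset (E × ℝ)}

/-- the quantity in the corner cut-off -/
def qq (i j : E × ℝ) (x : E) : ℝ := sl i x ^ 2 + sl j x ^ 2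

theorem hasFDerivAt_qq (i j : E × ℝ) (x : E) : HasFDerivAt (qq i j)
    ((-(2 * sl i x)) • innerSL ℝ i.1 + (-(2 * sl j x)) • innerSL ℝ j.1) x := by
  unfold qq
  have h : ∀ l : E × ℝ, HasFDerivAt (fun x => sl l x ^ 2) ((-(2 * sl l x)) • innerSL ℝ l.1) x := by
    intro l
    have h1 := (hasFDerivAt_sl l x).pow 2
    refine h1.congr_fderiv ?_
    ext z
    simp
  exact (h i).add (h j)

theorem norm_fderiv_cut_qq {N : ℕ} {ρ : ℝ} {i j : E × ℝ} (hi : ‖i.1‖ = 1) (hj : ‖j.1‖ = 1)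
    (x : E) : ‖fderiv ℝ (fun x => 1 - cut N ρ (qq i j x)) x‖ ^ 2 ≤
      8 * (qq i j x * deriv (cut N ρ) (qq i j x) ^ 2) := by
  have h1 : HasDerivAt (cut N ρ) (deriv (cut N ρ) (qq i j x)) (qq i j x) :=
    (hasDerivAt_cut N ρ _).differentiableAt.hasDerivAt
  have h2 := (h1.comp_hasFDerivAt x (hasFDerivAt_qq i j x)).const_sub 1
  have h3 : fderiv ℝ (fun x => 1 - cut N ρ (qq i j x)) x = -(deriv (cut N ρ) (qq i j x) •
      ((-(2 * sl i x)) • innerSL ℝ i.1 + (-(2 * sl j x)) • innerSL ℝ j.1)) := h2.fderiv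
  rw [h3]
  set D := deriv (cut N ρ) (qq i j x) with hD
  have h4 : ‖-(D • ((-(2 * sl i x)) • innerSL ℝ i.1 + (-(2 * sl j x)) • innerSL ℝ j.1))‖ ≤
      |D| * (2 * |sl i x| + 2 * |sl j x|) := by
    rw [norm_neg, norm_smul, Real.norm_eq_abs]
    refine mul_le_mul_of_nonneg_left ?_ (abs_nonneg _)
    refine (norm_add_le _ _).trans ?_
    rw [norm_smul, norm_smul, innerSL_apply_norm, innerSL_apply_norm, hi, hj, mul_one, mul_one,
      norm_neg, norm_neg, norm_mul, norm_mul]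
    simp [Real.norm_eq_abs]
  calc ‖-(D • ((-(2 * sl i x)) • innerSL ℝ i.1 + (-(2 * sl j x)) • innerSL ℝ j.1))‖ ^ 2
      ≤ (|D| * (2 * |sl i x| + 2 * |sl j x|)) ^ 2 := pow_le_pow_left₀ (norm_nonneg _) h4 2
    _ ≤ 8 * (qq i j x * D ^ 2) := by
        unfold qq
        have e1 : (|D| * (2 * |sl i x| + 2 * |sl j x|)) ^ 2 =
            4 * D ^ 2 * (|sl i x| + |sl j x|) ^ 2 := by
          rw [mul_pow, sq_abs]; ring
        rw [e1]
        have e2 : (|sl i x| + |sl j x|) ^ 2 ≤ 2 * (sl i x ^ 2 + sl j x ^ 2) := by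
          have := sq_nonneg (|sl i x| - |sl j x|)
          nlinarith [sq_abs (sl i x), sq_abs (sl j x)]
        have e3 := mul_le_mul_of_nonneg_left e2 (by positivity : 0 ≤ 4 * D ^ 2)
        linarith

theorem exists_mlt1 (hJ : ∀ j ∈ J, ‖j.1‖ = 1) (hb : Bornology.IsBounded (poly J))
    (hv : volume (poly J) ≠ 0) {p : (E × ℝ) × (E × ℝ)} (hi : p.1 ∈ J) (hj : p.2 ∈ J)
    (hij : p.1 ≠ p.2) {η : ℝ} (hη : 0 < η) : ∃ g ρ, Mlt J {p} η g ρ := by
  obtain ⟨i, j⟩ := p
  dsimp only at hi hj hij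
  obtain ⟨C', hC', hvol⟩ := vol_pair hJ hb hv hi hj hij
  obtain ⟨C, hC0, hC⟩ := cut_deriv
  set c : ℝ := C'.toReal with hc
  have hcC : C' = ENNReal.ofReal c := (ENNReal.ofReal_toReal hC').symm
  have hc0 : 0 ≤ c := ENNReal.toReal_nonneg
  obtain ⟨N, hN⟩ := exists_nat_gt (32 * C * c / η)
  have hN0 : 0 < N := by
    have : (0 : ℝ) < N := lt_of_le_of_lt (by positivity) hN
    exact_mod_cast this
  have hNr : (0 : ℝ) < N := by exact_mod_cast hN0
  set ρ : ℝ := min 1 (η / (4 * c + 1)) with hρ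
  have hρ0 : 0 < ρ := lt_min one_pos (by positivity)
  have hρ1 : ρ ≤ 1 := min_le_left _ _
  have hρ2 : 4 * c * ρ ^ 2 ≤ η := by
    have h1 : ρ ≤ η / (4 * c + 1) := min_le_right _ _
    rw [le_div_iff₀ (by positivity)] at h1
    have h2 : ρ ^ 2 ≤ ρ := by nlinarith
    nlinarith
  have hsub : ∀ (m : ℕ) (x : E), x ∈ poly J → 4 ^ m * qq i j x ≤ 2 * ρ ^ 2 →
      sl i x ≤ 2 * ρ / 2 ^ m ∧ sl j x ≤ 2 * ρ / 2 ^ m := by
    intro m x hx h
    have h4 : (4 : ℝ) ^ m = (2 ^ m) ^ 2 := by rw [← pow_mul, mul_comm m 2, pow_mul]; norm_num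
    have h2m : (0 : ℝ) < 2 ^ m := by positivity
    unfold qq at h
    rw [h4] at h
    have key : ∀ s s' : ℝ, 0 ≤ s → (2 ^ m) ^ 2 * (s ^ 2 + s' ^ 2) ≤ 2 * ρ ^ 2 →
        s ≤ 2 * ρ / 2 ^ m := by
      intro s s' _ h5
      rw [le_div_iff₀ h2m]
      refine le_of_sq_le_sq ?_ (by positivity)
      have : 0 ≤ ((2 : ℝ) ^ m) ^ 2 * s' ^ 2 := by positivity
      nlinarith
    refine ⟨key _ _ (hx i hi) h, key (sl j x) (sl i x) (hx j hj) ?_⟩
    rw [add_comm]; exact h
  have hvm : ∀ m : ℕ, volume (poly J ∩ {x | 4 ^ m * qq i j x ≤ 2 * ρ ^ 2}) ≤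
      ENNReal.ofReal (c * (4 * ρ ^ 2 / 4 ^ m)) := by
    intro m
    have h1 : poly J ∩ {x | 4 ^ m * qq i j x ≤ 2 * ρ ^ 2} ⊆
        poly J ∩ {x | sl i x ≤ 2 * ρ / 2 ^ m ∧ sl j x ≤ 2 * ρ / 2 ^ m} :=
      fun x hx => ⟨hx.1, hsub m x hx.1 hx.2⟩
    refine (measure_mono h1).trans ((hvol _ (by positivity)).trans (le_of_eq ?_))
    rw [hcC, ← ENNReal.ofReal_mul hc0]
    congr 1
    have h4 : (4 : ℝ) ^ m = (2 ^ m) ^ 2 := by rw [← pow_mul, mul_comm m 2, pow_mul]; norm_num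
    rw [h4]; ring
  refine ⟨fun x => 1 - cut N ρ (qq i j x), ρ / 2 ^ (N + 1), ?_, ?_, ?_, by positivity, ?_, ?_, ?_⟩
  · refine contDiff_const.sub ((contDiff_cut N ρ).comp ?_)
    unfold qq
    exact ((contDiff_sl i).pow 2).add ((contDiff_sl j).pow 2)
  · intro x; have := cut_le_one N ρ (qq i j x); linarith
  · intro x; have := cut_nonneg N ρ (qq i j x); linarith
  · intro x hx p hp h1 h2
    rw [Finset.mem_singleton] at hp
    subst hp
    dsimp only at h1 h2
    have h3 := hx i hi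
    have h4 := hx j hj
    show 1 - cut N ρ (qq i j x) = 0
    rw [cut_eq_one hN0 hρ0, sub_self]
    unfold qq
    have h5 : sl i x ^ 2 ≤ (ρ / 2 ^ (N + 1)) ^ 2 := pow_le_pow_left₀ h3 h1 2
    have h6 : sl j x ^ 2 ≤ (ρ / 2 ^ (N + 1)) ^ 2 := pow_le_pow_left₀ h4 h2 2
    have h7 : (ρ / 2 ^ (N + 1)) ^ 2 = ρ ^ 2 / (4 * 4 ^ N) := by
      rw [div_pow, ← pow_mul, mul_comm (N + 1) 2, pow_mul]
      norm_num [pow_succ]; ring
    rw [h7] at h5 h6
    have h8 : (4 : ℝ) ^ N * (ρ ^ 2 / (4 * 4 ^ N) + ρ ^ 2 / (4 * 4 ^ N)) = ρ ^ 2 / 2 := by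
      field_simp; ring
    have h9 : (4 : ℝ) ^ N * (sl i x ^ 2 + sl j x ^ 2) ≤
        4 ^ N * (ρ ^ 2 / (4 * 4 ^ N) + ρ ^ 2 / (4 * 4 ^ N)) :=
      mul_le_mul_of_nonneg_left (add_le_add h5 h6) (by positivity)
    have h10 : 0 ≤ ρ ^ 2 := sq_nonneg _
    linarith
  · -- energy
    calc ∫⁻ x in poly J, ENNReal.ofReal (‖fderiv ℝ (fun x => 1 - cut N ρ (qq i j x)) x‖ ^ 2)
        ≤ ∫⁻ x in poly J, ∑ m ∈ Finset.range N, ENNReal.ofReal (8 * (C / (N : ℝ) ^ 2 *
            (4 ^ m / ρ ^ 2))) * ({x | 4 ^ m * qq i j x ≤ 2 * ρ ^ 2} : Set E).indicator 1 x := by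
          refine lintegral_mono fun x => ?_
          have hq : 0 ≤ qq i j x := by unfold qq; positivity
          have h1 := norm_fderiv_cut_qq (N := N) (ρ := ρ) (hJ i hi) (hJ j hj) x
          have h2 := hC N ρ (qq i j x) hρ0 hq
          have h3 : ‖fderiv ℝ (fun x => 1 - cut N ρ (qq i j x)) x‖ ^ 2 ≤
              ∑ m ∈ Finset.range N, 8 * (C / (N : ℝ) ^ 2 * (4 ^ m / ρ ^ 2)) *
                (if ρ ^ 2 ≤ 4 ^ m * qq i j x ∧ 4 ^ m * qq i j x ≤ 2 * ρ ^ 2 then 1 else 0) := by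
            refine h1.trans ((mul_le_mul_of_nonneg_left h2 (by norm_num)).trans (le_of_eq ?_))
            rw [Finset.mul_sum, Finset.mul_sum]
            exact Finset.sum_congr rfl fun m _ => by ring
          refine (ENNReal.ofReal_le_ofReal h3).trans ?_
          rw [ENNReal.ofReal_sum_of_nonneg fun m _ => by
            have : (0 : ℝ) ≤ (if ρ ^ 2 ≤ 4 ^ m * qq i j x ∧ 4 ^ m * qq i j x ≤ 2 * ρ ^ 2
              then 1 else 0) := by split_ifs <;> norm_num
            positivity]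
          refine Finset.sum_le_sum fun m _ => ?_
          by_cases h : ρ ^ 2 ≤ 4 ^ m * qq i j x ∧ 4 ^ m * qq i j x ≤ 2 * ρ ^ 2
          · have h' : x ∈ {x | 4 ^ m * qq i j x ≤ 2 * ρ ^ 2} := h.2
            rw [if_pos h, mul_one, indicator_of_mem h']
            simp
          · rw [if_neg h]; simp
      _ = ∑ m ∈ Finset.range N, ENNReal.ofReal (8 * (C / (N : ℝ) ^ 2 * (4 ^ m / ρ ^ 2))) *
            volume (poly J ∩ {x | 4 ^ m * qq i j x ≤ 2 * ρ ^ 2}) := by
          have hcq : Continuous (qq i j) := by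
            unfold qq
            exact ((continuous_sl i).pow 2).add ((continuous_sl j).pow 2)
          have hms : ∀ m : ℕ, MeasurableSet {x | 4 ^ m * qq i j x ≤ 2 * ρ ^ 2} := fun m =>
            measurableSet_le (continuous_const.mul hcq).measurable measurable_const
          rw [lintegral_finsetSum _ fun m _ =>
            (measurable_one.indicator (hms m)).const_mul _]
          refine Finset.sum_congr rfl fun m _ => ?_
          rw [lintegral_const_mul _ (measurable_one.indicator (hms m)),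
            lintegral_indicator_one (hms m), Measure.restrict_apply (hms m), inter_comm]
      _ ≤ ∑ m ∈ Finset.range N, ENNReal.ofReal (32 * C * c / (N : ℝ) ^ 2) := by
          refine Finset.sum_le_sum fun m _ => ?_
          refine (mul_le_mul_right (hvm m) _).trans (le_of_eq ?_)
          rw [← ENNReal.ofReal_mul (by positivity)]
          congr 1
          field_simp
          ring
      _ = ENNReal.ofReal (32 * C * c / N) := by
          rw [Finset.sum_const, Finset.card_range, nsmul_eq_mul, ← ENNReal.ofReal_natCast,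
            ← ENNReal.ofReal_mul (by positivity)]
          congr 1
          field_simp
      _ ≤ ENNReal.ofReal η := by
          refine ENNReal.ofReal_le_ofReal ?_
          rw [div_le_iff₀ hNr]
          rw [div_lt_iff₀ hη] at hN
          linarith
  · -- mass
    calc ∫⁻ x in poly J, ENNReal.ofReal (1 - (1 - cut N ρ (qq i j x)))
        ≤ ∫⁻ x in poly J, ({x | 4 ^ 0 * qq i j x ≤ 2 * ρ ^ 2} : Set E).indicator 1 x := by
          refine lintegral_mono fun x => ?_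
          rw [sub_sub_cancel]
          by_cases h : x ∈ {x | 4 ^ 0 * qq i j x ≤ 2 * ρ ^ 2}
          · rw [indicator_of_mem h, Pi.one_apply, ← ENNReal.ofReal_one]
            exact ENNReal.ofReal_le_ofReal (cut_le_one _ _ _)
          · have h' : 2 * ρ ^ 2 ≤ qq i j x := by
              by_contra hcon
              push Not at hcon
              exact h (show 4 ^ 0 * qq i j x ≤ 2 * ρ ^ 2 by rw [pow_zero, one_mul]; exact hcon.le)
            rw [cut_eq_zero hρ0 h']; simp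
      _ = volume (poly J ∩ {x | 4 ^ 0 * qq i j x ≤ 2 * ρ ^ 2}) := by
          have hcq : Continuous (qq i j) := by
            unfold qq
            exact ((continuous_sl i).pow 2).add ((continuous_sl j).pow 2)
          have hms : MeasurableSet {x | 4 ^ 0 * qq i j x ≤ 2 * ρ ^ 2} :=
            measurableSet_le (continuous_const.mul hcq).measurable measurable_const
          rw [lintegral_indicator_one hms, Measure.restrict_apply hms, inter_comm]
      _ ≤ ENNReal.ofReal (c * (4 * ρ ^ 2 / 4 ^ 0)) := hvm 0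
      _ ≤ ENNReal.ofReal η := by
          refine ENNReal.ofReal_le_ofReal ?_
          rw [pow_zero, div_one]; linarith

theorem Mlt.mul {P Q : Finset ((E × ℝ) × (E × ℝ))} [DecidableEq ((E × ℝ) × (E × ℝ))] {η : ℝ}
    (hη : 0 < η) {g f : E → ℝ} {ρ r : ℝ} (hg : Mlt J P (η / 4) g ρ) (hf : Mlt J Q (η / 4) f r) :
    Mlt J (P ∪ Q) η (fun x => g x * f x) (min ρ r) where
  smooth := hg.smooth.mul hf.smooth
  nonneg x := mul_nonneg (hg.nonneg x) (hf.nonneg x)
  le_one x := mul_le_one₀ (hg.le_one x) (hf.nonneg x) (hf.le_one x)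
  pos := lt_min hg.pos hf.pos
  zero x hx p hp h1 h2 := by
    rcases Finset.mem_union.1 hp with h | h
    · show g x * f x = 0
      rw [hg.zero x hx p h (h1.trans (min_le_left _ _)) (h2.trans (min_le_left _ _)), zero_mul]
    · show g x * f x = 0
      rw [hf.zero x hx p h (h1.trans (min_le_right _ _)) (h2.trans (min_le_right _ _)), mul_zero]
  energy := by
    have hmg : Measurable fun x => ENNReal.ofReal (2 * ‖fderiv ℝ g x‖ ^ 2) := by
      have := (hg.smooth.continuous_fderiv (by simp)).norm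
      exact ENNReal.measurable_ofReal.comp ((this.pow 2).measurable.const_mul 2)
    calc ∫⁻ x in poly J, ENNReal.ofReal (‖fderiv ℝ (fun x => g x * f x) x‖ ^ 2)
        ≤ ∫⁻ x in poly J, (ENNReal.ofReal (2 * ‖fderiv ℝ g x‖ ^ 2) +
            ENNReal.ofReal (2 * ‖fderiv ℝ f x‖ ^ 2)) := by
          refine lintegral_mono fun x => ?_
          dsimp only
          rw [← ENNReal.ofReal_add (by positivity) (by positivity)]
          refine ENNReal.ofReal_le_ofReal ?_
          have h1 : DifferentiableAt ℝ g x := (hg.smooth.differentiable (by simp)) x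
          have h2 : DifferentiableAt ℝ f x := (hf.smooth.differentiable (by simp)) x
          have h3 : fderiv ℝ (fun x => g x * f x) x = g x • fderiv ℝ f x + f x • fderiv ℝ g x :=
            (h1.hasFDerivAt.mul h2.hasFDerivAt).fderiv
          rw [h3]
          have h4 : ‖g x • fderiv ℝ f x + f x • fderiv ℝ g x‖ ≤
              ‖fderiv ℝ f x‖ + ‖fderiv ℝ g x‖ := by
            refine (norm_add_le _ _).trans ?_
            rw [norm_smul, norm_smul, Real.norm_of_nonneg (hg.nonneg x),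
              Real.norm_of_nonneg (hf.nonneg x)]
            exact add_le_add (mul_le_of_le_one_left (norm_nonneg _) (hg.le_one x))
              (mul_le_of_le_one_left (norm_nonneg _) (hf.le_one x))
          calc ‖g x • fderiv ℝ f x + f x • fderiv ℝ g x‖ ^ 2
              ≤ (‖fderiv ℝ f x‖ + ‖fderiv ℝ g x‖) ^ 2 := pow_le_pow_left₀ (norm_nonneg _) h4 2
            _ ≤ _ := by nlinarith [sq_nonneg (‖fderiv ℝ f x‖ - ‖fderiv ℝ g x‖)]
      _ ≤ ENNReal.ofReal η := by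
          rw [lintegral_add_left hmg]
          have e : ∀ u : E → ℝ, (∫⁻ x in poly J, ENNReal.ofReal (2 * ‖fderiv ℝ u x‖ ^ 2)) =
              2 * ∫⁻ x in poly J, ENNReal.ofReal (‖fderiv ℝ u x‖ ^ 2) := by
            intro u
            rw [← lintegral_const_mul' _ _ (by norm_num)]
            refine lintegral_congr fun x => ?_
            rw [ENNReal.ofReal_mul (by norm_num)]
            norm_num
          rw [e, e]
          calc 2 * (∫⁻ x in poly J, ENNReal.ofReal (‖fderiv ℝ g x‖ ^ 2)) +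
                2 * (∫⁻ x in poly J, ENNReal.ofReal (‖fderiv ℝ f x‖ ^ 2))
              ≤ 2 * ENNReal.ofReal (η / 4) + 2 * ENNReal.ofReal (η / 4) := by
                gcongr
                · exact hg.energy
                · exact hf.energy
            _ = ENNReal.ofReal η := by
                have h2 : (2 : ℝ≥0∞) = ENNReal.ofReal 2 := by norm_num
                rw [h2, ← ENNReal.ofReal_mul (by norm_num), ← ENNReal.ofReal_add (by positivity)
                  (by positivity)]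
                congr 1; ring
  mass := by
    calc ∫⁻ x in poly J, ENNReal.ofReal (1 - g x * f x)
        ≤ ∫⁻ x in poly J, (ENNReal.ofReal (1 - g x) + ENNReal.ofReal (1 - f x)) := by
          refine lintegral_mono fun x => ?_
          dsimp only
          have hg0 := hg.nonneg x
          have hg1 := hg.le_one x
          have hf0 := hf.nonneg x
          have hf1 := hf.le_one x
          rw [← ENNReal.ofReal_add (by linarith) (by linarith)]
          refine ENNReal.ofReal_le_ofReal ?_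
          nlinarith [mul_nonneg (sub_nonneg.2 hg1) (sub_nonneg.2 hf1)]
      _ ≤ ENNReal.ofReal η := by
          have hmg : Measurable fun x => ENNReal.ofReal (1 - g x) :=
            ENNReal.measurable_ofReal.comp
              (measurable_const.sub hg.smooth.continuous.measurable)
          rw [lintegral_add_left hmg]
          refine (add_le_add hg.mass hf.mass).trans ?_
          rw [← ENNReal.ofReal_add (by positivity) (by positivity)]
          exact ENNReal.ofReal_le_ofReal (by linarith)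

theorem exists_mlt_aux (hJ : ∀ j ∈ J, ‖j.1‖ = 1) (hb : Bornology.IsBounded (poly J))
    (hv : volume (poly J) ≠ 0) (P : Finset ((E × ℝ) × (E × ℝ)))
    (hP : ∀ p ∈ P, p.1 ∈ J ∧ p.2 ∈ J ∧ p.1 ≠ p.2) :
    ∀ η : ℝ, 0 < η → ∃ g ρ, Mlt J P η g ρ := by
  classical
  induction P using Finset.induction_on with
  | empty =>
    intro η hη
    refine ⟨fun _ => 1, 1, contDiff_const, fun _ => zero_le_one, fun _ => le_rfl, one_pos,
      fun x _ p hp => absurd hp (Finset.notMem_empty p), ?_, ?_⟩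
    · simp
    · simp
  | insert p P hp ih =>
    intro η hη
    obtain ⟨g, ρ, hg⟩ := ih (fun q hq => hP q (Finset.mem_insert_of_mem hq)) (η / 4) (by positivity)
    obtain ⟨h1, h2, h3⟩ := hP p (Finset.mem_insert_self p P)
    obtain ⟨f, r, hf⟩ := exists_mlt1 hJ hb hv h1 h2 h3 (η := η / 4) (by positivity)
    have h4 := Mlt.mul hη hf hg
    rw [← Finset.insert_eq] at h4
    exact ⟨fun x => f x * g x, min r ρ, h4⟩

theorem exists_mlt (hJ : ∀ j ∈ J, ‖j.1‖ = 1) (hb : Bornology.IsBounded (poly J))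
    (hv : volume (poly J) ≠ 0) {η : ℝ} (hη : 0 < η) : ∃ (g : E → ℝ) (ρ : ℝ),
      ContDiff ℝ ((⊤ : ℕ∞) : WithTop ℕ∞) g ∧ (∀ x, 0 ≤ g x) ∧ (∀ x, g x ≤ 1) ∧ 0 < ρ ∧
      (∀ x ∈ poly J, ∀ i ∈ J, ∀ j ∈ J, i ≠ j → sl i x ≤ ρ → sl j x ≤ ρ → g x = 0) ∧
      ∫⁻ x in poly J, ENNReal.ofReal (‖fderiv ℝ g x‖ ^ 2) ≤ ENNReal.ofReal η ∧
      ∫⁻ x in poly J, ENNReal.ofReal (1 - g x) ≤ ENNReal.ofReal η := by
  classical
  obtain ⟨g, ρ, h⟩ := exists_mlt_aux hJ hb hv J.offDiag
    (fun p hp => by simpa [Finset.mem_offDiag] using hp) η hη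
  refine ⟨g, ρ, h.smooth, h.nonneg, h.le_one, h.pos, ?_, h.energy, h.mass⟩
  intro x hx i hi j hj hij h1 h2
  exact h.zero x hx (i, j) (Finset.mem_offDiag.2 ⟨hi, hj, hij⟩) h1 h2

end mlt

/-! ### truncation -/

section trunc

variable {E : Type*} [NormedAddCommGroup E] [InnerProductSpace ℝ E]

/-- smooth radial truncation -/
def trn (M : ℝ) (y : E) : E := (1 + ‖y‖ ^ 2 / M ^ 2)⁻¹ • y

theorem trn_pos (M : ℝ) (y : E) : 0 < 1 + ‖y‖ ^ 2 / M ^ 2 := by positivity

theorem contDiff_trn (M : ℝ) {n : WithTop ℕ∞} : ContDiff ℝ n (trn M : E → E) := by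
  unfold trn
  refine ContDiff.smul (ContDiff.inv (contDiff_const.add ((contDiff_norm_sq ℝ).div_const _))
    fun y => (trn_pos M y).ne') contDiff_id

theorem trn_zero (M : ℝ) : trn M (0 : E) = 0 := by unfold trn; simp


theorem norm_trn_le {M : ℝ} (hM : 0 < M) (y : E) : ‖trn M y‖ ≤ M := by
  unfold trn
  rw [norm_smul, Real.norm_of_nonneg (inv_nonneg.2 (trn_pos M y).le), inv_mul_le_iff₀ (trn_pos M y)]
  have e : (1 + ‖y‖ ^ 2 / M ^ 2) * M = M + ‖y‖ ^ 2 / M := by field_simp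
  rw [e]
  have h1 : ‖y‖ ≤ M ∨ M ≤ ‖y‖ := le_total _ _
  rcases h1 with h | h
  · have : 0 ≤ ‖y‖ ^ 2 / M := by positivity
    linarith
  · have : ‖y‖ ≤ ‖y‖ ^ 2 / M := by
      rw [le_div_iff₀ hM]; nlinarith
    linarith

theorem norm_sub_trn_le {M : ℝ} (hM : 0 < M) (y : E) : ‖y - trn M y‖ ≤ ‖y‖ ^ 2 / M := by
  have e : y - trn M y = (1 - (1 + ‖y‖ ^ 2 / M ^ 2)⁻¹) • y := by
    unfold trn; rw [sub_smul, one_smul]
  have hp := trn_pos M y
  have e2 : 1 - (1 + ‖y‖ ^ 2 / M ^ 2)⁻¹ = (‖y‖ ^ 2 / M ^ 2) / (1 + ‖y‖ ^ 2 / M ^ 2) := by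
    field_simp; ring
  rw [e, e2, norm_smul, Real.norm_of_nonneg (by positivity), div_mul_eq_mul_div,
    div_le_iff₀ hp]
  have hy := norm_nonneg y
  set r := ‖y‖ with hr
  have e3 : r ^ 2 / M ^ 2 * r = r ^ 2 / M * (r / M) := by field_simp
  rw [e3]
  refine mul_le_mul_of_nonneg_left ?_ (by positivity)
  have e4 : r ^ 2 / M ^ 2 = (r / M) ^ 2 := by rw [div_pow]
  rw [e4]
  nlinarith [sq_nonneg (r / M - 1)]

theorem inner_trn_sq_le (M : ℝ) (a y : E) : ⟪a, trn M y⟫ ^ 2 ≤ ⟪a, y⟫ ^ 2 := by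
  unfold trn
  rw [inner_smul_right, mul_pow]
  have h : ((1 + ‖y‖ ^ 2 / M ^ 2)⁻¹) ≤ 1 := by
    refine inv_le_one_of_one_le₀ ?_
    have : 0 ≤ ‖y‖ ^ 2 / M ^ 2 := by positivity
    linarith
  have h0 : 0 ≤ ((1 + ‖y‖ ^ 2 / M ^ 2)⁻¹) := inv_nonneg.2 (trn_pos M y).le
  exact mul_le_of_le_one_left (sq_nonneg _) (pow_le_one₀ h0 h)

theorem norm_trn_sub_le {M : ℝ} (hM : 0 < M) (y z : E) : ‖trn M y - trn M z‖ ≤ ‖y - z‖ := by
  have hp := trn_pos M y
  have hq := trn_pos M z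
  refine le_of_sq_le_sq ?_ (norm_nonneg _)
  unfold trn
  rw [norm_sub_sq_real, norm_sub_sq_real, norm_smul, norm_smul, inner_smul_left, inner_smul_right,
    Real.norm_of_nonneg (inv_nonneg.2 hp.le), Real.norm_of_nonneg (inv_nonneg.2 hq.le)]
  simp only [conj_trivial]
  have hcs := real_inner_mul_inner_self_le y z
  rw [real_inner_self_eq_norm_sq, real_inner_self_eq_norm_sq] at hcs
  set a := ‖y‖ ^ 2 with ha
  set b := ‖z‖ ^ 2 with hb
  set c := ⟪y, z⟫ with hc
  set m := M ^ 2 with hm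
  have hm0 : 0 < m := by positivity
  have ha0 : 0 ≤ a := by positivity
  have hb0 : 0 ≤ b := by positivity
  have hD : 0 ≤ a - 2 * c + b := by
    have := sq_nonneg ‖y - z‖
    rw [norm_sub_sq_real] at this
    linarith
  have hp1 : 1 ≤ 1 + a / m := by have : 0 ≤ a / m := by positivity
                                 linarith
  have hq1 : 1 ≤ 1 + b / m := by have : 0 ≤ b / m := by positivity
                                 linarith
  set p := 1 + a / m with hpdef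
  set q := 1 + b / m with hqdef
  have e1 : (p⁻¹ * ‖y‖) ^ 2 = a / p ^ 2 := by rw [mul_pow, ← ha]; field_simp
  have e2 : (q⁻¹ * ‖z‖) ^ 2 = b / q ^ 2 := by rw [mul_pow, ← hb]; field_simp
  rw [e1, e2]
  have e3 : a / p ^ 2 - 2 * (p⁻¹ * (q⁻¹ * c)) + b / q ^ 2 =
      (a - 2 * c + b) / (p * q) - (a - b) ^ 2 / (m * (p * q) ^ 2) := by
    field_simp
    rw [hpdef, hqdef]
    field_simp
    ring
  rw [e3]
  have h4 : (a - 2 * c + b) / (p * q) ≤ a - 2 * c + b := by
    refine div_le_self hD ?_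
    nlinarith
  have h5 : 0 ≤ (a - b) ^ 2 / (m * (p * q) ^ 2) := by positivity
  linarith

theorem norm_fderiv_trn_comp {F : Type*} [NormedAddCommGroup F] [NormedSpace ℝ F] {M : ℝ}
    (hM : 0 < M) {Y : F → E} {x : F} (hY : DifferentiableAt ℝ Y x) (z : F) :
    ‖fderiv ℝ (fun x => trn M (Y x)) x z‖ ≤ ‖fderiv ℝ Y x z‖ := by
  have h1 : DifferentiableAt ℝ (trn M : E → E) (Y x) :=
    ((contDiff_trn M (n := 1)).differentiable (by norm_num)) _
  have h2 : fderiv ℝ (fun x => trn M (Y x)) x = (fderiv ℝ (trn M) (Y x)).comp (fderiv ℝ Y x) :=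
    (h1.hasFDerivAt.comp x hY.hasFDerivAt).fderiv
  rw [h2, ContinuousLinearMap.comp_apply]
  have h3 : LipschitzWith 1 (trn M : E → E) := LipschitzWith.of_dist_le_mul fun a b => by
    rw [dist_eq_norm, dist_eq_norm, NNReal.coe_one, one_mul]
    exact norm_trn_sub_le hM a b
  have h4 : ‖fderiv ℝ (trn M : E → E) (Y x)‖ ≤ 1 := by
    simpa using norm_fderiv_le_of_lipschitz ℝ h3 (x₀ := Y x)
  exact (ContinuousLinearMap.le_opNorm _ _).trans (mul_le_of_le_one_left (norm_nonneg _) h4)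

end trunc

end

end Crest.Agent.R144.Hsu498
end

-- ▼ part R144/Hsu4_498
section

/-!
# R144 (S0197), block HSU (helper498), file 4: the wall estimate and the rigid field
-/

set_option autoImplicit false
set_option linter.unusedSectionVars false

open MeasureTheory Set Filter Topology
open scoped ENNReal NNReal RealInnerProductSpace

namespace Crest.Agent.R144.Hsu498

noncomputable section

section field

variable {E : Type*} [NormedAddCommGroup E] [InnerProductSpace ℝ E] [FiniteDimensional ℝ E]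
  [MeasurableSpace E] [BorelSpace E] {ι : Type*} [Fintype ι]

/-- Hilbert–Schmidt energy density -/
def hs (b : OrthonormalBasis ι ℝ E) (Y : E → E) (x : E) : ℝ := ∑ i, ‖fderiv ℝ Y x (b i)‖ ^ 2

/-- energy density of a field with respect to a potential -/
def ed (b : OrthonormalBasis ι ℝ E) (H : E → ℝ) (Y : E → E) (x : E) : ℝ :=
  hs b Y x + fderiv ℝ (fderiv ℝ H) x (Y x) (Y x)

theorem hs_nonneg (b : OrthonormalBasis ι ℝ E) (Y : E → E) (x : E) : 0 ≤ hs b Y x :=
  Finset.sum_nonneg fun _ _ => sq_nonneg _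

theorem continuous_hs (b : OrthonormalBasis ι ℝ E) {Y : E → E} (hY : ContDiff ℝ 1 Y) :
    Continuous (hs b Y) := by
  unfold hs
  exact continuous_finsetSum _ fun i _ =>
    (((hY.continuous_fderiv (by norm_num)).clm_apply continuous_const).norm).pow 2

theorem continuous_ed (b : OrthonormalBasis ι ℝ E) {H : E → ℝ} {Y : E → E}
    (hH : ContDiff ℝ 2 H) (hY : ContDiff ℝ 1 Y) : Continuous (ed b H Y) := by
  unfold ed
  have h1 : Continuous (fderiv ℝ (fderiv ℝ H)) :=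
    (hH.fderiv_right (m := 1) (by norm_num)).continuous_fderiv (by norm_num)
  exact (continuous_hs b hY).add ((h1.clm_apply hY.continuous).clm_apply hY.continuous)

theorem sq_le_hs (b : OrthonormalBasis ι ℝ E) {a : E} (ha : ‖a‖ = 1) (Y : E → E) (x : E) :
    ‖fderiv ℝ Y x a‖ ^ 2 ≤ hs b Y x := by
  have h1 : fderiv ℝ Y x a = ∑ i, ⟪b i, a⟫ • fderiv ℝ Y x (b i) := by
    conv_lhs => rw [← b.sum_repr' a]
    rw [map_sum]
    simp only [map_smul]
  have h2 : ‖fderiv ℝ Y x a‖ ≤ ∑ i, |⟪b i, a⟫| * ‖fderiv ℝ Y x (b i)‖ := by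
    rw [h1]
    refine (norm_sum_le _ _).trans (Finset.sum_le_sum fun i _ => ?_)
    rw [norm_smul, Real.norm_eq_abs]
  have h3 := Finset.sum_mul_sq_le_sq_mul_sq Finset.univ (fun i => |⟪b i, a⟫|)
    (fun i => ‖fderiv ℝ Y x (b i)‖)
  have h4 : ∑ i, |⟪b i, a⟫| ^ 2 = 1 := by
    have := b.sum_sq_norm_inner_right a
    simp only [Real.norm_eq_abs] at this
    rw [this, ha]; norm_num
  rw [h4, one_mul] at h3
  exact (pow_le_pow_left₀ (norm_nonneg _) h2 2).trans h3

variable {J : Finset (E × ℝ)} {U : E → ℝ} {k : ℝ}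

theorem w2_mono {s t : ℝ} (h : s ≤ t) : w2 s ≤ w2 t := by
  unfold w2
  exact min_le_min_right _ (max_le_max_right _ h)

/-- **wall estimate**: `∫_T ⟪a_j, Y⟫² ≤ C r² · energy` for `T` in the part of the slab
`r ≤ slack ≤ 2 r` of the wall `j` far from the other walls, `C` independent of the soft walls -/
theorem wall (b : OrthonormalBasis ι ℝ E) (hU : ContDiff ℝ 2 U)
    (hU0 : ∀ x y, 0 ≤ fderiv ℝ (fderiv ℝ U) x y y) (hJ : ∀ j ∈ J, ‖j.1‖ = 1)
    (hb : Bornology.IsBounded (poly J)) : ∃ C : ℝ, 0 ≤ C ∧ ∀ (δ r : ℝ) (Y : E → E), 0 < δ →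
      δ ≤ r → 3 * r ≤ 1 → ContDiff ℝ 1 Y → ∀ j ∈ J, ∀ T : Set E, MeasurableSet T →
      T ⊆ poly J → (∀ x ∈ T, r ≤ sl j x ∧ sl j x ≤ 2 * r ∧ ∀ i ∈ J, i ≠ j → 3 * r ≤ sl i x) →
      ∫⁻ x in T, ENNReal.ofReal (⟪j.1, Y x⟫ ^ 2) ≤ ENNReal.ofReal (C * r ^ 2) *
        ∫⁻ x, ENNReal.ofReal (ed b (soft U J (1 / δ ^ 3)) Y x *
          Real.exp (-(soft U J (1 / δ ^ 3) x))) := by
  classical
  obtain ⟨R, hR⟩ := hb.subset_closedBall (0 : E)
  obtain ⟨B, hB⟩ := (isCompact_closedBall (0 : E) (R + 1)).exists_bound_of_continuousOn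
    hU.continuous.continuousOn
  have hB' : ∀ x ∈ Metric.closedBall (0 : E) (R + 1), U x ≤ B := fun x hx =>
    (le_abs_self _).trans (hB x hx)
  set w : ℝ := Real.exp (-(B + 1)) with hw
  have hw0 : 0 < w := Real.exp_pos _
  refine ⟨24 / w, by positivity, ?_⟩
  intro δ r Y hδ hδr hr hY j hj T hT hTK hTs
  have hr0 : 0 < r := lt_of_lt_of_le hδ hδr
  have hδ1 : δ ≤ 1 := by linarith
  set k : ℝ := 1 / δ ^ 3 with hk
  have hk0 : 0 < k := by positivity
  set T' : Set E := ({x | -δ ≤ sl j x} ∩ ⋂ i ∈ J.erase j, {x | 0 ≤ sl i x}) ∩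
    Metric.closedBall (0 : E) (R + 1) with hT'
  have hT'm : MeasurableSet T' := by
    refine MeasurableSet.inter (MeasurableSet.inter ?_ ?_) measurableSet_closedBall
    · exact measurableSet_le measurable_const (continuous_sl j).measurable
    · exact Finset.measurableSet_biInter _ fun i _ =>
        measurableSet_le measurable_const (continuous_sl i).measurable
  have hv : ContDiff ℝ 1 fun x => ⟪j.1, Y x⟫ := contDiff_const.inner ℝ hY
  have hjj : ⟪j.1, j.1⟫ = 1 := by rw [real_inner_self_eq_norm_sq, hJ j hj]; norm_num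
  have hTT' : ∀ x ∈ T, ∀ u ∈ Ioc 0 (sl j x + δ), x + u • j.1 ∈ T' := by
    intro x hx u hu
    obtain ⟨h1, h2, h3⟩ := hTs x hx
    refine ⟨⟨?_, ?_⟩, ?_⟩
    · show -δ ≤ sl j (x + u • j.1)
      rw [sl_add_smul, hjj, mul_one]; linarith [hu.2]
    · refine mem_iInter₂.2 fun i hi => ?_
      obtain ⟨hi1, hi2⟩ := Finset.mem_erase.1 hi
      show 0 ≤ sl i (x + u • j.1)
      rw [sl_add_smul]
      have h4 := h3 i hi2 hi1
      have h5 := abs_real_inner_le_norm i.1 j.1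
      rw [hJ i hi2, hJ j hj, mul_one, abs_le] at h5
      have h6 : u * ⟪i.1, j.1⟫ ≤ u * 1 := mul_le_mul_of_nonneg_left h5.2 hu.1.le
      linarith [hu.2]
    · rw [mem_closedBall_zero_iff]
      have h4 : ‖x‖ ≤ R := by simpa using hR (hTK hx)
      have h5 : ‖u • j.1‖ ≤ 1 := by
        rw [norm_smul, hJ j hj, mul_one, Real.norm_of_nonneg hu.1.le]
        linarith [hu.2]
      exact (norm_add_le _ _).trans (add_le_add h4 h5)
  have key := fibre hv (hJ j hj) hδ hδr hT hT'm (fun x hx => ⟨(hTs x hx).1, (hTs x hx).2.1⟩) hTT'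
  refine key.trans ?_
  have hpt : ∀ x ∈ T', 4 / δ * (if sl j x < -(δ / 2) then ⟪j.1, Y x⟫ ^ 2 else 0) +
      6 * r * fderiv ℝ (fun x => ⟪j.1, Y x⟫) x j.1 ^ 2 ≤
      8 * r / w * (ed b (soft U J k) Y x * Real.exp (-(soft U J k x))) := by
    rintro x ⟨⟨hx1, hx2⟩, hx3⟩
    have hx1' : -δ ≤ sl j x := hx1
    have hx2' : ∀ i ∈ J.erase j, 0 ≤ sl i x := fun i hi => mem_iInter₂.1 hx2 i hi
    -- the weight
    have h1 : soft U J k x ≤ B + 1 := by
      unfold soft
      rw [← Finset.add_sum_erase J _ hj, Finset.sum_eq_zero fun i hi =>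
        w0_of_nonpos (neg_nonpos.2 (hx2' i hi)), add_zero]
      have h2 : w0 (-(sl j x)) ≤ δ ^ 3 :=
        (monotone_w0 (by linarith : -(sl j x) ≤ δ)).trans (w0_le hδ.le)
      have h3 : k * w0 (-(sl j x)) ≤ 1 := by
        refine (mul_le_mul_of_nonneg_left h2 hk0.le).trans (le_of_eq ?_)
        rw [hk]; field_simp
      linarith [hB' x hx3]
    have h2 : w ≤ Real.exp (-(soft U J k x)) := Real.exp_le_exp.2 (by linarith)
    -- the energy
    have h3 : k * (w2 (-(sl j x)) * (⟪j.1, Y x⟫ * ⟪j.1, Y x⟫)) ≤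
        fderiv ℝ (fderiv ℝ (soft U J k)) x (Y x) (Y x) := by
      rw [fderiv_soft2_apply hU]
      have h4 : w2 (-(sl j x)) * (⟪j.1, Y x⟫ * ⟪j.1, Y x⟫) ≤
          ∑ i ∈ J, w2 (-(sl i x)) * (⟪i.1, Y x⟫ * ⟪i.1, Y x⟫) :=
        Finset.single_le_sum (f := fun i => w2 (-(sl i x)) * (⟪i.1, Y x⟫ * ⟪i.1, Y x⟫))
          (fun i _ => mul_nonneg (w2_nonneg _) (mul_self_nonneg _)) hj
      have h5 := mul_le_mul_of_nonneg_left h4 hk0.le
      linarith [hU0 x (Y x)]
    have h4 : fderiv ℝ (fun x => ⟪j.1, Y x⟫) x j.1 ^ 2 ≤ hs b Y x := by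
      have e : fderiv ℝ (fun x => ⟪j.1, Y x⟫) x j.1 = ⟪j.1, fderiv ℝ Y x j.1⟫ := by
        have hd : HasFDerivAt (fun x => innerSL ℝ j.1 (Y x))
            ((innerSL ℝ j.1).comp (fderiv ℝ Y x)) x :=
          (innerSL ℝ j.1).hasFDerivAt.comp x
            ((hY.differentiable (by norm_num)) x).hasFDerivAt
        have : fderiv ℝ (fun x => ⟪j.1, Y x⟫) x = (innerSL ℝ j.1).comp (fderiv ℝ Y x) := hd.fderiv
        rw [this]; rfl
      rw [e]
      refine le_trans ?_ (sq_le_hs b (hJ j hj) Y x)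
      have h5 := abs_real_inner_le_norm j.1 (fderiv ℝ Y x j.1)
      rw [hJ j hj, one_mul] at h5
      rw [← sq_abs]
      exact pow_le_pow_left₀ (abs_nonneg _) h5 2
    have hV : 0 ≤ fderiv ℝ (fderiv ℝ (soft U J k)) x (Y x) (Y x) :=
      le_trans (by have := w2_nonneg (-(sl j x)); have := mul_self_nonneg ⟪j.1, Y x⟫
                   positivity) h3
    have h5 : 4 / δ * (if sl j x < -(δ / 2) then ⟪j.1, Y x⟫ ^ 2 else 0) ≤
        8 * r * fderiv ℝ (fderiv ℝ (soft U J k)) x (Y x) (Y x) := by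
      split_ifs with h
      · have h6 : δ / 2 ≤ w2 (-(sl j x)) := by
          rw [← w2_of_mem (by positivity : 0 ≤ δ / 2) (by linarith)]
          exact w2_mono (by linarith)
        have h7 : 4 / δ * ⟪j.1, Y x⟫ ^ 2 ≤
            8 * r * (k * (w2 (-(sl j x)) * (⟪j.1, Y x⟫ * ⟪j.1, Y x⟫))) := by
          have h8 : 4 / δ ≤ 8 * r * (k * w2 (-(sl j x))) := by
            calc 4 / δ ≤ 8 * r * (k * (δ / 2)) := by
                  rw [hk]
                  have e : 8 * r * (1 / δ ^ 3 * (δ / 2)) = 4 * r / δ ^ 2 := by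
                    field_simp; ring
                  rw [e, div_le_div_iff₀ hδ (by positivity)]
                  nlinarith
              _ ≤ _ := by gcongr
          have h9 := mul_le_mul_of_nonneg_right h8 (sq_nonneg ⟪j.1, Y x⟫)
          calc 4 / δ * ⟪j.1, Y x⟫ ^ 2 ≤ 8 * r * (k * w2 (-(sl j x))) * ⟪j.1, Y x⟫ ^ 2 := h9
            _ = _ := by ring
        exact h7.trans (mul_le_mul_of_nonneg_left h3 (by positivity))
      · rw [mul_zero]; positivity
    have h6 : 4 / δ * (if sl j x < -(δ / 2) then ⟪j.1, Y x⟫ ^ 2 else 0) +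
        6 * r * fderiv ℝ (fun x => ⟪j.1, Y x⟫) x j.1 ^ 2 ≤ 8 * r * ed b (soft U J k) Y x := by
      unfold ed
      have h7 : 6 * r * fderiv ℝ (fun x => ⟪j.1, Y x⟫) x j.1 ^ 2 ≤ 8 * r * hs b Y x := by
        have := hs_nonneg b Y x
        nlinarith [mul_le_mul_of_nonneg_left h4 hr0.le]
      linarith
    have h7 : 0 ≤ ed b (soft U J k) Y x := add_nonneg (hs_nonneg b Y x) hV
    calc _ ≤ 8 * r * ed b (soft U J k) Y x := h6
      _ = 8 * r / w * (ed b (soft U J k) Y x * w) := by field_simp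
      _ ≤ _ := by gcongr
  calc ENNReal.ofReal (3 * r) * ∫⁻ x in T', ENNReal.ofReal
        (4 / δ * (if sl j x < -(δ / 2) then ⟪j.1, Y x⟫ ^ 2 else 0) +
          6 * r * fderiv ℝ (fun x => ⟪j.1, Y x⟫) x j.1 ^ 2)
      ≤ ENNReal.ofReal (3 * r) * ∫⁻ x in T', ENNReal.ofReal
          (8 * r / w * (ed b (soft U J k) Y x * Real.exp (-(soft U J k x)))) :=
        mul_le_mul' le_rfl
          (setLIntegral_mono' hT'm fun x hx => ENNReal.ofReal_le_ofReal (hpt x hx))
    _ ≤ ENNReal.ofReal (3 * r) * ∫⁻ x, ENNReal.ofReal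
          (8 * r / w * (ed b (soft U J k) Y x * Real.exp (-(soft U J k x)))) :=
        mul_le_mul' le_rfl (setLIntegral_le_lintegral _ _)
    _ = ENNReal.ofReal (24 / w * r ^ 2) * ∫⁻ x, ENNReal.ofReal
          (ed b (soft U J k) Y x * Real.exp (-(soft U J k x))) := by
        have e : ∀ x, ENNReal.ofReal
            (8 * r / w * (ed b (soft U J k) Y x * Real.exp (-(soft U J k x)))) =
            ENNReal.ofReal (8 * r / w) *
              ENNReal.ofReal (ed b (soft U J k) Y x * Real.exp (-(soft U J k x))) := fun x => by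
          rw [ENNReal.ofReal_mul (by positivity)]
        simp only [e]
        rw [lintegral_const_mul' _ _ ENNReal.ofReal_ne_top, ← mul_assoc, ← ENNReal.ofReal_mul
          (by positivity)]
        congr 2
        field_simp
        ring

end field

end

end Crest.Agent.R144.Hsu498
end

-- ▼ part R144/Hsu5_498
section

/-!
# R144 (S0197), block HSU (helper498), file 5: the rigid field, pointwise
-/

set_option autoImplicit false
set_option linter.unusedSectionVars false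

open MeasureTheory Set Filter Topology
open scoped ENNReal NNReal RealInnerProductSpace

namespace Crest.Agent.R144.Hsu498

noncomputable section

section field

variable {E : Type*} [NormedAddCommGroup E] [InnerProductSpace ℝ E] [FiniteDimensional ℝ E]
  [MeasurableSpace E] [BorelSpace E] {ι : Type*} [Fintype ι]

/-- truncated and multiplied field -/
def Zf (g : E → ℝ) (M : ℝ) (Y : E → E) (x : E) : E := g x • trn M (Y x)

/-- weight of the wall `j` -/
def wc (N : ℕ) (r : ℝ) (j : E × ℝ) (x : E) : ℝ := cut N r (sl j x ^ 2)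

/-- field made rigid near the walls -/
def Wf (J : Finset (E × ℝ)) (N : ℕ) (r : ℝ) (Z : E → E) (x : E) : E :=
  Z x - ∑ j ∈ J, (wc N r j x * ⟪j.1, Z x⟫) • j.1

variable {J : Finset (E × ℝ)} {N : ℕ} {r : ℝ}

theorem contDiff_wc (j : E × ℝ) : ContDiff ℝ ((⊤ : ℕ∞) : WithTop ℕ∞) (wc N r j) := by
  unfold wc
  exact (contDiff_cut N r).comp ((contDiff_sl j).pow 2)

theorem contDiff_Zf {g : E → ℝ} {M : ℝ} {Y : E → E}
    (hg : ContDiff ℝ ((⊤ : ℕ∞) : WithTop ℕ∞) g) (hY : ContDiff ℝ ((⊤ : ℕ∞) : WithTop ℕ∞) Y) :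
    ContDiff ℝ ((⊤ : ℕ∞) : WithTop ℕ∞) (Zf g M Y) := by
  unfold Zf
  exact hg.smul ((contDiff_trn M).comp hY)

theorem contDiff_Wf {Z : E → E} (hZ : ContDiff ℝ ((⊤ : ℕ∞) : WithTop ℕ∞) Z) :
    ContDiff ℝ ((⊤ : ℕ∞) : WithTop ℕ∞) (Wf J N r Z) := by
  unfold Wf
  exact hZ.sub (ContDiff.sum fun j _ =>
    ((contDiff_wc j).mul (contDiff_const.inner ℝ hZ)).smul contDiff_const)

theorem hasCompactSupport_Zf {g : E → ℝ} {M : ℝ} {Y : E → E} (hY : HasCompactSupport Y) :
    HasCompactSupport (Zf g M Y) := by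
  refine hY.mono' ?_
  refine Function.support_subset_iff'.2 (fun x hx => ?_) |>.trans subset_closure
  have h : Y x = 0 := by simpa using hx
  unfold Zf; rw [h, trn_zero, smul_zero]

theorem hasCompactSupport_Wf {Z : E → E} (hZ : HasCompactSupport Z) :
    HasCompactSupport (Wf J N r Z) := by
  refine hZ.mono' ?_
  refine Function.support_subset_iff'.2 (fun x hx => ?_) |>.trans subset_closure
  have h : Z x = 0 := by simpa using hx
  unfold Wf; rw [h]; simp

theorem wc_nonneg (j : E × ℝ) (x : E) : 0 ≤ wc N r j x := cut_nonneg _ _ _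

theorem wc_le_one (j : E × ℝ) (x : E) : wc N r j x ≤ 1 := cut_le_one _ _ _

theorem wc_ne_zero (hr : 0 < r) {j : E × ℝ} {x : E} (h : wc N r j x ≠ 0) : sl j x ≤ 2 * r := by
  by_contra hcon
  push Not at hcon
  apply h
  unfold wc
  refine cut_eq_zero hr ?_
  nlinarith

theorem contract (hJ : ∀ j ∈ J, ‖j.1‖ = 1) (t : E × ℝ → ℝ) (h0 : ∀ j ∈ J, 0 ≤ t j)
    (h1 : ∀ j ∈ J, t j ≤ 1) (h2 : ∀ i ∈ J, ∀ j ∈ J, i ≠ j → t i = 0 ∨ t j = 0) (w : E) :
    ‖w - ∑ j ∈ J, (t j * ⟪j.1, w⟫) • j.1‖ ≤ ‖w‖ := by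
  by_cases h : ∃ i ∈ J, t i ≠ 0
  · obtain ⟨i, hi, hti⟩ := h
    have e : ∑ j ∈ J, (t j * ⟪j.1, w⟫) • j.1 = (t i * ⟪i.1, w⟫) • i.1 := by
      refine Finset.sum_eq_single i (fun j hj hji => ?_) fun h' => absurd hi h'
      rcases h2 i hi j hj hji.symm with h' | h'
      · exact absurd h' hti
      · rw [h', zero_mul, zero_smul]
    rw [e]
    refine le_of_sq_le_sq ?_ (norm_nonneg _)
    rw [norm_sub_sq_real, norm_smul, inner_smul_right, hJ i hi, mul_one, Real.norm_eq_abs, sq_abs,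
      real_inner_comm i.1 w]
    have h3 := h0 i hi
    have h4 := h1 i hi
    have h5 : t i ^ 2 ≤ 2 * t i := by nlinarith
    have h6 := mul_le_mul_of_nonneg_right h5 (sq_nonneg ⟪i.1, w⟫)
    nlinarith
  · push Not at h
    rw [Finset.sum_eq_zero fun j hj => by rw [h j hj, zero_mul, zero_smul], sub_zero]

theorem fderiv_Wf {Z : E → E} {x : E} (hZ : DifferentiableAt ℝ Z x) (z : E) :
    fderiv ℝ (Wf J N r Z) x z = (fderiv ℝ Z x z -
      ∑ j ∈ J, (wc N r j x * ⟪j.1, fderiv ℝ Z x z⟫) • j.1) +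
      ∑ j ∈ J, (2 * sl j x * deriv (cut N r) (sl j x ^ 2) * ⟪j.1, z⟫ * ⟪j.1, Z x⟫) • j.1 := by
  have hwc : ∀ j : E × ℝ, HasFDerivAt (wc N r j)
      ((-(2 * sl j x * deriv (cut N r) (sl j x ^ 2))) • innerSL ℝ j.1) x := by
    intro j
    have h1 : HasDerivAt (cut N r) (deriv (cut N r) (sl j x ^ 2)) (sl j x ^ 2) :=
      (hasDerivAt_cut N r _).differentiableAt.hasDerivAt
    have h2 : HasFDerivAt (fun x => sl j x ^ 2) ((-(2 * sl j x)) • innerSL ℝ j.1) x := by
      refine ((hasFDerivAt_sl j x).pow 2).congr_fderiv ?_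
      ext z
      simp
    refine (h1.comp_hasFDerivAt x h2).congr_fderiv ?_
    rw [smul_smul]
    congr 1
    ring
  have hin : ∀ j : E × ℝ, HasFDerivAt (fun x => innerSL ℝ j.1 (Z x))
      ((innerSL ℝ j.1).comp (fderiv ℝ Z x)) x := fun j =>
    (innerSL ℝ j.1).hasFDerivAt.comp x hZ.hasFDerivAt
  have hterm : ∀ j : E × ℝ, HasFDerivAt (fun x => (wc N r j x * innerSL ℝ j.1 (Z x)) • j.1)
      ((wc N r j x • ((innerSL ℝ j.1).comp (fderiv ℝ Z x)) + (innerSL ℝ j.1 (Z x)) •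
        ((-(2 * sl j x * deriv (cut N r) (sl j x ^ 2))) • innerSL ℝ j.1)).smulRight j.1) x :=
    fun j => ((hwc j).mul (hin j)).smul_const j.1
  have hsum := HasFDerivAt.fun_sum (u := J) fun j _ => hterm j
  have hall : HasFDerivAt (Wf J N r Z) _ x := hZ.hasFDerivAt.sub hsum
  rw [hall.fderiv]
  simp only [sub_apply, sum_apply, ContinuousLinearMap.smulRight_apply, add_apply, smul_apply,
    ContinuousLinearMap.comp_apply, innerSL_apply_apply, smul_eq_mul]
  rw [sub_add, ← Finset.sum_sub_distrib]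
  congr 1
  refine Finset.sum_congr rfl fun j _ => ?_
  rw [← sub_smul]
  congr 1
  ring

variable {g : E → ℝ} {ρ : ℝ}

/-- the multiplier kills the corners -/
def Kills (J : Finset (E × ℝ)) (g : E → ℝ) (ρ : ℝ) : Prop :=
  ∀ x ∈ poly J, ∀ i ∈ J, ∀ j ∈ J, i ≠ j → sl i x ≤ ρ → sl j x ≤ ρ → g x = 0

theorem one_active (hK : Kills J g ρ) (hr : 0 < r) (hrρ : 2 * r ≤ ρ) {x : E} (hx : x ∈ poly J)
    (hg : g x ≠ 0) : ∀ i ∈ J, ∀ j ∈ J, i ≠ j → wc N r i x = 0 ∨ wc N r j x = 0 := by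
  intro i hi j hj hij
  by_contra hcon
  rw [not_or] at hcon
  exact hg (hK x hx i hi j hj hij ((wc_ne_zero hr hcon.1).trans hrρ)
    ((wc_ne_zero hr hcon.2).trans hrρ))

theorem Zf_zero {M : ℝ} {Y : E → E} {x : E} (hg : g x = 0) : Zf g M Y x = 0 := by
  unfold Zf; rw [hg, zero_smul]

theorem norm_Zf_le (hg0 : ∀ x, 0 ≤ g x) (hg1 : ∀ x, g x ≤ 1) {M : ℝ} (hM : 0 < M) (Y : E → E)
    (x : E) : ‖Zf g M Y x‖ ≤ M := by
  unfold Zf
  rw [norm_smul, Real.norm_of_nonneg (hg0 x)]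
  exact (mul_le_of_le_one_left (norm_nonneg _) (hg1 x)).trans (norm_trn_le hM _)

theorem norm_Wf_le (hJ : ∀ j ∈ J, ‖j.1‖ = 1) (hK : Kills J g ρ) (hr : 0 < r) (hrρ : 2 * r ≤ ρ)
    {M : ℝ} {Y : E → E} {x : E} (hx : x ∈ poly J) :
    ‖Wf J N r (Zf g M Y) x‖ ≤ ‖Zf g M Y x‖ := by
  by_cases hg : g x = 0
  · unfold Wf; rw [Zf_zero hg]; simp
  · exact contract hJ (fun j => wc N r j x) (fun j _ => wc_nonneg j x) (fun j _ => wc_le_one j x)
      (one_active hK hr hrρ hx hg) _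

theorem rigid (hJ : ∀ j ∈ J, ‖j.1‖ = 1) (hK : Kills J g ρ) (hN : 0 < N) (hr : 0 < r)
    (hrρ : 2 * r ≤ ρ) {M : ℝ} {Y : E → E} {x : E} (hx : x ∈ poly J) {j : E × ℝ} (hj : j ∈ J)
    (hs : sl j x ≤ r / 2 ^ N) : ⟪j.1, Wf J N r (Zf g M Y) x⟫ = 0 := by
  by_cases hg : g x = 0
  · unfold Wf; rw [Zf_zero hg]; simp
  · have h1 : wc N r j x = 1 := by
      unfold wc
      refine cut_eq_one hN hr ?_
      have h2 : sl j x ^ 2 ≤ (r / 2 ^ N) ^ 2 := pow_le_pow_left₀ (hx j hj) hs 2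
      have h4 : (4 : ℝ) ^ N = (2 ^ N) ^ 2 := by rw [← pow_mul, mul_comm N 2, pow_mul]; norm_num
      calc 4 ^ N * sl j x ^ 2 ≤ 4 ^ N * (r / 2 ^ N) ^ 2 :=
            mul_le_mul_of_nonneg_left h2 (by positivity)
        _ = r ^ 2 := by rw [h4]; field_simp
    have h2 : ∑ i ∈ J, (wc N r i x * ⟪i.1, Zf g M Y x⟫) • i.1 = ⟪j.1, Zf g M Y x⟫ • j.1 := by
      rw [Finset.sum_eq_single j, h1, one_mul]
      · intro i hi hij
        rcases one_active (N := N) hK hr hrρ hx hg i hi j hj hij with h | h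
        · rw [h, zero_mul, zero_smul]
        · rw [h1] at h; exact absurd h one_ne_zero
      · intro h; exact absurd hj h
    unfold Wf
    rw [h2, inner_sub_right, inner_smul_right, real_inner_self_eq_norm_sq, hJ j hj]
    ring

theorem norm_Zf_sub_Wf (hJ : ∀ j ∈ J, ‖j.1‖ = 1) (hg0 : ∀ x, 0 ≤ g x) (hg1 : ∀ x, g x ≤ 1)
    {M : ℝ} (hM : 0 < M) (Y : E → E) (x : E) :
    ‖Zf g M Y x - Wf J N r (Zf g M Y) x‖ ≤ M * ∑ j ∈ J, wc N r j x := by
  unfold Wf
  rw [sub_sub_cancel, Finset.mul_sum]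
  refine (norm_sum_le _ _).trans (Finset.sum_le_sum fun j hj => ?_)
  rw [norm_smul, hJ j hj, mul_one, norm_mul, Real.norm_of_nonneg (wc_nonneg j x), mul_comm]
  refine mul_le_mul_of_nonneg_right ?_ (wc_nonneg j x)
  have h1 := abs_real_inner_le_norm j.1 (Zf g M Y x)
  rw [hJ j hj, one_mul] at h1
  exact h1.trans (norm_Zf_le hg0 hg1 hM Y x)

theorem norm_sub_Wf (hJ : ∀ j ∈ J, ‖j.1‖ = 1) (hg0 : ∀ x, 0 ≤ g x) (hg1 : ∀ x, g x ≤ 1)
    {M : ℝ} (hM : 0 < M) (Y : E → E) (x : E) :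
    ‖Y x - Wf J N r (Zf g M Y) x‖ ≤ ‖Y x‖ ^ 2 / M + M * (1 - g x) + M * ∑ j ∈ J, wc N r j x := by
  have h1 := norm_sub_trn_le hM (Y x)
  have h2 : ‖trn M (Y x) - Zf g M Y x‖ ≤ M * (1 - g x) := by
    have e : trn M (Y x) - Zf g M Y x = (1 - g x) • trn M (Y x) := by
      unfold Zf; rw [sub_smul, one_smul]
    rw [e, norm_smul, Real.norm_of_nonneg (by linarith [hg1 x]), mul_comm]
    exact mul_le_mul_of_nonneg_right (norm_trn_le hM _) (by linarith [hg1 x])
  have h3 := norm_Zf_sub_Wf (N := N) (r := r) hJ hg0 hg1 hM Y x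
  have e : Y x - Wf J N r (Zf g M Y) x = (Y x - trn M (Y x)) + (trn M (Y x) - Zf g M Y x) +
      (Zf g M Y x - Wf J N r (Zf g M Y) x) := by abel
  rw [e]
  exact (norm_add_le _ _).trans (add_le_add ((norm_add_le _ _).trans (add_le_add h1 h2)) h3)

theorem inner_Zf_sq_le (hg0 : ∀ x, 0 ≤ g x) (hg1 : ∀ x, g x ≤ 1) (M : ℝ) (Y : E → E) (a x : E) :
    ⟪a, Zf g M Y x⟫ ^ 2 ≤ ⟪a, Y x⟫ ^ 2 := by
  unfold Zf
  rw [inner_smul_right, mul_pow]
  exact (mul_le_of_le_one_left (sq_nonneg _) (pow_le_one₀ (hg0 x) (hg1 x))).trans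
    (inner_trn_sq_le M a (Y x))

theorem norm_fderiv_Wf (hJ : ∀ j ∈ J, ‖j.1‖ = 1)
    (hgs : ContDiff ℝ ((⊤ : ℕ∞) : WithTop ℕ∞) g) (hg0 : ∀ x, 0 ≤ g x) (hg1 : ∀ x, g x ≤ 1)
    (hK : Kills J g ρ) (hr : 0 < r) (hrρ : 2 * r ≤ ρ) {M : ℝ} (hM : 0 < M) {Y : E → E}
    (hY : ContDiff ℝ ((⊤ : ℕ∞) : WithTop ℕ∞) Y) {x : E} (hx : x ∈ poly J) {z : E}
    (hz : ‖z‖ = 1) : ‖fderiv ℝ (Wf J N r (Zf g M Y)) x z‖ ≤ ‖fderiv ℝ Y x z‖ +
      (M * ‖fderiv ℝ g x‖ +
        ∑ j ∈ J, |2 * sl j x * deriv (cut N r) (sl j x ^ 2)| * |⟪j.1, Zf g M Y x⟫|) := by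
  have hZs := contDiff_Zf (M := M) hgs hY
  have hZd : DifferentiableAt ℝ (Zf g M Y) x := (hZs.differentiable (by simp)) x
  have hYd : DifferentiableAt ℝ Y x := (hY.differentiable (by simp)) x
  have hgd : DifferentiableAt ℝ g x := (hgs.differentiable (by simp)) x
  have hTd : DifferentiableAt ℝ (fun x => trn M (Y x)) x :=
    ((contDiff_trn M (n := 1)).differentiable (by norm_num)).differentiableAt.comp x hYd
  have e1 : fderiv ℝ (Zf g M Y) x z =
      g x • fderiv ℝ (fun x => trn M (Y x)) x z + fderiv ℝ g x z • trn M (Y x) := by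
    have h := (hgd.hasFDerivAt.smul hTd.hasFDerivAt)
    have h2 : fderiv ℝ (Zf g M Y) x = _ := h.fderiv
    rw [h2]
    simp
  have hZb : ‖fderiv ℝ (Zf g M Y) x z‖ ≤ ‖fderiv ℝ Y x z‖ + M * ‖fderiv ℝ g x‖ := by
    rw [e1]
    refine (norm_add_le _ _).trans (add_le_add ?_ ?_)
    · rw [norm_smul, Real.norm_of_nonneg (hg0 x)]
      exact (mul_le_of_le_one_left (norm_nonneg _) (hg1 x)).trans
        (norm_fderiv_trn_comp hM hYd z)
    · rw [norm_smul, mul_comm]
      refine mul_le_mul (norm_trn_le hM _) ?_ (norm_nonneg _) hM.le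
      have := (fderiv ℝ g x).le_opNorm z
      rwa [hz, mul_one] at this
  have hsum : ‖∑ j ∈ J, (2 * sl j x * deriv (cut N r) (sl j x ^ 2) * ⟪j.1, z⟫ *
      ⟪j.1, Zf g M Y x⟫) • j.1‖ ≤
      ∑ j ∈ J, |2 * sl j x * deriv (cut N r) (sl j x ^ 2)| * |⟪j.1, Zf g M Y x⟫| := by
    refine (norm_sum_le _ _).trans (Finset.sum_le_sum fun j hj => ?_)
    rw [norm_smul, hJ j hj, mul_one, Real.norm_eq_abs, abs_mul, abs_mul]
    have h1 := abs_real_inner_le_norm j.1 z
    rw [hJ j hj, hz, mul_one] at h1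
    refine mul_le_mul_of_nonneg_right ?_ (abs_nonneg _)
    exact mul_le_of_le_one_right (abs_nonneg _) h1
  rw [fderiv_Wf hZd]
  by_cases hg : g x = 0
  · have hmin : IsLocalMin g x := Eventually.of_forall fun y => by rw [hg]; exact hg0 y
    have h0 : fderiv ℝ (Zf g M Y) x z = 0 := by
      rw [e1, hg, hmin.fderiv_eq_zero]; simp
    rw [h0]
    simp only [inner_zero_right, mul_zero, zero_smul, Finset.sum_const_zero, sub_zero, zero_add]
    refine hsum.trans ?_
    have := norm_nonneg (fderiv ℝ Y x z)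
    have := mul_nonneg hM.le (norm_nonneg (fderiv ℝ g x))
    linarith
  · have h1 := contract hJ (fun j => wc N r j x) (fun j _ => wc_nonneg j x)
      (fun j _ => wc_le_one j x) (one_active hK hr hrρ hx hg) (fderiv ℝ (Zf g M Y) x z)
    refine (norm_add_le _ _).trans ?_
    linarith

end field

end

end Crest.Agent.R144.Hsu498
end

-- ▼ part R144/Hsu6_498
section

/-!
# R144 (S0197), block HSU (helper498), file 6: the rigid field, integrated
-/

set_option autoImplicit false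
set_option linter.unusedSectionVars false

open MeasureTheory Set Filter Topology
open scoped ENNReal NNReal RealInnerProductSpace

namespace Crest.Agent.R144.Hsu498

noncomputable section

section field

variable {E : Type*} [NormedAddCommGroup E] [InnerProductSpace ℝ E] [FiniteDimensional ℝ E]
  [MeasurableSpace E] [BorelSpace E] {ι : Type*} [Fintype ι]

variable {J : Finset (E × ℝ)} {N : ℕ} {r : ℝ} {g : E → ℝ} {ρ : ℝ} {U : E → ℝ}

/-- the cost of the rigidification at the wall `j` -/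
def wcost (N : ℕ) (r : ℝ) (g : E → ℝ) (M : ℝ) (Y : E → E) (j : E × ℝ) (x : E) : ℝ :=
  4 * (sl j x ^ 2 * deriv (cut N r) (sl j x ^ 2) ^ 2) * ⟪j.1, Zf g M Y x⟫ ^ 2

theorem wcost_nonneg {M : ℝ} {Y : E → E} (j : E × ℝ) (x : E) : 0 ≤ wcost N r g M Y j x := by
  unfold wcost; positivity

theorem continuous_wcost (hgs : ContDiff ℝ ((⊤ : ℕ∞) : WithTop ℕ∞) g) {M : ℝ} {Y : E → E}
    (hY : ContDiff ℝ ((⊤ : ℕ∞) : WithTop ℕ∞) Y) (j : E × ℝ) :
    Continuous (wcost N r g M Y j) := by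
  unfold wcost
  have h1 := (contDiff_Zf (M := M) hgs hY).continuous
  have h2 : Continuous (deriv (cut N r)) := (contDiff_cut N r (n := 1)).continuous_deriv le_rfl
  have h3 := continuous_sl j
  have h4 : Continuous fun x => ⟪j.1, Zf g M Y x⟫ := continuous_const.inner h1
  exact (continuous_const.mul ((h3.pow 2).mul ((h2.comp (h3.pow 2)).pow 2))).mul (h4.pow 2)

theorem hs_Wf_le (b : OrthonormalBasis ι ℝ E) (hJ : ∀ j ∈ J, ‖j.1‖ = 1)
    (hgs : ContDiff ℝ ((⊤ : ℕ∞) : WithTop ℕ∞) g) (hg0 : ∀ x, 0 ≤ g x) (hg1 : ∀ x, g x ≤ 1)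
    (hK : Kills J g ρ) (hr : 0 < r) (hrρ : 2 * r ≤ ρ) {M : ℝ} (hM : 0 < M) {Y : E → E}
    (hY : ContDiff ℝ ((⊤ : ℕ∞) : WithTop ℕ∞) Y) {x : E} (hx : x ∈ poly J) {κ : ℝ} (hκ : 0 < κ) :
    hs b (Wf J N r (Zf g M Y)) x ≤ (1 + κ) * hs b Y x + (1 + 1 / κ) * Fintype.card ι *
      (2 * M ^ 2 * ‖fderiv ℝ g x‖ ^ 2 + 2 * J.card * ∑ j ∈ J, wcost N r g M Y j x) := by
  set D : ℝ := M * ‖fderiv ℝ g x‖ +
    ∑ j ∈ J, |2 * sl j x * deriv (cut N r) (sl j x ^ 2)| * |⟪j.1, Zf g M Y x⟫| with hD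
  have hD0 : 0 ≤ D := add_nonneg (mul_nonneg hM.le (norm_nonneg _))
    (Finset.sum_nonneg fun _ _ => mul_nonneg (abs_nonneg _) (abs_nonneg _))
  have hD2 : D ^ 2 ≤ 2 * M ^ 2 * ‖fderiv ℝ g x‖ ^ 2 +
      2 * J.card * ∑ j ∈ J, wcost N r g M Y j x := by
    have h1 : (∑ j ∈ J, |2 * sl j x * deriv (cut N r) (sl j x ^ 2)| *
        |⟪j.1, Zf g M Y x⟫|) ^ 2 ≤ J.card * ∑ j ∈ J, wcost N r g M Y j x := by
      refine sq_sum_le_card_mul_sum_sq.trans (le_of_eq ?_)
      congr 1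
      refine Finset.sum_congr rfl fun j _ => ?_
      unfold wcost
      rw [mul_pow, sq_abs, sq_abs]; ring
    have h2 : D ^ 2 ≤ 2 * (M * ‖fderiv ℝ g x‖) ^ 2 + 2 * (∑ j ∈ J,
        |2 * sl j x * deriv (cut N r) (sl j x ^ 2)| * |⟪j.1, Zf g M Y x⟫|) ^ 2 := by
      rw [hD]
      nlinarith [sq_nonneg (M * ‖fderiv ℝ g x‖ - ∑ j ∈ J,
        |2 * sl j x * deriv (cut N r) (sl j x ^ 2)| * |⟪j.1, Zf g M Y x⟫|)]
    rw [mul_pow] at h2
    linarith
  have hi : ∀ i, ‖fderiv ℝ (Wf J N r (Zf g M Y)) x (b i)‖ ^ 2 ≤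
      (1 + κ) * ‖fderiv ℝ Y x (b i)‖ ^ 2 + (1 + 1 / κ) * D ^ 2 := by
    intro i
    have h1 := norm_fderiv_Wf (N := N) hJ hgs hg0 hg1 hK hr hrρ hM hY hx (b.norm_eq_one i)
    rw [← hD] at h1
    have h2 := pow_le_pow_left₀ (norm_nonneg _) h1 2
    set A := ‖fderiv ℝ Y x (b i)‖ with hA
    have h3 : 2 * A * D ≤ κ * A ^ 2 + 1 / κ * D ^ 2 := by
      have h4 : 0 ≤ (κ * A - D) ^ 2 / κ := by positivity
      have h5 : (κ * A - D) ^ 2 / κ = κ * A ^ 2 + 1 / κ * D ^ 2 - 2 * A * D := by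
        field_simp; ring
      linarith
    nlinarith
  unfold hs
  calc ∑ i, ‖fderiv ℝ (Wf J N r (Zf g M Y)) x (b i)‖ ^ 2
      ≤ ∑ i, ((1 + κ) * ‖fderiv ℝ Y x (b i)‖ ^ 2 + (1 + 1 / κ) * D ^ 2) :=
        Finset.sum_le_sum fun i _ => hi i
    _ = (1 + κ) * ∑ i, ‖fderiv ℝ Y x (b i)‖ ^ 2 + (1 + 1 / κ) * Fintype.card ι * D ^ 2 := by
        rw [Finset.sum_add_distrib, ← Finset.mul_sum, Finset.sum_const, Finset.card_univ,
          nsmul_eq_mul]
        ring
    _ ≤ _ := by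
        have : 0 ≤ (1 + 1 / κ) * Fintype.card ι := by positivity
        have := mul_le_mul_of_nonneg_left hD2 this
        linarith

theorem hess_Wf_le (hJ : ∀ j ∈ J, ‖j.1‖ = 1) (hg0 : ∀ x, 0 ≤ g x) (hg1 : ∀ x, g x ≤ 1)
    (hK : Kills J g ρ) (hr : 0 < r) (hrρ : 2 * r ≤ ρ) {M : ℝ} (hM : 0 < M) {Y : E → E}
    {C : ℝ} (hC0 : 0 ≤ C) (hC : ∀ x y z, |fderiv ℝ (fderiv ℝ U) x y z| ≤ C * ‖y‖ * ‖z‖)
    (hU0 : ∀ x y, 0 ≤ fderiv ℝ (fderiv ℝ U) x y y) {x : E} (hx : x ∈ poly J) :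
    fderiv ℝ (fderiv ℝ U) x (Wf J N r (Zf g M Y) x) (Wf J N r (Zf g M Y) x) ≤
      fderiv ℝ (fderiv ℝ U) x (Y x) (Y x) + 2 * C * M ^ 2 * ∑ j ∈ J, wc N r j x := by
  set B := fderiv ℝ (fderiv ℝ U) x with hB
  set W := Wf J N r (Zf g M Y) x with hW
  set Z := Zf g M Y x with hZ
  have h1 : B Z Z ≤ B (Y x) (Y x) := by
    have e : Z = (g x * (1 + ‖Y x‖ ^ 2 / M ^ 2)⁻¹) • Y x := by
      rw [hZ]; unfold Zf trn; rw [smul_smul]
    rw [e]
    simp only [map_smul, smul_apply, smul_eq_mul]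
    rw [← mul_assoc]
    refine mul_le_of_le_one_left (hU0 x (Y x)) ?_
    have hi0 : 0 ≤ (1 + ‖Y x‖ ^ 2 / M ^ 2)⁻¹ := inv_nonneg.2 (trn_pos M (Y x)).le
    have hi1 : (1 + ‖Y x‖ ^ 2 / M ^ 2)⁻¹ ≤ 1 := by
      refine inv_le_one_of_one_le₀ ?_
      have : 0 ≤ ‖Y x‖ ^ 2 / M ^ 2 := by positivity
      linarith
    have h2 : g x * (1 + ‖Y x‖ ^ 2 / M ^ 2)⁻¹ ≤ 1 := mul_le_one₀ (hg1 x) hi0 hi1
    have h3 : 0 ≤ g x * (1 + ‖Y x‖ ^ 2 / M ^ 2)⁻¹ := mul_nonneg (hg0 x) hi0
    exact mul_le_one₀ h2 h3 h2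
  have h2 : ‖Z‖ ≤ M := norm_Zf_le hg0 hg1 hM Y x
  have h3 : ‖W‖ ≤ M := (norm_Wf_le hJ hK hr hrρ hx).trans h2
  have h4 : ‖Z - W‖ ≤ M * ∑ j ∈ J, wc N r j x := norm_Zf_sub_Wf hJ hg0 hg1 hM Y x
  have e : B W W = B Z Z - B (Z - W) W - B Z (Z - W) := by
    simp only [map_sub, sub_apply]; ring
  have h5 : |B (Z - W) W| ≤ C * (M * ∑ j ∈ J, wc N r j x) * M :=
    (hC x _ _).trans (mul_le_mul (mul_le_mul_of_nonneg_left h4 hC0) h3 (norm_nonneg _)
      (mul_nonneg hC0 ((norm_nonneg _).trans h4)))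
  have h6 : |B Z (Z - W)| ≤ C * M * (M * ∑ j ∈ J, wc N r j x) :=
    (hC x _ _).trans (mul_le_mul (mul_le_mul_of_nonneg_left h2 hC0) h4 (norm_nonneg _)
      (mul_nonneg hC0 hM.le))
  rw [e]
  have h7 := (abs_le.1 h5).1
  have h8 := (abs_le.1 h6).1
  have e2 : C * (M * ∑ j ∈ J, wc N r j x) * M + C * M * (M * ∑ j ∈ J, wc N r j x) =
      2 * C * M ^ 2 * ∑ j ∈ J, wc N r j x := by ring
  linarith

/-- the cost at one wall -/
theorem wall_cost {Cc : ℝ} (hCc0 : 0 ≤ Cc) (hCc : ∀ (N : ℕ) (ρ q : ℝ), 0 < ρ → 0 ≤ q →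
    q * deriv (cut N ρ) q ^ 2 ≤ Cc / (N : ℝ) ^ 2 * ∑ m ∈ Finset.range N,
      4 ^ m / ρ ^ 2 * (if ρ ^ 2 ≤ 4 ^ m * q ∧ 4 ^ m * q ≤ 2 * ρ ^ 2 then 1 else 0))
    (hgs : ContDiff ℝ ((⊤ : ℕ∞) : WithTop ℕ∞) g) (hg0 : ∀ x, 0 ≤ g x) (hg1 : ∀ x, g x ≤ 1)
    (hK : Kills J g ρ) (hN : 0 < N) (hr : 0 < r) (hrρ : 3 * r ≤ ρ) {M : ℝ} {Y : E → E}
    (hYc : Continuous Y) {δ CW A : ℝ} (hCW : 0 ≤ CW) (hδ : δ ≤ r / 2 ^ N) {j : E × ℝ} (hj : j ∈ J)
    (hW : ∀ s : ℝ, δ ≤ s → s ≤ r → ∀ T : Set E, MeasurableSet T → T ⊆ poly J →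
      (∀ x ∈ T, s ≤ sl j x ∧ sl j x ≤ 2 * s ∧ ∀ i ∈ J, i ≠ j → 3 * s ≤ sl i x) →
      ∫⁻ x in T, ENNReal.ofReal (⟪j.1, Y x⟫ ^ 2) ≤
        ENNReal.ofReal (CW * s ^ 2) * ENNReal.ofReal A) :
    ∫⁻ x in poly J, ENNReal.ofReal (wcost N r g M Y j x) ≤
      ENNReal.ofReal (4 * Cc * CW * A / N) := by
  have hNr : (0 : ℝ) < N := by exact_mod_cast hN
  set T : ℕ → Set E := fun m => poly J ∩ {x | g x ≠ 0 ∧
    (r ^ 2 ≤ 4 ^ m * sl j x ^ 2 ∧ 4 ^ m * sl j x ^ 2 ≤ 2 * r ^ 2)} with hT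
  have hTm : ∀ m, MeasurableSet (T m) := by
    intro m
    refine isClosed_poly.measurableSet.inter (MeasurableSet.inter ?_ (MeasurableSet.inter ?_ ?_))
    · exact (measurableSet_eq_fun hgs.continuous.measurable measurable_const).compl
    · exact measurableSet_le measurable_const
        (measurable_const.mul ((continuous_sl j).pow 2).measurable)
    · exact measurableSet_le (measurable_const.mul ((continuous_sl j).pow 2).measurable)
        measurable_const
  have hTint : ∀ m ∈ Finset.range N, ∫⁻ x in T m, ENNReal.ofReal (⟪j.1, Y x⟫ ^ 2) ≤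
      ENNReal.ofReal (CW * (r / 2 ^ m) ^ 2) * ENNReal.ofReal A := by
    intro m hm
    have hm' := Finset.mem_range.1 hm
    have h2m : (0 : ℝ) < 2 ^ m := by positivity
    have h1m : (1 : ℝ) ≤ 2 ^ m := one_le_pow₀ (by norm_num)
    have hrm : r / 2 ^ m ≤ r := div_le_self hr.le h1m
    refine hW (r / 2 ^ m) ?_ hrm (T m) (hTm m) inter_subset_left ?_
    · refine hδ.trans ?_
      exact div_le_div_of_nonneg_left hr.le h2m (pow_le_pow_right₀ (by norm_num) hm'.le)
    · rintro x ⟨hx, hgx, h3, h4⟩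
      have h0 := hx j hj
      have e4 : (4 : ℝ) ^ m = (2 ^ m) ^ 2 := by rw [← pow_mul, mul_comm m 2, pow_mul]; norm_num
      rw [e4, ← mul_pow] at h3 h4
      have h5 : r ≤ 2 ^ m * sl j x := le_of_sq_le_sq h3 (by positivity)
      have h6 : 2 ^ m * sl j x ≤ 2 * r := by
        refine le_of_sq_le_sq ?_ (by positivity)
        nlinarith
      have h7 : sl j x ≤ 2 * (r / 2 ^ m) := by
        rw [← mul_div_assoc, le_div_iff₀ h2m]; linarith
      refine ⟨by rw [div_le_iff₀ h2m]; linarith, h7, fun i hi hij => ?_⟩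
      by_contra hcon
      push Not at hcon
      exact hgx (hK x hx i hi j hj hij (by linarith) (by linarith))
  calc ∫⁻ x in poly J, ENNReal.ofReal (wcost N r g M Y j x)
      ≤ ∫⁻ x in poly J, ∑ m ∈ Finset.range N, ENNReal.ofReal (4 * (Cc / (N : ℝ) ^ 2 *
          (4 ^ m / r ^ 2))) * (T m).indicator (fun x => ENNReal.ofReal (⟪j.1, Y x⟫ ^ 2)) x := by
        refine setLIntegral_mono' isClosed_poly.measurableSet fun x hx => ?_
        have h2 := hCc N r (sl j x ^ 2) hr (sq_nonneg _)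
        by_cases hgx : g x = 0
        · unfold wcost
          rw [Zf_zero hgx]; simp
        have h3 : wcost N r g M Y j x ≤ ∑ m ∈ Finset.range N, 4 * (Cc / (N : ℝ) ^ 2 *
            (4 ^ m / r ^ 2)) * ((if r ^ 2 ≤ 4 ^ m * sl j x ^ 2 ∧ 4 ^ m * sl j x ^ 2 ≤ 2 * r ^ 2
              then 1 else 0) * ⟪j.1, Y x⟫ ^ 2) := by
          unfold wcost
          calc 4 * (sl j x ^ 2 * deriv (cut N r) (sl j x ^ 2) ^ 2) * ⟪j.1, Zf g M Y x⟫ ^ 2
              ≤ 4 * (Cc / (N : ℝ) ^ 2 * ∑ m ∈ Finset.range N, 4 ^ m / r ^ 2 *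
                (if r ^ 2 ≤ 4 ^ m * sl j x ^ 2 ∧ 4 ^ m * sl j x ^ 2 ≤ 2 * r ^ 2 then 1 else 0)) *
                ⟪j.1, Y x⟫ ^ 2 := by
                refine mul_le_mul (mul_le_mul_of_nonneg_left h2 (by norm_num))
                  (inner_Zf_sq_le hg0 hg1 M Y j.1 x) (sq_nonneg _) ?_
                have : ∀ m ∈ Finset.range N, (0 : ℝ) ≤ 4 ^ m / r ^ 2 *
                    (if r ^ 2 ≤ 4 ^ m * sl j x ^ 2 ∧ 4 ^ m * sl j x ^ 2 ≤ 2 * r ^ 2
                      then 1 else 0) := fun m _ => by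
                  split_ifs
                  · positivity
                  · simp
                have := Finset.sum_nonneg this
                positivity
            _ = _ := by
                rw [Finset.mul_sum, Finset.mul_sum, Finset.sum_mul]
                exact Finset.sum_congr rfl fun m _ => by ring
        refine (ENNReal.ofReal_le_ofReal h3).trans ?_
        rw [ENNReal.ofReal_sum_of_nonneg fun m _ => by
          have : (0 : ℝ) ≤ (if r ^ 2 ≤ 4 ^ m * sl j x ^ 2 ∧ 4 ^ m * sl j x ^ 2 ≤ 2 * r ^ 2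
            then 1 else 0) := by split_ifs <;> norm_num
          positivity]
        refine Finset.sum_le_sum fun m _ => ?_
        by_cases h : r ^ 2 ≤ 4 ^ m * sl j x ^ 2 ∧ 4 ^ m * sl j x ^ 2 ≤ 2 * r ^ 2
        · have h' : x ∈ T m := ⟨hx, hgx, h⟩
          rw [if_pos h, one_mul, indicator_of_mem h', ENNReal.ofReal_mul (by positivity)]
        · rw [if_neg h]; simp
    _ = ∑ m ∈ Finset.range N, ENNReal.ofReal (4 * (Cc / (N : ℝ) ^ 2 * (4 ^ m / r ^ 2))) *
          ∫⁻ x in T m, ENNReal.ofReal (⟪j.1, Y x⟫ ^ 2) := by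
        rw [lintegral_finsetSum' _ fun m _ => ?_]
        · refine Finset.sum_congr rfl fun m _ => ?_
          rw [lintegral_const_mul' _ _ ENNReal.ofReal_ne_top, lintegral_indicator (hTm m),
            Measure.restrict_restrict (hTm m)]
          rw [inter_eq_left.2 (inter_subset_left : T m ⊆ poly J)]
        · have h5 : Continuous fun x => ⟪j.1, Y x⟫ ^ 2 := (continuous_const.inner hYc).pow 2
          exact (((ENNReal.measurable_ofReal.comp h5.measurable).indicator (hTm m)).const_mul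
            _).aemeasurable
    _ ≤ ∑ m ∈ Finset.range N, ENNReal.ofReal (4 * Cc * CW * A / (N : ℝ) ^ 2) := by
        refine Finset.sum_le_sum fun m hm => ?_
        refine (mul_le_mul' le_rfl (hTint m hm)).trans (le_of_eq ?_)
        rw [← ENNReal.ofReal_mul (by positivity), ← ENNReal.ofReal_mul (by positivity)]
        congr 1
        have e4 : (4 : ℝ) ^ m = (2 ^ m) ^ 2 := by
          rw [← pow_mul, mul_comm m 2, pow_mul]; norm_num
        rw [e4]
        field_simp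
    _ = ENNReal.ofReal (4 * Cc * CW * A / N) := by
        rw [Finset.sum_const, Finset.card_range, nsmul_eq_mul, ← ENNReal.ofReal_natCast,
          ← ENNReal.ofReal_mul (by positivity)]
        congr 1
        field_simp

theorem conv {K : Set E} (hK : IsCompact K) {f ω : E → ℝ} (hf : Continuous f)
    (hf0 : ∀ x, 0 ≤ f x) (hω : Continuous ω) {w c : ℝ} (hω1 : ∀ x ∈ K, ω x ≤ w) (hw : 0 ≤ w)
    (hc : 0 ≤ c) (h : ∫⁻ x in K, ENNReal.ofReal (f x) ≤ ENNReal.ofReal c) :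
    ∫ x in K, f x * ω x ≤ w * c := by
  have h1 : ∫ x in K, f x ≤ c := by
    rw [integral_eq_lintegral_of_nonneg_ae (ae_of_all _ hf0) hf.aestronglyMeasurable]
    exact ENNReal.toReal_le_of_le_ofReal hc h
  have i1 : IntegrableOn (fun x => f x * ω x) K := (hf.mul hω).continuousOn.integrableOn_compact hK
  have i2 : IntegrableOn (fun x => f x * w) K :=
    (hf.mul continuous_const).continuousOn.integrableOn_compact hK
  calc ∫ x in K, f x * ω x ≤ ∫ x in K, f x * w :=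
        setIntegral_mono_on i1 i2 hK.measurableSet fun x hx =>
          mul_le_mul_of_nonneg_left (hω1 x hx) (hf0 x)
    _ = (∫ x in K, f x) * w := integral_mul_const _ _
    _ ≤ c * w := mul_le_mul_of_nonneg_right h1 hw
    _ = w * c := mul_comm _ _

end field

end

end Crest.Agent.R144.Hsu498
end

-- ▼ part R144/Hsu7_498
section

/-!
# R144 (S0197), block HSU (helper498), file 7: from soft to hard walls
-/

set_option autoImplicit false
set_option linter.unusedSectionVars false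

open MeasureTheory Set Filter Topology
open scoped ENNReal NNReal RealInnerProductSpace

namespace Crest.Agent.R144.Hsu498

noncomputable section

section field

variable {E : Type*} [NormedAddCommGroup E] [InnerProductSpace ℝ E] [FiniteDimensional ℝ E]
  [MeasurableSpace E] [BorelSpace E] {ι : Type*} [Fintype ι]

variable {J : Finset (E × ℝ)} {N : ℕ} {r : ℝ} {g : E → ℝ} {ρ : ℝ} {U : E → ℝ}

/-! ### weighted integrals on a compact set -/

/-- `∫_K f ω` -/
def TK (K : Set E) (ω f : E → ℝ) : ℝ := ∫ x in K, f x * ω x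

variable {K : Set E} {ω : E → ℝ}

theorem TK_int (hK : IsCompact K) (hω : Continuous ω) {f : E → ℝ} (hf : Continuous f) :
    IntegrableOn (fun x => f x * ω x) K :=
  (hf.mul hω).continuousOn.integrableOn_compact hK

theorem TK_add (hK : IsCompact K) (hω : Continuous ω) {f h : E → ℝ} (hf : Continuous f)
    (hh : Continuous h) : TK K ω (fun x => f x + h x) = TK K ω f + TK K ω h := by
  unfold TK
  rw [← integral_add (TK_int hK hω hf) (TK_int hK hω hh)]
  simp only [add_mul]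

theorem TK_const_mul (c : ℝ) (f : E → ℝ) : TK K ω (fun x => c * f x) = c * TK K ω f := by
  unfold TK
  rw [← integral_const_mul]
  simp only [mul_assoc]

theorem TK_sum (hK : IsCompact K) (hω : Continuous ω) {α : Type*} (s : Finset α) {f : α → E → ℝ}
    (hf : ∀ i, Continuous (f i)) : TK K ω (fun x => ∑ i ∈ s, f i x) = ∑ i ∈ s, TK K ω (f i) := by
  unfold TK
  rw [← integral_finsetSum _ fun i _ => TK_int hK hω (hf i)]
  simp only [Finset.sum_mul]

theorem TK_mono (hK : IsCompact K) (hω : Continuous ω) (hω0 : ∀ x, 0 ≤ ω x) {f h : E → ℝ}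
    (hf : Continuous f) (hh : Continuous h) (hfh : ∀ x ∈ K, f x ≤ h x) :
    TK K ω f ≤ TK K ω h :=
  setIntegral_mono_on (TK_int hK hω hf) (TK_int hK hω hh) hK.measurableSet fun x hx =>
    mul_le_mul_of_nonneg_right (hfh x hx) (hω0 x)

theorem TK_nonneg (hK : IsCompact K) (hω0 : ∀ x, 0 ≤ ω x) {f : E → ℝ}
    (hf : ∀ x ∈ K, 0 ≤ f x) : 0 ≤ TK K ω f :=
  setIntegral_nonneg hK.measurableSet fun x hx => mul_nonneg (hf x hx) (hω0 x)

theorem TK_lin (hK : IsCompact K) (hω : Continuous ω) (hω0 : ∀ x, 0 ≤ ω x)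
    {f1 f2 f3 f4 f5 f6 f7 f8 f9 : E → ℝ} (h1 : Continuous f1) (h2 : Continuous f2)
    (h3 : Continuous f3) (h4 : Continuous f4) (h5 : Continuous f5) (h6 : Continuous f6)
    (h7 : Continuous f7) (h8 : Continuous f8) (h9 : Continuous f9) {a5 a6 a7 a4 a8 a9 : ℝ}
    (h : ∀ x ∈ K, 2 * f1 x + f2 x ≤ 2 * f3 x + f4 x +
      (a5 * f5 x + a6 * f6 x + a7 * f7 x + a4 * f4 x + a8 * f8 x + a9 * f9 x)) :
    2 * TK K ω f1 + TK K ω f2 ≤ 2 * TK K ω f3 + TK K ω f4 +
      (a5 * TK K ω f5 + a6 * TK K ω f6 + a7 * TK K ω f7 + a4 * TK K ω f4 + a8 * TK K ω f8 +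
        a9 * TK K ω f9) := by
  have key := TK_mono hK hω hω0 (by fun_prop) (by fun_prop) h
  rw [TK_add hK hω (f := fun x => 2 * f1 x) (by fun_prop) h2,
    TK_add hK hω (f := fun x => 2 * f3 x + f4 x) (h := fun x => a5 * f5 x + a6 * f6 x +
      a7 * f7 x + a4 * f4 x + a8 * f8 x + a9 * f9 x) (by fun_prop) (by fun_prop),
    TK_add hK hω (f := fun x => 2 * f3 x) (by fun_prop) h4,
    TK_add hK hω (f := fun x => a5 * f5 x + a6 * f6 x + a7 * f7 x + a4 * f4 x + a8 * f8 x)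
      (h := fun x => a9 * f9 x) (by fun_prop) (by fun_prop),
    TK_add hK hω (f := fun x => a5 * f5 x + a6 * f6 x + a7 * f7 x + a4 * f4 x)
      (h := fun x => a8 * f8 x) (by fun_prop) (by fun_prop),
    TK_add hK hω (f := fun x => a5 * f5 x + a6 * f6 x + a7 * f7 x)
      (h := fun x => a4 * f4 x) (by fun_prop) (by fun_prop),
    TK_add hK hω (f := fun x => a5 * f5 x + a6 * f6 x)
      (h := fun x => a7 * f7 x) (by fun_prop) (by fun_prop),
    TK_add hK hω (f := fun x => a5 * f5 x)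
      (h := fun x => a6 * f6 x) (by fun_prop) (by fun_prop)] at key
  simp only [TK_const_mul] at key
  exact key

/-! ### energies -/

theorem ed_le_ed_soft (b : OrthonormalBasis ι ℝ E) (hU : ContDiff ℝ 2 U) {k : ℝ} (hk : 0 ≤ k)
    (Y : E → E) (x : E) : ed b U Y x ≤ ed b (soft U J k) Y x := by
  unfold ed
  rw [fderiv_soft2_apply hU]
  have : 0 ≤ ∑ j ∈ J, w2 (-(sl j x)) * (⟪j.1, Y x⟫ * ⟪j.1, Y x⟫) :=
    Finset.sum_nonneg fun _ _ => mul_nonneg (w2_nonneg _) (mul_self_nonneg _)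
  have := mul_nonneg hk this
  linarith

theorem le_ed (b : OrthonormalBasis ι ℝ E) {lam : ℝ}
    (hUl : ∀ x y, lam * ‖y‖ ^ 2 ≤ fderiv ℝ (fderiv ℝ U) x y y) (Y : E → E) (x : E) :
    lam * ‖Y x‖ ^ 2 ≤ ed b U Y x := by
  unfold ed
  have := hs_nonneg b Y x
  linarith [hUl x (Y x)]

theorem cs_ed (b : OrthonormalBasis ι ℝ E) {H : E → ℝ} {Y : E → E} (hY : HasCompactSupport Y) :
    HasCompactSupport (ed b H Y) := by
  refine HasCompactSupport.intro hY fun x hx => ?_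
  unfold ed hs
  rw [image_eq_zero_of_notMem_tsupport hx, fderiv_of_notMem_tsupport ℝ hx]
  simp

theorem int_ed (b : OrthonormalBasis ι ℝ E) {H : E → ℝ} {Y : E → E} (hH : ContDiff ℝ 2 H)
    (hYs : ContDiff ℝ 1 Y) (hY : HasCompactSupport Y) {ω : E → ℝ} (hω : Continuous ω) :
    Integrable fun x => ed b H Y x * ω x :=
  ((continuous_ed b hH hYs).mul hω).integrable_of_hasCompactSupport (cs_ed b hY).mul_right

theorem int_dG {G : E → ℝ} (hG : ContDiff ℝ 1 G) {Y : E → E} (hYc : Continuous Y)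
    (hY : HasCompactSupport Y) {ω : E → ℝ} (hω : Continuous ω) :
    Integrable fun x => fderiv ℝ G x (Y x) * ω x := by
  refine ((((hG.continuous_fderiv (by norm_num)).clm_apply hYc).mul
    hω).integrable_of_hasCompactSupport ?_)
  refine HasCompactSupport.mul_right ?_
  refine HasCompactSupport.intro hY fun x hx => ?_
  rw [image_eq_zero_of_notMem_tsupport hx, map_zero]

/-- `2 ab ≤ ...` -/
theorem two_mul_le {L y β lam : ℝ} (hβ : 0 < β) (hlam : 0 < lam) :
    2 * (L * y) ≤ β * (lam * y ^ 2) + L ^ 2 / (β * lam) := by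
  have h : 0 ≤ (β * lam * y - L) ^ 2 / (β * lam) := by positivity
  have e : (β * lam * y - L) ^ 2 / (β * lam) =
      β * (lam * y ^ 2) + L ^ 2 / (β * lam) - 2 * (L * y) := by
    field_simp; ring
  linarith

/-- a priori bound for the energy -/
theorem energy_bound (b : OrthonormalBasis ι ℝ E) (hU : ContDiff ℝ 2 U) {lam : ℝ}
    (hlam : 0 < lam) (hUl : ∀ x y, lam * ‖y‖ ^ 2 ≤ fderiv ℝ (fderiv ℝ U) x y y) {k : ℝ}
    (hk : 0 ≤ k) (hi : Integrable fun x => Real.exp (-(U x))) {G : E → ℝ} (hG : ContDiff ℝ 1 G)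
    {L : ℝ} (hL : ∀ x z, |fderiv ℝ G x z| ≤ L * ‖z‖) {Y : E → E}
    (hYs : ContDiff ℝ ((⊤ : ℕ∞) : WithTop ℕ∞) Y) (hY : HasCompactSupport Y) {m ε : ℝ}
    (hF : ∫ x, (G x - m) ^ 2 * Real.exp (-(soft U J k x)) ≤
      2 * (∫ x, fderiv ℝ G x (Y x) * Real.exp (-(soft U J k x))) -
      (∫ x, ed b (soft U J k) Y x * Real.exp (-(soft U J k x))) + ε) :
    ∫ x, ed b (soft U J k) Y x * Real.exp (-(soft U J k x)) ≤
      4 * L ^ 2 / lam * (∫ x, Real.exp (-(U x))) + 2 * ε := by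
  have hS : ContDiff ℝ 2 (soft U J k) := contDiff_soft hU
  have hω : Continuous fun x => Real.exp (-(soft U J k x)) :=
    Real.continuous_exp.comp hS.continuous.neg
  have hY1 : ContDiff ℝ 1 Y := hYs.of_le (by norm_cast)
  have i1 := int_ed b hS hY1 hY hω
  have i2 := int_dG hG hY1.continuous hY hω
  have i3 : Integrable fun x => Real.exp (-(soft U J k x)) := by
    refine hi.mono' hω.aestronglyMeasurable (ae_of_all _ fun x => ?_)
    rw [Real.norm_of_nonneg (Real.exp_pos _).le]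
    exact Real.exp_le_exp.2 (neg_le_neg (le_soft hk x))
  have h0 : 0 ≤ ∫ x, (G x - m) ^ 2 * Real.exp (-(soft U J k x)) :=
    integral_nonneg fun x => mul_nonneg (sq_nonneg _) (Real.exp_pos _).le
  have h1 : 2 * (∫ x, fderiv ℝ G x (Y x) * Real.exp (-(soft U J k x))) ≤
      1 / 2 * (∫ x, ed b (soft U J k) Y x * Real.exp (-(soft U J k x))) +
      2 * L ^ 2 / lam * ∫ x, Real.exp (-(soft U J k x)) := by
    rw [← integral_const_mul, ← integral_const_mul, ← integral_const_mul,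
      ← integral_add (i1.const_mul _) (i3.const_mul _)]
    refine integral_mono (i2.const_mul _) ((i1.const_mul _).add (i3.const_mul _)) fun x => ?_
    show 2 * (fderiv ℝ G x (Y x) * Real.exp (-(soft U J k x))) ≤
      1 / 2 * (ed b (soft U J k) Y x * Real.exp (-(soft U J k x))) +
        2 * L ^ 2 / lam * Real.exp (-(soft U J k x))
    have e := Real.exp_pos (-(soft U J k x))
    have h2 := (le_abs_self _).trans (hL x (Y x))
    have h3 := two_mul_le (L := L) (y := ‖Y x‖) (β := 1 / 2) (by norm_num) hlam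
    have h4 := (le_ed b hUl Y x).trans (ed_le_ed_soft (J := J) b hU hk Y x)
    have h5 : L ^ 2 / (1 / 2 * lam) = 2 * L ^ 2 / lam := by field_simp
    rw [h5] at h3
    have h6 : 2 * fderiv ℝ G x (Y x) ≤ 1 / 2 * ed b (soft U J k) Y x + 2 * L ^ 2 / lam := by
      linarith
    have h7 := mul_le_mul_of_nonneg_right h6 e.le
    linarith
  have h2 : ∫ x, Real.exp (-(soft U J k x)) ≤ ∫ x, Real.exp (-(U x)) :=
    integral_mono i3 hi fun x => Real.exp_le_exp.2 (neg_le_neg (le_soft hk x))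
  have h3 := mul_le_mul_of_nonneg_left h2 (by positivity : 0 ≤ 2 * L ^ 2 / lam)
  have e : 4 * L ^ 2 / lam * (∫ x, Real.exp (-(U x))) =
      2 * (2 * L ^ 2 / lam * ∫ x, Real.exp (-(U x))) := by ring
  rw [e]
  linarith

/-- from the whole space to the polytope -/
theorem hard_ineq (b : OrthonormalBasis ι ℝ E) (hU : ContDiff ℝ 2 U) {lam : ℝ}
    (hlam : 0 < lam) (hUl : ∀ x y, lam * ‖y‖ ^ 2 ≤ fderiv ℝ (fderiv ℝ U) x y y) {k : ℝ}
    (hk : 0 ≤ k) (hi : Integrable fun x => Real.exp (-(U x))) (hb : IsCompact (poly J))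
    {G : E → ℝ} (hG : ContDiff ℝ 1 G)
    {L : ℝ} (hL : ∀ x z, |fderiv ℝ G x z| ≤ L * ‖z‖) {Y : E → E}
    (hYs : ContDiff ℝ ((⊤ : ℕ∞) : WithTop ℕ∞) Y) (hY : HasCompactSupport Y) {m ε β : ℝ}
    (hβ : 0 < β) (hGi : Integrable fun x => (G x - m) ^ 2 * Real.exp (-(soft U J k x)))
    (hF : ∫ x, (G x - m) ^ 2 * Real.exp (-(soft U J k x)) ≤
      2 * (∫ x, fderiv ℝ G x (Y x) * Real.exp (-(soft U J k x))) -
      (∫ x, ed b (soft U J k) Y x * Real.exp (-(soft U J k x))) + ε) :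
    (TK (poly J) (fun x => Real.exp (-(U x))) (fun x => (G x - m) ^ 2) ≤
      2 * TK (poly J) (fun x => Real.exp (-(U x))) (fun x => fderiv ℝ G x (Y x)) -
      TK (poly J) (fun x => Real.exp (-(U x))) (ed b U Y) + ε +
      β * (∫ x, ed b (soft U J k) Y x * Real.exp (-(soft U J k x))) +
      L ^ 2 / (β * lam) * ∫ x in (poly J)ᶜ, Real.exp (-(soft U J k x))) ∧
    TK (poly J) (fun x => Real.exp (-(U x))) (ed b U Y) ≤
      ∫ x, ed b (soft U J k) Y x * Real.exp (-(soft U J k x)) := by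
  have hS : ContDiff ℝ 2 (soft U J k) := contDiff_soft hU
  have hω : Continuous fun x => Real.exp (-(soft U J k x)) :=
    Real.continuous_exp.comp hS.continuous.neg
  have hωU : Continuous fun x => Real.exp (-(U x)) :=
    Real.continuous_exp.comp hU.continuous.neg
  have hY1 : ContDiff ℝ 1 Y := hYs.of_le (by norm_cast)
  have i1 := int_ed b hS hY1 hY hω
  have i2 := int_dG hG hY1.continuous hY hω
  have i3 : Integrable fun x => Real.exp (-(soft U J k x)) := by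
    refine hi.mono' hω.aestronglyMeasurable (ae_of_all _ fun x => ?_)
    rw [Real.norm_of_nonneg (Real.exp_pos _).le]
    exact Real.exp_le_exp.2 (neg_le_neg (le_soft hk x))
  have hm : MeasurableSet (poly J) := isClosed_poly.measurableSet
  -- on the polytope the two weights agree
  have hagree : ∀ f : E → ℝ, TK (poly J) (fun x => Real.exp (-(U x))) f =
      ∫ x in poly J, f x * Real.exp (-(soft U J k x)) := fun f =>
    setIntegral_congr_fun hm fun x hx => by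
      show f x * Real.exp (-(U x)) = f x * Real.exp (-(soft U J k x))
      rw [soft_eq hx]
  have he0 : ∀ x, 0 ≤ ed b (soft U J k) Y x := fun x =>
    le_trans (by positivity) ((le_ed b hUl Y x).trans (ed_le_ed_soft (J := J) b hU hk Y x))
  have hP : TK (poly J) (fun x => Real.exp (-(U x))) (ed b U Y) ≤
      ∫ x, ed b (soft U J k) Y x * Real.exp (-(soft U J k x)) := by
    rw [hagree]
    refine le_trans (setIntegral_mono_on ?_ i1.integrableOn hm fun x _ =>
      mul_le_mul_of_nonneg_right (ed_le_ed_soft b hU hk Y x) (Real.exp_pos _).le)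
      (setIntegral_le_integral i1 (ae_of_all _ fun x =>
        mul_nonneg (he0 x) (Real.exp_pos _).le))
    exact (int_ed b hU hY1 hY hω).integrableOn
  refine ⟨?_, hP⟩
  have h1 : TK (poly J) (fun x => Real.exp (-(U x))) (fun x => (G x - m) ^ 2) ≤
      ∫ x, (G x - m) ^ 2 * Real.exp (-(soft U J k x)) := by
    rw [hagree]
    exact setIntegral_le_integral hGi (ae_of_all _ fun x =>
      mul_nonneg (sq_nonneg _) (Real.exp_pos _).le)
  have h2 : ∫ x, fderiv ℝ G x (Y x) * Real.exp (-(soft U J k x)) =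
      TK (poly J) (fun x => Real.exp (-(U x))) (fun x => fderiv ℝ G x (Y x)) +
      ∫ x in (poly J)ᶜ, fderiv ℝ G x (Y x) * Real.exp (-(soft U J k x)) := by
    rw [hagree, integral_add_compl hm i2]
  have h3 : 2 * (∫ x in (poly J)ᶜ, fderiv ℝ G x (Y x) * Real.exp (-(soft U J k x))) ≤
      β * (∫ x in (poly J)ᶜ, ed b (soft U J k) Y x * Real.exp (-(soft U J k x))) +
      L ^ 2 / (β * lam) * ∫ x in (poly J)ᶜ, Real.exp (-(soft U J k x)) := by
    rw [← integral_const_mul, ← integral_const_mul, ← integral_const_mul,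
      ← integral_add (i1.integrableOn.const_mul _) (i3.integrableOn.const_mul _)]
    refine integral_mono (i2.integrableOn.const_mul _)
      ((i1.integrableOn.const_mul _).add (i3.integrableOn.const_mul _)) fun x => ?_
    show 2 * (fderiv ℝ G x (Y x) * Real.exp (-(soft U J k x))) ≤
      β * (ed b (soft U J k) Y x * Real.exp (-(soft U J k x))) +
        L ^ 2 / (β * lam) * Real.exp (-(soft U J k x))
    have e := Real.exp_pos (-(soft U J k x))
    have h2 := (le_abs_self _).trans (hL x (Y x))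
    have h3 := two_mul_le (L := L) (y := ‖Y x‖) hβ hlam
    have h4 := mul_le_mul_of_nonneg_left
      ((le_ed b hUl Y x).trans (ed_le_ed_soft (J := J) b hU hk Y x)) hβ.le
    have h6 : 2 * fderiv ℝ G x (Y x) ≤ β * ed b (soft U J k) Y x + L ^ 2 / (β * lam) := by
      linarith
    have h7 := mul_le_mul_of_nonneg_right h6 e.le
    linarith
  have h4 : ∫ x in (poly J)ᶜ, ed b (soft U J k) Y x * Real.exp (-(soft U J k x)) ≤
      ∫ x, ed b (soft U J k) Y x * Real.exp (-(soft U J k x)) :=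
    setIntegral_le_integral i1 (ae_of_all _ fun x => mul_nonneg (he0 x) (Real.exp_pos _).le)
  have h5 := mul_le_mul_of_nonneg_left h4 hβ.le
  rw [h2] at hF
  linarith

/-- from the given field to the rigid field on the polytope -/
theorem modify (b : OrthonormalBasis ι ℝ E) (hU : ContDiff ℝ 2 U) (hb : IsCompact (poly J))
    (hJ : ∀ j ∈ J, ‖j.1‖ = 1)
    {C : ℝ} (hC0 : 0 ≤ C) (hC : ∀ x y z, |fderiv ℝ (fderiv ℝ U) x y z| ≤ C * ‖y‖ * ‖z‖)
    (hU0 : ∀ x y, 0 ≤ fderiv ℝ (fderiv ℝ U) x y y)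
    {G : E → ℝ} (hG : ContDiff ℝ 1 G) {L : ℝ} (hL0 : 0 ≤ L)
    (hL : ∀ x z, |fderiv ℝ G x z| ≤ L * ‖z‖) {Y : E → E}
    (hYs : ContDiff ℝ ((⊤ : ℕ∞) : WithTop ℕ∞) Y)
    (hgs : ContDiff ℝ ((⊤ : ℕ∞) : WithTop ℕ∞) g) (hg0 : ∀ x, 0 ≤ g x) (hg1 : ∀ x, g x ≤ 1)
    (hK : Kills J g ρ) (hr : 0 < r) (hrρ : 2 * r ≤ ρ) {M : ℝ} (hM : 0 < M) {κ : ℝ} (hκ : 0 < κ)
    {ω : E → ℝ} (hω : Continuous ω) (hω0 : ∀ x, 0 ≤ ω x) :
    2 * TK (poly J) ω (fun x => fderiv ℝ G x (Y x)) - TK (poly J) ω (ed b U Y) ≤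
      2 * TK (poly J) ω (fun x => fderiv ℝ G x (Wf J N r (Zf g M Y) x)) -
      TK (poly J) ω (ed b U (Wf J N r (Zf g M Y))) +
      (2 * L / M * TK (poly J) ω (fun x => ‖Y x‖ ^ 2) +
        2 * L * M * TK (poly J) ω (fun x => 1 - g x) +
        (2 * L * M + 2 * C * M ^ 2) * ∑ j ∈ J, TK (poly J) ω (wc N r j) +
        κ * TK (poly J) ω (ed b U Y) +
        (1 + 1 / κ) * Fintype.card ι * (2 * M ^ 2) *
          TK (poly J) ω (fun x => ‖fderiv ℝ g x‖ ^ 2) +
        (1 + 1 / κ) * Fintype.card ι * (2 * J.card) *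
          ∑ j ∈ J, TK (poly J) ω (wcost N r g M Y j)) := by
  have hY1 : ContDiff ℝ 1 Y := hYs.of_le (by norm_cast)
  have hWs : ContDiff ℝ ((⊤ : ℕ∞) : WithTop ℕ∞) (Wf J N r (Zf g M Y)) :=
    contDiff_Wf (contDiff_Zf hgs hYs)
  have hW1 : ContDiff ℝ 1 (Wf J N r (Zf g M Y)) := hWs.of_le (by norm_cast)
  have c1 : Continuous fun x => fderiv ℝ G x (Y x) :=
    (hG.continuous_fderiv (by norm_num)).clm_apply hY1.continuous
  have c2 : Continuous fun x => fderiv ℝ G x (Wf J N r (Zf g M Y) x) :=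
    (hG.continuous_fderiv (by norm_num)).clm_apply hW1.continuous
  have c3 := continuous_ed b hU hY1
  have c4 := continuous_ed b hU hW1
  have c5 : Continuous fun x => ‖Y x‖ ^ 2 := hY1.continuous.norm.pow 2
  have c6 : Continuous fun x => 1 - g x := continuous_const.sub hgs.continuous
  have c7 : ∀ j, Continuous (wc N r j : E → ℝ) := fun j => (contDiff_wc j).continuous
  have c8 : Continuous fun x => ‖fderiv ℝ g x‖ ^ 2 :=
    (hgs.continuous_fderiv (by simp)).norm.pow 2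
  have c9 : ∀ j, Continuous (wcost N r g M Y j) := fun j => continuous_wcost hgs hYs j
  have c10 : Continuous fun x => ∑ j ∈ J, wc N r j x := continuous_finsetSum _ fun j _ => c7 j
  have c11 : Continuous fun x => ∑ j ∈ J, wcost N r g M Y j x :=
    continuous_finsetSum _ fun j _ => c9 j
  -- pointwise
  have hpt : ∀ x ∈ poly J, 2 * fderiv ℝ G x (Y x) + ed b U (Wf J N r (Zf g M Y)) x ≤
      2 * fderiv ℝ G x (Wf J N r (Zf g M Y) x) + ed b U Y x +
      (2 * L / M * ‖Y x‖ ^ 2 + 2 * L * M * (1 - g x) +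
        (2 * L * M + 2 * C * M ^ 2) * ∑ j ∈ J, wc N r j x +
        κ * ed b U Y x +
        (1 + 1 / κ) * Fintype.card ι * (2 * M ^ 2) * ‖fderiv ℝ g x‖ ^ 2 +
        (1 + 1 / κ) * Fintype.card ι * (2 * J.card) * ∑ j ∈ J, wcost N r g M Y j x) := by
    intro x hx
    have h1 := hs_Wf_le b hJ hgs hg0 hg1 hK hr hrρ hM hYs hx hκ (N := N)
    have h2 := hess_Wf_le (N := N) (Y := Y) hJ hg0 hg1 hK hr hrρ hM hC0 hC hU0 hx
    have h3 : fderiv ℝ G x (Y x) - fderiv ℝ G x (Wf J N r (Zf g M Y) x) ≤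
        L * (‖Y x‖ ^ 2 / M + M * (1 - g x) + M * ∑ j ∈ J, wc N r j x) := by
      rw [← map_sub]
      exact (le_abs_self _).trans ((hL x _).trans (mul_le_mul_of_nonneg_left
        (norm_sub_Wf hJ hg0 hg1 hM Y x) hL0))
    have h4 : ed b U (Wf J N r (Zf g M Y)) x ≤ (1 + κ) * ed b U Y x + ((1 + 1 / κ) *
        Fintype.card ι * (2 * M ^ 2 * ‖fderiv ℝ g x‖ ^ 2 +
          2 * J.card * ∑ j ∈ J, wcost N r g M Y j x) +
        2 * C * M ^ 2 * ∑ j ∈ J, wc N r j x) := by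
      unfold ed
      have h5 := mul_nonneg hκ.le (hU0 x (Y x))
      linarith
    have e1 : L * (‖Y x‖ ^ 2 / M + M * (1 - g x) + M * ∑ j ∈ J, wc N r j x) =
        (2 * L / M * ‖Y x‖ ^ 2 + 2 * L * M * (1 - g x) + 2 * L * M * ∑ j ∈ J, wc N r j x) / 2 := by
      field_simp
    rw [e1] at h3
    have e2 : (1 + 1 / κ) * Fintype.card ι * (2 * M ^ 2 * ‖fderiv ℝ g x‖ ^ 2 +
        2 * J.card * ∑ j ∈ J, wcost N r g M Y j x) =
        (1 + 1 / κ) * Fintype.card ι * (2 * M ^ 2) * ‖fderiv ℝ g x‖ ^ 2 +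
        (1 + 1 / κ) * Fintype.card ι * (2 * J.card) * ∑ j ∈ J, wcost N r g M Y j x := by ring
    rw [e2] at h4
    linarith
  have key := TK_lin hb hω hω0 c1 c4 c2 c3 c5 c6 c10 c8 c11 hpt
  rw [TK_sum hb hω J c7, TK_sum hb hω J c9] at key
  linarith

end field

end

end Crest.Agent.R144.Hsu498
end

-- ▼ part R144/Hsu8_498
section

/-!
# R144 (S0197), block HSU (helper498), file 8: the hard wall upper bound with a strictly convex
potential
-/

set_option autoImplicit false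
set_option linter.unusedSectionVars false

open MeasureTheory Set Filter Topology
open scoped ENNReal NNReal RealInnerProductSpace

namespace Crest.Agent.R144.Hsu498

noncomputable section

section field

variable {E : Type*} [NormedAddCommGroup E] [InnerProductSpace ℝ E] [FiniteDimensional ℝ E]
  [MeasurableSpace E] [BorelSpace E] {ι : Type*} [Fintype ι]

/-- the upper bound on the whole space (865's FI3) -/
def Fi3 (b : OrthonormalBasis ι ℝ E) : Prop :=
  ∀ (H G : E → ℝ) (C ε : ℝ), ContDiff ℝ 2 H →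
    (∀ x y z, |fderiv ℝ (fderiv ℝ H) x y z| ≤ C * ‖y‖ * ‖z‖) →
    (Integrable fun x => Real.exp (-(H x))) → ContDiff ℝ 1 G →
    (Integrable fun x => G x ^ 2 * Real.exp (-(H x))) → 0 < ε →
    ∃ (Y : E → E) (m : ℝ), ContDiff ℝ ((⊤ : ℕ∞) : WithTop ℕ∞) Y ∧ HasCompactSupport Y ∧
      ∫ x, (G x - m) ^ 2 * Real.exp (-(H x)) ≤
        2 * (∫ x, fderiv ℝ G x (Y x) * Real.exp (-(H x))) -
        (∫ x, ed b H Y x * Real.exp (-(H x))) + ε

variable {J : Finset (E × ℝ)} {U : E → ℝ}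

theorem tendsto_compl (hU : ContDiff ℝ 2 U) (hi : Integrable fun x => Real.exp (-(U x))) :
    Tendsto (fun n : ℕ => ∫ x in (poly J)ᶜ,
      Real.exp (-(soft U J (1 / (1 / ((n : ℝ) + 1)) ^ 3) x))) atTop (𝓝 0) := by
  have hm : MeasurableSet (poly J) := isClosed_poly.measurableSet
  have h0 : (0 : ℝ) = ∫ x in (poly J)ᶜ, (0 : ℝ) := by simp
  rw [h0]
  refine tendsto_integral_of_dominated_convergence (fun x => Real.exp (-(U x))) (fun n => ?_)
    hi.integrableOn (fun n => ?_) ?_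
  · exact (Real.continuous_exp.comp (contDiff_soft hU).continuous.neg).aestronglyMeasurable
  · refine ae_of_all _ fun x => ?_
    rw [Real.norm_of_nonneg (Real.exp_pos _).le]
    exact Real.exp_le_exp.2 (neg_le_neg (le_soft (by positivity) x))
  · filter_upwards [ae_restrict_mem hm.compl] with x hx
    have hx' : ∃ j ∈ J, sl j x < 0 := by
      by_contra hcon
      push Not at hcon
      exact hx hcon
    obtain ⟨j, hj, hjx⟩ := hx'
    have hp : 0 < ∑ j ∈ J, w0 (-(sl j x)) :=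
      Finset.sum_pos' (fun i _ => w0_nonneg _) ⟨j, hj, w0_pos (by linarith)⟩
    have h1 : Tendsto (fun n : ℕ => U x + 1 / (1 / ((n : ℝ) + 1)) ^ 3 *
        ∑ j ∈ J, w0 (-(sl j x))) atTop atTop := by
      refine tendsto_atTop_add_const_left _ _ (Tendsto.atTop_mul_const hp ?_)
      have e : (fun n : ℕ => 1 / (1 / ((n : ℝ) + 1)) ^ 3) = fun n : ℕ => ((n : ℝ) + 1) ^ 3 := by
        ext n; field_simp
      rw [e]
      exact (tendsto_pow_atTop (by norm_num)).comp
        (tendsto_atTop_add_const_right _ _ tendsto_natCast_atTop_atTop)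
    exact Real.tendsto_exp_neg_atTop_nhds_zero.comp h1

/-- linear growth of a function with bounded derivative -/
theorem growth {G : E → ℝ} (hG : ContDiff ℝ 1 G) {L : ℝ} (hL0 : 0 ≤ L)
    (hL : ∀ x z, |fderiv ℝ G x z| ≤ L * ‖z‖) (x : E) : |G x - G 0| ≤ L * ‖x‖ := by
  have h1 : ∀ x ∈ (univ : Set E), ‖fderiv ℝ G x‖ ≤ L := fun x _ =>
    ContinuousLinearMap.opNorm_le_bound _ hL0 fun z => hL x z
  have := Convex.norm_image_sub_le_of_norm_fderiv_le (𝕜 := ℝ) (f := G) (s := univ)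
    (fun z _ => hG.differentiable (by norm_num) z) h1 convex_univ (mem_univ 0) (mem_univ x)
  simpa using this

theorem int_sq {G : E → ℝ} (hG : ContDiff ℝ 1 G) {L : ℝ} (hL0 : 0 ≤ L)
    (hL : ∀ x z, |fderiv ℝ G x z| ≤ L * ‖z‖) (hU : ContDiff ℝ 2 U)
    (hi : Integrable fun x => Real.exp (-(U x)))
    (hi2 : Integrable fun x => ‖x‖ ^ 2 * Real.exp (-(U x))) {k : ℝ} (hk : 0 ≤ k) (m : ℝ) :
    Integrable fun x => (G x - m) ^ 2 * Real.exp (-(soft U J k x)) := by
  refine Integrable.mono' (g := fun x => 2 * (G 0 - m) ^ 2 * Real.exp (-(U x)) +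
    2 * L ^ 2 * (‖x‖ ^ 2 * Real.exp (-(U x)))) ((hi.const_mul _).add (hi2.const_mul _)) ?_ ?_
  · exact (((hG.continuous.sub continuous_const).pow 2).mul
      (Real.continuous_exp.comp (contDiff_soft hU).continuous.neg)).aestronglyMeasurable
  · refine ae_of_all _ fun x => ?_
    rw [Real.norm_of_nonneg (mul_nonneg (sq_nonneg _) (Real.exp_pos _).le)]
    have h1 := growth hG hL0 hL x
    have h2 : (G x - m) ^ 2 ≤ 2 * (G 0 - m) ^ 2 + 2 * (L * ‖x‖) ^ 2 := by
      have h3 : (G x - G 0) ^ 2 ≤ (L * ‖x‖) ^ 2 := by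
        rw [← sq_abs]; exact pow_le_pow_left₀ (abs_nonneg _) h1 2
      nlinarith [sq_nonneg ((G x - G 0) - (G 0 - m))]
    have h3 : Real.exp (-(soft U J k x)) ≤ Real.exp (-(U x)) :=
      Real.exp_le_exp.2 (neg_le_neg (le_soft hk x))
    calc (G x - m) ^ 2 * Real.exp (-(soft U J k x))
        ≤ (2 * (G 0 - m) ^ 2 + 2 * (L * ‖x‖) ^ 2) * Real.exp (-(U x)) :=
          mul_le_mul h2 h3 (Real.exp_pos _).le (by positivity)
      _ = _ := by ring

theorem vol_slabs (hJ : ∀ j ∈ J, ‖j.1‖ = 1) (hb : Bornology.IsBounded (poly J)) :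
    ∃ c : ℝ, 0 ≤ c ∧ ∀ j ∈ J, ∀ t : ℝ, 0 < t →
      volume (poly J ∩ {x | sl j x ≤ t}) ≤ ENNReal.ofReal (c * t) := by
  have h : ∀ j ∈ J, ∃ C : ℝ≥0∞, C ≠ ∞ ∧ ∀ t : ℝ, 0 < t →
      volume (poly J ∩ {x | 0 ≤ sl j x ∧ sl j x ≤ t}) ≤ C * ENNReal.ofReal t := fun j hj =>
    vol_slab hb isClosed_poly.measurableSet (hJ j hj)
  choose! C hC1 hC2 using h
  refine ⟨∑ j ∈ J, (C j).toReal, Finset.sum_nonneg fun _ _ => ENNReal.toReal_nonneg, ?_⟩
  intro j hj t ht
  have h1 : (C j).toReal ≤ ∑ j ∈ J, (C j).toReal :=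
    Finset.single_le_sum (f := fun j => (C j).toReal) (fun _ _ => ENNReal.toReal_nonneg) hj
  calc volume (poly J ∩ {x | sl j x ≤ t})
      ≤ volume (poly J ∩ {x | 0 ≤ sl j x ∧ sl j x ≤ t}) :=
        measure_mono fun x hx => ⟨hx.1, hx.1 j hj, hx.2⟩
    _ ≤ C j * ENNReal.ofReal t := hC2 j hj t ht
    _ = ENNReal.ofReal ((C j).toReal * t) := by
        rw [ENNReal.ofReal_mul ENNReal.toReal_nonneg, ENNReal.ofReal_toReal (hC1 j hj)]
    _ ≤ _ := ENNReal.ofReal_le_ofReal (mul_le_mul_of_nonneg_right h1 ht.le)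

theorem lint_wc {N : ℕ} {r c : ℝ} (hr : 0 < r) {j : E × ℝ}
    (h : volume (poly J ∩ {x | sl j x ≤ 2 * r}) ≤ ENNReal.ofReal (c * (2 * r))) :
    ∫⁻ x in poly J, ENNReal.ofReal (wc N r j x) ≤ ENNReal.ofReal (c * (2 * r)) := by
  have hms : MeasurableSet {x : E | sl j x ≤ 2 * r} :=
    measurableSet_le (continuous_sl j).measurable measurable_const
  calc ∫⁻ x in poly J, ENNReal.ofReal (wc N r j x)
      ≤ ∫⁻ x in poly J, ({x : E | sl j x ≤ 2 * r}).indicator 1 x := by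
        refine lintegral_mono fun x => ?_
        by_cases hx : x ∈ {x : E | sl j x ≤ 2 * r}
        · rw [indicator_of_mem hx, Pi.one_apply, ← ENNReal.ofReal_one]
          exact ENNReal.ofReal_le_ofReal (wc_le_one j x)
        · have : wc N r j x = 0 := by
            by_contra hcon
            exact hx (wc_ne_zero hr hcon)
          rw [this]; simp
    _ = volume (poly J ∩ {x | sl j x ≤ 2 * r}) := by
        rw [lintegral_indicator_one hms, Measure.restrict_apply hms, inter_comm]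
    _ ≤ _ := h

set_option maxHeartbeats 1600000 in
/-- **hard wall upper bound**, strictly convex potential -/
theorem thmA (b : OrthonormalBasis ι ℝ E) (hF : Fi3 b) (hJ : ∀ j ∈ J, ‖j.1‖ = 1)
    (hb : Bornology.IsBounded (poly J)) (hv : volume (poly J) ≠ 0) (hU : ContDiff ℝ 2 U)
    {C : ℝ} (hC0 : 0 ≤ C) (hC : ∀ x y z, |fderiv ℝ (fderiv ℝ U) x y z| ≤ C * ‖y‖ * ‖z‖)
    {lam : ℝ} (hlam : 0 < lam) (hUl : ∀ x y, lam * ‖y‖ ^ 2 ≤ fderiv ℝ (fderiv ℝ U) x y y)
    (hi : Integrable fun x => Real.exp (-(U x)))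
    (hi2 : Integrable fun x => ‖x‖ ^ 2 * Real.exp (-(U x)))
    {G : E → ℝ} (hG : ContDiff ℝ 1 G) {L : ℝ} (hL0 : 0 ≤ L)
    (hL : ∀ x z, |fderiv ℝ G x z| ≤ L * ‖z‖) {ε : ℝ} (hε : 0 < ε) :
    ∃ (W : E → E) (ρ m : ℝ), ContDiff ℝ ((⊤ : ℕ∞) : WithTop ℕ∞) W ∧ HasCompactSupport W ∧
      0 < ρ ∧ (∀ x ∈ poly J, ∀ j ∈ J, sl j x ≤ ρ → ⟪j.1, W x⟫ = 0) ∧
      TK (poly J) (fun x => Real.exp (-(U x))) (fun x => (G x - m) ^ 2) ≤
        2 * TK (poly J) (fun x => Real.exp (-(U x))) (fun x => fderiv ℝ G x (W x)) -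
        TK (poly J) (fun x => Real.exp (-(U x))) (ed b U W) + ε := by
  have hU0 : ∀ x y, 0 ≤ fderiv ℝ (fderiv ℝ U) x y y := fun x y =>
    le_trans (by positivity) (hUl x y)
  have hK : IsCompact (poly J) := Metric.isCompact_of_isClosed_isBounded isClosed_poly hb
  set ω : E → ℝ := fun x => Real.exp (-(U x)) with hωdef
  have hω : Continuous ω := Real.continuous_exp.comp hU.continuous.neg
  have hω0 : ∀ x, 0 ≤ ω x := fun x => (Real.exp_pos _).le
  obtain ⟨w', hw'⟩ := hK.exists_bound_of_continuousOn hω.continuousOn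
  obtain ⟨w, hw0, hw⟩ : ∃ w : ℝ, 0 ≤ w ∧ ∀ x ∈ poly J, ω x ≤ w :=
    ⟨max w' 0, le_max_right _ _, fun x hx => by
      have := hw' x hx
      rw [Real.norm_of_nonneg (hω0 x)] at this
      exact this.trans (le_max_left _ _)⟩
  obtain ⟨Cc, hCc0, hCc⟩ := cut_deriv
  obtain ⟨CW, hCW0, hCW⟩ := wall b hU hU0 hJ hb
  obtain ⟨c, hc0, hc⟩ := vol_slabs hJ hb
  set Z : ℝ := ∫ x, Real.exp (-(U x)) with hZ
  have hZ0 : 0 ≤ Z := integral_nonneg fun x => (Real.exp_pos _).le
  obtain ⟨A, hA⟩ : ∃ A : ℝ, A = 4 * L ^ 2 / lam * Z + 2 := ⟨_, rfl⟩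
  have hA0 : 0 < A := by rw [hA]; positivity
  obtain ⟨κ, hκ⟩ : ∃ κ : ℝ, κ = ε / (10 * A) := ⟨_, rfl⟩
  have hκ0 : 0 < κ := by rw [hκ]; positivity
  have hκA : κ * A = ε / 10 := by rw [hκ]; field_simp
  obtain ⟨M, hM⟩ : ∃ M : ℝ, M = 20 * L * A / (lam * ε) + 1 := ⟨_, rfl⟩
  have hM0 : 0 < M := by rw [hM]; positivity
  have hMb : 2 * L / M * (A / lam) ≤ ε / 10 := by
    have h1 : 20 * L * A / (lam * ε) ≤ M := by rw [hM]; linarith
    rw [div_le_iff₀ (by positivity)] at h1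
    rw [div_mul_div_comm, div_le_iff₀ (by positivity)]
    linarith
  obtain ⟨nn, hnn⟩ : ∃ nn : ℝ, nn = Fintype.card ι := ⟨_, rfl⟩
  have hnn0 : 0 ≤ nn := by rw [hnn]; positivity
  obtain ⟨jj, hjj⟩ : ∃ jj : ℝ, jj = J.card := ⟨_, rfl⟩
  have hjj0 : 0 ≤ jj := by rw [hjj]; positivity
  -- the multiplier
  obtain ⟨D1, hD1⟩ : ∃ D : ℝ, D = 2 * L * M * w + (1 + 1 / κ) * nn * (2 * M ^ 2) * w := ⟨_, rfl⟩
  have hD10 : 0 ≤ D1 := by rw [hD1]; positivity
  obtain ⟨η, hη⟩ : ∃ η : ℝ, η = ε / (10 * (D1 + 1)) := ⟨_, rfl⟩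
  have hη0 : 0 < η := by rw [hη]; positivity
  have hD1η : D1 * η ≤ ε / 10 := by
    rw [hη, ← mul_div_assoc, div_le_div_iff₀ (by positivity) (by norm_num)]
    nlinarith
  obtain ⟨g, ρ, hgs, hg0, hg1, hρ, hkill, hgE, hgM⟩ := exists_mlt hJ hb hv hη0
  -- number of scales
  obtain ⟨D2, hD2⟩ : ∃ D : ℝ, D = (1 + 1 / κ) * nn * (2 * jj) * (jj * (w * (4 * Cc * CW * A))) :=
    ⟨_, rfl⟩
  have hD20 : 0 ≤ D2 := by rw [hD2]; positivity
  obtain ⟨N, hN⟩ := exists_nat_gt (10 * D2 / ε)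
  have hN0 : 0 < N := by
    have : (0 : ℝ) < N := lt_of_le_of_lt (by positivity) hN
    exact_mod_cast this
  have hNr : (0 : ℝ) < N := by exact_mod_cast hN0
  have hD2N : D2 / N ≤ ε / 10 := by
    rw [div_lt_iff₀ hε] at hN
    rw [div_le_div_iff₀ hNr (by norm_num)]
    linarith
  -- width of the walls
  obtain ⟨D3, hD3⟩ : ∃ D : ℝ, D = (2 * L * M + 2 * C * M ^ 2) * (jj * (w * (c * 2))) := ⟨_, rfl⟩
  have hD30 : 0 ≤ D3 := by rw [hD3]; positivity
  obtain ⟨r, hr⟩ : ∃ r : ℝ, r = min (ρ / 3) (min (1 / 3) (ε / (10 * (D3 + 1)))) := ⟨_, rfl⟩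
  have hr0 : 0 < r := by rw [hr]; exact lt_min (by positivity) (lt_min (by norm_num) (by positivity))
  have hr1 : 3 * r ≤ ρ := by
    have : r ≤ ρ / 3 := by rw [hr]; exact min_le_left _ _
    linarith
  have hr2 : 3 * r ≤ 1 := by
    have : r ≤ 1 / 3 := by rw [hr]; exact (min_le_right _ _).trans (min_le_left _ _)
    linarith
  have hD3r : D3 * r ≤ ε / 10 := by
    have h1 : r ≤ ε / (10 * (D3 + 1)) := by
      rw [hr]; exact (min_le_right _ _).trans (min_le_right _ _)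
    calc D3 * r ≤ D3 * (ε / (10 * (D3 + 1))) := mul_le_mul_of_nonneg_left h1 hD30
      _ ≤ ε / 10 := by
          rw [← mul_div_assoc, div_le_div_iff₀ (by positivity) (by norm_num)]
          nlinarith
  -- steepness of the soft walls
  have hlim := (tendsto_compl (J := J) hU hi).const_mul (L ^ 2 / (κ * lam))
  rw [mul_zero] at hlim
  have hlim2 : Tendsto (fun n : ℕ => 1 / ((n : ℝ) + 1)) atTop (𝓝 0) :=
    tendsto_one_div_add_atTop_nhds_zero_nat
  obtain ⟨n, hn1, hn2⟩ : ∃ n : ℕ, L ^ 2 / (κ * lam) * (∫ x in (poly J)ᶜ,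
      Real.exp (-(soft U J (1 / (1 / ((n : ℝ) + 1)) ^ 3) x))) < ε / 10 ∧
      1 / ((n : ℝ) + 1) < r / 2 ^ N :=
    ((hlim.eventually_lt_const (by positivity)).and
      (hlim2.eventually_lt_const (by positivity))).exists
  obtain ⟨δ, hδ⟩ : ∃ δ : ℝ, δ = 1 / ((n : ℝ) + 1) := ⟨_, rfl⟩
  have hδ0 : 0 < δ := by rw [hδ]; positivity
  rw [← hδ] at hn1 hn2
  obtain ⟨k, hk⟩ : ∃ k : ℝ, k = 1 / δ ^ 3 := ⟨_, rfl⟩
  have hk0 : 0 ≤ k := by rw [hk]; positivity
  rw [← hk] at hn1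
  have hHC := abs_soft2_le (J := J) hU hC hk0
  have hHi : Integrable fun x => Real.exp (-(soft U J k x)) := by
    refine hi.mono' (Real.continuous_exp.comp
      (contDiff_soft hU).continuous.neg).aestronglyMeasurable (ae_of_all _ fun x => ?_)
    rw [Real.norm_of_nonneg (Real.exp_pos _).le]
    exact Real.exp_le_exp.2 (neg_le_neg (le_soft hk0 x))
  have hG2 : Integrable fun x => G x ^ 2 * Real.exp (-(soft U J k x)) := by
    simpa using int_sq (J := J) hG hL0 hL hU hi hi2 hk0 0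
  obtain ⟨ε0, hε0⟩ : ∃ e : ℝ, e = min 1 (ε / 10) := ⟨_, rfl⟩
  have hε00 : 0 < ε0 := by rw [hε0]; exact lt_min one_pos (by positivity)
  have hε01 : ε0 ≤ 1 := by rw [hε0]; exact min_le_left _ _
  have hε02 : ε0 ≤ ε / 10 := by rw [hε0]; exact min_le_right _ _
  obtain ⟨Y, m, hYs, hYc, hFY⟩ := hF (soft U J k) G _ ε0 (contDiff_soft hU) hHC hHi hG hG2 hε00
  have hGi := int_sq (J := J) hG hL0 hL hU hi hi2 hk0 m
  have hY1 : ContDiff ℝ 1 Y := hYs.of_le (by norm_cast)
  have hP1 : (∫ x, ed b (soft U J k) Y x * Real.exp (-(soft U J k x))) ≤ A := by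
    refine (energy_bound b hU hlam hUl hk0 hi hG hL hYs hYc hFY).trans ?_
    rw [hA]; linarith
  obtain ⟨h1, h2⟩ := hard_ineq b hU hlam hUl hk0 hi hK hG hL hYs hYc hκ0 hGi hFY
  have h3 := modify (N := N) b hU hK hJ hC0 hC hU0 hG hL0 hL hYs hgs hg0 hg1 hkill hr0
    (by linarith : 2 * r ≤ ρ) hM0 hκ0 hω hω0
  have b1 : TK (poly J) ω (ed b U Y) ≤ A := h2.trans hP1
  have b2 : TK (poly J) ω (fun x => ‖Y x‖ ^ 2) ≤ A / lam := by
    rw [le_div_iff₀ hlam, mul_comm]
    refine le_trans ?_ b1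
    rw [← TK_const_mul]
    exact TK_mono hK hω hω0 (continuous_const.mul (hY1.continuous.norm.pow 2))
      (continuous_ed b hU hY1) fun x _ => le_ed b hUl Y x
  have c3 : Continuous fun x => 1 - g x := continuous_const.sub hgs.continuous
  have b3 : TK (poly J) ω (fun x => 1 - g x) ≤ w * η :=
    conv hK c3 (fun x => sub_nonneg.2 (hg1 x)) hω hw hw0 hη0.le hgM
  have b5 : TK (poly J) ω (fun x => ‖fderiv ℝ g x‖ ^ 2) ≤ w * η :=
    conv hK ((hgs.continuous_fderiv (by simp)).norm.pow 2) (fun x => sq_nonneg _) hω hw hw0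
      hη0.le hgE
  have b4 : ∑ j ∈ J, TK (poly J) ω (wc N r j) ≤ jj * (w * (c * (2 * r))) := by
    calc ∑ j ∈ J, TK (poly J) ω (wc N r j) ≤ ∑ j ∈ J, w * (c * (2 * r)) :=
          Finset.sum_le_sum fun j hj => conv hK (contDiff_wc j).continuous
            (fun x => wc_nonneg j x) hω hw hw0 (by positivity)
            (lint_wc hr0 (hc j hj (2 * r) (by positivity)))
      _ = _ := by rw [Finset.sum_const, nsmul_eq_mul, hjj]
  have hlP : ∫⁻ x, ENNReal.ofReal (ed b (soft U J k) Y x * Real.exp (-(soft U J k x))) ≤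
      ENNReal.ofReal A := by
    have hpos : ∀ x, 0 ≤ ed b (soft U J k) Y x * Real.exp (-(soft U J k x)) := fun x =>
      mul_nonneg (le_trans (by positivity)
        ((le_ed b hUl Y x).trans (ed_le_ed_soft (J := J) b hU hk0 Y x))) (Real.exp_pos _).le
    have hsω : Continuous fun x => Real.exp (-(soft U J k x)) :=
      Real.continuous_exp.comp (contDiff_soft hU).continuous.neg
    rw [← ofReal_integral_eq_lintegral_ofReal (int_ed b (contDiff_soft hU) hY1 hYc hsω)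
      (ae_of_all _ hpos)]
    exact ENNReal.ofReal_le_ofReal hP1
  have b6 : ∑ j ∈ J, TK (poly J) ω (wcost N r g M Y j) ≤ jj * (w * (4 * Cc * CW * A / N)) := by
    calc ∑ j ∈ J, TK (poly J) ω (wcost N r g M Y j) ≤ ∑ j ∈ J, w * (4 * Cc * CW * A / N) := by
          refine Finset.sum_le_sum fun j hj => conv hK (continuous_wcost hgs hYs j)
            (fun x => wcost_nonneg j x) hω hw hw0 (by positivity) ?_
          refine wall_cost (δ := δ) hCc0 hCc hgs hg0 hg1 hkill hN0 hr0 hr1 hY1.continuous hCW0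
            hn2.le hj fun s hs1 hs2 T hT hTK hTs => ?_
          refine (hCW δ s Y hδ0 hs1 (by linarith) hY1 j hj T hT hTK hTs).trans ?_
          rw [← hk]
          exact mul_le_mul' le_rfl hlP
      _ = _ := by rw [Finset.sum_const, nsmul_eq_mul, hjj]
  have hWs : ContDiff ℝ ((⊤ : ℕ∞) : WithTop ℕ∞) (Wf J N r (Zf g M Y)) :=
    contDiff_Wf (contDiff_Zf hgs hYs)
  refine ⟨Wf J N r (Zf g M Y), r / 2 ^ N, m, hWs, hasCompactSupport_Wf (hasCompactSupport_Zf hYc),
    by positivity, fun x hx j hj hs => rigid hJ hkill hN0 hr0 (by linarith) hx hj hs, ?_⟩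
  rw [← hnn, ← hjj] at h3
  have e1 : 2 * L / M * TK (poly J) ω (fun x => ‖Y x‖ ^ 2) ≤ ε / 10 :=
    (mul_le_mul_of_nonneg_left b2 (by positivity)).trans hMb
  have e2 : 2 * L * M * TK (poly J) ω (fun x => 1 - g x) +
      (1 + 1 / κ) * nn * (2 * M ^ 2) * TK (poly J) ω (fun x => ‖fderiv ℝ g x‖ ^ 2) ≤ ε / 10 := by
    have e3 := mul_le_mul_of_nonneg_left b3 (by positivity : 0 ≤ 2 * L * M)
    have e4 := mul_le_mul_of_nonneg_left b5 (by positivity : 0 ≤ (1 + 1 / κ) * nn * (2 * M ^ 2))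
    have e5 : D1 * η = 2 * L * M * (w * η) + (1 + 1 / κ) * nn * (2 * M ^ 2) * (w * η) := by
      rw [hD1]; ring
    linarith
  have e3 : (2 * L * M + 2 * C * M ^ 2) * ∑ j ∈ J, TK (poly J) ω (wc N r j) ≤ ε / 10 := by
    refine (mul_le_mul_of_nonneg_left b4 (by positivity)).trans ?_
    have e5 : (2 * L * M + 2 * C * M ^ 2) * (jj * (w * (c * (2 * r)))) = D3 * r := by
      rw [hD3]; ring
    rw [e5]; exact hD3r
  have e4 : κ * TK (poly J) ω (ed b U Y) ≤ ε / 10 :=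
    (mul_le_mul_of_nonneg_left b1 hκ0.le).trans hκA.le
  have e5 : (1 + 1 / κ) * nn * (2 * jj) * ∑ j ∈ J, TK (poly J) ω (wcost N r g M Y j) ≤
      ε / 10 := by
    refine (mul_le_mul_of_nonneg_left b6 (by positivity)).trans ?_
    have e6 : (1 + 1 / κ) * nn * (2 * jj) * (jj * (w * (4 * Cc * CW * A / N))) = D2 / N := by
      rw [hD2]; ring
    rw [e6]; exact hD2N
  have e6 : κ * (∫ x, ed b (soft U J k) Y x * Real.exp (-(soft U J k x))) ≤ ε / 10 :=
    (mul_le_mul_of_nonneg_left hP1 hκ0.le).trans hκA.le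
  linarith

end field

end

end Crest.Agent.R144.Hsu498
end

-- ▼ part R144/Hsu9_498

/-!
# R144 (S0197), block HSU (helper498), file 9: the hard wall upper bound, general convex potential
-/

set_option autoImplicit false
set_option linter.unusedSectionVars false

open MeasureTheory Set Filter Topology
open scoped ENNReal NNReal RealInnerProductSpace

namespace Crest.Agent.R144.Hsu498

noncomputable section

section field

variable {E : Type*} [NormedAddCommGroup E] [InnerProductSpace ℝ E] [FiniteDimensional ℝ E]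
  [MeasurableSpace E] [BorelSpace E] {ι : Type*} [Fintype ι]

variable {J : Finset (E × ℝ)} {U : E → ℝ}

/-- the massive potential -/
def Um (U : E → ℝ) (lam : ℝ) (x : E) : ℝ := U x + lam / 2 * ‖x‖ ^ 2

theorem contDiff_Um (hU : ContDiff ℝ 2 U) (lam : ℝ) : ContDiff ℝ 2 (Um U lam) := by
  unfold Um
  exact hU.add (contDiff_const.mul (contDiff_norm_sq ℝ))

theorem fderiv_Um (hU : ContDiff ℝ 2 U) (lam : ℝ) (x : E) :
    fderiv ℝ (Um U lam) x = fderiv ℝ U x + lam • innerSL ℝ x := by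
  have h1 : HasFDerivAt U (fderiv ℝ U x) x :=
    ((hU.differentiable (by norm_num)) x).hasFDerivAt
  have h2 : HasFDerivAt (fun x : E => lam / 2 * ‖x‖ ^ 2) ((lam / 2) • (2 • innerSL ℝ x)) x :=
    (hasStrictFDerivAt_norm_sq x).hasFDerivAt.const_mul (lam / 2)
  have h3 : fderiv ℝ (Um U lam) x = fderiv ℝ U x + (lam / 2) • (2 • innerSL ℝ x) :=
    (h1.add h2).fderiv
  rw [h3]
  congr 1
  ext z
  simp
  ring

theorem fderiv_Um2_apply (hU : ContDiff ℝ 2 U) (lam : ℝ) (x y z : E) :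
    fderiv ℝ (fderiv ℝ (Um U lam)) x y z = fderiv ℝ (fderiv ℝ U) x y z + lam * ⟪y, z⟫ := by
  have e : fderiv ℝ (Um U lam) = fun x => fderiv ℝ U x + lam • innerSL ℝ x :=
    funext fun x => fderiv_Um hU lam x
  rw [e]
  have h1 : HasFDerivAt (fderiv ℝ U) (fderiv ℝ (fderiv ℝ U) x) x :=
    (((hU.fderiv_right (m := 1) (by norm_num)).differentiable (by norm_num)) x).hasFDerivAt
  obtain ⟨I, hI⟩ : ∃ I : E →L[ℝ] E →L[ℝ] ℝ, ∀ u v, I u v = ⟪u, v⟫ := ⟨innerSL ℝ, fun u v => rfl⟩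
  have hI' : ∀ u, innerSL ℝ u = I u := fun u => by ext v; rw [hI]; rfl
  simp only [hI']
  have h2 : HasFDerivAt (fun x : E => lam • I x) (lam • I) x :=
    (I.hasFDerivAt (x := x)).const_smul lam
  have h3 : fderiv ℝ (fun x => fderiv ℝ U x + lam • I x) x =
      fderiv ℝ (fderiv ℝ U) x + lam • I := (h1.add h2).fderiv
  rw [h3]
  show fderiv ℝ (fderiv ℝ U) x y z + lam * I y z = _
  rw [hI]

theorem integrable_gauss {a : ℝ} (ha : 0 < a) : Integrable fun x : E => Real.exp (-(a * ‖x‖ ^ 2)) := by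
  have h := (GaussianFourier.integrable_cexp_neg_mul_sq_norm_add (V := E) (b := (a : ℂ))
    (by simpa using ha) 0 0).norm
  refine h.congr (ae_of_all _ fun x => ?_)
  show ‖Complex.exp (-(a : ℂ) * (‖x‖ : ℂ) ^ 2 + 0 * ((inner ℝ (0 : E) x : ℝ) : ℂ))‖ = _
  rw [Complex.norm_exp]
  congr 1
  simp [← Complex.ofReal_pow]

theorem integrable_Um (hU : ContDiff ℝ 2 U) {A : ℝ}
    (hA : ∀ x, -(A * (1 + ‖x‖)) ≤ U x) {lam : ℝ} (hlam : 0 < lam) :
    (Integrable fun x => Real.exp (-(Um U lam x))) ∧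
      Integrable fun x => ‖x‖ ^ 2 * Real.exp (-(Um U lam x)) := by
  have hc : Continuous fun x => Real.exp (-(Um U lam x)) :=
    Real.continuous_exp.comp (contDiff_Um hU lam).continuous.neg
  have key : ∀ x : E, Real.exp (-(Um U lam x)) ≤
      Real.exp (A + A ^ 2 / lam) * Real.exp (-(lam / 4 * ‖x‖ ^ 2)) := by
    intro x
    rw [← Real.exp_add]
    refine Real.exp_le_exp.2 ?_
    unfold Um
    have h1 := hA x
    have h2 : A * ‖x‖ ≤ lam / 4 * ‖x‖ ^ 2 + A ^ 2 / lam := by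
      have h3 : 0 ≤ (lam / 2 * ‖x‖ - A) ^ 2 / lam := by positivity
      have e : (lam / 2 * ‖x‖ - A) ^ 2 / lam =
          lam / 4 * ‖x‖ ^ 2 + A ^ 2 / lam - A * ‖x‖ := by field_simp; ring
      linarith
    linarith
  have hg4 : Integrable fun x : E => Real.exp (A + A ^ 2 / lam) *
      Real.exp (-(lam / 4 * ‖x‖ ^ 2)) := (integrable_gauss (by positivity)).const_mul _
  have hg8 : Integrable fun x : E => Real.exp (A + A ^ 2 / lam) * (8 / lam) *
      Real.exp (-(lam / 8 * ‖x‖ ^ 2)) := (integrable_gauss (by positivity)).const_mul _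
  refine ⟨hg4.mono' hc.aestronglyMeasurable (ae_of_all _ fun x => ?_),
    hg8.mono' ((continuous_norm.pow 2).mul hc).aestronglyMeasurable (ae_of_all _ fun x => ?_)⟩
  · rw [Real.norm_of_nonneg (Real.exp_pos _).le]; exact key x
  · rw [Real.norm_of_nonneg (by positivity)]
    have h1 : ‖x‖ ^ 2 ≤ 8 / lam * Real.exp (lam / 8 * ‖x‖ ^ 2) := by
      have h2 := Real.add_one_le_exp (lam / 8 * ‖x‖ ^ 2)
      have h3 : lam / 8 * ‖x‖ ^ 2 ≤ Real.exp (lam / 8 * ‖x‖ ^ 2) := by linarith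
      calc ‖x‖ ^ 2 = 8 / lam * (lam / 8 * ‖x‖ ^ 2) := by field_simp
        _ ≤ _ := mul_le_mul_of_nonneg_left h3 (by positivity)
    calc ‖x‖ ^ 2 * Real.exp (-(Um U lam x))
        ≤ (8 / lam * Real.exp (lam / 8 * ‖x‖ ^ 2)) *
          (Real.exp (A + A ^ 2 / lam) * Real.exp (-(lam / 4 * ‖x‖ ^ 2))) :=
          mul_le_mul h1 (key x) (Real.exp_pos _).le (by positivity)
      _ = Real.exp (A + A ^ 2 / lam) * (8 / lam) *
          (Real.exp (lam / 8 * ‖x‖ ^ 2) * Real.exp (-(lam / 4 * ‖x‖ ^ 2))) := by ring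
      _ = _ := by
          rw [← Real.exp_add]
          congr 2
          ring

theorem TK_le_of_weight {K : Set E} (hK : IsCompact K) {ω ω' f : E → ℝ} (hω : Continuous ω)
    (hω' : Continuous ω') (hf : Continuous f) (h : ∀ x ∈ K, f x * ω x ≤ f x * ω' x) :
    TK K ω f ≤ TK K ω' f :=
  setIntegral_mono_on (TK_int hK hω hf) (TK_int hK hω' hf) hK.measurableSet h

/-- **hard wall upper bound** -/
theorem thmB (b : OrthonormalBasis ι ℝ E) (hF : Fi3 b) (hJ : ∀ j ∈ J, ‖j.1‖ = 1)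
    (hb : Bornology.IsBounded (poly J)) (hv : volume (poly J) ≠ 0) (hU : ContDiff ℝ 2 U)
    {C : ℝ} (hC0 : 0 ≤ C) (hC : ∀ x y z, |fderiv ℝ (fderiv ℝ U) x y z| ≤ C * ‖y‖ * ‖z‖)
    (hU0 : ∀ x y, 0 ≤ fderiv ℝ (fderiv ℝ U) x y y)
    {A : ℝ} (hA : ∀ x, -(A * (1 + ‖x‖)) ≤ U x)
    {G : E → ℝ} (hG : ContDiff ℝ 1 G) {L : ℝ} (hL0 : 0 ≤ L)
    (hL : ∀ x z, |fderiv ℝ G x z| ≤ L * ‖z‖) {ε : ℝ} (hε : 0 < ε) :
    ∃ (W : E → E) (ρ m : ℝ), ContDiff ℝ ((⊤ : ℕ∞) : WithTop ℕ∞) W ∧ HasCompactSupport W ∧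
      0 < ρ ∧ (∀ x ∈ poly J, ∀ j ∈ J, sl j x ≤ ρ → ⟪j.1, W x⟫ = 0) ∧
      TK (poly J) (fun x => Real.exp (-(U x))) (fun x => (G x - m) ^ 2) ≤
        2 * TK (poly J) (fun x => Real.exp (-(U x))) (fun x => fderiv ℝ G x (W x)) -
        TK (poly J) (fun x => Real.exp (-(U x))) (ed b U W) + ε := by
  have hK : IsCompact (poly J) := Metric.isCompact_of_isClosed_isBounded isClosed_poly hb
  obtain ⟨R', hR'⟩ := hb.subset_closedBall (0 : E)
  obtain ⟨R, hR0, hR⟩ : ∃ R : ℝ, 0 ≤ R ∧ ∀ x ∈ poly J, ‖x‖ ^ 2 ≤ R := by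
    refine ⟨R' ^ 2, sq_nonneg _, fun x hx => ?_⟩
    have h1 : ‖x‖ ≤ R' := by simpa using hR' hx
    exact pow_le_pow_left₀ (norm_nonneg _) h1 2
  have hω : Continuous fun x => Real.exp (-(U x)) :=
    Real.continuous_exp.comp hU.continuous.neg
  have hω0 : ∀ x, 0 ≤ Real.exp (-(U x)) := fun x => (Real.exp_pos _).le
  obtain ⟨Z, hZ⟩ : ∃ Z : ℝ, Z = TK (poly J) (fun x => Real.exp (-(U x))) (fun _ => 1) := ⟨_, rfl⟩
  have hZ0 : 0 ≤ Z := by rw [hZ]; exact TK_nonneg hK hω0 fun _ _ => zero_le_one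
  -- choice of the mass
  obtain ⟨D, hD⟩ : ∃ D : ℝ, D = R ^ 2 * L ^ 2 * Z := ⟨_, rfl⟩
  have hD0 : 0 ≤ D := by rw [hD]; positivity
  obtain ⟨lam, hlam⟩ : ∃ lam : ℝ, lam = min (1 / (R + 1)) (ε / (2 * (D + 1))) := ⟨_, rfl⟩
  have hlam0 : 0 < lam := by rw [hlam]; exact lt_min (by positivity) (by positivity)
  have hlamR : lam * R ≤ 1 := by
    have h1 : lam ≤ 1 / (R + 1) := by rw [hlam]; exact min_le_left _ _
    rw [le_div_iff₀ (by positivity)] at h1
    nlinarith
  have hlamD : lam * D ≤ ε / 2 := by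
    have h1 : lam ≤ ε / (2 * (D + 1)) := by rw [hlam]; exact min_le_right _ _
    rw [le_div_iff₀ (by positivity)] at h1
    nlinarith
  obtain ⟨c, hc⟩ : ∃ c : ℝ, c = Real.exp (-(lam / 2 * R)) := ⟨_, rfl⟩
  have hc0 : 0 < c := by rw [hc]; exact Real.exp_pos _
  have hc1 : 1 - lam / 2 * R ≤ c := by
    rw [hc]; linarith [Real.add_one_le_exp (-(lam / 2 * R))]
  have hc2 : 1 / 2 ≤ c := by linarith
  have hc3 : c ≤ 1 := by
    rw [hc]; exact Real.exp_le_one_iff.2 (by have : 0 ≤ lam / 2 * R := by positivity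
                                             linarith)
  obtain ⟨hi, hi2⟩ := integrable_Um hU hA hlam0
  obtain ⟨W, ρ, m, hWs, hWc, hρ, hrig, hmain⟩ := thmA b hF hJ hb hv (contDiff_Um hU lam)
    (C := C + lam) (by positivity) (fun x y z => by
      rw [fderiv_Um2_apply hU]
      refine (abs_add_le _ _).trans ?_
      have h1 := hC x y z
      have h2 : |lam * ⟪y, z⟫| ≤ lam * (‖y‖ * ‖z‖) := by
        rw [abs_mul, abs_of_pos hlam0]
        exact mul_le_mul_of_nonneg_left (abs_real_inner_le_norm y z) hlam0.le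
      linarith) hlam0 (fun x y => by
      rw [fderiv_Um2_apply hU, real_inner_self_eq_norm_sq]
      linarith [hU0 x y]) hi hi2 hG hL0 hL (ε := ε / 4) (by positivity)
  refine ⟨W, ρ, m, hWs, hWc, hρ, hrig, ?_⟩
  have hW1 : ContDiff ℝ 1 W := hWs.of_le (by norm_cast)
  have hωm : Continuous fun x => Real.exp (-(Um U lam x)) :=
    Real.continuous_exp.comp (contDiff_Um hU lam).continuous.neg
  -- comparison of the weights
  have hcmp : ∀ x ∈ poly J, c * Real.exp (-(U x)) ≤ Real.exp (-(Um U lam x)) ∧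
      Real.exp (-(Um U lam x)) ≤ Real.exp (-(U x)) := by
    intro x hx
    have e : Real.exp (-(Um U lam x)) = Real.exp (-(lam / 2 * ‖x‖ ^ 2)) * Real.exp (-(U x)) := by
      rw [← Real.exp_add]; unfold Um; congr 1; ring
    rw [e]
    have h1 : lam / 2 * ‖x‖ ^ 2 ≤ lam / 2 * R := mul_le_mul_of_nonneg_left (hR x hx) (by positivity)
    constructor
    · refine mul_le_mul_of_nonneg_right ?_ (Real.exp_pos _).le
      rw [hc]
      exact Real.exp_le_exp.2 (by linarith)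
    · refine mul_le_of_le_one_left (Real.exp_pos _).le ?_
      exact Real.exp_le_one_iff.2 (by have : 0 ≤ lam / 2 * ‖x‖ ^ 2 := by positivity
                                      linarith)
  have hTc : ∀ f : E → ℝ, TK (poly J) (fun x => c * Real.exp (-(U x))) f =
      c * TK (poly J) (fun x => Real.exp (-(U x))) f := by
    intro f
    unfold TK
    rw [← integral_const_mul]
    congr 1
    ext x; ring
  have hωc : Continuous fun x => c * Real.exp (-(U x)) := continuous_const.mul hω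
  have cG : Continuous fun x => (G x - m) ^ 2 := (hG.continuous.sub continuous_const).pow 2
  have cE := continuous_ed b hU hW1
  have cN : Continuous fun x => ‖W x‖ ^ 2 := hW1.continuous.norm.pow 2
  have cD : Continuous fun x => fderiv ℝ G x (W x) :=
    (hG.continuous_fderiv (by norm_num)).clm_apply hW1.continuous
  -- left side
  have k1 : c * TK (poly J) (fun x => Real.exp (-(U x))) (fun x => (G x - m) ^ 2) ≤
      TK (poly J) (fun x => Real.exp (-(Um U lam x))) (fun x => (G x - m) ^ 2) := by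
    rw [← hTc]
    exact TK_le_of_weight hK hωc hωm cG fun x hx =>
      mul_le_mul_of_nonneg_left (hcmp x hx).1 (sq_nonneg _)
  -- energy
  have k2 : c * TK (poly J) (fun x => Real.exp (-(U x))) (ed b U W) +
      lam * (c * TK (poly J) (fun x => Real.exp (-(U x))) (fun x => ‖W x‖ ^ 2)) ≤
      TK (poly J) (fun x => Real.exp (-(Um U lam x))) (ed b (Um U lam) W) := by
    have e : TK (poly J) (fun x => Real.exp (-(Um U lam x))) (ed b (Um U lam) W) =
        TK (poly J) (fun x => Real.exp (-(Um U lam x))) (ed b U W) +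
        lam * TK (poly J) (fun x => Real.exp (-(Um U lam x))) (fun x => ‖W x‖ ^ 2) := by
      have cN' : Continuous fun x => lam * ‖W x‖ ^ 2 := continuous_const.mul cN
      rw [← TK_const_mul, ← TK_add hK hωm cE cN']
      congr 1
      ext x
      unfold ed
      rw [fderiv_Um2_apply hU, real_inner_self_eq_norm_sq]
      ring
    rw [e, ← hTc, ← hTc]
    refine add_le_add ?_ (mul_le_mul_of_nonneg_left ?_ hlam0.le)
    · exact TK_le_of_weight hK hωc hωm cE fun x hx =>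
        mul_le_mul_of_nonneg_left (hcmp x hx).1 (add_nonneg (hs_nonneg b W x) (hU0 x _))
    · exact TK_le_of_weight hK hωc hωm cN fun x hx =>
        mul_le_mul_of_nonneg_left (hcmp x hx).1 (sq_nonneg _)
  -- linear term
  have k3 : 2 * TK (poly J) (fun x => Real.exp (-(Um U lam x))) (fun x => fderiv ℝ G x (W x)) ≤
      2 * (c * TK (poly J) (fun x => Real.exp (-(U x))) (fun x => fderiv ℝ G x (W x))) +
      (lam * (c * TK (poly J) (fun x => Real.exp (-(U x))) (fun x => ‖W x‖ ^ 2)) +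
        (1 - c) ^ 2 * L ^ 2 / (c * lam) * Z) := by
    have h1 : TK (poly J) (fun x => Real.exp (-(U x)))
        (fun x => 2 * (1 - c) * L * ‖W x‖) ≤
        TK (poly J) (fun x => Real.exp (-(U x)))
          (fun x => (lam * c) * ‖W x‖ ^ 2 + (1 - c) ^ 2 * L ^ 2 / (c * lam) * 1) := by
      refine TK_mono hK hω hω0 (continuous_const.mul hW1.continuous.norm)
        ((continuous_const.mul cN).add continuous_const) fun x _ => ?_
      have h2 := two_mul_le (L := (1 - c) * L) (y := ‖W x‖) (β := c) hc0 hlam0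
      have h3 : ((1 - c) * L) ^ 2 / (c * lam) = (1 - c) ^ 2 * L ^ 2 / (c * lam) := by
        rw [mul_pow]
      rw [h3] at h2
      linarith
    have cN' : Continuous fun x => lam * c * ‖W x‖ ^ 2 := continuous_const.mul cN
    rw [TK_add hK hω (h := fun _ => (1 - c) ^ 2 * L ^ 2 / (c * lam) * 1) cN' continuous_const,
      TK_const_mul (K := poly J) (lam * c) (fun x => ‖W x‖ ^ 2),
      TK_const_mul (K := poly J) ((1 - c) ^ 2 * L ^ 2 / (c * lam)) (fun _ => 1),
      ← hZ] at h1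
    have h2 : 2 * TK (poly J) (fun x => Real.exp (-(Um U lam x)))
        (fun x => fderiv ℝ G x (W x)) ≤
        2 * (c * TK (poly J) (fun x => Real.exp (-(U x))) (fun x => fderiv ℝ G x (W x))) +
        TK (poly J) (fun x => Real.exp (-(U x))) (fun x => 2 * (1 - c) * L * ‖W x‖) := by
      rw [← hTc]
      unfold TK
      have i1 := TK_int hK hωm cD
      have i2 := TK_int hK hωc cD
      have cW : Continuous fun x => 2 * (1 - c) * L * ‖W x‖ :=
        continuous_const.mul hW1.continuous.norm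
      have i3 := TK_int hK hω cW
      rw [← integral_const_mul, ← integral_const_mul, ← integral_add (i2.const_mul 2) i3]
      refine setIntegral_mono_on (i1.const_mul 2) ((i2.const_mul 2).add i3) hK.measurableSet
        fun x hx => ?_
      show 2 * (fderiv ℝ G x (W x) * Real.exp (-(Um U lam x))) ≤
        2 * (fderiv ℝ G x (W x) * (c * Real.exp (-(U x)))) +
          2 * (1 - c) * L * ‖W x‖ * Real.exp (-(U x))
      obtain ⟨h4, h5⟩ := hcmp x hx
      have h6 := (le_abs_self _).trans (hL x (W x))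
      have h7 : 0 ≤ Real.exp (-(Um U lam x)) - c * Real.exp (-(U x)) := by linarith
      have h8 : Real.exp (-(Um U lam x)) - c * Real.exp (-(U x)) ≤
          (1 - c) * Real.exp (-(U x)) := by linarith
      have h9 : fderiv ℝ G x (W x) * (Real.exp (-(Um U lam x)) - c * Real.exp (-(U x))) ≤
          L * ‖W x‖ * ((1 - c) * Real.exp (-(U x))) :=
        (mul_le_mul_of_nonneg_right h6 h7).trans
          (mul_le_mul_of_nonneg_left h8 (by positivity))
      linarith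
    linarith
  -- error
  have k4 : (1 - c) ^ 2 * L ^ 2 / (c * lam) * Z ≤ c * (ε / 2) := by
    have h1 : (1 - c) ^ 2 ≤ (lam / 2 * R) ^ 2 :=
      pow_le_pow_left₀ (by linarith) (by linarith) 2
    have h2 : (1 - c) ^ 2 * L ^ 2 / (c * lam) * Z = (1 - c) ^ 2 * (L ^ 2 * Z / lam) / c := by
      field_simp
    rw [h2, div_le_iff₀ hc0]
    have h3 : (1 - c) ^ 2 * (L ^ 2 * Z / lam) ≤ (lam / 2 * R) ^ 2 * (L ^ 2 * Z / lam) :=
      mul_le_mul_of_nonneg_right h1 (by positivity)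
    have h4 : (lam / 2 * R) ^ 2 * (L ^ 2 * Z / lam) = lam * D / 4 := by
      rw [hD]; field_simp; ring
    have h5 : (1 : ℝ) / 4 ≤ c * c := by nlinarith
    nlinarith
  have k5 : c * TK (poly J) (fun x => Real.exp (-(U x))) (fun x => (G x - m) ^ 2) ≤
      c * (2 * TK (poly J) (fun x => Real.exp (-(U x))) (fun x => fderiv ℝ G x (W x)) -
        TK (poly J) (fun x => Real.exp (-(U x))) (ed b U W) + ε) := by
    have h6 : ε / 4 ≤ c * (ε / 2) := by nlinarith
    linarith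
  exact le_of_mul_le_mul_left k5 hc0

end field

end

end Crest.Agent.R144.Hsu498
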