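import Crest.Agent.R144.Lw7_425
import Crest.Agent.R144.Lc7_279

-- ▼ part R144/Ldom_425
section

/-!
R144 (S0197), helper425.  Ldom (leaf DOM): the joint law of the height differences
`x_{φ a} - x_{φ 0}`, `a ∈ hball R \ 0`, under the uniform measure on a hammock polytope has a density
bounded by an explicit constant depending only on `R` (times `volume (ham F E 0)`).
-/

set_option autoImplicit false

open MeasureTheory Set Filter Topology
open scoped ENNReal

noncomputable section

namespace Crest.Agent.R144.Lw425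

open Crest.Agent.R144.Ham560

variable {U : Type*} [DecidableEq U] {F : Finset U} {E : Finset (U × U)} {ξ : U → ℝ}

/-- The punctured ball. -/
def pb (R : ℕ) : Finset (ℤ × ℤ) := (hball R).erase 0

theorem mem_pb {R : ℕ} {a : ℤ × ℤ} : a ∈ pb R ↔ a ≠ 0 ∧ hd a 0 ≤ R := by
  rw [pb, Finset.mem_erase, mem_hball]

/-- A fresh list consisting of the edges to the parents. -/
theorem exists_tree {R : ℕ} {φ : ℤ × ℤ → U} (hW : Win F E R φ) {w : ℝ} (hw : 0 < w)
    (A : Finset (ℤ × ℤ)) : (∀ a ∈ A, a ∈ pb R) → ∃ S : List ((U × U) × ℝ), FreshR F E S ∧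
      S.length = A.card ∧ ∀ q ∈ S, ∃ a ∈ A, q = ((φ a, φ (stp a)), w) := by
  induction A using Finset.induction_on_max_value (fun a : ℤ × ℤ => hd a 0) with
  | empty => exact fun _ => ⟨[], FreshR.nil, rfl, by simp⟩
  | @insert a s has hmax ih =>
    intro hA
    obtain ⟨S, h1, h2, h3⟩ := ih fun b hb => hA b (Finset.mem_insert_of_mem hb)
    have ha := mem_pb.mp (hA a (Finset.mem_insert_self _ _))
    obtain ⟨g1, g2⟩ := stp_spec ha.1
    have hab : a ∈ hball R := mem_hball.mpr ha.2
    have hsb : stp a ∈ hball R := mem_hball.mpr (by omega)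
    refine ⟨((φ a, φ (stp a)), w) :: S, ?_, ?_, ?_⟩
    · refine FreshR.cons h1 (hW.free a hab) (hW.edge a hab _ hsb g1) hw ?_
      intro q hq
      obtain ⟨b, hb, rfl⟩ := h3 q hq
      have hb' := mem_pb.mp (hA b (Finset.mem_insert_of_mem hb))
      obtain ⟨k1, k2⟩ := stp_spec hb'.1
      have hbb : b ∈ hball R := mem_hball.mpr hb'.2
      have hsbb : stp b ∈ hball R := mem_hball.mpr (by omega)
      have hle := hmax b hb
      constructor
      · intro he
        have := hW.inj _ hbb _ hab he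
        exact has (this ▸ hb)
      · intro he
        have := hW.inj _ hsbb _ hab he
        rw [this] at k2
        omega
    · rw [List.length_cons, h2, Finset.card_insert_of_notMem has]
    · intro q hq
      rcases List.mem_cons.mp hq with rfl | hq
      · exact ⟨a, Finset.mem_insert_self _ _, rfl⟩
      · obtain ⟨b, hb, hb'⟩ := h3 q hq
        exact ⟨b, Finset.mem_insert_of_mem hb, hb'⟩

/-- The height differences seen from the centre of the window. -/
def dif (R : ℕ) (φ : ℤ × ℤ → U) (h : U → ℝ) : pb R → ℝ := fun a => h (φ a) - h (φ 0)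

omit [DecidableEq U] in
theorem wgt_of_const (n : ℕ) {w : ℝ} (S : List ((U × U) × ℝ)) (h : ∀ q ∈ S, q.2 = w) :
    wgt n S = ENNReal.ofReal (64 * (n : ℝ) ^ 2 * w) ^ S.length := by
  induction S with
  | nil => rfl
  | cons q S ih =>
    rw [wgt_cons, ih fun q' hq' => h q' (List.mem_cons_of_mem _ hq'), h q List.mem_cons_self,
      List.length_cons]
    exact (pow_succ' _ _).symm

/-- Joint bound for a cube of height differences. -/
theorem dif_ball_le {R : ℕ} {φ : ℤ × ℤ → U} (hW : Win F E R φ) {n : ℕ}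
    (hn : ∀ v ∈ F, (nbr E v).card ≤ n) (y : pb R → ℝ) {s : ℝ} (hs : 0 < s) :
    volume (ham F E ξ ∩ {x | ∀ a : pb R, |dif R φ (Ham560.ext F ξ x) a - y a| ≤ s}) ≤
      ENNReal.ofReal (64 * (n : ℝ) ^ 2 * (2 * s)) ^ (pb R).card * volume (ham F E 0) := by
  classical
  obtain ⟨S, h1, h2, h3⟩ := exists_tree hW (w := 2 * s) (by positivity) (pb R) fun a ha => ha
  -- the centres
  set y' : ℤ × ℤ → ℝ := fun a => if h : a ∈ pb R then y ⟨a, h⟩ else 0 with hy'
  set ψ : U → ℤ × ℤ := Function.invFunOn φ (hball R : Set (ℤ × ℤ)) with hψ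
  have hinj : Set.InjOn φ (hball R : Set (ℤ × ℤ)) := fun a ha b hb hab =>
    hW.inj a (Finset.mem_coe.mp ha) b (Finset.mem_coe.mp hb) hab
  have hψφ : ∀ a ∈ hball R, ψ (φ a) = a := fun a ha =>
    hinj.leftInvOn_invFunOn (Finset.mem_coe.mpr ha)
  have hkey := vol_box_le (ξ := ξ) h1 hn (fun q => y' (ψ q.1) - y' (ψ q.2))
  have hwgt : wgt n S = ENNReal.ofReal (64 * (n : ℝ) ^ 2 * (2 * s)) ^ (pb R).card := by
    rw [wgt_of_const n (w := 2 * s) S (by
      intro q hq
      obtain ⟨a, _, rfl⟩ := h3 q hq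
      rfl), h2]
  rw [hwgt] at hkey
  refine (measure_mono ?_).trans hkey
  rintro x ⟨hx, hx'⟩
  refine ⟨hx, fun q hq => ?_⟩
  obtain ⟨a, ha, rfl⟩ := h3 q hq
  have ha' := mem_pb.mp ha
  obtain ⟨g1, g2⟩ := stp_spec ha'.1
  have hab : a ∈ hball R := mem_hball.mpr ha'.2
  have hsb : stp a ∈ hball R := mem_hball.mpr (by omega)
  show |Ham560.ext F ξ x (φ a) - Ham560.ext F ξ x (φ (stp a)) -
    (y' (ψ (φ a)) - y' (ψ (φ (stp a))))| ≤ 2 * s
  rw [hψφ a hab, hψφ _ hsb]
  have e : ∀ b ∈ hball R, |Ham560.ext F ξ x (φ b) - Ham560.ext F ξ x (φ 0) - y' b| ≤ s := by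
    intro b hb
    by_cases hb0 : b = 0
    · subst hb0
      have : y' 0 = 0 := by
        simp only [hy']
        rw [dif_neg]
        intro h; exact (mem_pb.mp h).1 rfl
      rw [this]; simp; exact hs.le
    · have hbp : b ∈ pb R := mem_pb.mpr ⟨hb0, mem_hball.mp hb⟩
      have := hx' ⟨b, hbp⟩
      have e2 : y' b = y ⟨b, hbp⟩ := by simp only [hy']; rw [dif_pos hbp]
      rw [e2]; exact this
  have e1 := abs_le.mp (e a hab)
  have e2 := abs_le.mp (e _ hsb)
  rw [abs_le]; constructor <;> linarith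

/-- The constant of the domination. -/
def domC (R n : ℕ) : ℝ≥0∞ := ENNReal.ofReal (64 * (n : ℝ) ^ 2) ^ (pb R).card

theorem volume_closedBall_pb {R : ℕ} (y : pb R → ℝ) {s : ℝ} (hs : 0 ≤ s) :
    volume (Metric.closedBall y s) = ENNReal.ofReal (2 * s) ^ (pb R).card := by
  rw [Real.volume_pi_closedBall y hs, Fintype.card_coe, ENNReal.ofReal_pow (by positivity)]

theorem measurable_dif (R : ℕ) (φ : ℤ × ℤ → U) :
    Measurable (fun x : F → ℝ => dif R φ (Ham560.ext F ξ x)) :=
  measurable_pi_lambda _ fun a =>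
    ((continuous_ext (F := F) (ξ := ξ) (φ a)).sub (continuous_ext (φ 0))).measurable

/-- The linear part of the difference map on a window of free sites. -/
def difL (F : Finset U) (R : ℕ) (φ : ℤ × ℤ → U) : (F → ℝ) →ₗ[ℝ] (pb R → ℝ) :=
  LinearMap.pi fun a => extL F (φ a) - extL F (φ 0)

theorem difL_apply (R : ℕ) (φ : ℤ × ℤ → U) (x : F → ℝ) :
    difL F R φ x = dif R φ (Ham560.ext F 0 x) := rfl

theorem dif_eq_difL {R : ℕ} {φ : ℤ × ℤ → U} (hW : Win F E R φ) (x : F → ℝ) :
    dif R φ (Ham560.ext F ξ x) = difL F R φ x := by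
  rw [difL_apply]
  funext a
  have ha := mem_pb.mp a.2
  have h0 : (0 : ℤ × ℤ) ∈ hball R := mem_hball.mpr (by rw [hd_self]; positivity)
  unfold dif
  rw [ext_mem (hW.free _ (mem_hball.mpr ha.2)), ext_mem (hW.free _ h0),
    ext_mem (hW.free _ (mem_hball.mpr ha.2)), ext_mem (hW.free _ h0)]

theorem difL_surjective {R : ℕ} {φ : ℤ × ℤ → U} (hW : Win F E R φ) :
    Function.Surjective (difL F R φ) := by
  classical
  intro y
  have h0 : (0 : ℤ × ℤ) ∈ hball R := mem_hball.mpr (by rw [hd_self]; positivity)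
  have hinj : Set.InjOn φ (hball R : Set (ℤ × ℤ)) := fun a ha b hb hab =>
    hW.inj a (Finset.mem_coe.mp ha) b (Finset.mem_coe.mp hb) hab
  set ψ : U → ℤ × ℤ := Function.invFunOn φ (hball R : Set (ℤ × ℤ)) with hψ
  have hψφ : ∀ a ∈ hball R, ψ (φ a) = a := fun a ha =>
    hinj.leftInvOn_invFunOn (Finset.mem_coe.mpr ha)
  refine ⟨fun u => if h : ψ u ∈ pb R then y ⟨ψ u, h⟩ else 0, ?_⟩
  rw [← dif_eq_difL (ξ := 0) hW]
  funext a
  have ha := mem_pb.mp a.2
  unfold dif
  rw [ext_mem (hW.free _ (mem_hball.mpr ha.2)), ext_mem (hW.free _ h0)]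
  simp only
  rw [hψφ _ (mem_hball.mpr ha.2), hψφ _ h0, dif_pos a.2, dif_neg, sub_zero]
  intro h; exact (mem_pb.mp h).1 rfl

/-- **DOM.**  Domination of the law of the height differences. -/
theorem dif_dom {R : ℕ} {φ : ℤ × ℤ → U} (hW : Win F E R φ) {n : ℕ}
    (hn : ∀ v ∈ F, (nbr E v).card ≤ n) (hfin : volume (ham F E 0) ≠ ∞)
    {A : Set (pb R → ℝ)} (hA : MeasurableSet A) :
    volume (ham F E ξ ∩ {x | dif R φ (Ham560.ext F ξ x) ∈ A}) ≤
      domC R n * volume (ham F E 0) * volume A := by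
  set T : (F → ℝ) → (pb R → ℝ) := fun x => dif R φ (Ham560.ext F ξ x) with hT
  have hTm : Measurable T := measurable_dif R φ
  have hTL : T = difL F R φ := by funext x; exact dif_eq_difL hW x
  set ρ : Measure (pb R → ℝ) := (volume.restrict (ham F E ξ)).map T with hρ
  have hρA : ∀ B : Set (pb R → ℝ), MeasurableSet B →
      ρ B = volume (ham F E ξ ∩ {x | dif R φ (Ham560.ext F ξ x) ∈ B}) := by
    intro B hB
    rw [hρ, Measure.map_apply hTm hB, Measure.restrict_apply (hTm hB), inter_comm]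
    rfl
  have hac : ρ ≪ volume := by
    obtain ⟨c, _, hc⟩ := LinearMap.exists_map_addHaar_eq_smul_addHaar (L := difL F R φ)
      (μ := (volume : Measure (F → ℝ))) (ν := (volume : Measure (pb R → ℝ)))
      (difL_surjective hW)
    intro B hB
    have h2 : (volume.map T) B = 0 := by
      rw [hTL, hc, Measure.smul_apply, hB, smul_zero]
    exact (Measure.absolutelyContinuous_of_le (Measure.map_mono Measure.restrict_le_self hTm)) h2
  set c : ℝ≥0∞ := domC R n * volume (ham F E 0) with hc
  have hctop : c ≠ ∞ := ENNReal.mul_ne_top (ENNReal.pow_ne_top ENNReal.ofReal_ne_top) hfin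
  have hloc : IsLocallyFiniteMeasure (c • (volume : Measure (pb R → ℝ))) :=
    ⟨fun y => by
      refine ⟨Metric.closedBall y 1, Metric.closedBall_mem_nhds y one_pos, ?_⟩
      rw [Measure.smul_apply, smul_eq_mul]
      exact ENNReal.mul_lt_top hctop.lt_top (isCompact_closedBall y 1).measure_lt_top⟩
  have key := (Besicovitch.vitaliFamily (volume : Measure (pb R → ℝ))).measure_le_of_frequently_le
    (ρ := ρ) (c • volume) hac A ?_
  · rw [← hρA A hA]
    rw [Measure.smul_apply, smul_eq_mul] at key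
    exact key
  · intro y _
    refine (Besicovitch.tendsto_filterAt (volume : Measure (pb R → ℝ)) y).frequently ?_
    refine Eventually.frequently ?_
    filter_upwards [self_mem_nhdsWithin] with s hs
    have hs' : (0:ℝ) < s := hs
    rw [hρA _ Metric.isClosed_closedBall.measurableSet, Measure.smul_apply, smul_eq_mul,
      volume_closedBall_pb y hs'.le]
    refine (measure_mono ?_).trans ((dif_ball_le (ξ := ξ) hW hn y hs').trans (le_of_eq ?_))
    · rintro x ⟨hx, hx'⟩
      refine ⟨hx, fun a => ?_⟩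
      have h1 : dif R φ (Ham560.ext F ξ x) ∈ Metric.closedBall y s := hx'
      rw [Metric.mem_closedBall, dist_pi_le_iff hs'.le] at h1
      have := h1 a
      rwa [Real.dist_eq] at this
    · rw [hc, domC, ENNReal.ofReal_mul (by positivity), mul_pow]
      ring

/-- Probability form for data with comparable partition function. -/
theorem dif_dom_prob {R : ℕ} {φ : ℤ × ℤ → U} (hW : Win F E R φ) {n : ℕ}
    (hn : ∀ v ∈ F, (nbr E v).card ≤ n) (hfin : volume (ham F E 0) ≠ ∞)
    {A : Set (pb R → ℝ)} (hA : MeasurableSet A) {κ : ℝ≥0∞}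
    (hκ : volume (ham F E 0) ≤ κ * volume (ham F E ξ)) :
    hamP F E ξ {x | dif R φ (Ham560.ext F ξ x) ∈ A} ≤ domC R n * κ * volume A := by
  have hm : MeasurableSet {x : F → ℝ | dif R φ (Ham560.ext F ξ x) ∈ A} :=
    measurable_dif (ξ := ξ) R φ hA
  have e : hamP F E ξ {x | dif R φ (Ham560.ext F ξ x) ∈ A} =
      volume (ham F E ξ ∩ {x | dif R φ (Ham560.ext F ξ x) ∈ A}) / volume (ham F E ξ) := uP_apply hm
  rw [e]
  refine ENNReal.div_le_of_le_mul ?_
  refine (dif_dom hW hn hfin hA).trans ?_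
  calc domC R n * volume (ham F E 0) * volume A ≤
        domC R n * (κ * volume (ham F E ξ)) * volume A := by gcongr
    _ = domC R n * κ * volume A * volume (ham F E ξ) := by ring

end Crest.Agent.R144.Lw425
end
end

-- ▼ part R144/Lmu1_425
section

/-!
R144 (S0197), helper425.  Lmu1: from a convergent functional on local observables to a MEASURE.

`exists_mu` : `ν n` probability measures on pinned heights (`|h a| ≤ (hd a 0 : ℝ)`), marginals on `pb r` eventually
dominated by `C r • volume`, `∫ f ∂(ν n) → m f` for every local bounded measurable observable `f`.  Then there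
is a probability measure `μ` with `∫ f ∂μ = m f`, carried by the same heights, with dominated marginals.
-/

set_option autoImplicit false

open MeasureTheory Set Filter Topology
open scoped ENNReal BoundedContinuousFunction

noncomputable section

namespace Crest.Agent.R144.Lw425

/-- Pinned heights as a compact space. -/
abbrev HX : Type := ∀ a : ℤ × ℤ, Set.Icc (-(hd a 0 : ℝ)) (hd a 0 : ℝ)

theorem hd_cast_nonneg (a : ℤ × ℤ) : -(hd a 0 : ℝ) ≤ (hd a 0 : ℝ) := by
  have : (0 : ℝ) ≤ (hd a 0 : ℝ) := by exact_mod_cast hd_nonneg a 0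
  linarith

/-- The embedding in heights. -/
def emb (h : HX) : ℤ × ℤ → ℝ := fun a => h a

/-- Clamping. -/
def clmp (h : ℤ × ℤ → ℝ) : HX := fun a => Set.projIcc _ _ (hd_cast_nonneg a) (h a)

theorem continuous_emb : Continuous emb :=
  continuous_pi fun a => continuous_subtype_val.comp (continuous_apply a)

theorem measurable_emb : Measurable emb := continuous_emb.measurable

theorem measurable_clmp : Measurable clmp :=
  measurable_pi_lambda _ fun a =>
    (continuous_projIcc (h := hd_cast_nonneg a)).measurable.comp (measurable_pi_apply a)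

theorem emb_clmp {h : ℤ × ℤ → ℝ} (hh : ∀ a, |h a| ≤ (hd a 0 : ℝ)) : emb (clmp h) = h := by
  funext a
  unfold emb clmp
  have := abs_le.mp (hh a)
  rw [Set.projIcc_of_mem _ this]

theorem abs_emb_le (h : HX) (a : ℤ × ℤ) : |emb h a| ≤ hd a 0 := abs_le.mpr (h a).2

/-- Restriction to the punctured ball. -/
def rst (r : ℕ) (h : ℤ × ℤ → ℝ) : pb r → ℝ := fun a => h a

theorem measurable_rst (r : ℕ) : Measurable (rst r) :=
  measurable_pi_lambda _ fun _ => measurable_pi_apply _

theorem continuous_rst (r : ℕ) : Continuous (rst r) :=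
  continuous_pi fun _ => continuous_apply _

/-- Extension by zero. -/
def xt (r : ℕ) (z : pb r → ℝ) (a : ℤ × ℤ) : ℝ := if h : a ∈ pb r then z ⟨a, h⟩ else 0

theorem measurable_xt (r : ℕ) : Measurable (xt r) := by
  refine measurable_pi_lambda _ fun a => ?_
  by_cases h : a ∈ pb r
  · simp only [xt, h, dif_pos]; exact measurable_pi_apply _
  · simp only [xt, h, dif_neg, not_false_eq_true]; exact measurable_const

theorem LObs.eq_xt {r : ℕ} {f : (ℤ × ℤ → ℝ) → ℝ} (hf : LObs r f) {h : ℤ × ℤ → ℝ} (h0 : h 0 = 0) :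
    f h = f (xt r (rst r h)) := by
  refine hf.loc _ _ fun a ha => ?_
  by_cases hp : a ∈ pb r
  · simp only [xt, dif_pos hp]; rfl
  · simp only [xt, dif_neg hp]
    have : a = 0 := by
      by_contra hne
      exact hp (mem_pb.mpr ⟨hne, mem_hball.mp ha⟩)
    rw [this, h0]

/-- The box containing the restrictions. -/
def pbx (r : ℕ) : Set (pb r → ℝ) := Set.pi Set.univ fun a => Set.Icc (-(hd a 0 : ℝ)) (hd a 0)

theorem isCompact_pbx (r : ℕ) : IsCompact (pbx r) := isCompact_univ_pi fun _ => isCompact_Icc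

/-- Measure domination on the marginal. -/
theorem map_le {r : ℕ} {μ : Measure (ℤ × ℤ → ℝ)} (hs : ∀ᵐ h ∂μ, ∀ a, |h a| ≤ (hd a 0 : ℝ))
    {C : ℝ≥0∞} (hC : ∀ A : Set (pb r → ℝ), MeasurableSet A → μ {h | rst r h ∈ A} ≤ C * volume A) :
    μ.map (rst r) ≤ C • (volume.restrict (pbx r)) := by
  refine Measure.le_iff.mpr fun A hA => ?_
  rw [Measure.map_apply (measurable_rst r) hA, Measure.smul_apply, smul_eq_mul,
    Measure.restrict_apply hA]
  have h1 : μ (rst r ⁻¹' A) = μ {h | rst r h ∈ A ∩ pbx r} := by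
    refine measure_congr ?_
    filter_upwards [hs] with h hh
    refine propext ⟨fun h1 => ⟨h1, fun a _ => abs_le.mp (hh a)⟩, fun h1 => h1.1⟩
  rw [h1]
  exact hC _ (hA.inter (isCompact_pbx r).isClosed.measurableSet)

/-- Comparison of a local observable with a continuous function on the marginal. -/
theorem approx_le {r : ℕ} {μ : Measure (ℤ × ℤ → ℝ)} [IsProbabilityMeasure μ]
    (hs : ∀ᵐ h ∂μ, ∀ a, |h a| ≤ (hd a 0 : ℝ)) {C : ℝ≥0∞} (hCt : C ≠ ∞)
    (hC : ∀ A : Set (pb r → ℝ), MeasurableSet A → μ {h | rst r h ∈ A} ≤ C * volume A)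
    {f : (ℤ × ℤ → ℝ) → ℝ} (hf : LObs r f) (g : (pb r → ℝ) →ᵇ ℝ) :
    |∫ h, f h ∂μ - ∫ h, g (rst r h) ∂μ| ≤
      C.toReal * ∫ z in pbx r, ‖f (xt r z) - g z‖ := by
  have hfm : Measurable fun z => f (xt r z) := hf.meas.comp (measurable_xt r)
  have hbdd : ∀ z, ‖f (xt r z) - g z‖ ≤ 1 + ‖g‖ := fun z =>
    (norm_sub_le _ _).trans (add_le_add (by rw [Real.norm_eq_abs]; exact hf.bd _)
      (g.norm_coe_le_norm z))
  have i1 : Integrable (fun h => f h) μ :=
    Integrable.of_bound hf.meas.aestronglyMeasurable 1 (Eventually.of_forall fun h => by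
      rw [Real.norm_eq_abs]; exact hf.bd h)
  have i2 : Integrable (fun h => g (rst r h)) μ :=
    Integrable.of_bound ((g.continuous.comp (continuous_rst r)).measurable.aestronglyMeasurable) ‖g‖
      (Eventually.of_forall fun h => g.norm_coe_le_norm _)
  rw [← integral_sub i1 i2]
  have h0 : ∀ᵐ h ∂μ, h 0 = 0 := by
    filter_upwards [hs] with h hh
    have := hh 0
    rw [hd_self] at this
    simpa using this
  have e1 : ∫ h, (f h - g (rst r h)) ∂μ = ∫ h, (f (xt r (rst r h)) - g (rst r h)) ∂μ := by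
    refine integral_congr_ae ?_
    filter_upwards [h0] with h hh
    rw [hf.eq_xt hh]
  rw [e1]
  have hfin : IsFiniteMeasure ((volume : Measure (pb r → ℝ)).restrict (pbx r)) :=
    ⟨by rw [Measure.restrict_apply_univ]; exact (isCompact_pbx r).measure_lt_top⟩
  have hm : Measurable fun z => ‖f (xt r z) - g z‖ :=
    (hfm.sub g.continuous.measurable).norm
  calc |∫ h, (f (xt r (rst r h)) - g (rst r h)) ∂μ|
      ≤ ∫ h, ‖f (xt r (rst r h)) - g (rst r h)‖ ∂μ := by
        rw [← Real.norm_eq_abs]; exact norm_integral_le_integral_norm _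
    _ = ∫ z, ‖f (xt r z) - g z‖ ∂(μ.map (rst r)) := by
        rw [integral_map (measurable_rst r).aemeasurable hm.aestronglyMeasurable]
    _ ≤ ∫ z, ‖f (xt r z) - g z‖ ∂(C • (volume.restrict (pbx r))) := by
        refine integral_mono_measure (map_le hs hC) (Eventually.of_forall fun z => norm_nonneg _) ?_
        refine Integrable.smul_measure ?_ hCt
        exact Integrable.of_bound hm.aestronglyMeasurable (1 + ‖g‖) (Eventually.of_forall fun z => by
          rw [norm_norm]; exact hbdd z)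
    _ = C.toReal * ∫ z in pbx r, ‖f (xt r z) - g z‖ := by
        rw [integral_smul_measure]; rfl

/-- Domination passes to weak limits. -/
theorem dom_limit {r : ℕ} {U : Filter ℕ} [U.NeBot] {ν : ℕ → ProbabilityMeasure HX}
    {ν0 : ProbabilityMeasure HX} (hlim : Tendsto ν U (𝓝 ν0)) {C : ℝ≥0∞} (hCt : C ≠ ∞)
    (hC : ∀ᶠ n in U, ∀ A : Set (pb r → ℝ), MeasurableSet A →
      (ν n : Measure HX) {h | rst r (emb h) ∈ A} ≤ C * volume A)
    {A : Set (pb r → ℝ)} (hA : MeasurableSet A) :
    (ν0 : Measure HX) {h | rst r (emb h) ∈ A} ≤ C * volume A := by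
  have : TopologicalSpace.MetrizableSpace HX :=
    TopologicalSpace.metrizableSpace_of_t3_secondCountable HX
  -- open sets
  have hopen : ∀ O : Set (pb r → ℝ), IsOpen O →
      (ν0 : Measure HX) {h | rst r (emb h) ∈ O} ≤ C * volume O := by
    intro O hO
    have h1 : IsOpen {h : HX | rst r (emb h) ∈ O} :=
      hO.preimage ((continuous_rst r).comp continuous_emb)
    refine (ProbabilityMeasure.le_liminf_measure_open_of_tendsto hlim h1).trans ?_
    refine Filter.liminf_le_of_frequently_le' ?_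
    refine Eventually.frequently ?_
    filter_upwards [hC] with n hn
    exact hn O hO.measurableSet
  -- outer regularity
  refine ENNReal.le_of_forall_pos_le_add fun ε hε _ => ?_
  by_cases hC0 : C = 0
  · have := hopen Set.univ isOpen_univ
    rw [hC0, zero_mul] at this
    have h2 : (ν0 : Measure HX) {h | rst r (emb h) ∈ A} ≤ 0 :=
      (measure_mono fun h _ => mem_univ (rst r (emb h))).trans this
    exact h2.trans bot_le
  · have hε' : (ε : ℝ≥0∞) / C ≠ 0 := (ENNReal.div_pos (by exact_mod_cast hε.ne') hCt).ne'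
    obtain ⟨O, hAO, hO, hle⟩ := A.exists_isOpen_le_add (volume : Measure (pb r → ℝ)) hε'
    calc (ν0 : Measure HX) {h | rst r (emb h) ∈ A} ≤
          (ν0 : Measure HX) {h | rst r (emb h) ∈ O} := measure_mono fun h hh => hAO hh
      _ ≤ C * volume O := hopen O hO
      _ ≤ C * (volume A + ε / C) := by gcongr
      _ = C * volume A + ε := by rw [mul_add, ENNReal.mul_div_cancel hC0 hCt]

/-- **From a functional to a measure.** -/
theorem exists_mu {ν : ℕ → Measure (ℤ × ℤ → ℝ)} (hp : ∀ n, IsProbabilityMeasure (ν n))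
    (hs : ∀ n, ∀ᵐ h ∂(ν n), ∀ a, |h a| ≤ (hd a 0 : ℝ)) {C : ℕ → ℝ≥0∞} (hCt : ∀ r, C r ≠ ∞)
    (hC : ∀ r, ∀ᶠ n in atTop, ∀ A : Set (pb r → ℝ), MeasurableSet A →
      ν n {h | rst r h ∈ A} ≤ C r * volume A)
    {m : ((ℤ × ℤ → ℝ) → ℝ) → ℝ}
    (hm : ∀ r f, LObs r f → Tendsto (fun n => ∫ h, f h ∂(ν n)) atTop (𝓝 (m f))) :
    ∃ μ : Measure (ℤ × ℤ → ℝ), IsProbabilityMeasure μ ∧ (∀ᵐ h ∂μ, ∀ a, |h a| ≤ (hd a 0 : ℝ)) ∧
      (∀ r f, LObs r f → ∫ h, f h ∂μ = m f) ∧
      ∀ r, ∀ A : Set (pb r → ℝ), MeasurableSet A → μ {h | rst r h ∈ A} ≤ C r * volume A := by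
  -- transfer to the compact space
  have hpm : ∀ n, IsProbabilityMeasure ((ν n).map clmp) := fun n => by
    have := hp n
    exact Measure.isProbabilityMeasure_map measurable_clmp.aemeasurable
  set P : ℕ → ProbabilityMeasure HX := fun n => ⟨(ν n).map clmp, hpm n⟩ with hP
  set V : Ultrafilter ℕ := Ultrafilter.of atTop with hV
  have hVle : (V : Filter ℕ) ≤ atTop := Ultrafilter.of_le atTop
  obtain ⟨P0, -, hP0⟩ := (isCompact_univ (X := ProbabilityMeasure HX)).ultrafilter_le_nhds
    (V.map P) (by simp)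
  have hlim : Tendsto P (V : Filter ℕ) (𝓝 P0) := hP0
  have hback : ∀ n, ∀ G : (ℤ × ℤ → ℝ) → ℝ, Measurable G →
      ∫ h, G (emb h) ∂((P n : Measure HX)) = ∫ h, G h ∂(ν n) := by
    intro n G hG
    show ∫ h, G (emb h) ∂((ν n).map clmp) = _
    rw [integral_map (f := fun h => G (emb h)) measurable_clmp.aemeasurable
      (hG.comp measurable_emb).aestronglyMeasurable]
    refine integral_congr_ae ?_
    filter_upwards [hs n] with h hh
    rw [emb_clmp hh]
  have hdomP : ∀ r, ∀ᶠ n in (V : Filter ℕ), ∀ A : Set (pb r → ℝ), MeasurableSet A →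
      (P n : Measure HX) {h | rst r (emb h) ∈ A} ≤ C r * volume A := by
    intro r
    filter_upwards [hVle (hC r)] with n hn A hA
    have hmeas : MeasurableSet {h : HX | rst r (emb h) ∈ A} :=
      ((measurable_rst r).comp measurable_emb) hA
    have e : (P n : Measure HX) {h | rst r (emb h) ∈ A} = ν n {h | rst r h ∈ A} := by
      show ((ν n).map clmp) _ = _
      rw [Measure.map_apply measurable_clmp hmeas]
      refine measure_congr ?_
      filter_upwards [hs n] with h hh
      show (rst r (emb (clmp h)) ∈ A) = (rst r h ∈ A)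
      rw [emb_clmp hh]
    rw [e]; exact hn A hA
  have hdom0 : ∀ r, ∀ A : Set (pb r → ℝ), MeasurableSet A →
      (P0 : Measure HX) {h | rst r (emb h) ∈ A} ≤ C r * volume A := fun r A hA =>
    dom_limit hlim (hCt r) (hdomP r) hA
  -- the measure
  set μ : Measure (ℤ × ℤ → ℝ) := (P0 : Measure HX).map emb with hμ
  have hμp : IsProbabilityMeasure μ := Measure.isProbabilityMeasure_map measurable_emb.aemeasurable
  have hμs : ∀ᵐ h ∂μ, ∀ a, |h a| ≤ (hd a 0 : ℝ) := by
    rw [hμ, ae_map_iff measurable_emb.aemeasurable]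
    · exact Eventually.of_forall fun h a => abs_emb_le h a
    · rw [show {h : ℤ × ℤ → ℝ | ∀ a, |h a| ≤ (hd a 0 : ℝ)} = ⋂ a, {h | |h a| ≤ (hd a 0 : ℝ)} by
        ext h; simp]
      exact MeasurableSet.iInter fun a => measurableSet_le (measurable_pi_apply a).abs
        measurable_const
  have hμC : ∀ r, ∀ A : Set (pb r → ℝ), MeasurableSet A → μ {h | rst r h ∈ A} ≤ C r * volume A := by
    intro r A hA
    have : μ {h | rst r h ∈ A} = (P0 : Measure HX) {h | rst r (emb h) ∈ A} := by
      have h1 : MeasurableSet {h : ℤ × ℤ → ℝ | rst r h ∈ A} := (measurable_rst r) hA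
      rw [hμ, Measure.map_apply measurable_emb h1]
      rfl
    rw [this]; exact hdom0 r A hA
  refine ⟨μ, hμp, hμs, ?_, hμC⟩
  intro r f hf
  -- compare through a continuous function
  have hfin : IsFiniteMeasure ((volume : Measure (pb r → ℝ)).restrict (pbx r)) :=
    ⟨by rw [Measure.restrict_apply_univ]; exact (isCompact_pbx r).measure_lt_top⟩
  have hint : Integrable (fun z => f (xt r z)) ((volume : Measure (pb r → ℝ)).restrict (pbx r)) :=
    Integrable.of_bound (hf.meas.comp (measurable_xt r)).aestronglyMeasurable 1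
      (Eventually.of_forall fun z => by rw [Real.norm_eq_abs]; exact hf.bd _)
  have hle : ∀ ε > 0, |m f - ∫ h, f h ∂μ| ≤ 2 * (C r).toReal * ε := by
    intro ε hε
    obtain ⟨g, hg, _⟩ := hint.exists_boundedContinuous_integral_sub_le hε
    have hgm : Measurable fun h : ℤ × ℤ → ℝ => g (rst r h) :=
      (g.continuous.comp (continuous_rst r)).measurable
    -- limit of `g`
    have hgc : Continuous fun h : HX => g (rst r (emb h)) :=
      g.continuous.comp ((continuous_rst r).comp continuous_emb)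
    set gb : HX →ᵇ ℝ := BoundedContinuousFunction.ofNormedAddCommGroup
      (fun h : HX => g (rst r (emb h))) hgc ‖g‖ (fun h => g.norm_coe_le_norm _) with hgb
    have hgl := (ProbabilityMeasure.tendsto_iff_forall_integral_tendsto.mp hlim) gb
    have e0 : ∫ h, gb h ∂(P0 : Measure HX) = ∫ h, g (rst r h) ∂μ := by
      rw [hμ, integral_map measurable_emb.aemeasurable hgm.aestronglyMeasurable]
      rfl
    have en : ∀ n, ∫ h, gb h ∂(P n : Measure HX) = ∫ h, g (rst r h) ∂(ν n) := fun n =>
      hback n (fun h => g (rst r h)) hgm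
    have hgl' : Tendsto (fun n => ∫ h, g (rst r h) ∂(ν n)) (V : Filter ℕ)
        (𝓝 (∫ h, g (rst r h) ∂μ)) := by
      rw [← e0]
      exact hgl.congr fun n => en n
    have hfl : Tendsto (fun n => ∫ h, f h ∂(ν n)) (V : Filter ℕ) (𝓝 (m f)) := (hm r f hf).mono_left hVle
    have hdiff : Tendsto (fun n => |∫ h, f h ∂(ν n) - ∫ h, g (rst r h) ∂(ν n)|) (V : Filter ℕ)
        (𝓝 |m f - ∫ h, g (rst r h) ∂μ|) := (hfl.sub hgl').abs
    have hb1 : |m f - ∫ h, g (rst r h) ∂μ| ≤ (C r).toReal * ε := by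
      refine le_of_tendsto hdiff ?_
      filter_upwards [hVle (hC r)] with n hn
      have := hp n
      refine (approx_le (hs n) (hCt r) hn hf g).trans ?_
      gcongr
    have hb2 : |∫ h, f h ∂μ - ∫ h, g (rst r h) ∂μ| ≤ (C r).toReal * ε := by
      refine (approx_le hμs (hCt r) (hμC r) hf g).trans ?_
      gcongr
    have := abs_sub_le (m f) (∫ h, g (rst r h) ∂μ) (∫ h, f h ∂μ)
    rw [abs_sub_comm (∫ h, g (rst r h) ∂μ)] at this
    linarith
  have h0 : |m f - ∫ h, f h ∂μ| ≤ 0 := by
    refine le_of_forall_pos_le_add fun η hη => ?_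
    have hpos : 0 < 2 * (C r).toReal + 1 := by positivity
    have := hle (η / (2 * (C r).toReal + 1)) (by positivity)
    refine this.trans ?_
    rw [zero_add, mul_div_assoc', div_le_iff₀ hpos]
    nlinarith
  have := abs_nonpos_iff.mp h0
  linarith

end Crest.Agent.R144.Lw425
end
end

-- ▼ part R144/Lmu2_425
section

/-!
R144 (S0197), helper425.  Lmu2: the measure `μ₀` from zero-data boxes.

* `lipAll` : a height with zero data on a box is `1`-Lipschitz on the whole lattice;
* `win_tr` : translated windows inside the box;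
* `avgLaw` : the averaged laws of `z (x + ·) - z x`, `x ∈ core L`;
* `exists_mu0` : convergence of the box averages of all local observables to `m f` gives a probability
  measure with `∫ f ∂μ = m f`, translation and reflection invariant.
-/

set_option autoImplicit false

open MeasureTheory Set Filter Topology
open scoped ENNReal

noncomputable section

namespace Crest.Agent.R144.Lw425

open Crest.Agent.R144.Ham560
open Crest.Agent.R144.Lc279 (Ev bx mem_bx card_bx anch_bx card_nbr_lat_le mem_nbr_lat)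

/-! ### Zero data on a box -/

theorem lipAll {L : ℕ} {y : bx L → ℝ} (hy : y ∈ ham (bx L) (Lc279.lat (bx L)) 0) (v w : ℤ × ℤ) :
    |Ham560.ext (bx L) 0 y v - Ham560.ext (bx L) 0 y w| ≤ hd v w := by
  have h1 : ∀ v w, hd v w = 1 →
      |Ham560.ext (bx L) 0 y v - Ham560.ext (bx L) 0 y w| ≤ 1 := by
    intro v w hvw
    by_cases hin : v ∈ bx L ∨ w ∈ bx L
    · exact hy (v, w) (Lc279.mem_lat.mpr ⟨hvw, hin⟩)
    · push Not at hin
      rw [ext_notMem hin.1, ext_notMem hin.2]
      simp
  have key : ∀ (n : ℕ) (v w : ℤ × ℤ), hd v w ≤ n →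
      |Ham560.ext (bx L) 0 y v - Ham560.ext (bx L) 0 y w| ≤ hd v w := by
    intro n
    induction n with
    | zero =>
      intro v w h
      have h0 : hd v w = 0 := le_antisymm (by simpa using h) (hd_nonneg _ _)
      rw [hd_eq_zero h0, hd_self]; simp
    | succ n ih =>
      intro v w h
      by_cases hvw : v = w
      · subst hvw; rw [hd_self]; simp
      obtain ⟨c, hc1, hc2, _⟩ := exists_step hvw
      have g1 := ih c w (by push_cast at h; omega)
      have g2 := h1 v c hc1
      have g3 := abs_sub_le (Ham560.ext (bx L) 0 y v) (Ham560.ext (bx L) 0 y c)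
        (Ham560.ext (bx L) 0 y w)
      have g4 : ((hd c w : ℤ) : ℝ) = hd v w - 1 := by rw [hc2]; push_cast; ring
      rw [g4] at g1
      linarith
  exact key (hd v w).toNat v w (Int.self_le_toNat _)

/-- Heights seen from `x`. -/
def shft (x : ℤ × ℤ) (z : ℤ × ℤ → ℝ) : ℤ × ℤ → ℝ := fun a => z (x + a) - z x

theorem measurable_shft (x : ℤ × ℤ) : Measurable (shft x) :=
  measurable_pi_lambda _ fun _ => (measurable_pi_apply _).sub (measurable_pi_apply _)

theorem hd_add_left' (x a b : ℤ × ℤ) : hd (x + a) (x + b) = hd a b := by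
  unfold hd
  simp only [Prod.fst_add, Prod.snd_add, add_sub_add_left_eq_sub]

theorem LObs.shft_eq {r : ℕ} {f : (ℤ × ℤ → ℝ) → ℝ} (hf : LObs r f) (x : ℤ × ℤ) (z : ℤ × ℤ → ℝ) :
    f (shft x z) = f fun a => z (x + a) := by
  have := hf.shift (fun a => z (x + a)) (-(z x))
  rw [← this]
  rfl

/-- The translated window. -/
theorem win_tr {L r : ℕ} {x : ℤ × ℤ} (hx : ((r : ℤ) ≤ x.1 ∧ x.1 + r < L) ∧ (r : ℤ) ≤ x.2 ∧ x.2 + r < L) :
    Win (bx L) (Lc279.lat (bx L)) r (fun a => x + a) where
  inj := fun a _ b _ h => add_left_cancel h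
  free := by
    intro a ha
    have := hd_le_iff.mp (mem_hball.mp ha)
    simp only [Prod.fst_zero, Prod.snd_zero, sub_zero] at this
    rw [mem_bx]
    simp only [Prod.fst_add, Prod.snd_add]
    omega
  edge := by
    intro a ha b _ hab
    have := hd_le_iff.mp (mem_hball.mp ha)
    simp only [Prod.fst_zero, Prod.snd_zero, sub_zero] at this
    refine mem_nbr_lat.mpr ⟨by rw [hd_add_left']; exact hab, Or.inl ?_⟩
    rw [mem_bx]
    simp only [Prod.fst_add, Prod.snd_add]
    omega
  only := by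
    intro p hp a ha
    rw [Lc279.mem_lat] at hp
    have ha' := mem_inn.mp ha
    have key : ∀ c : ℤ × ℤ, hd (x + a) c = 1 → ∃ b ∈ hball r, hd a b = 1 ∧ c = x + b := by
      intro c hc
      have e : c = x + (c - x) := by abel
      rw [e, hd_add_left'] at hc
      refine ⟨c - x, ?_, hc, e⟩
      have h4 := hd_triangle (c - x) a 0
      rw [hd_comm (c - x) a, hc] at h4
      rw [mem_hball]; omega
    constructor
    · intro h
      exact key p.2 (by rw [← h]; exact hp.1)
    · intro h
      exact key p.1 (by rw [← h, hd_comm]; exact hp.1)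

/-! ### The averaged laws -/

/-- Margin. -/
def mg (L : ℕ) : ℕ := Nat.sqrt L / 2

/-- Sites far from the boundary of the box. -/
def core' (L : ℕ) : Finset (ℤ × ℤ) :=
  Finset.Ico (mg L : ℤ) (L - mg L) ×ˢ Finset.Ico (mg L : ℤ) (L - mg L)

theorem mem_core' {L : ℕ} {x : ℤ × ℤ} : x ∈ core' L ↔
    ((mg L : ℤ) ≤ x.1 ∧ x.1 < L - mg L) ∧ ((mg L : ℤ) ≤ x.2 ∧ x.2 < L - mg L) := by
  rw [core', Finset.mem_product, Finset.mem_Ico, Finset.mem_Ico]

theorem core'_subset (L : ℕ) : core' L ⊆ bx L := by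
  intro x hx
  rw [mem_core'] at hx
  rw [mem_bx]; omega

theorem mg_lt {L : ℕ} (hL : 0 < L) : 2 * mg L < L := by
  unfold mg
  rcases Nat.lt_or_ge L 2 with h | h
  · have : L = 1 := by omega
    subst this; norm_num
  · have h1 : Nat.sqrt L < L := Nat.sqrt_lt_self (by omega)
    omega

theorem card_core' {L : ℕ} : (core' L).card = (L - 2 * mg L) ^ 2 := by
  rw [core', Finset.card_product, Int.card_Ico]
  have : ((L : ℤ) - mg L - mg L).toNat = L - 2 * mg L := by omega
  rw [this, sq]

theorem core'_nonempty {L : ℕ} (hL : 0 < L) : (core' L).Nonempty := by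
  rw [← Finset.card_pos, card_core']
  have := mg_lt hL
  exact Nat.pow_pos (by omega)

theorem tendsto_mg : Tendsto mg atTop atTop := by
  rw [tendsto_atTop]
  intro b
  filter_upwards [eventually_ge_atTop ((2 * b) ^ 2)] with L hL
  unfold mg
  have h1 : 2 * b ≤ Nat.sqrt L := Nat.le_sqrt'.mpr hL
  omega

/-- The law of the box. -/
def bxP (L : ℕ) : Measure (bx L → ℝ) := hamP (bx L) (Lc279.lat (bx L)) 0

instance (L : ℕ) : IsProbabilityMeasure (bxP L) :=
  isProbabilityMeasure_hamP (anch_bx L) (by intro u; simp)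

theorem bxP_ae (L : ℕ) : ∀ᵐ y ∂(bxP L), y ∈ ham (bx L) (Lc279.lat (bx L)) 0 := by
  unfold bxP hamP
  refine Measure.ae_smul_measure ?_ _
  exact ae_restrict_mem measurableSet_ham

/-- Full height. -/
def fh (L : ℕ) (y : bx L → ℝ) : ℤ × ℤ → ℝ := Ham560.ext (bx L) 0 y

theorem measurable_fh (L : ℕ) : Measurable (fh L) :=
  measurable_pi_lambda _ fun a => (continuous_ext (F := bx L) (ξ := 0) a).measurable

/-- The averaged law. -/
def avgLaw (L : ℕ) : Measure (ℤ × ℤ → ℝ) :=
  ((core' L).card : ℝ≥0∞)⁻¹ • ∑ x ∈ core' L, (bxP L).map fun y => shft x (fh L y)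

theorem measurable_sf (L : ℕ) (x : ℤ × ℤ) : Measurable fun y : bx L → ℝ => shft x (fh L y) :=
  (measurable_shft x).comp (measurable_fh L)

theorem avgLaw_apply {L : ℕ} {A : Set (ℤ × ℤ → ℝ)} (hA : MeasurableSet A) :
    avgLaw L A = ((core' L).card : ℝ≥0∞)⁻¹ * ∑ x ∈ core' L, bxP L {y | shft x (fh L y) ∈ A} := by
  unfold avgLaw
  rw [Measure.smul_apply, Measure.finsetSum_apply, smul_eq_mul]
  congr 1
  refine Finset.sum_congr rfl fun x _ => ?_
  rw [Measure.map_apply (measurable_sf L x) hA]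
  rfl

theorem isProb_avgLaw {L : ℕ} (hL : 0 < L) : IsProbabilityMeasure (avgLaw L) := by
  constructor
  rw [avgLaw_apply MeasurableSet.univ]
  simp only [mem_univ, ofPred_true, measure_univ, Finset.sum_const, nsmul_eq_mul, mul_one]
  refine ENNReal.inv_mul_cancel ?_ (ENNReal.natCast_ne_top _)
  have := (core'_nonempty hL).card_pos
  exact_mod_cast this.ne'

theorem avgLaw_ae {L : ℕ} {P : (ℤ × ℤ → ℝ) → Prop} (hP : MeasurableSet {h | P h})
    (h : ∀ x, ∀ᵐ y ∂(bxP L), P (shft x (fh L y))) : ∀ᵐ h ∂(avgLaw L), P h := by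
  rw [ae_iff]
  have hm : MeasurableSet {h : ℤ × ℤ → ℝ | ¬ P h} := hP.compl
  rw [avgLaw_apply hm]
  have : ∀ x ∈ core' L, bxP L {y | shft x (fh L y) ∈ {h : ℤ × ℤ → ℝ | ¬ P h}} = 0 := by
    intro x _
    exact ae_iff.mp (h x)
  rw [Finset.sum_eq_zero this, mul_zero]

theorem integral_avgLaw {L : ℕ} {f : (ℤ × ℤ → ℝ) → ℝ} (hf : Measurable f) {C : ℝ}
    (hC : ∀ h, |f h| ≤ C) :
    ∫ h, f h ∂(avgLaw L) =
      ((core' L).card : ℝ)⁻¹ * ∑ x ∈ core' L, ∫ y, f (shft x (fh L y)) ∂(bxP L) := by
  unfold avgLaw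
  rw [integral_smul_measure, integral_finsetSum_measure]
  · rw [ENNReal.toReal_inv, ENNReal.toReal_natCast, smul_eq_mul]
    congr 1
    refine Finset.sum_congr rfl fun x _ => ?_
    rw [integral_map (measurable_sf L x).aemeasurable hf.aestronglyMeasurable]
  · intro x _
    have : IsProbabilityMeasure ((bxP L).map fun y => shft x (fh L y)) :=
      Measure.isProbabilityMeasure_map (measurable_sf L x).aemeasurable
    exact Integrable.of_bound hf.aestronglyMeasurable C (Eventually.of_forall fun h => by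
      rw [Real.norm_eq_abs]; exact hC h)

/-- Expectation of a local observable at `x`. -/
theorem Ev_shft {L r : ℕ} {f : (ℤ × ℤ → ℝ) → ℝ} (hf : LObs r f) (x : ℤ × ℤ) :
    ∫ y, f (shft x (fh L y)) ∂(bxP L) =
      Ev (bx L) (Lc279.lat (bx L)) 0 fun z => f fun a => z (x + a) := by
  unfold Ev bxP
  refine integral_congr_ae (Eventually.of_forall fun y => ?_)
  exact hf.shft_eq x (fh L y)

theorem abs_Ev_le {L : ℕ} {f : (ℤ × ℤ → ℝ) → ℝ} (hb : ∀ h, |f h| ≤ 1) :
    |Ev (bx L) (Lc279.lat (bx L)) 0 f| ≤ 1 := by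
  have := norm_integral_le_of_norm_le_const (μ := bxP L)
    (f := fun x => f (Ham560.ext (bx L) 0 x)) (C := 1) (Eventually.of_forall fun x => by
      rw [Real.norm_eq_abs]; exact hb _)
  rw [Real.norm_eq_abs] at this
  show |∫ x, f (Ham560.ext (bx L) 0 x) ∂(bxP L)| ≤ 1
  simpa using this

/-! ### Full averages and core averages -/

/-- Comparison of averages over a set and over a subset. -/
theorem avg_sub_le {α : Type*} [DecidableEq α] {A B : Finset α} (hAB : A ⊆ B) (hA : A.Nonempty)
    {g : α → ℝ} (hg : ∀ x, |g x| ≤ 1) :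
    |(A.card : ℝ)⁻¹ * ∑ x ∈ A, g x - (B.card : ℝ)⁻¹ * ∑ x ∈ B, g x| ≤
      2 * (1 - (A.card : ℝ) / B.card) := by
  have hA0 : (0 : ℝ) < A.card := by exact_mod_cast hA.card_pos
  have hB0 : (0 : ℝ) < B.card := by exact_mod_cast (hA.mono hAB).card_pos
  have hsum : ∑ x ∈ B, g x = ∑ x ∈ A, g x + ∑ x ∈ B \ A, g x := by
    rw [add_comm, Finset.sum_sdiff hAB]
  have hS1 : |∑ x ∈ A, g x| ≤ A.card := by
    refine (Finset.abs_sum_le_sum_abs _ _).trans ?_
    refine (Finset.sum_le_card_nsmul _ _ 1 fun x _ => hg x).trans ?_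
    simp
  have hS2 : |∑ x ∈ B \ A, g x| ≤ B.card - A.card := by
    refine (Finset.abs_sum_le_sum_abs _ _).trans ?_
    refine (Finset.sum_le_card_nsmul _ _ 1 fun x _ => hg x).trans ?_
    rw [Finset.card_sdiff_of_subset hAB, nsmul_eq_mul, mul_one,
      Nat.cast_sub (Finset.card_le_card hAB)]
  have e : (A.card : ℝ)⁻¹ * ∑ x ∈ A, g x - (B.card : ℝ)⁻¹ * ∑ x ∈ B, g x =
      ((A.card : ℝ)⁻¹ - (B.card : ℝ)⁻¹) * ∑ x ∈ A, g x - (B.card : ℝ)⁻¹ * ∑ x ∈ B \ A, g x := by
    rw [hsum]; ring
  have hinv : 0 ≤ (A.card : ℝ)⁻¹ - (B.card : ℝ)⁻¹ := by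
    rw [sub_nonneg]
    exact inv_anti₀ hA0 (by exact_mod_cast Finset.card_le_card hAB)
  rw [e]
  refine (abs_sub _ _).trans ?_
  rw [abs_mul, abs_mul, abs_of_nonneg hinv, abs_of_pos (inv_pos.mpr hB0)]
  have h1 : ((A.card : ℝ)⁻¹ - (B.card : ℝ)⁻¹) * |∑ x ∈ A, g x| ≤
      ((A.card : ℝ)⁻¹ - (B.card : ℝ)⁻¹) * A.card := mul_le_mul_of_nonneg_left hS1 hinv
  have h2 : (B.card : ℝ)⁻¹ * |∑ x ∈ B \ A, g x| ≤ (B.card : ℝ)⁻¹ * (B.card - A.card) :=
    mul_le_mul_of_nonneg_left hS2 (inv_pos.mpr hB0).le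
  have h3 : ((A.card : ℝ)⁻¹ - (B.card : ℝ)⁻¹) * A.card = 1 - A.card / B.card := by
    field_simp
  have h4 : (B.card : ℝ)⁻¹ * (B.card - A.card) = 1 - A.card / B.card := by
    field_simp
  linarith

theorem core_ratio : Tendsto (fun L : ℕ => ((core' L).card : ℝ) / (bx L).card) atTop (𝓝 1) := by
  have h1 : Tendsto (fun L : ℕ => (mg L : ℝ) / L) atTop (𝓝 0) := by
    have h2 : Tendsto (fun L : ℕ => (1 : ℝ) / Real.sqrt L) atTop (𝓝 0) := by
      have := (Real.tendsto_sqrt_atTop.comp tendsto_natCast_atTop_atTop).inv_tendsto_atTop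
      refine this.congr fun L => ?_
      simp
    refine squeeze_zero' (Eventually.of_forall fun L => by positivity) ?_ h2
    filter_upwards [eventually_gt_atTop 0] with L hL
    have hL' : (0 : ℝ) < L := by exact_mod_cast hL
    have hs : 0 < Real.sqrt L := Real.sqrt_pos.mpr hL'
    rw [div_le_div_iff₀ hL' hs, one_mul]
    have h3 : (mg L : ℝ) ≤ Real.sqrt L := by
      have h4 : mg L ≤ Nat.sqrt L := Nat.div_le_self _ _
      have h5 : ((Nat.sqrt L : ℕ) : ℝ) ≤ Real.sqrt L := Real.nat_sqrt_le_real_sqrt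
      exact (by exact_mod_cast h4 : (mg L : ℝ) ≤ (Nat.sqrt L : ℕ)).trans h5
    calc (mg L : ℝ) * Real.sqrt L ≤ Real.sqrt L * Real.sqrt L :=
          mul_le_mul_of_nonneg_right h3 hs.le
      _ = L := Real.mul_self_sqrt hL'.le
  have h2 : Tendsto (fun L : ℕ => (1 - 2 * ((mg L : ℝ) / L)) ^ 2) atTop (𝓝 1) := by
    have := ((h1.const_mul 2).const_sub 1).pow 2
    simpa using this
  refine h2.congr' ?_
  filter_upwards [eventually_gt_atTop 0] with L hL
  have hL' : (0 : ℝ) < L := by exact_mod_cast hL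
  rw [card_core', card_bx, Nat.cast_pow, Nat.cast_pow, ← div_pow]
  congr 1
  rw [Nat.cast_sub (mg_lt hL).le]
  push_cast
  field_simp

/-- **The measure `μ₀`.** -/
theorem exists_mu0 {m : ((ℤ × ℤ → ℝ) → ℝ) → ℝ}
    (hm : ∀ r f, LObs r f → Tendsto (fun L : ℕ => ((bx L).card : ℝ)⁻¹ *
      ∑ x ∈ bx L, Ev (bx L) (Lc279.lat (bx L)) 0 fun z => f fun a => z (x + a)) atTop (𝓝 (m f))) :
    ∃ μ : Measure (ℤ × ℤ → ℝ), IsProbabilityMeasure μ ∧ (∀ᵐ h ∂μ, ∀ a, |h a| ≤ (hd a 0 : ℝ)) ∧
      (∀ r f, LObs r f → ∫ h, f h ∂μ = m f) ∧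
      ∀ r, ∀ A : Set (pb r → ℝ), MeasurableSet A → μ {h | rst r h ∈ A} ≤ domC r 6 * volume A := by
  refine exists_mu (ν := fun n => avgLaw (n + 1)) (fun n => isProb_avgLaw (Nat.succ_pos n)) ?_
    (C := fun r => domC r 6) (fun r => ENNReal.pow_ne_top ENNReal.ofReal_ne_top) ?_ ?_
  · intro n
    refine avgLaw_ae ?_ ?_
    · rw [show {h : ℤ × ℤ → ℝ | ∀ a, |h a| ≤ (hd a 0 : ℝ)} = ⋂ a, {h | |h a| ≤ (hd a 0 : ℝ)} by
        ext h; simp]
      exact MeasurableSet.iInter fun a => measurableSet_le (measurable_pi_apply a).abs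
        measurable_const
    · intro x
      filter_upwards [bxP_ae (n + 1)] with y hy a
      have := lipAll hy (x + a) x
      have e : hd (x + a) x = hd a 0 := hd_add_left x a
      rw [e] at this
      exact this
  · intro r
    have h1 : ∀ᶠ n : ℕ in atTop, r + 1 ≤ mg (n + 1) := by
      have := (tendsto_mg.comp (tendsto_add_atTop_nat 1)).eventually_ge_atTop (r + 1)
      exact this
    filter_upwards [h1] with n hn A hA
    have hAm : MeasurableSet {h : ℤ × ℤ → ℝ | rst r h ∈ A} := (measurable_rst r) hA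
    rw [avgLaw_apply hAm]
    have hx : ∀ x ∈ core' (n + 1), bxP (n + 1) {y | shft x (fh (n + 1) y) ∈
        {h : ℤ × ℤ → ℝ | rst r h ∈ A}} ≤ domC r 6 * volume A := by
      intro x hx
      rw [mem_core'] at hx
      have hW := win_tr (L := n + 1) (r := r) (x := x) (by push_cast at hx ⊢; omega)
      have h2 := dif_dom_prob (ξ := 0) hW (fun v _ => card_nbr_lat_le _ v)
        (volume_ham_lt_top (anch_bx (n + 1))).ne hA (κ := 1) (by rw [one_mul])
      rw [mul_one] at h2
      refine le_trans (measure_mono ?_) h2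
      intro y hy
      have hy' : rst r (shft x (fh (n + 1) y)) ∈ A := hy
      show dif r (fun a => x + a) (Ham560.ext (bx (n + 1)) 0 y) ∈ A
      have e : dif r (fun a => x + a) (Ham560.ext (bx (n + 1)) 0 y) =
          rst r (shft x (fh (n + 1) y)) := by
        funext a
        simp only [dif, rst, shft, fh, add_zero]
      rw [e]; exact hy'
    have hcard : ((core' (n + 1)).card : ℝ≥0∞) ≠ 0 := by
      have := (core'_nonempty (Nat.succ_pos n)).card_pos
      exact_mod_cast this.ne'
    calc _ ≤ ((core' (n + 1)).card : ℝ≥0∞)⁻¹ * ∑ x ∈ core' (n + 1), domC r 6 * volume A := by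
          gcongr with x hx'
          exact hx x hx'
      _ = domC r 6 * volume A := by
          rw [Finset.sum_const, nsmul_eq_mul, ← mul_assoc,
            ENNReal.inv_mul_cancel hcard (ENNReal.natCast_ne_top _), one_mul]
  · intro r f hf
    have h1 := (hm r f hf).comp (tendsto_add_atTop_nat 1)
    have h2 : Tendsto (fun n : ℕ => 2 * (1 - ((core' (n + 1)).card : ℝ) / (bx (n + 1)).card)) atTop
        (𝓝 0) := by
      have := ((core_ratio.comp (tendsto_add_atTop_nat 1)).const_sub 1).const_mul 2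
      simpa using this
    have h3 : Tendsto (fun n : ℕ => ∫ h, f h ∂(avgLaw (n + 1)) -
        ((bx (n + 1)).card : ℝ)⁻¹ * ∑ x ∈ bx (n + 1),
          Ev (bx (n + 1)) (Lc279.lat (bx (n + 1))) 0 fun z => f fun a => z (x + a)) atTop (𝓝 0) := by
      refine squeeze_zero_norm (fun n => ?_) h2
      rw [Real.norm_eq_abs, integral_avgLaw hf.meas (C := 1) hf.bd]
      have e : ∀ x ∈ core' (n + 1), ∫ y, f (shft x (fh (n + 1) y)) ∂(bxP (n + 1)) =
          Ev (bx (n + 1)) (Lc279.lat (bx (n + 1))) 0 fun z => f fun a => z (x + a) :=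
        fun x _ => Ev_shft hf x
      rw [Finset.sum_congr rfl e]
      exact avg_sub_le (core'_subset _) (core'_nonempty (Nat.succ_pos n))
        fun x => abs_Ev_le fun h => hf.bd _
    have h4 := h3.add h1
    rw [zero_add] at h4
    refine h4.congr fun n => ?_
    simp

end Crest.Agent.R144.Lw425
end
end

-- ▼ part R144/Lmu3_425

/-!
R144 (S0197), helper425.  Lmu3: properties of the measure `μ₀`.

* `ext_of_LObs` : pinned laws are determined by the local observables;
* `m_translate`, `m_neg` : invariances of the limit functional;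
* `exists_mu0'` : the measure `μ₀` is a probability measure on pinned `1`-Lipschitz heights, invariant under
  translations `shft x` and under `h ↦ -h`, with bounded densities, and represents the functional.
-/

set_option autoImplicit false

open MeasureTheory Set Filter Topology
open scoped ENNReal

noncomputable section

namespace Crest.Agent.R144.Lw425

open Crest.Agent.R144.Ham560
open Crest.Agent.R144.Lc279 (Ev bx mem_bx card_bx anch_bx card_nbr_lat_le mem_nbr_lat)

/-- Every finite set is contained in a ball. -/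
theorem exists_hball (s : Finset (ℤ × ℤ)) : ∃ r : ℕ, ∀ a ∈ s, a ∈ hball r := by
  refine ⟨s.sup fun a => (hd a 0).toNat, fun a ha => ?_⟩
  rw [mem_hball]
  have h1 : (hd a 0).toNat ≤ s.sup fun a => (hd a 0).toNat :=
    Finset.le_sup (f := fun a => (hd a 0).toNat) ha
  have h2 := hd_nonneg a 0
  omega

theorem zero_mem_hball (r : ℕ) : (0 : ℤ × ℤ) ∈ hball r :=
  mem_hball.mpr (by rw [hd_self]; positivity)

/-- Indicator of an event of the gradients in a ball. -/
theorem LObs_indicator {r : ℕ} {A : Set (ℤ × ℤ → ℝ)} (hA : MeasurableSet A)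
    (hloc : ∀ h h' : ℤ × ℤ → ℝ, (∀ a ∈ hball r, h a = h' a) → (h ∈ A ↔ h' ∈ A)) :
    LObs r (fun h => A.indicator 1 fun a => h a - h 0) where
  meas := by
    refine (measurable_one.indicator hA).comp ?_
    exact measurable_pi_lambda _ fun a => (measurable_pi_apply a).sub (measurable_pi_apply 0)
  bd := by
    intro h
    by_cases hh : (fun a => h a - h 0) ∈ A
    · rw [indicator_of_mem hh]; simp
    · rw [indicator_of_notMem hh]; simp
  loc := by
    intro h h' hh
    have h1 : (fun a => h a - h 0) ∈ A ↔ (fun a => h' a - h' 0) ∈ A := by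
      refine hloc _ _ fun a ha => ?_
      rw [hh a ha, hh 0 (zero_mem_hball r)]
    by_cases h2 : (fun a => h a - h 0) ∈ A
    · rw [indicator_of_mem h2, indicator_of_mem (h1.mp h2)]; rfl
    · rw [indicator_of_notMem h2, indicator_of_notMem fun h3 => h2 (h1.mpr h3)]
  shift := by
    intro h c
    simp only [add_sub_add_right_eq_sub]

theorem measure_eq_integral_ind {μ : Measure (ℤ × ℤ → ℝ)} (h0 : ∀ᵐ h ∂μ, h 0 = 0)
    {A : Set (ℤ × ℤ → ℝ)} (hA : MeasurableSet A) :
    ∫ h, A.indicator (1 : (ℤ × ℤ → ℝ) → ℝ) (fun a => h a - h 0) ∂μ = μ.real A := by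
  rw [← integral_indicator_one hA]
  refine integral_congr_ae ?_
  filter_upwards [h0] with h hh
  simp only [hh, sub_zero]

/-- Pinned laws are determined by the local observables. -/
theorem ext_of_LObs {μ μ' : Measure (ℤ × ℤ → ℝ)} [IsProbabilityMeasure μ] [IsProbabilityMeasure μ']
    (h0 : ∀ᵐ h ∂μ, h 0 = 0) (h0' : ∀ᵐ h ∂μ', h 0 = 0)
    (h : ∀ r f, LObs r f → ∫ h, f h ∂μ = ∫ h, f h ∂μ') : μ = μ' := by
  refine ext_of_generate_finite (measurableCylinders fun _ : ℤ × ℤ => ℝ)
    generateFrom_measurableCylinders.symm isPiSystem_measurableCylinders ?_ (by simp)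
  intro A hA
  obtain ⟨s, S, hS, rfl⟩ := (mem_measurableCylinders A).mp hA
  obtain ⟨r, hr⟩ := exists_hball s
  have hm : MeasurableSet (cylinder s S) :=
    (Finset.measurable_restrict (X := fun _ : ℤ × ℤ => ℝ) s) hS
  have hobs := LObs_indicator (r := r) hm (by
    intro g g' hg
    rw [mem_cylinder, mem_cylinder]
    have : s.restrict g = s.restrict g' := by
      funext a
      exact hg a (hr a a.2)
    rw [this])
  have h1 := h r _ hobs
  rw [measure_eq_integral_ind h0 hm, measure_eq_integral_ind h0' hm] at h1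
  exact (measureReal_eq_measureReal_iff (measure_ne_top _ _) (measure_ne_top _ _)).mp h1

/-- Translated observables. -/
theorem LObs.trans {r : ℕ} {f : (ℤ × ℤ → ℝ) → ℝ} (hf : LObs r f) (x : ℤ × ℤ) :
    LObs (r + (hd x 0).toNat) fun h => f fun a => h (x + a) where
  meas := hf.meas.comp (measurable_pi_lambda _ fun a => measurable_pi_apply _)
  bd := fun h => hf.bd _
  loc := by
    intro h h' hh
    refine hf.loc _ _ fun a ha => hh _ ?_
    rw [mem_hball] at ha ⊢
    have h1 := hd_triangle (x + a) x 0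
    rw [hd_add_left x a] at h1
    have h2 := hd_nonneg x 0
    push_cast
    omega
  shift := fun h c => hf.shift (fun a => h (x + a)) c

theorem LObs.neg {r : ℕ} {f : (ℤ × ℤ → ℝ) → ℝ} (hf : LObs r f) : LObs r fun h => f (-h) where
  meas := hf.meas.comp measurable_neg
  bd := fun h => hf.bd _
  loc := by
    intro h h' hh
    refine hf.loc _ _ fun a ha => ?_
    rw [Pi.neg_apply, Pi.neg_apply, hh a ha]
  shift := by
    intro h c
    have := hf.shift (-h) (-c)
    rw [← this]
    congr 1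
    funext a
    simp only [Pi.neg_apply]
    ring

/-- The box averages. -/
def bav (L : ℕ) (f : (ℤ × ℤ → ℝ) → ℝ) : ℝ :=
  ((bx L).card : ℝ)⁻¹ * ∑ x ∈ bx L, Ev (bx L) (Lc279.lat (bx L)) 0 fun z => f fun a => z (x + a)

/-- Moving the box. -/
theorem bav_translate {r : ℕ} {f : (ℤ × ℤ → ℝ) → ℝ} (hf : LObs r f) (x : ℤ × ℤ) :
    Tendsto (fun L => bav L (fun h => f fun a => h (x + a)) - bav L f) atTop (𝓝 0) := by
  classical
  have hratio := core_ratio
  have h2 : Tendsto (fun L : ℕ => 2 * (1 - ((core' L).card : ℝ) / (bx L).card) +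
      2 * (1 - ((core' L).card : ℝ) / (bx L).card)) atTop (𝓝 0) := by
    have := ((hratio.const_sub 1).const_mul 2).add ((hratio.const_sub 1).const_mul 2)
    simpa using this
  refine squeeze_zero_norm' ?_ h2
  filter_upwards [tendsto_mg.eventually_ge_atTop (hd x 0).toNat, eventually_gt_atTop 0] with L hL hL0
  set g : ℤ × ℤ → ℝ := fun y => Ev (bx L) (Lc279.lat (bx L)) 0 fun z => f fun a => z (y + a) with hg
  have hgb : ∀ y, |g y| ≤ 1 := fun y => abs_Ev_le fun h => hf.bd _
  have e1 : bav L (fun h => f fun a => h (x + a)) =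
      (((bx L).image fun y => y + x).card : ℝ)⁻¹ * ∑ y ∈ (bx L).image (fun y => y + x), g y := by
    unfold bav
    rw [Finset.card_image_of_injective _ (add_left_injective x),
      Finset.sum_image fun a _ b _ h => add_left_injective x h]
    congr 1
    refine Finset.sum_congr rfl fun y _ => ?_
    simp only [hg]
    congr 1
    funext z
    congr 1
    funext a
    rw [add_assoc]
  have hcard : ((bx L).image fun y => y + x).card = (bx L).card :=
    Finset.card_image_of_injective _ (add_left_injective x)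
  have hsub : core' L ⊆ (bx L).image fun y => y + x := by
    intro y hy
    rw [mem_core'] at hy
    refine Finset.mem_image.mpr ⟨y - x, ?_, by abel⟩
    have h3 := hd_le_iff.mp (le_refl (hd x 0))
    simp only [Prod.fst_zero, Prod.snd_zero, sub_zero] at h3
    rw [mem_bx]
    simp only [Prod.fst_sub, Prod.snd_sub]
    omega
  have k1 := avg_sub_le hsub (core'_nonempty hL0) hgb
  have k2 := avg_sub_le (core'_subset L) (core'_nonempty hL0) hgb
  rw [hcard] at k1
  rw [Real.norm_eq_abs, e1, hcard]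
  have e2 : bav L f = ((bx L).card : ℝ)⁻¹ * ∑ y ∈ bx L, g y := rfl
  rw [e2]
  rw [abs_sub_comm] at k1
  refine (abs_sub_le _ (((core' L).card : ℝ)⁻¹ * ∑ x ∈ core' L, g x) _).trans (add_le_add k1 k2)

/-- The zero-data law is even. -/
theorem Ev_neg {F : Finset (ℤ × ℤ)} {E : Finset ((ℤ × ℤ) × (ℤ × ℤ))} (f : (ℤ × ℤ → ℝ) → ℝ) :
    Ev F E 0 (fun z => f (-z)) = Ev F E 0 f := by
  unfold Ev
  have hK : (fun x : F → ℝ => -x) ⁻¹' ham F E 0 = ham F E 0 := by
    ext x
    constructor
    · intro h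
      have := ham_neg (show -x ∈ ham F E 0 from h)
      simpa using this
    · intro h
      show -x ∈ ham F E 0
      simpa using ham_neg h
  have hmp : MeasurePreserving (fun x : F → ℝ => -x) volume volume :=
    Measure.measurePreserving_neg volume
  have hemb : MeasurableEmbedding (fun x : F → ℝ => -x) :=
    (MeasurableEquiv.neg (F → ℝ)).measurableEmbedding
  rw [integral_hamP_real, integral_hamP_real]
  congr 1
  have := hmp.setIntegral_preimage_emb hemb (fun x => f (Ham560.ext F 0 x)) (ham F E 0)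
  rw [hK] at this
  rw [← this]
  refine integral_congr_ae (Eventually.of_forall fun x => ?_)
  have e : Ham560.ext F 0 (-x) = -Ham560.ext F 0 x := by
    funext u
    have := ext_neg (F := F) (ξ := 0) x u
    simpa using this
  simp only [e]

theorem bav_neg (L : ℕ) (f : (ℤ × ℤ → ℝ) → ℝ) : bav L (fun h => f (-h)) = bav L f := by
  unfold bav
  congr 1
  refine Finset.sum_congr rfl fun x _ => ?_
  exact Ev_neg fun z => f fun a => z (x + a)

/-- `μ` is the plane state of the functional `m`. -/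
structure IsMu0 (μ : Measure (ℤ × ℤ → ℝ)) (m : ((ℤ × ℤ → ℝ) → ℝ) → ℝ) : Prop where
  prob : IsProbabilityMeasure μ
  eq : ∀ r f, LObs r f → ∫ h, f h ∂μ = m f
  pin : ∀ᵐ h ∂μ, h 0 = 0
  lip : ∀ᵐ h ∂μ, ∀ v w, |h v - h w| ≤ (hd v w : ℝ)
  dom : ∀ r, ∀ A : Set (pb r → ℝ), MeasurableSet A → μ {h | rst r h ∈ A} ≤ domC r 6 * volume A
  trans : ∀ x, μ.map (shft x) = μ
  neg : μ.map (fun h => -h) = μ

/-- **The measure `μ₀`, with its properties.** -/
theorem exists_mu0' {m : ((ℤ × ℤ → ℝ) → ℝ) → ℝ}
    (hm : ∀ r f, LObs r f → Tendsto (fun L : ℕ => bav L f) atTop (𝓝 (m f))) :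
    ∃ μ : Measure (ℤ × ℤ → ℝ), IsMu0 μ m := by
  obtain ⟨μ, hp, hs, heq, hdom⟩ := exists_mu0 hm
  have h0 : ∀ᵐ h ∂μ, h 0 = 0 := by
    filter_upwards [hs] with h hh
    have := hh 0
    rw [hd_self] at this
    simpa using this
  have hmt : ∀ r f, LObs r f → ∀ x, m (fun h => f fun a => h (x + a)) = m f := by
    intro r f hf x
    have h1 := (hm _ _ (hf.trans x)).sub (hm r f hf)
    have h2 := tendsto_nhds_unique h1 (bav_translate hf x)
    linarith
  have hmn : ∀ r f, LObs r f → m (fun h => f (-h)) = m f := by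
    intro r f hf
    have h1 := hm _ _ hf.neg
    simp only [bav_neg] at h1
    exact tendsto_nhds_unique h1 (hm r f hf)
  refine ⟨μ, hp, heq, h0, ?_, hdom, ?_, ?_⟩
  · -- Lipschitz
    rw [ae_all_iff]
    intro v
    rw [ae_all_iff]
    intro w
    obtain ⟨r, hr⟩ := exists_hball {v, w}
    set A : Set (ℤ × ℤ → ℝ) := {h | (hd v w : ℝ) < |h v - h w|} with hA
    have hAm : MeasurableSet A := measurableSet_lt measurable_const
      ((measurable_pi_apply v).sub (measurable_pi_apply w)).abs
    have hobs := LObs_indicator (r := r) hAm (by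
      intro g g' hg
      simp only [hA, mem_ofPred_eq]
      rw [hg v (hr v (by simp)), hg w (hr w (by simp))])
    have h1 := heq r _ hobs
    rw [measure_eq_integral_ind h0 hAm] at h1
    have h2 : m (fun h => A.indicator 1 fun a => h a - h 0) = 0 := by
      refine tendsto_nhds_unique (hm r _ hobs) ?_
      have : ∀ L : ℕ, bav L (fun h => A.indicator 1 fun a => h a - h 0) = 0 := by
        intro L
        unfold bav
        rw [Finset.sum_eq_zero, mul_zero]
        intro x _
        unfold Ev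
        refine integral_eq_zero_of_ae ?_
        filter_upwards [bxP_ae L] with y hy
        have h3 := lipAll hy (x + v) (x + w)
        rw [hd_add_left'] at h3
        rw [indicator_of_notMem]
        · rfl
        · simp only [hA, mem_ofPred_eq, sub_sub_sub_cancel_right, not_lt]
          exact h3
      simp only [this]
      exact tendsto_const_nhds
    rw [h2] at h1
    have h3 : μ A = 0 := by
      rw [Measure.real, ENNReal.toReal_eq_zero_iff] at h1
      exact h1.resolve_right (measure_ne_top _ _)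
    rw [ae_iff]
    refine measure_mono_null ?_ h3
    intro h hh
    exact not_le.mp hh
  · intro x
    have hpx : IsProbabilityMeasure (μ.map (shft x)) :=
      Measure.isProbabilityMeasure_map (measurable_shft x).aemeasurable
    refine ext_of_LObs ?_ h0 ?_
    · rw [ae_map_iff (measurable_shft x).aemeasurable
        (measurableSet_eq_fun (measurable_pi_apply 0) measurable_const)]
      refine Eventually.of_forall fun h => ?_
      simp [shft]
    · intro r f hf
      rw [integral_map (measurable_shft x).aemeasurable hf.meas.aestronglyMeasurable]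
      rw [heq r f hf, ← hmt r f hf x, ← heq _ _ (hf.trans x)]
      refine integral_congr_ae (Eventually.of_forall fun h => ?_)
      exact hf.shft_eq x h
  · have hpx : IsProbabilityMeasure (μ.map fun h => -h) :=
      Measure.isProbabilityMeasure_map measurable_neg.aemeasurable
    refine ext_of_LObs ?_ h0 ?_
    · rw [ae_map_iff measurable_neg.aemeasurable
        (measurableSet_eq_fun (measurable_pi_apply 0) measurable_const)]
      filter_upwards [h0] with h hh
      rw [Pi.neg_apply, hh, neg_zero]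
    · intro r f hf
      rw [integral_map measurable_neg.aemeasurable hf.meas.aestronglyMeasurable]
      rw [heq r f hf, ← hmn r f hf, ← heq _ _ hf.neg]

end Crest.Agent.R144.Lw425
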