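import Crest.Agent.R144.LoC2_95
import Crest.Agent.R144.Bl5_565

-- ▼ part R144/LoC3_95
section

/-!
# R144 (S0197), helper95, lower bound, instances, file 3: cut-off criterion, comparison of windows

* `mc_le_mcw` : the cheap paths of the region are cheap paths of its neighbourhood;
* `cut_pos` : the cut-off field is `> 1` far from the outside when no cheap path is long;
* `sum_tl_le` : overlap of the windows.
-/

set_option autoImplicit false
set_option linter.unusedSectionVars false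

open MeasureTheory Set Filter Topology
open scoped ENNReal NNReal

noncomputable section

namespace Crest.Agent.R144.LoC95

open Crest.Agent.R144.Ham560
open Crest.Agent.R144.Tri560
open Crest.Agent.R144.Zb560 (sr iv IsOpt pt cz Zx gx gq lp pt_spec pt_mem' mem_pt op isOpt_op
  no_visit cz_nonneg mem_lp single_mem_pt pt_ne_nil exists_isOpt)
open Crest.Agent.R144.Fib674 (pd)
open Crest.Agent.R144.LoB95
open Crest.Agent.R144.Lc279 (lat mem_lat mem_nbr_lat P2)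
open Crest.Agent.R144.Lw425 (hd hd_comm hd_le_iff mem_hball hball hd_self hd_triangle hd_pos
  hd_nonneg)
open Crest.Agent.R144.Bl565 (Par ps L2 win cor mem_win mem_cor subset_win cor_subset hd_add
  abs_ps_sub_le sym_add qd ps_sum mcw ps_zero ps_one ps_two)

variable {F : Finset P2} {E : Finset (P2 × P2)} {Rg : Finset P2} {m : ℕ} {I Q : Finset P2}
  {ξ : P2 → ℝ}

/-! ### comparison of the cheap paths -/

theorem chain_mono {A : Finset P2} {E E' : Finset (P2 × P2)}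
    (h : ∀ a ∈ A, ∀ b ∈ A, b ∈ nbr E a → b ∈ nbr E' a) : ∀ l : List P2, (∀ a ∈ l, a ∈ A) →
    l.IsChain (fun a b => b ∈ nbr E a) → l.IsChain (fun a b => b ∈ nbr E' a)
  | [], _, _ => List.isChain_nil
  | [a], _, _ => List.isChain_singleton a
  | a :: b :: t, hl, hc => by
    rw [List.isChain_cons_cons] at hc ⊢
    exact ⟨h a (hl a (by simp)) b (hl b (by simp)) hc.1,
      chain_mono h (b :: t) (fun c hc => hl c (List.mem_cons_of_mem _ hc)) hc.2⟩

theorem pt_mono' {A B : Finset P2} {E E' : Finset (P2 × P2)} (hAB : A ⊆ B)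
    (h : ∀ a ∈ A, ∀ b ∈ A, b ∈ nbr E a → b ∈ nbr E' a) (u : P2) : pt A E u ⊆ pt B E' u := by
  intro l hl
  rcases mem_pt.mp hl with rfl | ⟨h1, h2, h3, h4⟩
  · exact single_mem_pt _
  · exact mem_pt.mpr (Or.inr ⟨h1, fun a ha => hAB (h2 a ha), h3, chain_mono h l h2 h4⟩)

theorem mc_mono {A B : Finset P2} {E E' : Finset (P2 × P2)} (hAB : A ⊆ B)
    (h : ∀ a ∈ A, ∀ b ∈ A, b ∈ nbr E a → b ∈ nbr E' a) (ρ ε Λ c0 : ℝ) {κ : Type*} [Fintype κ]
    (φs : κ → P2 → ℝ) (g : P2 → ℝ) (w : P2) :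
    mc A E ρ ε Λ c0 φs g w ≤ mc B E' ρ ε Λ c0 φs g w := by
  unfold mc
  exact Finset.sup_mono (Finset.filter_subset_filter _ (pt_mono' hAB h w))

theorem Loc.nb_lat (H : Loc F E Rg) : ∀ a ∈ win 1 Rg, ∀ b ∈ win 1 Rg, b ∈ nbr E a →
    b ∈ nbr (lat (win 1 Rg)) a := by
  intro a ha b _ hab
  rw [H.nb a ha] at hab
  rw [mem_nbr_lat]
  exact ⟨hab, Or.inl ha⟩

theorem mc_le_mcw (H : Loc F E Rg) (P : Par) (c0 : ℝ) (g : P2 → ℝ) (w : P2) :
    mc Rg E P.rho P.eps P.Lam c0 ps g w ≤ mcw P c0 (win 1 Rg) g w := by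
  refine mc_mono (subset_win 1 Rg) (fun a ha b hb hab => ?_) _ _ _ _ _ _ _
  exact H.nb_lat a (subset_win _ _ ha) b (subset_win _ _ hb) hab

theorem tl_mono {N : Finset P2} {k k' : ℕ} {f f' : P2 → ℕ} (hk : k' ≤ k)
    (hf : ∀ w, f w ≤ f' w) : tl N k f ≤ tl N k' f' := by
  unfold tl
  refine Finset.sum_le_sum fun z _ => ?_
  have h1 : (f z : ℝ) ≤ f' z := by exact_mod_cast hf z
  split_ifs with h2 h3
  · exact h1
  · exact absurd (lt_of_le_of_lt hk (h2.trans_le (hf z))) h3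
  · exact Nat.cast_nonneg _
  · exact le_rfl

/-! ### the cut-off field far from the outside -/

theorem cost_swap {φ φ' : P2 → ℝ} {c : P2 → P2 → ℝ} : ∀ (l : List P2) (h : l ≠ []),
    cost φ' c l = cost φ c l + (φ' (l.getLast h) - φ (l.getLast h))
  | [], h => absurd rfl h
  | [a], _ => by simp [cost]
  | a :: b :: t, h => by
    rw [cost_cons, cost_cons, cost_swap (φ := φ) (φ' := φ') (b :: t) (by simp)]
    rw [List.getLast_cons (by simp : b :: t ≠ [])]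
    ring

theorem last_le_cost {φ : P2 → ℝ} {c : P2 → P2 → ℝ} (hc : ∀ a b, 0 ≤ c a b) :
    ∀ (l : List P2) (h : l ≠ []), φ (l.getLast h) ≤ cost φ c l
  | [], h => absurd rfl h
  | [a], _ => by simp [cost]
  | a :: b :: t, h => by
    rw [cost_cons, List.getLast_cons (by simp : b :: t ≠ [])]
    have h1 := last_le_cost (φ := φ) hc (b :: t) (by simp)
    have h2 := hc a b
    linarith

/-- one of the three coordinates decreases by half the distance -/
theorem exists_decrease (a b : P2) : ∃ k, ps k b ≤ ps k a - (hd a b : ℝ) / 2 := by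
  have key : (hd a b : ℝ) ≤ max (max |(a.1 : ℝ) - b.1| |(a.2 : ℝ) - b.2|)
      |(a.1 : ℝ) - b.1 + (a.2 - b.2)| := by
    unfold hd
    push_cast
    exact le_rfl
  set x : ℝ := (a.1 : ℝ) - b.1 with hx
  set y : ℝ := (a.2 : ℝ) - b.2 with hy
  set d : ℝ := (hd a b : ℝ) with hd'
  by_contra hcon
  push Not at hcon
  have h0 := hcon 0
  have h1 := hcon 1
  have h2 := hcon 2
  simp only [ps_zero, ps_one, ps_two] at h0 h1 h2
  have b1 : x < d / 2 := by rw [hx]; linarith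
  have b2 : y < d / 2 := by rw [hy]; linarith
  have b3 : -(x + y) < d / 2 := by rw [hx, hy]; linarith
  have hM : max (max |x| |y|) |x + y| < d := by
    refine max_lt (max_lt ?_ ?_) ?_
    · rw [abs_lt]; constructor <;> linarith
    · rw [abs_lt]; constructor <;> linarith
    · rw [abs_lt]; constructor <;> linarith
  linarith

open Classical in
/-- terminal values of the cut-off field -/
def fi0 (Rg : Finset P2) (a : P2) : ℝ := if a ∈ Rg then 2 else 0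

theorem fi0_nonneg (Rg : Finset P2) (a : P2) : 0 ≤ fi0 Rg a := by
  unfold fi0; split_ifs <;> norm_num

theorem fi0_off {Rg : Finset P2} {a : P2} (h : a ∉ Rg) : fi0 Rg a = 0 := by
  unfold fi0; rw [if_neg h]

theorem cut_pos (H : Loc F E Rg) (P : Par) {c0 : ℝ} (hc0 : 0 < c0) {M : ℕ} (hM : 2 ≤ M)
    {g : P2 → ℝ} {a : P2} (ha : a ∈ Rg) (hmc : mcw P c0 (win 1 Rg) g a < M)
    (hfar : ∀ b, b ∉ Rg → (M : ℤ) ≤ hd a b) :
    1 < Zb560.Z (win 1 Rg) E P.rho P.eps P.Lam (fi0 Rg) g a := by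
  by_contra hle
  push Not at hle
  have hcz := cz_nonneg (ρ := P.rho) (ε := P.eps) P.Lam_nonneg g
  obtain ⟨l, hl⟩ := exists_isOpt (win 1 Rg) E (fi0 Rg) (cz P.rho P.eps P.Lam g) a
  have hne := pt_ne_nil hl.1
  have hcost : cost (fi0 Rg) (cz P.rho P.eps P.Lam g) l ≤ 1 := by
    rw [← hl.2]; exact hle
  set z := l.getLast hne with hz
  have hz1 : fi0 Rg z ≤ 1 := (last_le_cost hcz l hne).trans hcost
  have hzR : z ∉ Rg := by
    intro h
    unfold fi0 at hz1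
    rw [if_pos h] at hz1
    norm_num at hz1
  have hMz := hfar z hzR
  have hMz' : (M : ℝ) ≤ hd a z := by exact_mod_cast hMz
  obtain ⟨k, hk⟩ := exists_decrease a z
  have hM2 : (2 : ℝ) ≤ M := by exact_mod_cast hM
  have hck : cost (ps k) (cz P.rho P.eps P.Lam g) l < ps k a + c0 := by
    rw [cost_swap (φ := fi0 Rg) (φ' := ps k) l hne, ← hz]
    have := fi0_nonneg Rg z
    linarith
  have hl' : l ∈ pt (win 1 Rg) (lat (win 1 Rg)) a :=
    pt_mono' (subset_refl _) (fun a ha b hb hab => H.nb_lat a ha b hb hab) a hl.1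
  have h1 : l.length ≤ mcw P c0 (win 1 Rg) g a := length_le_mc hl' hck
  obtain ⟨_, h2, h3⟩ := pt_spec hl.1
  have H' := H.lch 0
  have h4 := Zb560.dd_le hn H'.dd0 H'.ddt (R := fun a b => b ∈ nbr E a) H'.dd1 l a h2 h3 z
    (List.getLast_mem hne)
  have h5 : ((hn a z : ℕ) : ℤ) = hd a z := coe_hn a z
  omega

/-! ### sums over windows -/

theorem sum_tl_le (hP : Pos I m Rg Q) (k : ℕ) (f : P2 → ℕ) :
    ∑ q ∈ Q, tl (tr q (win m I)) k f ≤ (win m I).card * tl Rg k f := by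
  classical
  have h1 : ∀ q ∈ Q, tl (tr q (win m I)) k f = ∑ v ∈ win m I,
      (fun z => if k < f z then (f z : ℝ) else 0) (q + v) := by
    intro q _
    unfold tl tr
    rw [Finset.sum_image]
    intro a _ b _ h
    simpa using h
  rw [Finset.sum_congr rfl h1, Finset.sum_comm]
  have h2 : ∀ v ∈ win m I, ∑ q ∈ Q, (fun z => if k < f z then (f z : ℝ) else 0) (q + v) ≤
      tl Rg k f := by
    intro v hv
    unfold tl
    have hinj : Set.InjOn (fun q : P2 => q + v) Q := fun a _ b _ h => by simpa using h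
    rw [← Finset.sum_image (f := fun z => if k < f z then (f z : ℝ) else 0) hinj]
    refine Finset.sum_le_sum_of_subset_of_nonneg ?_ fun _ _ _ => by split_ifs <;> positivity
    intro z hz
    obtain ⟨q, hqQ, rfl⟩ := Finset.mem_image.mp hz
    exact hP.inn q hqQ (add_mem_tr.mpr hv)
  refine (Finset.sum_le_sum h2).trans ?_
  rw [Finset.sum_const, nsmul_eq_mul]

theorem sum_blocks_le (hP : Pos I m Rg Q) {f : P2 → ℝ} (hf : ∀ z, 0 ≤ f z) :
    ∑ q ∈ Q, ∑ w ∈ tr q I, f w ≤ ∑ w ∈ Rg, f w := by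
  classical
  rw [← Finset.sum_biUnion]
  · refine Finset.sum_le_sum_of_subset_of_nonneg ?_ fun _ _ _ => hf _
    intro z hz
    obtain ⟨q, hqQ, hz'⟩ := Finset.mem_biUnion.mp hz
    exact hP.inn q hqQ (tr_subset (subset_win _ _) hz')
  · intro q hqQ q' hq' hne
    rw [Function.onFun, Finset.disjoint_left]
    intro z hz hz'
    exact hne (hP.dis q hqQ q' hq' z hz hz')

end Crest.Agent.R144.LoC95
end
end

-- ▼ part R144/LoC4_95
section

/-!
# R144 (S0197), helper95, lower bound, instances, file 4: the trial field on a region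

`exists_field` : for a template family `Tl` on the block `I`, a region `Rg` where the graph is the
lattice, positions `Q` of the block and a test function `Psi` in index coordinates, a field `Y`
tangent to the hammock polytope, with explicit pointwise bounds of `tr (jac Y * jac Y)` and of
`Y - Psi`.
-/

set_option autoImplicit false
set_option linter.unusedSectionVars false

open MeasureTheory Set Filter Topology
open scoped ENNReal NNReal

noncomputable section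

namespace Crest.Agent.R144.LoC95

open Crest.Agent.R144.Ham560
open Crest.Agent.R144.Tri560
open Crest.Agent.R144.MW121 (jac jac_apply Tan)
open Crest.Agent.R144.Fib674 (pd)
open Crest.Agent.R144.LoB95
open Crest.Agent.R144.Lc279 (lat mem_lat mem_nbr_lat P2)
open Crest.Agent.R144.Lw425 (hd hd_comm hd_le_iff mem_hball hball hd_self hd_triangle hd_pos
  hd_nonneg)
open Crest.Agent.R144.Bl565 (Par ps L2 win cor mem_win mem_cor subset_win cor_subset hd_add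
  abs_ps_sub_le sym_add qd ps_sum mcw ps_zero ps_one ps_two ps_add)

/-- index coordinates of a site -/
def ix (w : P2) (i : Fin 2) : ℝ := ps i.castSucc w

@[simp] theorem ix_zero (w : P2) : ix w 0 = w.1 := rfl
@[simp] theorem ix_one (w : P2) : ix w 1 = w.2 := rfl

theorem ph_eq (i : Fin 2) (w : P2) : ph ps i w = ix w i := by
  unfold ph l3 ix
  rw [ps_sum]
  ring

theorem ix_add (a b : P2) (i : Fin 2) : ix (a + b) i = ix a i + ix b i := ps_add _ _ _

/-- hypotheses on the test function -/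
structure PsiH (Psi : (Fin 2 → ℝ) → ℝ) (p0 p1 p2 : ℝ) : Prop where
  diff : Differentiable ℝ Psi
  n1 : 0 ≤ p1
  n2 : 0 ≤ p2
  b : ∀ l, |Psi l| ≤ p0
  g1 : ∀ l, ∑ i, sl' Psi l i ^ 2 ≤ p1 ^ 2
  g2 : ∀ l l', ∑ i, (sl' Psi l i - sl' Psi l' i) ^ 2 ≤ p2 ^ 2 * ‖l - l'‖ ^ 2

theorem PsiH.n0 {Psi : (Fin 2 → ℝ) → ℝ} {p0 p1 p2 : ℝ} (h : PsiH Psi p0 p1 p2) : 0 ≤ p0 :=
  (abs_nonneg _).trans (h.b 0)

theorem PsiH.lip {Psi : (Fin 2 → ℝ) → ℝ} {p0 p1 p2 : ℝ} (h : PsiH Psi p0 p1 p2)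
    (l l' : Fin 2 → ℝ) : |Psi l - Psi l'| ≤ 2 * p1 * ‖l - l'‖ := by
  have hn : ∀ y, ‖fderiv ℝ Psi y‖ ≤ 2 * p1 := by
    intro y
    refine ContinuousLinearMap.opNorm_le_bound _ (by have := h.n1; positivity) fun z => ?_
    have h1 : fderiv ℝ Psi y z = z 0 * sl' Psi y 0 + z 1 * sl' Psi y 1 := by
      have e : z = z 0 • (Pi.single 0 1 : Fin 2 → ℝ) + z 1 • (Pi.single 1 1 : Fin 2 → ℝ) := by
        ext i; fin_cases i <;> simp
      conv_lhs => rw [e]
      rw [map_add, map_smul, map_smul]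
      rfl
    have h2 := h.g1 y
    rw [Fin.sum_univ_two] at h2
    have a0 : |sl' Psi y 0| ≤ p1 := abs_le_of_sq_le_sq (by nlinarith [sq_nonneg (sl' Psi y 1)]) h.n1
    have a1 : |sl' Psi y 1| ≤ p1 := abs_le_of_sq_le_sq (by nlinarith [sq_nonneg (sl' Psi y 0)]) h.n1
    have b0 : |z 0| ≤ ‖z‖ := norm_le_pi_norm z 0
    have b1 : |z 1| ≤ ‖z‖ := norm_le_pi_norm z 1
    rw [h1, Real.norm_eq_abs]
    calc |z 0 * sl' Psi y 0 + z 1 * sl' Psi y 1| ≤ |z 0| * |sl' Psi y 0| + |z 1| * |sl' Psi y 1| := by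
          rw [← abs_mul, ← abs_mul]; exact abs_add_le _ _
      _ ≤ ‖z‖ * p1 + ‖z‖ * p1 := by
          gcongr
      _ = 2 * p1 * ‖z‖ := by ring
  have h3 := Convex.norm_image_sub_le_of_norm_fderiv_le (𝕜 := ℝ) (f := Psi) (s := Set.univ)
    (fun y _ => h.diff y) (fun y _ => hn y) convex_univ (Set.mem_univ l') (Set.mem_univ l)
  simpa [Real.norm_eq_abs] using h3

/-! ### the explicit right-hand sides -/

section rhs

variable (P : Par) (c0 : ℝ) (m : ℕ) (I : Finset P2) (Tl : Fin 2 → (P2 → ℝ) → P2 → ℝ)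
  (Rg Q : Finset P2) (Psi : (Fin 2 → ℝ) → ℝ) (M : ℕ) (h : P2 → ℝ)

/-- main term -/
def MT : ℝ := ∑ q ∈ Q, qd (Ph I (Gt P m I Tl) (fun a => h (q + a))) (sl' Psi (ix q))

/-- sites outside of the deep parts of the blocks -/
def NT : ℝ := ∑ w ∈ Rg.filter (fun w => ∀ q ∈ Q, w ∉ tr q (cor m I)),
  (mcw P c0 (win 1 Rg) h w : ℝ)

/-- long cheap paths -/
def LT : ℝ := ∑ w ∈ Rg, if m < mcw P c0 (win 1 Rg) h w then (mcw P c0 (win 1 Rg) h w : ℝ) else 0

/-- second moments -/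
def ST : ℝ := ∑ w ∈ Rg, ((mcw P c0 (win 1 Rg) h w : ℝ) + 1) ^ 2

/-- macroscopic cheap paths -/
def Bad : Prop := ∃ w ∈ Rg, M ≤ mcw P c0 (win 1 Rg) h w

/-- constant of the collar -/
def A1c : ℝ := 6 * (2 * P.Lam / P.eps) ^ 2

/-- constant of the long paths -/
def A2c (B θ : ℝ) : ℝ := 2 * A1c P +
  cE' 2 (3 * (2 * P.Lam / P.eps) ^ 2) P.eps P.Lam c0 B θ * ((1 + I.card) * (win m I).card)

end rhs

theorem NT_nonneg (P : Par) (c0 : ℝ) (m : ℕ) (I Rg Q : Finset P2) (h : P2 → ℝ) :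
    0 ≤ NT P c0 m I Rg Q h := Finset.sum_nonneg fun _ _ => Nat.cast_nonneg _

theorem LT_nonneg (P : Par) (c0 : ℝ) (m : ℕ) (Rg : Finset P2) (h : P2 → ℝ) :
    0 ≤ LT P c0 m Rg h := Finset.sum_nonneg fun _ _ => by split_ifs <;> positivity

theorem ST_nonneg (P : Par) (c0 : ℝ) (Rg : Finset P2) (h : P2 → ℝ) :
    0 ≤ ST P c0 Rg h := Finset.sum_nonneg fun _ _ => sq_nonneg _

theorem A1c_nonneg (P : Par) : 0 ≤ A1c P := by unfold A1c; positivity

theorem cE'_nonneg {a b e L c B θ : ℝ} (ha : 0 ≤ a) (hb : 0 ≤ b) (hθ : 0 < θ) :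
    0 ≤ cE' a b e L c B θ := by unfold cE'; positivity

theorem A2c_nonneg (P : Par) {c0 : ℝ} (m : ℕ) (I : Finset P2) (B : ℝ) {θ : ℝ} (hθ : 0 < θ) :
    0 ≤ A2c P c0 m I B θ := by
  have h1 := A1c_nonneg P
  have h2 : 0 ≤ cE' 2 (3 * (2 * P.Lam / P.eps) ^ 2) P.eps P.Lam c0 B θ :=
    cE'_nonneg (by norm_num) (by positivity) hθ
  unfold A2c
  positivity

theorem card_win_one (A : Finset P2) : (win 1 A).card ≤ A.card * (hball 1).card := by
  unfold win
  exact Finset.card_biUnion_le_card_mul _ _ _ fun a _ => Finset.card_image_le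

theorem trace_crude {F : Finset P2} {Y : (F → ℝ) → (F → ℝ)} {c : ℝ≥0} (hY : LipschitzWith c Y)
    (x : F → ℝ) : (jac Y x * jac Y x).trace ≤ (F.card : ℝ) ^ 2 * (c : ℝ) ^ 2 := by
  rw [Matrix.trace]
  simp only [Matrix.diag_apply, Matrix.mul_apply]
  have h1 : ∀ u v : F, jac Y x u v * jac Y x v u ≤ (c : ℝ) ^ 2 := by
    intro u v
    have h2 := MW121.abs_jac_le hY x u v
    have h3 := MW121.abs_jac_le hY x v u
    calc jac Y x u v * jac Y x v u ≤ |jac Y x u v * jac Y x v u| := le_abs_self _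
      _ = |jac Y x u v| * |jac Y x v u| := abs_mul _ _
      _ ≤ c * c := mul_le_mul h2 h3 (abs_nonneg _) c.2
      _ = (c : ℝ) ^ 2 := by ring
  calc ∑ u, ∑ v, jac Y x u v * jac Y x v u ≤ ∑ _u : F, ∑ _v : F, (c : ℝ) ^ 2 :=
        Finset.sum_le_sum fun u _ => Finset.sum_le_sum fun v _ => h1 u v
    _ = _ := by
        simp only [Finset.sum_const, Finset.card_univ, Fintype.card_coe, nsmul_eq_mul]
        ring

end Crest.Agent.R144.LoC95
end
end

-- ▼ part R144/LoC5_95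
section

/-!
# R144 (S0197), helper95, lower bound, instances, file 5: constants and error sums
-/

set_option autoImplicit false
set_option linter.unusedSectionVars false

open MeasureTheory Set Filter Topology
open scoped ENNReal NNReal

noncomputable section

namespace Crest.Agent.R144.LoC95

open Crest.Agent.R144.Ham560
open Crest.Agent.R144.Tri560
open Crest.Agent.R144.MW121 (jac jac_apply Tan)
open Crest.Agent.R144.Fib674 (pd)
open Crest.Agent.R144.LoB95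
open Crest.Agent.R144.Lc279 (lat mem_lat mem_nbr_lat P2)
open Crest.Agent.R144.Lw425 (hd hd_comm hd_le_iff mem_hball hball hd_self hd_triangle hd_pos
  hd_nonneg)
open Crest.Agent.R144.Bl565 (Par ps L2 win cor mem_win mem_cor subset_win cor_subset hd_add
  abs_ps_sub_le sym_add qd ps_sum mcw ps_zero ps_one ps_two ps_add)

/-- numeric bound of the constant of the data -/
theorem CL_le {κ0 LE b1 c0 CT B p0 p1 N R V x1 x2 : ℝ} (hκ : 0 ≤ κ0) (hLE : 0 ≤ LE) (hb : 0 ≤ b1)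
    (hc0 : 0 < c0) (hCT : 0 ≤ CT) (hB : 0 ≤ B) (hp0 : 0 ≤ p0) (hp1 : 0 ≤ p1) (hN : 1 ≤ N)
    (hR : R + 1 ≤ N) (hV : V + 1 ≤ (b1 + 1) * N)
    (hx1 : x1 ≤ max ((R + 1) * κ0) LE) (hx2 : x2 ≤ max ((V + 1) * κ0) LE) :
    1 + 2 * x1 + x2 + (R + 1) * κ0 / c0 + CT + B + (2 * p1 + p0) ≤
      (1 + 2 * (κ0 + LE) + ((b1 + 1) * κ0 + LE) + κ0 / c0 + CT + B + 2) * N * (1 + p0 + p1) := by
  have y1 : x1 ≤ (κ0 + LE) * N := by
    refine hx1.trans (max_le ?_ ?_)
    · nlinarith [mul_le_mul_of_nonneg_right hR hκ]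
    · nlinarith
  have y2 : x2 ≤ ((b1 + 1) * κ0 + LE) * N := by
    refine hx2.trans (max_le ?_ ?_)
    · nlinarith [mul_le_mul_of_nonneg_right hV hκ, mul_nonneg hLE (by linarith : 0 ≤ N)]
    · have : 0 ≤ (b1 + 1) * κ0 * N := by positivity
      nlinarith
  have y3 : (R + 1) * κ0 / c0 ≤ κ0 / c0 * N := by
    have : 0 ≤ κ0 / c0 := by positivity
    calc (R + 1) * κ0 / c0 = κ0 / c0 * (R + 1) := by ring
      _ ≤ _ := mul_le_mul_of_nonneg_left hR this
  set S : ℝ := 1 + p0 + p1 with hS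
  have hS1 : 1 ≤ S := by linarith
  have hN0 : 0 ≤ N := by linarith
  have hNS : N ≤ N * S := le_mul_of_one_le_right hN0 hS1
  have h1 : 1 ≤ N * S := hN.trans hNS
  have hSN : S ≤ N * S := le_mul_of_one_le_left (by linarith) hN
  have q1 : 0 ≤ κ0 + LE := by positivity
  have q2 : 0 ≤ (b1 + 1) * κ0 + LE := by positivity
  have q3 : 0 ≤ κ0 / c0 := by positivity
  have z1 : (κ0 + LE) * N ≤ (κ0 + LE) * (N * S) := mul_le_mul_of_nonneg_left hNS q1
  have z2 : ((b1 + 1) * κ0 + LE) * N ≤ ((b1 + 1) * κ0 + LE) * (N * S) :=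
    mul_le_mul_of_nonneg_left hNS q2
  have z3 : κ0 / c0 * N ≤ κ0 / c0 * (N * S) := mul_le_mul_of_nonneg_left hNS q3
  have z4 : CT ≤ CT * (N * S) := le_mul_of_one_le_right hCT h1
  have z5 : B ≤ B * (N * S) := le_mul_of_one_le_right hB h1
  have z6 : 2 * p1 + p0 ≤ 2 * (N * S) := by linarith
  calc _ ≤ N * S + 2 * ((κ0 + LE) * (N * S)) + ((b1 + 1) * κ0 + LE) * (N * S) +
        κ0 / c0 * (N * S) + CT * (N * S) + B * (N * S) + 2 * (N * S) := by linarith
    _ = _ := by ring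

theorem crude_num {C K N S f : ℝ} (hC : 1 ≤ C) (hCK : C ≤ K * N * S) (hf : 0 ≤ f) (hfN : f ≤ N)
    : f ^ 2 * KY C ^ 2 ≤ 16 * K ^ 6 * N ^ 8 * S ^ 6 := by
  have hC0 : 0 ≤ C := by linarith
  have hKY : KY C ≤ 4 * C ^ 3 := by
    unfold KY
    have h1 : C ^ 2 ≤ C ^ 3 := pow_le_pow_right₀ hC (by norm_num)
    have e : C * C + C * (2 * C + C * C) = 3 * C ^ 2 + C ^ 3 := by ring
    rw [e]
    linarith
  have hKY0 : 0 ≤ KY C := KY_nonneg hC0
  have hN0 : 0 ≤ N := hf.trans hfN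
  have h2 : KY C ^ 2 ≤ (4 * C ^ 3) ^ 2 := pow_le_pow_left₀ hKY0 hKY 2
  have h3 : f ^ 2 ≤ N ^ 2 := pow_le_pow_left₀ hf hfN 2
  have h4 : C ^ 6 ≤ (K * N * S) ^ 6 := pow_le_pow_left₀ hC0 hCK 6
  calc f ^ 2 * KY C ^ 2 ≤ N ^ 2 * (4 * C ^ 3) ^ 2 :=
        mul_le_mul h3 h2 (sq_nonneg _) (sq_nonneg _)
    _ = 16 * N ^ 2 * C ^ 6 := by ring
    _ ≤ 16 * N ^ 2 * (K * N * S) ^ 6 := mul_le_mul_of_nonneg_left h4 (by positivity)
    _ = _ := by ring

section sums

variable {F : Finset P2} {E : Finset (P2 × P2)} {Rg : Finset P2} {m : ℕ} {I Q : Finset P2}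

theorem sum_N_le (H : Loc F E Rg) (P : Par) (c0 : ℝ) (h : P2 → ℝ) :
    (∑ w ∈ Rg.filter (fun w => ∀ q : Q, w ∉ tr (q : P2) (cor m I)),
      (mc Rg E P.rho P.eps P.Lam c0 ps h w : ℝ)) ≤ NT P c0 m I Rg Q h := by
  unfold NT
  have hfil : Rg.filter (fun w => ∀ q : Q, w ∉ tr (q : P2) (cor m I)) =
      Rg.filter (fun w => ∀ q ∈ Q, w ∉ tr q (cor m I)) := by
    ext w
    simp
  rw [hfil]
  exact Finset.sum_le_sum fun w _ => by exact_mod_cast mc_le_mcw H P c0 h w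

theorem tl_le_LT (H : Loc F E Rg) (P : Par) (c0 : ℝ) (h : P2 → ℝ) :
    tl Rg (m + 1) (mc Rg E P.rho P.eps P.Lam c0 ps h) ≤ LT P c0 m Rg h :=
  tl_mono (Nat.le_succ m) fun w => mc_le_mcw H P c0 h w

theorem sum_W_le (H : Loc F E Rg) (hP : Pos I m Rg Q) (P : Par) (c0 : ℝ) (h : P2 → ℝ) :
    (∑ q : Q, (1 + ((tr (q : P2) I).card : ℝ)) *
      tl (tr (q : P2) (win m I)) (m + 1) (mc Rg E P.rho P.eps P.Lam c0 ps h)) ≤
      ((1 + I.card) * (win m I).card) * LT P c0 m Rg h := by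
  have h3 : ∑ q : Q, (1 + ((tr (q : P2) I).card : ℝ)) *
      tl (tr (q : P2) (win m I)) (m + 1) (mc Rg E P.rho P.eps P.Lam c0 ps h) =
      (1 + I.card) * ∑ q ∈ Q, tl (tr q (win m I)) (m + 1)
        (mc Rg E P.rho P.eps P.Lam c0 ps h) := by
    rw [Finset.mul_sum, ← Finset.sum_coe_sort Q]
    refine Finset.sum_congr rfl fun q _ => ?_
    rw [card_tr]
  rw [h3, mul_assoc]
  refine mul_le_mul_of_nonneg_left ?_ (by positivity)
  refine (sum_tl_le hP (m + 1) _).trans ?_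
  exact mul_le_mul_of_nonneg_left (tl_le_LT H P c0 h) (Nat.cast_nonneg _)

theorem sum_S_le (H : Loc F E Rg) (hP : Pos I m Rg Q) (P : Par) (c0 : ℝ) (h : P2 → ℝ) {B R : ℝ}
    (hB : 0 ≤ B) (hR : 0 ≤ R) :
    (∑ q : Q, ((tr (q : P2) I).card : ℝ) * ∑ w ∈ tr (q : P2) I,
      (2 * 1 * (mc Rg E P.rho P.eps P.Lam c0 ps h w : ℝ) + B + R) ^ 2) ≤
      (I.card * (2 + B + R) ^ 2) * ST P c0 Rg h := by
  have h3 : ∑ q : Q, ((tr (q : P2) I).card : ℝ) * ∑ w ∈ tr (q : P2) I,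
      (2 * 1 * (mc Rg E P.rho P.eps P.Lam c0 ps h w : ℝ) + B + R) ^ 2 =
      I.card * ∑ q ∈ Q, ∑ w ∈ tr q I,
      (2 * 1 * (mc Rg E P.rho P.eps P.Lam c0 ps h w : ℝ) + B + R) ^ 2 := by
    rw [Finset.mul_sum, ← Finset.sum_coe_sort Q]
    refine Finset.sum_congr rfl fun q _ => ?_
    rw [card_tr]
  rw [h3, mul_assoc]
  refine mul_le_mul_of_nonneg_left ?_ (Nat.cast_nonneg _)
  refine (sum_blocks_le hP (fun _ => sq_nonneg _)).trans ?_
  unfold ST
  rw [Finset.mul_sum]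
  refine Finset.sum_le_sum fun w _ => ?_
  rw [← mul_pow]
  have h4 : (mc Rg E P.rho P.eps P.Lam c0 ps h w : ℝ) ≤ mcw P c0 (win 1 Rg) h w := by
    exact_mod_cast mc_le_mcw H P c0 h w
  have h5 : (0 : ℝ) ≤ mcw P c0 (win 1 Rg) h w := Nat.cast_nonneg _
  have h6 : (0 : ℝ) ≤ mc Rg E P.rho P.eps P.Lam c0 ps h w := Nat.cast_nonneg _
  refine pow_le_pow_left₀ (by positivity) ?_ 2
  nlinarith [mul_nonneg (add_nonneg hB hR) h5]

end sums

end Crest.Agent.R144.LoC95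
end
end

-- ▼ part R144/LoC6_95
section

/-!
# R144 (S0197), helper95, lower bound, instances, file 6: the trial field on a region

The trial field `YC` and its properties at good points.
-/

set_option autoImplicit false
set_option linter.unusedSectionVars false

open MeasureTheory Set Filter Topology
open scoped ENNReal NNReal

noncomputable section

namespace Crest.Agent.R144.LoC95

open Crest.Agent.R144.Ham560
open Crest.Agent.R144.Tri560
open Crest.Agent.R144.MW121 (jac jac_apply Tan)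
open Crest.Agent.R144.Fib674 (pd)
open Crest.Agent.R144.LoB95
open Crest.Agent.R144.Lc279 (lat mem_lat mem_nbr_lat P2)
open Crest.Agent.R144.Lw425 (hd hd_comm hd_le_iff mem_hball hball hd_self hd_triangle hd_pos
  hd_nonneg)
open Crest.Agent.R144.Bl565 (Par ps L2 win cor mem_win mem_cor subset_win cor_subset hd_add
  abs_ps_sub_le sym_add qd ps_sum mcw ps_zero ps_one ps_two ps_add)

section defs

variable (P : Par) (c0 : ℝ) (m : ℕ) (I : Finset P2) (Tl : Fin 2 → (P2 → ℝ) → P2 → ℝ)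
  (F : Finset P2) (E : Finset (P2 × P2)) (ξ : P2 → ℝ) (Rg Q : Finset P2) (Psi : (Fin 2 → ℝ) → ℝ)

/-- deep parts -/
def dC (q : Q) : Finset P2 := tr (q : P2) (cor m I)

/-- windows -/
def wC (q : Q) : Finset P2 := tr (q : P2) (win m I)

/-- cut-offs -/
def gC : Q → (F → ℝ) → ℝ := gf Rg E (wC m I Q) (m + 1) P.rho P.eps P.Lam c0 ps F ξ

/-- explicit field -/
def ZC : Fin 2 → (F → ℝ) → F → ℝ := Zl Rg E P.rho P.eps P.Lam ps F ξ

/-- cut-off field -/
def VC : (F → ℝ) → F → ℝ := Zf (win 1 Rg) E P.rho P.eps P.Lam (fi0 Rg) F ξ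

/-- position field -/
def LC (i : Fin 2) (x : F → ℝ) (w : F) : ℝ :=
  Lf (dC m I Q) (gC P c0 m I F E ξ Rg Q) (ZC P F E ξ Rg) (Tp F ξ Q m I Tl) i x w

/-- trial field -/
def YC : (F → ℝ) → F → ℝ :=
  Yw Rg (dC m I Q) (gC P c0 m I F E ξ Rg Q) (ZC P F E ξ Rg) (Tp F ξ Q m I Tl) (VC P F E ξ Rg) Psi

end defs

variable {P : Par} {c0 : ℝ} {m : ℕ} {I : Finset P2} {Tl : Fin 2 → (P2 → ℝ) → P2 → ℝ}
  {F : Finset P2} {E : Finset (P2 × P2)} {ξ : P2 → ℝ} {Rg Q : Finset P2} {Psi : (Fin 2 → ℝ) → ℝ}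
  {B C CT : ℝ}

theorem gmC (H : Loc F E Rg) (hP : Pos I m Rg Q) :
    Gm F Rg (win 1 Rg) E (fun q : Q => tr q I) (dC m I Q) (wC m I Q) (wC m I Q) hn (m + 1) :=
  H.gm hP

/-- displacement of the position field -/
theorem disp_L (H : Loc F E Rg) (hP : Pos I m Rg Q) (hc0 : 0 < c0)
    (hTm : Tm F E ξ Rg (dC m I Q) (wC m I Q) (Tp F ξ Q m I Tl) CT B) (x : F → ℝ) (w : F)
    (i : Fin 2) : |LC P c0 m I Tl F E ξ Rg Q i x w - ix w i| ≤
      2 * mcw P c0 (win 1 Rg) (ext F ξ x) w + B := by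
  have h1 : |ZC P F E ξ Rg i x w - ix w i| ≤ 2 * mcw P c0 (win 1 Rg) (ext F ξ x) w := by
    have h2 : |l3 (fun k => Zf Rg E P.rho P.eps P.Lam (ps k) F ξ x w - ps k w) i| ≤
        2 * (1 * mc Rg E P.rho P.eps P.Lam c0 ps (ext F ξ x) w) :=
      abs_l3_le (fun k => disp_le' (φs := ps) P.Lam_nonneg hc0 zero_le_one (fun a ha b _ hab => by
        have := abs_ps_sub_le k a b
        rw [(H.nb a (subset_win _ _ ha) b).mp hab] at this
        simpa using this) x w) i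
    rw [← l3_sub] at h2
    have h3 : l3 (fun k => ps k (w : P2)) i = ix w i := ph_eq i w
    rw [h3] at h2
    refine h2.trans ?_
    have h4 : (mc Rg E P.rho P.eps P.Lam c0 ps (ext F ξ x) w : ℝ) ≤
        mcw P c0 (win 1 Rg) (ext F ξ x) w := by exact_mod_cast mc_le_mcw H P c0 _ _
    linarith
  have h5 : |Gw (dC m I Q) (gC P c0 m I F E ξ Rg Q) x w * Tp F ξ Q m I Tl i x w| ≤ B := by
    rw [abs_mul]
    have h6 : |Gw (dC m I Q) (gC P c0 m I F E ξ Rg Q) x w| ≤ 1 := by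
      by_cases hwd : ∃ q : Q, (w : P2) ∈ dC m I Q q
      · obtain ⟨q', hq'⟩ := hwd
        have g0 : 0 ≤ gC P c0 m I F E ξ Rg Q q' x := gf_nonneg q' x
        rw [Gw_eq (gmC H hP).bg x hq', abs_of_nonneg g0]
        exact gf_le_one q' x
      · push Not at hwd
        rw [Gw_eq_zero x hwd, abs_zero]; exact zero_le_one
    calc _ ≤ 1 * B := mul_le_mul h6 (hTm.TB i x w) (abs_nonneg _) zero_le_one
      _ = B := one_mul _
  have e : LC P c0 m I Tl F E ξ Rg Q i x w - ix w i = (ZC P F E ξ Rg i x w - ix w i) +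
      Gw (dC m I Q) (gC P c0 m I F E ξ Rg Q) x w * Tp F ξ Q m I Tl i x w := by
    unfold LC Lf; ring
  rw [e]
  exact (abs_add_le _ _).trans (add_le_add h1 h5)

/-- separation hypothesis -/
def Sep (Rg : Finset P2) (Psi : (Fin 2 → ℝ) → ℝ) (B : ℝ) (M : ℕ) : Prop :=
  ∀ a ∈ Rg, (∃ l ∈ tsupport Psi, ∀ i, |l i - ix a i| ≤ 2 * M + B) →
    ∀ b, b ∉ Rg → (M : ℤ) ≤ hd a b

theorem cut_L (H : Loc F E Rg) (hP : Pos I m Rg Q) (hc0 : 0 < c0)
    (hTm : Tm F E ξ Rg (dC m I Q) (wC m I Q) (Tp F ξ Q m I Tl) CT B) {M : ℕ} (hM : 2 ≤ M)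
    (hsep : Sep Rg Psi B M) {x : F → ℝ} (hx : ¬ Bad P c0 Rg M (ext F ξ x)) {w : F}
    (hw : (w : P2) ∈ Rg) (hs : (fun i => LC P c0 m I Tl F E ξ Rg Q i x w) ∈ tsupport Psi) :
    1 < VC P F E ξ Rg x w := by
  unfold Bad at hx
  push Not at hx
  refine cut_pos H P hc0 hM hw (hx w hw) (hsep w hw ⟨_, hs, fun i => ?_⟩)
  refine (disp_L H hP hc0 hTm x w i).trans ?_
  have : (mcw P c0 (win 1 Rg) (ext F ξ x) w : ℝ) ≤ M := by exact_mod_cast (hx w hw).le
  linarith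

/-- displacement of the trial field -/
theorem disp_Y (H : Loc F E Rg) (hP : Pos I m Rg Q) (hc0 : 0 < c0)
    (hTm : Tm F E ξ Rg (dC m I Q) (wC m I Q) (Tp F ξ Q m I Tl) CT B) {M : ℕ} (hM : 2 ≤ M)
    (hsep : Sep Rg Psi B M) {p0 p1 p2 : ℝ} (hPsi : PsiH Psi p0 p1 p2) {x : F → ℝ}
    (hx : ¬ Bad P c0 Rg M (ext F ξ x)) {w : F} (hw : (w : P2) ∈ Rg) :
    |YC P c0 m I Tl F E ξ Rg Q Psi x w - Psi (ix w)| ≤
      2 * p1 * (2 * mcw P c0 (win 1 Rg) (ext F ξ x) w + B) := by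
  have hp1 := hPsi.n1
  have hYw : YC P c0 m I Tl F E ξ Rg Q Psi x w =
      Psi (fun i => LC P c0 m I Tl F E ξ Rg Q i x w) := by
    unfold YC Yw
    rw [if_pos hw]
    change chi (VC P F E ξ Rg x w) * Psi (fun i => LC P c0 m I Tl F E ξ Rg Q i x w) = _
    by_cases h0 : Psi (fun i => LC P c0 m I Tl F E ξ Rg Q i x w) = 0
    · rw [h0, mul_zero]
    · have h1 : (fun i => LC P c0 m I Tl F E ξ Rg Q i x w) ∈ tsupport Psi := subset_tsupport _ h0
      rw [chi_one (cut_L H hP hc0 hTm hM hsep hx hw h1).le, one_mul]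
  rw [hYw]
  refine (hPsi.lip _ _).trans (mul_le_mul_of_nonneg_left ?_ (by positivity))
  have hB : 0 ≤ 2 * (mcw P c0 (win 1 Rg) (ext F ξ x) w : ℝ) + B :=
    (abs_nonneg _).trans (disp_L H hP hc0 hTm x w 0)
  rw [pi_norm_le_iff_of_nonneg hB]
  intro i
  rw [Real.norm_eq_abs, Pi.sub_apply]
  exact disp_L H hP hc0 hTm x w i

/-- derivatives exist almost everywhere, including those of the window fields -/
def GD (P : Par) (c0 : ℝ) (m : ℕ) (I : Finset P2) (Tl : Fin 2 → (P2 → ℝ) → P2 → ℝ)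
    (F : Finset P2) (E : Finset (P2 × P2)) (ξ : P2 → ℝ) (Rg Q : Finset P2) (x : F → ℝ) : Prop :=
  DA3 Rg E (wC m I Q) (m + 1) P.rho P.eps P.Lam c0 ps F ξ (Tp F ξ Q m I Tl) x ∧
  ∀ q : Q, ∀ k : Fin 3, ∀ w : F, DifferentiableAt ℝ
    (fun y => Zf (wC m I Q q) E P.rho P.eps P.Lam (ps k) F ξ y w) x

theorem gd_ae (H : Loc F E Rg) (hP : Pos I m Rg Q) (hc0 : 0 < c0) (hCT : 0 ≤ CT)
    (hTm : Tm F E ξ Rg (dC m I Q) (wC m I Q) (Tp F ξ Q m I Tl) CT B) :
    ∀ᵐ x : F → ℝ, GD P c0 m I Tl F E ξ Rg Q x := by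
  have hae1 := dat_ae' (ψ := ps) (ξ := ξ) (ρ := P.rho) (gmC H hP) P.eps_pos P.Lam_nonneg hc0
    hCT hTm
  have hae2 : ∀ᵐ x : F → ℝ, ∀ q : Q, ∀ k : Fin 3, ∀ w : F, DifferentiableAt ℝ
      (fun y => Zf (wC m I Q q) E P.rho P.eps P.Lam (ps k) F ξ y w) x :=
    ae_all_iff.mpr fun q => ae_all_iff.mpr fun k => ae_all_iff.mpr fun w =>
      (Zb560.lip_Zx (V := wC m I Q q) (E := E) (ρ := P.rho) (φ := ps k) (F := F) (ξ := ξ)
        P.eps_pos P.Lam_nonneg (w : P2)).ae_differentiableAt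
  filter_upwards [hae1, hae2] with x h1 h2
  exact ⟨h1, h2⟩

theorem MT_eq (H : Loc F E Rg) (hP : Pos I m Rg Q) (T : Tpl m I Tl B C) {x : F → ℝ}
    (hx : GD P c0 m I Tl F E ξ Rg Q x) :
    MT P m I Tl Q Psi (ext F ξ x) = ∑ q : Q, Qb (tr (q : P2) I) (sl' Psi (ix q))
      (Zl (wC m I Q q) E P.rho P.eps P.Lam ps F ξ) (Tp F ξ Q m I Tl) x := by
  unfold MT
  rw [← Finset.sum_coe_sort Q fun q => qd (Ph I (Gt P m I Tl) (fun a => ext F ξ x (q + a)))
    (sl' Psi (ix q))]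
  refine Finset.sum_congr rfl fun q _ => ?_
  exact (Qb_eq P H hP T q.2 _ (fun i w => diff_l3 (fun k => hx.2 q k w) i) hx.1.T).symm

theorem MT_nonneg (H : Loc F E Rg) (hP : Pos I m Rg Q) (T : Tpl m I Tl B C) {x : F → ℝ}
    (hx : GD P c0 m I Tl F E ξ Rg Q x) : 0 ≤ MT P m I Tl Q Psi (ext F ξ x) := by
  rw [MT_eq H hP T hx]
  exact Finset.sum_nonneg fun q _ => Qb_nonneg _ _ _ _ _

end Crest.Agent.R144.LoC95
end
end

-- ▼ part R144/LoC7_95

/-!
# R144 (S0197), helper95, lower bound, instances, file 7: the final statement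

`exists_field` : for a template family `Tl` on the block `I`, a region `Rg` where the graph is the
lattice, positions `Q` of the block and a test function `Psi` in index coordinates, a field `Y`
tangent to the hammock polytope, with explicit pointwise bounds of `tr (jac Y * jac Y)` and of
`Y - Psi`.
-/

set_option autoImplicit false
set_option linter.unusedSectionVars false

open MeasureTheory Set Filter Topology
open scoped ENNReal NNReal

noncomputable section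

namespace Crest.Agent.R144.LoC95

open Crest.Agent.R144.Ham560
open Crest.Agent.R144.Tri560
open Crest.Agent.R144.MW121 (jac jac_apply Tan)
open Crest.Agent.R144.Fib674 (pd)
open Crest.Agent.R144.LoB95
open Crest.Agent.R144.Lc279 (lat mem_lat mem_nbr_lat P2)
open Crest.Agent.R144.Lw425 (hd hd_comm hd_le_iff mem_hball hball hd_self hd_triangle hd_pos
  hd_nonneg)
open Crest.Agent.R144.Bl565 (Par ps L2 win cor mem_win mem_cor subset_win cor_subset hd_add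
  abs_ps_sub_le sym_add qd ps_sum mcw ps_zero ps_one ps_two ps_add)

variable {P : Par} {c0 : ℝ} {m : ℕ} {I : Finset P2} {Tl : Fin 2 → (P2 → ℝ) → P2 → ℝ}
  {F : Finset P2} {E : Finset (P2 × P2)} {ξ : P2 → ℝ} {Rg Q : Finset P2} {Psi : (Fin 2 → ℝ) → ℝ}
  {B C CT : ℝ}

/-- size of the block -/
def sz (I : Finset P2) : ℝ := ∑ v ∈ I, ∑ i, |ix v i|

theorem sz_nonneg (I : Finset P2) : 0 ≤ sz I :=
  Finset.sum_nonneg fun _ _ => Finset.sum_nonneg fun _ _ => abs_nonneg _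

theorem ix_sub_le {q w : P2} (hw : w ∈ tr q I) (i : Fin 2) : |ix w i - ix q i| ≤ sz I := by
  have h3 : ix w i - ix q i = ix (w - q) i := by
    have := ix_add q (w - q) i
    rw [add_sub_cancel] at this
    linarith
  rw [h3]
  have h4 : |ix (w - q) i| ≤ ∑ i, |ix (w - q) i| :=
    Finset.single_le_sum (f := fun i => |ix (w - q) i|) (fun _ _ => abs_nonneg _)
      (Finset.mem_univ i)
  refine h4.trans ?_
  exact Finset.single_le_sum (f := fun v => ∑ i, |ix v i|)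
    (fun _ _ => Finset.sum_nonneg fun _ _ => abs_nonneg _) (mem_tr.mp hw)

/-- constant of the second order terms -/
def A3c (P : Par) (c0 : ℝ) (I : Finset P2) (B CT θ : ℝ) : ℝ :=
  (1 + θ⁻¹) * (2 * KL' (2 * (2 * P.Lam / P.eps)) P.eps P.Lam c0 B CT ^ 2) *
    (I.card * (2 + B + sz I) ^ 2)

theorem A3c_nonneg (P : Par) (c0 : ℝ) (I : Finset P2) (B CT : ℝ) {θ : ℝ} (hθ : 0 < θ) :
    0 ≤ A3c P c0 I B CT θ := by
  unfold A3c
  have : 0 < θ⁻¹ := inv_pos.mpr hθ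
  positivity

/-- the trace inequality at good points -/
theorem trace_good (H : Loc F E Rg) (hP : Pos I m Rg Q) (T : Tpl m I Tl B C) (hc0 : 0 < c0)
    (hCT : 0 ≤ CT) (hTm : Tm F E ξ Rg (dC m I Q) (wC m I Q) (Tp F ξ Q m I Tl) CT B)
    {CL : ℝ} (hLow : Low F E ξ Rg (fun q : Q => tr (q : P2) I) (dC m I Q) (wC m I Q)
      (gC P c0 m I F E ξ Rg Q) (ZC P F E ξ Rg) (Tp F ξ Q m I Tl) (VC P F E ξ Rg) Psi CL)
    {M : ℕ} (hM : 2 ≤ M) (hsep : Sep Rg Psi B M) {p0 p1 p2 : ℝ} (hPsi : PsiH Psi p0 p1 p2)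
    {θ : ℝ} (hθ : 0 < θ) {x : F → ℝ} (hx : ¬ Bad P c0 Rg M (ext F ξ x))
    (hG : GD P c0 m I Tl F E ξ Rg Q x) :
    (jac (YC P c0 m I Tl F E ξ Rg Q Psi) x * jac (YC P c0 m I Tl F E ξ Rg Q Psi) x).trace ≤
      (1 + θ) ^ 2 * MT P m I Tl Q Psi (ext F ξ x) +
      p1 ^ 2 * (A1c P * NT P c0 m I Rg Q (ext F ξ x)) +
      p1 ^ 2 * (A2c P c0 m I B θ * LT P c0 m Rg (ext F ξ x)) +
      p2 ^ 2 * (A3c P c0 I B CT θ * ST P c0 Rg (ext F ξ x)) := by
  have hB := T.B_nonneg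
  have hgat : GAt Rg (fun q : Q => tr (q : P2) I) (dC m I Q) (wC m I Q)
      (gC P c0 m I F E ξ Rg Q) (ZC P F E ξ Rg) (Tp F ξ Q m I Tl) (VC P F E ξ Rg) Psi x :=
    gat_inst' (gmC H hP) P.Lam_nonneg hc0 hG.1
      (fun w hw hs => cut_L H hP hc0 hTm hM hsep hx hw hs)
  have hzat := zat_inst (gmC H hP) P.eps_pos P.Lam_nonneg hc0 hG.1 zero_le_one
    (fun j a ha b _ hab => by
      have := abs_ps_sub_le j a b
      rw [(H.nb a (subset_win _ _ ha) b).mp hab] at this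
      simpa using this)
  have k1 : (0 : ℝ) ≤ 3 * (2 * P.Lam / P.eps) ^ 2 := by positivity
  have hΛ := P.Lam_nonneg
  have hε := P.eps_pos
  have k2 : (0 : ℝ) ≤ 2 * (2 * P.Lam / P.eps) := by positivity
  have hmain := main' (gmC H hP) P.eps_pos P.Lam_nonneg hc0 hCT hB hTm hLow hPsi.diff hPsi.n1
    hPsi.n2 hPsi.g1 hPsi.g2 hG.1.dat hgat k1 k2 (by norm_num : (0 : ℝ) ≤ 2 * 1) hzat hθ
    (fun q : Q => ix q) (sz_nonneg I) (fun q w hw i => by
      rw [ph_eq]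
      exact ix_sub_le hw i)
  refine hmain.trans ?_
  have eF : (Fintype.card (Fin 2) : ℝ) = 2 := by simp
  rw [eF, MT_eq H hP T hG]
  have hcE : 0 ≤ cE' 2 (3 * (2 * P.Lam / P.eps) ^ 2) P.eps P.Lam c0 B θ :=
    cE'_nonneg (by norm_num) k1 hθ
  have hθ' : 0 < θ⁻¹ := inv_pos.mpr hθ
  have e1 := mul_le_mul_of_nonneg_left (sum_N_le (I := I) (m := m) (Q := Q) H P c0 (ext F ξ x))
    (A1c_nonneg P)
  have e2 := mul_le_mul_of_nonneg_left (tl_le_LT (m := m) H P c0 (ext F ξ x))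
    (mul_nonneg zero_le_two (A1c_nonneg P))
  have e3 := mul_le_mul_of_nonneg_left (sum_W_le H hP P c0 (ext F ξ x)) hcE
  have k4 : 0 ≤ (1 + θ⁻¹) * (2 * KL' (2 * (2 * P.Lam / P.eps)) P.eps P.Lam c0 B CT ^ 2) := by
    positivity
  have e4 := mul_le_mul_of_nonneg_left (sum_S_le H hP P c0 (ext F ξ x) hB (sz_nonneg I)) k4
  have e1' := mul_le_mul_of_nonneg_left e1 (sq_nonneg p1)
  have e2' := mul_le_mul_of_nonneg_left e2 (sq_nonneg p1)
  have e3' := mul_le_mul_of_nonneg_left e3 (sq_nonneg p1)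
  have e4' := mul_le_mul_of_nonneg_left e4 (sq_nonneg p2)
  have a1 : 2 * (3 * (2 * P.Lam / P.eps) ^ 2) = A1c P := by unfold A1c; ring
  rw [a1]
  refine (add_le_add (add_le_add (add_le_add (add_le_add le_rfl e1') e2') e3') e4').trans ?_
  refine le_of_eq ?_
  unfold A2c A3c
  ring

end Crest.Agent.R144.LoC95
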