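import Crest.Agent.R144.Lc7_279
import Crest.Agent.R144.Lw7_425

-- ▼ part R144/Lc8_279
section

/-!
R144 (S0197), helper279.  Block LC, file 8: bad windows (joint bound for all windows of one class).
-/

set_option autoImplicit false
set_option linter.unusedSectionVars false
set_option linter.unusedVariables false

open MeasureTheory Set
open scoped ENNReal

noncomputable section

namespace Crest.Agent.R144.Lc279

open Crest.Agent.R144.Ham560
open Crest.Agent.R144.Lw425 (hd hd_comm hd_le_iff mem_hball hball mem_inn inn mem_sph sph hd_self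
  hd_triangle hd_pos hd_adj LObs)

variable {U : Type*} [DecidableEq U] {F : Finset U} {E : Finset (U × U)}

theorem FreshR.mem {S : List ((U × U) × ℝ)} (h : FreshR F E S) :
    ∀ q ∈ S, q.1.1 ∈ F ∧ q.1.2 ∈ nbr E q.1.1 := by
  induction h with
  | nil => simp
  | cons hS hv hu hw hf ih =>
    intro q hq
    rcases List.mem_cons.mp hq with rfl | hq
    · exact ⟨hv, hu⟩
    · exact ih q hq

/-- Image of a list of edges. -/
def mapL (φ : P2 → U) (S : List ((P2 × P2) × ℝ)) : List ((U × U) × ℝ) :=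
  S.map fun q => ((φ q.1.1, φ q.1.2), q.2)

theorem wgt_mapL (φ : P2 → U) (S : List ((P2 × P2) × ℝ)) (n : ℕ) :
    wgt n (mapL φ S) = wgt n S := by
  unfold wgt mapL
  rw [List.map_map]
  rfl

/-- The covering of the bad set on the lattice. -/
structure LBad (R : ℕ) (B : Set (P2 → ℝ)) (FF : Finset (List ((P2 × P2) × ℝ))) (q : ℝ≥0∞) :
    Prop where
  cov : ∀ h ∈ HS (lat (hball R)), h ∈ B → ∃ S ∈ FF, ∀ p ∈ S, 1 - p.2 ≤ |h p.1.1 - h p.1.2|
  fresh : ∀ S ∈ FF, FreshR (hball R) (lat (hball R)) S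
  sum : ∑ S ∈ FF, wgt 6 S ≤ q

/-- Placed families. -/
def wF [DecidableEq (List ((U × U) × ℝ))] (R : ℕ) (e : P2 → U)
    (FF : Finset (List ((P2 × P2) × ℝ))) (c k : ℕ × ℕ) : Finset (List ((U × U) × ℝ)) :=
  FF.image (mapL fun v => e (ctr R c k + v))

theorem wF_sum [DecidableEq (List ((U × U) × ℝ))] {R : ℕ} {B : Set (P2 → ℝ)}
    {FF : Finset (List ((P2 × P2) × ℝ))} {q : ℝ≥0∞} (H : LBad R B FF q) (e : P2 → U)
    (c k : ℕ × ℕ) : ∑ S ∈ wF R e FF c k, wgt 6 S ≤ q := by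
  unfold wF
  refine (Finset.sum_image_le_of_nonneg (fun _ _ => bot_le)).trans ?_
  simp only [wgt_mapL]
  exact H.sum

variable {e : P2 → U} {L R K : ℕ} {c k : ℕ × ℕ}

theorem hball_nbr {v w : P2} (hv : v ∈ hball R) (h : hd v w = 1) : w ∈ hball (R + 1) := by
  rw [mem_hball] at hv ⊢
  have h1 := hd_triangle w v 0
  rw [hd_comm w v, h] at h1
  push_cast; omega

theorem Ch.fresh (h : BCh E L e) (hF : (bx L).image e ⊆ F)
    (hK : 2 * R + (2 * R + 2) * K ≤ L) (hc : c ∈ sq (2 * R + 2)) (hk : k ∈ sq K)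
    {S : List ((P2 × P2) × ℝ)} (hS : FreshR (hball R) (lat (hball R)) S) :
    FreshR F E (mapL (fun v => e (ctr R c k + v)) S) := by
  induction hS with
  | nil => exact FreshR.nil
  | @cons v u w S hS hv hu hw hf ih =>
    have hu' := mem_nbr_lat.mp hu
    have hvb := ctr_ball hK hc hk hv
    have hub : ctr R c k + u ∈ Lc279.cl L := ctr_ball' hK hc hk (hball_nbr hv hu'.1)
    have hvc : ctr R c k + v ∈ Lc279.cl L := bx_sub_cl L hvb
    refine FreshR.cons ih (hF (Finset.mem_image_of_mem e hvb)) ?_ hw ?_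
    · rw [mem_nbr]
      refine ⟨?_, ?_⟩
      · intro h1
        have h2 := add_left_cancel (h.inj hub hvc h1)
        rw [h2, hd_self] at hu'
        omega
      · exact h.edge _ hvb _ (by rw [hd_add]; exact hu'.1)
    · intro q hq
      obtain ⟨q', hq', rfl⟩ := List.mem_map.mp hq
      have h1 := FreshR.mem hS q' hq'
      have h2 := hf q' hq'
      have h3 : ctr R c k + q'.1.1 ∈ Lc279.cl L := bx_sub_cl L (ctr_ball hK hc hk h1.1)
      have h4 : ctr R c k + q'.1.2 ∈ Lc279.cl L :=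
        ctr_ball' hK hc hk (hball_nbr h1.1 (mem_nbr_lat.mp h1.2).1)
      exact ⟨fun h5 => h2.1 (add_left_cancel (h.inj h3 hvc h5)),
        fun h5 => h2.2 (add_left_cancel (h.inj h4 hvc h5))⟩

theorem Ch.bad_cover [DecidableEq (List ((U × U) × ℝ))] (h : BCh E L e) {ξ : U → ℝ}
    (hK : 2 * R + (2 * R + 2) * K ≤ L) (hc : c ∈ sq (2 * R + 2)) (hk : k ∈ sq K)
    {B : Set (P2 → ℝ)} {FF : Finset (List ((P2 × P2) × ℝ))} {q : ℝ≥0∞} (H : LBad R B FF q) :
    ham F E ξ ∩ {x | ext F ξ x ∈ wB R e B c k} ⊆ ⋃ S ∈ wF R e FF c k, tightR F E ξ S := by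
  rintro x ⟨hx, hB⟩
  have hlip : (fun v => ext F ξ x (e (ctr R c k + v))) ∈ HS (lat (hball R)) := by
    intro p hp
    rw [mem_lat] at hp
    obtain ⟨h1, h2⟩ := hp
    have hE : (e (ctr R c k + p.1), e (ctr R c k + p.2)) ∈ E ∨
        (e (ctr R c k + p.2), e (ctr R c k + p.1)) ∈ E := by
      rcases h2 with h2 | h2
      · exact h.edge _ (ctr_ball hK hc hk h2) _ (by rw [hd_add]; exact h1)
      · exact (h.edge _ (ctr_ball hK hc hk h2) _ (by rw [hd_add, hd_comm]; exact h1)).symm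
    rcases hE with hE | hE
    · exact hx _ hE
    · rw [abs_sub_comm]; exact hx _ hE
  obtain ⟨S, hS, hS'⟩ := H.cov _ hlip hB
  simp only [mem_iUnion]
  refine ⟨_, Finset.mem_image_of_mem _ hS, hx, ?_⟩
  intro q hq
  obtain ⟨q', hq', rfl⟩ := List.mem_map.mp hq
  exact hS' q' hq'

/-- The box as a system of its own. -/
theorem Ch.self {W : Finset P2} {D : Set P2} (h : Ch E W e D) :
    Ch (tch E (W.image e)) W e D where
  sub := h.sub
  inj := h.inj
  cl := h.cl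
  edge := by
    intro v hv w hvw
    have hT := Finset.mem_image_of_mem e hv
    rcases h.edge v hv w hvw with hE | hE
    · exact Or.inl (mem_tch.mpr ⟨hE, Or.inl hT⟩)
    · exact Or.inr (mem_tch.mpr ⟨hE, Or.inr hT⟩)
  edge' := fun p hp hp' => h.edge' p (mem_tch.mp hp).1 hp'

theorem nbr_tch_subset (Q : Finset U) (a : U) : nbr (tch E Q) a ⊆ nbr E a := by
  intro b hb
  rw [mem_nbr] at hb ⊢
  exact ⟨hb.1, hb.2.imp (fun h => (mem_tch.mp h).1) fun h => (mem_tch.mp h).1⟩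

/-- One window in a box with zero data. -/
theorem Ch.bad_one (h : BCh E L e) (hdeg : ∀ v ∈ (bx L).image e, (nbr E v).card ≤ 6)
    (hK : 2 * R + (2 * R + 2) * K ≤ L) (hc : c ∈ sq (2 * R + 2)) (hk : k ∈ sq K)
    {B : Set (P2 → ℝ)} {FF : Finset (List ((P2 × P2) × ℝ))} {q : ℝ≥0∞} (H : LBad R B FF q) :
    volume (ham ((bx L).image e) (tch E ((bx L).image e)) 0 ∩
      {x | ext ((bx L).image e) 0 x ∈ wB R e B c k}) ≤
      q * volume (ham ((bx L).image e) (tch E ((bx L).image e)) 0) := by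
  classical
  have key := vol_bad_le (F := (bx L).image e) (E := tch E ((bx L).image e)) (ξ := 0)
    ({()} : Finset Unit) (fun _ => wF R e FF c k)
    (fun _ => {x | ext ((bx L).image e) 0 x ∈ wB R e B c k}) (n := 6)
    (fun v hv => (Finset.card_le_card (nbr_tch_subset _ _)).trans (hdeg v hv))
    (fun _ _ => h.self.bad_cover hK hc hk H) ?_ ?_
  · rw [Finset.prod_singleton] at key
    have e0 : (⋂ b ∈ ({()} : Finset Unit), {x : ↥((bx L).image e) → ℝ |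
        ext ((bx L).image e) 0 x ∈ wB R e B c k}) =
        {x : ↥((bx L).image e) → ℝ | ext ((bx L).image e) 0 x ∈ wB R e B c k} := by
      ext x; simp
    rw [e0] at key
    exact key.trans (mul_le_mul' (wF_sum H e c k) le_rfl)
  · intro _ _ S hS
    obtain ⟨S', hS', rfl⟩ := Finset.mem_image.mp hS
    exact h.self.fresh subset_rfl hK hc hk (H.fresh S' hS')
  · intro b _ b' _ hbb
    exact absurd (Subsingleton.elim b b') hbb

/-- Reference value of the number of bad windows. -/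
theorem Ch.ref_bad (h : BCh E L e) (hdeg : ∀ v ∈ (bx L).image e, (nbr E v).card ≤ 6)
    (hK : 2 * R + (2 * R + 2) * K ≤ L) (hc : c ∈ sq (2 * R + 2))
    {B : Set (P2 → ℝ)} (hB : MeasurableSet B)
    {FF : Finset (List ((P2 × P2) × ℝ))} {q0 : ℝ} (hq0 : 0 ≤ q0)
    (H : LBad R B FF (ENNReal.ofReal q0)) :
    Ev ((bx L).image e) (tch E ((bx L).image e)) 0 (SN (sq K) (wB R e B c)) ≤
      q0 * (K ^ 2 : ℕ) := by
  have hA := h.anch (anch_bx L)
  have h0 := vr_zero_pos hA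
  have hm : ∀ k, MeasurableSet (wB R e B c k) := fun k =>
    (measurable_comp (fun v => e (ctr R c k + v))) hB
  have e1 : Ev ((bx L).image e) (tch E ((bx L).image e)) 0 (SN (sq K) (wB R e B c)) =
      ∑ k ∈ sq K, Ev ((bx L).image e) (tch E ((bx L).image e)) 0
        ((wB R e B c k).indicator 1) :=
    Ev_sum (fun k _ => Bd.ind (hm k)) hA h0
  rw [e1, ← card_sq K]
  have h2 : ∀ k ∈ sq K, Ev ((bx L).image e) (tch E ((bx L).image e)) 0
      ((wB R e B c k).indicator 1) ≤ q0 := by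
    intro k hk
    have h3 := h.bad_one hdeg hK hc hk H
    have hP := isProb (ξ := 0) hA h0
    have hms : MeasurableSet {x : ↥((bx L).image e) → ℝ |
        ext ((bx L).image e) 0 x ∈ wB R e B c k} := measurable_ext _ _ (hm k)
    have e2 : Ev ((bx L).image e) (tch E ((bx L).image e)) 0
        ((wB R e B c k).indicator 1) =
        (hamP ((bx L).image e) (tch E ((bx L).image e)) 0).real
          {x | ext ((bx L).image e) 0 x ∈ wB R e B c k} := by
      unfold Ev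
      rw [← integral_indicator_one hms]
      rfl
    rw [e2, Measure.real]
    refine ENNReal.toReal_le_of_le_ofReal hq0 ?_
    rw [hamP, Measure.smul_apply, Measure.restrict_apply hms, smul_eq_mul, inter_comm]
    have hv : volume (ham ((bx L).image e) (tch E ((bx L).image e)) 0) ≠ 0 :=
      volume_ham_ne_zero fun u => by simp
    have hv' : volume (ham ((bx L).image e) (tch E ((bx L).image e)) 0) ≠ ∞ :=
      (volume_ham_lt_top hA).ne
    calc _ ≤ (volume (ham ((bx L).image e) (tch E ((bx L).image e)) 0))⁻¹ *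
          (ENNReal.ofReal q0 * volume (ham ((bx L).image e) (tch E ((bx L).image e)) 0)) := by
          gcongr
      _ = _ := by
          rw [mul_comm (ENNReal.ofReal q0), ← mul_assoc, ENNReal.inv_mul_cancel hv hv', one_mul]
  calc _ ≤ ∑ k ∈ sq K, q0 := Finset.sum_le_sum h2
    _ = _ := by rw [Finset.sum_const, nsmul_eq_mul]; ring

/-! ### Systems of boxes -/

variable {κ : Type*} [DecidableEq κ]

/-- Boxes of side `L` inside a system. -/
structure Cov (F : Finset U) (E : Finset (U × U)) (L : ℕ) (σ : Finset κ) (e : κ → P2 → U) :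
    Prop where
  ch : ∀ j ∈ σ, BCh E L (e j)
  sub : ∀ j ∈ σ, (bx L).image (e j) ⊆ F
  disj : ∀ j ∈ σ, ∀ k ∈ σ, j ≠ k → Disjoint (e j '' cl L) ((bx L).image (e k) : Set U)
  deg : ∀ v ∈ F, (nbr E v).card ≤ 6

variable {σ : Finset κ} {e : κ → P2 → U}

theorem Cov.lev (h : Cov F E L σ e) (hK : 2 * R + (2 * R + 2) * K ≤ L)
    {f : (P2 → ℝ) → ℝ} {B : Set (P2 → ℝ)} {ε C : ℝ} (H : LWin R f B ε C) {c : ℕ × ℕ}
    (hc : c ∈ sq (2 * R + 2)) :
    Lev F E σ (fun j => (bx L).image (e j)) (fun j => e j '' cl L) (fun _ => sq K)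
      (fun j => wQ R (e j) c) (fun j => wA R (e j) c) (fun j => wf R (e j) f c)
      (fun j => wB R (e j) B c) ε C where
  out := by
    refine ⟨h.sub, ?_, h.disj, ?_⟩
    · intro j hj u hu
      obtain ⟨v, hv, rfl⟩ := Finset.mem_image.mp (Finset.mem_coe.mp hu)
      exact ⟨v, bx_sub_cl L hv, rfl⟩
    · intro j hj p hp hp'
      obtain ⟨v, w, h1, h2, rfl⟩ := (h.ch j hj).edge' p hp hp'
      have h3 := (h.ch j hj).ends h1 h2
      exact ⟨⟨v, h3.1, rfl⟩, ⟨w, h3.2, rfl⟩⟩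
  anch := fun j hj => (h.ch j hj).anch (anch_bx L)
  fam := fun j hj => (h.ch j hj).fam hK H hc
  sub := by
    intro j hj k hk u hu
    obtain ⟨v, hv, rfl⟩ := hu
    exact ⟨_, bx_sub_cl L (ctr_ball hK hc hk (Finset.mem_coe.mp hv)), rfl⟩

/-- Joint bound for the number of bad windows of class `c`. -/
theorem Cov.bad (h : Cov F E L σ e) {ξ : U → ℝ} (hK : 2 * R + (2 * R + 2) * K ≤ L)
    {c : ℕ × ℕ} (hc : c ∈ sq (2 * R + 2)) {B : Set (P2 → ℝ)}
    {FF : Finset (List ((P2 × P2) × ℝ))} {q : ℝ≥0∞} (hq : q ≤ 1) (H : LBad R B FF q) (m : ℕ) :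
    volume (ham F E ξ ∩ {x | (m : ℝ) ≤ TN σ (fun _ => sq K) (fun j => wB R (e j) B c)
      (ext F ξ x)}) ≤ 2 ^ (K ^ 2 * σ.card) * q ^ m * volume (ham F E 0) := by
  classical
  have key := vol_bad_card_le (F := F) (E := E) (ξ := ξ) (σ ×ˢ sq K)
    (fun b => wF R (e b.1) FF c b.2) (fun b => {x | ext F ξ x ∈ wB R (e b.1) B c b.2})
    (n := 6) h.deg ?_ ?_ ?_ hq ?_ m
  · rw [Finset.card_product, card_sq, mul_comm σ.card] at key
    refine le_trans (measure_mono ?_) key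
    rintro x ⟨hx, hx'⟩
    refine ⟨hx, ?_⟩
    have e1 : TN σ (fun _ => sq K) (fun j => wB R (e j) B c) (ext F ξ x) =
        (((σ ×ˢ sq K).filter fun b => ext F ξ x ∈ wB R (e b.1) B c b.2).card : ℝ) := by
      unfold TN SN
      rw [← Finset.sum_product', Finset.card_filter]
      push_cast
      refine Finset.sum_congr rfl fun b _ => ?_
      by_cases hb : ext F ξ x ∈ wB R (e b.1) B c b.2
      · rw [indicator_of_mem hb, if_pos hb]; rfl
      · rw [indicator_of_notMem hb, if_neg hb]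
    have hx'' : (m : ℝ) ≤ TN σ (fun _ => sq K) (fun j => wB R (e j) B c) (ext F ξ x) := hx'
    rw [e1] at hx''
    have h2 : m ≤ ((σ ×ˢ sq K).filter fun b => ext F ξ x ∈ wB R (e b.1) B c b.2).card := by
      exact_mod_cast hx''
    show m ≤ {b | b ∈ σ ×ˢ sq K ∧ x ∈ {x | ext F ξ x ∈ wB R (e b.1) B c b.2}}.ncard
    have e2 : {b | b ∈ σ ×ˢ sq K ∧ x ∈ {x | ext F ξ x ∈ wB R (e b.1) B c b.2}} =
        ((σ ×ˢ sq K).filter fun b => ext F ξ x ∈ wB R (e b.1) B c b.2 : Finset _) := by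
      ext b; simp
    rw [e2, Set.ncard_coe_finset]
    exact h2
  · intro b hb
    rw [Finset.mem_product] at hb
    exact (h.ch b.1 hb.1).bad_cover hK hc hb.2 H
  · intro b hb S hS
    rw [Finset.mem_product] at hb
    obtain ⟨S', hS', rfl⟩ := Finset.mem_image.mp hS
    exact (h.ch b.1 hb.1).fresh (h.sub b.1 hb.1) hK hc hb.2 (H.fresh S' hS')
  · intro b hb b' hb' hne S hS S' hS' q hq q' hq'
    rw [Finset.mem_product] at hb hb'
    obtain ⟨T, hT, rfl⟩ := Finset.mem_image.mp hS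
    obtain ⟨T', hT', rfl⟩ := Finset.mem_image.mp hS'
    obtain ⟨p, hp, rfl⟩ := List.mem_map.mp hq
    obtain ⟨p', hp', rfl⟩ := List.mem_map.mp hq'
    have h1 := FreshR.mem (H.fresh T hT) p hp
    have h2 := FreshR.mem (H.fresh T' hT') p' hp'
    have a1 : ctr R c b.2 + p.1.1 ∈ bx L := ctr_ball hK hc hb.2 h1.1
    have a2 : p'.1.1 ∈ hball (R + 1) := hball_mono (Nat.le_succ R) h2.1
    have a3 : p'.1.2 ∈ hball (R + 1) := hball_nbr h2.1 (mem_nbr_lat.mp h2.2).1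
    have key : ∀ w ∈ hball (R + 1),
        e b'.1 (ctr R c b'.2 + w) ≠ e b.1 (ctr R c b.2 + p.1.1) := by
      intro w hw heq
      have hwc : ctr R c b'.2 + w ∈ cl L := ctr_ball' hK hc hb'.2 hw
      by_cases hj : b.1 = b'.1
      · have hk : b.2 ≠ b'.2 := fun hk => hne (Prod.ext hj hk)
        rw [hj] at heq
        have := (h.ch b'.1 hb'.1).inj hwc (bx_sub_cl L a1) heq
        exact ctr_far hk h1.1 hw this.symm
      · refine Set.disjoint_left.mp (h.disj b'.1 hb'.1 b.1 hb.1 (Ne.symm hj))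
          (mem_image_of_mem _ hwc) ?_
        rw [heq]
        exact Finset.mem_coe.mpr (Finset.mem_image_of_mem _ a1)
    exact ⟨key _ a2, key _ a3⟩
  · intro b _
    exact wF_sum H _ _ _

end Crest.Agent.R144.Lc279
end
end

-- ▼ part R144/Lc9_279
section

/-!
R144 (S0197), helper279.  Block LC, file 9: box averages; number of boxes with a wrong average.
-/

set_option autoImplicit false
set_option linter.unusedSectionVars false
set_option linter.unusedVariables false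

open MeasureTheory Set
open scoped ENNReal

noncomputable section

namespace Crest.Agent.R144.Lc279

open Crest.Agent.R144.Ham560
open Crest.Agent.R144.Lw425 (hd hd_comm hd_le_iff mem_hball hball mem_inn inn mem_sph sph hd_self
  hd_triangle hd_pos hd_adj LObs)

variable {U : Type*} [DecidableEq U] {F : Finset U} {E : Finset (U × U)}

/-- Centres used in the box average. -/
def pos (L r : ℕ) : Finset P2 := Finset.Ico (r : ℤ) (L - r) ×ˢ Finset.Ico (r : ℤ) (L - r)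

/-- Box average. -/
def BA (L r : ℕ) (f : (P2 → ℝ) → ℝ) (h : P2 → ℝ) : ℝ :=
  (∑ x ∈ pos L r, f fun v => h (x + v)) / (L : ℝ) ^ 2

/-- Reference value of the box average: zero data. -/
def mB (L r : ℕ) (f : (P2 → ℝ) → ℝ) : ℝ := Ev (bx L) (lat (bx L)) 0 (BA L r f)

theorem mem_pos {L r : ℕ} {x : P2} : x ∈ pos L r ↔
    ((r : ℤ) ≤ x.1 ∧ x.1 < L - r) ∧ ((r : ℤ) ≤ x.2 ∧ x.2 < L - r) := by
  rw [pos, Finset.mem_product, Finset.mem_Ico, Finset.mem_Ico]

theorem pos_subset (L r : ℕ) : pos L r ⊆ bx L := by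
  intro x hx
  rw [mem_pos] at hx
  rw [mem_bx]; omega

theorem card_pos_le (L r : ℕ) : (pos L r).card ≤ L ^ 2 := by
  rw [← card_bx]; exact Finset.card_le_card (pos_subset L r)

theorem pos_ball {L r : ℕ} {x v : P2} (hx : x ∈ pos L r) (hv : v ∈ hball r) : x + v ∈ bx L := by
  rw [mem_pos] at hx
  have := ball_bound hv
  rw [mem_bx, Prod.fst_add, Prod.snd_add]; omega

theorem dep_BA {L r : ℕ} {f : (P2 → ℝ) → ℝ} (hf : DependsOn f (hball r)) :
    DependsOn (BA L r f) (bx L) := by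
  intro z z' hz
  unfold BA
  congr 1
  refine Finset.sum_congr rfl fun x hx => hf fun v hv => ?_
  exact hz _ (Finset.mem_coe.mpr (pos_ball hx (Finset.mem_coe.mp hv)))

theorem measurable_shift (x : P2) : Measurable fun h : P2 → ℝ => fun v => h (x + v) :=
  measurable_pi_lambda _ fun v => measurable_pi_apply _

theorem abs_BA_le {L r : ℕ} {f : (P2 → ℝ) → ℝ} (hf : ∀ z, |f z| ≤ 1) (h : P2 → ℝ) :
    |BA L r f h| ≤ 1 := by
  unfold BA
  rw [abs_div, abs_of_nonneg (by positivity : (0:ℝ) ≤ (L:ℝ) ^ 2)]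
  refine div_le_one_of_le₀ ?_ (by positivity)
  refine (Finset.abs_sum_le_sum_abs _ _).trans ?_
  refine (Finset.sum_le_card_nsmul _ _ 1 fun x _ => hf _).trans ?_
  rw [nsmul_eq_mul, mul_one]
  exact_mod_cast card_pos_le L r

theorem measurable_BA {L r : ℕ} {f : (P2 → ℝ) → ℝ} (hf : Measurable f) : Measurable (BA L r f) := by
  unfold BA
  exact (Finset.measurable_sum _ fun x _ => hf.comp (measurable_shift x)).div_const _

theorem bd_BA {L r : ℕ} {f : (P2 → ℝ) → ℝ} (hf : Measurable f) (hb : ∀ z, |f z| ≤ 1) :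
    Bd (BA L r f) := ⟨measurable_BA hf, 1, abs_BA_le hb⟩

/-! ### The centres -/

theorem ctr_inj {R K : ℕ} : Set.InjOn (fun p : (ℕ × ℕ) × (ℕ × ℕ) => ctr R p.1 p.2)
    (sq (2 * R + 2) ×ˢ sq K : Finset _) := by
  intro p hp p' hp' h
  rw [Finset.mem_coe, Finset.mem_product, mem_sq, mem_sq] at hp hp'
  have h1 := congrArg Prod.fst h
  have h2 := congrArg Prod.snd h
  simp only [ctr, Nat.cast_inj] at h1 h2
  have key : ∀ a b a' b' : ℕ, a < 2 * R + 2 → a' < 2 * R + 2 →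
      R + a + (2 * R + 2) * b = R + a' + (2 * R + 2) * b' → a = a' ∧ b = b' := by
    intro a b a' b' ha ha' hh
    have h3 : a + (2 * R + 2) * b = a' + (2 * R + 2) * b' := by omega
    have h4 : (a + (2 * R + 2) * b) % (2 * R + 2) = (a' + (2 * R + 2) * b') % (2 * R + 2) := by
      rw [h3]
    rw [Nat.add_mul_mod_self_left, Nat.add_mul_mod_self_left, Nat.mod_eq_of_lt ha,
      Nat.mod_eq_of_lt ha'] at h4
    subst h4
    refine ⟨rfl, ?_⟩
    have h5 : (2 * R + 2) * b = (2 * R + 2) * b' := by omega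
    exact Nat.eq_of_mul_eq_mul_left (by omega) h5
  obtain ⟨a1, a2⟩ := key _ _ _ _ hp.1.1 hp'.1.1 h1
  obtain ⟨b1, b2⟩ := key _ _ _ _ hp.1.2 hp'.1.2 h2
  ext
  · exact a1
  · exact b1
  · exact a2
  · exact b2

/-- Sum over the windows of all classes. -/
def WS (R K : ℕ) (f : (P2 → ℝ) → ℝ) (h : P2 → ℝ) : ℝ :=
  ∑ c ∈ sq (2 * R + 2), ∑ k ∈ sq K, f fun v => h (ctr R c k + v)

theorem BA_WS {L R K r : ℕ} (hr : r ≤ R) (hK : 2 * R + (2 * R + 2) * K ≤ L)
    {f : (P2 → ℝ) → ℝ} (hf : ∀ z, |f z| ≤ 1) (h : P2 → ℝ) :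
    |BA L r f h * (L : ℝ) ^ 2 - WS R K f h| ≤ (L : ℝ) ^ 2 - ((2 * R + 2) ^ 2 * K ^ 2 : ℕ) := by
  have hL : 0 < (L : ℝ) ^ 2 ∨ L = 0 := by
    rcases Nat.eq_zero_or_pos L with h0 | h0
    · exact Or.inr h0
    · left; positivity
  set Cn : Finset P2 := (sq (2 * R + 2) ×ˢ sq K).image fun p => ctr R p.1 p.2 with hCn
  have hsub : Cn ⊆ pos L r := by
    intro x hx
    obtain ⟨p, hp, rfl⟩ := Finset.mem_image.mp hx
    rw [Finset.mem_product] at hp
    have := ctr_bound hK hp.1 hp.2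
    rw [mem_pos]
    have hr' : (r : ℤ) ≤ R := by exact_mod_cast hr
    omega
  have hcard : Cn.card = (2 * R + 2) ^ 2 * K ^ 2 := by
    rw [hCn, Finset.card_image_of_injOn ctr_inj, Finset.card_product, card_sq, card_sq]
  have hWS : WS R K f h = ∑ x ∈ Cn, f fun v => h (x + v) := by
    rw [hCn, Finset.sum_image ctr_inj, Finset.sum_product]
    rfl
  have hBA : BA L r f h * (L : ℝ) ^ 2 = ∑ x ∈ pos L r, f fun v => h (x + v) := by
    rcases hL with hL | hL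
    · unfold BA; rw [div_mul_cancel₀ _ hL.ne']
    · subst hL
      have : pos 0 r = ∅ := by
        rw [Finset.eq_empty_iff_forall_notMem]
        intro x hx
        rw [mem_pos] at hx
        push_cast at hx
        omega
      rw [this]
      simp
  rw [hBA, hWS, ← Finset.sum_sdiff hsub, add_sub_cancel_right]
  refine (Finset.abs_sum_le_sum_abs _ _).trans ?_
  refine (Finset.sum_le_card_nsmul _ _ 1 fun x _ => hf _).trans ?_
  rw [nsmul_eq_mul, mul_one]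
  have h1 : (pos L r \ Cn).card + Cn.card = (pos L r).card := Finset.card_sdiff_add_card_eq_card hsub
  have h2 := card_pos_le L r
  rw [hcard] at h1
  have h3 : (pos L r \ Cn).card + (2 * R + 2) ^ 2 * K ^ 2 ≤ L ^ 2 := by omega
  have h4 : (((pos L r \ Cn).card + (2 * R + 2) ^ 2 * K ^ 2 : ℕ) : ℝ) ≤ ((L ^ 2 : ℕ) : ℝ) := by
    exact_mod_cast h3
  rw [Nat.cast_add, Nat.cast_pow L] at h4
  linarith

/-! ### One box -/

/-- The sum over the windows of class `c` in a box. -/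
abbrev CX (R K : ℕ) (e : P2 → U) (f : (P2 → ℝ) → ℝ) (g : ℝ) (c : ℕ × ℕ) (z : U → ℝ) : ℝ :=
  SX (sq K) (fun _ => g) (wf R e f c) z

/-- The number of bad windows of class `c` in a box. -/
abbrev CN (R K : ℕ) (e : P2 → U) (B : Set (P2 → ℝ)) (c : ℕ × ℕ) (z : U → ℝ) : ℝ :=
  SN (sq K) (wB R e B c) z

theorem CX_neg {R K : ℕ} {e : P2 → U} {f : (P2 → ℝ) → ℝ} {c : ℕ × ℕ} (z : U → ℝ) :
    CX R K e f (-1) c z = -CX R K e f 1 c z := by
  unfold CX SX
  rw [← Finset.sum_neg_distrib]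
  exact Finset.sum_congr rfl fun i _ => by ring

theorem sum_CX {R K : ℕ} {e : P2 → U} {f : (P2 → ℝ) → ℝ} (z : U → ℝ) :
    ∑ c ∈ sq (2 * R + 2), CX R K e f 1 c z = WS R K f (z ∘ e) := by
  unfold CX SX WS
  refine Finset.sum_congr rfl fun c _ => Finset.sum_congr rfl fun k _ => ?_
  rw [one_mul]; rfl

theorem abs_CX_le {R K : ℕ} {e : P2 → U} {f : (P2 → ℝ) → ℝ} (hf : ∀ z, |f z| ≤ 1) {c : ℕ × ℕ}
    (z : U → ℝ) : |CX R K e f 1 c z| ≤ (K ^ 2 : ℕ) := by
  unfold CX SX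
  refine (Finset.abs_sum_le_sum_abs _ _).trans ?_
  refine (Finset.sum_le_card_nsmul _ _ 1 fun k _ => ?_).trans ?_
  · rw [one_mul]; exact hf _
  · rw [nsmul_eq_mul, mul_one, card_sq]

theorem bd_CX {R K : ℕ} {e : P2 → U} {f : (P2 → ℝ) → ℝ} (hm : Measurable f)
    (hf : ∀ z, |f z| ≤ 1) (g : ℝ) {c : ℕ × ℕ} : Bd (CX R K e f g c) :=
  Bd.sum fun k _ => Bd.const_mul (f := wf R e f c k)
    ⟨hm.comp (measurable_comp _), 1, fun z => hf _⟩ g

variable {e : P2 → U} {L R K r : ℕ}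

/-- A box with a wrong average has many bad windows or one class of windows with a deviation. -/
theorem Ch.split (h : BCh E L e) (hL : 0 < L) (hr : r ≤ R) (hK : 2 * R + (2 * R + 2) * K ≤ L)
    {f : (P2 → ℝ) → ℝ} (hm : Measurable f) (hf : ∀ z, |f z| ≤ 1) (hd : DependsOn f (hball r))
    {B : Set (P2 → ℝ)} {a v v' : ℝ} (ha : 0 < a) (hv0 : 0 < v') (hv : 8 * v ≤ v' * a)
    (hη : 8 * ((L : ℝ) ^ 2 - ((2 * R + 2) ^ 2 * K ^ 2 : ℕ)) ≤ a * (L : ℝ) ^ 2)
    {z : U → ℝ} (hz : a < |BA L r f (z ∘ e) - mB L r f|)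
    (hN : ∑ c ∈ sq (2 * R + 2), CN R K e B c z ≤ v * (K ^ 2 : ℕ) * ((2 * R + 2) ^ 2 : ℕ)) :
    ∃ c ∈ sq (2 * R + 2), CN R K e B c z ≤ v' * (K ^ 2 : ℕ) ∧
      a / 2 * (K ^ 2 : ℕ) ≤ |CX R K e f 1 c z -
        Ev ((bx L).image e) (tch E ((bx L).image e)) 0 (CX R K e f 1 c)| := by
  classical
  set Λ := (bx L).image e with hΛ
  have hA := h.anch (anch_bx L)
  have h0 := vr_zero_pos hA
  set M : ℕ := 2 * R + 2 with hM
  set n : ℝ := ((K ^ 2 : ℕ) : ℝ) with hn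
  have hn0 : 0 ≤ n := Nat.cast_nonneg _
  set X : ℕ × ℕ → ℝ := fun c => CX R K e f 1 c z - Ev Λ (tch E Λ) 0 (CX R K e f 1 c) with hX
  -- the reference value
  have eB : mB L r f = Ev Λ (tch E Λ) 0 (fun z => BA L r f (z ∘ e)) := by
    have := h.place.Ev_eq (G := BA L r f) (dep_mono (dep_BA hd) (bx_sub_cl L)) 0
    unfold mB
    rw [this]
    rfl
  have bBA : Bd fun z : U → ℝ => BA L r f (z ∘ e) :=
    ⟨(measurable_BA hm).comp (measurable_comp e), 1, fun z => abs_BA_le hf _⟩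
  have bWS : Bd fun z : U → ℝ => WS R K f (z ∘ e) := by
    have : (fun z : U → ℝ => WS R K f (z ∘ e)) = fun z => ∑ c ∈ sq (2 * R + 2), CX R K e f 1 c z := by
      funext z; exact (sum_CX z).symm
    rw [this]
    exact Bd.sum fun c _ => bd_CX hm hf 1
  have h1 : |mB L r f * (L : ℝ) ^ 2 - ∑ c ∈ sq (2 * R + 2), Ev Λ (tch E Λ) 0 (CX R K e f 1 c)| ≤
      (L : ℝ) ^ 2 - ((2 * R + 2) ^ 2 * K ^ 2 : ℕ) := by
    rw [eB, ← Ev_mul_const, ← Ev_sum (fun c _ => bd_CX hm hf 1) hA h0]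
    have e2 : (fun z : U → ℝ => ∑ c ∈ sq (2 * R + 2), CX R K e f 1 c z) =
        fun z => WS R K f (z ∘ e) := by funext z; exact sum_CX z
    rw [e2, ← Ev_sub (by
      have := bBA.const_mul ((L : ℝ) ^ 2)
      simpa [mul_comm] using this) bWS hA h0]
    refine abs_Ev_le ?_ hA h0 fun z => BA_WS hr hK hf _
    exact (by
      have := bBA.const_mul ((L : ℝ) ^ 2)
      simpa [mul_comm] using this : Bd fun z : U → ℝ => BA L r f (z ∘ e) * (L : ℝ) ^ 2).sub bWS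
  have h2 := BA_WS hr hK hf (z ∘ e)
  rw [← sum_CX (e := e) z] at h2
  -- sum of the deviations
  have hLpos : 0 < (L : ℝ) ^ 2 := by
    positivity
  have h3 : 3 / 4 * a * (L : ℝ) ^ 2 < |∑ c ∈ sq (2 * R + 2), X c| := by
    have e3 : ∑ c ∈ sq (2 * R + 2), X c =
        ∑ c ∈ sq (2 * R + 2), CX R K e f 1 c z -
          ∑ c ∈ sq (2 * R + 2), Ev Λ (tch E Λ) 0 (CX R K e f 1 c) := by
      rw [← Finset.sum_sub_distrib]
    rw [e3]
    set P := ∑ c ∈ sq (2 * R + 2), CX R K e f 1 c z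
    set P' := ∑ c ∈ sq (2 * R + 2), Ev Λ (tch E Λ) 0 (CX R K e f 1 c)
    have h4 : a * (L : ℝ) ^ 2 < |(BA L r f (z ∘ e) - mB L r f) * (L : ℝ) ^ 2| := by
      rw [abs_mul, abs_of_pos hLpos]
      exact mul_lt_mul_of_pos_right hz hLpos
    have h5 : (BA L r f (z ∘ e) - mB L r f) * (L : ℝ) ^ 2 =
        (P - P') + ((BA L r f (z ∘ e) * (L : ℝ) ^ 2 - P) - (mB L r f * (L : ℝ) ^ 2 - P')) := by
      ring
    rw [h5] at h4
    have h6 := abs_add_le (P - P')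
      ((BA L r f (z ∘ e) * (L : ℝ) ^ 2 - P) - (mB L r f * (L : ℝ) ^ 2 - P'))
    have h7 := abs_sub (BA L r f (z ∘ e) * (L : ℝ) ^ 2 - P) (mB L r f * (L : ℝ) ^ 2 - P')
    linarith
  by_contra hcon
  push Not at hcon
  -- bad classes
  set G := (sq (2 * R + 2)).filter fun c => CN R K e B c z ≤ v' * n with hG
  set G' := (sq (2 * R + 2)).filter fun c => ¬ CN R K e B c z ≤ v' * n with hG'
  have hsplit : ∑ c ∈ sq (2 * R + 2), X c = ∑ c ∈ G, X c + ∑ c ∈ G', X c :=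
    (Finset.sum_filter_add_sum_filter_not _ _ _).symm
  have hXb : ∀ c, |X c| ≤ 2 * n := by
    intro c
    have a1 := abs_CX_le (R := R) (K := K) (e := e) hf (c := c) z
    have a2 := abs_Ev_le (ξ := 0) (bd_CX (R := R) (K := K) (e := e) hm hf 1 (c := c)) hA h0
      (fun z => abs_CX_le hf z)
    have a3 := abs_sub (CX R K e f 1 c z) (Ev Λ (tch E Λ) 0 (CX R K e f 1 c))
    show |CX R K e f 1 c z - Ev Λ (tch E Λ) 0 (CX R K e f 1 c)| ≤ 2 * n
    linarith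
  have h8 : |∑ c ∈ G, X c| ≤ (M ^ 2 : ℕ) * (a / 2 * n) := by
    refine (Finset.abs_sum_le_sum_abs _ _).trans ?_
    refine (Finset.sum_le_card_nsmul _ _ (a / 2 * n) fun c hc => ?_).trans ?_
    · rw [hG, Finset.mem_filter] at hc
      exact (hcon c hc.1 hc.2).le
    · rw [nsmul_eq_mul]
      refine mul_le_mul_of_nonneg_right ?_ (by positivity)
      have : G.card ≤ M ^ 2 := by rw [← card_sq]; exact Finset.card_filter_le _ _
      exact_mod_cast this
  have h9 : (G'.card : ℝ) * (v' * n) ≤ v * n * (M ^ 2 : ℕ) := by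
    calc (G'.card : ℝ) * (v' * n) = ∑ c ∈ G', v' * n := by rw [Finset.sum_const, nsmul_eq_mul]
      _ ≤ ∑ c ∈ G', CN R K e B c z := by
          refine Finset.sum_le_sum fun c hc => ?_
          rw [hG', Finset.mem_filter] at hc
          exact (not_le.mp hc.2).le
      _ ≤ ∑ c ∈ sq (2 * R + 2), CN R K e B c z :=
          Finset.sum_le_sum_of_subset_of_nonneg (Finset.filter_subset _ _)
            fun c _ _ => SN_nonneg _ _ _
      _ ≤ _ := hN
  have h10 : |∑ c ∈ G', X c| ≤ (M ^ 2 : ℕ) * (a / 4 * n) := by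
    refine (Finset.abs_sum_le_sum_abs _ _).trans ?_
    refine (Finset.sum_le_card_nsmul _ _ (2 * n) fun c _ => hXb c).trans ?_
    rw [nsmul_eq_mul]
    have h11 : v' * ((G'.card : ℝ) * (2 * n)) ≤ v' * (((M ^ 2 : ℕ) : ℝ) * (a / 4 * n)) := by
      have hM0 : (0 : ℝ) ≤ (M ^ 2 : ℕ) := Nat.cast_nonneg _
      have h12 : 8 * v * (n * (M ^ 2 : ℕ)) ≤ v' * a * (n * (M ^ 2 : ℕ)) :=
        mul_le_mul_of_nonneg_right hv (by positivity)
      nlinarith
    exact le_of_mul_le_mul_left h11 hv0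
  have h11 : |∑ c ∈ sq (2 * R + 2), X c| ≤ 3 / 4 * a * ((M ^ 2 : ℕ) * n) := by
    rw [hsplit]
    refine (abs_add_le _ _).trans ?_
    linarith
  have h12 : ((M ^ 2 : ℕ) : ℝ) * n ≤ (L : ℝ) ^ 2 := by
    have h13 : M ^ 2 * K ^ 2 ≤ L ^ 2 := by
      rw [← mul_pow]
      exact Nat.pow_le_pow_left (by omega) 2
    have h14 : ((M ^ 2 * K ^ 2 : ℕ) : ℝ) ≤ ((L ^ 2 : ℕ) : ℝ) := by exact_mod_cast h13
    rw [Nat.cast_mul, Nat.cast_pow L] at h14
    exact h14
  have h13 : 3 / 4 * a * ((M ^ 2 : ℕ) * n) ≤ 3 / 4 * a * (L : ℝ) ^ 2 :=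
    mul_le_mul_of_nonneg_left h12 (by positivity)
  linarith

end Crest.Agent.R144.Lc279
end
end

-- ▼ part R144/Lc10_279
section

/-!
R144 (S0197), helper279.  Block LC, file 10: `Cov.main`, the mesoscopic large deviation bound for the
box averages in terms of the window parameters.
-/

set_option autoImplicit false
set_option linter.unusedSectionVars false
set_option linter.unusedVariables false

open MeasureTheory Set
open scoped ENNReal

noncomputable section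

namespace Crest.Agent.R144.Lc279

open Crest.Agent.R144.Ham560
open Crest.Agent.R144.Lw425 (hd hd_comm hd_le_iff mem_hball hball mem_inn inn mem_sph sph hd_self
  hd_triangle hd_pos hd_adj LObs)

variable {U : Type*} [DecidableEq U] {F : Finset U} {E : Finset (U × U)}
variable {κ : Type*} [DecidableEq κ] {σ : Finset κ} {e : κ → P2 → U} {L R K r : ℕ}

/-- The configurations for which the average over the box `j` is wrong. -/
def DS (L r : ℕ) (f : (P2 → ℝ) → ℝ) (a : ℝ) (e : κ → P2 → U) (j : κ) : Set (U → ℝ) :=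
  {z | a < |BA L r f (z ∘ e j) - mB L r f|}

/-- Deviation in class `c` and few bad windows. -/
def CS (E : Finset (U × U)) (L R K : ℕ) (f : (P2 → ℝ) → ℝ) (B : Set (P2 → ℝ)) (u v : ℝ)
    (e : κ → P2 → U) (g : ℝ) (c : ℕ × ℕ) (j : κ) : Set (U → ℝ) :=
  {z | u * (K ^ 2 : ℕ) ≤ CX R K (e j) f g c z -
      Ev ((bx L).image (e j)) (tch E ((bx L).image (e j))) 0 (CX R K (e j) f g c) ∧
    CN R K (e j) B c z ≤ v * (K ^ 2 : ℕ)}

/-- Many bad windows in the box `j`. -/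
def NS (R K : ℕ) (B : Set (P2 → ℝ)) (v : ℝ) (e : κ → P2 → U) (j : κ) : Set (U → ℝ) :=
  {z | v * (K ^ 2 : ℕ) * ((2 * R + 2) ^ 2 : ℕ) < ∑ c ∈ sq (2 * R + 2), CN R K (e j) B c z}

theorem Cov.DS_sub (h : Cov F E L σ e) (hL : 0 < L) (hr : r ≤ R)
    (hK : 2 * R + (2 * R + 2) * K ≤ L)
    {f : (P2 → ℝ) → ℝ} (hm : Measurable f) (hf : ∀ z, |f z| ≤ 1) (hd : DependsOn f (hball r))
    {B : Set (P2 → ℝ)} {a v v' : ℝ} (ha : 0 < a) (hv0 : 0 < v') (hv : 8 * v ≤ v' * a)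
    (hη : 8 * ((L : ℝ) ^ 2 - ((2 * R + 2) ^ 2 * K ^ 2 : ℕ)) ≤ a * (L : ℝ) ^ 2) :
    ∀ j ∈ σ, DS L r f a e j ⊆ NS R K B v e j ∪
      ⋃ p ∈ sq (2 * R + 2) ×ˢ ({1, -1} : Finset ℝ), CS E L R K f B (a / 2) v' e p.2 p.1 j := by
  intro j hj z hz
  by_cases hN : z ∈ NS R K B v e j
  · exact Or.inl hN
  · right
    have hN' : ∑ c ∈ sq (2 * R + 2), CN R K (e j) B c z ≤
        v * (K ^ 2 : ℕ) * ((2 * R + 2) ^ 2 : ℕ) := not_lt.mp hN
    obtain ⟨c, hc, h1, h2⟩ := (h.ch j hj).split hL hr hK hm hf hd ha hv0 hv hη hz hN'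
    simp only [mem_iUnion]
    rcases le_abs.mp h2 with h3 | h3
    · exact ⟨(c, 1), Finset.mem_product.mpr ⟨hc, by simp⟩, h3, h1⟩
    · refine ⟨(c, -1), Finset.mem_product.mpr ⟨hc, by simp⟩, ?_, h1⟩
      rw [CX_neg]
      have e1 : Ev ((bx L).image (e j)) (tch E ((bx L).image (e j))) 0 (CX R K (e j) f (-1) c) =
          -Ev ((bx L).image (e j)) (tch E ((bx L).image (e j))) 0 (CX R K (e j) f 1 c) := by
        rw [← Ev_neg]
        congr 1
        funext z; exact CX_neg z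
      rw [e1]
      linarith

theorem Cov.main (h : Cov F E L σ e) (hL : 0 < L) (hr : r ≤ R)
    (hK : 2 * R + (2 * R + 2) * K ≤ L) (hK0 : 0 < K)
    {f : (P2 → ℝ) → ℝ} (hm : Measurable f) (hf : ∀ z, |f z| ≤ 1) (hd : DependsOn f (hball r))
    {B : Set (P2 → ℝ)} {ε C : ℝ} (H : LWin R f B ε C) (hε : 0 ≤ ε)
    {FF : Finset (List ((P2 × P2) × ℝ))} {q0 : ℝ} (hq0 : 0 ≤ q0) (hq1 : q0 ≤ 1)
    (HB : LBad R B FF (ENNReal.ofReal q0))
    {a v v' t : ℝ} (ha : 0 < a) (hv0 : 0 < v') (hvp : 0 < v) (hv : 8 * v ≤ v' * a)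
    (hη : 8 * ((L : ℝ) ^ 2 - ((2 * R + 2) ^ 2 * K ^ 2 : ℕ)) ≤ a * (L : ℝ) ^ 2)
    (ht0 : 0 ≤ t) (ht1 : t ≤ 1) (htC : t * C ≤ 2)
    (hρ : 0 ≤ a / 2 - 2 * v' - ε - 2 * t - 2 * q0) (ξ : U → ℝ) {k k1 k2 m : ℕ} (hk1 : 0 < k1)
    (hk : k1 + 2 * (2 * R + 2) ^ 2 * k2 ≤ k) (hmk : (m : ℝ) ≤ v * (K ^ 2 : ℕ) * k1) :
    volume (ham F E ξ ∩ {x | k ≤ cnt σ (DS L r f a e) (ext F ξ x)}) ≤
      ((2 * R + 2) ^ 2 : ℕ) * (2 ^ (K ^ 2 * σ.card) * ENNReal.ofReal q0 ^ m +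
        2 * (2 ^ σ.card * ENNReal.ofReal (Real.exp (-(t * (K ^ 2 : ℕ) *
          (a / 2 - 2 * v' - ε - 2 * t - 2 * q0) * k2))) *
          2 ^ (F \ σ.biUnion fun j => (bx L).image (e j)).card)) * volume (ham F E 0) := by
  classical
  set ρ := a / 2 - 2 * v' - ε - 2 * t - 2 * q0 with hρ'
  set M := 2 * R + 2 with hM
  set P := sq M ×ˢ ({1, -1} : Finset ℝ) with hP
  have hPc : P.card = 2 * M ^ 2 := by
    rw [hP, Finset.card_product, card_sq]
    have : ({1, -1} : Finset ℝ).card = 2 := by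
      rw [Finset.card_pair]; norm_num
    rw [this]; ring
  -- the event inclusion
  have hsub : ham F E ξ ∩ {x | k ≤ cnt σ (DS L r f a e) (ext F ξ x)} ⊆
      (⋃ c ∈ sq M, (ham F E ξ ∩ {x | (m : ℝ) ≤ TN σ (fun _ => sq K) (fun j => wB R (e j) B c)
        (ext F ξ x)})) ∪
      ⋃ p ∈ P, (ham F E ξ ∩ {x | k2 ≤ cnt σ (CS E L R K f B (a / 2) v' e p.2 p.1)
        (ext F ξ x)}) := by
    rintro x ⟨hx, hx'⟩
    set z := ext F ξ x with hz
    have hx'' : k ≤ cnt σ (DS L r f a e) z := hx'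
    have h1 : cnt σ (DS L r f a e) z ≤ cnt σ (NS R K B v e) z +
        ∑ p ∈ P, cnt σ (CS E L R K f B (a / 2) v' e p.2 p.1) z := by
      refine (cnt_mono (h.DS_sub hL hr hK hm hf hd (B := B) ha hv0 hv hη) z).trans ?_
      exact (cnt_union_le z).trans (Nat.add_le_add_left (cnt_iUnion_le _ z) _)
    by_cases h2 : k1 ≤ cnt σ (NS R K B v e) z
    · left
      simp only [mem_iUnion]
      -- some class has many bad windows
      have h3 : ((k1 : ℝ) * (v * (K ^ 2 : ℕ))) * (M ^ 2 : ℕ) ≤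
          ∑ c ∈ sq M, TN σ (fun _ => sq K) (fun j => wB R (e j) B c) z := by
        have e1 : ∑ c ∈ sq M, TN σ (fun _ => sq K) (fun j => wB R (e j) B c) z =
            ∑ j ∈ σ, ∑ c ∈ sq M, CN R K (e j) B c z := by
          unfold TN
          rw [Finset.sum_comm]
        rw [e1]
        rw [cnt_eq] at h2
        calc ((k1 : ℝ) * (v * (K ^ 2 : ℕ))) * (M ^ 2 : ℕ)
            ≤ ((σ.filter fun j => z ∈ NS R K B v e j).card : ℝ) *
              (v * (K ^ 2 : ℕ) * (M ^ 2 : ℕ)) := by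
              have : (k1 : ℝ) ≤ ((σ.filter fun j => z ∈ NS R K B v e j).card : ℝ) := by
                exact_mod_cast h2
              have h4 : (0 : ℝ) ≤ v * (K ^ 2 : ℕ) * (M ^ 2 : ℕ) := by positivity
              nlinarith [mul_le_mul_of_nonneg_right this h4]
          _ = ∑ j ∈ σ.filter fun j => z ∈ NS R K B v e j, v * (K ^ 2 : ℕ) * (M ^ 2 : ℕ) := by
              rw [Finset.sum_const, nsmul_eq_mul]
          _ ≤ ∑ j ∈ σ.filter fun j => z ∈ NS R K B v e j, ∑ c ∈ sq M, CN R K (e j) B c z := by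
              refine Finset.sum_le_sum fun j hj => ?_
              have h5 : z ∈ NS R K B v e j := (Finset.mem_filter.mp hj).2
              exact le_of_lt h5
          _ ≤ _ := Finset.sum_le_sum_of_subset_of_nonneg (Finset.filter_subset _ _)
              fun j _ _ => Finset.sum_nonneg fun c _ => SN_nonneg _ _ _
      by_contra hcon
      push Not at hcon
      have h4 : ∀ c ∈ sq M, TN σ (fun _ => sq K) (fun j => wB R (e j) B c) z <
          (k1 : ℝ) * (v * (K ^ 2 : ℕ)) := by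
        intro c hc
        have h5 : ¬ (m : ℝ) ≤ TN σ (fun _ => sq K) (fun j => wB R (e j) B c) z := fun h6 =>
          hcon c hc ⟨hx, h6⟩
        have h7 := lt_of_lt_of_le (not_le.mp h5) hmk
        linarith
      have hne : (sq M).Nonempty := by
        refine ⟨(0, 0), mem_sq.mpr ⟨?_, ?_⟩⟩ <;> omega
      have h5 := Finset.sum_lt_sum_of_nonempty hne h4
      rw [Finset.sum_const, nsmul_eq_mul, card_sq] at h5
      linarith
    · right
      simp only [mem_iUnion]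
      by_contra hcon
      push Not at hcon
      have h3 : ∀ p ∈ P, cnt σ (CS E L R K f B (a / 2) v' e p.2 p.1) z ≤ k2 := by
        intro p hp
        have h5 : ¬ k2 ≤ cnt σ (CS E L R K f B (a / 2) v' e p.2 p.1) z := fun h6 =>
          hcon p hp ⟨hx, h6⟩
        omega
      have h4 := Finset.sum_le_card_nsmul _ _ k2 h3
      rw [hPc, smul_eq_mul] at h4
      omega
  refine (measure_mono hsub).trans ((measure_union_le _ _).trans ?_)
  have hq1' : ENNReal.ofReal q0 ≤ 1 := by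
    rw [← ENNReal.ofReal_one]; exact ENNReal.ofReal_le_ofReal hq1
  have b1 : volume (⋃ c ∈ sq M, (ham F E ξ ∩ {x | (m : ℝ) ≤ TN σ (fun _ => sq K)
      (fun j => wB R (e j) B c) (ext F ξ x)})) ≤
      (M ^ 2 : ℕ) * (2 ^ (K ^ 2 * σ.card) * ENNReal.ofReal q0 ^ m * volume (ham F E 0)) := by
    refine (measure_biUnion_finset_le _ _).trans ?_
    refine (Finset.sum_le_card_nsmul _ _ _ fun c hc => h.bad hK hc hq1' HB m).trans ?_
    rw [card_sq, nsmul_eq_mul]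
  have b2 : volume (⋃ p ∈ P, (ham F E ξ ∩ {x | k2 ≤ cnt σ
      (CS E L R K f B (a / 2) v' e p.2 p.1) (ext F ξ x)})) ≤
      ((2 * M ^ 2 : ℕ) : ℝ≥0∞) * (2 ^ σ.card * ENNReal.ofReal (Real.exp
        (-(t * (K ^ 2 : ℕ) * ρ * k2))) *
        2 ^ (F \ σ.biUnion fun j => (bx L).image (e j)).card * volume (ham F E 0)) := by
    refine (measure_biUnion_finset_le _ _).trans ?_
    refine (Finset.sum_le_card_nsmul _ _
      (2 ^ σ.card * ENNReal.ofReal (Real.exp (-(t * (K ^ 2 : ℕ) * ρ * k2))) *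
        2 ^ (F \ σ.biUnion fun j => (bx L).image (e j)).card * volume (ham F E 0))
      fun p hp => ?_).trans ?_
    · rw [hP, Finset.mem_product] at hp
      have hlev := h.lev hK H hp.1
      have hg : |p.2| ≤ 1 := by
        have := hp.2
        rw [Finset.mem_insert, Finset.mem_singleton] at this
        rcases this with h1 | h1 <;> rw [h1] <;> norm_num
      refine hlev.meso (a := fun _ _ => p.2) (fun _ _ _ _ => hg) ht0 ht1 htC hε ξ
        (fun _ _ => card_sq K) (q0 := q0) ?_ (u := a / 2) (v := v') hρ k2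
      intro j hj
      exact (h.ch j hj).ref_bad (fun w hw => h.deg w (h.sub j hj hw)) hK hp.1 H.win.mB hq0 HB
    · rw [hPc, nsmul_eq_mul]
  refine (add_le_add b1 b2).trans (le_of_eq ?_)
  push_cast
  ring

end Crest.Agent.R144.Lc279
end
end

-- ▼ part R144/Lc11_279

/-!
R144 (S0197), helper279.  Block LC, file 11: `meso`, the mesoscopic large deviation theorem for every
bounded local observable (425's window input plugged in, parameters chosen).
-/

set_option autoImplicit false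
set_option linter.unusedSectionVars false
set_option linter.unusedVariables false

open MeasureTheory Set
open scoped ENNReal

noncomputable section

namespace Crest.Agent.R144.Lc279

open Crest.Agent.R144.Ham560
open Crest.Agent.R144.Lw425 (hd hd_comm hd_le_iff mem_hball hball mem_inn inn mem_sph sph hd_self
  hd_triangle hd_pos hd_adj LObs)

theorem lat_eq (W : Finset P2) : Lw425.lat W = lat W := by
  ext p
  rw [Lw425.mem_lat, mem_lat]

theorem LObs.dep {r : ℕ} {f : (P2 → ℝ) → ℝ} (hf : LObs r f) : DependsOn f (hball r) :=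
  fun z z' hz => hf.loc z z' fun a ha => hz a (Finset.mem_coe.mpr ha)

/-- 425's window input in the present notation. -/
theorem win_input {r : ℕ} {f : (P2 → ℝ) → ℝ} (hf : LObs r f) {ε : ℝ} (hε : 0 < ε) {q0 : ℝ}
    (hq : 0 < q0) : ∃ (R : ℕ) (C : ℝ) (B : Set (P2 → ℝ)) (FF : Finset (List ((P2 × P2) × ℝ))),
      r ≤ R ∧ 0 ≤ C ∧ LWin R f B ε C ∧ LBad R B FF (ENNReal.ofReal q0) := by
  obtain ⟨R, C, B, FF, h1, h2, h3, h4, h5, h6, _, h8⟩ :=
    Lw425.window_input' hf hε (ENNReal.ofReal_pos.mpr hq)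
  rw [lat_eq] at h3 h5
  refine ⟨R, C, B, FF, h1.le, h2, ⟨h3, ?_, h4⟩, ⟨h5, ?_, h8⟩⟩
  · exact dep_mono (LObs.dep hf) (Finset.coe_subset.mpr (hball_mono h1.le))
  · intro S hS
    have := h6 S hS
    rwa [lat_eq] at this

/-! ### Choice of the parameters -/

/-- Elementary bound for the first error term. -/
theorem term_one {q0 x y : ℝ} (hq : 0 < q0) (hqx : q0 ≤ Real.exp (-x)) {n m : ℕ} (hx : 0 ≤ x)
    (hm : 2 * n ≤ x * m) (hy : y ≤ n) :
    (2 : ℝ) ^ n * q0 ^ m ≤ Real.exp (-y) := by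
  have h1 : (2 : ℝ) ^ n ≤ Real.exp n := by
    rw [← Real.exp_one_rpow, ← Real.rpow_natCast]
    exact Real.rpow_le_rpow (by norm_num) (by linarith [Real.exp_one_gt_d9]) (Nat.cast_nonneg _)
  have h2 : q0 ^ m ≤ Real.exp (-(x * m)) := by
    have h3 := pow_le_pow_left₀ hq.le hqx m
    rw [← Real.exp_nat_mul] at h3
    refine h3.trans (le_of_eq ?_)
    congr 1; ring
  calc (2 : ℝ) ^ n * q0 ^ m ≤ Real.exp n * Real.exp (-(x * m)) :=
        mul_le_mul h1 h2 (by positivity) (by positivity)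
    _ = Real.exp (n - x * m) := by rw [← Real.exp_add]; congr 1
    _ ≤ _ := Real.exp_le_exp.mpr (by linarith)

theorem term_two {x y : ℝ} {N S : ℕ} (h : (N : ℝ) + S - x ≤ -y) :
    (2 : ℝ) ^ N * Real.exp (-x) * 2 ^ S ≤ Real.exp (-y) := by
  have h1 : ∀ n : ℕ, (2 : ℝ) ^ n ≤ Real.exp n := by
    intro n
    rw [← Real.exp_one_rpow, ← Real.rpow_natCast]
    exact Real.rpow_le_rpow (by norm_num) (by linarith [Real.exp_one_gt_d9]) (Nat.cast_nonneg _)
  calc (2 : ℝ) ^ N * Real.exp (-x) * 2 ^ S ≤ Real.exp N * Real.exp (-x) * Real.exp S :=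
        mul_le_mul (mul_le_mul_of_nonneg_right (h1 N) (by positivity)) (h1 S) (by positivity)
          (by positivity)
    _ = Real.exp (N + S - x) := by rw [← Real.exp_add, ← Real.exp_add]; congr 1; ring
    _ ≤ _ := Real.exp_le_exp.mpr h


/-- Number of windows per row. -/
theorem exists_K {L M R : ℕ} (hM : 0 < M) (hRM : 2 * R ≤ M) (hML : 8 * M ≤ L) :
    ∃ K : ℕ, 0 < K ∧ 2 * R + M * K ≤ L ∧ L ≤ 2 * R + M * K + M := by
  have h1 := Nat.mul_div_le (L - 2 * R) M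
  have h2 := Nat.lt_mul_div_succ (L - 2 * R) (b := M) hM
  rw [Nat.mul_add, Nat.mul_one] at h2
  refine ⟨(L - 2 * R) / M, ?_, by omega, by omega⟩
  exact Nat.div_pos (by omega) hM

/-- The windows cover the box up to a small fraction. -/
theorem K_bounds {L M R K : ℕ} {a : ℝ} (ha : 0 < a) (hRM : 2 * R ≤ M) (hML : 8 * M ≤ L)
    (h2 : L ≤ 2 * R + M * K + M) (b1 : 64 * (M : ℝ) / a ≤ L) :
    (L : ℝ) ^ 2 ≤ 4 * (M : ℝ) ^ 2 * (K : ℝ) ^ 2 ∧
      8 * ((L : ℝ) ^ 2 - (M : ℝ) ^ 2 * (K : ℝ) ^ 2) ≤ a * (L : ℝ) ^ 2 := by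
  have hK2' : (L : ℝ) ≤ 2 * R + M * K + M := by exact_mod_cast h2
  have hRM' : 2 * (R : ℝ) ≤ M := by exact_mod_cast hRM
  have b4 : 8 * (M : ℝ) ≤ L := by exact_mod_cast hML
  have hM0 : (0 : ℝ) ≤ M := Nat.cast_nonneg _
  have hL0 : (0 : ℝ) ≤ L := Nat.cast_nonneg _
  have hMK : (L : ℝ) ≤ 2 * (M * K) := by linarith
  constructor
  · calc (L : ℝ) ^ 2 ≤ (2 * (M * K)) ^ 2 := pow_le_pow_left₀ hL0 hMK 2
      _ = _ := by ring
  · have h1 : (L : ℝ) - 2 * M ≤ M * K := by linarith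
    have h2 : 0 ≤ (L : ℝ) - 2 * M := by linarith
    have h3 : ((L : ℝ) - 2 * M) ^ 2 ≤ (M * K) ^ 2 := pow_le_pow_left₀ h2 h1 2
    have h4 : 64 * (M : ℝ) ≤ a * L := by
      rw [div_le_iff₀ ha] at b1; linarith
    have h5 : 64 * (M : ℝ) * L ≤ a * L * L := mul_le_mul_of_nonneg_right h4 hL0
    have h6 : 0 ≤ (M : ℝ) * L := by positivity
    nlinarith

/-- Choice of the counts. -/
theorem counts {M : ℕ} {N : ℕ} {a : ℝ} (hM : (2 : ℝ) ≤ M) (ha : 0 < a)
    (hN : 16 * (M : ℝ) ^ 2 / a ≤ N) :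
    ∃ k1 k2 : ℕ, 0 < k1 ∧ a * N / 4 ≤ k1 ∧ a * N / (16 * (M : ℝ) ^ 2) ≤ k2 ∧
      k1 + 2 * M ^ 2 * k2 ≤ ⌈a * (N : ℝ)⌉₊ := by
  have hM0 : (0 : ℝ) < M := by linarith
  have haN : 16 * (M : ℝ) ^ 2 ≤ a * N := by
    rw [div_le_iff₀ ha] at hN; linarith
  have haN64 : 64 ≤ a * N := by nlinarith
  have ck1 : a * N / 4 ≤ (⌈a * (N : ℝ) / 4⌉₊ : ℝ) := Nat.le_ceil _
  have ck1' : (⌈a * (N : ℝ) / 4⌉₊ : ℝ) < a * N / 4 + 1 := Nat.ceil_lt_add_one (by positivity)
  have ck2 : (⌊a * (N : ℝ) / (8 * (M : ℝ) ^ 2)⌋₊ : ℝ) ≤ a * N / (8 * (M : ℝ) ^ 2) :=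
    Nat.floor_le (by positivity)
  have ck2' : a * N / (8 * (M : ℝ) ^ 2) - 1 < (⌊a * (N : ℝ) / (8 * (M : ℝ) ^ 2)⌋₊ : ℝ) :=
    Nat.sub_one_lt_floor _
  have ck : a * N ≤ (⌈a * (N : ℝ)⌉₊ : ℝ) := Nat.le_ceil _
  refine ⟨⌈a * (N : ℝ) / 4⌉₊, ⌊a * (N : ℝ) / (8 * (M : ℝ) ^ 2)⌋₊, ?_, ck1, ?_, ?_⟩
  · have : (0 : ℝ) < (⌈a * (N : ℝ) / 4⌉₊ : ℝ) := by linarith
    exact_mod_cast this
  · have h1 : a * N / (8 * (M : ℝ) ^ 2) = 2 * (a * N / (16 * (M : ℝ) ^ 2)) := by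
      field_simp; ring
    have h2 : 1 ≤ a * N / (16 * (M : ℝ) ^ 2) := by
      rw [le_div_iff₀ (by positivity)]; linarith
    linarith
  · have h1 : ((⌈a * (N : ℝ) / 4⌉₊ + 2 * M ^ 2 * ⌊a * (N : ℝ) / (8 * (M : ℝ) ^ 2)⌋₊ : ℕ) : ℝ) ≤
        (⌈a * (N : ℝ)⌉₊ : ℝ) := by
      push_cast
      have h2 : 2 * (M : ℝ) ^ 2 * (⌊a * (N : ℝ) / (8 * (M : ℝ) ^ 2)⌋₊ : ℝ) ≤ a * N / 4 := by
        calc 2 * (M : ℝ) ^ 2 * (⌊a * (N : ℝ) / (8 * (M : ℝ) ^ 2)⌋₊ : ℝ) ≤
              2 * (M : ℝ) ^ 2 * (a * N / (8 * (M : ℝ) ^ 2)) :=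
              mul_le_mul_of_nonneg_left ck2 (by positivity)
          _ = a * N / 4 := by field_simp; ring
      linarith
    exact_mod_cast h1

/-- First numerical input: enough windows. -/
theorem est_vn {v a M L n : ℝ} (hv : 0 < v) (ha : 0 < a) (hM : 0 < M)
    (b2 : 4 * M * (1 + 8 / (v * a)) ≤ L) (hn' : L ^ 2 ≤ 4 * M ^ 2 * n) :
    8 ≤ v * a * n := by
  have hva : 0 < v * a := mul_pos hv ha
  have h8 : 0 < 8 / (v * a) := by positivity
  have h0 : 4 * M * (1 + 8 / (v * a)) = 4 * M + 4 * M * (8 / (v * a)) := by ring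
  have h0' : 0 < 4 * M * (8 / (v * a)) := by positivity
  have h1 : 4 * M * (8 / (v * a)) ≤ L := by linarith
  have h1' : 4 * M ≤ L := by linarith
  have hL : 0 < L := by linarith
  have h2 : (4 * M) * (4 * M * (8 / (v * a))) ≤ L * L := mul_le_mul h1' h1 h0'.le hL.le
  have h3 : (4 * M) * (4 * M * (8 / (v * a))) = 4 * M ^ 2 * (4 * (8 / (v * a))) := by ring
  have h6 : 4 * M ^ 2 * (4 * (8 / (v * a))) ≤ 4 * M ^ 2 * n := by
    rw [← h3]
    refine h2.trans ?_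
    rw [← pow_two]; exact hn'
  have h7 := le_of_mul_le_mul_left h6 (by positivity)
  have h5 : 8 / (v * a) ≤ n := by linarith
  rw [div_le_iff₀ hva] at h5
  linarith

/-- Second numerical input: the number of bad windows dominates the entropy. -/
theorem est_m {v a x n N k1 m : ℝ} (hv : 0 < v) (ha : 0 < a) (hx : x = 16 / (v * a)) (hn : 0 < n)
    (hN : 1 ≤ N) (hvn : 8 ≤ v * a * n) (ck1 : a * N / 4 ≤ k1) (cm : v * n * k1 - 1 < m) :
    2 * (n * N) ≤ x * m := by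
  have h1 : v * n * (a * N / 4) - 1 ≤ m := by
    have : v * n * (a * N / 4) ≤ v * n * k1 := mul_le_mul_of_nonneg_left ck1 (by positivity)
    linarith
  have e1 : v * n * (a * N / 8) = v * a * n * N / 8 := by ring
  have h3 : 1 ≤ v * n * (a * N / 8) := by
    rw [e1]
    have : 8 * 1 ≤ v * a * n * N := mul_le_mul hvn hN (by norm_num) (by positivity)
    linarith
  have h2 : v * n * (a * N / 8) ≤ m := by
    have e2 : v * n * (a * N / 4) = 2 * (v * n * (a * N / 8)) := by ring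
    linarith
  have hx0 : 0 < x := by rw [hx]; positivity
  have h4 := mul_le_mul_of_nonneg_left h2 hx0.le
  have h5 : x * (v * n * (a * N / 8)) = 2 * (n * N) := by
    rw [hx]; field_simp; norm_num
  linarith

/-- Third numerical input. -/
theorem est_t {t a M L n N ρ k2 η : ℝ} (ht : 0 < t) (ha : 0 < a) (hM : 0 < M) (hn : 0 < n)
    (hN : 0 < N) (hη : η = t * a ^ 2 / (1024 * M ^ 4)) (hn' : L ^ 2 ≤ 4 * M ^ 2 * n)
    (hρ : a / 4 ≤ ρ) (hk2 : a * N / (16 * M ^ 2) ≤ k2) :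
    4 * (η * L ^ 2 * N) ≤ t * n * ρ * k2 := by
  have hη0 : 0 < η := by rw [hη]; positivity
  have h1 : t * n * (a / 4) * (a * N / (16 * M ^ 2)) ≤ t * n * ρ * k2 := by
    have h2 : t * n * (a / 4) ≤ t * n * ρ := mul_le_mul_of_nonneg_left hρ (by positivity)
    have h0 : 0 ≤ a * N / (16 * M ^ 2) := by positivity
    refine mul_le_mul h2 hk2 h0 ?_
    have : 0 < ρ := by linarith
    positivity
  have h2 : t * n * (a / 4) * (a * N / (16 * M ^ 2)) = 4 * (η * (4 * M ^ 2 * n) * N) := by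
    rw [hη]; field_simp; norm_num
  have h3 : η * L ^ 2 * N ≤ η * (4 * M ^ 2 * n) * N :=
    mul_le_mul_of_nonneg_right (mul_le_mul_of_nonneg_left hn' hη0.le) hN.le
  rw [h2] at h1
  linarith

/-- The numerical estimate. -/
theorem est {v a x q0 t ρ η : ℝ} {M L K N S k1 k2 m : ℕ} (hv : 0 < v) (ha : 0 < a)
    (hx : x = 16 / (v * a)) (hq : 0 < q0) (hqx : q0 ≤ Real.exp (-x)) (ht : 0 < t)
    (hρ : a / 4 ≤ ρ) (hM : (2 : ℝ) ≤ M) (hη : η = t * a ^ 2 / (1024 * (M : ℝ) ^ 4))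
    (hη1 : 2 * η * (4 * (M : ℝ) ^ 2) ≤ 1) (b2 : 4 * (M : ℝ) * (1 + 8 / (v * a)) ≤ L)
    (b3 : 3 * (M : ℝ) ^ 2 / η ≤ L) (hN : 0 < N) (hK : 0 < K)
    (hn : (L : ℝ) ^ 2 ≤ 4 * (M : ℝ) ^ 2 * (K : ℝ) ^ 2) (ck1 : a * N / 4 ≤ k1)
    (hk2 : a * N / (16 * (M : ℝ) ^ 2) ≤ k2) (cm : v * (K : ℝ) ^ 2 * k1 - 1 < m)
    (hS : (S : ℝ) ≤ η * (L : ℝ) ^ 2 * N) :
    ((M : ℝ) ^ 2) * ((2 : ℝ) ^ (K ^ 2 * N) * q0 ^ m +
      2 * ((2 : ℝ) ^ N * Real.exp (-(t * (K : ℝ) ^ 2 * ρ * k2)) * 2 ^ S)) ≤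
      Real.exp (-(η * (L : ℝ) ^ 2 * N)) := by
  have hM0 : (0 : ℝ) < M := by linarith
  have hη0 : 0 < η := by rw [hη]; positivity
  have hN1 : (1 : ℝ) ≤ N := by exact_mod_cast hN
  have hKr : (1 : ℝ) ≤ K := by exact_mod_cast hK
  have hK2 : (0 : ℝ) < (K : ℝ) ^ 2 := by positivity
  have hvn := est_vn hv ha hM0 b2 hn
  have hm := est_m hv ha hx hK2 hN1 hvn ck1 cm
  have hx2 := est_t ht ha hM0 hK2 (by linarith) hη hn hρ hk2
  have hx0 : 0 < x := by rw [hx]; positivity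
  have hL1 : (1 : ℝ) ≤ L := by
    have h0 : (0 : ℝ) < L := lt_of_lt_of_le (by positivity) b3
    have : 0 < L := by exact_mod_cast h0
    exact_mod_cast this
  have hb3 : 3 * (M : ℝ) ^ 2 ≤ L * η := by rwa [div_le_iff₀ hη0] at b3
  have hLL : (L : ℝ) * η ≤ η * (L : ℝ) ^ 2 := by
    have h1 : (L : ℝ) ≤ (L : ℝ) ^ 2 := by nlinarith
    have h2 := mul_le_mul_of_nonneg_left h1 hη0.le
    linarith
  have hM4 : (4 : ℝ) ≤ (M : ℝ) ^ 2 := by nlinarith
  have hηL1 : 1 ≤ η * (L : ℝ) ^ 2 := by linarith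
  have hηN : η * (L : ℝ) ^ 2 ≤ η * (L : ℝ) ^ 2 * N := le_mul_of_one_le_right (by positivity) hN1
  have hηL3 : 3 * (M : ℝ) ^ 2 ≤ η * (L : ℝ) ^ 2 * N := by linarith
  have hNη : (N : ℝ) ≤ η * (L : ℝ) ^ 2 * N := le_mul_of_one_le_left (by positivity) hηL1
  have hy1 : 2 * (η * (L : ℝ) ^ 2 * N) ≤ ((K ^ 2 * N : ℕ) : ℝ) := by
    push_cast
    have h1 : 2 * η * (L : ℝ) ^ 2 ≤ (K : ℝ) ^ 2 := by
      have h2 : 2 * η * (L : ℝ) ^ 2 ≤ 2 * η * (4 * (M : ℝ) ^ 2 * (K : ℝ) ^ 2) :=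
        mul_le_mul_of_nonneg_left hn (by positivity)
      have h3 : 2 * η * (4 * (M : ℝ) ^ 2 * (K : ℝ) ^ 2) =
          (2 * η * (4 * (M : ℝ) ^ 2)) * (K : ℝ) ^ 2 := by ring
      have h4 : (2 * η * (4 * (M : ℝ) ^ 2)) * (K : ℝ) ^ 2 ≤ 1 * (K : ℝ) ^ 2 :=
        mul_le_mul_of_nonneg_right hη1 hK2.le
      linarith
    have h2 := mul_le_mul_of_nonneg_right h1 (by linarith : (0 : ℝ) ≤ N)
    linarith
  have T1 : (2 : ℝ) ^ (K ^ 2 * N) * q0 ^ m ≤ Real.exp (-(2 * (η * (L : ℝ) ^ 2 * N))) := by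
    refine term_one hq hqx hx0.le ?_ hy1
    push_cast
    exact hm
  have T2 : (2 : ℝ) ^ N * Real.exp (-(t * (K : ℝ) ^ 2 * ρ * k2)) * 2 ^ S ≤
      Real.exp (-(2 * (η * (L : ℝ) ^ 2 * N))) := term_two (by linarith)
  have h1 : ((M : ℝ) ^ 2) * ((2 : ℝ) ^ (K ^ 2 * N) * q0 ^ m +
      2 * ((2 : ℝ) ^ N * Real.exp (-(t * (K : ℝ) ^ 2 * ρ * k2)) * 2 ^ S)) ≤
      (M : ℝ) ^ 2 * (Real.exp (-(2 * (η * (L : ℝ) ^ 2 * N))) +
        2 * Real.exp (-(2 * (η * (L : ℝ) ^ 2 * N)))) :=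
    mul_le_mul_of_nonneg_left (add_le_add T1 (mul_le_mul_of_nonneg_left T2 (by norm_num)))
      (by positivity)
  refine h1.trans ?_
  have h3 : 3 * (M : ℝ) ^ 2 ≤ Real.exp (η * (L : ℝ) ^ 2 * N) := by
    have := Real.add_one_le_exp (η * (L : ℝ) ^ 2 * N)
    linarith
  calc (M : ℝ) ^ 2 * (Real.exp (-(2 * (η * (L : ℝ) ^ 2 * N))) +
        2 * Real.exp (-(2 * (η * (L : ℝ) ^ 2 * N)))) =
        3 * (M : ℝ) ^ 2 * Real.exp (-(2 * (η * (L : ℝ) ^ 2 * N))) := by ring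
    _ ≤ Real.exp (η * (L : ℝ) ^ 2 * N) * Real.exp (-(2 * (η * (L : ℝ) ^ 2 * N))) :=
        mul_le_mul_of_nonneg_right h3 (Real.exp_pos _).le
    _ = _ := by rw [← Real.exp_add]; congr 1; ring

/-- Passing to `ℝ≥0∞`. -/
theorem est_enn {q0 y : ℝ} (hq : 0 ≤ q0) (M a m N S : ℕ) :
    (((M ^ 2 : ℕ) : ℝ≥0∞)) * (2 ^ a * ENNReal.ofReal q0 ^ m +
        2 * (2 ^ N * ENNReal.ofReal (Real.exp y) * 2 ^ S)) =
      ENNReal.ofReal (((M : ℝ) ^ 2) * ((2 : ℝ) ^ a * q0 ^ m +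
      2 * ((2 : ℝ) ^ N * Real.exp y * 2 ^ S))) := by
  have two : ENNReal.ofReal 2 = 2 := by norm_num
  rw [ENNReal.ofReal_mul (by positivity), ENNReal.ofReal_add (by positivity) (by positivity),
    ENNReal.ofReal_mul (by positivity), ENNReal.ofReal_mul (by norm_num),
    ENNReal.ofReal_mul (by positivity), ENNReal.ofReal_mul (by positivity),
    ENNReal.ofReal_pow (by norm_num), ENNReal.ofReal_pow hq,
    ENNReal.ofReal_pow (by norm_num), ENNReal.ofReal_pow (by norm_num),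
    ENNReal.ofReal_pow (by positivity), ENNReal.ofReal_natCast]
  simp only [two]
  push_cast
  rfl

/-- **Mesoscopic large deviations** for every local observable: in a system covered by `N` boxes of
side `L` up to `η L² N` sites, all boxes but `a N` have box average within `a` of the reference value
`mB L r f`, up to a set of volume `exp (-η L² N) * vol (ham F E 0)`. -/
theorem meso {r : ℕ} {f : (P2 → ℝ) → ℝ} (hf : LObs r f) {a : ℝ} (ha : 0 < a) (ha1 : a ≤ 1) :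
    ∃ η : ℝ, 0 < η ∧ ∃ L1 N1 : ℕ, 0 < L1 ∧ 0 < N1 ∧ ∀ L : ℕ, L1 ≤ L →
      ∀ (U : Type) [DecidableEq U] (F : Finset U) (E : Finset (U × U)) (κ : Type) [DecidableEq κ]
        (σ : Finset κ) (e : κ → P2 → U), Cov F E L σ e → N1 ≤ σ.card →
        ((F \ σ.biUnion fun j => (bx L).image (e j)).card : ℝ) ≤ η * L ^ 2 * σ.card →
        ∀ ξ : U → ℝ,
          volume (ham F E ξ ∩ {x | a * σ.card ≤ cnt σ (DS L r f a e) (ext F ξ x)}) ≤
            ENNReal.ofReal (Real.exp (-(η * L ^ 2 * σ.card))) * volume (ham F E 0) := by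
  -- parameters
  obtain ⟨v', hv'⟩ : ∃ v' : ℝ, v' = a / 32 := ⟨_, rfl⟩
  obtain ⟨v, hv⟩ : ∃ v : ℝ, v = v' * a / 8 := ⟨_, rfl⟩
  have hv'0 : 0 < v' := by rw [hv']; positivity
  have hv0 : 0 < v := by rw [hv]; positivity
  obtain ⟨x, hx⟩ : ∃ x : ℝ, x = 16 / (v * a) := ⟨_, rfl⟩
  have hx0 : 0 < x := by rw [hx]; positivity
  obtain ⟨q0, hq00, hq1, hq2⟩ : ∃ q0 : ℝ, 0 < q0 ∧ q0 ≤ a / 32 ∧ q0 ≤ Real.exp (-x) :=
    ⟨min (a / 32) (Real.exp (-x)), lt_min (by positivity) (Real.exp_pos _), min_le_left _ _,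
      min_le_right _ _⟩
  obtain ⟨R, C, B, FF, hrR, hC, HW, HB⟩ := win_input hf (ε := a / 32) (by positivity) hq00
  obtain ⟨t, ht0, ht1, ht2⟩ : ∃ t : ℝ, 0 < t ∧ t ≤ a / 32 ∧ t * C ≤ 2 := by
    refine ⟨min (a / 32) (2 / (C + 1)), lt_min (by positivity) (by positivity), min_le_left _ _, ?_⟩
    calc min (a / 32) (2 / (C + 1)) * C ≤ 2 / (C + 1) * C :=
          mul_le_mul_of_nonneg_right (min_le_right _ _) hC
      _ ≤ 2 := by rw [div_mul_eq_mul_div, div_le_iff₀ (by positivity)]; nlinarith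
  obtain ⟨M, hM⟩ : ∃ M : ℕ, M = 2 * R + 2 := ⟨_, rfl⟩
  have hM2 : (2 : ℝ) ≤ M := by rw [hM]; push_cast; have := Nat.cast_nonneg (α := ℝ) R; linarith
  have hM0 : (0 : ℝ) < M := by linarith
  have hMp : 0 < M := by omega
  obtain ⟨η, hη⟩ : ∃ η : ℝ, η = t * a ^ 2 / (1024 * (M : ℝ) ^ 4) := ⟨_, rfl⟩
  have hη0 : 0 < η := by rw [hη]; positivity
  have hη1 : 2 * η * (4 * (M : ℝ) ^ 2) ≤ 1 := by
    have h1 : t * a ^ 2 ≤ 1 := by
      have : t ≤ 1 := by linarith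
      have h2 : a ^ 2 ≤ 1 := pow_le_one₀ ha.le ha1
      nlinarith
    have h2 : η * (M : ℝ) ^ 4 = t * a ^ 2 / 1024 := by rw [hη]; field_simp
    have h3 : (M : ℝ) ^ 2 ≤ (M : ℝ) ^ 4 := pow_le_pow_right₀ (by linarith) (by norm_num)
    have h4 : η * (M : ℝ) ^ 2 ≤ η * (M : ℝ) ^ 4 := mul_le_mul_of_nonneg_left h3 hη0.le
    linarith
  -- size of the boxes and number of boxes
  obtain ⟨L1, hL1⟩ := exists_nat_ge (max (max (64 * (M : ℝ) / a) (4 * (M : ℝ) * (1 + 8 / (v * a))))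
    (max (3 * (M : ℝ) ^ 2 / η) (8 * M)))
  obtain ⟨N1, hN1⟩ := exists_nat_ge (16 * (M : ℝ) ^ 2 / a)
  have hN1p : 0 < N1 := by
    have : (0 : ℝ) < N1 := lt_of_lt_of_le (by positivity) hN1
    exact_mod_cast this
  have hL1p : 0 < L1 := by
    have : (0 : ℝ) < L1 := lt_of_lt_of_le (by positivity)
      ((le_max_right _ _).trans ((le_max_right _ _).trans hL1))
    exact_mod_cast this
  refine ⟨η, hη0, L1, N1, hL1p, hN1p, ?_⟩
  intro L hL U _ F E κ _ σ e hcov hN hS ξ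
  have hLr : (L1 : ℝ) ≤ L := by exact_mod_cast hL
  have b1 : 64 * (M : ℝ) / a ≤ L := ((le_max_left _ _).trans (le_max_left _ _)).trans (hL1.trans hLr)
  have b2 : 4 * (M : ℝ) * (1 + 8 / (v * a)) ≤ L :=
    ((le_max_right _ _).trans (le_max_left _ _)).trans (hL1.trans hLr)
  have b3 : 3 * (M : ℝ) ^ 2 / η ≤ L :=
    ((le_max_left _ _).trans (le_max_right _ _)).trans (hL1.trans hLr)
  have b4 : 8 * (M : ℝ) ≤ L := ((le_max_right _ _).trans (le_max_right _ _)).trans (hL1.trans hLr)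
  have hNr : 16 * (M : ℝ) ^ 2 / a ≤ σ.card := hN1.trans (by exact_mod_cast hN)
  have hLp : (0 : ℝ) < L := by linarith
  have hL0 : 0 < L := by exact_mod_cast hLp
  have hML : 8 * M ≤ L := by exact_mod_cast b4
  have hRM : 2 * R ≤ M := by omega
  obtain ⟨K, hK0, hK1, hK2⟩ := exists_K hMp hRM hML
  obtain ⟨hn, hη'⟩ := K_bounds ha hRM hML hK2 b1
  obtain ⟨k1, k2, hk10, ck1, ck2, hkk⟩ := counts hM2 ha hNr
  have hσ : 0 < σ.card := by omega
  obtain ⟨m, cm, cm'⟩ : ∃ m : ℕ, (m : ℝ) ≤ v * (K ^ 2 : ℕ) * k1 ∧ v * (K : ℝ) ^ 2 * k1 - 1 < m := by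
    refine ⟨⌊v * (K ^ 2 : ℕ) * k1⌋₊, Nat.floor_le (by positivity), ?_⟩
    have := Nat.sub_one_lt_floor (v * (K ^ 2 : ℕ) * (k1 : ℝ))
    push_cast at this ⊢
    exact this
  obtain ⟨ρ, hρd⟩ : ∃ ρ : ℝ, ρ = a / 2 - 2 * v' - a / 32 - 2 * t - 2 * q0 := ⟨_, rfl⟩
  have hρ : a / 4 ≤ ρ := by rw [hρd, hv']; linarith
  have hset : ham F E ξ ∩ {x | a * σ.card ≤ cnt σ (DS L r f a e) (ext F ξ x)} =
      ham F E ξ ∩ {x | ⌈a * (σ.card : ℝ)⌉₊ ≤ cnt σ (DS L r f a e) (ext F ξ x)} := by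
    ext x
    simp only [mem_inter_iff, mem_ofPred_eq]
    rw [Nat.ceil_le]
  rw [hset]
  subst hM
  have key := hcov.main (K := K) hL0 hrR hK1 hK0 hf.meas hf.bd (LObs.dep hf) HW (by positivity)
    (q0 := q0) hq00.le (by linarith) HB ha hv'0 hv0 (by rw [hv]; linarith) (by
      push_cast at hη' ⊢
      exact hη') ht0.le (by linarith) ht2 (by rw [← hρd]; linarith) ξ hk10 hkk cm
  rw [← hρd] at key
  refine key.trans ?_
  refine mul_le_mul' ?_ le_rfl
  rw [est_enn hq00.le]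
  refine ENNReal.ofReal_le_ofReal ?_
  have := est hv0 ha hx hq00 hq2 ht0 hρ hM2 hη hη1 b2 b3 hσ hK0 hn ck1 ck2 cm' hS
  push_cast at this ⊢
  exact this

end Crest.Agent.R144.Lc279
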