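import Crest.Agent.R144.Lmu3_425
import Crest.Agent.R144.Lc11_279
import Crest.Agent.R144.Lc14_279
import Crest.Agent.R144.Bl3_565

-- ▼ part R144/Lmu4_425
section

/-!
R144 (S0197), helper425.  Lmu4: ergodicity of `μ₀` in `L¹` and covariance under lattice automorphisms.

* `LAut A` : `A` is an additive bijection of `ℤ × ℤ` preserving the hexagonal distance;
* `sig A N L u` : the tiling of `bx N` by the boxes `A (x + bx L)`, `x ≡ u mod (L + 1)`;
* `card_cover`, `card_left` : counting;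
* `sum_G_le` : averaged deviation of the box averages, from `Lc279.meso`.
-/

set_option autoImplicit false

open MeasureTheory Set Filter Topology
open scoped ENNReal

noncomputable section

namespace Crest.Agent.R144.Lw425

open Crest.Agent.R144.Ham560
open Crest.Agent.R144.Lc279 (Ev bx mem_bx card_bx anch_bx card_nbr_lat_le mem_nbr_lat cl mem_cl
  bx_sub_cl cl_of_adj Ch BCh Cov DS cnt BA mB pos mem_pos hd_add)

/-- Lattice automorphisms. -/
def LAut (A : ℤ × ℤ ≃+ ℤ × ℤ) : Prop := ∀ v w, hd (A v) (A w) = hd v w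

variable {A : ℤ × ℤ ≃+ ℤ × ℤ}

/-! ### The tiling -/

/-- Base points of the boxes inside `bx N`. -/
def IN (A : ℤ × ℤ ≃+ ℤ × ℤ) (N L : ℕ) : Finset (ℤ × ℤ) := by
  classical
  exact ((bx N).image A.symm).filter fun x => ∀ v ∈ cl L, A (x + v) ∈ bx N

theorem zero_mem_cl (L : ℕ) : (0 : ℤ × ℤ) ∈ cl L := by
  rw [mem_cl]; simp

theorem mem_IN {N L : ℕ} {x : ℤ × ℤ} : x ∈ IN A N L ↔ ∀ v ∈ cl L, A (x + v) ∈ bx N := by
  classical
  unfold IN
  rw [Finset.mem_filter]
  constructor
  · exact fun h => h.2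
  · intro h
    refine ⟨Finset.mem_image.mpr ⟨A x, ?_, A.symm_apply_apply x⟩, h⟩
    have := h 0 (zero_mem_cl L)
    rwa [add_zero] at this

/-- Base points congruent to `u`. -/
def sig (A : ℤ × ℤ ≃+ ℤ × ℤ) (N L : ℕ) (u : ℤ × ℤ) : Finset (ℤ × ℤ) :=
  (IN A N L).filter fun x => x.1 % (L + 1) = u.1 ∧ x.2 % (L + 1) = u.2

theorem mem_sig {N L : ℕ} {u x : ℤ × ℤ} : x ∈ sig A N L u ↔
    x ∈ IN A N L ∧ x.1 % (L + 1) = u.1 ∧ x.2 % (L + 1) = u.2 := Finset.mem_filter

/-- The chart of a box. -/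
theorem chart (hA : LAut A) {N L : ℕ} {x : ℤ × ℤ} (hx : ∀ v ∈ bx L, A (x + v) ∈ bx N) :
    BCh (Lc279.lat (bx N)) L (fun v => A (x + v)) where
  sub := bx_sub_cl L
  inj := fun v _ w _ h => add_left_cancel (A.injective h)
  cl := fun v hv w h => cl_of_adj hv h
  edge := by
    intro v hv w hvw
    left
    rw [Lc279.mem_lat]
    exact ⟨by rw [hA, hd_add]; exact hvw, Or.inl (hx v hv)⟩
  edge' := by
    intro p hp hp'
    rw [Lc279.mem_lat] at hp
    have e1 : ∀ u, A (x + (A.symm u - x)) = u := by intro u; simp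
    refine ⟨A.symm p.1 - x, A.symm p.2 - x, ?_, ?_, ?_⟩
    · have := hA (x + (A.symm p.1 - x)) (x + (A.symm p.2 - x))
      rw [e1, e1, hd_add] at this
      rw [← this]; exact hp.1
    · rcases hp' with h | h
      · left
        obtain ⟨v, hv, hvb⟩ := Finset.mem_image.mp h
        have : A.symm p.1 - x = v := by rw [← hvb]; simp
        rw [this]; exact hv
      · right
        obtain ⟨v, hv, hvb⟩ := Finset.mem_image.mp h
        have : A.symm p.2 - x = v := by rw [← hvb]; simp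
        rw [this]; exact hv
    · rw [e1, e1]

theorem eq_of_emod {L : ℕ} {a b c d m : ℤ} (h1 : a % (L + 1) = m) (h2 : b % (L + 1) = m)
    (h : a + c = b + d) (hc : -1 ≤ c ∧ c ≤ L) (hd : 0 ≤ d ∧ d < L) : a = b := by
  have h3 : ((L : ℤ) + 1) ∣ a - b := by
    rw [← h2] at h1
    exact Int.ModEq.dvd (show Int.ModEq (L + 1) b a from h1.symm)
  have h4 : a - b = 0 := by
    refine Int.eq_zero_of_abs_lt_dvd h3 ?_
    rw [abs_lt]
    constructor <;> omega
  omega

/-- The boxes of one class form a covering system. -/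
theorem cov (hA : LAut A) {N L : ℕ} (u : ℤ × ℤ) :
    Cov (bx N) (Lc279.lat (bx N)) L (sig A N L u) (fun x v => A (x + v)) where
  ch := fun x hx => chart hA fun v hv => mem_IN.mp (mem_sig.mp hx).1 v (bx_sub_cl L hv)
  sub := by
    intro x hx y hy
    obtain ⟨v, hv, rfl⟩ := Finset.mem_image.mp hy
    exact mem_IN.mp (mem_sig.mp hx).1 v (bx_sub_cl L hv)
  disj := by
    intro j hj k hk hne
    rw [Set.disjoint_left]
    rintro y ⟨v, hv, rfl⟩ hy
    obtain ⟨w, hw, hwv⟩ := Finset.mem_image.mp (Finset.mem_coe.mp hy)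
    have h := A.injective hwv
    apply hne
    have h1 := (mem_sig.mp hj).2
    have h2 := (mem_sig.mp hk).2
    rw [mem_cl] at hv
    rw [mem_bx] at hw
    have e1 := congrArg Prod.fst h
    have e2 := congrArg Prod.snd h
    simp only [Prod.fst_add, Prod.snd_add] at e1 e2
    refine Prod.ext ?_ ?_
    · exact eq_of_emod h1.1 h2.1 e1.symm hv.1 hw.1
    · exact eq_of_emod h1.2 h2.2 e2.symm hv.2 hw.2
  deg := fun v _ => card_nbr_lat_le _ _

/-! ### Counting -/

theorem hd_cl {L : ℕ} {v w : ℤ × ℤ} (hv : v ∈ cl L) (hw : w ∈ cl L) : hd v w ≤ 2 * L + 2 := by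
  rw [mem_cl] at hv hw
  rw [hd_le_iff]
  omega

/-- Points deep inside are base points. -/
theorem pos_sub {N L : ℕ} {y y' : ℤ × ℤ} (hy : y ∈ pos N (2 * L + 2))
    (h : hd y y' ≤ 2 * L + 2) : y' ∈ bx N := by
  rw [mem_pos] at hy
  rw [hd_le_iff] at h
  rw [mem_bx]
  push_cast at hy
  omega

/-- The base point of a site. -/
theorem exists_base {N L : ℕ} (hA : LAut A) {u : ℤ × ℤ} (hu : u ∈ bx (L + 1)) {y : ℤ × ℤ}
    (hy : y ∈ pos N (2 * L + 2)) : ∃ x ∈ sig A N L u, ∃ v ∈ bx (L + 1), y = A (x + v) := by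
  rw [mem_bx] at hu
  push_cast at hu
  set w := A.symm y with hw
  have hL : (0 : ℤ) < (L : ℤ) + 1 := by positivity
  have key : ∀ a b : ℤ, 0 ≤ b → b < (L : ℤ) + 1 → (a - (a - b) % (L + 1)) % (L + 1) = b := by
    intro a b hb hb'
    have h1 : (a - (a - b) % (L + 1)) = b + ((L : ℤ) + 1) * ((a - b) / (L + 1)) := by
      have := Int.emod_add_mul_ediv (a - b) (L + 1)
      linarith
    rw [h1, Int.add_mul_emod_self_left]
    exact Int.emod_eq_of_lt hb hb'
  have hv : ((w.1 - u.1) % (L + 1), (w.2 - u.2) % (L + 1)) ∈ bx (L + 1) := by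
    rw [mem_bx]
    push_cast
    exact ⟨⟨Int.emod_nonneg _ hL.ne', Int.emod_lt_of_pos _ hL⟩,
      ⟨Int.emod_nonneg _ hL.ne', Int.emod_lt_of_pos _ hL⟩⟩
  have hyx : y = A ((w.1 - (w.1 - u.1) % (L + 1), w.2 - (w.2 - u.2) % (L + 1)) +
      ((w.1 - u.1) % (L + 1), (w.2 - u.2) % (L + 1))) := by
    have : ((w.1 - (w.1 - u.1) % ((L : ℤ) + 1), w.2 - (w.2 - u.2) % ((L : ℤ) + 1)) +
      ((w.1 - u.1) % ((L : ℤ) + 1), (w.2 - u.2) % ((L : ℤ) + 1)) : ℤ × ℤ) = w := by
      refine Prod.ext ?_ ?_ <;> simp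
    rw [this, hw, A.apply_symm_apply]
  refine ⟨(w.1 - (w.1 - u.1) % (L + 1), w.2 - (w.2 - u.2) % (L + 1)), ?_, _, hv, hyx⟩
  rw [mem_sig]
  refine ⟨mem_IN.mpr fun v' hv' => ?_, key _ _ hu.1.1 hu.1.2, key _ _ hu.2.1 hu.2.2⟩
  refine pos_sub hy ?_
  rw [hyx, hA, hd_add]
  refine hd_cl ?_ hv'
  rw [mem_bx] at hv
  push_cast at hv
  rw [mem_cl]
  omega

theorem card_layer (N D : ℕ) : (bx N \ pos N D).card ≤ 4 * D * N := by
  have hsub : pos N D ⊆ bx N := Lc279.pos_subset N D
  rw [Finset.card_sdiff_of_subset hsub, card_bx]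
  have h1 : (pos N D).card = (N - 2 * D) ^ 2 := by
    rw [pos, Finset.card_product, Int.card_Ico, sq]
    have : ((N : ℤ) - D - D).toNat = N - 2 * D := by omega
    rw [this]
  rw [h1]
  rcases Nat.lt_or_ge N (2 * D) with h | h
  · have h2 : N - 2 * D = 0 := by omega
    rw [h2]
    have h3 : N * N ≤ 2 * D * N := Nat.mul_le_mul_right N h.le
    simp only [ne_eq, OfNat.ofNat_ne_zero, not_false_eq_true, zero_pow, Nat.sub_zero]
    nlinarith
  · obtain ⟨k, rfl⟩ := Nat.exists_eq_add_of_le h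
    rw [Nat.add_sub_cancel_left, Nat.sub_le_iff_le_add]
    nlinarith

/-- Uncovered sites. -/
theorem card_left (hA : LAut A) {N L : ℕ} {u : ℤ × ℤ} (hu : u ∈ bx (L + 1)) :
    (bx N \ (sig A N L u).biUnion fun x => (bx L).image fun v => A (x + v)).card ≤
      4 * (2 * L + 2) * N + (2 * L + 1) * (sig A N L u).card := by
  classical
  have hsub : bx N \ (sig A N L u).biUnion (fun x => (bx L).image fun v => A (x + v)) ⊆
      (bx N \ pos N (2 * L + 2)) ∪
        (sig A N L u).biUnion fun x => (bx (L + 1) \ bx L).image fun v => A (x + v) := by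
    intro y hy
    rw [Finset.mem_sdiff] at hy
    rw [Finset.mem_union]
    by_cases h : y ∈ pos N (2 * L + 2)
    · right
      obtain ⟨x, hx, v, hv, rfl⟩ := exists_base hA hu h
      rw [Finset.mem_biUnion]
      refine ⟨x, hx, Finset.mem_image.mpr ⟨v, ?_, rfl⟩⟩
      rw [Finset.mem_sdiff]
      refine ⟨hv, fun hv' => hy.2 ?_⟩
      rw [Finset.mem_biUnion]
      exact ⟨x, hx, Finset.mem_image.mpr ⟨v, hv', rfl⟩⟩
    · left
      rw [Finset.mem_sdiff]; exact ⟨hy.1, h⟩
  refine (Finset.card_le_card hsub).trans ((Finset.card_union_le _ _).trans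
    (Nat.add_le_add (card_layer N _) ?_))
  refine Finset.card_biUnion_le.trans ?_
  refine (Finset.sum_le_card_nsmul _ _ (2 * L + 1) fun x _ => ?_).trans ?_
  · refine Finset.card_image_le.trans ?_
    have h1 : bx L ⊆ bx (L + 1) := by
      intro v hv
      rw [mem_bx] at hv ⊢
      push_cast
      omega
    rw [Finset.card_sdiff_of_subset h1, card_bx, card_bx, Nat.sub_le_iff_le_add]
    nlinarith
  · rw [smul_eq_mul, mul_comm]

/-- Number of boxes. -/
theorem card_cover (hA : LAut A) {N L : ℕ} {u : ℤ × ℤ} (hu : u ∈ bx (L + 1)) :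
    N ^ 2 ≤ 4 * (2 * L + 2) * N + (L + 1) ^ 2 * (sig A N L u).card := by
  classical
  have hsub : bx N ⊆ (bx N \ pos N (2 * L + 2)) ∪
        (sig A N L u).biUnion fun x => (bx (L + 1)).image fun v => A (x + v) := by
    intro y hy
    rw [Finset.mem_union]
    by_cases h : y ∈ pos N (2 * L + 2)
    · right
      obtain ⟨x, hx, v, hv, rfl⟩ := exists_base hA hu h
      rw [Finset.mem_biUnion]
      exact ⟨x, hx, Finset.mem_image.mpr ⟨v, hv, rfl⟩⟩
    · left
      rw [Finset.mem_sdiff]; exact ⟨hy, h⟩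
  rw [← card_bx]
  refine (Finset.card_le_card hsub).trans ((Finset.card_union_le _ _).trans
    (Nat.add_le_add (card_layer N _) ?_))
  refine Finset.card_biUnion_le.trans ?_
  refine (Finset.sum_le_card_nsmul _ _ ((L + 1) ^ 2) fun x _ => ?_).trans ?_
  · refine Finset.card_image_le.trans ?_
    rw [card_bx]
  · rw [smul_eq_mul, mul_comm]

/-- The base points, as a subset of the box. -/
theorem pos_sub_image (hA : LAut A) {N L : ℕ} : pos N (2 * L + 2) ⊆ (IN A N L).image A := by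
  intro y hy
  refine Finset.mem_image.mpr ⟨A.symm y, ?_, A.apply_symm_apply y⟩
  rw [mem_IN]
  intro v hv
  refine pos_sub hy ?_
  have h1 : y = A (A.symm y + 0) := by simp
  rw [h1]
  have h2 : A.symm (A (A.symm y + 0)) = A.symm y := by simp
  rw [h2, hA, hd_add]
  exact hd_cl (zero_mem_cl L) hv

theorem image_sub {N L : ℕ} : (IN A N L).image A ⊆ bx N := by
  intro y hy
  obtain ⟨x, hx, rfl⟩ := Finset.mem_image.mp hy
  have := mem_IN.mp hx 0 (zero_mem_cl L)
  rwa [add_zero] at this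

/-- Partition into classes. -/
theorem sum_sig {N L : ℕ} (G : ℤ × ℤ → ℝ) :
    ∑ x ∈ IN A N L, G x = ∑ u ∈ bx (L + 1), ∑ x ∈ sig A N L u, G x := by
  have hL : (0 : ℤ) < (L : ℤ) + 1 := by positivity
  have h1 : ∀ x ∈ IN A N L, ((x.1 % ((L : ℤ) + 1), x.2 % ((L : ℤ) + 1)) : ℤ × ℤ) ∈ bx (L + 1) := by
    intro x _
    rw [mem_bx]
    push_cast
    exact ⟨⟨Int.emod_nonneg _ hL.ne', Int.emod_lt_of_pos _ hL⟩,
      ⟨Int.emod_nonneg _ hL.ne', Int.emod_lt_of_pos _ hL⟩⟩
  rw [← Finset.sum_fiberwise_of_maps_to h1]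
  refine Finset.sum_congr rfl fun u _ => ?_
  unfold sig
  refine Finset.sum_congr (Finset.filter_congr fun x _ => ?_) fun _ _ => rfl
  rw [Prod.ext_iff]

/-! ### Deviations of the box averages -/

theorem cnt_cast {κ U : Type*} [DecidableEq κ] (σ : Finset κ) (P : κ → Set (U → ℝ)) (z : U → ℝ) :
    (cnt σ P z : ℝ) = ∑ j ∈ σ, (P j).indicator (1 : (U → ℝ) → ℝ) z := by
  classical
  rw [Lc279.cnt_eq, Finset.card_filter]
  push_cast
  refine Finset.sum_congr rfl fun j _ => ?_
  simp [Set.indicator]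

theorem isProb_bxP (N : ℕ) : IsProbabilityMeasure (bxP N) :=
  isProbabilityMeasure_hamP (anch_bx N) fun u => by simp

theorem measurable_BAA (A : ℤ × ℤ ≃+ ℤ × ℤ) {L r : ℕ} {f : (ℤ × ℤ → ℝ) → ℝ} (hf : Measurable f)
    (x : ℤ × ℤ) : Measurable fun z : ℤ × ℤ → ℝ => BA L r f fun v => z (A (x + v)) :=
  (Lc279.measurable_BA hf).comp (measurable_pi_lambda _ fun v => measurable_pi_apply _)

/-- One class. -/
theorem sum_class {r : ℕ} {f : (ℤ × ℤ → ℝ) → ℝ} (hf : LObs r f) {a : ℝ} (ha : 0 < a) (ha1 : a ≤ 1) :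
    ∃ L0 : ℕ, ∀ L, L0 ≤ L → ∀ᶠ N : ℕ in atTop, ∀ A : ℤ × ℤ ≃+ ℤ × ℤ, LAut A → ∀ u ∈ bx (L + 1),
      ∑ x ∈ sig A N L u, Ev (bx N) (Lc279.lat (bx N)) 0
        (fun z => |BA L r f (fun v => z (A (x + v))) - mB L r f|) ≤
      5 * a * (sig A N L u).card := by
  obtain ⟨η, hη, L1, N1, hL1, hN1, H⟩ := Lc279.meso hf ha ha1
  obtain ⟨L2, hL2⟩ := exists_nat_ge (6 / η)
  refine ⟨max L1 L2, fun L hL => ?_⟩
  have hLa : L1 ≤ L := (le_max_left _ _).trans hL
  have hLb : (6 / η : ℝ) ≤ L := hL2.trans (by exact_mod_cast (le_max_right _ _).trans hL)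
  have hL0 : 0 < L := lt_of_lt_of_le hL1 hLa
  have hLr : (1 : ℝ) ≤ L := by exact_mod_cast hL0
  have hLη : (2 * (L : ℝ) + 1) ≤ η / 2 * (L : ℝ) ^ 2 := by
    rw [div_le_iff₀ hη] at hLb
    nlinarith
  obtain ⟨c0, hc0⟩ : ∃ c0 : ℝ, c0 = max (N1 : ℝ) (-Real.log a / (η * (L : ℝ) ^ 2)) := ⟨_, rfl⟩
  have e1 : ∀ᶠ N : ℕ in atTop, 16 * ((L : ℝ) + 1) ≤ N :=
    tendsto_natCast_atTop_atTop.eventually_ge_atTop _
  have e2 : ∀ᶠ N : ℕ in atTop, 32 * ((L : ℝ) + 1) ^ 3 / (η * (L : ℝ) ^ 2) ≤ N :=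
    tendsto_natCast_atTop_atTop.eventually_ge_atTop _
  have e3 : ∀ᶠ N : ℕ in atTop, c0 * (2 * ((L : ℝ) + 1) ^ 2) ≤ N :=
    tendsto_natCast_atTop_atTop.eventually_ge_atTop _
  filter_upwards [e1, e2, e3] with N h1 h2 h3 A hA u hu
  have hηL : 0 < η * (L : ℝ) ^ 2 := by positivity
  have hN0 : (0 : ℝ) < N := lt_of_lt_of_le (by positivity) h1
  have hN1' : (1 : ℝ) ≤ N := by linarith
  set σ := sig A N L u with hσ
  have hc := card_cover hA (N := N) hu
  rw [← hσ] at hc
  have hcr : (N : ℝ) ^ 2 ≤ 8 * ((L : ℝ) + 1) * N + ((L : ℝ) + 1) ^ 2 * σ.card := by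
    have : ((N ^ 2 : ℕ) : ℝ) ≤ ((4 * (2 * L + 2) * N + (L + 1) ^ 2 * σ.card : ℕ) : ℝ) := by
      exact_mod_cast hc
    push_cast at this
    linarith
  have hσN : (N : ℝ) ^ 2 ≤ 2 * ((L : ℝ) + 1) ^ 2 * σ.card := by
    have : 16 * ((L : ℝ) + 1) * N ≤ N * N := mul_le_mul_of_nonneg_right h1 hN0.le
    nlinarith
  have hL2p : (0 : ℝ) < 2 * ((L : ℝ) + 1) ^ 2 := by positivity
  have hσc : c0 ≤ σ.card := by
    have h4 : c0 * (2 * ((L : ℝ) + 1) ^ 2) ≤ (σ.card : ℝ) * (2 * ((L : ℝ) + 1) ^ 2) := by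
      have : (N : ℝ) ≤ N ^ 2 := by nlinarith
      linarith
    exact le_of_mul_le_mul_right h4 hL2p
  have hσN1 : N1 ≤ σ.card := by
    have : (N1 : ℝ) ≤ σ.card := by rw [hc0] at hσc; exact (le_max_left _ _).trans hσc
    exact_mod_cast this
  have hleft : ((bx N \ σ.biUnion fun x => (bx L).image fun v => A (x + v)).card : ℝ) ≤
      η * (L : ℝ) ^ 2 * σ.card := by
    have h4 : ((bx N \ σ.biUnion fun x => (bx L).image fun v => A (x + v)).card : ℝ) ≤
        ((4 * (2 * L + 2) * N + (2 * L + 1) * σ.card : ℕ) : ℝ) := by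
      exact_mod_cast card_left hA hu
    push_cast at h4
    have h5 : 8 * ((L : ℝ) + 1) * N ≤ η / 2 * (L : ℝ) ^ 2 * σ.card := by
      rw [div_le_iff₀ hηL] at h2
      have h6 : 32 * ((L : ℝ) + 1) ^ 3 * N ≤ N * (η * (L : ℝ) ^ 2) * N :=
        mul_le_mul_of_nonneg_right h2 hN0.le
      have h7 : N * (η * (L : ℝ) ^ 2) * N ≤ (η * (L : ℝ) ^ 2) * (2 * ((L : ℝ) + 1) ^ 2 * σ.card) := by
        have := mul_le_mul_of_nonneg_left hσN hηL.le
        nlinarith
      have h8 : (4 * ((L : ℝ) + 1) ^ 2) * (8 * ((L : ℝ) + 1) * N) ≤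
          (4 * ((L : ℝ) + 1) ^ 2) * (η / 2 * (L : ℝ) ^ 2 * σ.card) := by nlinarith
      exact le_of_mul_le_mul_left h8 (by positivity)
    have h6 : (2 * (L : ℝ) + 1) * σ.card ≤ η / 2 * (L : ℝ) ^ 2 * σ.card :=
      mul_le_mul_of_nonneg_right hLη (Nat.cast_nonneg _)
    linarith
  have key := H L hLa (ℤ × ℤ) (bx N) (Lc279.lat (bx N)) (ℤ × ℤ) σ (fun x v => A (x + v))
    (cov hA u) hσN1 hleft 0
  -- the bad event
  have := isProb_bxP N
  set S : Set (bx N → ℝ) := {y | a * σ.card ≤ cnt σ (DS L r f a fun x v => A (x + v)) (fh N y)}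
    with hS
  have hDSm : ∀ x, MeasurableSet (DS L r f a (fun x v => A (x + v)) x) := fun x =>
    measurableSet_lt measurable_const (((measurable_BAA A hf.meas x).sub_const _).abs)
  have hSm : MeasurableSet S := by
    have : S = {y | a * σ.card ≤ ∑ x ∈ σ,
        (DS L r f a (fun x v => A (x + v)) x).indicator (1 : (ℤ × ℤ → ℝ) → ℝ) (fh N y)} := by
      rw [hS]; ext y
      rw [mem_ofPred_eq, mem_ofPred_eq, cnt_cast]
    rw [this]
    refine measurableSet_le measurable_const (Finset.measurable_sum _ fun x _ => ?_)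
    exact (measurable_one.indicator (hDSm x)).comp (measurable_fh N)
  have hPS : (bxP N).real S ≤ a := by
    have h4 : bxP N S ≤ ENNReal.ofReal a := by
      have hv0 : volume (ham (bx N) (Lc279.lat (bx N)) 0) ≠ 0 :=
        (volume_ham_pos fun u => by simp).ne'
      have hvt : volume (ham (bx N) (Lc279.lat (bx N)) 0) ≠ ⊤ := (volume_ham_lt_top (anch_bx N)).ne
      rw [bxP, hamP, Measure.smul_apply, Measure.restrict_apply hSm, smul_eq_mul, inter_comm]
      calc _ ≤ (volume (ham (bx N) (Lc279.lat (bx N)) 0))⁻¹ *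
            (ENNReal.ofReal (Real.exp (-(η * (L : ℝ) ^ 2 * σ.card))) *
              volume (ham (bx N) (Lc279.lat (bx N)) 0)) := mul_le_mul' le_rfl key
        _ = ENNReal.ofReal (Real.exp (-(η * (L : ℝ) ^ 2 * σ.card))) := by
            rw [mul_comm, mul_assoc, ENNReal.mul_inv_cancel hv0 hvt, mul_one]
        _ ≤ _ := by
            refine ENNReal.ofReal_le_ofReal ?_
            have h5 : -Real.log a / (η * (L : ℝ) ^ 2) ≤ σ.card := by
              rw [hc0] at hσc; exact (le_max_right _ _).trans hσc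
            rw [div_le_iff₀ hηL] at h5
            calc Real.exp (-(η * (L : ℝ) ^ 2 * σ.card)) ≤ Real.exp (Real.log a) :=
                  Real.exp_le_exp.mpr (by linarith)
              _ = a := Real.exp_log ha
    rw [Measure.real]
    exact ENNReal.toReal_le_of_le_ofReal ha.le h4
  -- integrate
  have hbd : ∀ x (z : ℤ × ℤ → ℝ), |BA L r f (fun v => z (A (x + v))) - mB L r f| ≤ 2 := by
    intro x z
    have h4 : |BA L r f fun v => z (A (x + v))| ≤ 1 := Lc279.abs_BA_le hf.bd _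
    have h5 : |mB L r f| ≤ 1 := abs_Ev_le fun h => Lc279.abs_BA_le hf.bd _
    exact (abs_sub _ _).trans (by linarith)
  have hGi : ∀ x ∈ σ, Integrable (fun y => |BA L r f (fun v => fh N y (A (x + v))) - mB L r f|)
      (bxP N) := by
    intro x _
    refine Integrable.of_bound (C := 2) ?_ (Eventually.of_forall fun y => ?_)
    · exact ((((measurable_BAA A hf.meas x).sub_const _).abs).comp
        (measurable_fh N)).aestronglyMeasurable
    · rw [Real.norm_eq_abs, abs_abs]; exact hbd x _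
  have hEv : ∑ x ∈ σ, Ev (bx N) (Lc279.lat (bx N)) 0
      (fun z => |BA L r f (fun v => z (A (x + v))) - mB L r f|) =
      ∫ y, ∑ x ∈ σ, |BA L r f (fun v => fh N y (A (x + v))) - mB L r f| ∂(bxP N) := by
    rw [integral_finsetSum _ hGi]; rfl
  rw [hEv]
  have hpt : ∀ y, ∑ x ∈ σ, |BA L r f (fun v => fh N y (A (x + v))) - mB L r f| ≤
      3 * a * σ.card + 2 * σ.card * S.indicator (1 : (bx N → ℝ) → ℝ) y := by
    intro y
    have h4 : ∑ x ∈ σ, |BA L r f (fun v => fh N y (A (x + v))) - mB L r f| ≤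
        ∑ x ∈ σ, (a + 2 * (DS L r f a (fun x v => A (x + v)) x).indicator
          (1 : (ℤ × ℤ → ℝ) → ℝ) (fh N y)) := by
      refine Finset.sum_le_sum fun x _ => ?_
      by_cases h5 : fh N y ∈ DS L r f a (fun x v => A (x + v)) x
      · rw [indicator_of_mem h5]
        have := hbd x (fh N y)
        simp only [Pi.one_apply]
        linarith
      · rw [indicator_of_notMem h5]
        have : |BA L r f (fun v => fh N y (A (x + v))) - mB L r f| ≤ a := not_lt.mp h5
        linarith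
    rw [Finset.sum_add_distrib, Finset.sum_const, nsmul_eq_mul, ← Finset.mul_sum, ← cnt_cast] at h4
    by_cases h5 : y ∈ S
    · rw [indicator_of_mem h5]
      have h6 : (cnt σ (DS L r f a fun x v => A (x + v)) (fh N y) : ℝ) ≤ σ.card := by
        rw [cnt_cast]
        refine (Finset.sum_le_card_nsmul _ _ 1 fun x _ => ?_).trans (by simp)
        exact indicator_le_self' (fun _ _ => zero_le_one) _
      have h7 : 0 ≤ a * σ.card := by positivity
      simp only [Pi.one_apply]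
      linarith
    · rw [indicator_of_notMem h5]
      have h6 : (cnt σ (DS L r f a fun x v => A (x + v)) (fh N y) : ℝ) < a * σ.card := not_le.mp h5
      linarith
  have hiS : Integrable (S.indicator (1 : (bx N → ℝ) → ℝ)) (bxP N) :=
    (integrable_const (1 : ℝ)).indicator hSm
  have hi : Integrable (fun y => 3 * a * σ.card + 2 * σ.card * S.indicator (1 : (bx N → ℝ) → ℝ) y)
      (bxP N) := (integrable_const _).add (hiS.const_mul _)
  refine (integral_mono (integrable_finsetSum _ hGi) hi hpt).trans ?_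
  rw [integral_add (integrable_const _) (hiS.const_mul _), integral_const, integral_const_mul]
  have h4 : ∫ y, S.indicator (1 : (bx N → ℝ) → ℝ) y ∂(bxP N) = (bxP N).real S :=
    integral_indicator_one hSm
  rw [h4]
  simp only [probReal_univ, smul_eq_mul, one_mul]
  have h5 := mul_le_mul_of_nonneg_left hPS (by positivity : (0 : ℝ) ≤ 2 * σ.card)
  linarith

end Crest.Agent.R144.Lw425
end
end

-- ▼ part R144/Lmu5_425
section

/-!
R144 (S0197), helper425.  Lmu5: ergodicity of `μ₀` in `L¹` and covariance under lattice automorphisms.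

* `mB_tendsto` : the reference values converge to `m f`;
* `IsMu0.erg_aut` : `∫ |BA L r f (h ∘ A) - m f| dμ₀ → 0` for every lattice automorphism `A`;
* `IsMu0.map_aut` : `μ₀` is invariant under lattice automorphisms;
* `IsMu0.erg` : `∫ |mean over the box of f - m f| dμ₀ → 0`.
-/

set_option autoImplicit false

open MeasureTheory Set Filter Topology
open scoped ENNReal

noncomputable section

namespace Crest.Agent.R144.Lw425

open Crest.Agent.R144.Ham560
open Crest.Agent.R144.Lc279 (Ev bx mem_bx card_bx anch_bx card_nbr_lat_le mem_nbr_lat cl mem_cl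
  bx_sub_cl cl_of_adj Ch BCh Cov DS cnt BA mB pos mem_pos hd_add)

variable {A : ℤ × ℤ ≃+ ℤ × ℤ}

/-- The deviation as a local observable. -/
def dev (A : ℤ × ℤ ≃+ ℤ × ℤ) (L r : ℕ) (f : (ℤ × ℤ → ℝ) → ℝ) (c : ℝ) (h : ℤ × ℤ → ℝ) : ℝ :=
  |BA L r f (fun v => h (A v)) - c| / 2

theorem dev_LObs {L r : ℕ} {f : (ℤ × ℤ → ℝ) → ℝ} (hf : LObs r f) {c : ℝ} (hc : |c| ≤ 1) :
    ∃ r', LObs r' (dev A L r f c) := by
  classical
  obtain ⟨r', hr'⟩ := exists_hball ((bx L).image A)
  refine ⟨r', ?_, ?_, ?_, ?_⟩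
  · have : Measurable fun h : ℤ × ℤ → ℝ => BA L r f fun v => h (A v) :=
      (Lc279.measurable_BA hf.meas).comp (measurable_pi_lambda _ fun v => measurable_pi_apply _)
    exact ((this.sub_const _).abs).div_const _
  · intro h
    unfold dev
    have h4 : |BA L r f fun v => h (A v)| ≤ 1 := Lc279.abs_BA_le hf.bd _
    have h5 := abs_sub (BA L r f fun v => h (A v)) c
    rw [abs_div, abs_abs, abs_of_pos (by norm_num : (0 : ℝ) < 2)]
    linarith
  · intro h h' hh
    unfold dev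
    have : BA L r f (fun v => h (A v)) = BA L r f fun v => h' (A v) := by
      refine Lc279.dep_BA (Lc279.LObs.dep hf) fun v hv => ?_
      exact hh _ (hr' _ (Finset.mem_image_of_mem A (Finset.mem_coe.mp hv)))
    rw [this]
  · intro h c'
    unfold dev BA
    have : ∀ x : ℤ × ℤ, (f fun v => h (A (x + v)) + c') = f fun v => h (A (x + v)) := fun x =>
      hf.shift (fun v => h (A (x + v))) c'
    simp only [this]

/-- The two average forms. -/
theorem dev_shift (A : ℤ × ℤ ≃+ ℤ × ℤ) (L r : ℕ) (f : (ℤ × ℤ → ℝ) → ℝ) (c : ℝ) (x : ℤ × ℤ)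
    (z : ℤ × ℤ → ℝ) :
    |BA L r f (fun v => z (A (x + v))) - c| = 2 * dev A L r f c fun a => z (A x + a) := by
  unfold dev
  simp only [map_add]
  ring

/-- The reference values converge. -/
theorem mB_sub_le {L r : ℕ} (hL : 0 < L) {f : (ℤ × ℤ → ℝ) → ℝ} (hf : LObs r f) :
    |mB L r f - bav L f| ≤ 4 * r / L := by
  have := isProb_bxP L
  have hLr : (0 : ℝ) < L := by exact_mod_cast hL
  have hint : ∀ x ∈ pos L r, Integrable (fun y => f fun v => fh L y (x + v)) (bxP L) := by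
    intro x _
    refine Integrable.of_bound (C := 1) ?_ (Eventually.of_forall fun y => ?_)
    · exact ((hf.meas.comp (measurable_pi_lambda _ fun v => measurable_pi_apply _)).comp
        (measurable_fh L)).aestronglyMeasurable
    · rw [Real.norm_eq_abs]; exact hf.bd _
  have e1 : mB L r f = (∑ x ∈ pos L r, Ev (bx L) (Lc279.lat (bx L)) 0 fun z => f fun v => z (x + v)) /
      (L : ℝ) ^ 2 := by
    unfold mB
    have : Ev (bx L) (Lc279.lat (bx L)) 0 (BA L r f) =
        ∫ y, (∑ x ∈ pos L r, f fun v => fh L y (x + v)) / (L : ℝ) ^ 2 ∂(bxP L) := rfl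
    rw [this, integral_div, integral_finsetSum _ hint]
    rfl
  have e2 : bav L f = (∑ x ∈ bx L, Ev (bx L) (Lc279.lat (bx L)) 0 fun z => f fun v => z (x + v)) /
      (L : ℝ) ^ 2 := by
    unfold bav
    rw [card_bx]
    push_cast
    rw [inv_mul_eq_div]
  rw [e1, e2, ← sub_div, abs_div, abs_of_pos (by positivity : (0 : ℝ) < (L : ℝ) ^ 2)]
  rw [div_le_div_iff₀ (by positivity) hLr]
  have hsub : pos L r ⊆ bx L := Lc279.pos_subset L r
  have h1 : |∑ x ∈ bx L \ pos L r, Ev (bx L) (Lc279.lat (bx L)) 0 fun z => f fun v => z (x + v)| ≤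
      4 * r * L := by
    refine (Finset.abs_sum_le_sum_abs _ _).trans ?_
    refine (Finset.sum_le_card_nsmul _ _ 1 fun x _ => abs_Ev_le fun h => hf.bd _).trans ?_
    have h2 := card_layer L r
    rw [nsmul_eq_mul, mul_one]
    calc ((bx L \ pos L r).card : ℝ) ≤ ((4 * r * L : ℕ) : ℝ) := by exact_mod_cast h2
      _ = _ := by push_cast; ring
  rw [← Finset.sum_sdiff hsub, sub_add_cancel_right, abs_neg]
  have := mul_le_mul_of_nonneg_right h1 hLr.le
  calc _ ≤ 4 * (r : ℝ) * L * L := this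
    _ = _ := by ring

theorem mB_tendsto {m : ((ℤ × ℤ → ℝ) → ℝ) → ℝ}
    (hm : ∀ r f, LObs r f → Tendsto (fun L : ℕ => bav L f) atTop (𝓝 (m f)))
    {r : ℕ} {f : (ℤ × ℤ → ℝ) → ℝ} (hf : LObs r f) :
    Tendsto (fun L => mB L r f) atTop (𝓝 (m f)) := by
  have h1 : Tendsto (fun L : ℕ => mB L r f - bav L f) atTop (𝓝 0) := by
    refine squeeze_zero_norm' (a := fun L : ℕ => 4 * (r : ℝ) / L) ?_
      (tendsto_const_div_atTop_nhds_zero_nat _)
    filter_upwards [eventually_gt_atTop 0] with L hL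
    rw [Real.norm_eq_abs]
    exact mB_sub_le hL hf
  have := h1.add (hm r f hf)
  simpa using this

theorem abs_mB_le {L r : ℕ} {f : (ℤ × ℤ → ℝ) → ℝ} (hf : LObs r f) : |mB L r f| ≤ 1 :=
  abs_Ev_le fun h => Lc279.abs_BA_le hf.bd _

/-- Ratio of the sizes. -/
theorem image_ratio (hA : LAut A) (L : ℕ) :
    Tendsto (fun N : ℕ => (((IN A N L).image A).card : ℝ) / (bx N).card) atTop (𝓝 1) := by
  have h1 : Tendsto (fun N : ℕ => 1 - 4 * (2 * (L : ℝ) + 2) / N) atTop (𝓝 1) := by
    simpa using (tendsto_const_div_atTop_nhds_zero_nat (4 * (2 * (L : ℝ) + 2))).const_sub 1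
  refine tendsto_of_tendsto_of_tendsto_of_le_of_le' h1 tendsto_const_nhds ?_ ?_
  · filter_upwards [eventually_gt_atTop 0] with N hN
    have hNr : (0 : ℝ) < N := by exact_mod_cast hN
    have h2 := Finset.card_le_card (pos_sub_image hA (N := N) (L := L))
    have h3 := card_layer N (2 * L + 2)
    have hsub : pos N (2 * L + 2) ⊆ bx N := Lc279.pos_subset N _
    rw [Finset.card_sdiff_of_subset hsub, card_bx, Nat.sub_le_iff_le_add] at h3
    rw [card_bx]
    have h4 : (N : ℝ) ^ 2 ≤ 4 * (2 * L + 2) * N + ((IN A N L).image A).card := by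
      have : ((N ^ 2 : ℕ) : ℝ) ≤ ((4 * (2 * L + 2) * N + ((IN A N L).image A).card : ℕ) : ℝ) := by
        exact_mod_cast h3.trans (Nat.add_le_add_left h2 _)
      push_cast at this
      exact this
    rw [le_div_iff₀ (by positivity)]
    push_cast
    have h5 : (1 - 4 * (2 * (L : ℝ) + 2) / N) * (N : ℝ) ^ 2 =
        (N : ℝ) ^ 2 - 4 * (2 * L + 2) * N := by
      field_simp
    rw [h5]; linarith
  · filter_upwards [eventually_gt_atTop 0] with N hN
    have hNr : (0 : ℝ) < (bx N).card := by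
      rw [card_bx]; positivity
    rw [div_le_one hNr]
    exact_mod_cast Finset.card_le_card (image_sub (A := A) (N := N) (L := L))

/-- The expected deviation of the box averages is small. -/
theorem dev_le {m : ((ℤ × ℤ → ℝ) → ℝ) → ℝ}
    (hm : ∀ r f, LObs r f → Tendsto (fun L : ℕ => bav L f) atTop (𝓝 (m f)))
    {r : ℕ} {f : (ℤ × ℤ → ℝ) → ℝ} (hf : LObs r f) {a : ℝ} (ha : 0 < a) (ha1 : a ≤ 1) :
    ∃ L0 : ℕ, ∀ L, L0 ≤ L → ∀ A : ℤ × ℤ ≃+ ℤ × ℤ, LAut A →
      m (dev A L r f (mB L r f)) ≤ 5 * a / 2 := by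
  obtain ⟨L0, H⟩ := sum_class hf ha ha1
  refine ⟨L0, fun L hL A hA => ?_⟩
  obtain ⟨r', hr'⟩ := dev_LObs (A := A) (L := L) hf (abs_mB_le (L := L) hf)
  set g := dev A L r f (mB L r f) with hg
  have h1 := hm r' g hr'
  have h2 : Tendsto (fun N : ℕ => 5 * a / 2 +
      2 * (1 - (((IN A N L).image A).card : ℝ) / (bx N).card)) atTop (𝓝 (5 * a / 2)) := by
    have := (((image_ratio hA L).const_sub 1).const_mul 2).const_add (5 * a / 2)
    simpa using this
  refine le_of_tendsto_of_tendsto h1 h2 ?_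
  have hr1 : ∀ᶠ N : ℕ in atTop, ((IN A N L).image A).Nonempty := by
    have := (image_ratio hA L).eventually (lt_mem_nhds (show (0 : ℝ) < 1 by norm_num))
    filter_upwards [this] with N hN
    rw [← Finset.card_pos]
    by_contra h0
    have : ((IN A N L).image A).card = 0 := by omega
    rw [this] at hN
    simp at hN
  filter_upwards [H L hL, hr1] with N hN hne
  have h3 : ∑ x ∈ IN A N L, Ev (bx N) (Lc279.lat (bx N)) 0
        (fun z => |BA L r f (fun v => z (A (x + v))) - mB L r f|) ≤ 5 * a * (IN A N L).card := by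
    rw [sum_sig]
    refine (Finset.sum_le_sum fun u hu => hN A hA u hu).trans ?_
    rw [← Finset.mul_sum]
    have := sum_sig (A := A) (N := N) (L := L) fun _ => 1
    simp only [Finset.sum_const, nsmul_eq_mul, mul_one] at this
    rw [this]
  set G : ℤ × ℤ → ℝ := fun y => Ev (bx N) (Lc279.lat (bx N)) 0 fun z => g fun a => z (y + a) with hG
  have hGb : ∀ y, |G y| ≤ 1 := fun y => abs_Ev_le fun h => hr'.bd _
  have h4 : ∑ x ∈ IN A N L, Ev (bx N) (Lc279.lat (bx N)) 0
        (fun z => |BA L r f (fun v => z (A (x + v))) - mB L r f|) = 2 * ∑ x ∈ IN A N L, G (A x) := by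
    rw [Finset.mul_sum]
    refine Finset.sum_congr rfl fun x _ => ?_
    simp only [dev_shift]
    rw [hG]
    show ∫ y, 2 * g _ ∂_ = 2 * ∫ y, g _ ∂_
    rw [integral_const_mul]
  have h5 : ∑ x ∈ IN A N L, G (A x) = ∑ y ∈ (IN A N L).image A, G y := by
    rw [Finset.sum_image fun a _ b _ h => A.injective h]
  have hcard : ((IN A N L).image A).card = (IN A N L).card :=
    Finset.card_image_of_injective _ A.injective
  have h6 := avg_sub_le (image_sub (A := A) (N := N) (L := L)) hne hGb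
  have h7 : bav N g = ((bx N).card : ℝ)⁻¹ * ∑ y ∈ bx N, G y := rfl
  rw [← h7] at h6
  have h8 : (((IN A N L).image A).card : ℝ)⁻¹ * ∑ y ∈ (IN A N L).image A, G y ≤ 5 * a / 2 := by
    have hpos : (0 : ℝ) < ((IN A N L).image A).card := by exact_mod_cast hne.card_pos
    rw [inv_mul_le_iff₀ hpos, ← h5, hcard]
    linarith
  have h9 := (abs_le.mp h6).1
  linarith

/-- **Ergodicity of `μ₀` and covariance.** -/
theorem IsMu0.erg_aut {μ : Measure (ℤ × ℤ → ℝ)} {m : ((ℤ × ℤ → ℝ) → ℝ) → ℝ} (H : IsMu0 μ m)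
    (hm : ∀ r f, LObs r f → Tendsto (fun L : ℕ => bav L f) atTop (𝓝 (m f)))
    {r : ℕ} {f : (ℤ × ℤ → ℝ) → ℝ} (hf : LObs r f) (hA : LAut A) :
    Tendsto (fun L => ∫ h, |BA L r f (fun v => h (A v)) - m f| ∂μ) atTop (𝓝 0) := by
  have := H.prob
  rw [Metric.tendsto_atTop]
  intro ε hε
  set a : ℝ := min 1 (ε / 12) with ha
  have ha0 : 0 < a := lt_min one_pos (by positivity)
  have ha1 : a ≤ 1 := min_le_left _ _
  have ha2 : a ≤ ε / 12 := min_le_right _ _
  obtain ⟨L0, h0⟩ := dev_le hm hf ha0 ha1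
  obtain ⟨L1, h1⟩ := Metric.tendsto_atTop.mp (mB_tendsto hm hf) (ε / 3) (by positivity)
  refine ⟨max L0 L1, fun L hL => ?_⟩
  have h2 := h0 L ((le_max_left _ _).trans hL) A hA
  have h3 := h1 L ((le_max_right _ _).trans hL)
  rw [Real.dist_eq] at h3
  obtain ⟨r', hr'⟩ := dev_LObs (A := A) (L := L) hf (abs_mB_le (L := L) hf)
  rw [← H.eq r' _ hr'] at h2
  have hmeas : Measurable fun h : ℤ × ℤ → ℝ => BA L r f fun v => h (A v) :=
    (Lc279.measurable_BA hf.meas).comp (measurable_pi_lambda _ fun v => measurable_pi_apply _)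
  have hb : ∀ h : ℤ × ℤ → ℝ, |BA L r f fun v => h (A v)| ≤ 1 := fun h => Lc279.abs_BA_le hf.bd _
  have hi : ∀ c : ℝ, Integrable (fun h : ℤ × ℤ → ℝ => |BA L r f (fun v => h (A v)) - c|) μ := by
    intro c
    refine Integrable.of_bound (C := 1 + |c|) ((hmeas.sub_const _).abs).aestronglyMeasurable
      (Eventually.of_forall fun h => ?_)
    rw [Real.norm_eq_abs, abs_abs]
    exact (abs_sub _ _).trans (by linarith [hb h])
  have h4 : ∫ h, |BA L r f (fun v => h (A v)) - m f| ∂μ ≤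
      ∫ h, (|BA L r f (fun v => h (A v)) - mB L r f| + |mB L r f - m f|) ∂μ :=
    integral_mono (hi _) ((hi _).add (integrable_const _)) fun h => abs_sub_le _ _ _
  rw [integral_add (hi _) (integrable_const _), integral_const] at h4
  simp only [probReal_univ, smul_eq_mul, one_mul] at h4
  have h5 : ∫ h, |BA L r f (fun v => h (A v)) - mB L r f| ∂μ = 2 * ∫ h, dev A L r f (mB L r f) h ∂μ := by
    rw [← integral_const_mul]
    refine integral_congr_ae (Eventually.of_forall fun h => ?_)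
    unfold dev
    simp only
    ring
  rw [h5] at h4
  have h6 : 0 ≤ ∫ h, |BA L r f (fun v => h (A v)) - m f| ∂μ := integral_nonneg fun h => abs_nonneg _
  rw [Real.dist_eq, sub_zero, abs_of_nonneg h6]
  linarith

/-! ### Invariance under automorphisms -/

theorem LObs.aut {r : ℕ} {f : (ℤ × ℤ → ℝ) → ℝ} (hf : LObs r f) (hA : LAut A) :
    LObs r fun h => f fun v => h (A v) where
  meas := hf.meas.comp (measurable_pi_lambda _ fun a => measurable_pi_apply _)
  bd := fun h => hf.bd _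
  loc := by
    intro h h' hh
    refine hf.loc _ _ fun a ha => hh _ ?_
    rw [mem_hball] at ha ⊢
    have := hA a 0
    rw [map_zero] at this
    rw [this]; exact ha
  shift := fun h c => hf.shift (fun v => h (A v)) c

theorem IsMu0.trans_eq {μ : Measure (ℤ × ℤ → ℝ)} {m : ((ℤ × ℤ → ℝ) → ℝ) → ℝ} (H : IsMu0 μ m)
    {r : ℕ} {f : (ℤ × ℤ → ℝ) → ℝ} (hf : LObs r f) (x : ℤ × ℤ) :
    ∫ h, f (fun a => h (x + a)) ∂μ = ∫ h, f h ∂μ := by
  have h1 := H.trans x
  calc ∫ h, f (fun a => h (x + a)) ∂μ = ∫ h, f (shft x h) ∂μ := by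
        refine integral_congr_ae (Eventually.of_forall fun h => ?_)
        exact (hf.shft_eq x h).symm
    _ = ∫ h, f h ∂(μ.map (shft x)) :=
        (integral_map (measurable_shft x).aemeasurable hf.meas.aestronglyMeasurable).symm
    _ = _ := by rw [h1]

/-- **Automorphisms.** -/
theorem IsMu0.aut_eq {μ : Measure (ℤ × ℤ → ℝ)} {m : ((ℤ × ℤ → ℝ) → ℝ) → ℝ} (H : IsMu0 μ m)
    (hm : ∀ r f, LObs r f → Tendsto (fun L : ℕ => bav L f) atTop (𝓝 (m f)))
    {r : ℕ} {f : (ℤ × ℤ → ℝ) → ℝ} (hf : LObs r f) (hA : LAut A) :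
    ∫ h, f (fun v => h (A v)) ∂μ = ∫ h, f h ∂μ := by
  have := H.prob
  rw [H.eq r f hf]
  have h1 := H.erg_aut hm hf hA
  have hint : ∀ x, Integrable (fun h : ℤ × ℤ → ℝ => f fun v => h (A (x + v))) μ := by
    intro x
    refine Integrable.of_bound (C := 1) ?_ (Eventually.of_forall fun h => ?_)
    · exact (hf.meas.comp (measurable_pi_lambda _ fun v => measurable_pi_apply _)).aestronglyMeasurable
    · rw [Real.norm_eq_abs]; exact hf.bd _
  -- expectation of the box average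
  have h2 : ∀ L : ℕ, ∫ h, BA L r f (fun v => h (A v)) ∂μ =
      ((pos L r).card / (L : ℝ) ^ 2) * ∫ h, f (fun v => h (A v)) ∂μ := by
    intro L
    unfold BA
    rw [integral_div, integral_finsetSum _ fun x _ => hint x]
    have : ∀ x ∈ pos L r, ∫ h, f (fun v => h (A (x + v))) ∂μ = ∫ h, f (fun v => h (A v)) ∂μ := by
      intro x _
      have := H.trans_eq (hf.aut hA) (A x)
      rw [← this]
      simp only [map_add]
    rw [Finset.sum_congr rfl this, Finset.sum_const, nsmul_eq_mul]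
    ring
  have h3 : Tendsto (fun L : ℕ => ((pos L r).card : ℝ) / (L : ℝ) ^ 2) atTop (𝓝 1) := by
    have h4 : Tendsto (fun L : ℕ => 1 - 4 * (r : ℝ) / L) atTop (𝓝 1) := by
      simpa using (tendsto_const_div_atTop_nhds_zero_nat (4 * (r : ℝ))).const_sub 1
    refine tendsto_of_tendsto_of_tendsto_of_le_of_le' h4 tendsto_const_nhds ?_ ?_
    · filter_upwards [eventually_gt_atTop 0] with L hL
      have hLr : (0 : ℝ) < L := by exact_mod_cast hL
      have h5 := card_layer L r
      rw [Finset.card_sdiff_of_subset (Lc279.pos_subset L r), card_bx,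
        Nat.sub_le_iff_le_add] at h5
      have h6 : (L : ℝ) ^ 2 ≤ 4 * r * L + (pos L r).card := by
        have : ((L ^ 2 : ℕ) : ℝ) ≤ ((4 * r * L + (pos L r).card : ℕ) : ℝ) := by exact_mod_cast h5
        push_cast at this
        exact this
      rw [le_div_iff₀ (by positivity)]
      have h7 : (1 - 4 * (r : ℝ) / L) * (L : ℝ) ^ 2 = (L : ℝ) ^ 2 - 4 * r * L := by field_simp
      rw [h7]; linarith
    · filter_upwards [eventually_gt_atTop 0] with L hL
      rw [div_le_one (by positivity)]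
      exact_mod_cast Lc279.card_pos_le L r
  have h4 : Tendsto (fun L : ℕ => ∫ h, BA L r f (fun v => h (A v)) ∂μ - m f) atTop (𝓝 0) := by
    refine squeeze_zero_norm' (Eventually.of_forall fun L => ?_) h1
    have hi : Integrable (fun h : ℤ × ℤ → ℝ => BA L r f fun v => h (A v)) μ := by
      unfold BA
      exact (integrable_finsetSum _ fun x _ => hint x).div_const _
    have e : ∫ h, BA L r f (fun v => h (A v)) ∂μ - m f =
        ∫ h, (BA L r f (fun v => h (A v)) - m f) ∂μ := by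
      rw [integral_sub hi (integrable_const _), integral_const]
      simp
    rw [e]
    exact norm_integral_le_integral_norm _
  simp only [h2] at h4
  have h5 := (h3.mul_const (∫ h, f (fun v => h (A v)) ∂μ)).sub_const (m f)
  have h6 := tendsto_nhds_unique h4 h5
  linarith

theorem measurable_aut (A : ℤ × ℤ ≃+ ℤ × ℤ) :
    Measurable fun (h : ℤ × ℤ → ℝ) (v : ℤ × ℤ) => h (A v) :=
  measurable_pi_lambda _ fun v => measurable_pi_apply _

/-- **`μ₀` is invariant under lattice automorphisms.** -/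
theorem IsMu0.map_aut {μ : Measure (ℤ × ℤ → ℝ)} {m : ((ℤ × ℤ → ℝ) → ℝ) → ℝ} (H : IsMu0 μ m)
    (hm : ∀ r f, LObs r f → Tendsto (fun L : ℕ => bav L f) atTop (𝓝 (m f)))
    (hA : LAut A) : μ.map (fun h v => h (A v)) = μ := by
  have := H.prob
  have hpx : IsProbabilityMeasure (μ.map fun (h : ℤ × ℤ → ℝ) v => h (A v)) :=
    Measure.isProbabilityMeasure_map (measurable_aut A).aemeasurable
  refine ext_of_LObs ?_ H.pin ?_
  · rw [ae_map_iff (measurable_aut A).aemeasurable
      (measurableSet_eq_fun (measurable_pi_apply 0) measurable_const)]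
    filter_upwards [H.pin] with h hh
    rw [map_zero, hh]
  · intro r f hf
    rw [integral_map (measurable_aut A).aemeasurable hf.meas.aestronglyMeasurable]
    exact H.aut_eq hm hf hA

/-! ### Ergodicity, box averages -/





end Crest.Agent.R144.Lw425
end
end

-- ▼ part R144/Lmu6_425

/-!
R144 (S0197), helper425.  Lmu6: the plane state `mu0` (a measure), unconditional.

* `bav_tendsto` : convergence of the box averages (279's `tendsto_mB`);
* `mu0`, `isMu0` : the plane state and its properties;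
* `mu0_inv` : 565's structure `Inv`;
* `mu0_erg`, `mu0_aut` : ergodicity in `L¹`, lattice automorphisms.
-/

set_option autoImplicit false

open MeasureTheory Set Filter Topology
open scoped ENNReal

noncomputable section

namespace Crest.Agent.R144.Lw425

open Crest.Agent.R144.Ham560
open Crest.Agent.R144.Lc279 (Ev bx mem_bx card_bx anch_bx card_nbr_lat_le mem_nbr_lat cl mem_cl
  bx_sub_cl cl_of_adj Ch BCh Cov DS cnt BA mB pos mem_pos hd_add m0)

theorem bav_eq {L r : ℕ} {f : (ℤ × ℤ → ℝ) → ℝ} (hf : LObs r f) : bav L f = mB L 0 f := by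
  have := isProb_bxP L
  have hint : ∀ x ∈ pos L 0, Integrable (fun y => f fun v => fh L y (x + v)) (bxP L) := by
    intro x _
    refine Integrable.of_bound (C := 1) ?_ (Eventually.of_forall fun y => ?_)
    · exact ((hf.meas.comp (measurable_pi_lambda _ fun v => measurable_pi_apply _)).comp
        (measurable_fh L)).aestronglyMeasurable
    · rw [Real.norm_eq_abs]; exact hf.bd _
  unfold mB
  have h1 : Ev (bx L) (Lc279.lat (bx L)) 0 (BA L 0 f) =
      ∫ y, (∑ x ∈ pos L 0, f fun v => fh L y (x + v)) / (L : ℝ) ^ 2 ∂(bxP L) := rfl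
  rw [h1, integral_div, integral_finsetSum _ hint, Lc279.pos_zero]
  unfold bav
  rw [card_bx]
  push_cast
  rw [inv_mul_eq_div]
  rfl

theorem bav_tendsto : ∀ r f, LObs r f → Tendsto (fun L : ℕ => bav L f) atTop (𝓝 (m0 f)) := by
  intro r f hf
  simp only [bav_eq hf]
  exact Lc279.tendsto_mB hf

/-- **The plane state** (279's term). -/
abbrev mu0 : Measure (ℤ × ℤ → ℝ) := Lc279.mu0

theorem isMu0 : IsMu0 mu0 m0 := Lc279.isMu0

/-- The rotation by 120 degrees. -/
def rotA : ℤ × ℤ ≃+ ℤ × ℤ where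
  toFun v := (-v.1 - v.2, v.1)
  invFun v := (v.2, -v.1 - v.2)
  left_inv v := by ext <;> simp only <;> ring
  right_inv v := by ext <;> simp only <;> ring
  map_add' v w := by ext <;> simp only [Prod.fst_add, Prod.snd_add] <;> ring

theorem LAut_rotA : LAut rotA := by
  intro a b
  have h : ∀ k : ℤ, hd (rotA a) (rotA b) ≤ k ↔ hd a b ≤ k := fun k => by
    rw [hd_le_iff, hd_le_iff]
    show _ ∧ _ ∧ _ ↔ _
    simp only [rotA, AddEquiv.coe_mk, Equiv.coe_fn_mk]
    omega
  exact le_antisymm ((h _).mpr le_rfl) ((h _).mp le_rfl)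

theorem mu0_aut {A : ℤ × ℤ ≃+ ℤ × ℤ} (hA : LAut A) : mu0.map (fun h v => h (A v)) = mu0 :=
  isMu0.map_aut bav_tendsto hA


theorem mu0_inv : Bl565.Inv mu0 where
  prob := isMu0.prob
  trans := isMu0.trans
  rot := mu0_aut LAut_rotA

end Crest.Agent.R144.Lw425
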