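import Mathlib
import Crest.Agent.R144.Skel97_144
import Crest.Agent.R144.MW1_121

/-!
# R144 (S0197), top glue, version for the untilted law (helper144; docs 1739, 1760)

`UpperB0 u`, `FieldAt I v ε n`, `FieldB l`: the one-sided bounds at `s = 0`, the lower one in the
form of a tangent field (`MW121.Tan`) with `E tr (jac Y * jac Y) ≤ v + ε`, `E |X'(Y) - v| ≤ ε`.

`exists_kappa0`: one constant `κ`, `0 < κ ≤ 2/π`, with `Var ≤ κ g + ε` and `FieldAt I (κ g) ε n`
eventually, for every instance.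
-/

set_option autoImplicit false

namespace Crest.Agent.R144.Skel144

open Filter Topology Metric MeasureTheory ProbabilityTheory
open Crest.ProbabilityR.TriHeights Crest.Agent.R144.Ham560 Crest.Agent.R144.Tilt714
open Crest.Agent.R144
open scoped NNReal ENNReal Real ContDiff

section abs

set_option linter.unusedSectionVars false

variable {V : Type*} [Fintype V] [DecidableEq V]

/-- normalised volume of a set -/
lemma integral_unif {K : Set (V → ℝ)} (G : (V → ℝ) → ℝ) :
    ∫ x, G x ∂((volume K)⁻¹ • volume.restrict K) = (volume K).toReal⁻¹ * ∫ x in K, G x := by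
  rw [integral_smul_measure, ENNReal.toReal_inv, smul_eq_mul]

/-- Cramer-Rao in trace form for the normalised volume -/
theorem cramer_rao_trace {Y : (V → ℝ) → (V → ℝ)} {c : ℝ≥0} {K : Set (V → ℝ)} {t0 : ℝ}
    (hT : MW121.Tan K Y c t0) (hK : MeasurableSet K) (hKb : Bornology.IsBounded K)
    {G : (V → ℝ) → ℝ} {L : ℝ≥0} (hG : LipschitzWith L G) (m : ℝ) :
    2 * (∫ h in K, fderiv ℝ G h (Y h)) - (∫ h in K, (MW121.jac Y h * MW121.jac Y h).trace) ≤
      ∫ h in K, (G h - m) ^ 2 := by
  have hm : LipschitzWith L (fun h => G h - m) := by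
    intro x y
    simpa using hG x y
  have h1 := MW121.ibp hT hK hKb hm
  have h2 := MW121.reilly hT hK hKb
  have hfd : ∀ h, fderiv ℝ (fun h => G h - m) h = fderiv ℝ G h := fun h => fderiv_sub_const m
  simp only [hfd] at h1
  have hi1 : IntegrableOn (fun h => (G h - m) * (MW121.jac Y h).trace) K :=
    MW121.integrableOn_mul_trace hT.lip hK hKb hm
  obtain ⟨M, hM0, hM⟩ := MW121.exists_lip_bound hKb hm
  have hi2 : IntegrableOn (fun h => (G h - m) ^ 2) K := by
    refine MW121.integrableOn_of_bound hK hKb ?_ (M := M ^ 2) ?_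
    · exact ((hm.continuous.measurable).pow_const 2).aestronglyMeasurable
    · intro h hh
      rw [abs_pow]
      exact pow_le_pow_left₀ (abs_nonneg _) (by simpa using hM h hh) 2
  have hi3 : IntegrableOn (fun h => (MW121.jac Y h).trace ^ 2) K := by
    refine MW121.integrableOn_of_bound hK hKb
      ((MW121.measurable_trace Y).pow_const 2).aestronglyMeasurable
      (M := (Fintype.card V * (c : ℝ)) ^ 2) ?_
    intro h _
    rw [abs_pow]
    exact pow_le_pow_left₀ (abs_nonneg _) (MW121.abs_trace_le hT.lip h) 2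
  have h3 : 0 ≤ ∫ h in K, ((G h - m) + (MW121.jac Y h).trace) ^ 2 :=
    integral_nonneg fun h => sq_nonneg _
  have h4 : ∫ h in K, ((G h - m) + (MW121.jac Y h).trace) ^ 2 =
      (∫ h in K, (G h - m) ^ 2) + 2 * (∫ h in K, (G h - m) * (MW121.jac Y h).trace) +
        ∫ h in K, (MW121.jac Y h).trace ^ 2 := by
    have i4 : IntegrableOn (fun h => 2 * ((G h - m) * (MW121.jac Y h).trace)) K := hi1.const_mul 2
    have i5 : IntegrableOn (fun h => (G h - m) ^ 2 + 2 * ((G h - m) * (MW121.jac Y h).trace)) K :=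
      hi2.add i4
    rw [← integral_const_mul, ← integral_add hi2 i4, ← integral_add i5 hi3]
    refine integral_congr_ae (Eventually.of_forall fun h => ?_)
    simp only
    ring
  linarith

end abs

/-- upper variance bound, untilted law -/
def UpperB0 (u : ℝ) : Prop :=
  ∀ I : Inst, ∀ ε : ℝ, 0 < ε → ∀ᶠ n in atTop, Var[I.X n; I.P0 n] ≤ u * I.g + ε

/-- a Stein field with value `v` up to `ε` -/
def FieldAt (I : Inst) (v ε : ℝ) (n : ℕ) : Prop :=
  ∃ (Y : (I.Fr n → ℝ) → (I.Fr n → ℝ)) (c : ℝ≥0) (t0 : ℝ),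
    MW121.Tan (ham (I.Fr n) (I.Ed n) (I.xi n)) Y c t0 ∧
    ∫ x, (MW121.jac Y x * MW121.jac Y x).trace ∂(I.P0 n) ≤ v + ε ∧
    ∫ x, |fderiv ℝ (I.X n) x (Y x) - v| ∂(I.P0 n) ≤ ε


section inst

variable (I : Inst) (n : ℕ)

lemma ham_measurable : MeasurableSet (ham (I.Fr n) (I.Ed n) (I.xi n)) :=
  isClosed_ham.measurableSet

lemma ham_bounded : Bornology.IsBounded (ham (I.Fr n) (I.Ed n) (I.xi n)) :=
  (I.isCompact_ham n).isBounded

lemma vol_ne_zero : volume (ham (I.Fr n) (I.Ed n) (I.xi n)) ≠ 0 :=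
  volume_ham_ne_zero (I.abs_xi_le n)


lemma P0_eq : I.P0 n = (volume (ham (I.Fr n) (I.Ed n) (I.xi n)))⁻¹ •
    volume.restrict (ham (I.Fr n) (I.Ed n) (I.xi n)) := rfl

/-- the affine pairing is Lipschitz -/
lemma lip_X : ∃ L : ℝ≥0, LipschitzWith L (I.X n) := by
  -- linear part
  let A : (I.Fr n → ℝ) →ₗ[ℝ] ℝ :=
    { toFun := fun x => I.X n x - I.X n 0
      map_add' := by
        intro x y
        have h1 := pairX_affine (I.δ n) (I.T n) (I.Ap n) (I.Am n) I.a I.f
          ((2 : ℝ) • x) ((2 : ℝ) • y) (1 / 2)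
        have h2 := pairX_affine (I.δ n) (I.T n) (I.Ap n) (I.Am n) I.a I.f
          ((2 : ℝ) • x) 0 (1 / 2)
        have h3 := pairX_affine (I.δ n) (I.T n) (I.Ap n) (I.Am n) I.a I.f
          ((2 : ℝ) • y) 0 (1 / 2)
        have e1 : (1 - (1 / 2 : ℝ)) • (2 : ℝ) • x + (1 / 2 : ℝ) • (2 : ℝ) • y = x + y := by
          ext i; simp; ring
        have e2 : (1 - (1 / 2 : ℝ)) • (2 : ℝ) • x + (1 / 2 : ℝ) • (0 : I.Fr n → ℝ) = x := by
          ext i; simp; ring
        have e3 : (1 - (1 / 2 : ℝ)) • (2 : ℝ) • y + (1 / 2 : ℝ) • (0 : I.Fr n → ℝ) = y := by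
          ext i; simp; ring
        rw [e1] at h1
        rw [e2] at h2
        rw [e3] at h3
        show I.X n (x + y) - I.X n 0 = (I.X n x - I.X n 0) + (I.X n y - I.X n 0)
        simp only [Inst.X] at *
        linarith
      map_smul' := by
        intro r x
        show I.X n (r • x) - I.X n 0 = r • (I.X n x - I.X n 0)
        have h1 := pairX_affine (I.δ n) (I.T n) (I.Ap n) (I.Am n) I.a I.f 0 x r
        have e1 : (1 - r) • (0 : I.Fr n → ℝ) + r • x = r • x := by simp
        rw [e1] at h1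
        simp only [Inst.X, smul_eq_mul] at *
        linarith }
  have hA : ∀ x, I.X n x = LinearMap.toContinuousLinearMap A x + I.X n 0 := by
    intro x
    show I.X n x = (I.X n x - I.X n 0) + I.X n 0
    ring
  refine ⟨‖LinearMap.toContinuousLinearMap A‖₊, ?_⟩
  have h1 := (LinearMap.toContinuousLinearMap A).lipschitz
  intro x y
  rw [hA x, hA y]
  simpa using h1 x y


/-- moving the value of a Stein field -/
theorem FieldAt.move {I : Inst} {v v' ε ε' : ℝ} {n : ℕ} (h : FieldAt I v ε n)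
    (hv : |v - v'| ≤ ε' - ε) : FieldAt I v' ε' n := by
  obtain ⟨Y, c, t0, hT, h1, h2⟩ := h
  obtain ⟨L, hL⟩ := lip_X I n
  have hv' := abs_le.mp hv
  refine ⟨Y, c, t0, hT, by linarith, ?_⟩
  have hi : Integrable (fun x => fderiv ℝ (I.X n) x (Y x)) (I.P0 n) := by
    have := MW121.integrableOn_fderiv_apply hT.lip (ham_measurable I n) (ham_bounded I n) hL
    exact this.smul_measure (ENNReal.inv_ne_top.mpr (vol_ne_zero I n))
  have i1 : Integrable (fun x => |fderiv ℝ (I.X n) x (Y x) - v|) (I.P0 n) :=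
    (hi.sub (integrable_const v)).abs
  have i2 : Integrable (fun x => |fderiv ℝ (I.X n) x (Y x) - v'|) (I.P0 n) :=
    (hi.sub (integrable_const v')).abs
  calc ∫ x, |fderiv ℝ (I.X n) x (Y x) - v'| ∂(I.P0 n)
      ≤ ∫ x, (|fderiv ℝ (I.X n) x (Y x) - v| + |v - v'|) ∂(I.P0 n) := by
        refine integral_mono i2 (i1.add (integrable_const _)) fun x => ?_
        exact abs_sub_le _ _ _
    _ = (∫ x, |fderiv ℝ (I.X n) x (Y x) - v| ∂(I.P0 n)) + |v - v'| := by
        rw [integral_add i1 (integrable_const _), integral_const, probReal_univ, one_smul]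
    _ ≤ ε' := by linarith

end inst

lemma g_nonneg0 {u : ℝ} (hu : 0 < u) (hU : UpperB0 u) (I : Inst) : 0 ≤ I.g := by
  by_contra hg
  push Not at hg
  have h1 := hU I (-(u * I.g) / 2) (by nlinarith [mul_neg_of_pos_of_neg hu hg])
  obtain ⟨n, hn⟩ := h1.exists
  have h2 : 0 ≤ Var[I.X n; I.P0 n] := variance_nonneg _ _
  nlinarith [mul_neg_of_pos_of_neg hu hg]




end Crest.Agent.R144.Skel144
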