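import Crest.Agent.R144.Seg_549
import Crest.Agent.R144.Con6_549
import Mathlib
import Crest.Agent.R144.Skel98_144
import Crest.Agent.R144.Cnt2_268
import Crest.Agent.R144.Bl3_565
import Crest.Agent.R144.Lc12_279
import Crest.Agent.R144.Con4_549
import Crest.Agent.R144.Lmu6_425
import Crest.Agent.R144.LoC0_95

-- ▼ part R144/Con7_549
section

/-!
# R144, continuum side, part 7 (helper549)

Partition of unity adapted to the segment property.
-/

set_option autoImplicit false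

open MeasureTheory Metric Set Filter Topology
open scoped ContDiff Manifold

namespace Crest.Agent.R144.Con549

noncomputable section

/-- finite partition of unity of `closure D` with inward directions -/
structure PushData (D : Set ℂ) where
  ι : Type
  fin : Fintype ι
  χ : ι → ℂ → ℝ
  ν : ι → ℂ
  t0 : ℝ
  t0pos : 0 < t0
  smooth : ∀ i, ContDiff ℝ ∞ (χ i)
  comp : ∀ i, HasCompactSupport (χ i)
  nonneg : ∀ i z, 0 ≤ χ i z
  le_one : ∀ i z, χ i z ≤ 1
  sum : ∀ z ∈ closure D, ∑ i, χ i z = 1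
  push : ∀ i, ∀ z ∈ closure D, z ∈ tsupport (χ i) → ∀ t : ℝ, 0 < t → t < t0 → z + t * ν i ∈ D

attribute [instance] PushData.fin



end

end Crest.Agent.R144.Con549
end

-- ▼ part R144/Con8_549
section

/-!
# R144, continuum side, part 8 (helper549)

Pushing a flow out of the domain: a flow on `D` is replaced by a smooth flow on a neighbourhood of
`closure D` with the same divergence and comparable energy.
-/

set_option autoImplicit false

open MeasureTheory Metric Set Filter Topology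
open scoped ComplexConjugate ContDiff

namespace Crest.Agent.R144.Con549

open Crest.Agent.R161.Green722
open Crest.ProbabilityR.HexHeights (domainGreenForm)

noncomputable section

namespace PushData

variable {D : Set ℂ} (P : PushData D)

/-- pushed field -/
def J (J0 : ℂ → ℂ) (t : ℝ) (z : ℂ) : ℂ :=
  ∑ i, P.χ i z • J0 (z + t * P.ν i)

/-- the set on which the pushed field is smooth -/
def N (t : ℝ) : Set ℂ := {z | ∀ i, z ∈ tsupport (P.χ i) → z + t * P.ν i ∈ D}







/-- square density of the field inside `D` -/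
def G2 (D : Set ℂ) (J0 : ℂ → ℂ) : ℂ → ℝ := D.indicator fun z => ‖J0 z‖ ^ 2


/-- number of patches -/
def n : ℝ := (Fintype.card P.ι : ℝ)


/-- the sum of the shifted square densities -/
def S (J0 : ℂ → ℂ) (t : ℝ) (z : ℂ) : ℝ := ∑ i, G2 D J0 (z + t * P.ν i)



theorem exists_M : ∃ M : ℝ, 0 ≤ M ∧ ∀ i z, ‖fderiv ℝ (P.χ i) z‖ ≤ M := by
  have h1 : ∀ i, ∃ C : ℝ, ∀ z, ‖fderiv ℝ (P.χ i) z‖ ≤ C := fun i =>
    ((P.smooth i).continuous_fderiv (by simp)).bounded_above_of_compact_support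
      ((P.comp i).fderiv (𝕜 := ℝ))
  choose C hC using h1
  refine ⟨∑ i, |C i|, Finset.sum_nonneg fun i _ => abs_nonneg _, fun i z => ?_⟩
  exact ((hC i z).trans (le_abs_self _)).trans
    (Finset.single_le_sum (f := fun i => |C i|) (fun i _ => abs_nonneg _) (Finset.mem_univ i))




end PushData

end

end Crest.Agent.R144.Con549
end

-- ▼ part R144/Con10_549
section

/-!
# R144, continuum side, part 10 (helper549)

The sharp flow: `div J = f` near `D`, `∫ |J|² ≤ domainGreenForm φ f + ε`, and the variational formula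
`domainGreenForm φ f = sup (2 ∫ f u - ∫ |∇u|²)`.
-/

set_option autoImplicit false

open MeasureTheory Metric Set Filter Topology Laplacian InnerProductSpace
open scoped ComplexConjugate ContDiff

namespace Crest.Agent.R144.Con549

open Crest.Agent.R161.Green722
open Crest.ProbabilityR.HexHeights (domainGreenForm)

noncomputable section

section var

variable {D : Set ℂ} {φ ψ : ℂ → ℂ}

/-- polarised form of `G_D(f + Δu, f + Δu)` -/
theorem greenForm_add_lap (B : Bih D (ball 0 1) φ ψ) {u f : ℂ → ℝ} (hu : IsTest D u)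
    (hf : IsTest D f) : domainGreenForm φ (fun z => f z + (Δ u) z) =
      domainGreenForm φ f - (2 * (∫ z, u z * f z) - ∫ z, ‖fderiv ℝ u z‖ ^ 2) := by
  have hl := hu.lap
  rw [← DG_self, ← DG_self, DG_add_left B hf hl (hf.add hl), DG_add_right B hf hf hl,
    DG_add_right B hl hf hl, DG_symm B hf hl]
  have e : ∀ g : ℂ → ℝ, IsTest D g → DG φ (Δ u) g = -∫ z, u z * g z := by
    intro g hg
    rw [← DG_neg_lap B hu hg, show (Δ u) = fun z => (-1 : ℝ) * (-(Δ u) z) by funext z; ring,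
      DG_const_mul_left]
    simp only [neg_mul, one_mul, neg_neg]
  rw [e f hf, e _ hl, ← energy_eq hu]
  have h1 : ∫ z, u z * (-(Δ u) z) = -∫ z, u z * (Δ u) z := by
    rw [← integral_neg]
    congr 1
    funext z
    ring
  rw [h1]
  ring

/-- Dirichlet principle, upper bound -/
theorem dirichlet_le (B : Bih D (ball 0 1) φ ψ) {u f : ℂ → ℝ} (hu : IsTest D u)
    (hf : IsTest D f) :
    2 * (∫ z, f z * u z) - ∫ z, ‖fderiv ℝ u z‖ ^ 2 ≤ domainGreenForm φ f := by
  have h := DG_nonneg B (hf.add hu.lap)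
  rw [DG_self, greenForm_add_lap B hu hf] at h
  have : ∫ z, f z * u z = ∫ z, u z * f z := by congr 1; funext z; ring
  rw [this]
  linarith

/-- Dirichlet principle, approximate attainment, with the remainder and the energy -/
theorem exists_dirichlet (B : Bih D (ball 0 1) φ ψ) {f : ℂ → ℝ} (hf : IsTest D f) {ε : ℝ}
    (hε : 0 < ε) : ∃ u : ℂ → ℝ, IsTest D u ∧
      domainGreenForm φ f - ε ≤ 2 * (∫ z, f z * u z) - ∫ z, ‖fderiv ℝ u z‖ ^ 2 ∧
      |domainGreenForm φ (fun z => f z + (Δ u) z)| < ε ∧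
      |domainGreenForm φ f - ∫ z, ‖fderiv ℝ u z‖ ^ 2| < ε := by
  obtain ⟨u, hu, h1, h2⟩ := exists_approx B hf hε
  refine ⟨u, hu, ?_, h1, h2⟩
  have h := (abs_lt.1 h1).2
  rw [greenForm_add_lap B hu hf] at h
  have : ∫ z, f z * u z = ∫ z, u z * f z := by congr 1; funext z; ring
  rw [this]
  linarith

end var


end

end Crest.Agent.R144.Con549
end

-- ▼ part R144/LowL1_549
section

/-!
# R144 (S0197), LOW-LIM (helper549), part 1: test function, region, weights

* `exists_test` : a test function `u` with `∫ f u` and `∫ |∇u|²` close to the Green form;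
* `exists_region` : an open region with null frontier around a compact set;
* `rg I G n` : the free sites in the region; `sites_rg`;
* `fderiv_X` : the derivative of the linear statistic; `tendsto_weights`.
-/

set_option autoImplicit false

open MeasureTheory Metric Set Filter Topology Laplacian
open scoped ComplexConjugate ContDiff

namespace Crest.Agent.R144.LowL549

open Crest.Agent.R144.Skel144 Crest.Agent.R144.Con549 Crest.Agent.R144.Cnt268
open Crest.Agent.R144.Geo268 (Tst wA tri_eventually wA_eq ker_tent wK)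
open Crest.Agent.R144.Ham560 (ext ham ext_mem ext_notMem)
open Crest.ProbabilityR.TriHeights
open Crest.ProbabilityR.HexHeights (centre domainGreenForm)

noncomputable section

variable (I : Inst)

theorem isTest_f : IsTest I.D I.f := ⟨I.hf, I.hfc, I.hfs⟩

/-- the test function -/
theorem exists_test {ε : ℝ} (hε : 0 < ε) : ∃ u : ℂ → ℝ, IsTest I.D u ∧
    |(∫ z, I.f z * u z) - I.g| ≤ ε ∧ |(∫ z, ‖fderiv ℝ u z‖ ^ 2) - I.g| ≤ ε := by
  obtain ⟨ψ, B⟩ := exists_bih I.hD.1 I.hφ I.hbij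
  obtain ⟨u, hu, h1, _, h3⟩ := exists_dirichlet B (isTest_f I) hε
  have h4 := dirichlet_le B hu (isTest_f I)
  have h5 := abs_lt.mp h3
  refine ⟨u, hu, ?_, ?_⟩
  · change |_ - domainGreenForm I.φ I.f| ≤ ε
    rw [abs_le]
    constructor <;> linarith [h5.1, h5.2]
  · change |_ - domainGreenForm I.φ I.f| ≤ ε
    rw [abs_le]
    constructor <;> linarith [h5.1, h5.2]


/-- an open region with null frontier around a compact set -/
theorem exists_region {K D : Set ℂ} (hK : IsCompact K) (hD : IsOpen D) (hKD : K ⊆ D) :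
    ∃ G : Set ℂ, IsOpen G ∧ IsCompact (closure G) ∧ closure G ⊆ D ∧ K ⊆ G ∧
      volume (frontier G) = 0 := by
  have hx : ∀ x ∈ K, ∃ r : ℝ, 0 < r ∧ closedBall x r ⊆ D := by
    intro x hx
    obtain ⟨r, hr, h⟩ := Metric.isOpen_iff.mp hD x (hKD hx)
    exact ⟨r / 2, by positivity, (closedBall_subset_ball (by linarith)).trans h⟩
  choose! r hr hrD using hx
  obtain ⟨t, ht, hcov⟩ := hK.elim_nhds_subcover (fun x => ball x (r x))
    fun x hx => ball_mem_nhds x (hr x hx)
  have hcl : closure (⋃ x ∈ t, ball x (r x)) ⊆ ⋃ x ∈ t, closedBall x (r x) := by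
    refine closure_minimal (iUnion₂_mono fun x _ => ball_subset_closedBall) ?_
    exact t.finite_toSet.isClosed_biUnion fun x _ => isClosed_closedBall
  have hcp : IsCompact (⋃ x ∈ t, closedBall x (r x)) :=
    t.finite_toSet.isCompact_biUnion fun x _ => isCompact_closedBall _ _
  refine ⟨⋃ x ∈ t, ball x (r x), isOpen_biUnion fun x _ => isOpen_ball,
    hcp.of_isClosed_subset isClosed_closure hcl, ?_, hcov, ?_⟩
  · exact hcl.trans (iUnion₂_subset fun x hx => hrD x (ht x hx))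
  · have hsub : frontier (⋃ x ∈ t, ball x (r x)) ⊆ ⋃ x ∈ t, sphere x (r x) := by
      intro z hz
      have ho : IsOpen (⋃ x ∈ t, ball x (r x)) := isOpen_biUnion fun x _ => isOpen_ball
      rw [frontier, ho.interior_eq] at hz
      obtain ⟨x, hx, hzx⟩ := mem_iUnion₂.mp (hcl hz.1)
      refine mem_iUnion₂.mpr ⟨x, hx, ?_⟩
      have h1 : z ∉ ball x (r x) := fun h => hz.2 (mem_iUnion₂.mpr ⟨x, hx, h⟩)
      rw [mem_closedBall] at hzx
      rw [mem_ball, not_lt] at h1
      exact le_antisymm hzx h1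
    refine measure_mono_null hsub ?_
    refine (measure_biUnion_null_iff t.countable_toSet).mpr fun x hx => ?_
    exact Measure.addHaar_sphere_of_ne_zero volume x (hr x (ht x hx)).ne'

/-- the free sites of the region `G` -/
def rg (I : Inst) (G : Set ℂ) (n : ℕ) : Finset (ℤ × ℤ) := by
  classical
  exact (I.Fr n).filter fun v => centre (I.δ n) v ∈ G

theorem mem_rg {I : Inst} {G : Set ℂ} {n : ℕ} {v : ℤ × ℤ} :
    v ∈ rg I G n ↔ v ∈ I.Fr n ∧ centre (I.δ n) v ∈ G := by
  classical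
  unfold rg
  rw [Finset.mem_filter]

theorem rg_subset (G : Set ℂ) (n : ℕ) : rg I G n ⊆ I.Fr n := fun _ hv => (mem_rg.mp hv).1

theorem sites : Sites I.D I.δ I.Fr := sites_tri I.hD I.hM

theorem rg_full {G : Set ℂ} (hG : IsCompact (closure G)) (hGD : closure G ⊆ I.D) :
    ∀ᶠ n in atTop, ∀ v, centre (I.δ n) v ∈ G → v ∈ rg I G n := by
  filter_upwards [(sites I).inn _ hG hGD] with n hn v hv
  exact mem_rg.mpr ⟨hn v (subset_closure hv), hv⟩

theorem sites_rg {G : Set ℂ} (ho : IsOpen G) (hG : IsCompact (closure G)) (hGD : closure G ⊆ I.D)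
    (hnull : volume (frontier G) = 0) : Sites G I.δ (rg I G) where
  opn := ho
  bdd := hG.isBounded.subset subset_closure
  nul := hnull
  pos := I.hM.1
  lim := I.hM.2.1
  inn := by
    intro K hK hKG
    filter_upwards [rg_full I hG hGD] with n hn v hv
    exact hn v (hKG hv)
  out := by
    intro ε hε
    refine Eventually.of_forall fun n v hv => ?_
    exact self_subset_cthickening G (mem_rg.mp hv).2

/-- the derivative of the linear statistic -/
theorem fderiv_X : ∀ᶠ n in atTop, ∀ x Y : I.Fr n → ℝ,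
    fderiv ℝ (I.X n) x Y = ∑ v : I.Fr n, wA (I.δ n) I.f v * Y v := by
  have hT : Tst I.D I.f := ⟨I.hf.continuous, I.hfc, I.hfs⟩
  filter_upwards [tri_eventually I.hD I.hM hT] with n hn x Y
  have hX : ∀ x : I.Fr n → ℝ, I.X n x = ∑ v : I.Fr n, wA (I.δ n) I.f v * x v := by
    intro x
    change affinePairing (I.δ n) (I.T n) I.f (ext (I.Fr n) (I.xi n) x) = _
    rw [hn.2, ← Finset.sum_coe_sort]
    refine Finset.sum_congr rfl fun v _ => ?_
    rw [ext_mem v.2, mul_comm]
  let A : (I.Fr n → ℝ) →L[ℝ] ℝ :=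
    ∑ v : I.Fr n, (wA (I.δ n) I.f v) • (ContinuousLinearMap.proj (R := ℝ) v : (I.Fr n → ℝ) →L[ℝ] ℝ)
  have hA : ∀ x, A x = ∑ v : I.Fr n, wA (I.δ n) I.f v * x v := by
    intro x
    simp [A, _root_.sum_apply]
  have h1 : I.X n = fun x => A x := by
    funext x
    rw [hX, hA]
  rw [h1]
  rw [ContinuousLinearMap.fderiv]
  exact hA Y

/-- the total weight of a test function -/
theorem tendsto_weights {u : ℂ → ℝ} (hu : Continuous u) : Tendsto (fun n =>
    ∑ v ∈ I.Fr n, wA (I.δ n) I.f v * u (centre (I.δ n) v)) atTop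
    (𝓝 (∫ z, I.f z * u z)) := by
  have hs := sites I
  have hfc : Continuous I.f := I.hf.continuous
  -- uniform approximation of the weights
  obtain ⟨M, hM⟩ := (show Tst I.D I.f from ⟨hfc, I.hfc, I.hfs⟩).bdd
  have hR := hs.riemann (φ := fun z => I.f z * u z) (hfc.mul hu)
  have hint : ∫ z in I.D, I.f z * u z = ∫ z, I.f z * u z := by
    refine setIntegral_eq_integral_of_forall_compl_eq_zero fun z hz => ?_
    rw [(isTest_f I).eq_zero hz, zero_mul]
  rw [hint] at hR
  -- `u` is bounded near `D`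
  obtain ⟨B, hB⟩ := (hs.compact_cth 1).exists_bound_of_continuousOn hu.continuousOn
  have hB0 : ∀ᶠ n in atTop, ∀ v ∈ I.Fr n, |u (centre (I.δ n) v)| ≤ max B 0 := by
    filter_upwards [hs.out 1 one_pos] with n hn v hv
    exact (hB _ (hn v hv)).trans (le_max_left _ _)
  obtain ⟨Cc, hCc, hcard⟩ := hs.card_bdd
  rw [Metric.tendsto_atTop']
  intro ε hε
  set B' : ℝ := max B 0 + 1 with hB'
  have hB'0 : 0 < B' := by positivity
  set η : ℝ := ε / (4 * Cc * B') with hη
  have hη0 : 0 < η := by positivity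
  -- uniform continuity of `f`
  have huc : UniformContinuous I.f := I.hfc.uniformContinuous_of_continuous hfc
  obtain ⟨ρ, hρ, hρ'⟩ := Metric.uniformContinuous_iff.mp huc η hη0
  have e1 := hs.small (show 0 < ρ / 4 by positivity)
  have e2 : ∀ᶠ n in atTop, |vc (I.δ n) * ∑ v ∈ I.Fr n, I.f (centre (I.δ n) v) *
      u (centre (I.δ n) v) - ∫ z, I.f z * u z| < ε / 2 := by
    have := Metric.tendsto_nhds.mp hR (ε / 2) (by positivity)
    simpa only [Real.dist_eq] using this
  obtain ⟨N, hN⟩ := eventually_atTop.mp (e1.and (e2.and hB0))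
  refine ⟨N, fun n hn => ?_⟩
  obtain ⟨a1, a2, a3⟩ := hN n hn.le
  have hδ : 0 < I.δ n := I.hM.1 n
  rw [Real.dist_eq]
  have key : |∑ v ∈ I.Fr n, wA (I.δ n) I.f v * u (centre (I.δ n) v) -
      vc (I.δ n) * ∑ v ∈ I.Fr n, I.f (centre (I.δ n) v) * u (centre (I.δ n) v)| ≤ ε / 4 := by
    rw [Finset.mul_sum, ← Finset.sum_sub_distrib]
    refine (Finset.abs_sum_le_sum_abs _ _).trans ?_
    have h1 : ∀ v ∈ I.Fr n, |wA (I.δ n) I.f v * u (centre (I.δ n) v) -
        vc (I.δ n) * (I.f (centre (I.δ n) v) * u (centre (I.δ n) v))| ≤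
        vc (I.δ n) * η * B' := by
      intro v hv
      have h2 : |wA (I.δ n) I.f v - vc (I.δ n) * I.f (centre (I.δ n) v)| ≤ vc (I.δ n) * η := by
        rw [wA_eq hδ]
        refine wK_close ker_tent hδ.le hfc ⟨M, hM⟩ fun z hz => ?_
        have := hρ' (show dist z (centre (I.δ n) v) < ρ by rw [dist_eq_norm]; linarith)
        rw [Real.dist_eq] at this
        exact this.le
      have h3 : wA (I.δ n) I.f v * u (centre (I.δ n) v) -
          vc (I.δ n) * (I.f (centre (I.δ n) v) * u (centre (I.δ n) v)) =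
          (wA (I.δ n) I.f v - vc (I.δ n) * I.f (centre (I.δ n) v)) * u (centre (I.δ n) v) := by
        ring
      rw [h3, abs_mul]
      refine mul_le_mul h2 ?_ (abs_nonneg _) (mul_nonneg (vc_nonneg _) hη0.le)
      have := a3 v hv
      rw [hB']; linarith
    refine (Finset.sum_le_sum h1).trans ?_
    rw [Finset.sum_const, nsmul_eq_mul]
    have h4 : vc (I.δ n) ≤ I.δ n ^ 2 := by
      have h5 : Real.sqrt 3 ≤ 2 := by
        rw [show (2 : ℝ) = Real.sqrt 4 by rw [show (4 : ℝ) = 2 ^ 2 by norm_num]; simp]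
        exact Real.sqrt_le_sqrt (by norm_num)
      unfold vc
      nlinarith [sq_nonneg (I.δ n)]
    calc ((I.Fr n).card : ℝ) * (vc (I.δ n) * η * B') ≤
          ((I.Fr n).card : ℝ) * (I.δ n ^ 2 * η * B') := by gcongr
      _ = (I.δ n ^ 2 * (I.Fr n).card) * (η * B') := by ring
      _ ≤ Cc * (η * B') := by
          gcongr
          exact hcard n
      _ = ε / 4 := by rw [hη]; field_simp
  have h6 := abs_sub_le (∑ v ∈ I.Fr n, wA (I.δ n) I.f v * u (centre (I.δ n) v))
    (vc (I.δ n) * ∑ v ∈ I.Fr n, I.f (centre (I.δ n) v) * u (centre (I.δ n) v))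
    (∫ z, I.f z * u z)
  linarith

/-- uniform bound of the weights -/
theorem exists_wA_le : ∃ M : ℝ, 0 < M ∧ ∀ n v, |wA (I.δ n) I.f v| ≤ M * I.δ n ^ 2 := by
  obtain ⟨M, hM⟩ := (show Tst I.D I.f from ⟨I.hf.continuous, I.hfc, I.hfs⟩).bdd
  refine ⟨Real.sqrt 3 / 2 * |M| + 1, by positivity, fun n v => ?_⟩
  have hδ : 0 < I.δ n := I.hM.1 n
  rw [wA_eq hδ]
  refine (ker_tent.w_le hM v).trans ?_
  have h1 : M ≤ |M| := le_abs_self M
  have h2 : 0 ≤ Real.sqrt 3 / 2 * I.δ n ^ 2 := by positivity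
  nlinarith [mul_le_mul_of_nonneg_left h1 h2, sq_nonneg (I.δ n)]

end

end Crest.Agent.R144.LowL549
end

-- ▼ part R144/LowL2_549
section

/-!
# R144 (S0197), LOW-LIM (helper549), part 2: positions of the blocks

* `Qs r o R c` : the positions `q ≡ c` (mod `r / 2`) such that the window of the block `q + bk r o` is
  inside the region `R`; the blocks are disjoint;
* `nd r o R c` : the sites of `R` which are in no core; `sum_nd_le` : average over `c`;
* `sum_Qs_le` : sum over `c` of the sums over `Qs`.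
-/

set_option autoImplicit false

namespace Crest.Agent.R144.LowL549

open Crest.Agent.R144.Bl565
open Crest.Agent.R144.Lc279 (P2 bx mem_bx card_bx cls cls_mem BX mem_BX nr mem_nr)
open Crest.Agent.R144.Lw425 (hd hd_comm hd_le_iff mem_hball hball hd_self)

noncomputable section

theorem eq_of_emod {s x y : ℤ} (h : x % s = y % s) (h1 : -s < x - y) (h2 : x - y < s) :
    x = y := by
  have h3 : s ∣ x - y := Int.ModEq.dvd (show y ≡ x [ZMOD s] from h.symm)
  obtain ⟨k, hk⟩ := h3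
  have hs : 0 < s := by linarith
  have hk0 : k = 0 := by
    rcases lt_trichotomy k 0 with hk' | hk' | hk'
    · exfalso
      have : s * k ≤ s * (-1) := mul_le_mul_of_nonneg_left (by omega) hs.le
      linarith
    · exact hk'
    · exfalso
      have : s * 1 ≤ s * k := mul_le_mul_of_nonneg_left (by omega) hs.le
      linarith
  rw [hk0, mul_zero] at hk
  linarith

/-- classes of translated sites -/
theorem cls_sub {s : ℕ} {q q' v v' : P2} (h : q + v = q' + v') (hq : cls s q = cls s q') :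
    cls s v = cls s v' := by
  have e1 : q.1 + v.1 = q'.1 + v'.1 := congrArg Prod.fst h
  have e2 : q.2 + v.2 = q'.2 + v'.2 := congrArg Prod.snd h
  have f1 : q.1 % s = q'.1 % s := congrArg Prod.fst hq
  have f2 : q.2 % s = q'.2 % s := congrArg Prod.snd hq
  have g1 : v.1 % s = v'.1 % s := by
    have : v.1 ≡ v'.1 [ZMOD s] :=
      Int.ModEq.add_left_cancel (show q.1 ≡ q'.1 [ZMOD s] from f1) (by rw [e1])
    exact this
  have g2 : v.2 % s = v'.2 % s := by
    have : v.2 ≡ v'.2 [ZMOD s] :=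
      Int.ModEq.add_left_cancel (show q.2 ≡ q'.2 [ZMOD s] from f2) (by rw [e2])
    exact this
  exact Prod.ext g1 g2

/-- a block is a system of representatives -/
theorem bk_cls_inj {r : ℕ} {o : Fin 3} {v v' : P2} (hv : v ∈ bk r o) (hv' : v' ∈ bk r o)
    (h : cls (r / 2) v = cls (r / 2) v') : v = v' := by
  obtain ⟨a, ha, rfl⟩ := mem_bk.mp hv
  obtain ⟨b, hb, rfl⟩ := mem_bk.mp hv'
  rw [mem_rh] at ha hb
  obtain ⟨⟨a1, a2⟩, a3, a4⟩ := ha
  obtain ⟨⟨b1, b2⟩, b3, b4⟩ := hb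
  set s : ℤ := ((r / 2 : ℕ) : ℤ) with hs
  have h1 : (sg (r / 2) o a).1 % s = (sg (r / 2) o b).1 % s := congrArg Prod.fst h
  have h2 : (sg (r / 2) o a).2 % s = (sg (r / 2) o b).2 % s := congrArg Prod.snd h
  have hdvd : ∀ x y : ℤ, x % s = y % s → s ∣ x - y := fun x y hxy =>
    Int.ModEq.dvd (show y ≡ x [ZMOD s] from hxy.symm)
  have d1 := hdvd _ _ h1
  have d2 := hdvd _ _ h2
  have small : ∀ x : ℤ, s ∣ x → -s < x → x < s → x = 0 := by
    intro x hx h3 h4
    have := eq_of_emod (s := s) (x := x) (y := 0) (by rw [Int.emod_eq_zero_of_dvd hx]; simp)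
      (by linarith) (by linarith)
    exact this
  have hab : a = b := by
    fin_cases o
    · change s ∣ (sg (r / 2) 0 a).1 - (sg (r / 2) 0 b).1 at d1
      change s ∣ (sg (r / 2) 0 a).2 - (sg (r / 2) 0 b).2 at d2
      rw [sg_zero, sg_zero] at d1 d2
      have e1 := small _ d1 (by linarith) (by linarith)
      have e2 := small _ d2 (by linarith) (by linarith)
      exact Prod.ext (by linarith) (by linarith)
    · change s ∣ (sg (r / 2) 1 a).1 - (sg (r / 2) 1 b).1 at d1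
      change s ∣ (sg (r / 2) 1 a).2 - (sg (r / 2) 1 b).2 at d2
      rw [sg_one, sg_one] at d1 d2
      simp only at d1 d2
      have e2 := small _ d2 (by linarith) (by linarith)
      have e3 : (2 * s - 2 - a.1 - a.2) - (2 * s - 2 - b.1 - b.2) = b.2 - a.2 := by linarith
      rw [e3] at d1
      have e1 := small _ d1 (by linarith) (by linarith)
      exact Prod.ext (by linarith) (by linarith)
    · change s ∣ (sg (r / 2) 2 a).1 - (sg (r / 2) 2 b).1 at d1
      change s ∣ (sg (r / 2) 2 a).2 - (sg (r / 2) 2 b).2 at d2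
      rw [sg_two, sg_two] at d1 d2
      simp only at d1 d2
      have e2 := small _ d1 (by linarith) (by linarith)
      have e3 : (2 * s - 2 - a.1 - a.2) - (2 * s - 2 - b.1 - b.2) = b.1 - a.1 := by linarith
      rw [e3] at d2
      have e1 := small _ d2 (by linarith) (by linarith)
      exact Prod.ext (by linarith) (by linarith)
  rw [hab]

/-- all positions with the window inside `R` -/
def Qa (r : ℕ) (o : Fin 3) (R : Finset P2) : Finset P2 :=
  (R.biUnion fun w => (win (cw r) (bk r o)).image fun v => w - v).filter fun q =>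
    ∀ v ∈ win (cw r) (bk r o), q + v ∈ R

/-- positions of class `c` with the window inside `R` -/
def Qs (r : ℕ) (o : Fin 3) (R : Finset P2) (c : P2) : Finset P2 :=
  (Qa r o R).filter fun q => cls (r / 2) q = c

theorem bk_nonempty {r : ℕ} (hr : 2 ≤ r) (o : Fin 3) : (bk r o).Nonempty := by
  rw [← Finset.card_pos, card_bk]
  have : 0 < r / 2 := by omega
  positivity

theorem mem_Qa {r : ℕ} (hr : 2 ≤ r) {o : Fin 3} {R : Finset P2} {q : P2} :
    q ∈ Qa r o R ↔ ∀ v ∈ win (cw r) (bk r o), q + v ∈ R := by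
  rw [Qa, Finset.mem_filter]
  refine ⟨fun h => h.2, fun h => ⟨?_, h⟩⟩
  obtain ⟨v, hv⟩ := bk_nonempty hr o
  have hv' := subset_win (cw r) _ hv
  rw [Finset.mem_biUnion]
  refine ⟨q + v, h v hv', Finset.mem_image.mpr ⟨v, hv', ?_⟩⟩
  ext <;> simp

theorem mem_Qs {r : ℕ} (hr : 2 ≤ r) {o : Fin 3} {R : Finset P2} {c q : P2} :
    q ∈ Qs r o R c ↔ (∀ v ∈ win (cw r) (bk r o), q + v ∈ R) ∧ cls (r / 2) q = c := by
  rw [Qs, Finset.mem_filter, mem_Qa hr]

/-- the blocks of one class are disjoint -/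
theorem Qs_disj {r : ℕ} {o : Fin 3} {R : Finset P2} {c q q' v v' : P2}
    (hq : q ∈ Qs r o R c) (hq' : q' ∈ Qs r o R c) (hv : v ∈ bk r o) (hv' : v' ∈ bk r o)
    (h : q + v = q' + v') : q = q' := by
  rw [Qs, Finset.mem_filter] at hq hq'
  have h1 : v = v' := bk_cls_inj hv hv' (cls_sub h (hq.2.trans hq'.2.symm))
  rw [h1] at h
  exact add_right_cancel h

/-- sum over the classes -/
theorem sum_Qs {r : ℕ} (hr : 2 ≤ r) (o : Fin 3) (R : Finset P2) (F : P2 → ℝ) :
    ∑ c ∈ bx (r / 2), ∑ q ∈ Qs r o R c, F q = ∑ q ∈ Qa r o R, F q := by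
  unfold Qs
  exact Finset.sum_fiberwise_of_maps_to (fun q _ => cls_mem (by omega) q) F

theorem sum_Qs_le {r : ℕ} (hr : 2 ≤ r) (o : Fin 3) (R S : Finset P2) {F : P2 → ℝ}
    (hF : ∀ q, 0 ≤ F q) (hS : ∀ q, q ∉ S → F q = 0) :
    ∑ c ∈ bx (r / 2), ∑ q ∈ Qs r o R c, F q ≤ ∑ q ∈ S, F q := by
  rw [sum_Qs hr]
  have h1 : ∑ q ∈ Qa r o R, F q = ∑ q ∈ (Qa r o R).filter (fun q => q ∈ S), F q := by
    rw [Finset.sum_filter]
    refine Finset.sum_congr rfl fun q _ => ?_
    split_ifs with h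
    · rfl
    · exact hS q h
  rw [h1]
  exact Finset.sum_le_sum_of_subset_of_nonneg
    (fun q hq => (Finset.mem_filter.mp hq).2) fun q _ _ => hF q

/-- the sites of `R` in no core -/
def nd (r : ℕ) (o : Fin 3) (R : Finset P2) (c : P2) : Finset P2 :=
  R.filter fun w => ∀ q ∈ Qs r o R c, w - q ∉ cor (cw r) (bk r o)

theorem mem_nd {r : ℕ} {o : Fin 3} {R : Finset P2} {c w : P2} :
    w ∈ nd r o R c ↔ w ∈ R ∧ ∀ q ∈ Qs r o R c, w - q ∉ cor (cw r) (bk r o) := by
  rw [nd, Finset.mem_filter]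

theorem cw_le (r : ℕ) : cw r ≤ r := Nat.sqrt_le_self r

/-- the classes for which a site well inside `R` is not in a core -/
theorem card_nd_le {r : ℕ} (hr : 2 ≤ r) {o : Fin 3} {R : Finset P2} {w : P2}
    (hw : w ∈ R \ nr (4 * r) R) :
    ((bx (r / 2)).filter fun c => w ∈ nd r o R c).card + (cor (cw r) (bk r o)).card ≤
      (r / 2) ^ 2 := by
  have hs : 0 < r / 2 := by omega
  have hwR : w ∈ R := (Finset.mem_sdiff.mp hw).1
  have hdeep : ∀ u ∈ BX (4 * r), w + u ∈ R := fun u hu => Lc279.deep hw hu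
  -- the map from the core to the classes
  set g : P2 → P2 := fun v => cls (r / 2) (w - v) with hg
  have hmaps : ∀ v ∈ cor (cw r) (bk r o), g v ∈ (bx (r / 2)).filter fun c => ¬ w ∈ nd r o R c := by
    intro v hv
    have hvb : v ∈ bk r o := cor_subset _ _ hv
    rw [Finset.mem_filter]
    refine ⟨cls_mem hs _, fun h => ?_⟩
    have hq : w - v ∈ Qs r o R (g v) := by
      rw [mem_Qs hr]
      refine ⟨fun u hu => ?_, rfl⟩
      have h1 : w - v + u = w + (u - v) := by abel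
      rw [h1]
      refine hdeep _ ?_
      obtain ⟨a, ha, hda⟩ := mem_win.mp hu
      obtain ⟨⟨a1, a2⟩, a3, a4⟩ := bk_bound ha
      obtain ⟨⟨v1, v2⟩, v3, v4⟩ := bk_bound hvb
      rw [hd_le_iff] at hda
      obtain ⟨⟨d1, d2⟩, ⟨d3, d4⟩, _⟩ := hda
      have hc : (cw r : ℤ) ≤ r := by exact_mod_cast cw_le r
      rw [mem_BX]
      push_cast
      simp only [Prod.fst_sub, Prod.snd_sub]
      refine ⟨⟨?_, ?_⟩, ?_, ?_⟩ <;> linarith
    have h2 := (mem_nd.mp h).2 _ hq
    apply h2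
    have : w - (w - v) = v := by abel
    rwa [this]
  have hinj : Set.InjOn g (cor (cw r) (bk r o)) := by
    intro v hv v' hv' h
    have h3 : (w - v) + v = (w - v') + v' := by abel
    exact bk_cls_inj (cor_subset _ _ hv) (cor_subset _ _ hv') (cls_sub h3 h)
  have h4 : (cor (cw r) (bk r o)).card ≤
      ((bx (r / 2)).filter fun c => ¬ w ∈ nd r o R c).card :=
    Finset.card_le_card_of_injOn g hmaps hinj
  have h5 := Finset.card_filter_add_card_filter_not (s := bx (r / 2)) (fun c => w ∈ nd r o R c)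
  rw [card_bx] at h5
  omega

/-- average of the sums over the sites in no core -/
theorem sum_nd_le {r : ℕ} (hr : 2 ≤ r) (o : Fin 3) (R : Finset P2) {f : P2 → ℝ}
    (hf : ∀ w, 0 ≤ f w) :
    ∑ c ∈ bx (r / 2), ∑ w ∈ nd r o R c, f w ≤
      (((r / 2 : ℕ) : ℝ) ^ 2 - (cor (cw r) (bk r o)).card) * ∑ w ∈ R, f w +
        ((r / 2 : ℕ) : ℝ) ^ 2 * ∑ w ∈ nr (4 * r) R, f w := by
  have hcor : ((cor (cw r) (bk r o)).card : ℝ) ≤ ((r / 2 : ℕ) : ℝ) ^ 2 := by
    have h1 := Finset.card_le_card (cor_subset (cw r) (bk r o))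
    rw [card_bk] at h1
    exact_mod_cast h1
  have h1 : ∑ c ∈ bx (r / 2), ∑ w ∈ nd r o R c, f w =
      ∑ w ∈ R, (((bx (r / 2)).filter fun c => w ∈ nd r o R c).card : ℝ) * f w := by
    have h2 : ∀ c, ∑ w ∈ nd r o R c, f w = ∑ w ∈ R, if w ∈ nd r o R c then f w else 0 := by
      intro c
      rw [← Finset.sum_filter]
      refine Finset.sum_congr ?_ fun _ _ => rfl
      ext w
      rw [Finset.mem_filter]
      exact ⟨fun h => ⟨(mem_nd.mp h).1, h⟩, fun h => h.2⟩
    simp only [h2]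
    rw [Finset.sum_comm]
    refine Finset.sum_congr rfl fun w _ => ?_
    rw [← Finset.sum_filter, Finset.sum_const, nsmul_eq_mul]
  rw [h1]
  have h3 : ∀ w ∈ R, (((bx (r / 2)).filter fun c => w ∈ nd r o R c).card : ℝ) * f w ≤
      (((r / 2 : ℕ) : ℝ) ^ 2 - (cor (cw r) (bk r o)).card) * f w +
        if w ∈ nr (4 * r) R then ((r / 2 : ℕ) : ℝ) ^ 2 * f w else 0 := by
    intro w hw
    have hfw := hf w
    split_ifs with h
    · have h4 : (((bx (r / 2)).filter fun c => w ∈ nd r o R c).card : ℝ) ≤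
          ((r / 2 : ℕ) : ℝ) ^ 2 := by
        have h5 := Finset.card_le_card (Finset.filter_subset (fun c => w ∈ nd r o R c)
          (bx (r / 2)))
        rw [card_bx] at h5
        exact_mod_cast h5
      have h6 := mul_le_mul_of_nonneg_right h4 hfw
      have h7 := mul_nonneg (sub_nonneg.mpr hcor) hfw
      linarith
    · rw [add_zero]
      refine mul_le_mul_of_nonneg_right ?_ hfw
      have h8 := card_nd_le hr (o := o) (R := R) (w := w) (Finset.mem_sdiff.mpr ⟨hw, h⟩)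
      have h9 : (((bx (r / 2)).filter fun c => w ∈ nd r o R c).card : ℝ) +
          (cor (cw r) (bk r o)).card ≤ ((r / 2 : ℕ) : ℝ) ^ 2 := by exact_mod_cast h8
      linarith
  refine (Finset.sum_le_sum h3).trans (le_of_eq ?_)
  rw [Finset.sum_add_distrib, ← Finset.mul_sum, ← Finset.sum_filter, Finset.mul_sum (s := nr _ _)]
  congr 1
  refine Finset.sum_congr ?_ fun _ _ => rfl
  ext w
  rw [Finset.mem_filter]
  exact ⟨fun h => h.2, fun h => ⟨Lc279.nr_subset _ _ h, h⟩⟩

/-- the core of a block is most of the block -/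
theorem card_cor (r : ℕ) (o : Fin 3) :
    ((r / 2 : ℕ) : ℝ) ^ 2 - (cor (cw r) (bk r o)).card ≤ 8 * cw r * ((r / 2 : ℕ) : ℝ) := by
  obtain ⟨c, hc⟩ := exists_sym (r / 2) o
  set s := r / 2 with hs
  set m := cw r with hm
  have h1 : (cor m (rh s)).card ≤ (cor m (bk r o)).card := by
    rw [← Finset.card_image_of_injective (cor m (rh s)) hc.inj]
    refine Finset.card_le_card fun v hv => ?_
    obtain ⟨u, hu, rfl⟩ := Finset.mem_image.mp hv
    exact (hc.mem_cor (fun v => mem_bk) u).mpr hu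
  by_cases h4 : 4 * m ≤ s
  · have h2 : (Finset.Ico (2 * m : ℤ) (s - 2 * m) ×ˢ Finset.Ico (2 * m : ℤ) (s - 2 * m)) ⊆
        cor m (rh s) := by
      intro w hw
      rw [Finset.mem_product, Finset.mem_Ico, Finset.mem_Ico] at hw
      obtain ⟨⟨w1, w2⟩, w3, w4⟩ := hw
      rw [mem_cor]
      have key : ∀ v : P2, hd v w ≤ 2 * m → v ∈ rh s := by
        intro v hv
        rw [hd_le_iff] at hv
        obtain ⟨⟨d1, d2⟩, ⟨d3, d4⟩, _⟩ := hv
        rw [mem_rh]
        refine ⟨⟨?_, ?_⟩, ?_, ?_⟩ <;> linarith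
      exact ⟨key w (by rw [hd_self]; positivity), key⟩
    have h3 := Finset.card_le_card h2
    rw [Finset.card_product, Int.card_Ico] at h3
    have h5 : ((s : ℤ) - 2 * m - 2 * m).toNat = s - 4 * m := by omega
    rw [h5] at h3
    have h6 : ((s : ℝ) - 4 * m) * ((s : ℝ) - 4 * m) ≤ (cor m (bk r o)).card := by
      have h7 : ((s - 4 * m : ℕ) : ℝ) = (s : ℝ) - 4 * m := by
        rw [Nat.cast_sub h4]; push_cast; ring
      rw [← h7]
      exact_mod_cast h3.trans h1
    nlinarith [sq_nonneg ((m : ℝ))]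
  · have h2 : (s : ℝ) ≤ 4 * m := by
      have : s ≤ 4 * m := by omega
      exact_mod_cast this
    have h3 : (0 : ℝ) ≤ (cor m (bk r o)).card := Nat.cast_nonneg _
    have h5 : (0 : ℝ) ≤ s := Nat.cast_nonneg _
    have h6 : (0 : ℝ) ≤ m := Nat.cast_nonneg _
    nlinarith [mul_le_mul_of_nonneg_right h2 h5, mul_nonneg h6 h5]

/-- the best of all orientations and classes -/
theorem exists_best {r : ℕ} (hr : 2 ≤ r) (A : Fin 3 → P2 → ℝ) {M : ℝ}
    (hA : ∑ o, ∑ c ∈ bx (r / 2), A o c ≤ 3 * ((r / 2 : ℕ) : ℝ) ^ 2 * M) :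
    ∃ o, ∃ c ∈ bx (r / 2), A o c ≤ M := by
  by_contra hcon
  push Not at hcon
  have hs : 0 < r / 2 := by omega
  have hne : (bx (r / 2)).Nonempty := by
    rw [← Finset.card_pos, card_bx]; positivity
  have h1 : ∀ o, ((r / 2 : ℕ) : ℝ) ^ 2 * M < ∑ c ∈ bx (r / 2), A o c := by
    intro o
    have := Finset.sum_lt_sum_of_nonempty hne (hcon o)
    rw [Finset.sum_const, nsmul_eq_mul, card_bx] at this
    exact_mod_cast this
  have h2 := Finset.sum_lt_sum_of_nonempty (s := (Finset.univ : Finset (Fin 3)))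
    Finset.univ_nonempty fun o _ => h1 o
  rw [Finset.sum_const, nsmul_eq_mul, Finset.card_univ, Fintype.card_fin] at h2
  push_cast at h2
  linarith

end

end Crest.Agent.R144.LowL549
end

-- ▼ part R144/LowL5_549
section

/-!
# R144 (S0197), LOW-LIM (helper549), part 5: limit of the main term

`LLN G δ Rg ν μ` : averaged local convergence of the laws `ν n` on the regions `Rg n`.
`slp u δ q i` : slope of `u ∘ centre δ` at `q` in index coordinates.
`main_le` : the sum over orientations and classes of the block functionals.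
-/

set_option autoImplicit false

open MeasureTheory Metric Set Filter Topology
open scoped ComplexConjugate ContDiff

namespace Crest.Agent.R144.LowL549

open Crest.Agent.R144.Skel144 Crest.Agent.R144.Con549 Crest.Agent.R144.Cnt268
open Crest.Agent.R144.Bl565 Crest.Agent.R144.HexTil353
open Crest.Agent.R144.Lc279 (P2 bx)
open Crest.Agent.R144.Lw425 (LObs hball hd mem_hball)
open Crest.ProbabilityR.HexHeights (centre)

noncomputable section

/-- averaged local convergence -/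
def LLN (G : Set ℂ) (δ : ℕ → ℝ) (Rg : ℕ → Finset P2) (ν : ℕ → Measure (P2 → ℝ))
    (μ : Measure (P2 → ℝ)) : Prop :=
  ∀ r f, LObs r f → ∀ F : ℂ → ℝ, Continuous F → HasCompactSupport F → tsupport F ⊆ G →
    Tendsto (fun n => δ n ^ 2 * ∑ v ∈ Rg n, F (centre (δ n) v) * ∫ h, f (fun a => h (v + a)) ∂(ν n))
      atTop (𝓝 (2 / Real.sqrt 3 * (∫ z, F z) * ∫ h, f h ∂μ))

/-- local observables up to scaling -/
def SObs (r : ℕ) (f : (P2 → ℝ) → ℝ) : Prop := ∃ C : ℝ, 0 < C ∧ LObs r fun h => C⁻¹ * f h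

theorem LLN.scaled {G : Set ℂ} {δ : ℕ → ℝ} {Rg : ℕ → Finset P2} {ν : ℕ → Measure (P2 → ℝ)}
    {μ : Measure (P2 → ℝ)} (h : LLN G δ Rg ν μ) {r : ℕ} {f : (P2 → ℝ) → ℝ} (hf : SObs r f)
    {F : ℂ → ℝ} (hF : Continuous F) (hFc : HasCompactSupport F) (hFs : tsupport F ⊆ G) :
    Tendsto (fun n => δ n ^ 2 * ∑ v ∈ Rg n, F (centre (δ n) v) *
      ∫ h, f (fun a => h (v + a)) ∂(ν n))
      atTop (𝓝 (2 / Real.sqrt 3 * (∫ z, F z) * ∫ h, f h ∂μ)) := by
  obtain ⟨C, hC, hf⟩ := hf
  have h1 := (h r _ hf F hF hFc hFs).const_mul C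
  have e1 : ∀ n, C * (δ n ^ 2 * ∑ v ∈ Rg n, F (centre (δ n) v) *
      ∫ h, C⁻¹ * f (fun a => h (v + a)) ∂(ν n)) =
      δ n ^ 2 * ∑ v ∈ Rg n, F (centre (δ n) v) * ∫ h, f (fun a => h (v + a)) ∂(ν n) := by
    intro n
    rw [mul_left_comm, Finset.mul_sum]
    congr 1
    refine Finset.sum_congr rfl fun v _ => ?_
    rw [integral_const_mul]
    field_simp
  have e2 : C * (2 / Real.sqrt 3 * (∫ z, F z) * ∫ h, C⁻¹ * f h ∂μ) =
      2 / Real.sqrt 3 * (∫ z, F z) * ∫ h, f h ∂μ := by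
    rw [integral_const_mul]
    field_simp
  simp only [e1, e2] at h1
  exact h1

theorem SObs.meas {r : ℕ} {f : (P2 → ℝ) → ℝ} (hf : SObs r f) : Measurable f := by
  obtain ⟨C, hC, hf⟩ := hf
  have h1 := hf.meas.const_mul C
  have e : (fun h => C * (C⁻¹ * f h)) = f := by
    funext h; field_simp
  rwa [e] at h1

theorem SObs.bdd {r : ℕ} {f : (P2 → ℝ) → ℝ} (hf : SObs r f) : ∃ C : ℝ, ∀ h, |f h| ≤ C := by
  obtain ⟨C, hC, hf⟩ := hf
  refine ⟨C, fun h => ?_⟩
  have h1 := hf.bd h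
  rw [abs_mul, abs_inv, abs_of_pos hC, inv_mul_le_iff₀ hC, mul_one] at h1
  exact h1

theorem SObs.shift {r : ℕ} {f : (P2 → ℝ) → ℝ} (hf : SObs r f) (h : P2 → ℝ) (c : ℝ) :
    f (fun a => h a + c) = f h := by
  obtain ⟨C, hC, hf⟩ := hf
  have h1 := hf.shift h c
  have h2 : C⁻¹ ≠ 0 := inv_ne_zero hC.ne'
  exact mul_left_cancel₀ h2 h1

theorem sg_mem_hball (s : ℕ) (o : Fin 3) {R : ℕ} {v : P2} (hv : v ∈ hball R) :
    sg s o v ∈ hball (2 * R + 4 * s + 4) := by
  rw [mem_hball, Lw425.hd_le_iff] at hv ⊢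
  simp only [Prod.fst_zero, Prod.snd_zero, sub_zero] at hv ⊢
  obtain ⟨⟨h1, h2⟩, ⟨h3, h4⟩, h5, h6⟩ := hv
  fin_cases o
  · change (_ ≤ (sg s 0 v).1 ∧ (sg s 0 v).1 ≤ _) ∧ (_ ≤ (sg s 0 v).2 ∧ (sg s 0 v).2 ≤ _) ∧
      _ ≤ (sg s 0 v).1 + (sg s 0 v).2 ∧ (sg s 0 v).1 + (sg s 0 v).2 ≤ _
    rw [sg_zero]
    push_cast
    refine ⟨⟨?_, ?_⟩, ⟨?_, ?_⟩, ?_, ?_⟩ <;> omega
  · change (_ ≤ (sg s 1 v).1 ∧ (sg s 1 v).1 ≤ _) ∧ (_ ≤ (sg s 1 v).2 ∧ (sg s 1 v).2 ≤ _) ∧
      _ ≤ (sg s 1 v).1 + (sg s 1 v).2 ∧ (sg s 1 v).1 + (sg s 1 v).2 ≤ _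
    rw [sg_one]
    push_cast
    refine ⟨⟨?_, ?_⟩, ⟨?_, ?_⟩, ?_, ?_⟩ <;> omega
  · change (_ ≤ (sg s 2 v).1 ∧ (sg s 2 v).1 ≤ _) ∧ (_ ≤ (sg s 2 v).2 ∧ (sg s 2 v).2 ≤ _) ∧
      _ ≤ (sg s 2 v).1 + (sg s 2 v).2 ∧ (sg s 2 v).1 + (sg s 2 v).2 ≤ _
    rw [sg_two]
    push_cast
    refine ⟨⟨?_, ?_⟩, ⟨?_, ?_⟩, ?_, ?_⟩ <;> omega

/-- rotated local observables -/
theorem SObs.rot {r : ℕ} {f : (P2 → ℝ) → ℝ} (hf : SObs r f) (s : ℕ) (o : Fin 3) :
    SObs (2 * r + 4 * s + 4) fun h => f (fun v => h (sg s o v)) := by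
  obtain ⟨C, hC, hf⟩ := hf
  exact ⟨C, hC,
    { meas := hf.meas.comp (measurable_rt (sg s o))
      bd := fun h => hf.bd _
      loc := fun h h' hh => hf.loc _ _ fun a ha => hh _ (sg_mem_hball s o ha)
      shift := fun h c => hf.shift (fun v => h (sg s o v)) c }⟩

/-! ### slopes -/

/-- the edge directions of the index coordinates -/
def ev (i : Fin 2) : ℂ := ![cen 1 1 0, cen 1 0 1] i

/-- slope of `u` at `z`, in index coordinates -/
def nu (u : ℂ → ℝ) (z : ℂ) (i : Fin 2) : ℝ := fderiv ℝ u z (ev i)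

theorem nu_sq (u : ℂ → ℝ) (z : ℂ) :
    nu u z 0 ^ 2 - nu u z 0 * nu u z 1 + nu u z 1 ^ 2 = 3 / 4 * ‖fderiv ℝ u z‖ ^ 2 := by
  have h3 : Real.sqrt 3 ^ 2 = 3 := Real.sq_sqrt (by norm_num)
  have e0 : nu u z 0 = fderiv ℝ u z (cen 1 1 0) := rfl
  have e1 : nu u z 1 = fderiv ℝ u z (cen 1 0 1) := rfl
  have g0 : (gr u z).re = fderiv ℝ u z 1 := rfl
  have g1 : (gr u z).im = fderiv ℝ u z Complex.I := rfl
  rw [← norm_gr, Complex.sq_norm, Complex.normSq_apply, e0, e1, g0, g1,
    fderiv_apply_eq u z (cen 1 1 0), fderiv_apply_eq u z (cen 1 0 1), cen_re, cen_im, cen_re,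
    cen_im]
  ring_nf
  rw [h3]
  ring

theorem continuous_nu {D : Set ℂ} {u : ℂ → ℝ} (hu : IsTest D u) (i : Fin 2) :
    Continuous fun z => nu u z i := by
  unfold nu
  exact (hu.smooth.continuous_fderiv (by simp)).clm_apply continuous_const

theorem nu_eq_zero {u : ℂ → ℝ} {z : ℂ} (hz : z ∉ tsupport u) (i : Fin 2) : nu u z i = 0 := by
  unfold nu
  have h : fderiv ℝ u z = 0 := by
    have h1 : z ∉ tsupport (fderiv ℝ u) := fun h => hz (tsupport_fderiv_subset ℝ h)
    exact image_eq_zero_of_notMem_tsupport h1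
  rw [h]; rfl


theorem qd_smul (B : Matrix (Fin 2) (Fin 2) ℝ) (c : ℝ) (y : Fin 2 → ℝ) :
    qd B (fun i => c * y i) = c ^ 2 * qd B y := by
  rw [qd_eq, qd_eq]; ring

end

end Crest.Agent.R144.LowL549
end

-- ▼ part R144/LowL6_549
section

/-!
# R144 (S0197), LOW-LIM (helper549), part 6: limit of the main term

`main_le` : the sum over the orientations and the classes of the expected block functionals.
-/

set_option autoImplicit false

open MeasureTheory Metric Set Filter Topology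
open scoped ComplexConjugate ContDiff

namespace Crest.Agent.R144.LowL549

open Crest.Agent.R144.Skel144 Crest.Agent.R144.Con549 Crest.Agent.R144.Cnt268
open Crest.Agent.R144.Bl565 Crest.Agent.R144.HexTil353
open Crest.Agent.R144.Lc279 (P2 bx)
open Crest.Agent.R144.Lw425 (LObs hball hd mem_hball)
open Crest.ProbabilityR.HexHeights (centre)

noncomputable section

/-- an admissible local matrix -/
structure LMat (R : ℕ) (Φ : (P2 → ℝ) → Matrix (Fin 2) (Fin 2) ℝ) : Prop where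
  obs : ∀ i j, SObs R fun h => Φ h i j
  symm : ∀ h, Φ h 0 1 = Φ h 1 0
  psd : ∀ h y, 0 ≤ qd (Φ h) y


/-- the block functionals of one class -/
def mT (Φ : (P2 → ℝ) → Matrix (Fin 2) (Fin 2) ℝ) (u : ℂ → ℝ) (δ : ℝ) (r : ℕ) (o : Fin 3)
    (R : Finset P2) (c : P2) (h : P2 → ℝ) : ℝ :=
  ∑ q ∈ Qs r o R c, qd (Φ fun v => h (q + sg (r / 2) o v)) (tw (prm o) (nu u (centre δ q)))

variable {G : Set ℂ} {δ : ℕ → ℝ} {Rg : ℕ → Finset P2} {ν : ℕ → Measure (P2 → ℝ)}
  {μ : Measure (P2 → ℝ)} {R : ℕ} {Φ : (P2 → ℝ) → Matrix (Fin 2) (Fin 2) ℝ} {u : ℂ → ℝ}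

theorem LMat.integrable (hΦ : LMat R Φ) (ν : Measure (P2 → ℝ)) [IsFiniteMeasure ν] (s : ℕ)
    (o : Fin 3) (q : P2) (i j : Fin 2) :
    Integrable (fun h : P2 → ℝ => Φ (fun v => h (q + sg s o v)) i j) ν := by
  obtain ⟨C, hC⟩ := (hΦ.obs i j).bdd
  refine Integrable.of_bound (((hΦ.obs i j).meas.comp
    (measurable_rt fun v => q + sg s o v)).aestronglyMeasurable) C (ae_of_all _ fun h => ?_)
  rw [Real.norm_eq_abs]
  exact hC _

theorem LMat.integrable_qd (hΦ : LMat R Φ) (ν : Measure (P2 → ℝ)) [IsFiniteMeasure ν] (s : ℕ)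
    (o : Fin 3) (q : P2) (y : Fin 2 → ℝ) :
    Integrable (fun h : P2 → ℝ => qd (Φ fun v => h (q + sg s o v)) y) ν := by
  unfold qd
  exact integrable_finsetSum _ fun i _ => integrable_finsetSum _ fun j _ =>
    ((hΦ.integrable ν s o q i j).mul_const _).mul_const _

theorem LMat.integral_qd (hΦ : LMat R Φ) (ν : Measure (P2 → ℝ)) [IsFiniteMeasure ν] (s : ℕ)
    (o : Fin 3) (q : P2) (y : Fin 2 → ℝ) :
    ∫ h, qd (Φ fun v => h (q + sg s o v)) y ∂ν =
      ∑ i, ∑ j, y i * y j * ∫ h, Φ (fun v => h (q + sg s o v)) i j ∂ν := by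
  unfold qd
  rw [integral_finsetSum _ fun i _ => integrable_finsetSum _ fun j _ =>
    ((hΦ.integrable ν s o q i j).mul_const _).mul_const _]
  refine Finset.sum_congr rfl fun i _ => ?_
  rw [integral_finsetSum _ fun j _ => ((hΦ.integrable ν s o q i j).mul_const _).mul_const _]
  refine Finset.sum_congr rfl fun j _ => ?_
  rw [integral_mul_const, integral_mul_const]
  ring








end

end Crest.Agent.R144.LowL549
end

-- ▼ part R144/LowL7_549

/-!
# R144 (S0197), LOW-LIM (helper549), part 7: the inputs of the numbers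

`NumIn G δ Rg ν μ mf` : the laws `ν n` of the configurations on the regions `Rg n` converge locally
to `μ` (on average), and the lengths `mf n h w` of the cheap paths have good moments.
-/

set_option autoImplicit false

open MeasureTheory Metric Set Filter Topology
open scoped ComplexConjugate ContDiff

namespace Crest.Agent.R144.LowL549

open Crest.Agent.R144.Skel144 Crest.Agent.R144.Con549 Crest.Agent.R144.Cnt268
open Crest.Agent.R144.Bl565 Crest.Agent.R144.HexTil353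
open Crest.Agent.R144.Lc279 (P2 bx nr)
open Crest.Agent.R144.Lw425 (LObs hball hd mem_hball)
open Crest.ProbabilityR.HexHeights (centre)

noncomputable section

/-- the inputs of the numbers -/
structure NumIn (G : Set ℂ) (δ : ℕ → ℝ) (Rg : ℕ → Finset P2) (ν : ℕ → Measure (P2 → ℝ))
    (μ : Measure (P2 → ℝ)) (mf : ℕ → (P2 → ℝ) → P2 → ℕ) : Prop where
  hs : Sites G δ Rg
  prob : ∀ n, IsProbabilityMeasure (ν n)
  lln : LLN G δ Rg ν μ
  meas : ∀ n w, Measurable fun h => mf n h w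
  bdd : ∀ n, ∃ K : ℕ, ∀ h w, mf n h w ≤ K
  mom1 : ∃ C q : ℝ, 0 < C ∧ 0 < q ∧ q < 1 ∧ ∀ j : ℕ, ∀ᶠ n in atTop,
    δ n ^ 2 * ∑ w ∈ Rg n, ∫ h, (if j < mf n h w then (mf n h w : ℝ) else 0) ∂(ν n) ≤ C * q ^ j
  mom2 : ∃ C : ℝ, 0 < C ∧ ∀ᶠ n in atTop,
    δ n ^ 2 * ∑ w ∈ Rg n, ∫ h, (mf n h w : ℝ) ^ 2 ∂(ν n) ≤ C
  far : ∀ c : ℝ, 0 < c → ∀ a : ℕ, ∀ᶠ n in atTop,
    (ν n).real {h | ∃ w ∈ Rg n, c / δ n ≤ (mf n h w : ℝ)} ≤ δ n ^ a

end

end Crest.Agent.R144.LowL549
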