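import Crest.Agent.R144.LoA4_770
import Crest.Agent.R144.LoC0_95
import Crest.Agent.R144.Bl6_565
import Crest.Agent.R144.Bl4_565
import Mathlib
import Crest.Agent.R144.LowL7_549
import Crest.Agent.R144.LoC7_95

-- ▼ part R144/LoA5_770
section

/-!
R144 (S0197), helper770, LOWER side (probabilistic half), file 5:
**existence of near-optimal local templates** (`exists_tmpl`).
-/

set_option autoImplicit false
set_option linter.unusedSectionVars false
set_option maxHeartbeats 400000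

open MeasureTheory Set Filter Topology Metric
open scoped ENNReal NNReal

noncomputable section

namespace Crest.Agent.R144.LoA770

open Crest.Agent.R144.Ham560 Crest.Agent.R144.BQ565
open Crest.Agent.R144.MW121 (jac jac_apply en measurable_jac measurable_en en_nonneg)

section Gen

variable {V : Type*} [Fintype V] [DecidableEq V]

theorem abs_jac_le {Y : (V → ℝ) → (V → ℝ)} {k : ℝ≥0} (h : LipschitzWith k Y) (x : V → ℝ)
    (w v : V) : |jac Y x w v| ≤ k := by
  have h1 : ‖fderiv ℝ Y x‖ ≤ k := norm_fderiv_le_of_lipschitz ℝ h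
  rw [jac_apply]
  have h2 : ‖fderiv ℝ Y x (Pi.single v 1)‖ ≤ k := by
    refine (ContinuousLinearMap.le_opNorm _ _).trans ?_
    rw [Pi.norm_single, norm_one, mul_one]; exact h1
  exact (norm_le_pi_norm (fderiv ℝ Y x (Pi.single v 1)) w).trans h2


/-- uniform bound of the vector energy -/
theorem enN_le {Y0 Y1 : (V → ℝ) → (V → ℝ)} {k : ℝ≥0} (h0 : LipschitzWith k Y0)
    (h1 : LipschitzWith k Y1) (x : V → ℝ) :
    enN Y0 Y1 x ≤ Fintype.card V * (Fintype.card V * (3 * (k : ℝ) ^ 2)) := by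
  unfold enN
  calc ∑ w, ∑ v, N2 (jac Y0 x w v) (jac Y1 x w v) ≤ ∑ _w : V, ∑ _v : V, 3 * (k : ℝ) ^ 2 :=
        Finset.sum_le_sum fun w _ => Finset.sum_le_sum fun v _ =>
          N2_le _ _ (abs_jac_le h0 x w v) (abs_jac_le h1 x w v)
    _ = _ := by simp [Finset.sum_const, Finset.card_univ]

/-- the vector energy as a combination of three scalar energies -/
theorem enN_eq {Y0 Y1 : (V → ℝ) → (V → ℝ)} {x : V → ℝ} (h0 : DifferentiableAt ℝ Y0 x)
    (h1 : DifferentiableAt ℝ Y1 x) : enN Y0 Y1 x = (en Y0 x + en Y1 x + en (Y0 + Y1) x) / 2 := by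
  unfold enN
  simp only [MW121.en]
  rw [← Finset.sum_add_distrib, ← Finset.sum_add_distrib, Finset.sum_div]
  refine Finset.sum_congr rfl fun w _ => ?_
  rw [← Finset.sum_add_distrib, ← Finset.sum_add_distrib, Finset.sum_div]
  refine Finset.sum_congr rfl fun v _ => ?_
  rw [jac_add h0 h1, N2_eq]

theorem integral_enN {μ : Measure (V → ℝ)} (hμ : GoodLaw μ) {Y0 Y1 : (V → ℝ) → (V → ℝ)}
    (h0 : LocallyLipschitz Y0) (h1 : LocallyLipschitz Y1) :
    ∫ x, enN Y0 Y1 x ∂μ = (∫ x, en Y0 x ∂μ + ∫ x, en Y1 x ∂μ + ∫ x, en (Y0 + Y1) x ∂μ) / 2 := by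
  have i0 := hμ.integrable_en h0
  have i1 := hμ.integrable_en h1
  have i2 : Integrable (en (Y0 + Y1)) μ := hμ.integrable_en (show LocallyLipschitz (Y0 + Y1) from
    h0.add h1)
  have e1 : ∫ x, enN Y0 Y1 x ∂μ = ∫ x, (en Y0 x + en Y1 x + en (Y0 + Y1) x) / 2 ∂μ := by
    refine integral_congr_ae ?_
    filter_upwards [hμ.ae_diff h0, hμ.ae_diff h1] with x d0 d1
    exact enN_eq d0 d1
  rw [e1, integral_div]
  have e2 : ∫ x, (en Y0 x + en Y1 x + en (Y0 + Y1) x) ∂μ =
      ∫ x, (en Y0 x + en Y1 x) ∂μ + ∫ x, en (Y0 + Y1) x ∂μ := integral_add (i0.add i1) i2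
  rw [e2, integral_add i0 i1]

end Gen

variable {U : Type*} [DecidableEq U] {I W C : Finset U} {E : Finset (U × U)} {o : U}
  {L : Fin 2 → (U → ℝ) → U → ℝ} {ctr : Fin 2 → ℝ} {cL R ρ : ℝ}

/-- functions which are Lipschitz in a finite window are continuous -/
theorem continuous_of_win {f : (U → ℝ) → ℝ} {c : ℝ} (hc : 0 ≤ c)
    (h : ∀ h h' (M : ℝ), (∀ w ∈ W, |h w - h' w| ≤ M) → |f h - f h'| ≤ c * M) : Continuous f := by
  rw [continuous_iff_continuousAt]
  intro h0
  rw [Metric.continuousAt_iff']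
  intro ε hε
  have h1 : ∀ᶠ g in 𝓝 h0, ∀ w ∈ W, |g w - h0 w| < ε / (c + 1) := by
    rw [Filter.eventually_all_finset]
    intro w _
    have h2 : Tendsto (fun g : U → ℝ => |g w - h0 w|) (𝓝 h0) (𝓝 0) := by
      have : Continuous fun g : U → ℝ => |g w - h0 w| := by fun_prop
      have h3 := this.tendsto h0
      simpa using h3
    exact h2.eventually (gt_mem_nhds (by positivity))
  filter_upwards [h1] with g hg
  rw [Real.dist_eq]
  refine (h g h0 _ fun w hw => (hg w hw).le).trans_lt ?_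
  rw [mul_div_assoc', div_lt_iff₀ (by positivity)]
  nlinarith

/-- freezing the outside -/
theorem abs_ext_sub_ext_le (h : U → ℝ) (x y : I → ℝ) (u : U) :
    |ext I h x u - ext I h y u| ≤ dist x y := abs_ext_sub_le x y u

theorem ext_ext (h : U → ℝ) (x y : I → ℝ) : ext I (ext I h x) y = ext I h y := by
  funext u
  by_cases hu : u ∈ I
  · rw [ext_mem hu, ext_mem hu]
  · rw [ext_notMem hu, ext_notMem hu, ext_notMem hu]

/-- field of a template (or of any local field) on a fibre -/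
def fib (I : Finset U) (T : Fin 2 → (U → ℝ) → I → ℝ) (h : U → ℝ) (i : Fin 2) :
    (I → ℝ) → (I → ℝ) := fun x w => T i (ext I h x) w

/-- the reference fields restricted to the block -/
def rL (I : Finset U) (L : Fin 2 → (U → ℝ) → U → ℝ) : Fin 2 → (U → ℝ) → I → ℝ :=
  fun i h w => L i h w

theorem lip_fib {T : Fin 2 → (U → ℝ) → I → ℝ} {c : ℝ} (hc : 0 ≤ c)
    (h : ∀ i h h' (M : ℝ), (∀ w ∈ W, |h w - h' w| ≤ M) → ∀ w : I, |T i h w - T i h' w| ≤ c * M)
    (g : U → ℝ) (i : Fin 2) : LipschitzWith ⟨c, hc⟩ (fib I T g i) := by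
  refine LipschitzWith.of_dist_le_mul fun x y => ?_
  change dist _ _ ≤ c * dist x y
  rw [dist_pi_le_iff (mul_nonneg hc dist_nonneg)]
  intro w
  rw [Real.dist_eq]
  exact h i _ _ _ (fun u _ => abs_ext_sub_ext_le g x y u) w

theorem RefP.lip' (H : RefP I W E o L ctr cL R ρ) : ∀ i h h' (M : ℝ),
    (∀ w ∈ W, |h w - h' w| ≤ M) → ∀ w : I, |rL I L i h w - rL I L i h' w| ≤ cL * M :=
  fun i h h' M hM w => H.lip i h h' M hM w w.2

/-- total field on the block -/
def tot (L : Fin 2 → (U → ℝ) → U → ℝ) (T : Fin 2 → (U → ℝ) → I → ℝ) :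
    Fin 2 → (U → ℝ) → I → ℝ := fun i h w => L i h w + T i h w

/-- local vector energy of the total field -/
def eN (L : Fin 2 → (U → ℝ) → U → ℝ) (T : Fin 2 → (U → ℝ) → I → ℝ) (h : U → ℝ) : ℝ :=
  enN (fib I (tot L T) h 0) (fib I (tot L T) h 1) fun u => h u

theorem eN_nonneg (T : Fin 2 → (U → ℝ) → I → ℝ) (h : U → ℝ) : 0 ≤ eN L T h := enN_nonneg _ _ _

theorem fib_ext (T : Fin 2 → (U → ℝ) → I → ℝ) (h : U → ℝ) (x : I → ℝ) (i : Fin 2) :
    fib I T (ext I h x) i = fib I T h i := by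
  funext y w; simp only [fib, ext_ext]

theorem eN_ext (T : Fin 2 → (U → ℝ) → I → ℝ) (h : U → ℝ) (x : I → ℝ) :
    eN L T (ext I h x) = enN (fib I (tot L T) h 0) (fib I (tot L T) h 1) x := by
  have e : (fun u : I => ext I h x u) = x := by funext u; exact ext_mem u.2 x
  unfold eN
  rw [fib_ext, fib_ext, e]

theorem lip_tot (H : RefP I W E o L ctr cL R ρ) {T : Fin 2 → (U → ℝ) → I → ℝ} {cT : ℝ}
    (hT : ∀ i h h' (M : ℝ), (∀ w ∈ W, |h w - h' w| ≤ M) → ∀ w : I, |T i h w - T i h' w| ≤ cT * M) :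
    ∀ i h h' (M : ℝ), (∀ w ∈ W, |h w - h' w| ≤ M) → ∀ w : I,
      |tot L T i h w - tot L T i h' w| ≤ (cL + cT) * M := by
  intro i h h' M hM w
  have e : tot L T i h w - tot L T i h' w = (L i h w - L i h' w) + (T i h w - T i h' w) := by
    simp only [tot]; ring
  rw [e]
  refine (abs_add_le _ _).trans ?_
  have h1 := H.lip i h h' M hM w w.2
  have h2 := hT i h h' M hM w
  linarith

/-- joint measurability of the vector energy with parameters -/
theorem measurable_enN_param [Countable U] {g0 g1 : (U → ℝ) → (I → ℝ) → (I → ℝ)}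
    (h0 : Continuous (Function.uncurry g0)) (h1 : Continuous (Function.uncurry g1)) :
    Measurable fun p : (U → ℝ) × (I → ℝ) => enN (g0 p.1) (g1 p.1) p.2 := by
  have m0 : Measurable fun p : (U → ℝ) × (I → ℝ) => fderiv ℝ (g0 p.1) p.2 :=
    measurable_fderiv_with_param ℝ h0
  have m1 : Measurable fun p : (U → ℝ) × (I → ℝ) => fderiv ℝ (g1 p.1) p.2 :=
    measurable_fderiv_with_param ℝ h1
  unfold enN N2
  refine Finset.measurable_sum _ fun u _ => Finset.measurable_sum _ fun v _ => ?_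
  simp only [jac_apply]
  have k0 : Measurable fun p : (U → ℝ) × (I → ℝ) => (fderiv ℝ (g0 p.1) p.2) (Pi.single v 1) u :=
    (measurable_pi_apply u).comp (m0.apply_continuousLinearMap _)
  have k1 : Measurable fun p : (U → ℝ) × (I → ℝ) => (fderiv ℝ (g1 p.1) p.2) (Pi.single v 1) u :=
    (measurable_pi_apply u).comp (m1.apply_continuousLinearMap _)
  exact ((k0.pow_const 2).add (k0.mul k1)).add (k1.pow_const 2)

theorem continuous_fib_uncurry {T : Fin 2 → (U → ℝ) → I → ℝ} {c : ℝ} (hc : 0 ≤ c)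
    (h : ∀ i h h' (M : ℝ), (∀ w ∈ W, |h w - h' w| ≤ M) → ∀ w : I, |T i h w - T i h' w| ≤ c * M)
    (i : Fin 2) : Continuous (Function.uncurry fun g : U → ℝ => fib I T g i) := by
  refine continuous_pi fun w => ?_
  have h1 : Continuous fun g : U → ℝ => T i g w :=
    continuous_of_win (W := W) hc fun g g' M hM => h i g g' M hM w
  exact h1.comp continuous_ext_pi

/-- the local energy is Borel -/
theorem measurable_eN [Countable U] (H : RefP I W E o L ctr cL R ρ)
    {T : Fin 2 → (U → ℝ) → I → ℝ} {K : ℝ} (hT : Tmpl I W C E T K) : Measurable (eN L T) := by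
  obtain ⟨cT, hcT, hl⟩ := hT.lip
  have h0 : 0 ≤ cL + cT := add_nonneg H.cL0 hcT
  have c0 := continuous_fib_uncurry h0 (lip_tot H hl) 0
  have c1 := continuous_fib_uncurry h0 (lip_tot H hl) 1
  have h1 : Measurable fun p : (U → ℝ) × (I → ℝ) =>
      enN (fib I (tot L T) p.1 0) (fib I (tot L T) p.1 1) p.2 :=
    measurable_enN_param (g0 := fun h => fib I (tot L T) h 0) (g1 := fun h => fib I (tot L T) h 1)
      c0 c1
  have h2 : Measurable fun h : U → ℝ => ((h, fun u : I => h u) : (U → ℝ) × (I → ℝ)) :=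
    measurable_id.prodMk (measurable_pi_lambda _ fun u => measurable_pi_apply _)
  have h3 : eN L T = (fun p : (U → ℝ) × (I → ℝ) =>
      enN (fib I (tot L T) p.1 0) (fib I (tot L T) p.1 1) p.2) ∘
      fun h : U → ℝ => ((h, fun u : I => h u) : (U → ℝ) × (I → ℝ)) := rfl
  rw [h3]
  exact h1.comp h2

theorem eN_bdd (H : RefP I W E o L ctr cL R ρ)
    {T : Fin 2 → (U → ℝ) → I → ℝ} {K : ℝ} (hT : Tmpl I W C E T K) :
    ∃ B, ∀ h, |eN L T h| ≤ B := by
  obtain ⟨cT, hcT, hl⟩ := hT.lip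
  have h0 : 0 ≤ cL + cT := add_nonneg H.cL0 hcT
  refine ⟨Fintype.card I * (Fintype.card I * (3 * (cL + cT) ^ 2)), fun h => ?_⟩
  rw [abs_of_nonneg (eN_nonneg _ _)]
  exact enN_le (lip_fib h0 (lip_tot H hl) h 0) (lip_fib h0 (lip_tot H hl) h 1) _

theorem fib_tot_congr (H : RefP I W E o L ctr cL R ρ)
    {T : Fin 2 → (U → ℝ) → I → ℝ} {K : ℝ} (hT : Tmpl I W C E T K) {h h' : U → ℝ}
    (hh : ∀ w ∈ W, w ∉ I → h w = h' w) (i : Fin 2) :
    fib I (tot L T) h i = fib I (tot L T) h' i := by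
  obtain ⟨cT, hcT, hl⟩ := hT.lip
  funext x w
  have h1 := lip_tot H hl i (ext I h x) (ext I h' x) 0 (fun u hu => by
    by_cases hI : u ∈ I
    · rw [ext_mem hI, ext_mem hI]; simp
    · rw [ext_notMem hI, ext_notMem hI, hh u hu hI]; simp) w
  rw [mul_zero] at h1
  have := abs_nonpos_iff.1 h1
  simp only [fib]
  linarith

theorem eN_congr (H : RefP I W E o L ctr cL R ρ)
    {T : Fin 2 → (U → ℝ) → I → ℝ} {K : ℝ} (hT : Tmpl I W C E T K) {h h' : U → ℝ}
    (hh : ∀ w ∈ W, h w = h' w) : eN L T h = eN L T h' := by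
  unfold eN
  rw [fib_tot_congr H hT (fun w hw _ => hh w hw) 0, fib_tot_congr H hT (fun w hw _ => hh w hw) 1]
  congr 1
  funext u
  exact hh u (H.IW u.2)

theorem eN_shift (H : RefP I W E o L ctr cL R ρ)
    {T : Fin 2 → (U → ℝ) → I → ℝ} {K : ℝ} (hT : Tmpl I W C E T K) (h : U → ℝ) (c : ℝ) :
    eN L T (fun v => h v + c) = eN L T h := by
  have e : ∀ i, (fib I (tot L T) h i) =
      fun x => fib I (tot L T) (fun v => h v + c) i (fun v => x v + c) := by
    intro i
    funext x w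
    have e1 : ext I (fun v => h v + c) (fun v => x v + c) = fun u => ext I h x u + c := by
      funext v; exact ext_shift x c v
    simp only [fib, tot, e1, H.sh, hT.sh]
  have key : ∀ (Y : (I → ℝ) → (I → ℝ)) (x : I → ℝ) (u v : I),
      jac (fun x => Y (fun v => x v + c)) x u v = jac Y (fun v => x v + c) u v := by
    intro Y x u v
    have e : (fun x : I → ℝ => Y (fun v => x v + c)) = fun x => Y (x + fun _ => c) := rfl
    have e2 : ∀ x : I → ℝ, (fun v => x v + c) = x + fun _ => c := fun _ => rfl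
    simp only [jac_apply]
    rw [e, fderiv_comp_add_right, e2]
  unfold eN
  rw [e 0, e 1]
  unfold enN
  simp only [key]

/-! ### energies of the unclipped fields -/

/-- unclipped field on a fibre with normalised data -/
def uf (L : Fin 2 → (U → ℝ) → U → ℝ) (D : Fin 2 → (I → ℝ) → (I → ℝ)) (ζ : U → ℝ) (i : Fin 2) :
    (I → ℝ) → (I → ℝ) := fun x w => L i (ext I ζ x) w + D i x w

/-- its mean vector energy -/
def eD (E : Finset (U × U)) (L : Fin 2 → (U → ℝ) → U → ℝ) (D : Fin 2 → (I → ℝ) → (I → ℝ))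
    (ζ : U → ℝ) : ℝ := ∫ x, enN (uf L D ζ 0) (uf L D ζ 1) x ∂(hamP I E ζ)

theorem eD_nonneg (D : Fin 2 → (I → ℝ) → (I → ℝ)) (ζ : U → ℝ) : 0 ≤ eD E L D ζ :=
  integral_nonneg fun x => enN_nonneg _ _ _

theorem lip_uf (H : RefP I W E o L ctr cL R ρ) {D : Fin 2 → (I → ℝ) → (I → ℝ)}
    (hD : ∀ i, V0f I E C (D i)) : ∃ k : ℝ≥0, ∀ ζ i, LipschitzWith k (uf L D ζ i) := by
  choose c hc using fun i => (hD i).lip
  refine ⟨⟨cL, H.cL0⟩ + (c 0 + c 1), fun ζ i => ?_⟩
  have h1 : LipschitzWith ⟨cL, H.cL0⟩ (fib I (rL I L) ζ i) := lip_fib H.cL0 H.lip' ζ i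
  have h2 : LipschitzWith (c 0 + c 1) (D i) := by
    refine (hc i).weaken ?_
    fin_cases i
    · exact le_add_of_nonneg_right (c 1).2
    · exact le_add_of_nonneg_left (c 0).2
  have h3 : uf L D ζ i = fun x => fib I (rL I L) ζ i x + D i x := rfl
  rw [h3]
  exact h1.add h2

theorem measurable_eD [Countable U] (H : RefP I W E o L ctr cL R ρ)
    {D : Fin 2 → (I → ℝ) → (I → ℝ)} (hD : ∀ i, V0f I E C (D i)) : Measurable (eD E L D) := by
  have hc : ∀ i, Continuous (Function.uncurry fun ζ : U → ℝ => uf L D ζ i) := by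
    intro i
    refine continuous_pi fun w => ?_
    have h1 : Continuous fun g : U → ℝ => L i g w :=
      continuous_of_win (W := W) H.cL0 fun g g' M hM => H.lip i g g' M hM w w.2
    have h2 : Continuous fun p : (U → ℝ) × (I → ℝ) => L i (ext I p.1 p.2) w :=
      h1.comp continuous_ext_pi
    have h3 : Continuous fun p : (U → ℝ) × (I → ℝ) => D i p.2 w := by
      have h4 : Continuous fun x : I → ℝ => D i x w :=
        (continuous_apply w).comp (hD i).ll.continuous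
      exact h4.comp continuous_snd
    exact h2.add h3
  have h1 : Measurable fun p : (U → ℝ) × (I → ℝ) => enN (uf L D p.1 0) (uf L D p.1 1) p.2 :=
    measurable_enN_param (g0 := fun ζ => uf L D ζ 0) (g1 := fun ζ => uf L D ζ 1) (hc 0) (hc 1)
  have h2 : Measurable (Function.uncurry fun (ζ : U → ℝ) (x : I → ℝ) =>
      enN (uf L D ζ 0) (uf L D ζ 1) x) := h1
  exact measurable_mean_param h2

theorem hamP_mass_le (hA : Anch I E) (ζ : U → ℝ) : (hamP I E ζ) Set.univ ≤ 1 := by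
  rw [hamP, Measure.smul_apply, Measure.restrict_apply_univ, smul_eq_mul]
  exact ENNReal.inv_mul_le_one _

theorem eD_bdd (H : RefP I W E o L ctr cL R ρ) (hA : Anch I E)
    {D : Fin 2 → (I → ℝ) → (I → ℝ)} (hD : ∀ i, V0f I E C (D i)) :
    ∃ B, 0 ≤ B ∧ ∀ ζ, eD E L D ζ ≤ B := by
  obtain ⟨k, hk⟩ := lip_uf H hD
  set B : ℝ := Fintype.card I * (Fintype.card I * (3 * (k : ℝ) ^ 2)) with hB
  have hB0 : 0 ≤ B := by positivity
  refine ⟨B, hB0, fun ζ => ?_⟩
  have hfin := (goodLaw_hamP' hA ζ).fin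
  have h1 : eD E L D ζ ≤ ∫ _x, B ∂(hamP I E ζ) := by
    refine integral_mono_of_nonneg (ae_of_all _ fun x => enN_nonneg _ _ _) (integrable_const _)
      (ae_of_all _ fun x => enN_le (hk ζ 0) (hk ζ 1) x)
  rw [integral_const, smul_eq_mul] at h1
  refine h1.trans ?_
  have h2 : (hamP I E ζ).real Set.univ ≤ 1 := by
    have := ENNReal.toReal_mono ENNReal.one_ne_top (hamP_mass_le hA ζ)
    simpa [Measure.real] using this
  nlinarith

theorem eD_congr (H : RefP I W E o L ctr cL R ρ) (D : Fin 2 → (I → ℝ) → (I → ℝ))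
    {ζ ζ' : U → ℝ} (h : ∀ w ∈ W, w ∉ I → ζ w = ζ' w) : eD E L D ζ = eD E L D ζ' := by
  have h1 : ham I E ζ = ham I E ζ' := ham_congr' fun b hb hE => by
    obtain ⟨p, hp, hpb⟩ := hE
    have h2 := H.ends p hp
    rcases hpb with rfl | rfl
    · exact h _ h2.1 hb
    · exact h _ h2.2 hb
  have h2 : hamP I E ζ = hamP I E ζ' := by unfold hamP; rw [h1]
  have h3 : ∀ i, uf L D ζ i = uf L D ζ' i := by
    intro i
    funext x w
    have h4 := H.lip i (ext I ζ x) (ext I ζ' x) 0 (fun u hu => by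
      by_cases hI : u ∈ I
      · rw [ext_mem hI, ext_mem hI]; simp
      · rw [ext_notMem hI, ext_notMem hI, h u hu hI]; simp) w w.2
    rw [mul_zero] at h4
    have := abs_nonpos_iff.1 h4
    simp only [uf]
    linarith
  unfold eD
  rw [h2, h3, h3]

theorem integral_hamP_shift (f : (I → ℝ) → ℝ) (ζ : U → ℝ) (c : ℝ) :
    ∫ x, f x ∂(hamP I E fun u => ζ u + c) = ∫ x, f (fun v => x v + c) ∂(hamP I E ζ) := by
  rw [integral_hamP_real, integral_hamP_real, setIntegral_shift]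
  congr 1
  exact Vr_shift' c

/-- the unclipped field with the reference site subtracted -/
def us (L : Fin 2 → (U → ℝ) → U → ℝ) (o : U) (D : Fin 2 → (I → ℝ) → (I → ℝ)) (h : U → ℝ)
    (i : Fin 2) : (I → ℝ) → (I → ℝ) :=
  fun x w => L i (ext I h x) w + D i (res o (ext I h x)) w

theorem integral_us (H : RefP I W E o L ctr cL R ρ) (D : Fin 2 → (I → ℝ) → (I → ℝ)) (h : U → ℝ) :
    ∫ x, enN (us L o D h 0) (us L o D h 1) x ∂(hamP I E h) =
      eD E L D (fun u => h u - h o) := by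
  have e0 : h = fun u => (fun u => h u - h o) u + h o := by funext u; simp
  have key : ∀ (Y : (I → ℝ) → (I → ℝ)) (c : ℝ) (x : I → ℝ) (u v : I),
      jac (fun x => Y (fun v => x v + c)) x u v = jac Y (fun v => x v + c) u v := by
    intro Y c x u v
    have e : (fun x : I → ℝ => Y (fun v => x v + c)) = fun x => Y (x + fun _ => c) := rfl
    have e2 : ∀ x : I → ℝ, (fun v => x v + c) = x + fun _ => c := fun _ => rfl
    simp only [jac_apply]
    rw [e, fderiv_comp_add_right, e2]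
  have e1 : ∀ i, (uf L D (fun u => h u - h o) i) =
      fun x => us L o D h i (fun v => x v + h o) := by
    intro i
    funext x w
    have e2 : ext I h (fun v => x v + h o) = fun u => ext I (fun u => h u - h o) x u + h o := by
      funext u
      by_cases hu : u ∈ I
      · rw [ext_mem hu, ext_mem hu]
      · rw [ext_notMem hu, ext_notMem hu]; ring
    have e3 : (res o (ext I h (fun v => x v + h o)) : I → ℝ) = x := by
      funext u
      simp only [res]
      rw [ext_mem u.2, ext_notMem H.oI]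
      ring
    simp only [us, uf]
    rw [e3, e2, H.sh]
  conv_lhs => rw [show hamP I E h = hamP I E (fun u => (fun u => h u - h o) u + h o) by rw [← e0]]
  rw [integral_hamP_shift]
  unfold eD
  refine integral_congr_ae (ae_of_all _ fun x => ?_)
  simp only
  rw [e1 0, e1 1]
  unfold enN
  simp only [key]

/-- extension of window data by `0` -/
def et (I W : Finset U) (z : ↥(W \ I) → ℝ) (u : U) : ℝ :=
  if h : u ∈ W \ I then z ⟨u, h⟩ else 0

theorem continuous_et : Continuous (et I W) := by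
  refine continuous_pi fun u => ?_
  by_cases h : u ∈ W \ I
  · simp only [et, dif_pos h]; exact continuous_apply _
  · simp only [et, dif_neg h]; exact continuous_const

theorem et_zt (h : U → ℝ) {w : U} (hw : w ∈ W) (hI : w ∉ I) :
    et I W (zt I W o h) w = h w - h o := by
  have : w ∈ W \ I := Finset.mem_sdiff.2 ⟨hw, hI⟩
  simp only [et, dif_pos this, zt]

theorem eD_zt (H : RefP I W E o L ctr cL R ρ) (D : Fin 2 → (I → ℝ) → (I → ℝ)) (h : U → ℝ) :
    eD E L D (fun u => h u - h o) = eD E L D (et I W (zt I W o h)) :=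
  eD_congr H D fun w hw hI => (et_zt h hw hI).symm

/-! ### the block matrix -/

variable {hA : Anch I E} {hZ : RefF I L}

theorem bb_congr_data (H : RefP I W E o L ctr cL R ρ) {ζ ζ' : U → ℝ}
    (h : ∀ w ∈ W, w ∉ I → ζ w = ζ' w) (xi : Fin 2 → ℝ) :
    bb C hA hZ ζ xi = bb C hA hZ ζ' xi := by
  have h1 : ham I E ζ = ham I E ζ' := ham_congr' fun b hb hE => by
    obtain ⟨p, hp, hpb⟩ := hE
    have h2 := H.ends p hp
    rcases hpb with rfl | rfl
    · exact h _ h2.1 hb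
    · exact h _ h2.2 hb
  have h2 : hamP I E ζ = hamP I E ζ' := by unfold hamP; rw [h1]
  have h3 : refL hZ ζ = refL hZ ζ' := by
    funext i
    refine Subtype.ext ?_
    funext x w
    have h4 := H.lip i (ext I ζ x) (ext I ζ' x) 0 (fun u hu => by
      by_cases hI : u ∈ I
      · rw [ext_mem hI, ext_mem hI]; simp
      · rw [ext_notMem hI, ext_notMem hI, h u hu hI]; simp) w w.2
    rw [mul_zero] at h4
    have := abs_nonpos_iff.1 h4
    change L i (ext I ζ x) w = L i (ext I ζ' x) w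
    linarith
  unfold bb
  refine le_antisymm (le_bT fun Y hY => ?_) (le_bT fun Y hY => ?_)
  · have := bT_le (ζ := ζ) (L := refL hZ ζ) (xi := xi) hA hY
    exact this.trans_eq (by rw [h2, h3])
  · have := bT_le (ζ := ζ') (L := refL hZ ζ') (xi := xi) hA hY
    exact this.trans_eq (by rw [h2, h3])

/-- Euclidean trace of the block matrix -/
def tr3 (hA : Anch I E) (hZ : RefF I L) (C : Finset U) (ζ : U → ℝ) : ℝ :=
  (bb C hA hZ ζ (Pi.single 0 1) + bb C hA hZ ζ (Pi.single 1 1) +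
    bb C hA hZ ζ (Pi.single 0 1 + Pi.single 1 1)) / 2

theorem tr3_nonneg (ζ : U → ℝ) : 0 ≤ tr3 hA hZ C ζ := by
  unfold tr3
  have h0 := bT_nonneg (C := C) (ζ := ζ) (L := refL hZ ζ) (xi := Pi.single 0 1) hA
  have h1 := bT_nonneg (C := C) (ζ := ζ) (L := refL hZ ζ) (xi := Pi.single 1 1) hA
  have h2 := bT_nonneg (C := C) (ζ := ζ) (L := refL hZ ζ) (xi := Pi.single 0 1 + Pi.single 1 1) hA
  unfold bb
  linarith

theorem tr3_eq (ζ : U → ℝ) : tr3 hA hZ C ζ =
    bbm C hA hZ ζ 0 0 + bbm C hA hZ ζ 0 1 + bbm C hA hZ ζ 1 1 := by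
  have hs : bbm C hA hZ ζ 1 0 = bbm C hA hZ ζ 0 1 := by
    have := bTm_symm (C := C) (ζ := ζ) (L := refL hZ ζ) hA
    exact this.apply 0 1
  have e : ∀ xi : Fin 2 → ℝ, bb C hA hZ ζ xi = xi 0 * xi 0 * bbm C hA hZ ζ 0 0 +
      xi 0 * xi 1 * bbm C hA hZ ζ 0 1 + (xi 1 * xi 0 * bbm C hA hZ ζ 0 1 +
      xi 1 * xi 1 * bbm C hA hZ ζ 1 1) := by
    intro xi
    have := bT_quad (C := C) (ζ := ζ) (L := refL hZ ζ) (xi := xi) hA
    change bb C hA hZ ζ xi = ∑ i, ∑ j, xi i * xi j * bbm C hA hZ ζ i j at this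
    rw [this, Fin.sum_univ_two, Fin.sum_univ_two, Fin.sum_univ_two, hs]
  unfold tr3
  rw [e, e, e]
  simp
  ring

theorem measurable_tr3 [Countable U] : Measurable (tr3 hA hZ C) :=
  (((measurable_bb hA hZ _).add (measurable_bb hA hZ _)).add (measurable_bb hA hZ _)).div_const 2

theorem tr3_shift (H : RefP I W E o L ctr cL R ρ) (ζ : U → ℝ) (c : ℝ) :
    tr3 hA hZ C (fun u => ζ u + c) = tr3 hA hZ C ζ := by
  unfold tr3
  rw [bb_shift hA hZ H.sh, bb_shift hA hZ H.sh, bb_shift hA hZ H.sh]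

theorem tr3_zt (H : RefP I W E o L ctr cL R ρ) (h : U → ℝ) :
    tr3 hA hZ C (et I W (zt I W o h)) = tr3 hA hZ C h := by
  have h1 : tr3 hA hZ C (et I W (zt I W o h)) = tr3 hA hZ C (fun u => h u - h o) := by
    unfold tr3
    rw [bb_congr_data H (fun w hw hI => et_zt h hw hI), bb_congr_data H (fun w hw hI => et_zt h hw hI),
      bb_congr_data H (fun w hw hI => et_zt h hw hI)]
  rw [h1]
  have h2 := tr3_shift (hA := hA) (hZ := hZ) (C := C) H (fun u => h u - h o) (h o)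
  rw [← h2]
  congr 1
  funext u; ring

/-- the energies of `V₀` perturbations in terms of the linear combinations of 565 -/
theorem eD_eq (H : RefP I W E o L ctr cL R ρ) (hA : Anch I E) (hZ : RefF I L)
    {D : Fin 2 → (I → ℝ) → (I → ℝ)} (hD : ∀ i, V0f I E C (D i)) (ζ : U → ℝ) :
    eD E L D ζ = (∫ x, en (∑ i, (Pi.single 0 1 : Fin 2 → ℝ) i • ((refL hZ ζ i).1 + D i)) x ∂(hamP I E ζ) +
      ∫ x, en (∑ i, (Pi.single 1 1 : Fin 2 → ℝ) i • ((refL hZ ζ i).1 + D i)) x ∂(hamP I E ζ) +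
      ∫ x, en (∑ i, (Pi.single 0 1 + Pi.single 1 1 : Fin 2 → ℝ) i • ((refL hZ ζ i).1 + D i)) x
        ∂(hamP I E ζ)) / 2 := by
  obtain ⟨k, hk⟩ := lip_uf H hD
  have h := integral_enN (goodLaw_hamP' hA ζ) (hk ζ 0).locallyLipschitz (hk ζ 1).locallyLipschitz
  unfold eD
  rw [h]
  have e0 : (∑ i, (Pi.single 0 1 : Fin 2 → ℝ) i • ((refL hZ ζ i).1 + D i)) = uf L D ζ 0 := by
    rw [Fin.sum_univ_two]
    simp only [Pi.single_eq_same, one_smul]
    rw [Pi.single_eq_of_ne (by decide), zero_smul, add_zero]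
    rfl
  have e1 : (∑ i, (Pi.single 1 1 : Fin 2 → ℝ) i • ((refL hZ ζ i).1 + D i)) = uf L D ζ 1 := by
    rw [Fin.sum_univ_two]
    simp only [Pi.single_eq_same, one_smul]
    rw [Pi.single_eq_of_ne (by decide), zero_smul, zero_add]
    rfl
  have e2 : (∑ i, (Pi.single 0 1 + Pi.single 1 1 : Fin 2 → ℝ) i • ((refL hZ ζ i).1 + D i)) =
      uf L D ζ 0 + uf L D ζ 1 := by
    rw [Fin.sum_univ_two]
    simp only [Pi.add_apply, Pi.single_eq_same]
    rw [Pi.single_eq_of_ne (by decide : (0 : Fin 2) ≠ 1), Pi.single_eq_of_ne (by decide : (1 : Fin 2) ≠ 0)]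
    simp only [add_zero, zero_add, one_smul]
    rfl
  rw [e0, e1, e2]

theorem tr3_le_ref (H : RefP I W E o L ctr cL R ρ) (ζ : U → ℝ) :
    tr3 hA hZ C ζ ≤ eD E L (0 : Fin 2 → (I → ℝ) → (I → ℝ)) ζ := by
  have h0 : ∀ i : Fin 2, V0f I E C ((0 : Fin 2 → (I → ℝ) → (I → ℝ)) i) := fun i => V0f.zero
  rw [eD_eq H hA hZ h0]
  have key : ∀ xi : Fin 2 → ℝ, bb C hA hZ ζ xi ≤
      ∫ x, en (∑ i, xi i • ((refL hZ ζ i).1 + (0 : Fin 2 → (I → ℝ) → (I → ℝ)) i)) x ∂(hamP I E ζ) := by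
    intro xi
    have h1 := bT_le_ref (C := C) (ζ := ζ) (L := refL hZ ζ) (xi := xi) hA
    rw [coe_cmb] at h1
    simp only [Pi.zero_apply, add_zero]
    exact h1
  unfold tr3
  have a := key (Pi.single 0 1)
  have b := key (Pi.single 1 1)
  have c := key (Pi.single 0 1 + Pi.single 1 1)
  linarith

end Crest.Agent.R144.LoA770
end
end

-- ▼ part R144/LoA6_770
section

/-!
R144 (S0197), helper770, LOWER side (probabilistic half), file 6:
**existence of near-optimal local templates** (`exists_tmpl`).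
-/

set_option autoImplicit false
set_option linter.unusedSectionVars false
set_option maxHeartbeats 400000

open MeasureTheory Set Filter Topology Metric
open scoped ENNReal NNReal

noncomputable section

namespace Crest.Agent.R144.LoA770

open Crest.Agent.R144.Ham560 Crest.Agent.R144.BQ565
open Crest.Agent.R144.MW121 (jac jac_apply en measurable_jac measurable_en en_nonneg)

section Gen

variable {V : Type*} [Fintype V] [DecidableEq V]

theorem jac_add_sum {Y : (V → ℝ) → (V → ℝ)} {Z : ℕ → (V → ℝ) → (V → ℝ)} {x : V → ℝ}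
    (hY : DifferentiableAt ℝ Y x) (hZ : ∀ j, DifferentiableAt ℝ (Z j) x) (N : ℕ) (c : ℕ → ℝ)
    (w v : V) : jac (Y + ∑ j ∈ Finset.range N, c j • Z j) x w v =
      jac Y x w v + ∑ j ∈ Finset.range N, c j * jac (Z j) x w v := by
  have hd : ∀ n, DifferentiableAt ℝ (∑ j ∈ Finset.range n, c j • Z j) x := by
    intro n
    induction n with
    | zero => simpa using differentiableAt_const (𝕜 := ℝ) (0 : V → ℝ)
    | succ n ih =>
      rw [Finset.sum_range_succ]
      exact ih.add ((hZ n).const_smul (c n))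
  rw [jac_add hY (hd N)]
  congr 1
  induction N with
  | zero =>
    simp only [Finset.range_zero, Finset.sum_empty]
    rw [jac_apply]
    have : fderiv ℝ (0 : (V → ℝ) → (V → ℝ)) x = 0 := fderiv_const_apply (0 : V → ℝ)
    rw [this]; rfl
  | succ n ih =>
    rw [Finset.sum_range_succ, Finset.sum_range_succ, jac_add (hd n) ((hZ n).const_smul (c n)),
      jac_smul' (hZ n), ih]

end Gen

variable {U : Type*} [DecidableEq U] {I W C : Finset U} {E : Finset (U × U)} {o : U}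
  {L : Fin 2 → (U → ℝ) → U → ℝ} {ctr : Fin 2 → ℝ} {cL R ρ : ℝ}

/-- one sequence of `V₀` pairs, near-optimal for the Euclidean trace for all data -/
theorem near_min (H : RefP I W E o L ctr cL R ρ) (hA : Anch I E) (hZ : RefF I L) :
    ∃ D : ℕ → Fin 2 → (I → ℝ) → (I → ℝ), (∀ n i, V0f I E C (D n i)) ∧
      ∀ ζ : U → ℝ, ∀ η > 0, ∃ n, eD E L (D n) ζ ≤ tr3 hA hZ C ζ + η := by
  obtain ⟨D, hD, h⟩ := exists_seq_bT I E C (Fin 2)
  refine ⟨D, hD, fun ζ η hη => ?_⟩
  obtain ⟨n, hn⟩ := h hA ζ (refL hZ ζ) (η / 3) (by positivity)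
  refine ⟨n, ?_⟩
  rw [eD_eq H hA hZ (hD n)]
  have a := hn (Pi.single 0 1)
  have b := hn (Pi.single 1 1)
  have c := hn (Pi.single 0 1 + Pi.single 1 1)
  have ea : (∑ i, |(Pi.single 0 1 : Fin 2 → ℝ) i|) = 1 := by
    rw [Fin.sum_univ_two]; simp
  have eb : (∑ i, |(Pi.single 1 1 : Fin 2 → ℝ) i|) = 1 := by
    rw [Fin.sum_univ_two]; simp
  have ec : (∑ i, |(Pi.single 0 1 + Pi.single 1 1 : Fin 2 → ℝ) i|) = 2 := by
    rw [Fin.sum_univ_two]; simp; norm_num
  rw [ea] at a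
  rw [eb] at b
  rw [ec] at c
  unfold tr3 bb
  linarith

/-- locally Lipschitz fields of the unclipped templates -/
theorem ll_us (H : RefP I W E o L ctr cL R ρ) {D : Fin 2 → (I → ℝ) → (I → ℝ)}
    (hD : ∀ i, V0f I E C (D i)) (h : U → ℝ) (i : Fin 2) : LocallyLipschitz (us L o D h i) := by
  obtain ⟨c, hc⟩ := (hD i).lip
  have h1 : LipschitzWith ⟨cL, H.cL0⟩ (fib I (rL I L) h i) := lip_fib H.cL0 H.lip' h i
  have h2 : LipschitzWith 1 (fun x : I → ℝ => (res o (ext I h x) : I → ℝ)) := by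
    refine LipschitzWith.of_dist_le_mul fun x y => ?_
    rw [NNReal.coe_one, one_mul, dist_pi_le_iff dist_nonneg]
    intro u
    have e : dist (res (I := I) o (ext I h x) u) (res o (ext I h y) u) = dist (x u) (y u) := by
      simp only [res]
      rw [ext_mem u.2, ext_mem u.2, ext_notMem H.oI, ext_notMem H.oI, Real.dist_eq, Real.dist_eq]
      congr 1
      ring
    rw [e]
    exact dist_le_pi_dist x y u
  have h3 : us L o D h i = fun x => fib I (rL I L) h i x + D i (res o (ext I h x)) := rfl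
  rw [h3]
  exact (h1.add (hc.comp h2)).locallyLipschitz

theorem zt_ext (H : RefP I W E o L ctr cL R ρ) (h : U → ℝ) (x : I → ℝ) :
    zt I W o (ext I h x) = zt I W o h := by
  funext b
  have hb := (Finset.mem_sdiff.1 b.2).2
  simp only [zt]
  rw [ext_notMem hb, ext_notMem H.oI]

/-- the field of a mixture on a fibre -/
theorem fib_mix (H : RefP I W E o L ctr cL R ρ) (N : ℕ) (χ : ℕ → (↥(W \ I) → ℝ) → ℝ)
    (T : ℕ → Fin 2 → (U → ℝ) → I → ℝ) (h : U → ℝ) (i : Fin 2) :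
    fib I (tot L (mix o N χ T)) h i =
      fib I (rL I L) h i + ∑ j ∈ Finset.range N, χ j (zt I W o h) • fib I (T j) h i := by
  funext x w
  simp only [fib, tot, mix, rL, Pi.add_apply, Finset.sum_apply, Pi.smul_apply, smul_eq_mul,
    zt_ext H]

/-- **the pointwise energy inequality of a mixture of clipped templates** -/
theorem enN_mix_le (H : RefP I W E o L ctr cL R ρ) (hA : Anch I E)
    {D : ℕ → Fin 2 → (I → ℝ) → (I → ℝ)} (hD : ∀ n i, V0f I E C (D n i)) {N : ℕ}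
    {χ : ℕ → (↥(W \ I) → ℝ) → ℝ} (hχ0 : ∀ j x, 0 ≤ χ j x)
    (hχ1 : ∀ x, ∑ j ∈ Finset.range N, χ j x ≤ 1) (h : U → ℝ) :
    ∀ᵐ x ∂(hamP I E h),
      enN (fib I (tot L (mix o N χ fun j => tpl R L ctr o (D j))) h 0)
        (fib I (tot L (mix o N χ fun j => tpl R L ctr o (D j))) h 1) x ≤
      ∑ j ∈ Finset.range N, χ j (zt I W o h) * enN (us L o (D j) h 0) (us L o (D j) h 1) x +
        (1 - ∑ j ∈ Finset.range N, χ j (zt I W o h)) *
          enN (us L o (0 : Fin 2 → (I → ℝ) → (I → ℝ)) h 0)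
            (us L o (0 : Fin 2 → (I → ℝ) → (I → ℝ)) h 1) x := by
  have hg := goodLaw_hamP' hA h
  have hr : ∀ i, LipschitzWith ⟨cL, H.cL0⟩ (fib I (rL I L) h i) := fun i => lip_fib H.cL0 H.lip' h i
  have ht : ∀ j i, LocallyLipschitz (fib I (tpl R L ctr o (D j)) h i) := by
    intro j i
    obtain ⟨c, hc0, hc⟩ := (tmpl_tpl (C := C) H (hD j)).lip
    exact (lip_fib hc0 hc h i).locallyLipschitz
  have hu : ∀ j i, LocallyLipschitz (us L o (D j) h i) := fun j i => ll_us H (hD j) h i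
  have a1 : ∀ᵐ x ∂(hamP I E h), ∀ i, DifferentiableAt ℝ (fib I (rL I L) h i) x :=
    ae_all_iff.2 fun i => hg.ae_diff (hr i).locallyLipschitz
  have a2 : ∀ᵐ x ∂(hamP I E h), ∀ j i, DifferentiableAt ℝ (fib I (tpl R L ctr o (D j)) h i) x :=
    ae_all_iff.2 fun j => ae_all_iff.2 fun i => hg.ae_diff (ht j i)
  have a3 : ∀ᵐ x ∂(hamP I E h), ∀ j i, DifferentiableAt ℝ (us L o (D j) h i) x :=
    ae_all_iff.2 fun j => ae_all_iff.2 fun i => hg.ae_diff (hu j i)
  filter_upwards [a1, a2, a3] with x d1 d2 d3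
  set c : ℕ → ℝ := fun j => χ j (zt I W o h) with hc
  have e0 : ∀ i, us L o (0 : Fin 2 → (I → ℝ) → (I → ℝ)) h i = fib I (rL I L) h i := by
    intro i; funext y w; simp [us, fib, rL]
  unfold enN
  rw [Finset.mul_sum]
  have e1 : ∑ j ∈ Finset.range N, χ j (zt I W o h) * ∑ w, ∑ v, N2 (jac (us L o (D j) h 0) x w v)
      (jac (us L o (D j) h 1) x w v) = ∑ w, ∑ j ∈ Finset.range N, χ j (zt I W o h) *
        ∑ v, N2 (jac (us L o (D j) h 0) x w v) (jac (us L o (D j) h 1) x w v) := by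
    rw [Finset.sum_comm]
    exact Finset.sum_congr rfl fun j _ => Finset.mul_sum _ _ _
  rw [e1, ← Finset.sum_add_distrib]
  refine Finset.sum_le_sum fun w _ => ?_
  rw [Finset.mul_sum]
  have e2 : ∑ j ∈ Finset.range N, χ j (zt I W o h) * ∑ v, N2 (jac (us L o (D j) h 0) x w v)
      (jac (us L o (D j) h 1) x w v) = ∑ v, ∑ j ∈ Finset.range N, χ j (zt I W o h) *
        N2 (jac (us L o (D j) h 0) x w v) (jac (us L o (D j) h 1) x w v) := by
    rw [Finset.sum_comm]
    exact Finset.sum_congr rfl fun j _ => Finset.mul_sum _ _ _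
  rw [e2, ← Finset.sum_add_distrib]
  refine Finset.sum_le_sum fun v _ => ?_
  rw [fib_mix H, fib_mix H, jac_add_sum (d1 0) (fun j => d2 j 0), jac_add_sum (d1 1) (fun j => d2 j 1),
    e0, e0]
  refine (N2_conv_sum (Finset.range N) c (fun j _ => hχ0 j _) (hχ1 _) _ _ _ _).trans ?_
  refine add_le_add (Finset.sum_le_sum fun j _ => ?_) le_rfl
  refine mul_le_mul_of_nonneg_left ?_ (hχ0 j _)
  rw [← jac_add (d1 0) (d2 j 0), ← jac_add (d1 1) (d2 j 1)]
  refine N2_jac_le (d3 j 0) (d3 j 1) ((d1 0).add (d2 j 0)) ((d1 1).add (d2 j 1)) ?_ w v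
  intro y w
  have ez : ∀ i (y : I → ℝ), (fib I (rL I L) h i + fib I (tpl R L ctr o (D j)) h i) y w =
      clp R (raw L ctr o (D j) (ext I h y) w) i + ctr i := by
    intro i y
    simp only [Pi.add_apply, fib, rL, tpl]
    ring
  have ey : ∀ i (y : I → ℝ), us L o (D j) h i y w = raw L ctr o (D j) (ext I h y) w i + ctr i := by
    intro i y
    simp only [us, raw]
    ring
  rw [ez, ez, ez, ez, ey, ey, ey, ey, clp_zero, clp_zero, clp_one, clp_one]
  simp only [add_sub_add_right_eq_sub]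
  exact N2_cl_le H.R0 _ _ _ _

/-- mean of the energy on a fibre -/
theorem mean_mix_le (H : RefP I W E o L ctr cL R ρ) (hA : Anch I E)
    {D : ℕ → Fin 2 → (I → ℝ) → (I → ℝ)} (hD : ∀ n i, V0f I E C (D n i)) {N : ℕ}
    {χ : ℕ → (↥(W \ I) → ℝ) → ℝ} (hχL : ∀ j, ∃ k : ℝ≥0, LipschitzWith k (χ j))
    (hχ0 : ∀ j x, 0 ≤ χ j x)
    (hχ1 : ∀ x, ∑ j ∈ Finset.range N, χ j x ≤ 1) (h : U → ℝ) :
    ∫ x, eN L (mix o N χ fun j => tpl R L ctr o (D j)) (ext I h x) ∂(hamP I E h) ≤
      ∑ j ∈ Finset.range N, χ j (zt I W o h) * eD E L (D j) (et I W (zt I W o h)) +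
        (1 - ∑ j ∈ Finset.range N, χ j (zt I W o h)) *
          eD E L (0 : Fin 2 → (I → ℝ) → (I → ℝ)) (et I W (zt I W o h)) := by
  have hg := goodLaw_hamP' hA h
  have hfin := hg.fin
  simp only [eN_ext]
  have hint : ∀ (D : Fin 2 → (I → ℝ) → (I → ℝ)), (∀ i, V0f I E C (D i)) →
      Integrable (fun x => enN (us L o D h 0) (us L o D h 1) x) (hamP I E h) := by
    intro D hD
    have i0 := hg.integrable_en (ll_us H hD h 0)
    have i1 := hg.integrable_en (ll_us H hD h 1)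
    have i2 : Integrable (en (us L o D h 0 + us L o D h 1)) (hamP I E h) :=
      hg.integrable_en (show LocallyLipschitz (us L o D h 0 + us L o D h 1) from
        (ll_us H hD h 0).add (ll_us H hD h 1))
    refine (((i0.add i1).add i2).div_const 2).congr ?_
    filter_upwards [hg.ae_diff (ll_us H hD h 0), hg.ae_diff (ll_us H hD h 1)] with x d0 d1
    simp only [Pi.add_apply]
    rw [enN_eq d0 d1]
  have h0 : ∀ i : Fin 2, V0f I E C ((0 : Fin 2 → (I → ℝ) → (I → ℝ)) i) := fun i => V0f.zero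
  have hK : (0 : ℝ) ≤ 4 * R := by have := H.R0; linarith
  have hsum : Integrable (fun x => ∑ j ∈ Finset.range N, χ j (zt I W o h) *
      enN (us L o (D j) h 0) (us L o (D j) h 1) x) (hamP I E h) :=
    integrable_finsetSum _ fun j _ => (hint _ (hD j)).const_mul _
  have hrest : Integrable (fun x => (1 - ∑ j ∈ Finset.range N, χ j (zt I W o h)) *
      enN (us L o (0 : Fin 2 → (I → ℝ) → (I → ℝ)) h 0)
        (us L o (0 : Fin 2 → (I → ℝ) → (I → ℝ)) h 1) x) (hamP I E h) := (hint _ h0).const_mul _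
  have h1 := integral_mono_of_nonneg (μ := hamP I E h) (ae_of_all _ fun x => enN_nonneg
      (fib I (tot L (mix o N χ fun j => tpl R L ctr o (D j))) h 0)
      (fib I (tot L (mix o N χ fun j => tpl R L ctr o (D j))) h 1) x) (hsum.add hrest)
      (enN_mix_le H hA hD hχ0 hχ1 h)
  refine h1.trans (le_of_eq ?_)
  simp only [Pi.add_apply]
  rw [integral_add hsum hrest, integral_finsetSum _ fun j _ => (hint _ (hD j)).const_mul _,
    integral_const_mul, integral_us H, eD_zt H]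
  congr 1
  refine Finset.sum_congr rfl fun j _ => ?_
  rw [integral_const_mul, integral_us H, eD_zt H]

theorem measurable_zt : Measurable (zt I W o) :=
  measurable_pi_lambda _ fun b => (measurable_pi_apply _).sub (measurable_pi_apply _)

/-- **Existence of near-optimal local templates.** -/
theorem exists_tmpl [Countable U] (H : RefP I W E o L ctr cL R ρ) (hA : Anch I E)
    (hZ : RefF I L) {μ : Measure (U → ℝ)} [IsProbabilityMeasure μ]
    (hdlr : ∀ F : (U → ℝ) → ℝ, Measurable F → (∃ B, ∀ h, |F h| ≤ B) →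
      (∀ h h', (∀ w ∈ W, h w = h' w) → F h = F h') → (∀ h (c : ℝ), F (fun v => h v + c) = F h) →
      ∫ h, F h ∂μ = ∫ h, ∫ x, F (ext I h x) ∂(hamP I E h) ∂μ) {η : ℝ} (hη : 0 < η) :
    ∃ T : Fin 2 → (U → ℝ) → I → ℝ, Tmpl I W C E T (4 * R) ∧
      ∫ h, eN L T h ∂μ ≤ ∫ h, tr3 hA hZ C h ∂μ + η := by
  obtain ⟨D, hD, hnear⟩ := near_min (C := C) H hA hZ
  have h0 : ∀ i : Fin 2, V0f I E C ((0 : Fin 2 → (I → ℝ) → (I → ℝ)) i) := fun i => V0f.zero
  have hztm : Measurable (zt I W o) := measurable_zt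
  set ν : Measure (↥(W \ I) → ℝ) := μ.map (zt I W o) with hν
  have hνp : IsProbabilityMeasure ν := Measure.isProbabilityMeasure_map hztm.aemeasurable
  have hetm : Measurable (et I W) := continuous_et.measurable
  set e : ℕ → (↥(W \ I) → ℝ) → ℝ := fun j z => eD E L (D j) (et I W z) with he
  set e0 : (↥(W \ I) → ℝ) → ℝ := fun z => eD E L (0 : Fin 2 → (I → ℝ) → (I → ℝ)) (et I W z) with he0
  set G : (↥(W \ I) → ℝ) → ℝ := fun z => tr3 hA hZ C (et I W z) + η / 2 with hG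
  have hem : ∀ j, Measurable (e j) := fun j => (measurable_eD H (hD j)).comp hetm
  have he0m : Measurable e0 := (measurable_eD H h0).comp hetm
  have hGm : Measurable G := (measurable_tr3.comp hetm).add_const _
  obtain ⟨B0, hB00, hB0⟩ := eD_bdd H hA h0
  have hGb : ∀ z, |G z| ≤ B0 + η / 2 := by
    intro z
    have h1 := tr3_nonneg (hA := hA) (hZ := hZ) (C := C) (et I W z)
    have h2 := tr3_le_ref (hA := hA) (hZ := hZ) (C := C) H (et I W z)
    have h3 := hB0 (et I W z)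
    rw [abs_of_nonneg (by simp only [hG]; linarith)]
    simp only [hG]; linarith
  set A' : ℕ → Set (↥(W \ I) → ℝ) := fun j => {z | e j z ≤ G z} with hA'
  have hA'm : ∀ j, MeasurableSet (A' j) := fun j => measurableSet_le (hem j) hGm
  have hcov : ⋃ j, disjointed A' j = univ := by
    rw [iUnion_disjointed, eq_univ_iff_forall]
    intro z
    obtain ⟨n, hn⟩ := hnear (et I W z) (η / 2) (by positivity)
    exact mem_iUnion.2 ⟨n, hn⟩
  obtain ⟨N, χ, hχL, hχ0, hχ1, hsel⟩ := exists_lip_selection ν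
    (A := disjointed A') (fun j => MeasurableSet.disjointed hA'm j) (disjoint_disjointed A') hcov
    hem (fun j z => eD_nonneg _ _)
    (fun j => by
      obtain ⟨B, _, hB⟩ := eD_bdd H hA (hD j)
      exact ⟨B, fun z => hB _⟩)
    he0m (fun z => eD_nonneg _ _) (fun z => hB0 _)
    (Integrable.of_bound hGm.aestronglyMeasurable (B0 + η / 2) (ae_of_all _ fun z => by
      rw [Real.norm_eq_abs]; exact hGb z))
    (fun z => by
      have h1 := tr3_nonneg (hA := hA) (hZ := hZ) (C := C) (et I W z)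
      simp only [hG]; linarith)
    (fun j z hz => disjointed_subset A' j hz) (show 0 < η / 2 by positivity)
  have hK : (0 : ℝ) ≤ 4 * R := by have := H.R0; linarith
  have hT : Tmpl I W C E (mix o N χ fun j => tpl R L ctr o (D j)) (4 * R) :=
    tmpl_mix H.oW hK (fun j => tmpl_tpl H (hD j)) hχL hχ0 hχ1
  refine ⟨_, hT, ?_⟩
  rw [hdlr _ (measurable_eN H hT) (eN_bdd H hT) (fun h h' hh => eN_congr H hT hh)
    (fun h c => eN_shift H hT h c)]
  -- the integrand is dominated by a function of the window data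
  set Φ : (↥(W \ I) → ℝ) → ℝ := fun z => ∑ j ∈ Finset.range N, χ j z * e j z +
    (1 - ∑ j ∈ Finset.range N, χ j z) * e0 z with hΦ
  have hχm : ∀ j, Measurable (χ j) := fun j => by
    obtain ⟨k, hk⟩ := hχL j
    exact hk.continuous.measurable
  have hΦm : Measurable Φ :=
    (Finset.measurable_sum _ fun j _ => (hχm j).mul (hem j)).add
      ((measurable_const.sub (Finset.measurable_sum _ fun j _ => hχm j)).mul he0m)
  choose Bj hBj0 hBj using fun j => eD_bdd H hA (hD j)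
  have hΦb : ∀ z, |Φ z| ≤ ∑ j ∈ Finset.range N, Bj j + B0 := by
    intro z
    have h1 : 0 ≤ ∑ j ∈ Finset.range N, χ j z := Finset.sum_nonneg fun j _ => hχ0 j z
    have h2 := hχ1 z
    have hχle : ∀ j ∈ Finset.range N, χ j z ≤ 1 := fun j hj =>
      (Finset.single_le_sum (f := fun j => χ j z) (fun j _ => hχ0 j z) hj).trans h2
    have h3 : 0 ≤ Φ z := add_nonneg
      (Finset.sum_nonneg fun j _ => mul_nonneg (hχ0 j z) (eD_nonneg _ _))
      (mul_nonneg (by linarith) (eD_nonneg _ _))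
    rw [abs_of_nonneg h3]
    refine add_le_add (Finset.sum_le_sum fun j hj => ?_) ?_
    · calc χ j z * e j z ≤ 1 * Bj j := mul_le_mul (hχle j hj) (hBj j _) (eD_nonneg _ _) zero_le_one
        _ = Bj j := one_mul _
    · calc (1 - ∑ j ∈ Finset.range N, χ j z) * e0 z ≤ 1 * B0 :=
            mul_le_mul (by linarith) (hB0 _) (eD_nonneg _ _) zero_le_one
        _ = B0 := one_mul _
  have hΦi : Integrable (fun h => Φ (zt I W o h)) μ :=
    Integrable.of_bound (hΦm.comp hztm).aestronglyMeasurable _ (ae_of_all _ fun h => by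
      rw [Real.norm_eq_abs]; exact hΦb _)
  calc ∫ h, ∫ x, eN L (mix o N χ fun j => tpl R L ctr o (D j)) (ext I h x) ∂(hamP I E h) ∂μ
      ≤ ∫ h, Φ (zt I W o h) ∂μ := by
        refine integral_mono_of_nonneg (ae_of_all _ fun h => integral_nonneg fun x => eN_nonneg _ _)
          hΦi (ae_of_all _ fun h => mean_mix_le H hA hD hχL hχ0 hχ1 h)
    _ = ∫ z, Φ z ∂ν := by
        rw [hν, integral_map hztm.aemeasurable hΦm.aestronglyMeasurable]
    _ ≤ ∫ z, G z ∂ν + η / 2 := hsel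
    _ = ∫ h, G (zt I W o h) ∂μ + η / 2 := by
        rw [hν, integral_map hztm.aemeasurable hGm.aestronglyMeasurable]
    _ = ∫ h, (tr3 hA hZ C h + η / 2) ∂μ + η / 2 := by
        simp only [hG, tr3_zt H]
    _ = ∫ h, tr3 hA hZ C h ∂μ + η := by
        rw [integral_add, integral_const]
        · simp; ring
        · refine Integrable.of_bound measurable_tr3.aestronglyMeasurable B0 (ae_of_all _ fun h => ?_)
          have h1 := tr3_nonneg (hA := hA) (hZ := hZ) (C := C) h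
          rw [Real.norm_eq_abs, abs_of_nonneg h1]
          exact (tr3_le_ref H h).trans (hB0 h)
        · exact integrable_const _

end Crest.Agent.R144.LoA770
end
end

-- ▼ part R144/LoA7_770
section

/-!
R144 (S0197), helper770, LOWER side (probabilistic half), file 7:
the reference pair of 565 on a block (`refP_L2`), the matrix `Ph` of 95: measurability, bounds,
locality, shifts, symmetry, positivity; and **existence of near-optimal templates** on `bk r 0`
(`exists_tpl`).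
-/

set_option autoImplicit false
set_option linter.unusedSectionVars false
set_option maxHeartbeats 400000

open MeasureTheory Set Filter Topology Metric
open scoped ENNReal NNReal

noncomputable section

namespace Crest.Agent.R144.LoA770

open Crest.Agent.R144.Ham560 Crest.Agent.R144.Tri560 Crest.Agent.R144.Zb560
open Crest.Agent.R144.BQ565
open Crest.Agent.R144.MW121 (jac jac_apply en)
open Crest.Agent.R144.Lc279 (lat mem_lat mem_nbr_lat P2)
open Crest.Agent.R144.Lw425 (hd hd_comm hd_le_iff mem_hball hball hd_self hd_triangle hd_pos LObs)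
open Crest.Agent.R144.Bl565 (Par ps L2 Lf Zk win cor bk rh cw bbO bbM trE qd DLR anch_lat refF_L2
  mem_win subset_win cor_subset win_bk_subset mem_rh bk_zero)
open Crest.Agent.R144.LoC95 (dv Ph Ph_apply Gt Tpl)

/-! ### the reference pair on a block -/

section Ref

variable {P : Par} {V : Finset P2} {E : Finset (P2 × P2)}

theorem cost_ge {c : P2 → P2 → ℝ} (hc : ∀ a b, 0 ≤ c a b) {φ : P2 → ℝ} {a : ℝ} :
    ∀ l : List P2, l ≠ [] → (∀ v ∈ l, a ≤ φ v) → a ≤ cost φ c l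
  | [], h, _ => absurd rfl h
  | [v], _, h => h v (by simp)
  | u :: v :: t, _, h => by
    rw [cost_cons]
    have := cost_ge hc (v :: t) (by simp) fun w hw => h w (List.mem_cons_of_mem _ hw)
    linarith [hc u v]

theorem abs_Zk_le {N : ℝ} (hN : ∀ k, ∀ v ∈ V, |ps k v| ≤ N) (k : Fin 3) (h : P2 → ℝ) {u : P2}
    (hu : u ∈ V) : |Zk P V E k h u| ≤ N := by
  rw [abs_le]
  constructor
  · refine le_iv fun l hl => ?_
    refine cost_ge (fun a b => cz_nonneg P.Lam_nonneg h a b) l (pt_ne_nil hl) fun v hv => ?_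
    exact (abs_le.1 (hN k v (pt_mem' hl hu v hv))).1
  · exact (Z_le u).trans (abs_le.1 (hN k u hu)).2

theorem abs_Lf_le {N : ℝ} (hN : ∀ k, ∀ v ∈ V, |ps k v| ≤ N) (k : Fin 3) (h : P2 → ℝ) {u : P2}
    (hu : u ∈ V) : |Lf P V E k h u| ≤ 2 * N := by
  have hk := abs_le.1 (abs_Zk_le (P := P) (E := E) hN k h hu)
  have h0 := abs_le.1 (abs_Zk_le (P := P) (E := E) hN 0 h hu)
  have h1 := abs_le.1 (abs_Zk_le (P := P) (E := E) hN 1 h hu)
  have h2 := abs_le.1 (abs_Zk_le (P := P) (E := E) hN 2 h hu)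
  unfold Lf
  rw [abs_le]
  constructor <;> linarith [hk.1, hk.2, h0.1, h0.2, h1.1, h1.2, h2.1, h2.2]

/-- Lipschitz constant of the reference fields -/
def cRef (P : Par) (V : Finset P2) : ℝ := 2 * ((V.card + 1) * (2 * P.Lam / P.eps))

theorem cRef_nonneg (P : Par) (V : Finset P2) : 0 ≤ cRef P V := by
  have h1 := P.Lam_nonneg
  have h2 := P.eps_pos
  unfold cRef
  positivity

theorem abs_L2_sub_le {h h' : P2 → ℝ} {M : ℝ} (hM0 : 0 ≤ M) (hM : ∀ a ∈ V, |h a - h' a| ≤ M)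
    (i : Fin 2) (u : P2) : |L2 P V E i h u - L2 P V E i h' u| ≤ cRef P V * M := by
  have hz : ∀ k, |Zk P V E k h u - Zk P V E k h' u| ≤ (V.card + 1) * (2 * P.Lam / P.eps * M) :=
    fun k => Z_lip P.eps_pos P.Lam_nonneg hM0 hM u
  have hk := abs_le.1 (hz i.castSucc)
  have h0 := abs_le.1 (hz 0)
  have h1 := abs_le.1 (hz 1)
  have h2 := abs_le.1 (hz 2)
  have e : cRef P V * M = 2 * ((V.card + 1) * (2 * P.Lam / P.eps * M)) := by unfold cRef; ring
  rw [e]
  unfold L2 Lf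
  rw [abs_le]
  constructor <;> linarith [hk.1, hk.2, h0.1, h0.2, h1.1, h1.2, h2.1, h2.2]

/-- **the reference pair on a block** -/
theorem refP_L2 (P : Par) {I : Finset P2} {m : ℕ} (hm : 1 ≤ m) {o : P2} (ho : o ∈ win m I)
    (hoI : o ∉ I) {N : ℝ} (hN0 : 0 ≤ N) (hN : ∀ k, ∀ v ∈ win m I, |ps k v| ≤ N) :
    RefP I (win m I) (lat I) o (L2 P (win m I) (lat (win m I))) 0 (cRef P (win m I)) (4 * N)
      P.rho where
  IW := subset_win m I
  oW := ho
  oI := hoI
  ends := by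
    intro p hp
    rw [mem_lat] at hp
    obtain ⟨h1, h2⟩ := hp
    have hm' : (1 : ℤ) ≤ m := by exact_mod_cast hm
    rcases h2 with h2 | h2
    · exact ⟨subset_win m I h2, mem_win.mpr ⟨p.1, h2, by rw [hd_comm, h1]; exact hm'⟩⟩
    · exact ⟨mem_win.mpr ⟨p.2, h2, by rw [h1]; exact hm'⟩, subset_win m I h2⟩
  cL0 := cRef_nonneg P _
  R0 := by linarith
  ρ0 := P.rho_pos
  lip := fun i h h' M hM u _ => abs_L2_sub_le ((abs_nonneg _).trans (hM o ho)) hM i u
  sh := fun i h c u => Bl565.L2_shift P i h c u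
  rig := fun i h p hp hI hr => by
    rw [mem_lat] at hp
    refine Bl565.L2_rigid P ?_ (subset_win m I hI.1) (subset_win m I hI.2) hr
    rw [mem_nbr_lat]
    exact ⟨hp.1, Or.inl (subset_win m I hI.1)⟩
  near := fun h u hu => by
    have h0 := abs_Lf_le (P := P) (E := lat (win m I)) hN 0 h (subset_win m I hu)
    have h1 := abs_Lf_le (P := P) (E := lat (win m I)) hN 1 h (subset_win m I hu)
    have e0 : L2 P (win m I) (lat (win m I)) 0 h u - (0 : Fin 2 → ℝ) 0 =
        Lf P (win m I) (lat (win m I)) 0 h u := by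
      rw [Pi.zero_apply, sub_zero]; rfl
    have e1 : L2 P (win m I) (lat (win m I)) 1 h u - (0 : Fin 2 → ℝ) 1 =
        Lf P (win m I) (lat (win m I)) 1 h u := by
      rw [Pi.zero_apply, sub_zero]; rfl
    rw [e0, e1]
    refine (N2_le _ _ h0 h1).trans ?_
    nlinarith [sq_nonneg N]

end Ref

/-! ### the matrix `Ph` -/

section PhS

variable {I W : Finset P2} {G : Fin 2 → (P2 → ℝ) → P2 → ℝ} {k : ℝ}

/-- fields which are Lipschitz in a window -/
structure WL (W : Finset P2) (G : Fin 2 → (P2 → ℝ) → P2 → ℝ) (k : ℝ) : Prop where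
  k0 : 0 ≤ k
  lip : ∀ i h h' (M : ℝ), 0 ≤ M → (∀ w ∈ W, |h w - h' w| ≤ M) → ∀ w, |G i h w - G i h' w| ≤ k * M

theorem WL.cont (H : WL W G k) (i : Fin 2) (w : P2) : Continuous fun h => G i h w := by
  by_cases hW : W.Nonempty
  · obtain ⟨o, ho⟩ := hW
    exact continuous_of_win (W := W) H.k0 fun h h' M hM =>
      H.lip i h h' M ((abs_nonneg _).trans (hM o ho)) hM w
  · have : ∀ h h', G i h w = G i h' w := by
      intro h h'
      have := H.lip i h h' 0 le_rfl (fun w hw => absurd ⟨w, hw⟩ hW) w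
      rw [mul_zero] at this
      exact sub_eq_zero.1 (abs_nonpos_iff.1 this)
    have e : (fun h => G i h w) = fun _ => G i 0 w := by funext h; exact this h 0
    rw [e]
    exact continuous_const

theorem WL.congr (H : WL W G k) {h h' : P2 → ℝ} (hh : ∀ w ∈ W, h w = h' w) (i : Fin 2) (w : P2) :
    G i h w = G i h' w := by
  have := H.lip i h h' 0 le_rfl (fun w hw => by rw [hh w hw, sub_self, abs_zero]) w
  rw [mul_zero] at this
  exact sub_eq_zero.1 (abs_nonpos_iff.1 this)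

theorem WL.lip_line (H : WL W G k) (i : Fin 2) (w v : P2) (h : P2 → ℝ) :
    LipschitzWith ⟨k, H.k0⟩ fun t : ℝ => G i (h + t • Pi.single v 1) w := by
  refine LipschitzWith.of_dist_le_mul fun s t => ?_
  rw [Real.dist_eq, Real.dist_eq]
  change _ ≤ k * |s - t|
  refine H.lip i _ _ _ (abs_nonneg _) (fun u _ => ?_) w
  simp only [Pi.add_apply, Pi.smul_apply, smul_eq_mul, add_sub_add_left_eq_sub, ← sub_mul]
  rw [abs_mul]
  by_cases hu : u = v
  · subst hu; simp
  · rw [Pi.single_eq_of_ne hu]; simp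

theorem WL.abs_dv_le (H : WL W G k) (i : Fin 2) (w v : P2) (h : P2 → ℝ) :
    |dv v (fun h => G i h w) h| ≤ k := by
  have := norm_deriv_le_of_lipschitz (x₀ := (0 : ℝ)) (H.lip_line i w v h)
  exact this

theorem WL.measurable_dv (H : WL W G k) (i : Fin 2) (w v : P2) :
    Measurable fun h => dv v (fun h => G i h w) h := by
  have h1 : Continuous (Function.uncurry fun (h : P2 → ℝ) (t : ℝ) =>
      G i (h + t • Pi.single v 1) w) := by
    have : Continuous fun p : (P2 → ℝ) × ℝ => p.1 + p.2 • (Pi.single v (1 : ℝ) : P2 → ℝ) := by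
      fun_prop
    exact (H.cont i w).comp this
  have h2 := measurable_deriv_with_param h1
  have h3 : Measurable fun h : P2 → ℝ => (h, (0 : ℝ)) := measurable_id.prodMk measurable_const
  exact h2.comp h3

theorem WL.dv_congr (H : WL W G k) (i : Fin 2) (w v : P2) {h h' : P2 → ℝ}
    (hh : ∀ w ∈ W, h w = h' w) : dv v (fun h => G i h w) h = dv v (fun h => G i h w) h' := by
  unfold dv lineDeriv
  congr 1
  funext t
  exact H.congr (fun u hu => by simp only [Pi.add_apply, hh u hu]) i w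

theorem dv_shift (hs : ∀ i h (c : ℝ) w, G i (fun v => h v + c) w = G i h w) (i : Fin 2) (w v : P2)
    (h : P2 → ℝ) (c : ℝ) :
    dv v (fun h => G i h w) (fun v => h v + c) = dv v (fun h => G i h w) h := by
  unfold dv lineDeriv
  congr 1
  funext t
  have e : (fun v => h v + c) + t • (Pi.single v 1 : P2 → ℝ) =
      fun u => (h + t • (Pi.single v 1 : P2 → ℝ)) u + c := by
    funext u
    simp only [Pi.add_apply]
    ring
  simp only [e]
  exact hs i (h + t • Pi.single v 1) c w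

theorem WL.measurable_Ph (H : WL W G k) (I : Finset P2) (i j : Fin 2) :
    Measurable fun h => Ph I G h i j := by
  simp only [Ph_apply]
  exact Finset.measurable_sum _ fun v _ => Finset.measurable_sum _ fun w _ =>
    (H.measurable_dv i w v).mul (H.measurable_dv j w v)

theorem WL.abs_Ph_le (H : WL W G k) (I : Finset P2) (h : P2 → ℝ) (i j : Fin 2) :
    |Ph I G h i j| ≤ I.card * (I.card * k ^ 2) := by
  rw [Ph_apply]
  refine (Finset.abs_sum_le_sum_abs _ _).trans ?_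
  have h1 : ∀ v ∈ I, |∑ w ∈ I, dv v (fun h => G i h w) h * dv v (fun h => G j h w) h| ≤
      I.card * k ^ 2 := by
    intro v _
    refine (Finset.abs_sum_le_sum_abs _ _).trans ?_
    have h2 : ∀ w ∈ I, |dv v (fun h => G i h w) h * dv v (fun h => G j h w) h| ≤ k ^ 2 := by
      intro w _
      rw [abs_mul, sq]
      exact mul_le_mul (H.abs_dv_le i w v h) (H.abs_dv_le j w v h) (abs_nonneg _) H.k0
    have := Finset.sum_le_card_nsmul I _ _ h2
    rwa [nsmul_eq_mul] at this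
  have := Finset.sum_le_card_nsmul I _ _ h1
  rwa [nsmul_eq_mul] at this

theorem WL.Ph_congr (H : WL W G k) (I : Finset P2) {h h' : P2 → ℝ}
    (hh : ∀ w ∈ W, h w = h' w) : Ph I G h = Ph I G h' := by
  ext i j
  simp only [Ph_apply]
  refine Finset.sum_congr rfl fun v _ => Finset.sum_congr rfl fun w _ => ?_
  rw [H.dv_congr i w v hh, H.dv_congr j w v hh]

theorem Ph_shift (hs : ∀ i h (c : ℝ) w, G i (fun v => h v + c) w = G i h w) (I : Finset P2)
    (h : P2 → ℝ) (c : ℝ) : Ph I G (fun v => h v + c) = Ph I G h := by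
  ext i j
  simp only [Ph_apply]
  refine Finset.sum_congr rfl fun v _ => Finset.sum_congr rfl fun w _ => ?_
  rw [dv_shift hs, dv_shift hs]

theorem Ph_symm (I : Finset P2) (G : Fin 2 → (P2 → ℝ) → P2 → ℝ) (h : P2 → ℝ) (i j : Fin 2) :
    Ph I G h i j = Ph I G h j i := by
  simp only [Ph_apply]
  exact Finset.sum_congr rfl fun v _ => Finset.sum_congr rfl fun w _ => mul_comm _ _

theorem qd_Ph (I : Finset P2) (G : Fin 2 → (P2 → ℝ) → P2 → ℝ) (h : P2 → ℝ) (y : Fin 2 → ℝ) :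
    qd (Ph I G h) y = ∑ v ∈ I, ∑ w ∈ I,
      (dv v (fun h => G 0 h w) h * y 0 + dv v (fun h => G 1 h w) h * y 1) ^ 2 := by
  rw [Bl565.qd_eq]
  simp only [Ph_apply, Finset.sum_mul]
  rw [← Finset.sum_add_distrib, ← Finset.sum_add_distrib, ← Finset.sum_add_distrib]
  refine Finset.sum_congr rfl fun v _ => ?_
  rw [← Finset.sum_add_distrib, ← Finset.sum_add_distrib, ← Finset.sum_add_distrib]
  exact Finset.sum_congr rfl fun w _ => by ring

theorem qd_Ph_nonneg (I : Finset P2) (G : Fin 2 → (P2 → ℝ) → P2 → ℝ) (h : P2 → ℝ)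
    (y : Fin 2 → ℝ) : 0 ≤ qd (Ph I G h) y := by
  rw [qd_Ph]
  exact Finset.sum_nonneg fun v _ => Finset.sum_nonneg fun w _ => sq_nonneg _

theorem trE_Ph (I : Finset P2) (G : Fin 2 → (P2 → ℝ) → P2 → ℝ) (h : P2 → ℝ) :
    trE (Ph I G h) = ∑ v ∈ I, ∑ w ∈ I,
      N2 (dv v (fun h => G 0 h w) h) (dv v (fun h => G 1 h w) h) := by
  unfold trE N2
  simp only [Ph_apply]
  rw [← Finset.sum_add_distrib, ← Finset.sum_add_distrib]
  refine Finset.sum_congr rfl fun v _ => ?_
  rw [← Finset.sum_add_distrib, ← Finset.sum_add_distrib]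
  exact Finset.sum_congr rfl fun w _ => by ring


/-- adding a multiple of a unit vector inside the block -/
theorem add_single_eq_ext (h : P2 → ℝ) (x : I → ℝ) (v : I) (t : ℝ) :
    ext I h x + t • Pi.single (v : P2) 1 = ext I h (x + t • Pi.single v 1) := by
  funext u
  simp only [Pi.add_apply, Pi.smul_apply, smul_eq_mul]
  by_cases hu : u ∈ I
  · rw [ext_mem hu, ext_mem hu]
    simp only [Pi.add_apply, Pi.smul_apply, smul_eq_mul]
    congr 2
    by_cases huv : u = v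
    · subst huv; simp
    · rw [Pi.single_eq_of_ne huv, Pi.single_eq_of_ne]
      intro h; exact huv (congrArg Subtype.val h)
  · rw [ext_notMem hu, ext_notMem hu]
    have : u ≠ v := fun e => hu (e ▸ v.2)
    rw [Pi.single_eq_of_ne this]
    simp

/-- the derivative on a fibre is the Jacobian entry -/
theorem dv_eq_jac {h : P2 → ℝ} {x : I → ℝ} {i : Fin 2}
    (hd : DifferentiableAt ℝ (fun (x : I → ℝ) (w : I) => G i (ext I h x) w) x) (w v : I) :
    dv (v : P2) (fun h => G i h w) (ext I h x) =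
      jac (fun (x : I → ℝ) (w : I) => G i (ext I h x) w) x w v := by
  have h1 : ∀ t : ℝ, G i (ext I h x + t • Pi.single (v : P2) 1) w =
      (fun (x : I → ℝ) (w : I) => G i (ext I h x) w) (x + t • Pi.single v 1) w := by
    intro t
    rw [add_single_eq_ext]
  unfold dv lineDeriv
  simp only [h1]
  rw [jac_apply]
  have h2 : HasDerivAt (fun t : ℝ => x + t • (Pi.single v (1 : ℝ) : I → ℝ))
      (Pi.single v 1) 0 := by
    have := ((hasDerivAt_id (0 : ℝ)).smul_const (Pi.single v (1 : ℝ) : I → ℝ)).const_add x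
    simpa using this
  have h3 : HasFDerivAt (fun (x : I → ℝ) (w : I) => G i (ext I h x) w)
      (fderiv ℝ (fun (x : I → ℝ) (w : I) => G i (ext I h x) w) x)
      (x + (0 : ℝ) • (Pi.single v (1 : ℝ) : I → ℝ)) := by
    rw [zero_smul, add_zero]; exact hd.hasFDerivAt
  have h4 := h3.comp_hasDerivAt (0 : ℝ) h2
  have h5 := hasDerivAt_pi.1 h4 w
  exact h5.deriv

end PhS

/-! ### templates -/

section Tp

variable {P : Par} {m : ℕ} {I : Finset P2} {Tl : Fin 2 → (P2 → ℝ) → P2 → ℝ} {B C : ℝ}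

theorem Tpl.wl (hT : Tpl m I Tl B C) (hC : 0 ≤ C) :
    WL (win m I) (Gt P m I Tl) (cRef P (win m I) + C) where
  k0 := add_nonneg (cRef_nonneg P _) hC
  lip := fun i h h' M hM0 hM w => by
    have h1 := abs_L2_sub_le (P := P) (E := lat (win m I)) hM0 hM i w
    have h2 := hT.lip i h h' M hM w
    have e : Gt P m I Tl i h w - Gt P m I Tl i h' w =
        (L2 P (win m I) (lat (win m I)) i h w - L2 P (win m I) (lat (win m I)) i h' w) +
          (Tl i h w - Tl i h' w) := by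
      simp only [Gt]; ring
    rw [e]
    refine (abs_add_le _ _).trans ?_
    linarith

theorem Gt_shift (hT : Tpl m I Tl B C) (i : Fin 2) (h : P2 → ℝ) (c : ℝ) (w : P2) :
    Gt P m I Tl i (fun v => h v + c) w = Gt P m I Tl i h w := by
  simp only [Gt]
  rw [Bl565.L2_shift, hT.sh]

/-- extension of a local template by `0` -/
def extT (T : Fin 2 → (P2 → ℝ) → I → ℝ) (i : Fin 2) (h : P2 → ℝ) (w : P2) : ℝ :=
  if hw : w ∈ I then T i h ⟨w, hw⟩ else 0

theorem extT_mem (T : Fin 2 → (P2 → ℝ) → I → ℝ) (i : Fin 2) (h : P2 → ℝ) (w : I) :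
    extT T i h w = T i h w := by
  simp only [extT, dif_pos w.2]

theorem tpl_of_tmpl {T : Fin 2 → (P2 → ℝ) → I → ℝ} {K : ℝ} (hK : 0 ≤ K)
    (hI : I.Nonempty) (hT : Tmpl I (win m I) (cor m I) (lat I) T K) :
    ∃ C, 0 ≤ C ∧ Tpl m I (extT T) K C := by
  obtain ⟨cT, hc0, hl⟩ := hT.lip
  refine ⟨cT, hc0, ?_⟩
  have hlip : ∀ i h h' (M : ℝ), (∀ v ∈ win m I, |h v - h' v| ≤ M) →
      ∀ w, |extT T i h w - extT T i h' w| ≤ cT * M := by
    intro i h h' M hM w
    have hM0 : 0 ≤ M := by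
      obtain ⟨o, ho⟩ := hI
      exact (abs_nonneg _).trans (hM o (subset_win m I ho))
    by_cases hw : w ∈ I
    · have := hl i h h' M hM ⟨w, hw⟩
      simp only [extT, dif_pos hw]
      exact this
    · simp only [extT, dif_neg hw, sub_self, abs_zero]
      positivity
  refine ⟨?_, hlip, ?_, ?_, ?_, ?_⟩
  · intro i h h' hh w
    have := hlip i h h' 0 (fun v hv => by rw [hh v hv, sub_self, abs_zero]) w
    rw [mul_zero] at this
    exact sub_eq_zero.1 (abs_nonpos_iff.1 this)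
  · intro i h w hw
    by_cases hI : w ∈ I
    · simp only [extT, dif_pos hI]
      exact hT.core i h ⟨w, hI⟩ hw
    · simp only [extT, dif_neg hI]
  · intro i h w
    by_cases hI : w ∈ I
    · simp only [extT, dif_pos hI]
      exact hT.bd i h ⟨w, hI⟩
    · simp only [extT, dif_neg hI, abs_zero]
      exact hK
  · obtain ⟨ρ, hρ, hr⟩ := hT.rig
    refine ⟨ρ, hρ, fun i h hh a ha b hb hab hge => ?_⟩
    simp only [extT, dif_pos ha, dif_pos hb]
    refine hr i h (fun p hp hpI => ?_) ⟨a, ha⟩ ⟨b, hb⟩ ?_ hge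
    · rw [mem_lat] at hp
      exact hh p.1 hpI.1 p.2 hpI.2 hp.1
    · rw [mem_lat]
      exact ⟨hab, Or.inl ha⟩
  · intro i h c w
    by_cases hI : w ∈ I
    · simp only [extT, dif_pos hI]
      exact hT.sh i h c ⟨w, hI⟩
    · simp only [extT, dif_neg hI]

/-- on a fibre -/
theorem fib_Gt (T : Fin 2 → (P2 → ℝ) → I → ℝ) (h : P2 → ℝ) (i : Fin 2) :
    (fun (x : I → ℝ) (w : I) => Gt P m I (extT T) i (ext I h x) w) =
      fib I (tot (L2 P (win m I) (lat (win m I))) T) h i := by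
  funext x w
  simp only [Gt, fib, tot, extT_mem]

/-- the trace of `Ph` on a fibre -/
theorem trE_Ph_ext {T : Fin 2 → (P2 → ℝ) → I → ℝ} {h : P2 → ℝ} {x : I → ℝ}
    (hd : ∀ i, DifferentiableAt ℝ (fib I (tot (L2 P (win m I) (lat (win m I))) T) h i) x) :
    trE (Ph I (Gt P m I (extT T)) (ext I h x)) =
      enN (fib I (tot (L2 P (win m I) (lat (win m I))) T) h 0)
        (fib I (tot (L2 P (win m I) (lat (win m I))) T) h 1) x := by
  have key : ∀ (i : Fin 2) (w v : I), dv (v : P2) (fun h => Gt P m I (extT T) i h w) (ext I h x) =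
      jac (fib I (tot (L2 P (win m I) (lat (win m I))) T) h i) x w v := by
    intro i w v
    have h1 := hd i
    rw [← fib_Gt] at h1
    rw [dv_eq_jac h1, fib_Gt]
  rw [trE_Ph]
  unfold enN
  rw [Finset.sum_comm, ← Finset.sum_coe_sort I]
  refine Finset.sum_congr rfl fun w _ => ?_
  rw [← Finset.sum_coe_sort I]
  refine Finset.sum_congr rfl fun v _ => ?_
  rw [key, key]

/-- **Existence of near-optimal templates on a general block.** -/
theorem exists_tpl_gen (P : Par) {I : Finset P2} {m : ℕ} (hm : 1 ≤ m) {o : P2}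
    (ho : o ∈ win m I) (hoI : o ∉ I) (hI : I.Nonempty) {N : ℝ} (hN0 : 0 ≤ N)
    (hN : ∀ k, ∀ v ∈ win m I, |ps k v| ≤ N) {r : ℕ} (hr : win m I ⊆ hball r)
    {μ : Measure (P2 → ℝ)} [IsProbabilityMeasure μ] (hdlr : DLR μ) {η : ℝ} (hη : 0 < η) :
    ∃ Tl C, 0 ≤ C ∧ Tpl m I Tl (16 * N) C ∧
      ∫ h, trE (Ph I (Gt P m I Tl) h) ∂μ ≤ ∫ h, trE (bbM P m I h) ∂μ + η := by
  have H := refP_L2 P hm ho hoI hN0 hN
  have hdlr' : ∀ F : (P2 → ℝ) → ℝ, Measurable F → (∃ B, ∀ h, |F h| ≤ B) →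
      (∀ h h', (∀ w ∈ win m I, h w = h' w) → F h = F h') →
      (∀ h (c : ℝ), F (fun v => h v + c) = F h) →
      ∫ h, F h ∂μ = ∫ h, ∫ x, F (ext I h x) ∂(hamP I (lat I) h) ∂μ := by
    intro F hF hb hloc hsh
    obtain ⟨B, hB⟩ := hb
    have hB0 : 0 ≤ B := (abs_nonneg _).trans (hB 0)
    have hp : (0 : ℝ) < B + 1 := by linarith
    have hobs : LObs r fun h => (B + 1)⁻¹ * F h :=
      ⟨hF.const_mul _, fun h => by
        rw [abs_mul, abs_of_pos (inv_pos.2 hp)]
        rw [inv_mul_le_iff₀ hp, mul_one]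
        linarith [hB h], fun h h' hh => by
        rw [hloc h h' fun w hw => hh w (hr hw)], fun h c => by rw [hsh]⟩
    have h1 := hdlr I r _ hobs
    simp only [integral_const_mul] at h1
    exact mul_left_cancel₀ (inv_pos.2 hp).ne' h1
  obtain ⟨T, hT, hE⟩ := exists_tmpl (C := cor m I) H (anch_lat I)
    (refF_L2 P I (win m I) (lat (win m I))) hdlr' hη
  have e4 : 4 * (4 * N) = 16 * N := by ring
  rw [e4] at hT
  obtain ⟨C, hC0, hTp⟩ := tpl_of_tmpl (by linarith) hI hT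
  refine ⟨extT T, C, hC0, hTp, ?_⟩
  have hwl := Tpl.wl (P := P) hTp hC0
  have htr : ∀ h, trE (Ph I (Gt P m I (extT T)) h) = Ph I (Gt P m I (extT T)) h 0 0 +
    Ph I (Gt P m I (extT T)) h 0 1 + Ph I (Gt P m I (extT T)) h 1 1 := fun h => rfl
  have e1 : ∫ h, trE (Ph I (Gt P m I (extT T)) h) ∂μ =
      ∫ h, ∫ x, trE (Ph I (Gt P m I (extT T)) (ext I h x)) ∂(hamP I (lat I) h) ∂μ := by
    refine hdlr' _ ?_ ?_ ?_ ?_
    · simp only [htr]
      exact ((hwl.measurable_Ph I 0 0).add (hwl.measurable_Ph I 0 1)).add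
        (hwl.measurable_Ph I 1 1)
    · refine ⟨I.card * (I.card * (cRef P (win m I) + C) ^ 2) +
        I.card * (I.card * (cRef P (win m I) + C) ^ 2) +
        I.card * (I.card * (cRef P (win m I) + C) ^ 2), fun h => ?_⟩
      rw [htr]
      exact (abs_add_three _ _ _).trans (add_le_add (add_le_add (hwl.abs_Ph_le I h 0 0)
        (hwl.abs_Ph_le I h 0 1)) (hwl.abs_Ph_le I h 1 1))
    · intro h h' hh
      rw [hwl.Ph_congr I hh]
    · intro h c
      rw [Ph_shift (Gt_shift hTp)]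
  have e2 : ∫ h, eN (L2 P (win m I) (lat (win m I))) T h ∂μ =
      ∫ h, ∫ x, eN (L2 P (win m I) (lat (win m I))) T (ext I h x) ∂(hamP I (lat I) h) ∂μ :=
    hdlr' _ (measurable_eN H hT) (eN_bdd H hT) (fun h h' hh => eN_congr H hT hh)
      (fun h c => eN_shift H hT h c)
  have e3 : ∫ h, trE (Ph I (Gt P m I (extT T)) h) ∂μ =
      ∫ h, eN (L2 P (win m I) (lat (win m I))) T h ∂μ := by
    rw [e1, e2]
    congr 1
    funext h
    refine integral_congr_ae ?_
    have hg := goodLaw_hamP' (anch_lat I) h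
    obtain ⟨cT, hcT, hl⟩ := hT.lip
    have h0 : 0 ≤ cRef P (win m I) + cT := add_nonneg H.cL0 hcT
    have hll : ∀ i, LocallyLipschitz
        (fib I (tot (L2 P (win m I) (lat (win m I))) T) h i) := fun i =>
      (lip_fib h0 (lip_tot H hl) h i).locallyLipschitz
    filter_upwards [hg.ae_diff (hll 0), hg.ae_diff (hll 1)] with x d0 d1
    rw [eN_ext, trE_Ph_ext]
    intro i
    fin_cases i
    · exact d0
    · exact d1
  rw [e3]
  refine hE.trans (le_of_eq ?_)
  congr 1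
  refine integral_congr_ae (ae_of_all _ fun h => ?_)
  exact tr3_eq h

/-- **Existence of near-optimal templates on the block of orientation `0`.** -/
theorem exists_tpl (P : Par) {r : ℕ} (hr : 2 ≤ r) {μ : Measure (P2 → ℝ)} [IsProbabilityMeasure μ]
    (hdlr : DLR μ) {η : ℝ} (hη : 0 < η) :
    ∃ Tl C, 0 ≤ C ∧ Tpl (cw r) (bk r 0) Tl (64 * r) C ∧
      ∫ h, trE (Ph (bk r 0) (Gt P (cw r) (bk r 0) Tl) h) ∂μ ≤
        ((r / 2 : ℕ) : ℝ) ^ 2 * ∫ h, trE (bbO P r 0 h) ∂μ + η := by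
  have hs : 1 ≤ r / 2 := by omega
  have hc : 1 ≤ cw r := Nat.sqrt_pos.2 (by omega)
  have h00 : ((0 : ℤ), (0 : ℤ)) ∈ bk r 0 := by
    rw [bk_zero, mem_rh]
    have : (0 : ℤ) < ((r / 2 : ℕ) : ℤ) := by exact_mod_cast hs
    exact ⟨⟨le_rfl, this⟩, le_rfl, this⟩
  have ho : (((-1 : ℤ), (0 : ℤ)) : P2) ∈ win (cw r) (bk r 0) := by
    rw [mem_win]
    refine ⟨_, h00, ?_⟩
    rw [hd_le_iff]
    have : (1 : ℤ) ≤ (cw r : ℤ) := by exact_mod_cast hc
    simp only
    omega
  have hoI : (((-1 : ℤ), (0 : ℤ)) : P2) ∉ bk r 0 := by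
    rw [bk_zero, mem_rh]
    rintro ⟨⟨h1, _⟩, _⟩
    simp only at h1
    omega
  have hN : ∀ k, ∀ v ∈ win (cw r) (bk r 0), |ps k v| ≤ 4 * (r : ℝ) := by
    intro k v hv
    have h1 := win_bk_subset r 0 hv
    rw [mem_hball] at h1
    have h2 := Bl565.abs_ps_sub_le k v 0
    have h3 : ps k (0 : P2) = 0 := by fin_cases k <;> simp [ps]
    rw [h3, sub_zero] at h2
    refine h2.trans ?_
    exact_mod_cast h1
  obtain ⟨Tl, C, hC, hT, hE⟩ := exists_tpl_gen P hc ho hoI ⟨_, h00⟩ (N := 4 * (r : ℝ))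
    (by positivity) hN (win_bk_subset r 0) hdlr hη
  refine ⟨Tl, C, hC, ?_, ?_⟩
  · have e : 16 * (4 * (r : ℝ)) = 64 * r := by ring
    rw [e] at hT
    exact hT
  · refine hE.trans (le_of_eq ?_)
    have hs' : (((r / 2 : ℕ)) : ℝ) ≠ 0 := by
      have : (0 : ℝ) < ((r / 2 : ℕ) : ℝ) := by exact_mod_cast hs
      exact this.ne'
    rw [← integral_const_mul]
    congr 2
    funext h
    simp only [bbO, trE, Matrix.smul_apply, smul_eq_mul]
    field_simp

end Tp

end Crest.Agent.R144.LoA770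
end
end

-- ▼ part R144/LoA8_770
section

/-!
R144 (S0197), helper770, LOWER side (probabilistic half), file 8:
templates for the three orientations.

* `ae_diff` : a.e. differentiability along the coordinates under a law with the DLR property;
* `rotT r o Tl`, `tpl_rot`, `qd_Ph_rot`, `integral_qd_rot` : rotated templates;
* `integral_trE_le` : `∫ trE (bbO P r 0) ≤ 2 b` from `∀ L, abT P μ r L ≤ b`;
* `three` : the templates of the three orientations with the isotropic bound.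
-/

set_option autoImplicit false
set_option linter.unusedSectionVars false
set_option maxHeartbeats 400000

open MeasureTheory Set Filter Topology Metric
open scoped ENNReal NNReal

noncomputable section

namespace Crest.Agent.R144.LoA770

open Crest.Agent.R144.Ham560 Crest.Agent.R144.Tri560 Crest.Agent.R144.Zb560
open Crest.Agent.R144.BQ565
open Crest.Agent.R144.MW121 (jac jac_apply en)
open Crest.Agent.R144.Lc279 (lat mem_lat mem_nbr_lat P2)
open Crest.Agent.R144.Lw425 (hd hd_comm hd_le_iff mem_hball hball hd_self hd_triangle hd_pos LObs)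
open Crest.Agent.R144.Bl565 (Par ps L2 Lf Zk win cor bk rh cw bbO bbM trE qd DLR anch_lat refF_L2
  mem_win subset_win cor_subset win_bk_subset mem_rh bk_zero ek tw prm sg Sym exists_sym mem_bk
  Lf_eq_ek abT Inv bbL)
open Crest.Agent.R144.LoC95 (dv Ph Ph_apply Gt Tpl)

/-! ### a.e. differentiability -/

section AE

variable {W : Finset P2} {G : Fin 2 → (P2 → ℝ) → P2 → ℝ} {k : ℝ} {r : ℕ}
  {μ : Measure (P2 → ℝ)}

/-- the field along a coordinate line -/
def ln (G : Fin 2 → (P2 → ℝ) → P2 → ℝ) (i : Fin 2) (w v : P2) (h : P2 → ℝ) (t : ℝ) : ℝ :=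
  G i (h + t • (Pi.single v 1 : P2 → ℝ)) w

theorem dv_eq_ln (i : Fin 2) (w v : P2) (h : P2 → ℝ) :
    dv v (fun h => G i h w) h = deriv (ln G i w v h) 0 := rfl

theorem WL.cont_ln (H : WL W G k) (i : Fin 2) (w v : P2) :
    Continuous (Function.uncurry (ln G i w v)) := by
  have : Continuous fun p : (P2 → ℝ) × ℝ => p.1 + p.2 • (Pi.single v (1 : ℝ) : P2 → ℝ) := by
    fun_prop
  exact (H.cont i w).comp this

theorem WL.measurableSet_diff (H : WL W G k) (i : Fin 2) (w v : P2) :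
    MeasurableSet {h : P2 → ℝ | DifferentiableAt ℝ (ln G i w v h) 0} := by
  have h1 := measurableSet_of_differentiableAt_with_param ℝ (H.cont_ln i w v)
  have h3 : Measurable fun h : P2 → ℝ => (h, (0 : ℝ)) := measurable_id.prodMk measurable_const
  exact h3 h1

/-- a.e. differentiability along the coordinates -/
theorem ae_diff (H : WL W G k) (hs : ∀ i h (c : ℝ) w, G i (fun v => h v + c) w = G i h w)
    (hW : W ⊆ hball r) [IsProbabilityMeasure μ] (hdlr : DLR μ) (i : Fin 2) (w v : P2) :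
    ∀ᵐ h ∂μ, DifferentiableAt ℝ (ln G i w v h) 0 := by
  set S : Set (P2 → ℝ) := {h : P2 → ℝ | DifferentiableAt ℝ (ln G i w v h) 0}ᶜ with hS
  have hSm : MeasurableSet S := (H.measurableSet_diff i w v).compl
  set f : (P2 → ℝ) → ℝ := S.indicator 1 with hf
  have hcongr : ∀ h h', ln G i w v h = ln G i w v h' → f h = f h' := by
    intro h h' e
    have : h ∈ S ↔ h' ∈ S := by
      simp only [hS, mem_compl_iff, mem_setOf_eq, e]
    by_cases hh : h ∈ S
    · rw [hf, indicator_of_mem hh, indicator_of_mem (this.1 hh)]; rfl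
    · rw [hf, indicator_of_notMem hh, indicator_of_notMem fun h2 => hh (this.2 h2)]
  have hobs : LObs r f := by
    refine ⟨measurable_one.indicator hSm, fun h => ?_, fun h h' hh => hcongr h h' ?_,
      fun h c => hcongr _ _ ?_⟩
    · rw [hf]
      by_cases hh : h ∈ S
      · rw [indicator_of_mem hh]; simp
      · rw [indicator_of_notMem hh]; simp
    · funext t
      exact H.congr (fun u hu => by simp only [Pi.add_apply, hh u (hW hu)]) i w
    · funext t
      have e : (fun v => h v + c) + t • (Pi.single v 1 : P2 → ℝ) =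
          fun u => (h + t • (Pi.single v 1 : P2 → ℝ)) u + c := by
        funext u
        simp only [Pi.add_apply]
        ring
      simp only [ln, e]
      exact hs i _ c w
  have h1 := hdlr {v} r f hobs
  have h2 : ∀ h : P2 → ℝ, ∫ x, f (ext {v} h x) ∂(hamP {v} (lat {v}) h) = 0 := by
    intro h
    have hg := goodLaw_hamP' (anch_lat {v}) h
    set Y : (({v} : Finset P2) → ℝ) → (({v} : Finset P2) → ℝ) :=
      fun x _ => G i (ext {v} h x) w with hY
    have hYl : LipschitzWith ⟨k, H.k0⟩ Y := by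
      refine LipschitzWith.of_dist_le_mul fun x y => ?_
      change dist _ _ ≤ k * dist x y
      rw [dist_pi_le_iff (mul_nonneg H.k0 dist_nonneg)]
      intro u
      rw [Real.dist_eq]
      exact H.lip i _ _ _ dist_nonneg (fun u _ => abs_ext_sub_ext_le h x y u) w
    have h3 : ∀ᵐ x ∂(hamP {v} (lat {v}) h), f (ext {v} h x) = 0 := by
      filter_upwards [hg.ae_diff hYl.locallyLipschitz] with x hx
      have h4 : ext {v} h x ∉ S := by
        rw [hS, notMem_compl_iff, mem_setOf_eq]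
        have e : ln G i w v (ext {v} h x) =
            fun t => Y (x + t • Pi.single ⟨v, Finset.mem_singleton_self v⟩ 1)
              ⟨v, Finset.mem_singleton_self v⟩ := by
          funext t
          have := add_single_eq_ext (I := {v}) h x ⟨v, Finset.mem_singleton_self v⟩ t
          simp only [ln, hY]
          rw [this]
        rw [e]
        have h5 : DifferentiableAt ℝ (fun t : ℝ =>
            x + t • (Pi.single ⟨v, Finset.mem_singleton_self v⟩ (1 : ℝ) :
              ({v} : Finset P2) → ℝ)) 0 := by fun_prop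
        have h6 : DifferentiableAt ℝ Y (x + (0 : ℝ) •
            (Pi.single ⟨v, Finset.mem_singleton_self v⟩ (1 : ℝ) : ({v} : Finset P2) → ℝ)) := by
          rw [zero_smul, add_zero]; exact hx
        have h7 : DifferentiableAt ℝ (Y ∘ fun t : ℝ => (x + t •
            (Pi.single ⟨v, Finset.mem_singleton_self v⟩ (1 : ℝ) : ({v} : Finset P2) → ℝ))) 0 :=
          DifferentiableAt.comp (0 : ℝ) h6 h5
        exact differentiableAt_pi.1 h7 ⟨v, Finset.mem_singleton_self v⟩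
      rw [hf, indicator_of_notMem h4]
    rw [integral_congr_ae h3]
    simp
  simp only [h2, integral_zero] at h1
  rw [hf, integral_indicator_one hSm] at h1
  rw [ae_iff]
  have h8 : μ S = 0 := by
    have := (measureReal_eq_zero_iff (measure_ne_top μ S)).1 h1
    exact this
  exact h8

end AE

/-! ### rotations -/

section Rot

variable {P : Par} {m : ℕ} {I I' : Finset P2} {Tl : Fin 2 → (P2 → ℝ) → P2 → ℝ} {B C : ℝ}
  {σ : P2 → P2} {π : Equiv.Perm (Fin 3)} {c : Fin 3 → ℝ}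

/-- transported template -/
def trT (σ : P2 → P2) (π : Equiv.Perm (Fin 3)) (Tl : Fin 2 → (P2 → ℝ) → P2 → ℝ) (i : Fin 2)
    (h : P2 → ℝ) (v : P2) : ℝ :=
  ∑ j, ek (π i.castSucc) j * Tl j (h ∘ σ) (Function.invFun σ v)

theorem abs_ek_le (k : Fin 3) (j : Fin 2) : |ek k j| ≤ 1 := by
  fin_cases k <;> fin_cases j <;> simp [ek]

theorem trT_map (hσ : Function.Injective σ) (i : Fin 2) (h : P2 → ℝ) (w : P2) :
    trT σ π Tl i h (σ w) = ∑ j, ek (π i.castSucc) j * Tl j (h ∘ σ) w := by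
  unfold trT
  rw [Function.leftInverse_invFun hσ w]

theorem tpl_tr (hc : Sym σ π c) (hI : ∀ v, v ∈ I' ↔ ∃ u ∈ I, σ u = v)
    (hT : Tpl m I Tl B C) : Tpl m I' (trT σ π Tl) (2 * B) (2 * C) := by
  have hwin : ∀ v ∈ win m I, σ v ∈ win m I' := fun v hv => (hc.mem_win hI _).2 ⟨v, hv, rfl⟩
  refine ⟨?_, ?_, ?_, ?_, ?_, ?_⟩
  · intro i h h' hh w
    unfold trT
    refine Finset.sum_congr rfl fun j _ => ?_
    rw [hT.loc j (h ∘ σ) (h' ∘ σ) (fun v hv => hh _ (hwin v hv))]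
  · intro i h h' M hM w
    unfold trT
    rw [← Finset.sum_sub_distrib]
    refine (Finset.abs_sum_le_sum_abs _ _).trans ?_
    rw [Fin.sum_univ_two, ← mul_sub, ← mul_sub, abs_mul, abs_mul]
    have key : ∀ j, |Tl j (h ∘ σ) (Function.invFun σ w) - Tl j (h' ∘ σ) (Function.invFun σ w)| ≤
        C * M := fun j => hT.lip j _ _ M (fun v hv => hM _ (hwin v hv)) _
    have h0 := key 0
    have h1 := key 1
    have e0 := abs_ek_le (π i.castSucc) 0
    have e1 := abs_ek_le (π i.castSucc) 1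
    have f0 := mul_le_mul e0 h0 (abs_nonneg _) zero_le_one
    have f1 := mul_le_mul e1 h1 (abs_nonneg _) zero_le_one
    linarith
  · intro i h w hw
    obtain ⟨u, rfl⟩ := hc.surj w
    rw [trT_map hc.inj]
    have hu : u ∉ cor m I := fun h => hw ((hc.mem_cor hI u).2 h)
    exact Finset.sum_eq_zero fun j _ => by rw [hT.off j _ _ hu, mul_zero]
  · intro i h w
    unfold trT
    refine (Finset.abs_sum_le_sum_abs _ _).trans ?_
    rw [Fin.sum_univ_two, abs_mul, abs_mul]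
    have h0 := hT.bdd 0 (h ∘ σ) (Function.invFun σ w)
    have h1 := hT.bdd 1 (h ∘ σ) (Function.invFun σ w)
    have e0 := abs_ek_le (π i.castSucc) 0
    have e1 := abs_ek_le (π i.castSucc) 1
    have f0 := mul_le_mul e0 h0 (abs_nonneg _) zero_le_one
    have f1 := mul_le_mul e1 h1 (abs_nonneg _) zero_le_one
    linarith
  · obtain ⟨ρ, hρ, hr⟩ := hT.rig
    refine ⟨ρ, hρ, fun i h hh a ha b hb hab hge => ?_⟩
    obtain ⟨a', ha', rfl⟩ := (hI a).1 ha
    obtain ⟨b', hb', rfl⟩ := (hI b).1 hb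
    rw [trT_map hc.inj, trT_map hc.inj]
    refine Finset.sum_congr rfl fun j _ => ?_
    rw [hr j (h ∘ σ) (fun p hp q hq hpq => hh _ ((hI _).2 ⟨p, hp, rfl⟩) _ ((hI _).2 ⟨q, hq, rfl⟩)
      (by rw [hc.hd_eq]; exact hpq)) a' ha' b' hb' (by rw [← hc.hd_eq]; exact hab) hge]
  · intro i h t w
    unfold trT
    refine Finset.sum_congr rfl fun j _ => ?_
    have e : (fun v => h v + t) ∘ σ = fun v => (h ∘ σ) v + t := rfl
    rw [e, hT.sh]

/-- transported field -/
theorem Gt_tr (hc : Sym σ π c) (hI : ∀ v, v ∈ I' ↔ ∃ u ∈ I, σ u = v) (i : Fin 2) (h : P2 → ℝ)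
    (w : P2) : Gt P m I' (trT σ π Tl) i h (σ w) =
      ∑ j, ek (π i.castSucc) j * Gt P m I Tl j (h ∘ σ) w +
        (c i.castSucc - (c 0 + c 1 + c 2) / 3) := by
  have h1 : L2 P (win m I') (lat (win m I')) i h (σ w) =
      Lf P (win m I) (lat (win m I)) (π i.castSucc) (h ∘ σ) w +
        (c i.castSucc - (c 0 + c 1 + c 2) / 3) :=
    hc.Lf_eq P (hc.mem_win hI) (hc.nbr_win hI) i.castSucc h w
  unfold Gt
  rw [h1, trT_map hc.inj, Lf_eq_ek]
  simp only [mul_add, Finset.sum_add_distrib]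
  ring

theorem comp_add_single (hσ : Function.Injective σ) (h : P2 → ℝ) (t : ℝ) (v : P2) :
    (h + t • (Pi.single (σ v) 1 : P2 → ℝ)) ∘ σ = h ∘ σ + t • (Pi.single v 1 : P2 → ℝ) := by
  funext u
  simp only [Function.comp_apply, Pi.add_apply, Pi.smul_apply, smul_eq_mul]
  by_cases huv : u = v
  · subst huv; simp
  · rw [Pi.single_eq_of_ne huv, Pi.single_eq_of_ne fun e => huv (hσ e)]

/-- transported derivatives -/
theorem dv_tr (hc : Sym σ π c) (hI : ∀ v, v ∈ I' ↔ ∃ u ∈ I, σ u = v) (i : Fin 2) {h : P2 → ℝ}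
    {w v : P2} (hd : ∀ j, DifferentiableAt ℝ (ln (Gt P m I Tl) j w v (h ∘ σ)) 0) :
    dv (σ v) (fun h => Gt P m I' (trT σ π Tl) i h (σ w)) h =
      ∑ j, ek (π i.castSucc) j * dv v (fun h => Gt P m I Tl j h w) (h ∘ σ) := by
  have h1 : ∀ t : ℝ, ln (Gt P m I' (trT σ π Tl)) i (σ w) (σ v) h t =
      ∑ j, ek (π i.castSucc) j * ln (Gt P m I Tl) j w v (h ∘ σ) t +
        (c i.castSucc - (c 0 + c 1 + c 2) / 3) := by
    intro t
    simp only [ln]
    rw [Gt_tr hc hI, comp_add_single hc.inj]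
  rw [dv_eq_ln]
  simp only [dv_eq_ln]
  have h2 : HasDerivAt (fun t : ℝ => ∑ j, ek (π i.castSucc) j * ln (Gt P m I Tl) j w v (h ∘ σ) t +
      (c i.castSucc - (c 0 + c 1 + c 2) / 3))
      (∑ j, ek (π i.castSucc) j * deriv (ln (Gt P m I Tl) j w v (h ∘ σ)) 0) 0 := by
    refine HasDerivAt.add_const _ ?_
    exact HasDerivAt.fun_sum fun j _ => (hd j).hasDerivAt.const_mul _
  have h3 : ln (Gt P m I' (trT σ π Tl)) i (σ w) (σ v) h =
      fun t : ℝ => ∑ j, ek (π i.castSucc) j * ln (Gt P m I Tl) j w v (h ∘ σ) t +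
        (c i.castSucc - (c 0 + c 1 + c 2) / 3) := by
    funext t; exact h1 t
  rw [h3]
  exact h2.deriv

/-- **transported matrix** -/
theorem qd_Ph_tr (hc : Sym σ π c) (hI : ∀ v, v ∈ I' ↔ ∃ u ∈ I, σ u = v) {h : P2 → ℝ}
    (hd : ∀ j, ∀ w ∈ I, ∀ v ∈ I, DifferentiableAt ℝ (ln (Gt P m I Tl) j w v (h ∘ σ)) 0)
    (y : Fin 2 → ℝ) :
    qd (Ph I' (Gt P m I' (trT σ π Tl)) h) y = qd (Ph I (Gt P m I Tl) (h ∘ σ)) (tw π y) := by
  have hI' : I' = I.image σ := by
    ext v; rw [hI, Finset.mem_image]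
  rw [qd_Ph, qd_Ph]
  have e1 : ∀ f : P2 → ℝ, ∑ v ∈ I', f v = ∑ v ∈ I, f (σ v) := by
    intro f
    rw [hI', Finset.sum_image fun a _ b _ h => hc.inj h]
  rw [e1]
  refine Finset.sum_congr rfl fun v hv => ?_
  rw [e1]
  refine Finset.sum_congr rfl fun w hw => ?_
  rw [dv_tr hc hI 0 (fun j => hd j w hw v hv), dv_tr hc hI 1 (fun j => hd j w hw v hv)]
  rw [Fin.sum_univ_two, Fin.sum_univ_two, Bl565.tw_apply, Bl565.tw_apply]
  have e2 : (Fin.castSucc (0 : Fin 2)) = (0 : Fin 3) := rfl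
  have e3 : (Fin.castSucc (1 : Fin 2)) = (1 : Fin 3) := rfl
  rw [e2, e3]
  ring

/-- the transported fields are Lipschitz in the window -/
theorem wl_comp (hc : Sym σ π c) (hI : ∀ v, v ∈ I' ↔ ∃ u ∈ I, σ u = v) {k : ℝ}
    {G : Fin 2 → (P2 → ℝ) → P2 → ℝ} (H : WL (win m I) G k) :
    WL (win m I') (fun i h w => G i (h ∘ σ) w) k where
  k0 := H.k0
  lip := fun i _ _ M hM0 hM w =>
    H.lip i _ _ M hM0 (fun v hv => hM _ ((hc.mem_win hI _).2 ⟨v, hv, rfl⟩)) w

end Rot

/-! ### the three orientations -/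

section Three

variable {P : Par} {r : ℕ} {Tl : Fin 2 → (P2 → ℝ) → P2 → ℝ} {B C b : ℝ} {μ : Measure (P2 → ℝ)}

/-- the template of the orientation `o` -/
def rotT (r : ℕ) (o : Fin 3) (Tl : Fin 2 → (P2 → ℝ) → P2 → ℝ) : Fin 2 → (P2 → ℝ) → P2 → ℝ :=
  trT (sg (r / 2) o) (prm o) Tl

theorem mem_bk' {r : ℕ} {o : Fin 3} (v : P2) : v ∈ bk r o ↔ ∃ u ∈ bk r 0, sg (r / 2) o u = v := by
  rw [bk_zero]; exact mem_bk

theorem tpl_rot (o : Fin 3) (hT : Tpl (cw r) (bk r 0) Tl B C) :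
    Tpl (cw r) (bk r o) (rotT r o Tl) (2 * B) (2 * C) := by
  obtain ⟨c, hc⟩ := exists_sym (r / 2) o
  exact tpl_tr hc (fun v => mem_bk' v) hT

theorem measurable_qd_Ph {W : Finset P2} {G : Fin 2 → (P2 → ℝ) → P2 → ℝ} {k : ℝ} (H : WL W G k)
    (I : Finset P2) (y : Fin 2 → ℝ) : Measurable fun h => qd (Ph I G h) y := by
  unfold qd
  exact Finset.measurable_fun_sum _ fun i _ => Finset.measurable_fun_sum _ fun j _ =>
    ((H.measurable_Ph I i j).mul_const _).mul_const _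

theorem integrable_Ph [IsProbabilityMeasure μ] {W : Finset P2} {G : Fin 2 → (P2 → ℝ) → P2 → ℝ}
    {k : ℝ} (H : WL W G k) (I : Finset P2) (i j : Fin 2) : Integrable (fun h => Ph I G h i j) μ :=
  Integrable.of_bound (H.measurable_Ph I i j).aestronglyMeasurable _
    (ae_of_all _ fun h => by rw [Real.norm_eq_abs]; exact H.abs_Ph_le I h i j)

theorem integrable_qd_Ph [IsProbabilityMeasure μ] {W : Finset P2}
    {G : Fin 2 → (P2 → ℝ) → P2 → ℝ} {k : ℝ} (H : WL W G k) (I : Finset P2) (y : Fin 2 → ℝ) :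
    Integrable (fun h => qd (Ph I G h) y) μ := by
  unfold qd
  exact integrable_finsetSum _ fun i _ => integrable_finsetSum _ fun j _ =>
    ((integrable_Ph H I i j).mul_const _).mul_const _

/-- **the quadratic forms of the rotated templates** -/
theorem integral_qd_rot (hμ : Inv μ) (hdlr : DLR μ) (hT : Tpl (cw r) (bk r 0) Tl B C)
    (hC : 0 ≤ C) (o : Fin 3) (y : Fin 2 → ℝ) :
    ∫ h, qd (Ph (bk r o) (Gt P (cw r) (bk r o) (rotT r o Tl)) h) y ∂μ =
      ∫ h, qd (Ph (bk r 0) (Gt P (cw r) (bk r 0) Tl) h) (tw (prm o) y) ∂μ := by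
  have := hμ.prob
  obtain ⟨c, hc⟩ := exists_sym (r / 2) o
  have hw := Tpl.wl (P := P) hT hC
  have hw' : WL (win (cw r) (bk r o))
      (fun i h w => Gt P (cw r) (bk r 0) Tl i (h ∘ sg (r / 2) o) w)
      (cRef P (win (cw r) (bk r 0)) + C) := wl_comp hc (fun v => mem_bk' v) hw
  have hd : ∀ᵐ h ∂μ, ∀ j, ∀ w ∈ bk r 0, ∀ v ∈ bk r 0,
      DifferentiableAt ℝ (ln (Gt P (cw r) (bk r 0) Tl) j w v (h ∘ sg (r / 2) o)) 0 := by
    have h1 : ∀ j (w v : P2), ∀ᵐ h ∂μ,
        DifferentiableAt ℝ (ln (Gt P (cw r) (bk r 0) Tl) j w v (h ∘ sg (r / 2) o)) 0 := by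
      intro j w v
      have h2 := ae_diff hw' (fun i h t w => by
        have e : (fun v => h v + t) ∘ sg (r / 2) o = fun v => (h ∘ sg (r / 2) o) v + t := rfl
        rw [e, Gt_shift hT]) (win_bk_subset r o) hdlr j w (sg (r / 2) o v)
      filter_upwards [h2] with h hh
      have e : ln (Gt P (cw r) (bk r 0) Tl) j w v (h ∘ sg (r / 2) o) =
          ln (fun i h w => Gt P (cw r) (bk r 0) Tl i (h ∘ sg (r / 2) o) w) j w
            (sg (r / 2) o v) h := by
        funext t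
        simp only [ln]
        rw [comp_add_single hc.inj]
      rw [e]
      exact hh
    have h2 : ∀ᵐ h ∂μ, ∀ j (w v : P2),
        DifferentiableAt ℝ (ln (Gt P (cw r) (bk r 0) Tl) j w v (h ∘ sg (r / 2) o)) 0 :=
      ae_all_iff.2 fun j => ae_all_iff.2 fun w => ae_all_iff.2 fun v => h1 j w v
    filter_upwards [h2] with h hh j w _ v _
    exact hh j w v
  have h1 : ∫ h, qd (Ph (bk r o) (Gt P (cw r) (bk r o) (rotT r o Tl)) h) y ∂μ =
      ∫ h, qd (Ph (bk r 0) (Gt P (cw r) (bk r 0) Tl) (h ∘ sg (r / 2) o)) (tw (prm o) y) ∂μ := by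
    refine integral_congr_ae ?_
    filter_upwards [hd] with h hh
    exact qd_Ph_tr hc (fun v => mem_bk' v) hh y
  rw [h1]
  exact hμ.integral_sg (F := fun h => qd (Ph (bk r 0) (Gt P (cw r) (bk r 0) Tl) h) (tw (prm o) y))
    (measurable_qd_Ph hw _ _) (fun h t => by rw [Ph_shift (Gt_shift hT)]) (r / 2) o

/-- **isotropy of the sum over the orientations** -/
theorem sum_qd_rot (hμ : Inv μ) (hdlr : DLR μ) (hT : Tpl (cw r) (bk r 0) Tl B C)
    (hC : 0 ≤ C) (y : Fin 2 → ℝ) :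
    ∑ o, ∫ h, qd (Ph (bk r o) (Gt P (cw r) (bk r o) (rotT r o Tl)) h) y ∂μ =
      2 * (∫ h, trE (Ph (bk r 0) (Gt P (cw r) (bk r 0) Tl) h) ∂μ) *
        (y 0 ^ 2 - y 0 * y 1 + y 1 ^ 2) := by
  have := hμ.prob
  have hw := Tpl.wl (P := P) hT hC
  simp only [integral_qd_rot hμ hdlr hT hC]
  rw [← integral_finsetSum]
  · simp only [Bl565.sum_tw (Ph_symm _ _ _ 0 1)]
    rw [integral_mul_const, integral_const_mul]
  · intro o _
    exact integrable_qd_Ph hw _ _

/-- the truncated traces of the orientation `0` -/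
theorem abT_eq_zero (hμ : Inv μ) (r : ℕ) (L : ℝ) :
    abT P μ r L = (1 / 2) * ∫ h, trE (bbL P r 0 L h) ∂μ := by
  unfold abT
  have h3 : ∀ o, ∫ h, (if trE (bbO P r o h) ≤ L then trE (bbO P r o h) else 0) ∂μ =
      ∫ h, trE (bbL P r 0 L h) ∂μ := by
    intro o
    simp only [Bl565.trE_bbL]
    have h4 : ∀ h : P2 → ℝ, (if trE (bbO P r o h) ≤ L then trE (bbO P r o h) else 0) =
        (fun g : P2 → ℝ => if trE (bbO P r 0 g) ≤ L then trE (bbO P r 0 g) else 0)
          (h ∘ sg (r / 2) o) := by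
      intro h; simp only [← Bl565.trE_bbO_rot]
    simp only [h4]
    refine hμ.integral_sg (F := fun g : P2 → ℝ =>
      if trE (bbO P r 0 g) ≤ L then trE (bbO P r 0 g) else 0) ?_ ?_ (r / 2) o
    · exact Measurable.ite (Bl565.measurable_trE r 0 measurableSet_Iic) (Bl565.measurable_trE r 0)
        measurable_const
    · intro h c; simp only [Bl565.bbO_shift]
  simp only [h3, Finset.sum_const, Finset.card_univ, Fintype.card_fin, nsmul_eq_mul]
  push_cast
  ring

/-- **monotone convergence** -/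
theorem lintegral_trE_le (hμ : Inv μ) (hb : ∀ L, abT P μ r L ≤ b) :
    ∫⁻ h, ENNReal.ofReal (trE (bbO P r 0 h)) ∂μ ≤ ENNReal.ofReal (2 * b) := by
  have := hμ.prob
  set F : ℕ → (P2 → ℝ) → ℝ≥0∞ := fun n h => ENNReal.ofReal (trE (bbL P r 0 (n : ℝ) h)) with hF
  have hmono : Monotone F := by
    intro n m hnm h
    simp only [hF]
    refine ENNReal.ofReal_le_ofReal ?_
    rw [Bl565.trE_bbL, Bl565.trE_bbL]
    have h0 := Bl565.trE_bbO_nonneg (P := P) r 0 h
    have hc : (n : ℝ) ≤ m := by exact_mod_cast hnm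
    split_ifs with h1 h2
    · exact le_rfl
    · exact absurd (h1.trans hc) h2
    · exact h0
    · exact le_rfl
  have hsup : ∀ h, ENNReal.ofReal (trE (bbO P r 0 h)) = ⨆ n, F n h := by
    intro h
    refine le_antisymm ?_ (iSup_le fun n => ?_)
    · obtain ⟨n, hn⟩ := exists_nat_ge (trE (bbO P r 0 h))
      refine le_trans ?_ (le_iSup _ n)
      simp only [hF]
      rw [Bl565.trE_bbL, if_pos hn]
    · simp only [hF]
      refine ENNReal.ofReal_le_ofReal ?_
      rw [Bl565.trE_bbL]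
      split_ifs
      · exact le_rfl
      · exact Bl565.trE_bbO_nonneg (P := P) r 0 h
  have hmeas : ∀ n, Measurable (F n) := fun n =>
    ((((Bl565.measurable_bbL r 0 (n : ℝ) 0 0).add (Bl565.measurable_bbL r 0 (n : ℝ) 0 1)).add
      (Bl565.measurable_bbL r 0 (n : ℝ) 1 1))).ennreal_ofReal
  simp only [hsup]
  rw [lintegral_iSup hmeas hmono]
  refine iSup_le fun n => ?_
  have h1 := hb (n : ℝ)
  rw [abT_eq_zero hμ] at h1
  have h2 : ∀ h, 0 ≤ trE (bbL P r 0 (n : ℝ) h) := by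
    intro h
    rw [Bl565.trE_bbL]
    split_ifs
    · exact Bl565.trE_bbO_nonneg (P := P) r 0 h
    · exact le_rfl
  simp only [hF]
  rw [← ofReal_integral_eq_lintegral_ofReal (Bl565.integrable_trE r 0 (n : ℝ)) (ae_of_all _ h2)]
  exact ENNReal.ofReal_le_ofReal (by linarith)

theorem integral_trE_le (hμ : Inv μ) (hb : ∀ L, abT P μ r L ≤ b) :
    ∫ h, trE (bbO P r 0 h) ∂μ ≤ 2 * b := by
  have hb0 : 0 ≤ b := by
    have h1 := hb (-1)
    rw [abT_eq_zero hμ] at h1
    simp only [Bl565.bbL_of_neg (show (-1 : ℝ) < 0 by norm_num)] at h1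
    simpa [trE] using h1
  rw [integral_eq_lintegral_of_nonneg_ae (ae_of_all _ fun h => Bl565.trE_bbO_nonneg r 0 h)
    (Bl565.measurable_trE r 0).aestronglyMeasurable]
  refine ENNReal.toReal_le_of_le_ofReal (by linarith) (lintegral_trE_le hμ hb)

/-- **The templates of the three orientations.** -/
theorem three (P : Par) {r : ℕ} (hr : 2 ≤ r) {μ : Measure (P2 → ℝ)} (hμ : Inv μ) (hdlr : DLR μ)
    {b : ℝ} (hb : ∀ L, abT P μ r L ≤ b) {η : ℝ} (hη : 0 < η) :
    ∃ (Tl : Fin 3 → Fin 2 → (P2 → ℝ) → P2 → ℝ) (C : ℝ), 0 ≤ C ∧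
      (∀ o, Tpl (cw r) (bk r o) (Tl o) (128 * r) C) ∧
      ∀ y : Fin 2 → ℝ, ∑ o, ∫ h, qd (Ph (bk r o) (Gt P (cw r) (bk r o) (Tl o)) h) y ∂μ ≤
        (4 * b * ((r / 2 : ℕ) : ℝ) ^ 2 + η) * (y 0 ^ 2 - y 0 * y 1 + y 1 ^ 2) := by
  have := hμ.prob
  obtain ⟨Tl, C, hC, hT, hE⟩ := exists_tpl P hr hdlr (show 0 < η / 2 by positivity)
  refine ⟨fun o => rotT r o Tl, 2 * C, by linarith, fun o => ?_, fun y => ?_⟩
  · have h1 := tpl_rot o hT
    have e : 2 * (64 * (r : ℝ)) = 128 * r := by ring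
    rw [e] at h1
    exact h1
  · rw [sum_qd_rot hμ hdlr hT hC]
    have h1 := integral_trE_le hμ hb
    have h2 : 0 ≤ y 0 ^ 2 - y 0 * y 1 + y 1 ^ 2 := by nlinarith [sq_nonneg (y 0 - y 1)]
    refine mul_le_mul_of_nonneg_right ?_ h2
    have h3 : 0 ≤ ((r / 2 : ℕ) : ℝ) ^ 2 := by positivity
    nlinarith

end Three

end Crest.Agent.R144.LoA770
end
end

-- ▼ part R144/LowL8_549
section

/-!
# R144 (S0197), LOW-LIM (helper549), part 8: the main term for three local matrices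

`main3_le` : limit of the sum over the orientations and the classes; `lm3_tpl` : the matrices of
the templates are admissible.
-/

set_option autoImplicit false

open MeasureTheory Metric Set Filter Topology
open scoped ComplexConjugate ContDiff

namespace Crest.Agent.R144.LowL549

open Crest.Agent.R144.Skel144 Crest.Agent.R144.Con549 Crest.Agent.R144.Cnt268
open Crest.Agent.R144.Bl565 Crest.Agent.R144.HexTil353
open Crest.Agent.R144.Lc279 (P2 bx)
open Crest.Agent.R144.Lw425 (LObs hball hd mem_hball hd_triangle hd_comm hd_le_iff)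
open Crest.Agent.R144.LoC95 (Ph Gt Tpl Ph_apply)
open Crest.Agent.R144.LoA770 (WL Ph_shift Gt_shift qd_Ph_nonneg)
open Crest.ProbabilityR.HexHeights (centre)

noncomputable section

/-- an admissible family of local matrices -/
structure LM3 (R : ℕ) (Φ : Fin 3 → (P2 → ℝ) → Matrix (Fin 2) (Fin 2) ℝ) : Prop where
  obs : ∀ o i j, SObs R fun h => Φ o h i j
  psd : ∀ o h y, 0 ≤ qd (Φ o h) y

/-- the block functionals of one class -/
def m3 (Φ : Fin 3 → (P2 → ℝ) → Matrix (Fin 2) (Fin 2) ℝ) (u : ℂ → ℝ) (δ : ℝ) (r : ℕ) (o : Fin 3)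
    (R : Finset P2) (c : P2) (h : P2 → ℝ) : ℝ :=
  ∑ q ∈ Qs r o R c, qd (Φ o fun v => h (q + v)) (nu u (centre δ q))

variable {G : Set ℂ} {δ : ℕ → ℝ} {Rg : ℕ → Finset P2} {ν : ℕ → Measure (P2 → ℝ)}
  {μ : Measure (P2 → ℝ)} {R : ℕ} {Φ : Fin 3 → (P2 → ℝ) → Matrix (Fin 2) (Fin 2) ℝ} {u : ℂ → ℝ}

theorem LM3.integrable (hΦ : LM3 R Φ) (ν : Measure (P2 → ℝ)) [IsFiniteMeasure ν]
    (o : Fin 3) (q : P2) (i j : Fin 2) :
    Integrable (fun h : P2 → ℝ => Φ o (fun v => h (q + v)) i j) ν := by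
  obtain ⟨C, hC⟩ := (hΦ.obs o i j).bdd
  refine Integrable.of_bound (((hΦ.obs o i j).meas.comp
    (measurable_rt fun v => q + v)).aestronglyMeasurable) C (ae_of_all _ fun h => ?_)
  rw [Real.norm_eq_abs]
  exact hC _

theorem LM3.integrable_qd (hΦ : LM3 R Φ) (ν : Measure (P2 → ℝ)) [IsFiniteMeasure ν]
    (o : Fin 3) (q : P2) (y : Fin 2 → ℝ) :
    Integrable (fun h : P2 → ℝ => qd (Φ o fun v => h (q + v)) y) ν := by
  unfold qd
  exact integrable_finsetSum _ fun i _ => integrable_finsetSum _ fun j _ =>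
    ((hΦ.integrable ν o q i j).mul_const _).mul_const _

theorem LM3.integrable0 (hΦ : LM3 R Φ) (ν : Measure (P2 → ℝ)) [IsFiniteMeasure ν]
    (o : Fin 3) (i j : Fin 2) : Integrable (fun h : P2 → ℝ => Φ o h i j) ν := by
  obtain ⟨C, hC⟩ := (hΦ.obs o i j).bdd
  refine Integrable.of_bound ((hΦ.obs o i j).meas.aestronglyMeasurable) C (ae_of_all _ fun h => ?_)
  rw [Real.norm_eq_abs]
  exact hC _

theorem LM3.integral_qd (hΦ : LM3 R Φ) (ν : Measure (P2 → ℝ)) [IsFiniteMeasure ν]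
    (o : Fin 3) (q : P2) (y : Fin 2 → ℝ) :
    ∫ h, qd (Φ o fun v => h (q + v)) y ∂ν =
      ∑ i, ∑ j, y i * y j * ∫ h, Φ o (fun v => h (q + v)) i j ∂ν := by
  unfold qd
  rw [integral_finsetSum _ fun i _ => integrable_finsetSum _ fun j _ =>
    ((hΦ.integrable ν o q i j).mul_const _).mul_const _]
  refine Finset.sum_congr rfl fun i _ => ?_
  rw [integral_finsetSum _ fun j _ => ((hΦ.integrable ν o q i j).mul_const _).mul_const _]
  refine Finset.sum_congr rfl fun j _ => ?_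
  rw [integral_mul_const, integral_mul_const]
  ring

theorem LM3.integral_qd0 (hΦ : LM3 R Φ) (ν : Measure (P2 → ℝ)) [IsFiniteMeasure ν]
    (o : Fin 3) (y : Fin 2 → ℝ) :
    ∫ h, qd (Φ o h) y ∂ν = ∑ i, ∑ j, y i * y j * ∫ h, Φ o h i j ∂ν := by
  unfold qd
  rw [integral_finsetSum _ fun i _ => integrable_finsetSum _ fun j _ =>
    ((hΦ.integrable0 ν o i j).mul_const _).mul_const _]
  refine Finset.sum_congr rfl fun i _ => ?_
  rw [integral_finsetSum _ fun j _ => ((hΦ.integrable0 ν o i j).mul_const _).mul_const _]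
  refine Finset.sum_congr rfl fun j _ => ?_
  rw [integral_mul_const, integral_mul_const]
  ring

theorem integrable_m3 (hΦ : LM3 R Φ) (ν : Measure (P2 → ℝ)) [IsFiniteMeasure ν] (u : ℂ → ℝ)
    (δ : ℝ) (r : ℕ) (o : Fin 3) (Rg : Finset P2) (c : P2) :
    Integrable (m3 Φ u δ r o Rg c) ν := by
  unfold m3
  exact integrable_finsetSum _ fun q _ => hΦ.integrable_qd ν o q _


theorem tsupport_nu2 (i j : Fin 2) :
    tsupport (fun z => nu u z i * nu u z j) ⊆ tsupport u := by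
  refine closure_minimal (fun z hz => ?_) (isClosed_tsupport u)
  by_contra h
  exact hz (by simp only [nu_eq_zero h, zero_mul])

theorem compact_nu2 {D : Set ℂ} (hu : IsTest D u) (i j : Fin 2) :
    HasCompactSupport (fun z => nu u z i * nu u z j) :=
  hu.comp.of_isClosed_subset (isClosed_tsupport _) (tsupport_nu2 i j)

/-- **the main term** -/
theorem main3_le (hs : Sites G δ Rg) (hν : ∀ n, IsProbabilityMeasure (ν n))
    [IsProbabilityMeasure μ]
    (hL : LLN G δ Rg ν μ) (hu : IsTest G u) (hΦ : LM3 R Φ) {B : ℝ}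
    (hB : ∀ y : Fin 2 → ℝ, ∑ o, ∫ h, qd (Φ o h) y ∂μ ≤ B * (y 0 ^ 2 - y 0 * y 1 + y 1 ^ 2))
    {r : ℕ} (hr : 2 ≤ r) {ε : ℝ} (hε : 0 < ε) : ∀ᶠ n in atTop,
      δ n ^ 2 * ∑ o, ∑ c ∈ bx (r / 2), ∫ h, m3 Φ u (δ n) r o (Rg n) c h ∂(ν n) ≤
        Real.sqrt 3 / 2 * B * (∫ z, ‖fderiv ℝ u z‖ ^ 2) + ε := by
  set T : Fin 2 → Fin 2 → ℂ → ℝ := fun i j z => nu u z i * nu u z j with hT
  have hTc : ∀ i j, Continuous (T i j) := fun i j =>
    (continuous_nu hu i).mul (continuous_nu hu j)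
  have hTk : ∀ i j, HasCompactSupport (T i j) := fun i j => compact_nu2 hu i j
  have hTi : ∀ i j, Integrable (T i j) := fun i j =>
    (hTc i j).integrable_of_hasCompactSupport (hTk i j)
  -- the limit of the full sums
  have hlim : Tendsto (fun n => ∑ o : Fin 3, ∑ i : Fin 2, ∑ j : Fin 2,
      δ n ^ 2 * ∑ q ∈ Rg n, T i j (centre (δ n) q) *
        ∫ h, Φ o (fun v => h (q + v)) i j ∂(ν n)) atTop
      (𝓝 (∑ o : Fin 3, ∑ i : Fin 2, ∑ j : Fin 2,
        2 / Real.sqrt 3 * (∫ z, T i j z) * ∫ h, Φ o h i j ∂μ)) :=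
    tendsto_finsetSum _ fun o _ => tendsto_finsetSum _ fun i _ =>
      tendsto_finsetSum _ fun j _ => hL.scaled (hΦ.obs o i j) (hTc i j) (hTk i j)
      ((tsupport_nu2 i j).trans hu.supp)
  -- the value of the limit
  have hval : ∑ o : Fin 3, ∑ i : Fin 2, ∑ j : Fin 2,
      2 / Real.sqrt 3 * (∫ z, T i j z) * (∫ h, Φ o h i j ∂μ) ≤
      Real.sqrt 3 / 2 * B * ∫ z, ‖fderiv ℝ u z‖ ^ 2 := by
    have h1 : ∑ o : Fin 3, ∑ i : Fin 2, ∑ j : Fin 2,
        2 / Real.sqrt 3 * (∫ z, T i j z) * (∫ h, Φ o h i j ∂μ) =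
        2 / Real.sqrt 3 * ∫ z, ∑ o : Fin 3, ∫ h, qd (Φ o h) (nu u z) ∂μ := by
      rw [integral_finsetSum, Finset.mul_sum]
      · refine Finset.sum_congr rfl fun o _ => ?_
        have h2 : ∫ z, ∫ h, qd (Φ o h) (nu u z) ∂μ =
            ∑ i : Fin 2, ∑ j : Fin 2, (∫ h, Φ o h i j ∂μ) * ∫ z, T i j z := by
          have e : (fun z => ∫ h, qd (Φ o h) (nu u z) ∂μ) =
              fun z => ∑ i : Fin 2, ∑ j : Fin 2, (∫ h, Φ o h i j ∂μ) * T i j z := by
            funext z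
            rw [hΦ.integral_qd0]
            refine Finset.sum_congr rfl fun i _ => Finset.sum_congr rfl fun j _ => ?_
            simp only [hT]; ring
          rw [e, integral_finsetSum]
          · refine Finset.sum_congr rfl fun i _ => ?_
            rw [integral_finsetSum]
            · exact Finset.sum_congr rfl fun j _ => integral_const_mul _ _
            · exact fun j _ => (hTi i j).const_mul _
          · exact fun i _ => integrable_finsetSum _ fun j _ => (hTi i j).const_mul _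
        rw [h2, Finset.mul_sum]
        refine Finset.sum_congr rfl fun i _ => ?_
        rw [Finset.mul_sum]
        refine Finset.sum_congr rfl fun j _ => ?_
        ring
      · intro o _
        simp only [hΦ.integral_qd0]
        refine integrable_finsetSum _ fun i _ => integrable_finsetSum _ fun j _ => ?_
        have e : (fun z => nu u z i * nu u z j * ∫ h, Φ o h i j ∂μ) =
            fun z => T i j z * ∫ h, Φ o h i j ∂μ := by
          funext z; simp only [hT]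
        rw [e]
        exact (hTi i j).mul_const _
    rw [h1]
    have hint1 : Integrable fun z => ∑ o : Fin 3, ∫ h, qd (Φ o h) (nu u z) ∂μ := by
      simp only [hΦ.integral_qd0]
      refine integrable_finsetSum _ fun o _ => integrable_finsetSum _ fun i _ =>
        integrable_finsetSum _ fun j _ => ?_
      have e : (fun z => nu u z i * nu u z j * ∫ h, Φ o h i j ∂μ) =
          fun z => T i j z * ∫ h, Φ o h i j ∂μ := by
        funext z; simp only [hT]
      rw [e]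
      exact (hTi i j).mul_const _
    have hint2 : Integrable fun z => B * (3 / 4 * ‖fderiv ℝ u z‖ ^ 2) := by
      have e : (fun z => B * (3 / 4 * ‖fderiv ℝ u z‖ ^ 2)) =
          fun z => B * (T 0 0 z - T 0 1 z + T 1 1 z) := by
        funext z
        rw [← nu_sq]
        simp only [hT]; ring
      rw [e]
      exact (((hTi 0 0).sub (hTi 0 1)).add (hTi 1 1)).const_mul _
    have h5 : ∫ z, ∑ o : Fin 3, ∫ h, qd (Φ o h) (nu u z) ∂μ ≤
        ∫ z, B * (3 / 4 * ‖fderiv ℝ u z‖ ^ 2) := by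
      refine integral_mono hint1 hint2 fun z => ?_
      simp only
      rw [← nu_sq]
      exact hB _
    rw [integral_const_mul, integral_const_mul] at h5
    have h3 : 0 < Real.sqrt 3 := by positivity
    have h4 : Real.sqrt 3 * Real.sqrt 3 = 3 := Real.mul_self_sqrt (by norm_num)
    have h6 : 2 / Real.sqrt 3 * (B * (3 / 4 * ∫ z, ‖fderiv ℝ u z‖ ^ 2)) =
        Real.sqrt 3 / 2 * B * ∫ z, ‖fderiv ℝ u z‖ ^ 2 := by
      have : 2 / Real.sqrt 3 = 2 * Real.sqrt 3 / 3 := by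
        rw [div_eq_div_iff h3.ne' (by norm_num)]
        linear_combination (-2) * h4
      rw [this]; ring
    rw [← h6]
    exact mul_le_mul_of_nonneg_left h5 (by positivity)
  have hev := hlim.eventually (gt_mem_nhds (show _ < Real.sqrt 3 / 2 * B *
    (∫ z, ‖fderiv ℝ u z‖ ^ 2) + ε by linarith [hval]))
  filter_upwards [hev, hs.inn _ hu.comp.isCompact hu.supp] with n h1 h2
  have hνn := hν n
  refine le_trans ?_ h1.le
  have e1 : ∑ o : Fin 3, ∑ i : Fin 2, ∑ j : Fin 2,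
      δ n ^ 2 * ∑ q ∈ Rg n, T i j (centre (δ n) q) *
        ∫ h, Φ o (fun v => h (q + v)) i j ∂(ν n) =
      δ n ^ 2 * ∑ o : Fin 3, ∑ q ∈ Rg n,
        ∫ h, qd (Φ o fun v => h (q + v)) (nu u (centre (δ n) q)) ∂(ν n) := by
    simp only [hΦ.integral_qd (ν n), Finset.mul_sum]
    refine Finset.sum_congr rfl fun o _ => ?_
    have h3 : ∀ q, ∑ i : Fin 2, ∑ j : Fin 2, δ n ^ 2 * (nu u (centre (δ n) q) i *
        nu u (centre (δ n) q) j * ∫ h, Φ o (fun v => h (q + v)) i j ∂(ν n)) =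
        ∑ i : Fin 2, ∑ j : Fin 2, δ n ^ 2 * (T i j (centre (δ n) q) *
          ∫ h, Φ o (fun v => h (q + v)) i j ∂(ν n)) := fun q => rfl
    simp only [h3]
    symm
    rw [Finset.sum_comm]
    refine Finset.sum_congr rfl fun i _ => ?_
    rw [Finset.sum_comm]
  rw [e1]
  refine mul_le_mul_of_nonneg_left (Finset.sum_le_sum fun o _ => ?_) (sq_nonneg _)
  have e2 : ∀ c, ∫ h, m3 Φ u (δ n) r o (Rg n) c h ∂(ν n) = ∑ q ∈ Qs r o (Rg n) c,
      ∫ h, qd (Φ o fun v => h (q + v)) (nu u (centre (δ n) q)) ∂(ν n) := by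
    intro c
    unfold m3
    exact integral_finsetSum _ fun q _ => hΦ.integrable_qd (ν n) o q _
  simp only [e2]
  refine sum_Qs_le hr o (Rg n) (Rg n) (fun q => integral_nonneg fun h => hΦ.psd _ _ _)
    fun q hq => ?_
  have h4 : centre (δ n) q ∉ tsupport u := fun h => hq (h2 q h)
  have h5 : nu u (centre (δ n) q) = 0 := by
    funext i; exact nu_eq_zero h4 i
  rw [h5]
  have h6 : ∀ B : Matrix (Fin 2) (Fin 2) ℝ, qd B 0 = 0 := fun B => by
    rw [qd_eq]; simp
  simp only [h6, integral_zero]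

/-- the window of a block is in a ball -/
theorem win_subset_hball {r : ℕ} {o : Fin 3} : win (cw r) (bk r o) ⊆ hball (3 * r) := by
  intro v hv
  obtain ⟨a, ha, hda⟩ := mem_win.mp hv
  obtain ⟨⟨a1, a2⟩, a3, a4⟩ := bk_bound ha
  rw [mem_hball, hd_le_iff]
  rw [hd_le_iff] at hda
  obtain ⟨⟨d1, d2⟩, ⟨d3, d4⟩, d5, d6⟩ := hda
  have hc : (cw r : ℤ) ≤ r := by exact_mod_cast cw_le r
  simp only [Prod.fst_zero, Prod.snd_zero, sub_zero]
  push_cast
  refine ⟨⟨?_, ?_⟩, ⟨?_, ?_⟩, ?_, ?_⟩ <;> linarith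

/-- the matrices of the templates are admissible -/
theorem lm3_tpl (P : Par) {r : ℕ} {Tl : Fin 3 → Fin 2 → (P2 → ℝ) → P2 → ℝ} {B C : ℝ}
    (hC : 0 ≤ C) (hT : ∀ o, Tpl (cw r) (bk r o) (Tl o) B C) :
    LM3 (3 * r) fun o h => Ph (bk r o) (Gt P (cw r) (bk r o) (Tl o)) h where
  obs := by
    intro o i j
    have hW := LoA770.Tpl.wl (P := P) (hT o) hC
    refine ⟨(bk r o).card * ((bk r o).card * (LoA770.cRef P (win (cw r) (bk r o)) + C) ^ 2) + 1,
      by positivity, ?_⟩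
    set K : ℝ := (bk r o).card * ((bk r o).card *
      (LoA770.cRef P (win (cw r) (bk r o)) + C) ^ 2) + 1 with hK
    have hK0 : 0 < K := by positivity
    exact
      { meas := (hW.measurable_Ph _ i j).const_mul _
        bd := fun h => by
          rw [abs_mul, abs_inv, abs_of_pos hK0, inv_mul_le_iff₀ hK0, mul_one]
          have := hW.abs_Ph_le (bk r o) h i j
          rw [hK]; linarith
        loc := fun h h' hh => by
          beta_reduce
          rw [hW.Ph_congr (bk r o) fun w hw => hh w (win_subset_hball hw)]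
        shift := fun h c => by
          beta_reduce
          rw [Ph_shift (Gt_shift (hT o))] }
  psd := fun o h y => qd_Ph_nonneg _ _ _ _

end

end Crest.Agent.R144.LowL549
end

-- ▼ part R144/LowL9_549
section

/-!
# R144 (S0197), LOW-LIM (helper549), part 9: the error terms
-/

set_option autoImplicit false

open MeasureTheory Metric Set Filter Topology
open scoped ComplexConjugate ContDiff

namespace Crest.Agent.R144.LowL549

open Crest.Agent.R144.Skel144 Crest.Agent.R144.Con549 Crest.Agent.R144.Cnt268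
open Crest.Agent.R144.Bl565 Crest.Agent.R144.HexTil353
open Crest.Agent.R144.Lc279 (P2 bx nr mem_nr nr_subset)
open Crest.Agent.R144.Lw425 (LObs hball hd mem_hball hd_triangle hd_comm hd_le_iff)
open Crest.ProbabilityR.HexHeights (centre)

noncomputable section

variable {G : Set ℂ} {δ : ℕ → ℝ} {Rg : ℕ → Finset P2} {ν : ℕ → Measure (P2 → ℝ)}
  {μ : Measure (P2 → ℝ)} {mf : ℕ → (P2 → ℝ) → P2 → ℕ}

namespace NumIn

variable (N : NumIn G δ Rg ν μ mf)
include N

theorem integrable_of (n : ℕ) (w : P2) (f : ℕ → ℝ) :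
    Integrable (fun h => f (mf n h w)) (ν n) := by
  have := N.prob n
  obtain ⟨K, hK⟩ := N.bdd n
  have hm : Measurable fun h => f (mf n h w) := (measurable_from_top (f := f)).comp (N.meas n w)
  refine Integrable.of_bound hm.aestronglyMeasurable (∑ k ∈ Finset.range (K + 1), |f k|)
    (ae_of_all _ fun h => ?_)
  rw [Real.norm_eq_abs]
  exact Finset.single_le_sum (f := fun k => |f k|) (fun k _ => abs_nonneg _)
    (Finset.mem_range.mpr (Nat.lt_succ_of_le (hK h w)))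

/-- first moments -/
theorem first : ∃ C q : ℝ, 0 < C ∧ 0 < q ∧ q < 1 ∧
    (∀ᶠ n in atTop, δ n ^ 2 * ∑ w ∈ Rg n, ∫ h, (mf n h w : ℝ) ∂(ν n) ≤ C) ∧
    (∀ j : ℕ, ∀ᶠ n in atTop,
    δ n ^ 2 * ∑ w ∈ Rg n, ∫ h, (if j < mf n h w then (mf n h w : ℝ) else 0) ∂(ν n) ≤
      C * q ^ j) ∧
    (∀ j : ℕ, ∀ᶠ n in atTop, ∀ S ⊆ Rg n, δ n ^ 2 * ∑ w ∈ S, ∫ h, (mf n h w : ℝ) ∂(ν n) ≤
      j * (δ n ^ 2 * S.card) + C * q ^ j) := by
  obtain ⟨C, q, hC, hq0, hq1, H⟩ := N.mom1
  refine ⟨C, q, hC, hq0, hq1, ?_, H, fun j => ?_⟩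
  · filter_upwards [H 0] with n hn
    rw [pow_zero, mul_one] at hn
    refine le_trans (le_of_eq ?_) hn
    congr 1
    refine Finset.sum_congr rfl fun w _ => integral_congr_ae (ae_of_all _ fun h => ?_)
    beta_reduce
    split_ifs with h1
    · rfl
    · have : mf n h w = 0 := by omega
      rw [this]; simp
  · filter_upwards [H j] with n hn S hS
    have := N.prob n
    have h1 : ∀ w ∈ S, ∫ h, (mf n h w : ℝ) ∂(ν n) ≤
        j + ∫ h, (if j < mf n h w then (mf n h w : ℝ) else 0) ∂(ν n) := by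
      intro w _
      have h2 : ∫ h, ((j : ℝ) + if j < mf n h w then (mf n h w : ℝ) else 0) ∂(ν n) =
          j + ∫ h, (if j < mf n h w then (mf n h w : ℝ) else 0) ∂(ν n) := by
        rw [integral_add (integrable_const _)
          (N.integrable_of n w fun k => if j < k then (k : ℝ) else 0)]
        simp
      rw [← h2]
      refine integral_mono (N.integrable_of n w fun k => (k : ℝ))
        (N.integrable_of n w fun k => (j : ℝ) + if j < k then (k : ℝ) else 0) fun h => ?_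
      beta_reduce
      split_ifs with h3
      · have : (0 : ℝ) ≤ j := Nat.cast_nonneg _
        linarith
      · rw [add_zero]
        exact_mod_cast not_lt.mp h3
    have h4 : ∑ w ∈ S, ∫ h, (if j < mf n h w then (mf n h w : ℝ) else 0) ∂(ν n) ≤
        ∑ w ∈ Rg n, ∫ h, (if j < mf n h w then (mf n h w : ℝ) else 0) ∂(ν n) :=
      Finset.sum_le_sum_of_subset_of_nonneg hS fun w _ _ => integral_nonneg fun h => by
        positivity
    have h5 := mul_le_mul_of_nonneg_left ((Finset.sum_le_sum h1).trans_eq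
      (Finset.sum_add_distrib)) (sq_nonneg (δ n))
    have h6 := mul_le_mul_of_nonneg_left h4 (sq_nonneg (δ n))
    rw [Finset.sum_const, nsmul_eq_mul] at h5
    nlinarith

/-- few sites near the frontier of the region -/
theorem near_card (R : ℕ) {η : ℝ} (hη : 0 < η) : ∀ᶠ n in atTop,
    δ n ^ 2 * ((nr R (Rg n)).card : ℝ) ≤ η := by
  filter_upwards [N.hs.near' R hη] with n hn
  refine hn _ (nr_subset _ _) fun v hv => ?_
  obtain ⟨_, u, hu, hvu⟩ := mem_nr.mp hv
  rw [Lc279.mem_BX] at hu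
  refine ⟨v + u, hvu, ?_, ?_⟩
  · simpa [abs_le] using hu.1
  · simpa [abs_le] using hu.2

theorem near_sum (R : ℕ) {η : ℝ} (hη : 0 < η) : ∀ᶠ n in atTop,
    δ n ^ 2 * ∑ w ∈ nr R (Rg n), ∫ h, (mf n h w : ℝ) ∂(ν n) ≤ η := by
  obtain ⟨C, q, hC, hq0, hq1, -, -, H⟩ := N.first
  have h1 : Tendsto (fun j : ℕ => C * q ^ j) atTop (𝓝 0) := by
    have := (tendsto_pow_atTop_nhds_zero_of_lt_one hq0.le hq1).const_mul C
    simpa using this
  obtain ⟨j, hj⟩ := (h1.eventually (gt_mem_nhds (half_pos hη))).exists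
  filter_upwards [H j, N.near_card R (show 0 < η / (2 * (j + 1)) by positivity)] with n h2 h3
  have h4 := h2 _ (nr_subset R (Rg n))
  have h5 : (j : ℝ) * (δ n ^ 2 * ((nr R (Rg n)).card : ℝ)) ≤ η / 2 := by
    calc (j : ℝ) * (δ n ^ 2 * ((nr R (Rg n)).card : ℝ)) ≤ (j + 1) * (η / (2 * (j + 1))) := by
          refine mul_le_mul (by linarith) h3 (by positivity) (by positivity)
      _ = η / 2 := by field_simp
  linarith

/-- **sites in no core** -/
theorem nd_term : ∃ C : ℝ, 0 < C ∧ ∀ {r : ℕ}, 2 ≤ r → ∀ {ε : ℝ}, 0 < ε → ∀ᶠ n in atTop,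
    δ n ^ 2 * ∑ o : Fin 3, ∑ c ∈ bx (r / 2), ∑ w ∈ nd r o (Rg n) c,
      ∫ h, (mf n h w : ℝ) ∂(ν n) ≤ 24 * cw r * ((r / 2 : ℕ) : ℝ) * C + ε := by
  obtain ⟨C, q, hC, hq0, hq1, H1, -, -⟩ := N.first
  refine ⟨C, hC, fun {r} hr {ε} hε => ?_⟩
  have hs : 0 < r / 2 := by omega
  have hs' : (0 : ℝ) < ((r / 2 : ℕ) : ℝ) := by exact_mod_cast hs
  filter_upwards [H1, N.near_sum (4 * r)
    (show 0 < ε / (3 * ((r / 2 : ℕ) : ℝ) ^ 2) by positivity)] with n h1 h2
  have h0 : ∀ w, 0 ≤ ∫ h, (mf n h w : ℝ) ∂(ν n) := fun w =>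
    integral_nonneg fun h => Nat.cast_nonneg _
  have h3 : ∀ o : Fin 3, δ n ^ 2 * ∑ c ∈ bx (r / 2), ∑ w ∈ nd r o (Rg n) c,
      ∫ h, (mf n h w : ℝ) ∂(ν n) ≤ 8 * cw r * ((r / 2 : ℕ) : ℝ) * C + ε / 3 := by
    intro o
    have h4 := mul_le_mul_of_nonneg_left (sum_nd_le hr o (Rg n) h0) (sq_nonneg (δ n))
    refine h4.trans ?_
    have h5 := card_cor r o
    have h6 : δ n ^ 2 * ((((r / 2 : ℕ) : ℝ) ^ 2 - (cor (cw r) (bk r o)).card) *
        ∑ w ∈ Rg n, ∫ h, (mf n h w : ℝ) ∂(ν n)) ≤ 8 * cw r * ((r / 2 : ℕ) : ℝ) * C := by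
      calc _ = (((r / 2 : ℕ) : ℝ) ^ 2 - (cor (cw r) (bk r o)).card) *
          (δ n ^ 2 * ∑ w ∈ Rg n, ∫ h, (mf n h w : ℝ) ∂(ν n)) := by ring
        _ ≤ (8 * cw r * ((r / 2 : ℕ) : ℝ)) *
          (δ n ^ 2 * ∑ w ∈ Rg n, ∫ h, (mf n h w : ℝ) ∂(ν n)) :=
          mul_le_mul_of_nonneg_right h5
            (mul_nonneg (sq_nonneg _) (Finset.sum_nonneg fun w _ => h0 w))
        _ ≤ _ := mul_le_mul_of_nonneg_left h1 (by positivity)
    have h7 : δ n ^ 2 * (((r / 2 : ℕ) : ℝ) ^ 2 *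
        ∑ w ∈ nr (4 * r) (Rg n), ∫ h, (mf n h w : ℝ) ∂(ν n)) ≤ ε / 3 := by
      calc _ = ((r / 2 : ℕ) : ℝ) ^ 2 *
          (δ n ^ 2 * ∑ w ∈ nr (4 * r) (Rg n), ∫ h, (mf n h w : ℝ) ∂(ν n)) := by ring
        _ ≤ ((r / 2 : ℕ) : ℝ) ^ 2 * (ε / (3 * ((r / 2 : ℕ) : ℝ) ^ 2)) :=
          mul_le_mul_of_nonneg_left h2 (by positivity)
        _ = ε / 3 := by field_simp
    rw [mul_add]
    linarith
  rw [Finset.mul_sum]
  refine (Finset.sum_le_sum fun o _ => h3 o).trans (le_of_eq ?_)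
  rw [Finset.sum_const, Finset.card_univ, Fintype.card_fin, nsmul_eq_mul]
  push_cast
  ring

/-- **squares** -/
theorem sq_term (K : ℝ) {ε : ℝ} (hε : 0 < ε) : ∀ᶠ n in atTop,
    K * (δ n ^ 2) ^ 2 * ∑ w ∈ Rg n, ∫ h, ((mf n h w : ℝ) + 1) ^ 2 ∂(ν n) ≤ ε := by
  obtain ⟨C, hC, H⟩ := N.mom2
  obtain ⟨C', hC', hcard⟩ := N.hs.card_bdd
  have h1 : Tendsto (fun n => |K| * δ n ^ 2 * (2 * C + 2 * C')) atTop (𝓝 0) := by
    have h2 := ((N.hs.lim.pow 2).const_mul |K|).mul_const (2 * C + 2 * C')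
    simpa using h2
  filter_upwards [H, h1.eventually (gt_mem_nhds hε)] with n h2 h3
  have := N.prob n
  have h4 : ∀ w, ∫ h, ((mf n h w : ℝ) + 1) ^ 2 ∂(ν n) ≤
      2 * ∫ h, (mf n h w : ℝ) ^ 2 ∂(ν n) + 2 := by
    intro w
    have e : 2 * ∫ h, (mf n h w : ℝ) ^ 2 ∂(ν n) + 2 =
        ∫ h, (2 * (mf n h w : ℝ) ^ 2 + 2) ∂(ν n) := by
      rw [integral_add ((N.integrable_of n w fun k => (k : ℝ) ^ 2).const_mul 2)
        (integrable_const _), integral_const_mul]
      simp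
    rw [e]
    refine integral_mono (N.integrable_of n w fun k => ((k : ℝ) + 1) ^ 2)
      (N.integrable_of n w fun k => 2 * (k : ℝ) ^ 2 + 2) fun h => ?_
    beta_reduce
    nlinarith [sq_nonneg ((mf n h w : ℝ) - 1)]
  have h5 : δ n ^ 2 * ∑ w ∈ Rg n, ∫ h, ((mf n h w : ℝ) + 1) ^ 2 ∂(ν n) ≤ 2 * C + 2 * C' := by
    have h6 := mul_le_mul_of_nonneg_left (Finset.sum_le_sum fun w (_ : w ∈ Rg n) => h4 w)
      (sq_nonneg (δ n))
    refine h6.trans ?_
    rw [Finset.sum_add_distrib, ← Finset.mul_sum, Finset.sum_const, nsmul_eq_mul]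
    have := hcard n
    nlinarith
  have h0 : 0 ≤ δ n ^ 2 * ∑ w ∈ Rg n, ∫ h, ((mf n h w : ℝ) + 1) ^ 2 ∂(ν n) :=
    mul_nonneg (sq_nonneg _) (Finset.sum_nonneg fun w _ => integral_nonneg fun h => sq_nonneg _)
  calc K * (δ n ^ 2) ^ 2 * ∑ w ∈ Rg n, ∫ h, ((mf n h w : ℝ) + 1) ^ 2 ∂(ν n) =
        K * δ n ^ 2 * (δ n ^ 2 * ∑ w ∈ Rg n, ∫ h, ((mf n h w : ℝ) + 1) ^ 2 ∂(ν n)) := by ring
    _ ≤ |K| * δ n ^ 2 * (δ n ^ 2 * ∑ w ∈ Rg n, ∫ h, ((mf n h w : ℝ) + 1) ^ 2 ∂(ν n)) := by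
        gcongr
        exact le_abs_self K
    _ ≤ |K| * δ n ^ 2 * (2 * C + 2 * C') := mul_le_mul_of_nonneg_left h5 (by positivity)
    _ ≤ ε := h3.le

/-- **displacement** -/
theorem disp_term (K L : ℝ) {ε : ℝ} (hε : 0 < ε) : ∀ᶠ n in atTop,
    K * δ n * (δ n ^ 2 * ∑ w ∈ Rg n, ∫ h, ((mf n h w : ℝ) + L) ∂(ν n)) ≤ ε := by
  obtain ⟨C, q, hC, -, -, H, -, -⟩ := N.first
  obtain ⟨C', hC', hcard⟩ := N.hs.card_bdd
  have h1 : Tendsto (fun n => |K| * δ n * (C + |L| * C')) atTop (𝓝 0) := by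
    have h2 := (N.hs.lim.const_mul |K|).mul_const (C + |L| * C')
    simpa using h2
  filter_upwards [H, h1.eventually (gt_mem_nhds hε)] with n h2 h3
  have := N.prob n
  have hδ : 0 < δ n := N.hs.pos n
  have h4 : ∀ w, |∫ h, ((mf n h w : ℝ) + L) ∂(ν n)| ≤ ∫ h, (mf n h w : ℝ) ∂(ν n) + |L| := by
    intro w
    have e : ∫ h, ((mf n h w : ℝ) + L) ∂(ν n) = ∫ h, (mf n h w : ℝ) ∂(ν n) + L := by
      rw [integral_add (N.integrable_of n w fun k => (k : ℝ)) (integrable_const _)]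
      simp
    rw [e]
    refine (abs_add_le _ _).trans ?_
    rw [abs_of_nonneg (integral_nonneg fun h => Nat.cast_nonneg _)]
  have h5 : |δ n ^ 2 * ∑ w ∈ Rg n, ∫ h, ((mf n h w : ℝ) + L) ∂(ν n)| ≤ C + |L| * C' := by
    rw [abs_mul, abs_of_nonneg (sq_nonneg (δ n))]
    refine (mul_le_mul_of_nonneg_left ((Finset.abs_sum_le_sum_abs _ _).trans
      (Finset.sum_le_sum fun w _ => h4 w)) (sq_nonneg _)).trans ?_
    rw [Finset.sum_add_distrib, Finset.sum_const, nsmul_eq_mul]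
    have h6 := mul_le_mul_of_nonneg_left (hcard n) (abs_nonneg L)
    nlinarith
  calc _ ≤ |K * δ n * (δ n ^ 2 * ∑ w ∈ Rg n, ∫ h, ((mf n h w : ℝ) + L) ∂(ν n))| := le_abs_self _
    _ = |K| * δ n * |δ n ^ 2 * ∑ w ∈ Rg n, ∫ h, ((mf n h w : ℝ) + L) ∂(ν n)| := by
        rw [abs_mul, abs_mul, abs_of_pos hδ]
    _ ≤ |K| * δ n * (C + |L| * C') := mul_le_mul_of_nonneg_left h5 (by positivity)
    _ ≤ ε := h3.le

/-- **long paths** -/
theorem far_term (K : ℝ) {κ : ℝ} (hκ : 0 < κ) (a : ℕ) {ε : ℝ} (hε : 0 < ε) : ∀ᶠ n in atTop,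
    K * (δ n ^ a)⁻¹ * (ν n).real {h | ∃ w ∈ Rg n, κ / δ n ≤ (mf n h w : ℝ)} ≤ ε := by
  have h1 : Tendsto (fun n => |K| * δ n) atTop (𝓝 0) := by
    have h2 := N.hs.lim.const_mul |K|
    simpa using h2
  filter_upwards [N.far κ hκ (a + 1), h1.eventually (gt_mem_nhds hε)] with n h2 h3
  have hδ : 0 < δ n := N.hs.pos n
  calc K * (δ n ^ a)⁻¹ * (ν n).real {h | ∃ w ∈ Rg n, κ / δ n ≤ (mf n h w : ℝ)} ≤
        |K| * (δ n ^ a)⁻¹ * (ν n).real {h | ∃ w ∈ Rg n, κ / δ n ≤ (mf n h w : ℝ)} := by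
        gcongr
        exact le_abs_self K
    _ ≤ |K| * (δ n ^ a)⁻¹ * δ n ^ (a + 1) := mul_le_mul_of_nonneg_left h2 (by positivity)
    _ = |K| * δ n := by rw [pow_succ]; field_simp
    _ ≤ ε := h3.le

end NumIn

/-! ### polynomials against exponentials -/

theorem tendsto_cw_pow (k : ℕ) {q : ℝ} (hq0 : 0 < q) (hq1 : q < 1) :
    Tendsto (fun r : ℕ => (r : ℝ) ^ k * q ^ cw r) atTop (𝓝 0) := by
  have hcw : Tendsto cw atTop atTop := by
    refine tendsto_atTop.mpr fun b => ?_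
    filter_upwards [eventually_ge_atTop (b * b)] with r hr
    exact Nat.le_sqrt.mpr hr
  -- `r ≤ (cw r + 1)²`
  have h1 : ∀ r : ℕ, (r : ℝ) ≤ ((cw r : ℝ) + 1) ^ 2 := by
    intro r
    have h2 : r < Nat.succ (Nat.sqrt r) * Nat.succ (Nat.sqrt r) := Nat.lt_succ_sqrt r
    have h3 : (r : ℝ) < (Nat.succ (Nat.sqrt r) * Nat.succ (Nat.sqrt r) : ℕ) := by exact_mod_cast h2
    push_cast at h3
    change (r : ℝ) ≤ ((Nat.sqrt r : ℝ) + 1) ^ 2
    nlinarith
  have h2 : Tendsto (fun m : ℕ => ((m : ℝ) + 1) ^ (2 * k) * q ^ m) atTop (𝓝 0) := by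
    have h3 := (tendsto_pow_const_mul_const_pow_of_abs_lt_one (2 * k)
      (show |q| < 1 by rw [abs_of_pos hq0]; exact hq1))
    have h4 := (h3.comp (tendsto_add_atTop_nat 1)).const_mul q⁻¹
    rw [mul_zero] at h4
    refine h4.congr fun m => ?_
    simp only [Function.comp_apply]
    push_cast
    rw [pow_succ q m]
    field_simp
  refine squeeze_zero (fun r => by positivity) (fun r => ?_) (h2.comp hcw)
  simp only [Function.comp_apply]
  rw [pow_mul]
  gcongr
  exact h1 r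

end

end Crest.Agent.R144.LowL549
end

-- ▼ part R144/LowL10_549

/-!
# R144 (S0197), LOW-LIM (helper549), part 10: the test function in index coordinates

`psi u l δ` ; `psiH` ; `sep_ev` ; `pos_Qs`.
-/

set_option autoImplicit false

open MeasureTheory Metric Set Filter Topology
open scoped ComplexConjugate ContDiff

namespace Crest.Agent.R144.LowL549

open Crest.Agent.R144.Skel144 Crest.Agent.R144.Con549 Crest.Agent.R144.Cnt268
open Crest.Agent.R144.Bl565 Crest.Agent.R144.HexTil353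
open Crest.Agent.R144.Lc279 (P2 bx nr mem_nr nr_subset)
open Crest.Agent.R144.Lw425 (LObs hball hd mem_hball hd_triangle hd_comm hd_le_iff hd_nonneg)
open Crest.Agent.R144.LoC95 (PsiH Sep ix ix_zero ix_one Pos tr mem_tr)
open Crest.Agent.R144.LoB95 (sl')
open Crest.ProbabilityR.HexHeights (centre)

noncomputable section

/-- index coordinates to the plane -/
def emb (δ : ℝ) : (Fin 2 → ℝ) →L[ℝ] ℂ :=
  (ContinuousLinearMap.proj (R := ℝ) (φ := fun _ : Fin 2 => ℝ) 0).smulRight ((δ : ℂ) * ev 0) +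
  (ContinuousLinearMap.proj (R := ℝ) (φ := fun _ : Fin 2 => ℝ) 1).smulRight ((δ : ℂ) * ev 1)

theorem emb_apply (δ : ℝ) (y : Fin 2 → ℝ) : emb δ y = cen δ (y 0) (y 1) := by
  have h : emb δ y = y 0 • ((δ : ℂ) * ev 0) + y 1 • ((δ : ℂ) * ev 1) := rfl
  rw [h]
  have h0 : ev 0 = cen 1 1 0 := rfl
  have h1 : ev 1 = cen 1 0 1 := rfl
  rw [h0, h1]
  apply Complex.ext
  · simp only [Complex.add_re, Complex.real_smul, Complex.re_ofReal_mul, cen_re]; ring
  · simp only [Complex.add_im, Complex.real_smul, Complex.im_ofReal_mul, cen_im]; ring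

theorem emb_ix (δ : ℝ) (q : P2) : emb δ (ix q) = centre δ q := by
  rw [emb_apply, centre_eq]
  rfl

theorem emb_single (δ : ℝ) (i : Fin 2) : emb δ (Pi.single i 1) = (δ : ℝ) • ev i := by
  rw [emb_apply]
  fin_cases i
  · have h0 : ev 0 = cen 1 1 0 := rfl
    simp only [Fin.zero_eta, Fin.isValue, Pi.single_eq_same, h0]
    apply Complex.ext
    · simp [cen_re]
    · simp [cen_im]
  · have h1 : ev 1 = cen 1 0 1 := rfl
    simp only [Fin.mk_one, Fin.isValue, Pi.single_eq_same, h1]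
    apply Complex.ext
    · simp [cen_re]
    · simp [cen_im]

theorem norm_cen_le (a b : ℝ) : ‖cen 1 a b‖ ≤ |a| + |b| := by
  have e : cen 1 a b = (a : ℂ) + (b : ℂ) * ((1 / 2 : ℝ) + (Real.sqrt 3 / 2 : ℝ) * Complex.I) := by
    apply Complex.ext
    · simp [cen_re]; ring
    · simp [cen_im]
  rw [e]
  have h1 : ‖((1 / 2 : ℝ) : ℂ) + (Real.sqrt 3 / 2 : ℝ) * Complex.I‖ = 1 := by
    rw [Complex.norm_add_mul_I]
    have : (1 / 2 : ℝ) ^ 2 + (Real.sqrt 3 / 2) ^ 2 = 1 := by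
      rw [div_pow (Real.sqrt 3), Real.sq_sqrt (by norm_num)]; norm_num
    rw [this, Real.sqrt_one]
  refine (norm_add_le _ _).trans ?_
  rw [norm_mul, h1, mul_one, Complex.norm_real, Complex.norm_real, Real.norm_eq_abs,
    Real.norm_eq_abs]

theorem norm_ev (i : Fin 2) : ‖ev i‖ ≤ 1 := by
  fin_cases i
  · have := norm_cen_le 1 0
    simp only [abs_one, abs_zero, add_zero] at this
    exact this
  · have := norm_cen_le 0 1
    simp only [abs_one, abs_zero, zero_add] at this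
    exact this

theorem norm_emb_le {δ : ℝ} (hδ : 0 ≤ δ) (y : Fin 2 → ℝ) : ‖emb δ y‖ ≤ 2 * δ * ‖y‖ := by
  have h : emb δ y = y 0 • ((δ : ℂ) * ev 0) + y 1 • ((δ : ℂ) * ev 1) := rfl
  rw [h]
  refine (norm_add_le _ _).trans ?_
  rw [norm_smul, norm_smul, norm_mul, norm_mul, Complex.norm_real, Real.norm_eq_abs,
    Real.norm_eq_abs, Real.norm_eq_abs, abs_of_nonneg hδ]
  have h0 : |y 0| ≤ ‖y‖ := norm_le_pi_norm y 0
  have h1 : |y 1| ≤ ‖y‖ := norm_le_pi_norm y 1
  have h2 := norm_ev 0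
  have h3 := norm_ev 1
  calc |y 0| * (δ * ‖ev 0‖) + |y 1| * (δ * ‖ev 1‖) ≤ ‖y‖ * (δ * 1) + ‖y‖ * (δ * 1) := by
        gcongr
    _ = 2 * δ * ‖y‖ := by ring

/-- the test function in index coordinates -/
def psi (u : ℂ → ℝ) (l δ : ℝ) (y : Fin 2 → ℝ) : ℝ := l * u (emb δ y)

theorem psi_ix (u : ℂ → ℝ) (l δ : ℝ) (q : P2) : psi u l δ (ix q) = l * u (centre δ q) := by
  rw [psi, emb_ix]

variable {G : Set ℂ} {u : ℂ → ℝ}

theorem diff_test (hu : IsTest G u) : Differentiable ℝ u := hu.smooth.differentiable (by simp)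

theorem diff_psi (hu : IsTest G u) (l δ : ℝ) : Differentiable ℝ (psi u l δ) :=
  ((diff_test hu).comp (emb δ).differentiable).const_mul l

theorem sl_psi (hu : IsTest G u) (l δ : ℝ) (y : Fin 2 → ℝ) (i : Fin 2) :
    sl' (psi u l δ) y i = l * δ * nu u (emb δ y) i := by
  unfold sl'
  have h1 : HasFDerivAt (psi u l δ) (l • (fderiv ℝ u (emb δ y)).comp (emb δ)) y := by
    have h2 := ((diff_test hu) (emb δ y)).hasFDerivAt.comp y (emb δ).hasFDerivAt
    exact h2.const_mul l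
  rw [h1.fderiv]
  change l * fderiv ℝ u (emb δ y) (emb δ (Pi.single i 1)) = _
  rw [emb_single, map_smul, smul_eq_mul]
  unfold nu
  ring

theorem sl_psi_ix (hu : IsTest G u) (l δ : ℝ) (q : P2) :
    sl' (psi u l δ) (ix q) = fun i => (l * δ) * nu u (centre δ q) i := by
  funext i
  rw [sl_psi hu, emb_ix]

/-- bounds of the test function -/
theorem exists_bd (hu : IsTest G u) : ∃ S0 S1 S2 : ℝ, 0 ≤ S0 ∧ 0 ≤ S1 ∧ 0 ≤ S2 ∧
    (∀ z, |u z| ≤ S0) ∧ (∀ z, ∑ i, nu u z i ^ 2 ≤ S1 ^ 2) ∧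
    (∀ z z', ∑ i, (nu u z i - nu u z' i) ^ 2 ≤ S2 ^ 2 * ‖z - z'‖ ^ 2) := by
  obtain ⟨S0, hS0⟩ := hu.smooth.continuous.bounded_above_of_compact_support hu.comp
  have hf : ContDiff ℝ 1 (fderiv ℝ u) :=
    (hu.smooth.fderiv_right (m := ∞) (by simp)).of_le (by simp)
  have hfc : HasCompactSupport (fderiv ℝ u) := hu.comp.fderiv ℝ
  obtain ⟨S1, hS1⟩ := hf.continuous.bounded_above_of_compact_support hfc
  obtain ⟨C, hC⟩ := ContDiff.lipschitzWith_of_hasCompactSupport hfc hf (by simp)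
  have h1 : ∀ z i, |nu u z i| ≤ |S1| := by
    intro z i
    unfold nu
    have h2 := (fderiv ℝ u z).le_opNorm (ev i)
    rw [Real.norm_eq_abs] at h2
    calc |fderiv ℝ u z (ev i)| ≤ ‖fderiv ℝ u z‖ * ‖ev i‖ := h2
      _ ≤ |S1| * 1 := mul_le_mul ((hS1 z).trans (le_abs_self _)) (norm_ev i) (norm_nonneg _)
          (abs_nonneg _)
      _ = |S1| := mul_one _
  have h3 : ∀ z z' i, |nu u z i - nu u z' i| ≤ C * ‖z - z'‖ := by
    intro z z' i
    unfold nu
    have h4 := (fderiv ℝ u z - fderiv ℝ u z').le_opNorm (ev i)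
    rw [Real.norm_eq_abs] at h4
    have h5 := hC.dist_le_mul z z'
    rw [dist_eq_norm, dist_eq_norm] at h5
    calc |fderiv ℝ u z (ev i) - fderiv ℝ u z' (ev i)| ≤ ‖fderiv ℝ u z - fderiv ℝ u z'‖ * ‖ev i‖ := h4
      _ ≤ (C * ‖z - z'‖) * 1 := mul_le_mul h5 (norm_ev i) (norm_nonneg _) (by positivity)
      _ = C * ‖z - z'‖ := mul_one _
  refine ⟨|S0|, 2 * |S1|, 2 * C, abs_nonneg _, by positivity, by positivity, fun z => ?_,
    fun z => ?_, fun z z' => ?_⟩
  · have := hS0 z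
    rw [Real.norm_eq_abs] at this
    exact this.trans (le_abs_self _)
  · rw [Fin.sum_univ_two]
    have a0 := sq_le_sq' (by linarith [h1 z 0, neg_abs_le (nu u z 0)])
      ((le_abs_self _).trans (h1 z 0))
    have a1 := sq_le_sq' (by linarith [h1 z 1, neg_abs_le (nu u z 1)])
      ((le_abs_self _).trans (h1 z 1))
    nlinarith [sq_nonneg (|S1|)]
  · rw [Fin.sum_univ_two]
    have a0 := sq_le_sq' (by linarith [h3 z z' 0, neg_abs_le (nu u z 0 - nu u z' 0)])
      ((le_abs_self _).trans (h3 z z' 0))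
    have a1 := sq_le_sq' (by linarith [h3 z z' 1, neg_abs_le (nu u z 1 - nu u z' 1)])
      ((le_abs_self _).trans (h3 z z' 1))
    nlinarith [sq_nonneg ((C : ℝ) * ‖z - z'‖)]

/-- **hypotheses on the test function** -/
theorem psiH (hu : IsTest G u) {S0 S1 S2 : ℝ} (hS1 : 0 ≤ S1) (hS2 : 0 ≤ S2)
    (h0 : ∀ z, |u z| ≤ S0) (h1 : ∀ z, ∑ i, nu u z i ^ 2 ≤ S1 ^ 2)
    (h2 : ∀ z z', ∑ i, (nu u z i - nu u z' i) ^ 2 ≤ S2 ^ 2 * ‖z - z'‖ ^ 2) (l : ℝ) {δ : ℝ}
    (hδ : 0 ≤ δ) : PsiH (psi u l δ) (|l| * S0) (|l| * S1 * δ) (2 * |l| * S2 * δ ^ 2) where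
  diff := diff_psi hu l δ
  n1 := by positivity
  n2 := by positivity
  b := fun y => by
    rw [psi, abs_mul]
    exact mul_le_mul_of_nonneg_left (h0 _) (abs_nonneg _)
  g1 := fun y => by
    simp only [sl_psi hu, mul_pow, ← Finset.mul_sum]
    rw [sq_abs]
    calc l ^ 2 * δ ^ 2 * ∑ i, nu u (emb δ y) i ^ 2 ≤ l ^ 2 * δ ^ 2 * S1 ^ 2 := by
          gcongr
          exact h1 _
      _ = _ := by ring
  g2 := fun y y' => by
    have e : ∀ i, (sl' (psi u l δ) y i - sl' (psi u l δ) y' i) ^ 2 =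
        (l * δ) ^ 2 * (nu u (emb δ y) i - nu u (emb δ y') i) ^ 2 := by
      intro i
      rw [sl_psi hu, sl_psi hu]; ring
    simp only [e, ← Finset.mul_sum]
    have h3 : ‖emb δ y - emb δ y'‖ ^ 2 ≤ (2 * δ * ‖y - y'‖) ^ 2 := by
      rw [← map_sub]
      exact pow_le_pow_left₀ (norm_nonneg _) (norm_emb_le hδ _) 2
    calc (l * δ) ^ 2 * ∑ i, (nu u (emb δ y) i - nu u (emb δ y') i) ^ 2 ≤
          (l * δ) ^ 2 * (S2 ^ 2 * (2 * δ * ‖y - y'‖) ^ 2) := by
          gcongr
          exact (h2 _ _).trans (mul_le_mul_of_nonneg_left h3 (sq_nonneg _))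
      _ = |l| ^ 2 * (2 * S2 * δ ^ 2) ^ 2 * ‖y - y'‖ ^ 2 := by rw [sq_abs]; ring
      _ = _ := by ring

theorem tsupport_psi (u : ℂ → ℝ) (l δ : ℝ) {y : Fin 2 → ℝ} (hy : y ∈ tsupport (psi u l δ)) :
    emb δ y ∈ tsupport u := by
  have h1 : tsupport (psi u l δ) ⊆ (emb δ) ⁻¹' tsupport u := by
    refine closure_minimal (fun z hz => ?_) ((isClosed_tsupport u).preimage (emb δ).continuous)
    refine subset_tsupport u fun h => hz ?_
    rw [psi, h, mul_zero]
  exact h1 hy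

theorem norm_centre_sub_le {δ : ℝ} (hδ : 0 ≤ δ) (a b : P2) :
    ‖centre δ b - centre δ a‖ ≤ 2 * δ * hd a b := by
  rw [← emb_ix, ← emb_ix, ← map_sub]
  refine (norm_emb_le hδ _).trans (mul_le_mul_of_nonneg_left ?_ (by positivity))
  have h0 : (0 : ℝ) ≤ hd a b := by exact_mod_cast hd_nonneg a b
  rw [pi_norm_le_iff_of_nonneg h0]
  obtain ⟨⟨h1, h2⟩, ⟨h3, h4⟩, -⟩ := hd_le_iff.mp (le_refl (hd a b))
  intro i
  rw [Real.norm_eq_abs, abs_le]
  fin_cases i
  · change -((hd a b : ℤ) : ℝ) ≤ (b.1 : ℝ) - a.1 ∧ (b.1 : ℝ) - a.1 ≤ (hd a b : ℤ)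
    constructor
    · have : -(hd a b) ≤ b.1 - a.1 := by linarith
      exact_mod_cast this
    · have : b.1 - a.1 ≤ hd a b := by linarith
      exact_mod_cast this
  · change -((hd a b : ℤ) : ℝ) ≤ (b.2 : ℝ) - a.2 ∧ (b.2 : ℝ) - a.2 ≤ (hd a b : ℤ)
    constructor
    · have : -(hd a b) ≤ b.2 - a.2 := by linarith
      exact_mod_cast this
    · have : b.2 - a.2 ≤ hd a b := by linarith
      exact_mod_cast this

/-- **separation** -/
theorem sep_ev {δ : ℕ → ℝ} {Rg : ℕ → Finset P2} (hs : Sites G δ Rg) (hu : IsTest G u) :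
    ∃ κ : ℝ, 0 < κ ∧ ∀ (l B : ℝ), ∀ᶠ n in atTop, ∀ M : ℕ, (M : ℝ) ≤ 2 * κ / δ n →
      Sep (Rg n) (psi u l (δ n)) B M := by
  obtain ⟨ρ, hρ, hρG⟩ := hu.comp.isCompact.exists_cthickening_subset_open hs.opn hu.supp
  have hK : IsCompact (cthickening ρ (tsupport u)) := hu.comp.isCompact.cthickening
  refine ⟨ρ / 100, by positivity, fun l B => ?_⟩
  filter_upwards [hs.inn _ hK hρG,
    hs.small (show 0 < ρ / (8 * (|B| + 1)) by positivity)] with n h1 h2 M hM a ha hl b hb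
  by_contra hlt
  push Not at hlt
  obtain ⟨y, hy, hya⟩ := hl
  have hδ : 0 < δ n := hs.pos n
  apply hb
  refine h1 b ?_
  refine mem_cthickening_of_dist_le (centre (δ n) b) (emb (δ n) y) ρ (tsupport u)
    (tsupport_psi u l _ hy) ?_
  have hM' : δ n * M ≤ 2 * (ρ / 100) := by
    rw [le_div_iff₀ hδ] at hM
    linarith
  have hB : δ n * |B| ≤ ρ / 8 := by
    have h3 : δ n * (8 * (|B| + 1)) < ρ := by rwa [lt_div_iff₀ (by positivity)] at h2
    nlinarith [abs_nonneg B]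
  have h3 : ‖emb (δ n) y - centre (δ n) a‖ ≤ 2 * δ n * (2 * M + |B|) := by
    rw [← emb_ix, ← map_sub]
    refine (norm_emb_le hδ.le _).trans (mul_le_mul_of_nonneg_left ?_ (by positivity))
    rw [pi_norm_le_iff_of_nonneg (by positivity)]
    intro i
    have h4 := hya i
    rw [Real.norm_eq_abs, Pi.sub_apply]
    exact h4.trans (by linarith [le_abs_self B])
  have h5 : ‖centre (δ n) b - centre (δ n) a‖ ≤ 2 * δ n * M := by
    refine (norm_centre_sub_le hδ.le a b).trans (mul_le_mul_of_nonneg_left ?_ (by positivity))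
    exact_mod_cast hlt.le
  rw [dist_eq_norm]
  have h6 : centre (δ n) b - emb (δ n) y = (centre (δ n) b - centre (δ n) a) -
      (emb (δ n) y - centre (δ n) a) := by abel
  rw [h6]
  refine (norm_sub_le _ _).trans ?_
  nlinarith

/-- positions -/
theorem pos_Qs {r : ℕ} (hr : 2 ≤ r) (o : Fin 3) (R : Finset P2) (c : P2) :
    Pos (bk r o) (cw r) R (Qs r o R c) where
  m1 := by
    have : Nat.sqrt 1 ≤ Nat.sqrt r := Nat.sqrt_le_sqrt (by omega)
    rw [Nat.sqrt_one] at this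
    exact this
  dis := by
    intro q hq q' hq' v hv hv'
    rw [mem_tr] at hv hv'
    exact Qs_disj hq hq' hv hv' (by abel)
  inn := by
    intro q hq v hv
    rw [mem_tr] at hv
    have := ((mem_Qs hr).mp hq).1 _ hv
    rwa [show q + (v - q) = v by abel] at this

end

end Crest.Agent.R144.LowL549
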