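import Mathlib
import Crest.Agent.R144.LowL10_549

-- ▼ part R144/LowL11_549
section

/-!
# R144 (S0197), LOW-LIM (helper549), part 11: the numbers

`tot` : the right-hand side of the trace inequality for one orientation and one class;
`numbers` : for the best orientation and class its mean is at most `l² (b / c₀) ∫ |∇u|² + ε`.
-/

set_option autoImplicit false

open MeasureTheory Metric Set Filter Topology
open scoped ComplexConjugate ContDiff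

namespace Crest.Agent.R144.LowL549

open Crest.Agent.R144.Skel144 Crest.Agent.R144.Con549 Crest.Agent.R144.Cnt268
open Crest.Agent.R144.Bl565 Crest.Agent.R144.HexTil353
open Crest.Agent.R144.Lc279 (P2 bx nr mem_nr nr_subset card_bx)
open Crest.Agent.R144.Lw425 (LObs hball hd mem_hball hd_triangle hd_comm hd_le_iff hd_nonneg)
open Crest.Agent.R144.LoC95 (Ph Gt Tpl PsiH Sep ix Pos tr mem_tr MT NT LT ST Bad A1c A2c A3c
  A1c_nonneg A2c_nonneg A3c_nonneg)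
open Crest.Agent.R144.LoB95 (sl' cE')
open Crest.ProbabilityR.HexHeights (centre)

noncomputable section

/-- the matrices of the templates -/
def Phi3 (P : Par) (r : ℕ) (Tl : Fin 3 → Fin 2 → (P2 → ℝ) → P2 → ℝ) (o : Fin 3) (h : P2 → ℝ) :
    Matrix (Fin 2) (Fin 2) ℝ := Ph (bk r o) (Gt P (cw r) (bk r o) (Tl o)) h

variable {G : Set ℂ} {u : ℂ → ℝ}

theorem MT_eq_m3 (hu : IsTest G u) (P : Par) (r : ℕ) (Tl : Fin 3 → Fin 2 → (P2 → ℝ) → P2 → ℝ)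
    (o : Fin 3) (R : Finset P2) (c : P2) (l δ : ℝ) (h : P2 → ℝ) :
    MT P (cw r) (bk r o) (Tl o) (Qs r o R c) (psi u l δ) h =
      (l * δ) ^ 2 * m3 (Phi3 P r Tl) u δ r o R c h := by
  unfold MT m3
  rw [Finset.mul_sum]
  refine Finset.sum_congr rfl fun q _ => ?_
  rw [sl_psi_ix hu, qd_smul]
  rfl

theorem NT_eq (P : Par) (c0 : ℝ) (r : ℕ) (o : Fin 3) (R : Finset P2) (c : P2) (h : P2 → ℝ) :
    NT P c0 (cw r) (bk r o) R (Qs r o R c) h =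
      ∑ w ∈ nd r o R c, (mcw P c0 (win 1 R) h w : ℝ) := by
  unfold NT
  refine Finset.sum_congr ?_ fun _ _ => rfl
  ext w
  rw [Finset.mem_filter, mem_nd]
  simp only [mem_tr]

/-! ### constants -/

theorem card_win_le {r : ℕ} (hr : 2 ≤ r) (o : Fin 3) :
    ((win (cw r) (bk r o)).card : ℝ) ≤ 16 * (r : ℝ) ^ 2 := by
  have h1 : win (cw r) (bk r o) ⊆
      Finset.Icc (-(r : ℤ)) (2 * r) ×ˢ Finset.Icc (-(r : ℤ)) (2 * r) := by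
    intro v hv
    obtain ⟨a, ha, hda⟩ := mem_win.mp hv
    obtain ⟨⟨a1, a2⟩, a3, a4⟩ := bk_bound ha
    rw [hd_le_iff] at hda
    obtain ⟨⟨d1, d2⟩, ⟨d3, d4⟩, _⟩ := hda
    have hc : (cw r : ℤ) ≤ r := by exact_mod_cast cw_le r
    rw [Finset.mem_product, Finset.mem_Icc, Finset.mem_Icc]
    refine ⟨⟨?_, ?_⟩, ?_, ?_⟩ <;> linarith
  have h2 := Finset.card_le_card h1
  rw [Finset.card_product, Int.card_Icc] at h2
  have h3 : ((2 * (r : ℤ)) + 1 - (-(r : ℤ))).toNat = 3 * r + 1 := by omega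
  rw [h3] at h2
  have h4 : ((win (cw r) (bk r o)).card : ℝ) ≤ (3 * r + 1) * (3 * r + 1) := by exact_mod_cast h2
  have h5 : (2 : ℝ) ≤ r := by exact_mod_cast hr
  nlinarith

theorem card_bk_le {r : ℕ} (o : Fin 3) : ((bk r o).card : ℝ) ≤ (r : ℝ) ^ 2 := by
  rw [card_bk]
  have h1 : ((r / 2 : ℕ) : ℝ) ≤ r := by exact_mod_cast Nat.div_le_self r 2
  push_cast
  exact pow_le_pow_left₀ (Nat.cast_nonneg _) h1 2

/-- polynomial growth of the constant of the long paths -/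
theorem A2_le (P : Par) (c0 : ℝ) {θ : ℝ} (hθ : 0 < θ) : ∃ K : ℝ, 0 ≤ K ∧ ∀ r : ℕ, 2 ≤ r →
    ∀ o, A2c P c0 (cw r) (bk r o) (128 * r) θ ≤ K * (r : ℝ) ^ 6 := by
  set a : ℝ := (2 * P.Lam / P.eps / c0) ^ 2 with ha
  set A0 : ℝ := 3 * (2 * P.Lam / P.eps) ^ 2 with hA0
  have ha0 : 0 ≤ a := sq_nonneg _
  have hA00 : 0 ≤ A0 := by positivity
  have hθ' : 0 < θ⁻¹ := inv_pos.mpr hθ
  have hA1 := A1c_nonneg P
  refine ⟨2 * A1c P + (2 * (2 * (128 ^ 2 * a) + (1 + θ) ^ 2 * A0 +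
    (1 + θ) * (1 + θ⁻¹) * (128 ^ 2 * a))) * 32, by positivity, fun r hr o => ?_⟩
  have h5 : (2 : ℝ) ≤ r := by exact_mod_cast hr
  have hr1 : (1 : ℝ) ≤ r := by linarith
  have h1 := card_win_le hr o
  have h2 := card_bk_le (r := r) o
  have h3 : (1 + ((bk r o).card : ℝ)) * ((win (cw r) (bk r o)).card : ℝ) ≤ 32 * (r : ℝ) ^ 4 := by
    calc (1 + ((bk r o).card : ℝ)) * ((win (cw r) (bk r o)).card : ℝ) ≤
          (1 + (r : ℝ) ^ 2) * (16 * (r : ℝ) ^ 2) := by gcongr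
      _ ≤ 32 * (r : ℝ) ^ 4 := by nlinarith [sq_nonneg (r : ℝ), one_le_pow₀ hr1 (n := 2)]
  have h4 : cE' 2 A0 P.eps P.Lam c0 (128 * r) θ ≤ (2 * (2 * (128 ^ 2 * a) + (1 + θ) ^ 2 * A0 +
    (1 + θ) * (1 + θ⁻¹) * (128 ^ 2 * a))) * (r : ℝ) ^ 2 := by
    unfold cE'
    rw [← ha]
    have h6 : (1 + θ) ^ 2 * A0 ≤ (1 + θ) ^ 2 * A0 * (r : ℝ) ^ 2 :=
      le_mul_of_one_le_right (by positivity) (one_le_pow₀ hr1)
    nlinarith
  have h7 : 0 ≤ cE' 2 A0 P.eps P.Lam c0 (128 * r) θ :=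
    LoC95.cE'_nonneg (by norm_num) hA00 hθ
  unfold A2c
  rw [← hA0]
  have h8 : (2 * A1c P) * 1 ≤ 2 * A1c P * (r : ℝ) ^ 6 :=
    mul_le_mul_of_nonneg_left (one_le_pow₀ hr1) (by positivity)
  have h9 : cE' 2 A0 P.eps P.Lam c0 (128 * r) θ *
      ((1 + ((bk r o).card : ℝ)) * ((win (cw r) (bk r o)).card : ℝ)) ≤
      ((2 * (2 * (128 ^ 2 * a) + (1 + θ) ^ 2 * A0 +
    (1 + θ) * (1 + θ⁻¹) * (128 ^ 2 * a))) * (r : ℝ) ^ 2) * (32 * (r : ℝ) ^ 4) :=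
    mul_le_mul h4 h3 (by positivity) (by positivity)
  calc _ ≤ 2 * A1c P * (r : ℝ) ^ 6 + ((2 * (2 * (128 ^ 2 * a) + (1 + θ) ^ 2 * A0 +
    (1 + θ) * (1 + θ⁻¹) * (128 ^ 2 * a))) * (r : ℝ) ^ 2) * (32 * (r : ℝ) ^ 4) := by linarith
    _ = _ := by ring

/-- the collar is small -/
theorem cw_small (K : ℝ) {ε : ℝ} (hε : 0 < ε) : ∀ᶠ r : ℕ in atTop,
    K * cw r ≤ ε * ((r / 2 : ℕ) : ℝ) := by
  obtain ⟨k, hk⟩ := exists_nat_gt (4 * K / ε)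
  filter_upwards [eventually_ge_atTop (k * k), eventually_ge_atTop 2] with r hr hr2
  have h1 : k ≤ cw r := Nat.le_sqrt.mpr hr
  have h2 : cw r * cw r ≤ r := Nat.sqrt_le r
  have h3 : r ≤ 4 * (r / 2) := by omega
  have h4 : (cw r : ℝ) * cw r ≤ 4 * ((r / 2 : ℕ) : ℝ) := by exact_mod_cast h2.trans h3
  have h5 : 4 * K / ε ≤ cw r := hk.le.trans (by exact_mod_cast h1)
  rw [div_le_iff₀ hε] at h5
  have h6 : (0 : ℝ) ≤ cw r := Nat.cast_nonneg _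
  nlinarith [mul_le_mul_of_nonneg_right h5 h6, mul_le_mul_of_nonneg_left h4 hε.le]

/-! ### the total -/

/-- the right-hand side of the trace inequality -/
def tot (P : Par) (c0 θ : ℝ) (r : ℕ) (o : Fin 3) (Tl : Fin 3 → Fin 2 → (P2 → ℝ) → P2 → ℝ)
    (R : Finset P2) (c : P2) (Psi : (Fin 2 → ℝ) → ℝ) (p1 p2 A3 Kc : ℝ) (M : ℕ) (h : P2 → ℝ) : ℝ :=
  (1 + θ) ^ 2 * MT P (cw r) (bk r o) (Tl o) (Qs r o R c) Psi h +
    p1 ^ 2 * (A1c P * NT P c0 (cw r) (bk r o) R (Qs r o R c) h) +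
    p1 ^ 2 * (A2c P c0 (cw r) (bk r o) (128 * r) θ * LT P c0 (cw r) R h) +
    p2 ^ 2 * (A3 * ST P c0 R h) +
    Kc * {h | Bad P c0 R M h}.indicator (fun _ => (1 : ℝ)) h

variable {δ : ℕ → ℝ} {Rg : ℕ → Finset P2} {ν : ℕ → Measure (P2 → ℝ)}
  {μ : Measure (P2 → ℝ)} {P : Par} {c0 : ℝ}

theorem measurableSet_bad (P : Par) (c0 : ℝ) (R : Finset P2) (M : ℕ) :
    MeasurableSet {h | Bad P c0 R M h} := by
  have e : {h | Bad P c0 R M h} = ⋃ w ∈ R, {h | M ≤ mcw P c0 (win 1 R) h w} := by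
    ext h; simp [Bad]
  rw [e]
  exact Finset.measurableSet_biUnion _ fun w _ =>
    measurableSet_le measurable_const (measurable_mcw _ w)

theorem integral_add5 {ν : Measure (P2 → ℝ)} {f1 f2 f3 f4 f5 : (P2 → ℝ) → ℝ}
    (h1 : Integrable f1 ν) (h2 : Integrable f2 ν) (h3 : Integrable f3 ν) (h4 : Integrable f4 ν)
    (h5 : Integrable f5 ν) : Integrable (fun h => f1 h + f2 h + f3 h + f4 h + f5 h) ν ∧
    ∫ h, (f1 h + f2 h + f3 h + f4 h + f5 h) ∂ν =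
      ∫ h, f1 h ∂ν + ∫ h, f2 h ∂ν + ∫ h, f3 h ∂ν + ∫ h, f4 h ∂ν + ∫ h, f5 h ∂ν := by
  have k2 : Integrable (fun h => f1 h + f2 h) ν := h1.add h2
  have k3 : Integrable (fun h => f1 h + f2 h + f3 h) ν := k2.add h3
  have k4 : Integrable (fun h => f1 h + f2 h + f3 h + f4 h) ν := k3.add h4
  refine ⟨k4.add h5, ?_⟩
  rw [integral_add k4 h5, integral_add k3 h4, integral_add k2 h3, integral_add h1 h2]

/-- integrability of all terms, and the mean -/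
theorem integral_tot (N : NumIn G δ Rg ν μ (fun n h w => mcw P c0 (win 1 (Rg n)) h w))
    (hu : IsTest G u) {r : ℕ} {Tl : Fin 3 → Fin 2 → (P2 → ℝ) → P2 → ℝ} {B C : ℝ} (hC : 0 ≤ C)
    (hT : ∀ o, Tpl (cw r) (bk r o) (Tl o) B C) (θ : ℝ) (n : ℕ) (o : Fin 3) (c : P2)
    (l p1 p2 A3 Kc : ℝ) (M : ℕ) :
    Integrable (tot P c0 θ r o Tl (Rg n) c (psi u l (δ n)) p1 p2 A3 Kc M) (ν n) ∧
    ∫ h, tot P c0 θ r o Tl (Rg n) c (psi u l (δ n)) p1 p2 A3 Kc M h ∂(ν n) =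
      (1 + θ) ^ 2 * ((l * δ n) ^ 2 * ∫ h, m3 (Phi3 P r Tl) u (δ n) r o (Rg n) c h ∂(ν n)) +
      p1 ^ 2 * (A1c P * ∑ w ∈ nd r o (Rg n) c, ∫ h, (mcw P c0 (win 1 (Rg n)) h w : ℝ) ∂(ν n)) +
      p1 ^ 2 * (A2c P c0 (cw r) (bk r o) (128 * r) θ * ∑ w ∈ Rg n, ∫ h,
        (if cw r < mcw P c0 (win 1 (Rg n)) h w then (mcw P c0 (win 1 (Rg n)) h w : ℝ) else 0)
          ∂(ν n)) +
      p2 ^ 2 * (A3 * ∑ w ∈ Rg n, ∫ h,
        ((mcw P c0 (win 1 (Rg n)) h w : ℝ) + 1) ^ 2 ∂(ν n)) +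
      Kc * (ν n).real {h | Bad P c0 (Rg n) M h} := by
  have := N.prob n
  have i1 : Integrable (m3 (Phi3 P r Tl) u (δ n) r o (Rg n) c) (ν n) :=
    integrable_m3 (lm3_tpl P hC hT) (ν n) u (δ n) r o (Rg n) c
  have i2 : ∀ w, Integrable (fun h => (mcw P c0 (win 1 (Rg n)) h w : ℝ)) (ν n) := fun w =>
    N.integrable_of n w fun k => (k : ℝ)
  have i3 : ∀ w, Integrable (fun h => if cw r < mcw P c0 (win 1 (Rg n)) h w then
      (mcw P c0 (win 1 (Rg n)) h w : ℝ) else 0) (ν n) := fun w =>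
    N.integrable_of n w fun k => if cw r < k then (k : ℝ) else 0
  have i4 : ∀ w, Integrable (fun h => ((mcw P c0 (win 1 (Rg n)) h w : ℝ) + 1) ^ 2) (ν n) :=
    fun w => N.integrable_of n w fun k => ((k : ℝ) + 1) ^ 2
  have e1 : (fun h => MT P (cw r) (bk r o) (Tl o) (Qs r o (Rg n) c) (psi u l (δ n)) h) =
      fun h => (l * δ n) ^ 2 * m3 (Phi3 P r Tl) u (δ n) r o (Rg n) c h := by
    funext h; exact MT_eq_m3 hu P r Tl o (Rg n) c l (δ n) h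
  have e2 : (fun h => NT P c0 (cw r) (bk r o) (Rg n) (Qs r o (Rg n) c) h) =
      fun h => ∑ w ∈ nd r o (Rg n) c, (mcw P c0 (win 1 (Rg n)) h w : ℝ) := by
    funext h; exact NT_eq P c0 r o (Rg n) c h
  have j1 : Integrable (fun h => MT P (cw r) (bk r o) (Tl o) (Qs r o (Rg n) c)
      (psi u l (δ n)) h) (ν n) := by
    rw [e1]; exact i1.const_mul _
  have j2 : Integrable (fun h => NT P c0 (cw r) (bk r o) (Rg n) (Qs r o (Rg n) c) h) (ν n) := by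
    rw [e2]; exact integrable_finsetSum _ fun w _ => i2 w
  have j3 : Integrable (fun h => LT P c0 (cw r) (Rg n) h) (ν n) :=
    integrable_finsetSum _ fun w _ => i3 w
  have j4 : Integrable (fun h => ST P c0 (Rg n) h) (ν n) :=
    integrable_finsetSum _ fun w _ => i4 w
  have j5 : Integrable ({h | Bad P c0 (Rg n) M h}.indicator (fun _ => (1 : ℝ))) (ν n) :=
    (integrable_const (1 : ℝ)).indicator (measurableSet_bad P c0 (Rg n) M)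
  have k1 := j1.const_mul ((1 + θ) ^ 2)
  have k2 := (j2.const_mul (A1c P)).const_mul (p1 ^ 2)
  have k3 := (j3.const_mul (A2c P c0 (cw r) (bk r o) (128 * r) θ)).const_mul (p1 ^ 2)
  have k4 := (j4.const_mul A3).const_mul (p2 ^ 2)
  have k5 := j5.const_mul Kc
  have key := integral_add5 k1 k2 k3 k4 k5
  refine ⟨key.1, ?_⟩
  refine key.2.trans ?_
  rw [integral_const_mul, integral_const_mul,
    integral_const_mul, integral_const_mul, integral_const_mul, integral_const_mul,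
    integral_const_mul, integral_const_mul,
    integral_indicator_const _ (measurableSet_bad P c0 (Rg n) M)]
  have f1 : ∫ h, MT P (cw r) (bk r o) (Tl o) (Qs r o (Rg n) c) (psi u l (δ n)) h ∂(ν n) =
      (l * δ n) ^ 2 * ∫ h, m3 (Phi3 P r Tl) u (δ n) r o (Rg n) c h ∂(ν n) := by
    rw [e1, integral_const_mul]
  have f2 : ∫ h, NT P c0 (cw r) (bk r o) (Rg n) (Qs r o (Rg n) c) h ∂(ν n) =
      ∑ w ∈ nd r o (Rg n) c, ∫ h, (mcw P c0 (win 1 (Rg n)) h w : ℝ) ∂(ν n) := by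
    rw [e2, integral_finsetSum _ fun w _ => i2 w]
  have f3 : ∫ h, LT P c0 (cw r) (Rg n) h ∂(ν n) = ∑ w ∈ Rg n, ∫ h,
      (if cw r < mcw P c0 (win 1 (Rg n)) h w then (mcw P c0 (win 1 (Rg n)) h w : ℝ) else 0)
        ∂(ν n) := integral_finsetSum _ fun w _ => i3 w
  have f4 : ∫ h, ST P c0 (Rg n) h ∂(ν n) = ∑ w ∈ Rg n, ∫ h,
      ((mcw P c0 (win 1 (Rg n)) h w : ℝ) + 1) ^ 2 ∂(ν n) := integral_finsetSum _ fun w _ => i4 w
  rw [f1, f2, f3, f4, smul_eq_mul, mul_one]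

end

end Crest.Agent.R144.LowL549
end

-- ▼ part R144/LowL12_549

/-!
# R144 (S0197), LOW-LIM (helper549), part 12: the numbers, conclusion

`numbers` : for the best orientation and class the mean of the right-hand side of the trace
inequality is at most `l² (b / c₀) ∫ |∇u|² + ε`, `c₀ = √3/2`.
-/

set_option autoImplicit false

open MeasureTheory Metric Set Filter Topology
open scoped ComplexConjugate ContDiff

namespace Crest.Agent.R144.LowL549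

open Crest.Agent.R144.Skel144 Crest.Agent.R144.Con549 Crest.Agent.R144.Cnt268
open Crest.Agent.R144.Bl565 Crest.Agent.R144.HexTil353
open Crest.Agent.R144.Lc279 (P2 bx nr mem_nr nr_subset card_bx)
open Crest.Agent.R144.Lw425 (LObs hball hd mem_hball hd_triangle hd_comm hd_le_iff hd_nonneg)
open Crest.Agent.R144.LoC95 (Ph Gt Tpl PsiH Sep ix Pos tr mem_tr MT NT Bad A1c A2c A3c
  A1c_nonneg A2c_nonneg A3c_nonneg)
open Crest.Agent.R144.LoB95 (sl' cE')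
open Crest.ProbabilityR.HexHeights (centre)

noncomputable section

variable {G : Set ℂ} {u : ℂ → ℝ} {δ : ℕ → ℝ} {Rg : ℕ → Finset P2} {ν : ℕ → Measure (P2 → ℝ)}
  {μ : Measure (P2 → ℝ)} {P : Par} {c0 : ℝ}

theorem two_div_sqrt : 0 < 2 / Real.sqrt 3 ∧ 2 / Real.sqrt 3 ≤ 2 ∧
    Real.sqrt 3 / 2 * 4 = 3 * (2 / Real.sqrt 3) ∧ 0 < Real.sqrt 3 / 2 ∧ Real.sqrt 3 / 2 ≤ 1 := by
  have h3 : 0 < Real.sqrt 3 := by positivity
  have h4 : Real.sqrt 3 * Real.sqrt 3 = 3 := Real.mul_self_sqrt (by norm_num)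
  have h1 : 1 ≤ Real.sqrt 3 := by
    rw [show (1 : ℝ) = Real.sqrt 1 by simp]
    exact Real.sqrt_le_sqrt (by norm_num)
  have h2 : Real.sqrt 3 ≤ 2 := by
    rw [show (2 : ℝ) = Real.sqrt 4 by rw [show (4 : ℝ) = 2 ^ 2 by norm_num]; simp]
    exact Real.sqrt_le_sqrt (by norm_num)
  refine ⟨by positivity, ?_, ?_, by positivity, by linarith⟩
  · rw [div_le_iff₀ h3]; linarith
  · field_simp
    linarith

/-- arithmetic of the averages -/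
theorem avg_le {θ l b E η e1 s A C W Λ ε a N' S1 : ℝ} (hθ0 : 0 < θ) (hθ1 : θ ≤ 1)
    (hs : 1 ≤ s) (hE : 0 ≤ E) (hη : 0 ≤ η) (hb : 0 ≤ b) (hΛ : 0 < Λ) (hε : 0 < ε)
    (hA : 0 ≤ A) (he1 : 0 ≤ e1)
    (hl : |l| ≤ Λ) (hlb : l ^ 2 * b ≤ Λ)
    (ha : a ≤ Real.sqrt 3 / 2 * (4 * b * s ^ 2 + η) * E + e1)
    (hN : N' ≤ 24 * W * s * C + e1)
    (h1 : θ * (48 * Λ * (E + 1)) ≤ ε) (h2 : 32 * Λ ^ 2 * η * E ≤ ε)
    (h3 : 32 * Λ ^ 2 * e1 ≤ ε) (h4 : Λ ^ 2 * S1 ^ 2 * A * 8 * C * W ≤ ε / 8 * s)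
    (h5 : 8 * Λ ^ 2 * S1 ^ 2 * A * e1 ≤ ε) (hWC : 0 ≤ W * C) :
    (1 + θ) ^ 2 * (l ^ 2 * a) + l ^ 2 * S1 ^ 2 * A * N' ≤
      3 * s ^ 2 * (l ^ 2 * (2 / Real.sqrt 3 * b) * E + 3 / 4 * ε) := by
  obtain ⟨t0, t1, t2, t3, t4⟩ := two_div_sqrt
  set t := 2 / Real.sqrt 3 with ht
  set w := Real.sqrt 3 / 2 with hw
  have hl2 : l ^ 2 ≤ Λ ^ 2 := by
    rw [← sq_abs]
    exact pow_le_pow_left₀ (abs_nonneg _) hl 2
  have hl0 : 0 ≤ l ^ 2 := sq_nonneg _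
  have hs2 : 1 ≤ s ^ 2 := one_le_pow₀ hs
  have hθ4 : (1 + θ) ^ 2 ≤ 4 := by nlinarith
  have hθ3 : (1 + θ) ^ 2 ≤ 1 + 3 * θ := by nlinarith
  -- main term
  have m1 : (1 + θ) ^ 2 * (l ^ 2 * a) ≤ (1 + θ) ^ 2 * (l ^ 2 * (w * (4 * b * s ^ 2 + η) * E + e1)) :=
    by gcongr
  have m2 : (1 + θ) ^ 2 * (l ^ 2 * (w * (4 * b * s ^ 2 + η) * E + e1)) =
      3 * s ^ 2 * ((1 + θ) ^ 2 * (l ^ 2 * b * (t * E))) + (1 + θ) ^ 2 * (l ^ 2 * (w * η * E)) +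
        (1 + θ) ^ 2 * (l ^ 2 * e1) := by
    have : w * (4 * b * s ^ 2 + η) * E = (w * 4) * (b * s ^ 2 * E) + w * η * E := by ring
    rw [this, t2]; ring
  have tE : 0 ≤ t * E := by positivity
  have m3 : (1 + θ) ^ 2 * (l ^ 2 * b * (t * E)) ≤ l ^ 2 * b * (t * E) + ε / 8 := by
    have g1 : 0 ≤ l ^ 2 * b * (t * E) := by positivity
    have g2 : 3 * θ * (l ^ 2 * b * (t * E)) ≤ 3 * θ * (Λ * (2 * (E + 1))) := by
      gcongr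
      linarith
    have g3 : (1 + θ) ^ 2 * (l ^ 2 * b * (t * E)) ≤ (1 + 3 * θ) * (l ^ 2 * b * (t * E)) := by
      gcongr
    nlinarith
  have m4 : (1 + θ) ^ 2 * (l ^ 2 * (w * η * E)) ≤ ε / 8 := by
    calc (1 + θ) ^ 2 * (l ^ 2 * (w * η * E)) ≤ 4 * (Λ ^ 2 * (1 * η * E)) := by gcongr
      _ ≤ ε / 8 := by linarith
  have m5 : (1 + θ) ^ 2 * (l ^ 2 * e1) ≤ ε / 8 := by
    calc (1 + θ) ^ 2 * (l ^ 2 * e1) ≤ 4 * (Λ ^ 2 * e1) := by gcongr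
      _ ≤ ε / 8 := by linarith
  -- collar
  have n1 : l ^ 2 * S1 ^ 2 * A * N' ≤ l ^ 2 * S1 ^ 2 * A * (24 * W * s * C + e1) := by gcongr
  have n2 : l ^ 2 * S1 ^ 2 * A * (24 * W * s * C) ≤ 3 * s ^ 2 * (ε / 8) := by
    calc l ^ 2 * S1 ^ 2 * A * (24 * W * s * C) = l ^ 2 * (S1 ^ 2 * A * 24 * s * (W * C)) := by ring
      _ ≤ Λ ^ 2 * (S1 ^ 2 * A * 24 * s * (W * C)) := by gcongr
      _ = 3 * s * (Λ ^ 2 * S1 ^ 2 * A * 8 * C * W) := by ring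
      _ ≤ 3 * s * (ε / 8 * s) := by gcongr
      _ = _ := by ring
  have n3 : l ^ 2 * S1 ^ 2 * A * e1 ≤ ε / 8 := by
    calc l ^ 2 * S1 ^ 2 * A * e1 ≤ Λ ^ 2 * S1 ^ 2 * A * e1 := by gcongr
      _ ≤ ε / 8 := by linarith
  have q1 : ε / 8 ≤ s ^ 2 * (ε / 8) := le_mul_of_one_le_left (by positivity) hs2
  have q2 : 3 * s ^ 2 * ((1 + θ) ^ 2 * (l ^ 2 * b * (t * E))) ≤
      3 * s ^ 2 * (l ^ 2 * b * (t * E) + ε / 8) := mul_le_mul_of_nonneg_left m3 (by positivity)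
  rw [mul_add] at n1
  have q3 : 3 * s ^ 2 * (l ^ 2 * (t * b) * E + 3 / 4 * ε) =
      3 * s ^ 2 * (l ^ 2 * b * (t * E) + ε / 8) + 15 * (s ^ 2 * (ε / 8)) := by ring
  have q4 : 3 * s ^ 2 * (ε / 8) = 3 * (s ^ 2 * (ε / 8)) := by ring
  rw [q3]
  rw [q4] at n2
  linarith

/-- arithmetic of the small terms -/
theorem rest_le {l Λ S1 S2 d A2 A2' T A3 K3 tt ss F ε : ℝ} (hl : |l| ≤ Λ)
    (hT : d ^ 2 * tt ≤ T) (hT0 : 0 ≤ d ^ 2 * tt) (hA2 : 0 ≤ A2) (hA2' : A2 ≤ A2')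
    (h1 : Λ ^ 2 * S1 ^ 2 * A2' * T ≤ ε / 12) (hA3 : 0 ≤ A3) (hA3' : A3 ≤ K3) (hss : 0 ≤ ss)
    (h2 : 4 * Λ ^ 2 * S2 ^ 2 * K3 * (d ^ 2) ^ 2 * ss ≤ ε / 12) (hF : F ≤ ε / 12) :
    (|l| * S1 * d) ^ 2 * (A2 * tt) + (2 * |l| * S2 * d ^ 2) ^ 2 * (A3 * ss) + F ≤ ε / 4 := by
  have hl2 : |l| ^ 2 ≤ Λ ^ 2 := pow_le_pow_left₀ (abs_nonneg _) hl 2
  have hA20 : 0 ≤ A2' := hA2.trans hA2'
  have a1 : (|l| * S1 * d) ^ 2 * (A2 * tt) ≤ ε / 12 := by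
    calc _ = |l| ^ 2 * S1 ^ 2 * A2 * (d ^ 2 * tt) := by ring
      _ ≤ Λ ^ 2 * S1 ^ 2 * A2' * T := by gcongr
      _ ≤ ε / 12 := h1
  have a2 : (2 * |l| * S2 * d ^ 2) ^ 2 * (A3 * ss) ≤ ε / 12 := by
    calc _ = |l| ^ 2 * (4 * S2 ^ 2 * (d ^ 2) ^ 2 * ss * A3) := by ring
      _ ≤ Λ ^ 2 * (4 * S2 ^ 2 * (d ^ 2) ^ 2 * ss * K3) := by gcongr
      _ = 4 * Λ ^ 2 * S2 ^ 2 * K3 * (d ^ 2) ^ 2 * ss := by ring
      _ ≤ ε / 12 := h2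
  linarith

theorem tot_arith {l S1 d A1 θ a nn x y z ε : ℝ} (h : x + y + z ≤ ε / 4) :
    (1 + θ) ^ 2 * ((l * d) ^ 2 * a) + (|l| * S1 * d) ^ 2 * (A1 * nn) + x + y + z ≤
      (1 + θ) ^ 2 * (l ^ 2 * (d ^ 2 * a)) + l ^ 2 * S1 ^ 2 * A1 * (d ^ 2 * nn) + ε / 4 := by
  have b3 : (|l| * S1 * d) ^ 2 * (A1 * nn) = l ^ 2 * S1 ^ 2 * A1 * (d ^ 2 * nn) := by
    rw [mul_pow, mul_pow, sq_abs]; ring
  have b2 : (1 + θ) ^ 2 * ((l * d) ^ 2 * a) = (1 + θ) ^ 2 * (l ^ 2 * (d ^ 2 * a)) := by ring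
  rw [b2, b3]
  linarith

theorem sum_arith {r : ℕ} {l S1 d A1 θ ε : ℝ} {aa nn : Fin 3 → P2 → ℝ} :
    ∑ o : Fin 3, ∑ c ∈ bx (r / 2), ((1 + θ) ^ 2 * (l ^ 2 * (d ^ 2 * aa o c)) +
        l ^ 2 * S1 ^ 2 * A1 * (d ^ 2 * nn o c) + ε / 4) =
      (1 + θ) ^ 2 * (l ^ 2 * (d ^ 2 * ∑ o, ∑ c ∈ bx (r / 2), aa o c)) +
      l ^ 2 * S1 ^ 2 * A1 * (d ^ 2 * ∑ o, ∑ c ∈ bx (r / 2), nn o c) +
      3 * ((r / 2 : ℕ) : ℝ) ^ 2 * (ε / 4) := by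
  simp only [Finset.sum_add_distrib, Finset.mul_sum, Finset.sum_const, card_bx,
    Finset.card_univ, Fintype.card_fin, nsmul_eq_mul]
  push_cast
  ring

/-- **the numbers** -/
theorem numbers (N : NumIn G δ Rg ν μ (fun n h w => mcw P c0 (win 1 (Rg n)) h w)) (hμ : Inv μ)
    (hdlr : DLR μ) (hu : IsTest G u) {S1 S2 : ℝ} {Λ ε : ℝ} (hΛ : 0 < Λ)
    (hε : 0 < ε) :
    ∃ θ : ℝ, 0 < θ ∧ ∃ r1 : ℕ, 2 ≤ r1 ∧ ∀ r, r1 ≤ r → ∀ b, 0 ≤ b → (∀ L, abT P μ r L ≤ b) →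
    ∃ (Tl : Fin 3 → Fin 2 → (P2 → ℝ) → P2 → ℝ) (C : ℝ), 0 ≤ C ∧
      (∀ o, Tpl (cw r) (bk r o) (Tl o) (128 * r) C) ∧
      ∀ (A3 : Fin 3 → ℝ) (Kc : Fin 3 → ℕ → ℝ) (K κ : ℝ) (a : ℕ) (M : ℕ → ℕ), (∀ o, 0 ≤ A3 o) →
        (∀ o, ∀ᶠ n in atTop, Kc o n ≤ K * (δ n ^ a)⁻¹) → 0 < κ →
        (∀ᶠ n in atTop, κ / δ n ≤ M n) →
        ∀ l, |l| ≤ Λ → l ^ 2 * b ≤ Λ → ∀ᶠ n in atTop, ∃ o, ∃ c ∈ bx (r / 2),
          ∫ h, tot P c0 θ r o Tl (Rg n) c (psi u l (δ n)) (|l| * S1 * δ n)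
            (2 * |l| * S2 * δ n ^ 2) (A3 o) (Kc o n) (M n) h ∂(ν n) ≤
            l ^ 2 * (2 / Real.sqrt 3 * b) * (∫ z, ‖fderiv ℝ u z‖ ^ 2) + ε := by
  have hprob := hμ.prob
  set E : ℝ := ∫ z, ‖fderiv ℝ u z‖ ^ 2 with hE
  have hE0 : 0 ≤ E := integral_nonneg fun z => sq_nonneg _
  obtain ⟨C1, hC1, hnd⟩ := N.nd_term
  obtain ⟨C2, q, hC2, hq0, hq1, -, htail, -⟩ := N.first
  have hA1 := A1c_nonneg P
  -- the relative error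
  obtain ⟨θ, hθ0, hθ1, hθ2⟩ : ∃ θ : ℝ, 0 < θ ∧ θ ≤ 1 ∧ θ * (48 * Λ * (E + 1)) ≤ ε := by
    refine ⟨min 1 (ε / (48 * Λ * (E + 1))), by positivity, min_le_left _ _, ?_⟩
    have h1 : 0 < 48 * Λ * (E + 1) := by positivity
    calc _ ≤ ε / (48 * Λ * (E + 1)) * (48 * Λ * (E + 1)) := by
          gcongr
          exact min_le_right _ _
      _ = ε := by field_simp
  refine ⟨θ, hθ0, ?_⟩
  obtain ⟨K2, hK2, hA2⟩ := A2_le P c0 hθ0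
  -- the scale
  have e1 : ∀ᶠ r : ℕ in atTop, Λ ^ 2 * S1 ^ 2 * A1c P * 8 * C1 * cw r ≤
      ε / 8 * ((r / 2 : ℕ) : ℝ) := cw_small _ (by positivity)
  have e2 : ∀ᶠ r : ℕ in atTop,
      Λ ^ 2 * S1 ^ 2 * K2 * C2 * ((r : ℝ) ^ 6 * q ^ cw r) ≤ ε / 12 := by
    have h1 := (tendsto_cw_pow 6 hq0 hq1).const_mul (Λ ^ 2 * S1 ^ 2 * K2 * C2)
    rw [mul_zero] at h1
    exact (h1.eventually (gt_mem_nhds (show 0 < ε / 12 by positivity))).mono fun r hr => hr.le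
  obtain ⟨r1, hr1⟩ := eventually_atTop.mp (e1.and (e2.and (eventually_ge_atTop 2)))
  refine ⟨max r1 2, le_max_right _ _, fun r hr b hb hab => ?_⟩
  obtain ⟨h1, h2, h3⟩ := hr1 r ((le_max_left _ _).trans hr)
  -- the template
  obtain ⟨Tl, C, hC, hT, hB⟩ := LoA770.three P h3 hμ hdlr hab
    (show 0 < ε / (32 * Λ ^ 2 * (E + 1)) by positivity)
  set η : ℝ := ε / (32 * Λ ^ 2 * (E + 1)) with hη
  have hη0 : 0 < η := by positivity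
  refine ⟨Tl, C, hC, hT, fun A3 Kc K κ a M hA3 hKc hκ hM l hl hlb => ?_⟩
  have hs1 : 1 ≤ r / 2 := by omega
  have hs1' : (1 : ℝ) ≤ ((r / 2 : ℕ) : ℝ) := by exact_mod_cast hs1
  set e0 : ℝ := ε / (32 * Λ ^ 2 * (1 + S1 ^ 2 * A1c P)) with he0
  have he00 : 0 < e0 := by positivity
  have hLM : LM3 (3 * r) (Phi3 P r Tl) := lm3_tpl P hC hT
  have hmain := main3_le N.hs N.prob N.lln hu hLM hB h3 he00
  set K3 : ℝ := ∑ o : Fin 3, A3 o with hK3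
  have hK3o : ∀ o, A3 o ≤ K3 := fun o =>
    Finset.single_le_sum (f := A3) (fun o _ => hA3 o) (Finset.mem_univ o)
  have hsq := N.sq_term (4 * Λ ^ 2 * S2 ^ 2 * K3) (show 0 < ε / 12 by positivity)
  have hfar := N.far_term |K| hκ a (show 0 < ε / 12 by positivity)
  filter_upwards [hmain, hnd h3 he00, htail (cw r), hsq, hfar, hM,
    eventually_all.mpr hKc] with n g1 g2 g3 g4 g5 g6 g7
  have hprn := N.prob n
  have hδ : 0 < δ n := N.hs.pos n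
  have hss0 : 0 ≤ ∑ w ∈ Rg n, ∫ h, ((mcw P c0 (win 1 (Rg n)) h w : ℝ) + 1) ^ 2 ∂(ν n) :=
    Finset.sum_nonneg fun w _ => integral_nonneg fun h => sq_nonneg _
  have htt0 : 0 ≤ δ n ^ 2 * ∑ w ∈ Rg n, ∫ h, (if cw r < mcw P c0 (win 1 (Rg n)) h w then
      (mcw P c0 (win 1 (Rg n)) h w : ℝ) else 0) ∂(ν n) :=
    mul_nonneg (sq_nonneg _) (Finset.sum_nonneg fun w _ => integral_nonneg fun h => by positivity)
  have hF : ∀ o, Kc o n * (ν n).real {h | Bad P c0 (Rg n) (M n) h} ≤ ε / 12 := by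
    intro o
    have f1 : Kc o n ≤ |K| * (δ n ^ a)⁻¹ :=
      (g7 o).trans (mul_le_mul_of_nonneg_right (le_abs_self K) (by positivity))
    refine (mul_le_mul_of_nonneg_right f1 measureReal_nonneg).trans ?_
    refine le_trans (mul_le_mul_of_nonneg_left (measureReal_mono ?_) (by positivity)) g5
    rintro h ⟨w, hw, hMw⟩
    exact ⟨w, hw, g6.trans (by exact_mod_cast hMw)⟩
  have h2' : Λ ^ 2 * S1 ^ 2 * (K2 * (r : ℝ) ^ 6) * (C2 * q ^ cw r) ≤ ε / 12 := by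
    refine le_trans (le_of_eq ?_) h2
    ring
  -- the last three terms
  have hrest := fun o : Fin 3 => rest_le (S1 := S1) (S2 := S2) hl g3 htt0
    (A2c_nonneg P (c0 := c0) (cw r) (bk r o) (128 * r) hθ0) (hA2 r h3 o) h2'
    (hA3 o) (hK3o o) hss0 g4 (hF o)
  -- the best orientation and class
  refine exists_best (A := fun o c => ∫ h, tot P c0 θ r o Tl (Rg n) c (psi u l (δ n))
    (|l| * S1 * δ n) (2 * |l| * S2 * δ n ^ 2) (A3 o) (Kc o n) (M n) h ∂(ν n)) h3 ?_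
  have hX : ∀ o : Fin 3, ∀ c ∈ bx (r / 2),
      ∫ h, tot P c0 θ r o Tl (Rg n) c (psi u l (δ n))
        (|l| * S1 * δ n) (2 * |l| * S2 * δ n ^ 2) (A3 o) (Kc o n) (M n) h ∂(ν n) ≤
      (1 + θ) ^ 2 * (l ^ 2 * (δ n ^ 2 *
        ∫ h, m3 (Phi3 P r Tl) u (δ n) r o (Rg n) c h ∂(ν n))) +
        l ^ 2 * S1 ^ 2 * A1c P * (δ n ^ 2 *
          ∑ w ∈ nd r o (Rg n) c, ∫ h, (mcw P c0 (win 1 (Rg n)) h w : ℝ) ∂(ν n)) + ε / 4 := by
    intro o c _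
    rw [(integral_tot N hu hC hT θ n o c l (|l| * S1 * δ n) (2 * |l| * S2 * δ n ^ 2) (A3 o)
      (Kc o n) (M n)).2]
    exact tot_arith (hrest o)
  refine (Finset.sum_le_sum fun o _ => Finset.sum_le_sum fun c hc => hX o c hc).trans ?_
  rw [sum_arith]
  have c1 : 32 * Λ ^ 2 * η * E ≤ ε := by
    rw [hη, show 32 * Λ ^ 2 * (ε / (32 * Λ ^ 2 * (E + 1))) * E = ε * (E / (E + 1)) by field_simp]
    exact mul_le_of_le_one_right hε.le ((div_le_one (by positivity)).mpr (by linarith))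
  have hSA : 0 ≤ S1 ^ 2 * A1c P := mul_nonneg (sq_nonneg S1) hA1
  have c2 : 32 * Λ ^ 2 * e0 ≤ ε := by
    rw [he0, show 32 * Λ ^ 2 * (ε / (32 * Λ ^ 2 * (1 + S1 ^ 2 * A1c P))) =
      ε * (1 / (1 + S1 ^ 2 * A1c P)) by field_simp]
    exact mul_le_of_le_one_right hε.le ((div_le_one (by positivity)).mpr (by linarith))
  have c3 : 8 * Λ ^ 2 * S1 ^ 2 * A1c P * e0 ≤ ε := by
    have c4 : 8 * Λ ^ 2 * S1 ^ 2 * A1c P * e0 =
        ε * (S1 ^ 2 * A1c P / (4 * (1 + S1 ^ 2 * A1c P))) := by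
      rw [he0]; field_simp; ring
    rw [c4]
    exact mul_le_of_le_one_right hε.le ((div_le_one (by positivity)).mpr (by linarith))
  have havg := avg_le (W := (cw r : ℝ)) (C := C1) hθ0 hθ1 hs1' hE0 hη0.le hb hΛ hε hA1
    he00.le hl hlb g1 g2 hθ2 c1 c2 h1 c3 (by positivity)
  linarith

end

end Crest.Agent.R144.LowL549
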