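import Crest.Agent.R144.Lmu7_425
import Crest.Agent.R144.Zb3_560

/-!
R144 (S0197), helper425.  Lmu8: tight edges and path tails under the plane state.

* `mu0_tight` : `mu0 {S tight} ≤ wgt 6 S` for fresh lists;
* `bdP V E ρ ε Λ φ m u` : some path with `m` edges from `u` costs at most `φ u`; `mu0_bdP_le`;
* `PLn` : the upper bound of the length of the optimal paths, `lintegral_PLn_le`.
-/

set_option autoImplicit false

open MeasureTheory Set Filter Topology
open scoped ENNReal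

noncomputable section

namespace Crest.Agent.R144.Lw425

open Crest.Agent.R144.Ham560 Crest.Agent.R144.Tri560 Crest.Agent.R144.Zb560
open Crest.Agent.R144.Lc279 (Ev vr HS bx mem_bx card_bx anch_bx card_nbr_lat_le mem_nbr_lat
  hd_add m0 tch mem_tch Place Bd mapL wgt_mapL)

/-- All the edges of the list are tight. -/
def tgt (S : List (((ℤ × ℤ) × (ℤ × ℤ)) × ℝ)) : Set (ℤ × ℤ → ℝ) :=
  {h | ∀ p ∈ S, 1 - p.2 ≤ |h p.1.1 - h p.1.2|}

theorem tgt_cons (q : ((ℤ × ℤ) × (ℤ × ℤ)) × ℝ) (S : List (((ℤ × ℤ) × (ℤ × ℤ)) × ℝ)) :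
    tgt (q :: S) = {h | 1 - q.2 ≤ |h q.1.1 - h q.1.2|} ∩ tgt S := by
  ext h
  simp only [tgt, mem_inter_iff, Set.mem_ofPred_eq, List.mem_cons, forall_eq_or_imp]

theorem measurableSet_tgt (S : List (((ℤ × ℤ) × (ℤ × ℤ)) × ℝ)) : MeasurableSet (tgt S) := by
  induction S with
  | nil => simp [tgt]
  | cons q S ih =>
    rw [tgt_cons]
    exact (measurableSet_le measurable_const
      ((measurable_pi_apply q.1.1).sub (measurable_pi_apply q.1.2)).abs).inter ih

/-- Translation of fresh lists. -/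
theorem FreshR.translate {V W : Finset (ℤ × ℤ)} {S : List (((ℤ × ℤ) × (ℤ × ℤ)) × ℝ)}
    (hS : FreshR V (Lc279.lat V) S) {x : ℤ × ℤ} (hx : ∀ a ∈ V, x + a ∈ W) :
    FreshR W (Lc279.lat W) (mapL (fun a => x + a) S) := by
  induction hS with
  | nil => exact FreshR.nil
  | @cons v u w S hS hv hu hw hf ih =>
    have hu' := mem_nbr_lat.mp hu
    refine FreshR.cons ih (hx v hv) ?_ hw ?_
    · rw [mem_nbr_lat]
      exact ⟨by rw [hd_add]; exact hu'.1, Or.inl (hx v hv)⟩
    · intro q hq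
      obtain ⟨q', hq', rfl⟩ := List.mem_map.mp hq
      have h2 := hf q' hq'
      exact ⟨fun h5 => h2.1 (add_left_cancel h5), fun h5 => h2.2 (add_left_cancel h5)⟩

theorem wgt_ne_top {U : Type*} (n : ℕ) (S : List ((U × U) × ℝ)) : wgt n S ≠ ⊤ := by
  induction S with
  | nil => exact ENNReal.one_ne_top
  | cons q S ih => exact ENNReal.mul_ne_top ENNReal.ofReal_ne_top ih

/-- The zero-data bound. -/
theorem bxP_tight {L : ℕ} {S : List (((ℤ × ℤ) × (ℤ × ℤ)) × ℝ)}
    (hS : FreshR (bx L) (Lc279.lat (bx L)) S) : bxP L {y | fh L y ∈ tgt S} ≤ wgt 6 S := by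
  have hv0 : volume (ham (bx L) (Lc279.lat (bx L)) 0) ≠ 0 := (volume_ham_pos fun u => by simp).ne'
  have hvt : volume (ham (bx L) (Lc279.lat (bx L)) 0) ≠ ⊤ := (volume_ham_lt_top (anch_bx L)).ne
  have hm : MeasurableSet {y | fh L y ∈ tgt S} := (measurable_fh L) (measurableSet_tgt S)
  rw [bxP, Lc279.hamP_apply hm]
  have h1 := vol_tightR_le (ξ := 0) hS fun v _ => card_nbr_lat_le (bx L) v
  calc _ ≤ (volume (ham (bx L) (Lc279.lat (bx L)) 0))⁻¹ *
        (wgt 6 S * volume (ham (bx L) (Lc279.lat (bx L)) 0)) := mul_le_mul' le_rfl h1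
    _ = wgt 6 S := by rw [mul_comm, mul_assoc, ENNReal.mul_inv_cancel hv0 hvt, mul_one]

/-- **Tight edges under the plane state.** -/
theorem mu0_tight {V : Finset (ℤ × ℤ)} {S : List (((ℤ × ℤ) × (ℤ × ℤ)) × ℝ)}
    (hS : FreshR V (Lc279.lat V) S) : mu0 (tgt S) ≤ wgt 6 S := by
  classical
  obtain ⟨r0, hr0⟩ := exists_hball (V ∪ (Lc279.lat V).image Prod.snd ∪ (Lc279.lat V).image Prod.fst)
  have hSV : ∀ q ∈ S, q.1.1 ∈ hball r0 ∧ q.1.2 ∈ hball r0 := by
    intro q hq
    have h1 := Lc279.FreshR.mem hS q hq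
    have h2 := (mem_nbr.mp h1.2).2
    refine ⟨hr0 _ ?_, hr0 _ ?_⟩
    · rw [Finset.mem_union, Finset.mem_union]; exact Or.inl (Or.inl h1.1)
    · rw [Finset.mem_union, Finset.mem_union]
      rcases h2 with h2 | h2
      · exact Or.inl (Or.inr (Finset.mem_image_of_mem Prod.snd h2))
      · exact Or.inr (Finset.mem_image_of_mem Prod.fst h2)
  have hobs := LObs_indicator (r := r0) (measurableSet_tgt S) (by
    intro g g' hg
    constructor
    · intro h q hq
      rw [← hg _ (hSV q hq).1, ← hg _ (hSV q hq).2]; exact h q hq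
    · intro h q hq
      rw [hg _ (hSV q hq).1, hg _ (hSV q hq).2]; exact h q hq)
  set f : (ℤ × ℤ → ℝ) → ℝ := fun h => (tgt S).indicator 1 fun a => h a - h 0 with hf
  have h1 : mu0.real (tgt S) = m0 f := by
    rw [← measure_eq_integral_ind isMu0.pin (measurableSet_tgt S), isMu0.eq r0 f hobs]
  have hw : wgt 6 S ≠ ⊤ := wgt_ne_top 6 S
  have h2 : m0 f ≤ (wgt 6 S).toReal := by
    have h3 : Tendsto (fun L : ℕ => (wgt 6 S).toReal + 2 * (1 - ((core' L).card : ℝ) / (bx L).card))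
        atTop (𝓝 (wgt 6 S).toReal) := by
      have := ((core_ratio.const_sub 1).const_mul 2).const_add (wgt 6 S).toReal
      simpa using this
    refine le_of_tendsto_of_tendsto (bav_tendsto r0 f hobs) h3 ?_
    filter_upwards [tendsto_mg.eventually_ge_atTop r0, eventually_gt_atTop 0] with L hL hL0
    set g : ℤ × ℤ → ℝ := fun y => Ev (bx L) (Lc279.lat (bx L)) 0 fun z => f fun a => z (y + a)
      with hg
    have b1 : ∀ y, |g y| ≤ 1 := fun y => abs_Ev_le fun h => hobs.bd _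
    have e1 : bav L f = ((bx L).card : ℝ)⁻¹ * ∑ y ∈ bx L, g y := rfl
    have k1 := (abs_le.mp (avg_sub_le (core'_subset L) (core'_nonempty hL0) b1)).1
    rw [← e1] at k1
    have k2 : ((core' L).card : ℝ)⁻¹ * ∑ y ∈ core' L, g y ≤ (wgt 6 S).toReal := by
      have hpos : (0 : ℝ) < (core' L).card := by exact_mod_cast (core'_nonempty hL0).card_pos
      rw [inv_mul_le_iff₀ hpos, ← nsmul_eq_mul]
      refine Finset.sum_le_card_nsmul _ _ _ fun y hy => ?_
      rw [mem_core'] at hy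
      have hyV : ∀ a ∈ V, y + a ∈ bx L := by
        intro a ha
        have h4 := mem_hball.mp (hr0 a (by
          rw [Finset.mem_union, Finset.mem_union]; exact Or.inl (Or.inl ha)))
        have h5 := hd_le_iff.mp h4
        simp only [Prod.fst_zero, Prod.snd_zero, sub_zero] at h5
        rw [mem_bx]
        simp only [Prod.fst_add, Prod.snd_add]
        omega
      have hS' := FreshR.translate hS hyV
      have h6 := bxP_tight hS'
      rw [wgt_mapL] at h6
      have h7 : g y = (bxP L).real {x | fh L x ∈ tgt (mapL (fun a => y + a) S)} := by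
        have hm : MeasurableSet {x | fh L x ∈ tgt (mapL (fun a => y + a) S)} :=
          (measurable_fh L) (measurableSet_tgt _)
        rw [← integral_indicator_one hm]
        refine integral_congr_ae (ae_of_all _ fun x => ?_)
        show (tgt S).indicator 1 (fun a => fh L x (y + a) - fh L x (y + 0)) = _
        have : (fun a => fh L x (y + a) - fh L x (y + 0)) ∈ tgt S ↔
            fh L x ∈ tgt (mapL (fun a => y + a) S) := by
          constructor
          · intro h q hq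
            obtain ⟨q', hq', rfl⟩ := List.mem_map.mp hq
            have := h q' hq'
            simpa using this
          · intro h q hq
            have := h _ (List.mem_map.mpr ⟨q, hq, rfl⟩)
            simpa using this
        by_cases hx : fh L x ∈ tgt (mapL (fun a => y + a) S)
        · rw [indicator_of_mem (this.mpr hx), indicator_of_mem
            (show x ∈ {x | fh L x ∈ tgt (mapL (fun a => y + a) S)} from hx)]
          rfl
        · rw [indicator_of_notMem (fun h => hx (this.mp h)), indicator_of_notMem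
            (show x ∉ {x | fh L x ∈ tgt (mapL (fun a => y + a) S)} from hx)]
      rw [h7]
      exact ENNReal.toReal_mono hw h6
    linarith
  rw [← h1] at h2
  exact (ENNReal.toReal_le_toReal (measure_ne_top _ _) hw).mp h2

/-! ### Paths -/

variable {V : Finset (ℤ × ℤ)} {E : Finset ((ℤ × ℤ) × (ℤ × ℤ))} {ρ ε Λ κ : ℝ} {φ : ℤ × ℤ → ℝ}
  {m : ℕ} {u : ℤ × ℤ}

/-- Some path with `m` edges from `u` costs at most `φ u`. -/
def bdP (V : Finset (ℤ × ℤ)) (E : Finset ((ℤ × ℤ) × (ℤ × ℤ))) (ρ ε Λ : ℝ) (φ : ℤ × ℤ → ℝ) (m : ℕ)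
    (u : ℤ × ℤ) : Set (ℤ × ℤ → ℝ) :=
  ⋃ l ∈ (pt V E u).filter (fun l => l.length = m + 1), {h | cost φ (cz ρ ε Λ h) l ≤ φ u}




theorem wgt_map_c {U : Type*} (n : ℕ) (w : ℝ) (S : List (U × U)) :
    wgt n (S.map fun q => (q, w)) = ENNReal.ofReal (64 * (n : ℝ) ^ 2 * w) ^ S.length := by
  unfold wgt
  rw [List.map_map]
  have : (fun q : (U × U) × ℝ => ENNReal.ofReal (64 * (n : ℝ) ^ 2 * q.2)) ∘ (fun q : U × U => (q, w)) =
      fun _ => ENNReal.ofReal (64 * (n : ℝ) ^ 2 * w) := rfl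
  rw [this, List.map_const', List.prod_replicate]

/-- The ratio of the path tails. -/
def dpar (ρ ε : ℝ) : ℝ := Real.sqrt (64 * 6 ^ 2 * (ρ + ε))


/-- Upper bound of the number of sites of the optimal paths from `u`. -/
def PLn (V : Finset (ℤ × ℤ)) (ρ ε Λ : ℝ) (φ : ℤ × ℤ → ℝ) (u : ℤ × ℤ) (h : ℤ × ℤ → ℝ) : ℝ≥0∞ :=
  ∑' m : ℕ, ((m + 1 : ℕ) : ℝ≥0∞) * (bdP V (Lc279.lat V) ρ ε Λ φ m u).indicator 1 h


/-- The mean path length. -/
def KL (ρ ε : ℝ) : ℝ≥0∞ := ∑' m : ℕ, ((m + 1 : ℕ) : ℝ≥0∞) * ENNReal.ofReal (12 * dpar ρ ε) ^ m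







end Crest.Agent.R144.Lw425
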