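import Crest.Agent.R144.Uid3_674
import Crest.Agent.R144.Bl1_565
import Crest.Agent.R144.Cnt2_268

/-!
# R144 (S0197), block UID (helper674), part 4: final forms

* `prm_ps` : 565's shapes with `rho + eps ≤ e0`, `4 ≤ Lam` are admissible;
* `off_of_compact`, `sub_of_compact` : sites over a compact subset of `D`;
* `uid1`, `uid1'`, `uid2`, `uid3` : (U1), (U2), (U3);
* `mc_mono_edges` : monotonicity in the window and the edges;
* `tail_tb`, `moment_tb`, `tight_zero`, `moment_zero` : any graph with joint density bounds, zero data.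
-/

set_option autoImplicit false

open MeasureTheory Set Filter Topology
open scoped ENNReal NNReal

noncomputable section

namespace Crest.Agent.R144.Uid674

open Crest.Agent.R144.Skel144
open Crest.Agent.R144.Ham560 (ext ham nbr mem_nbr Fresh tight hamP measurableSet_ham Anch)
open Crest.Agent.R144.Tri560
open Crest.Agent.R144.Zb560
open Crest.Agent.R144.LoB95 (mc exists_mc length_le_mc measurable_mc)
open Crest.Agent.R144.Kor620 (P2 nrm FullE)
open Crest.Agent.R144.Uig714 (Off delta_small latE_inst)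
open Crest.Agent.R144.Bl565 (Par ps)
open Crest.ProbabilityR.TriHeights Crest.ProbabilityR.HexHeights

/-! ### Parameters -/

/-- small parameters of 565's shapes -/
structure SmallU (P : Par) : Prop where
  tiny : P.rho + P.eps ≤ e0
  big : 4 ≤ P.Lam


theorem ps_lip (k : Fin 3) (a b : P2) (h : Adj a b) : |ps k a - ps k b| ≤ 1 := by
  have h1 := KorE761.adj_cases h
  obtain ⟨a1, a2⟩ := a
  obtain ⟨b1, b2⟩ := b
  simp only at h1
  have key : ∀ x : ℤ, x.natAbs ≤ 1 → |(x : ℝ)| ≤ 1 := by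
    intro x hx
    have : |x| ≤ 1 := by rw [abs_le]; omega
    exact_mod_cast this
  have e : ps k (a1, a2) - ps k (b1, b2) =
      ((![a1 - b1, a2 - b2, -(a1 - b1 + (a2 - b2))] k : ℤ) : ℝ) := by
    fin_cases k
    · simp [ps]
    · simp [ps]
    · simp [ps]; ring
  rw [e]
  refine key _ ?_
  fin_cases k
  · simp; omega
  · simp; omega
  · simp; omega

theorem prm_ps {P : Par} (h : SmallU P) (c0 : ℝ) : Prm P.rho P.eps P.Lam c0 1 ps where
  hρ := P.rho_pos.le
  hε := P.eps_pos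
  small := h.tiny
  hΛ := by have := h.big; linarith
  hL := by have := h.big; linarith
  hφ := ps_lip

/-! ### Sites over a compact set -/

variable (I : Inst)

theorem mark_notMem (s : ℝ) : I.γ s ∉ I.D := by
  intro h
  have h1 : I.γ s ∈ frontier I.D := by
    rw [← I.hD.2.2.2.2.2.2.2.1]; exact mem_range_self s
  rw [I.hD.1.frontier_eq] at h1
  exact h1.2 h

theorem off_of_compact {K : Set ℂ} (hK : IsCompact K) (hKD : K ⊆ I.D) :
    ∃ ε₁ : ℝ, 0 < ε₁ ∧ ∀ n u, centre (I.δ n) u ∈ K → Off I ε₁ n u := by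
  have key : ∀ p : ℂ, p ∉ I.D → ∃ ε : ℝ, 0 < ε ∧ ∀ z ∈ K, ε ≤ dist z p := by
    intro p hp
    have hp' : p ∉ K := fun h => hp (hKD h)
    rcases K.eq_empty_or_nonempty with rfl | hne
    · exact ⟨1, one_pos, by simp⟩
    · have h1 : 0 < Metric.infDist p K :=
        (hK.isClosed.notMem_iff_infDist_pos hne).mp hp'
      refine ⟨_, h1, fun z hz => ?_⟩
      rw [dist_comm]
      exact Metric.infDist_le_dist_of_mem hz
  obtain ⟨ε, hε, h1⟩ := key _ (mark_notMem I 0)
  obtain ⟨ε', hε', h2⟩ := key _ (mark_notMem I I.θ)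
  exact ⟨min ε ε', lt_min hε hε', fun n u hu =>
    ⟨(min_le_left _ _).trans (h1 _ hu), (min_le_right _ _).trans (h2 _ hu)⟩⟩

theorem sub_of_compact {K : Set ℂ} (hK : IsCompact K) (hKD : K ⊆ I.D) :
    ∀ᶠ n in atTop, ∀ u, centre (I.δ n) u ∈ K → u ∈ I.Fr n :=
  (Cnt268.sites_tri I.hD I.hM).inn K hK hKD

/-! ### (U1), (U2), (U3) -/

variable {κ : Type*} [Fintype κ] {ρ ε Λ c0 L : ℝ} {φs : κ → P2 → ℝ}

/-- **(U1)**, every power -/
theorem uid1 (H : Prm ρ ε Λ c0 L φs) {ε₁ : ℝ} (hε₁ : 0 < ε₁) (p : ℕ) :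
    ∃ C : ℝ, 0 < C ∧ ∀ᶠ n in atTop, ∀ S : Finset P2, S ⊆ I.Fr n → (∀ v ∈ S, Off I ε₁ n v) →
      I.δ n ^ 2 * ∑ w ∈ S, ∫ x, (MC I n S ρ ε Λ c0 φs w x : ℝ) ^ (p + 1) ∂(I.P0 n) ≤ C := by
  obtain ⟨C, hC, h⟩ := uid_moment I H hε₁ (p + 1)
  refine ⟨C, hC, ?_⟩
  filter_upwards [h 0] with n hn S hS hoff
  have h1 := hn S hS hoff
  rw [pow_zero, mul_one] at h1
  refine le_trans (le_of_eq ?_) h1
  congr 1
  refine Finset.sum_congr rfl fun w _ => integral_congr_ae (Eventually.of_forall fun x => ?_)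
  simp only
  split_ifs with h2
  · rfl
  · have : MC I n S ρ ε Λ c0 φs w x = 0 := by omega
    rw [this]; simp



/-! ### Monotonicity -/

theorem mc_mono_edges {U : Type*} [DecidableEq U] {S S' : Finset U} {E E' : Finset (U × U)}
    (hS : S ⊆ S') (hE : ∀ a ∈ S, ∀ b ∈ S, b ∈ nbr E a → b ∈ nbr E' a) (φs : κ → U → ℝ)
    (h : U → ℝ) (w : U) : mc S E ρ ε Λ c0 φs h w ≤ mc S' E' ρ ε Λ c0 φs h w := by
  classical
  refine Finset.sup_le fun l hl => ?_
  obtain ⟨h1, i, h2⟩ := Finset.mem_filter.mp hl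
  refine length_le_mc (i := i) ?_ h2
  rcases mem_pt.mp h1 with rfl | ⟨h3, h4, h5, h6⟩
  · exact single_mem_pt w
  · refine mem_pt.mpr (Or.inr ⟨h3, fun a ha => hS (h4 a ha), h5, ?_⟩)
    clear hl h1 h2 h3 h5
    induction l with
    | nil => simp
    | cons a s ih =>
      match s with
      | [] => simp
      | b :: t =>
        rw [List.isChain_cons_cons] at h6 ⊢
        exact ⟨hE a (h4 a (by simp)) b (h4 b (by simp)) h6.1,
          ih (fun c hc => h4 c (List.mem_cons_of_mem _ hc)) h6.2⟩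

/-! ### Laws with joint density bounds -/

section TB

variable {U : Type*} [DecidableEq U] {F S : Finset U} {E : Finset (U × U)} {ξ : U → ℝ}
  {ψs : κ → U → ℝ} {w : U} {μ : Measure (F → ℝ)}








end TB

end Crest.Agent.R144.Uid674
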