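import Mathlib
import Crest.Agent.R144.MW1_121
import Crest.Prelude.Def_TriHeights
import Crest.Agent.R144.Tilt4_714
import Crest.Agent.R144.Skel98_144
import Crest.Agent.R144.Skel100_144
import Crest.Agent.R144.Lmu8_425
import Crest.Agent.R144.Bl3_565
import Crest.Agent.R144.Uid4_674
import Crest.Agent.R144.Bl6_565

-- ▼ part R144/Stein1_540
section

/-!
# R144 (S0197), block STEIN (helper540), part 1: one polytope

`K ⊆ V → ℝ` bounded measurable with positive volume, `μ = unif K` its uniform probability law,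
`X h = l h + b` an affine observable, `Y` a tangent field (`MW121.Tan`) with
`∫ tr (jac Y * jac Y) dμ ≤ q + ε`, `∫ |l (Y h) - q| dμ ≤ ε` and `∫ (X - m)^2 dμ ≤ q + ε`
(`m` any number). Then for all real `t`
`|∫ cos (t (X - m)) dμ - exp (-q t^2/2)| ≤ |t| (2 √ε + |t| ε)` and
`|∫ sin (t (X - m)) dμ| ≤ |t| (2 √ε + |t| ε)`.

The proof is Stein's method: by Reilly's inequality and integration by parts
`∫ (tr jac Y + X - m)^2 dμ ≤ 4 ε`.
-/

set_option autoImplicit false

namespace Crest.Agent.R144.Stein540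

open MeasureTheory Crest.Agent.R144.MW121 Filter
open scoped NNReal ENNReal Topology

section general

variable {Ω : Type*} [MeasurableSpace Ω] {μ : Measure Ω} [IsProbabilityMeasure μ]

lemma integral_abs_le_sqrt {Z : Ω → ℝ} {v : ℝ} (hZ : Integrable (fun x => Z x ^ 2) μ)
    (hZ1 : Integrable Z μ) (hv : ∫ x, Z x ^ 2 ∂μ ≤ v) : ∫ x, |Z x| ∂μ ≤ Real.sqrt v := by
  set M := ∫ x, |Z x| ∂μ with hM
  have hM0 : 0 ≤ M := integral_nonneg fun x => abs_nonneg _
  have h0 : 0 ≤ ∫ x, (|Z x| - M) ^ 2 ∂μ := integral_nonneg fun x => sq_nonneg _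
  have e : ∀ x, (|Z x| - M) ^ 2 = Z x ^ 2 - (2 * M) * |Z x| + M ^ 2 := fun x => by
    have : |Z x| ^ 2 = Z x ^ 2 := sq_abs _
    nlinarith
  simp only [e] at h0
  have hi1 : Integrable (fun x => 2 * M * |Z x|) μ := hZ1.abs.const_mul _
  have hi2 : Integrable (fun x => Z x ^ 2 - 2 * M * |Z x|) μ := hZ.sub hi1
  have hc : ∫ _x : Ω, M ^ 2 ∂μ = M ^ 2 := by simp
  rw [integral_add hi2 (integrable_const _), integral_sub hZ hi1, integral_const_mul, ← hM,
    hc] at h0
  apply Real.le_sqrt_of_sq_le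
  nlinarith

lemma hasDerivAt_cos {W : Ω → ℝ} {M : ℝ} (hW : AEStronglyMeasurable W μ)
    (hM : ∀ᵐ x ∂μ, |W x| ≤ M) (t : ℝ) :
    HasDerivAt (fun t : ℝ => ∫ x, Real.cos (t * W x) ∂μ)
      (∫ x, -(Real.sin (t * W x) * W x) ∂μ) t := by
  have hm : ∀ s : ℝ, AEStronglyMeasurable (fun x => Real.cos (s * W x)) μ := fun s =>
    Real.continuous_cos.comp_aestronglyMeasurable (hW.const_mul s)
  have hm' : ∀ s : ℝ, AEStronglyMeasurable (fun x => Real.sin (s * W x)) μ := fun s =>
    Real.continuous_sin.comp_aestronglyMeasurable (hW.const_mul s)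
  refine (hasDerivAt_integral_of_dominated_loc_of_deriv_le (μ := μ) (bound := fun _ => M)
    (s := Metric.ball t 1) (F := fun t x => Real.cos (t * W x))
    (F' := fun t x => -(Real.sin (t * W x) * W x)) (Metric.ball_mem_nhds t one_pos)
    (Eventually.of_forall hm) ?_ ?_ ?_ (integrable_const _) ?_).2
  · exact Integrable.of_bound (hm t) 1 (Eventually.of_forall fun x => by
      rw [Real.norm_eq_abs]; exact Real.abs_cos_le_one _)
  · exact ((hm' t).mul hW).neg
  · filter_upwards [hM] with x hx s _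
    rw [norm_neg, norm_mul, Real.norm_eq_abs, Real.norm_eq_abs]
    calc _ ≤ 1 * M := mul_le_mul (Real.abs_sin_le_one _) hx (abs_nonneg _) zero_le_one
      _ = M := one_mul _
  · filter_upwards with x s _
    have h1 : HasDerivAt (fun s : ℝ => s * W x) (W x) s := by
      simpa using (hasDerivAt_id s).mul_const (W x)
    have := h1.cos
    simpa using this

lemma hasDerivAt_sin {W : Ω → ℝ} {M : ℝ} (hW : AEStronglyMeasurable W μ)
    (hM : ∀ᵐ x ∂μ, |W x| ≤ M) (t : ℝ) :
    HasDerivAt (fun t : ℝ => ∫ x, Real.sin (t * W x) ∂μ)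
      (∫ x, Real.cos (t * W x) * W x ∂μ) t := by
  have hm : ∀ s : ℝ, AEStronglyMeasurable (fun x => Real.cos (s * W x)) μ := fun s =>
    Real.continuous_cos.comp_aestronglyMeasurable (hW.const_mul s)
  have hm' : ∀ s : ℝ, AEStronglyMeasurable (fun x => Real.sin (s * W x)) μ := fun s =>
    Real.continuous_sin.comp_aestronglyMeasurable (hW.const_mul s)
  refine (hasDerivAt_integral_of_dominated_loc_of_deriv_le (μ := μ) (bound := fun _ => M)
    (s := Metric.ball t 1) (F := fun t x => Real.sin (t * W x))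
    (F' := fun t x => Real.cos (t * W x) * W x) (Metric.ball_mem_nhds t one_pos)
    (Eventually.of_forall hm') ?_ ?_ ?_ (integrable_const _) ?_).2
  · exact Integrable.of_bound (hm' t) 1 (Eventually.of_forall fun x => by
      rw [Real.norm_eq_abs]; exact Real.abs_sin_le_one _)
  · exact (hm t).mul hW
  · filter_upwards [hM] with x hx s _
    rw [norm_mul, Real.norm_eq_abs, Real.norm_eq_abs]
    calc _ ≤ 1 * M := mul_le_mul (Real.abs_cos_le_one _) hx (abs_nonneg _) zero_le_one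
      _ = M := one_mul _
  · filter_upwards with x s _
    have h1 : HasDerivAt (fun s : ℝ => s * W x) (W x) s := by
      simpa using (hasDerivAt_id s).mul_const (W x)
    have := h1.sin
    simpa using this

/-- The Gaussian ODE with a bounded error. -/
lemma gauss_ode {F r : ℝ → ℝ} {q ρ t : ℝ} (hq : 0 ≤ q)
    (hF : ∀ s, HasDerivAt F (-(s * q) * F s + r s) s) (hr : ∀ s, |s| ≤ |t| → |r s| ≤ ρ) :
    |F t - F 0 * Real.exp (-(q * t ^ 2 / 2))| ≤ |t| * ρ := by
  set G : ℝ → ℝ := fun s => F s * Real.exp (q * s ^ 2 / 2) with hG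
  have hG' : ∀ s, HasDerivAt G (r s * Real.exp (q * s ^ 2 / 2)) s := by
    intro s
    have h1 : HasDerivAt (fun s : ℝ => q * s ^ 2 / 2) (q * s) s := by
      have h2 := ((hasDerivAt_pow 2 s).const_mul q).div_const 2
      refine h2.congr_deriv ?_
      simp; ring
    have h3 := (hF s).mul h1.exp
    refine h3.congr_deriv ?_
    ring
  have hmono : ∀ s, |s| ≤ |t| → Real.exp (q * s ^ 2 / 2) ≤ Real.exp (q * t ^ 2 / 2) := by
    intro s hs
    have : s ^ 2 ≤ t ^ 2 := sq_le_sq.mpr hs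
    apply Real.exp_le_exp.mpr
    nlinarith
  have hseg : ∀ s ∈ segment ℝ (0 : ℝ) t, |s| ≤ |t| := by
    intro s hs
    rw [segment_eq_uIcc, Set.mem_uIcc] at hs
    rcases hs with ⟨h1, h2⟩ | ⟨h1, h2⟩
    · rw [abs_of_nonneg h1, abs_of_nonneg (h1.trans h2)]; exact h2
    · rw [abs_of_nonpos h2, abs_of_nonpos (h1.trans h2)]; linarith
  have hkey := (convex_segment (0 : ℝ) t).norm_image_sub_le_of_norm_hasDerivWithin_le
    (f := G) (f' := fun s => r s * Real.exp (q * s ^ 2 / 2))
    (C := ρ * Real.exp (q * t ^ 2 / 2))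
    (fun s _ => (hG' s).hasDerivWithinAt) (fun s hs => by
      rw [norm_mul, Real.norm_eq_abs, Real.norm_eq_abs, abs_of_pos (Real.exp_pos _)]
      exact mul_le_mul (hr s (hseg s hs)) (hmono s (hseg s hs)) (Real.exp_pos _).le
        ((abs_nonneg _).trans (hr s (hseg s hs))))
    (left_mem_segment ℝ _ _) (right_mem_segment ℝ _ _)
  rw [Real.norm_eq_abs, Real.norm_eq_abs, sub_zero] at hkey
  have hexp : Real.exp (q * t ^ 2 / 2) * Real.exp (-(q * t ^ 2 / 2)) = 1 := by
    rw [← Real.exp_add]; simp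
  have e : F t - F 0 * Real.exp (-(q * t ^ 2 / 2)) =
      (G t - G 0) * Real.exp (-(q * t ^ 2 / 2)) := by
    simp only [hG]
    rw [sub_mul, mul_assoc, hexp]
    simp
  rw [e, abs_mul, abs_of_pos (Real.exp_pos _)]
  calc |G t - G 0| * Real.exp (-(q * t ^ 2 / 2))
      ≤ (ρ * Real.exp (q * t ^ 2 / 2) * |t|) * Real.exp (-(q * t ^ 2 / 2)) :=
        mul_le_mul_of_nonneg_right hkey (Real.exp_pos _).le
    _ = |t| * ρ * (Real.exp (q * t ^ 2 / 2) * Real.exp (-(q * t ^ 2 / 2))) := by ring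
    _ = |t| * ρ := by rw [hexp, mul_one]

end general

variable {V : Type*} [Fintype V] [DecidableEq V]

/-- the uniform probability law on `K` -/
noncomputable def unif (K : Set (V → ℝ)) : Measure (V → ℝ) :=
  (volume K)⁻¹ • volume.restrict K

section basic

variable {K : Set (V → ℝ)}

omit [DecidableEq V] in
lemma isProb_unif (h0 : volume K ≠ 0) (h1 : volume K ≠ ∞) : IsProbabilityMeasure (unif K) := by
  refine ⟨?_⟩
  rw [unif, Measure.smul_apply, Measure.restrict_apply_univ, smul_eq_mul]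
  exact ENNReal.inv_mul_cancel h0 h1

omit [DecidableEq V] in
lemma integral_unif (G : (V → ℝ) → ℝ) :
    ∫ x, G x ∂(unif K) = ((volume K).toReal)⁻¹ * ∫ x in K, G x := by
  rw [unif, integral_smul_measure, ENNReal.toReal_inv, smul_eq_mul]

omit [DecidableEq V] in
lemma ae_mem_unif (hK : MeasurableSet K) : ∀ᵐ x ∂(unif K), x ∈ K :=
  Measure.ae_smul_measure (ae_restrict_mem hK) _


end basic

section step

variable {K : Set (V → ℝ)} {Y : (V → ℝ) → (V → ℝ)} {c : ℝ≥0} {t0 : ℝ}

/-- integration by parts for the uniform probability law -/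
lemma ibp_unif (hT : Tan K Y c t0) (hK : MeasurableSet K) (hKb : Bornology.IsBounded K)
    {G : (V → ℝ) → ℝ} {L : ℝ≥0} (hG : LipschitzWith L G) :
    ∫ h, fderiv ℝ G h (Y h) ∂(unif K) = - ∫ h, G h * (jac Y h).trace ∂(unif K) := by
  rw [integral_unif, integral_unif, ibp hT hK hKb hG]; ring

lemma reilly_unif (hT : Tan K Y c t0) (hK : MeasurableSet K) (hKb : Bornology.IsBounded K) :
    ∫ h, (jac Y h).trace ^ 2 ∂(unif K) ≤ ∫ h, (jac Y h * jac Y h).trace ∂(unif K) := by
  rw [integral_unif, integral_unif]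
  exact mul_le_mul_of_nonneg_left (reilly hT hK hKb) (inv_nonneg.mpr ENNReal.toReal_nonneg)

/-- **Stein's method on one polytope.** -/
theorem stein (hT : Tan K Y c t0) (hK : MeasurableSet K) (hKb : Bornology.IsBounded K)
    (h0 : volume K ≠ 0) (l : (V → ℝ) →L[ℝ] ℝ) (b m q ε : ℝ) (hq : 0 ≤ q)
    (hE : ∫ h, (jac Y h * jac Y h).trace ∂(unif K) ≤ q + ε)
    (hl : ∫ h, |l (Y h) - q| ∂(unif K) ≤ ε)
    (hv : ∫ h, (l h + b - m) ^ 2 ∂(unif K) ≤ q + ε) (t : ℝ) :
    |∫ h, Real.cos (t * (l h + b - m)) ∂(unif K) - Real.exp (-(q * t ^ 2 / 2))|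
        ≤ |t| * (2 * Real.sqrt ε + |t| * ε) ∧
    |∫ h, Real.sin (t * (l h + b - m)) ∂(unif K)| ≤ |t| * (2 * Real.sqrt ε + |t| * ε) := by
  have hp : IsProbabilityMeasure (unif K) := isProb_unif h0 (volume_lt_top hKb).ne
  set μ := unif K with hμ
  set W : (V → ℝ) → ℝ := fun h => l h + b - m with hW
  have hε : 0 ≤ ε := (integral_nonneg fun h => abs_nonneg _).trans hl
  -- regularity of `W`
  have hWL : LipschitzWith ‖l‖₊ W := by
    refine LipschitzWith.of_dist_le_mul fun x y => ?_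
    have := l.lipschitz.dist_le_mul x y
    simpa [hW, Real.dist_eq] using this
  obtain ⟨M, hM0, hM⟩ := exists_lip_bound hKb hWL
  have hWm : Measurable W := hWL.continuous.measurable
  have hWb : ∀ᵐ h ∂μ, |W h| ≤ M := by
    filter_upwards [ae_mem_unif hK] with h hh
    simpa using hM h hh
  obtain ⟨B, hB0, hB⟩ := exists_lip_bound hKb hT.lip
  have hlm : Measurable fun h => l (Y h) := l.continuous.measurable.comp hT.lip.continuous.measurable
  have hlb : ∀ᵐ h ∂μ, |l (Y h)| ≤ ‖l‖ * B := by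
    filter_upwards [ae_mem_unif hK] with h hh
    calc |l (Y h)| = ‖l (Y h)‖ := (Real.norm_eq_abs _).symm
      _ ≤ ‖l‖ * ‖Y h‖ := l.le_opNorm _
      _ ≤ ‖l‖ * B := mul_le_mul_of_nonneg_left (hB h hh) (norm_nonneg _)
  have hil : Integrable (fun h => l (Y h)) μ :=
    Integrable.of_bound hlm.aestronglyMeasurable (‖l‖ * B) (by
      filter_upwards [hlb] with h hh; rwa [Real.norm_eq_abs])
  have htb : ∀ h, |(jac Y h).trace| ≤ Fintype.card V * c := fun h => abs_trace_le hT.lip h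
  have hit : Integrable (fun h => (jac Y h).trace) μ :=
    Integrable.of_bound (measurable_trace Y).aestronglyMeasurable (Fintype.card V * c)
      (Eventually.of_forall fun h => by rw [Real.norm_eq_abs]; exact htb h)
  have hiW : Integrable W μ :=
    Integrable.of_bound hWm.aestronglyMeasurable M (by
      filter_upwards [hWb] with h hh; rwa [Real.norm_eq_abs])
  -- products with bounded measurable functions
  have hprod : ∀ {f g : (V → ℝ) → ℝ}, Integrable f μ → Measurable g → (∃ C, ∀ᵐ h ∂μ, |g h| ≤ C) →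
      Integrable (fun h => f h * g h) μ := by
    intro f g hf hg ⟨C, hC⟩
    exact hf.mul_bdd (c := C) hg.aestronglyMeasurable (by
      filter_upwards [hC] with h hh; rwa [Real.norm_eq_abs])
  set Z : (V → ℝ) → ℝ := fun h => (jac Y h).trace + W h with hZ
  have hiZ : Integrable Z μ := hit.add hiW
  have hiZ2 : Integrable (fun h => Z h ^ 2) μ := by
    have h1 : Integrable (fun h => Z h * Z h) μ :=
      hprod hiZ ((measurable_trace Y).add hWm) ⟨Fintype.card V * c + M, by
        filter_upwards [hWb] with h hh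
        exact (abs_add_le _ _).trans (add_le_add (htb h) hh)⟩
    simpa [sq] using h1
  have hiWt : Integrable (fun h => W h * (jac Y h).trace) μ :=
    hprod hiW (measurable_trace Y) ⟨Fintype.card V * c, Eventually.of_forall htb⟩
  have hiW2 : Integrable (fun h => W h ^ 2) μ := by
    have h1 : Integrable (fun h => W h * W h) μ := hprod hiW hWm ⟨M, hWb⟩
    simpa [sq] using h1
  have hit2 : Integrable (fun h => (jac Y h).trace ^ 2) μ := by
    have h1 : Integrable (fun h => (jac Y h).trace * (jac Y h).trace) μ :=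
      hprod hit (measurable_trace Y) ⟨Fintype.card V * c, Eventually.of_forall htb⟩
    simpa [sq] using h1
  -- first moment of `l Y`
  have hlq : q - ε ≤ ∫ h, l (Y h) ∂μ := by
    have h1 : |∫ h, (l (Y h) - q) ∂μ| ≤ ε := (abs_integral_le_integral_abs).trans hl
    have hc : ∫ _h : V → ℝ, q ∂μ = q := by simp
    rw [integral_sub hil (integrable_const _), hc] at h1
    linarith [(abs_le.1 h1).1]
  have hfd : ∀ h, fderiv ℝ W h = l := fun h => by
    have : HasFDerivAt W l h := by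
      have h1 : HasFDerivAt (fun h => l h + (b - m)) l h := l.hasFDerivAt.add_const _
      simpa [hW, add_sub_assoc] using h1
    exact this.fderiv
  have hibpW : ∫ h, l (Y h) ∂μ = - ∫ h, W h * (jac Y h).trace ∂μ := by
    have := ibp_unif hT hK hKb hWL
    simpa only [hfd] using this
  have hZ4 : ∫ h, Z h ^ 2 ∂μ ≤ 4 * ε := by
    have e : ∀ h, Z h ^ 2 = (jac Y h).trace ^ 2 + 2 * (W h * (jac Y h).trace) + W h ^ 2 :=
      fun h => by simp only [hZ]; ring
    simp only [e]
    have hj1 : Integrable (fun h => 2 * (W h * (jac Y h).trace)) μ := hiWt.const_mul 2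
    have hj2 : Integrable (fun h => (jac Y h).trace ^ 2 + 2 * (W h * (jac Y h).trace)) μ :=
      hit2.add hj1
    rw [integral_add hj2 hiW2, integral_add hit2 hj1, integral_const_mul]
    have h1 := reilly_unif hT hK hKb
    rw [← hμ] at h1
    have h2 : ∫ h, W h ^ 2 ∂μ ≤ q + ε := hv
    linarith
  have hZ1 : ∫ h, |Z h| ∂μ ≤ 2 * Real.sqrt ε := by
    have h1 := integral_abs_le_sqrt hiZ2 hiZ hZ4
    have h2 : Real.sqrt (4 * ε) = 2 * Real.sqrt ε := by
      rw [Real.sqrt_mul (by norm_num), show (4 : ℝ) = 2 ^ 2 by norm_num,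
        Real.sqrt_sq (by norm_num)]
    rwa [h2] at h1
  -- the two trigonometric observables
  have hcosL : ∀ s : ℝ, LipschitzWith (‖s‖₊ * ‖l‖₊) (fun h => Real.cos (s * W h)) := by
    intro s
    refine LipschitzWith.of_dist_le_mul fun x y => ?_
    have h1 : dist (Real.cos (s * W x)) (Real.cos (s * W y)) ≤ dist (s * W x) (s * W y) := by
      have := Real.lipschitzWith_cos.dist_le_mul (s * W x) (s * W y)
      simpa using this
    have h2 : dist (s * W x) (s * W y) = |s| * dist (W x) (W y) := by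
      rw [Real.dist_eq, Real.dist_eq, ← mul_sub, abs_mul]
    rw [h2] at h1
    have h3 := mul_le_mul_of_nonneg_left (hWL.dist_le_mul x y) (abs_nonneg s)
    have h4 : ((‖s‖₊ * ‖l‖₊ : ℝ≥0) : ℝ) = |s| * ‖l‖ := by simp
    rw [h4]
    simp only [coe_nnnorm] at h3
    linarith
  have hsinL : ∀ s : ℝ, LipschitzWith (‖s‖₊ * ‖l‖₊) (fun h => Real.sin (s * W h)) := by
    intro s
    refine LipschitzWith.of_dist_le_mul fun x y => ?_
    have h1 : dist (Real.sin (s * W x)) (Real.sin (s * W y)) ≤ dist (s * W x) (s * W y) := by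
      have := Real.lipschitzWith_sin.dist_le_mul (s * W x) (s * W y)
      simpa using this
    have h2 : dist (s * W x) (s * W y) = |s| * dist (W x) (W y) := by
      rw [Real.dist_eq, Real.dist_eq, ← mul_sub, abs_mul]
    rw [h2] at h1
    have h3 := mul_le_mul_of_nonneg_left (hWL.dist_le_mul x y) (abs_nonneg s)
    have h4 : ((‖s‖₊ * ‖l‖₊ : ℝ≥0) : ℝ) = |s| * ‖l‖ := by simp
    rw [h4]
    simp only [coe_nnnorm] at h3
    linarith
  have hWd : ∀ h, HasFDerivAt W l h := fun h => by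
    have h1 : HasFDerivAt (fun h => l h + (b - m)) l h := l.hasFDerivAt.add_const _
    simpa [hW, add_sub_assoc] using h1
  have hfc : ∀ s h, fderiv ℝ (fun h => Real.cos (s * W h)) h (Y h) =
      -(s * (l (Y h) * Real.sin (s * W h))) := by
    intro s h
    have h1 : HasFDerivAt (fun h => s * W h) (s • l) h := (hWd h).const_mul s
    rw [h1.cos.fderiv]
    simp; ring
  have hfs : ∀ s h, fderiv ℝ (fun h => Real.sin (s * W h)) h (Y h) =
      s * (l (Y h) * Real.cos (s * W h)) := by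
    intro s h
    have h1 : HasFDerivAt (fun h => s * W h) (s • l) h := (hWd h).const_mul s
    rw [h1.sin.fderiv]
    simp; ring
  have hcm : ∀ s : ℝ, Measurable fun h => Real.cos (s * W h) := fun s =>
    Real.measurable_cos.comp (hWm.const_mul s)
  have hsm : ∀ s : ℝ, Measurable fun h => Real.sin (s * W h) := fun s =>
    Real.measurable_sin.comp (hWm.const_mul s)
  have hcb : ∀ s : ℝ, ∃ C, ∀ᵐ h ∂μ, |Real.cos (s * W h)| ≤ C := fun s =>
    ⟨1, Eventually.of_forall fun h => Real.abs_cos_le_one _⟩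
  have hsb : ∀ s : ℝ, ∃ C, ∀ᵐ h ∂μ, |Real.sin (s * W h)| ≤ C := fun s =>
    ⟨1, Eventually.of_forall fun h => Real.abs_sin_le_one _⟩
  have hibc : ∀ s : ℝ, ∫ h, (jac Y h).trace * Real.cos (s * W h) ∂μ =
      s * ∫ h, l (Y h) * Real.sin (s * W h) ∂μ := by
    intro s
    have h1 := ibp_unif hT hK hKb (hcosL s)
    simp only [hfc] at h1
    rw [integral_neg, integral_const_mul] at h1
    have h2 : ∫ h, Real.cos (s * W h) * (jac Y h).trace ∂(unif K) =
        ∫ h, (jac Y h).trace * Real.cos (s * W h) ∂μ :=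
      integral_congr_ae (Eventually.of_forall fun h => mul_comm _ _)
    rw [h2] at h1
    linarith
  have hibs : ∀ s : ℝ, ∫ h, (jac Y h).trace * Real.sin (s * W h) ∂μ =
      -(s * ∫ h, l (Y h) * Real.cos (s * W h) ∂μ) := by
    intro s
    have h1 := ibp_unif hT hK hKb (hsinL s)
    simp only [hfs] at h1
    rw [integral_const_mul] at h1
    have h2 : ∫ h, Real.sin (s * W h) * (jac Y h).trace ∂(unif K) =
        ∫ h, (jac Y h).trace * Real.sin (s * W h) ∂μ :=
      integral_congr_ae (Eventually.of_forall fun h => mul_comm _ _)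
    rw [h2] at h1
    linarith
  -- bounds of the error terms
  have hb1 : ∀ {g : (V → ℝ) → ℝ}, Measurable g → (∀ h, |g h| ≤ 1) →
      |∫ h, Z h * g h ∂μ| ≤ 2 * Real.sqrt ε := by
    intro g hg hg1
    refine (abs_integral_le_integral_abs).trans (le_trans ?_ hZ1)
    refine integral_mono (hprod hiZ hg ⟨1, Eventually.of_forall hg1⟩).abs hiZ.abs fun h => ?_
    show |Z h * g h| ≤ |Z h|
    rw [abs_mul]
    exact mul_le_of_le_one_right (abs_nonneg _) (hg1 h)
  have hb2 : ∀ {g : (V → ℝ) → ℝ}, Measurable g → (∀ h, |g h| ≤ 1) →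
      |∫ h, l (Y h) * g h ∂μ - q * ∫ h, g h ∂μ| ≤ ε := by
    intro g hg hg1
    have hig : Integrable g μ := Integrable.of_bound hg.aestronglyMeasurable 1
      (Eventually.of_forall fun h => by rw [Real.norm_eq_abs]; exact hg1 h)
    have hi1 : Integrable (fun h => l (Y h) * g h) μ :=
      hprod hil hg ⟨1, Eventually.of_forall hg1⟩
    have e : ∫ h, l (Y h) * g h ∂μ - q * ∫ h, g h ∂μ = ∫ h, (l (Y h) - q) * g h ∂μ := by
      rw [← integral_const_mul, ← integral_sub hi1 (hig.const_mul q)]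
      refine integral_congr_ae (Eventually.of_forall fun h => ?_)
      show l (Y h) * g h - q * g h = (l (Y h) - q) * g h
      ring
    rw [e]
    refine (abs_integral_le_integral_abs).trans (le_trans ?_ hl)
    have hiq : Integrable (fun h => l (Y h) - q) μ := hil.sub (integrable_const _)
    refine integral_mono (hprod hiq hg ⟨1, Eventually.of_forall hg1⟩).abs hiq.abs fun h => ?_
    show |(l (Y h) - q) * g h| ≤ |l (Y h) - q|
    rw [abs_mul]
    exact mul_le_of_le_one_right (abs_nonneg _) (hg1 h)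
  -- the ODEs
  have hC : ∀ s : ℝ, HasDerivAt (fun s : ℝ => ∫ h, Real.cos (s * W h) ∂μ)
      (-(s * q) * (∫ h, Real.cos (s * W h) ∂μ) +
        (-(s * (∫ h, l (Y h) * Real.cos (s * W h) ∂μ - q * ∫ h, Real.cos (s * W h) ∂μ)) -
          ∫ h, Z h * Real.sin (s * W h) ∂μ)) s := by
    intro s
    refine (hasDerivAt_cos hWm.aestronglyMeasurable hWb s).congr_deriv ?_
    rw [integral_neg]
    have e : ∫ h, Real.sin (s * W h) * W h ∂μ =
        ∫ h, Z h * Real.sin (s * W h) ∂μ - ∫ h, (jac Y h).trace * Real.sin (s * W h) ∂μ := by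
      rw [← integral_sub (hprod hiZ (hsm s) (hsb s)) (hprod hit (hsm s) (hsb s))]
      refine integral_congr_ae (Eventually.of_forall fun h => ?_)
      simp only [hZ]; ring
    rw [e, hibs]
    ring
  have hS : ∀ s : ℝ, HasDerivAt (fun s : ℝ => ∫ h, Real.sin (s * W h) ∂μ)
      (-(s * q) * (∫ h, Real.sin (s * W h) ∂μ) +
        (-(s * (∫ h, l (Y h) * Real.sin (s * W h) ∂μ - q * ∫ h, Real.sin (s * W h) ∂μ)) +
          ∫ h, Z h * Real.cos (s * W h) ∂μ)) s := by
    intro s
    refine (hasDerivAt_sin hWm.aestronglyMeasurable hWb s).congr_deriv ?_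
    have e : ∫ h, Real.cos (s * W h) * W h ∂μ =
        ∫ h, Z h * Real.cos (s * W h) ∂μ - ∫ h, (jac Y h).trace * Real.cos (s * W h) ∂μ := by
      rw [← integral_sub (hprod hiZ (hcm s) (hcb s)) (hprod hit (hcm s) (hcb s))]
      refine integral_congr_ae (Eventually.of_forall fun h => ?_)
      simp only [hZ]; ring
    rw [e, hibc]
    ring
  constructor
  · have h1 := gauss_ode (t := t) (ρ := 2 * Real.sqrt ε + |t| * ε) hq hC (fun s hs => by
      have h2 := hb1 (hsm s) (fun h => Real.abs_sin_le_one _)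
      have h3 := hb2 (hcm s) (fun h => Real.abs_cos_le_one _)
      refine (abs_sub _ _).trans ?_
      rw [abs_neg, abs_mul]
      have h4 : |s| * |∫ h, l (Y h) * Real.cos (s * W h) ∂μ - q * ∫ h, Real.cos (s * W h) ∂μ| ≤
          |t| * ε := mul_le_mul hs h3 (abs_nonneg _) (abs_nonneg _)
      linarith)
    have h5 : ∫ h, Real.cos (0 * W h) ∂μ = 1 := by simp
    rw [h5, one_mul] at h1
    exact h1
  · have h1 := gauss_ode (t := t) (ρ := 2 * Real.sqrt ε + |t| * ε) hq hS (fun s hs => by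
      have h2 := hb1 (hcm s) (fun h => Real.abs_cos_le_one _)
      have h3 := hb2 (hsm s) (fun h => Real.abs_sin_le_one _)
      refine (abs_add_le _ _).trans ?_
      rw [abs_neg, abs_mul]
      have h4 : |s| * |∫ h, l (Y h) * Real.sin (s * W h) ∂μ - q * ∫ h, Real.sin (s * W h) ∂μ| ≤
          |t| * ε := mul_le_mul hs h3 (abs_nonneg _) (abs_nonneg _)
      linarith)
    have h5 : ∫ h, Real.sin (0 * W h) ∂μ = 0 := by simp
    rw [h5, zero_mul, sub_zero] at h1
    exact h1

end step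

end Crest.Agent.R144.Stein540
end

-- ▼ part R144/Stein2_540
section

/-!
# R144 (S0197), block STEIN (helper540), part 2: literal S0197 from untilted inputs

`SteinAsymp κ`: for every admissible instance the arcs are disjoint, every free vertex is joined to
a non-free one (eventually), the variance of the affine pairing under the UNTILTED uniform law is
eventually `≤ κ * domainGreenForm φ f + ε`, and eventually there is a tangent field `Y`
(`MW121.Tan`) with `∫ tr (jac Y * jac Y) ≤ κ * domainGreenForm φ f + ε` and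
`∫ |D pairX (Y) - κ * domainGreenForm φ f| ≤ ε`.

`s0197_of_stein`: `SteinAsymp κ` with `0 < κ ≤ 2/π` implies the literal statement S0197.
-/

set_option autoImplicit false

namespace Crest.Agent.R144.Stein540

open Filter Topology Metric MeasureTheory ProbabilityTheory
open Crest.ProbabilityR.TriHeights Crest.Agent.R144.Ham560 Crest.Agent.R144.MW121
  Crest.Agent.R144.Tilt714
open scoped NNReal ENNReal Real ContDiff

section affine

variable {V : Type*} [Fintype V]

/-- an affine function is a continuous linear form plus a constant -/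
lemma exists_linear {X : (V → ℝ) → ℝ}
    (hX : ∀ (x y : V → ℝ) (t : ℝ), X ((1 - t) • x + t • y) = (1 - t) * X x + t * X y) :
    ∃ (l : (V → ℝ) →L[ℝ] ℝ) (b : ℝ), ∀ x, X x = l x + b := by
  have hs : ∀ (r : ℝ) (x : V → ℝ), X (r • x) - X 0 = r * (X x - X 0) := by
    intro r x
    have := hX 0 x r
    rw [smul_zero, zero_add] at this
    rw [this]; ring
  have ha : ∀ x y : V → ℝ, X (x + y) - X 0 = (X x - X 0) + (X y - X 0) := by
    intro x y
    have h1 := hX x y (1 / 2)
    have h2 := hs 2 ((1 - (1 / 2 : ℝ)) • x + (1 / 2 : ℝ) • y)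
    have e : (2 : ℝ) • ((1 - (1 / 2 : ℝ)) • x + (1 / 2 : ℝ) • y) = x + y := by
      rw [smul_add, smul_smul, smul_smul]; norm_num
    rw [e, h1] at h2
    rw [h2]; ring
  let l0 : (V → ℝ) →ₗ[ℝ] ℝ :=
    { toFun := fun x => X x - X 0
      map_add' := ha
      map_smul' := fun r x => by simpa using hs r x }
  refine ⟨LinearMap.toContinuousLinearMap l0, X 0, fun x => ?_⟩
  show X x = (X x - X 0) + X 0
  ring

lemma fderiv_affine {X : (V → ℝ) → ℝ} {l : (V → ℝ) →L[ℝ] ℝ} {b : ℝ}
    (hX : ∀ x, X x = l x + b) (h : V → ℝ) : fderiv ℝ X h = l := by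
  have e : X = fun x => l x + b := funext hX
  rw [e]
  exact (l.hasFDerivAt.add_const b).fderiv

end affine

/-- **The untilted end**: variance upper bound and Stein fields imply the central limit theorem in
the literal form. -/
theorem law_of_stein {σ a q : ℝ} (hσ : 0 < σ) (ha0 : 0 < a) (ha1 : a ≤ 1 / 2)
    {δ : ℕ → ℝ} {T : ℕ → Finset Tri} {Ap Am : ℕ → Set (ℤ × ℤ)} {f : ℂ → ℝ}
    (hd : ∀ᶠ n in atTop, ∀ v, v ∈ Ap n → v ∉ Am n)
    (hA : ∀ᶠ n in atTop, Anch (freeVerts (T n) (Ap n) (Am n)) (triE (T n)))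
    (hup : ∀ ε : ℝ, 0 < ε → ∀ᶠ n in atTop,
      Var[pairX (δ n) (T n) (Ap n) (Am n) a f;
        hamP (freeVerts (T n) (Ap n) (Am n)) (triE (T n)) (triXi (Ap n) (Am n) a)] ≤
          σ ^ 2 * q + ε)
    (hY : ∀ ε : ℝ, 0 < ε → ∀ᶠ n in atTop,
      ∃ (Y : (freeVerts (T n) (Ap n) (Am n) → ℝ) → (freeVerts (T n) (Ap n) (Am n) → ℝ))
        (c : ℝ≥0) (t0 : ℝ),
        Tan (ham (freeVerts (T n) (Ap n) (Am n)) (triE (T n)) (triXi (Ap n) (Am n) a)) Y c t0 ∧
        ∫ h, (jac Y h * jac Y h).trace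
          ∂(hamP (freeVerts (T n) (Ap n) (Am n)) (triE (T n)) (triXi (Ap n) (Am n) a)) ≤
            σ ^ 2 * q + ε ∧
        ∫ h, |fderiv ℝ (pairX (δ n) (T n) (Ap n) (Am n) a f) h (Y h) - σ ^ 2 * q|
          ∂(hamP (freeVerts (T n) (Ap n) (Am n)) (triE (T n)) (triXi (Ap n) (Am n) a)) ≤ ε)
    (t : ℝ) :
    Tendsto (fun n : ℕ => realExpect (T n) (Ap n) (Am n) a
            (fun h => Complex.exp (Complex.I *
              (t * (affinePairing (δ n) (T n) f h -
              (realExpect (T n) (Ap n) (Am n) a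
                (fun h' => (affinePairing (δ n) (T n) f h' : ℂ))).re) / σ : ℝ))))
          atTop (𝓝 (Complex.exp (-(q * t ^ 2 / 2 : ℝ)))) := by
  set Q : ℝ := σ ^ 2 * q with hQ
  have hQ0 : 0 ≤ Q := by
    refine le_of_forall_pos_le_add fun ε hε => ?_
    obtain ⟨n, hn⟩ := (hup ε hε).exists
    exact (variance_nonneg _ _).trans hn
  set u : ℝ := t / σ with hu
  have hfin : Real.exp (-(Q * u ^ 2 / 2)) = Real.exp (-(q * t ^ 2 / 2)) := by
    congr 2
    rw [hQ, hu]; field_simp
  rw [Metric.tendsto_atTop]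
  intro η hη
  -- choose `ε`
  obtain ⟨ε, hε0, hε⟩ : ∃ ε : ℝ, 0 < ε ∧ 2 * (|u| * (2 * Real.sqrt ε + |u| * ε)) < η := by
    have hc : Continuous fun ε : ℝ => 2 * (|u| * (2 * Real.sqrt ε + |u| * ε)) := by fun_prop
    have h1 : Tendsto (fun ε : ℝ => 2 * (|u| * (2 * Real.sqrt ε + |u| * ε))) (𝓝[>] 0)
        (𝓝 (2 * (|u| * (2 * Real.sqrt 0 + |u| * 0)))) :=
      (hc.tendsto 0).mono_left nhdsWithin_le_nhds
    have h2 : (2 * (|u| * (2 * Real.sqrt 0 + |u| * 0))) < η := by simpa using hη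
    have h3 := (h1.eventually (gt_mem_nhds h2)).and self_mem_nhdsWithin
    obtain ⟨ε, h4, h5⟩ := h3.exists
    exact ⟨ε, h5, h4⟩
  obtain ⟨N, hN⟩ := eventually_atTop.mp (((hd.and hA).and (hup ε hε0)).and (hY ε hε0))
  refine ⟨N, fun n hn => ?_⟩
  obtain ⟨⟨⟨hdn, hAn⟩, hupn⟩, hYn⟩ := hN n hn
  have hξ : ∀ v, |triXi (Ap n) (Am n) a v| ≤ 1 / 2 := fun v => (abs_triXi_le ha0.le v).trans ha1
  set K := ham (freeVerts (T n) (Ap n) (Am n)) (triE (T n)) (triXi (Ap n) (Am n) a) with hK
  set X : (freeVerts (T n) (Ap n) (Am n) → ℝ) → ℝ := pairX (δ n) (T n) (Ap n) (Am n) a f with hX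
  have hμ : hamP (freeVerts (T n) (Ap n) (Am n)) (triE (T n)) (triXi (Ap n) (Am n) a) = unif K :=
    rfl
  rw [hμ] at hupn hYn
  obtain ⟨Y, c, t0, hT, hE, hl⟩ := hYn
  have hP : IsProbabilityMeasure (unif K) :=
    isProbabilityMeasure_hamP (F := freeVerts (T n) (Ap n) (Am n)) (E := triE (T n)) hAn hξ
  have hKm : MeasurableSet K := isClosed_ham.measurableSet
  have hKc : IsCompact K := isCompact_ham hAn
  obtain ⟨l, b, hlb⟩ := exists_linear (X := X) (fun x y t => pairX_affine _ _ _ _ _ _ x y t)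
  have hXc : Continuous X := pairX_continuous _ _ _ _ _ _
  set m : ℝ := ∫ x, X x ∂(unif K) with hm
  have hv : ∫ h, (l h + b - m) ^ 2 ∂(unif K) ≤ Q + ε := by
    rw [variance_eq_integral hXc.measurable.aemeasurable] at hupn
    refine le_trans (le_of_eq ?_) hupn
    refine integral_congr_ae (Eventually.of_forall fun h => ?_)
    show (l h + b - m) ^ 2 = (X h - ∫ x, X x ∂(unif K)) ^ 2
    rw [hlb h]
  have hl' : ∫ h, |l (Y h) - Q| ∂(unif K) ≤ ε := by
    refine le_trans (le_of_eq ?_) hl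
    refine integral_congr_ae (Eventually.of_forall fun h => ?_)
    show |l (Y h) - Q| = |fderiv ℝ X h (Y h) - Q|
    rw [fderiv_affine hlb]
  obtain ⟨hcos, hsin⟩ := stein hT hKm hKc.isBounded (volume_ham_ne_zero hξ) l b m Q ε hQ0 hE hl'
    hv u
  -- rewrite the expectation
  have hre : (realExpect (T n) (Ap n) (Am n) a
      (fun h' => (affinePairing (δ n) (T n) f h' : ℂ))).re = m := by
    rw [realExpect_eq' _ _ _ _ hdn]
    have : ∫ x, ((X x : ℝ) : ℂ) ∂(unif K) = ((∫ x, X x ∂(unif K) : ℝ) : ℂ) := integral_ofReal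
    have h2 := congrArg Complex.re this
    rw [Complex.ofReal_re] at h2
    exact h2
  have hic : Integrable (fun h => Real.cos (u * (l h + b - m))) (unif K) :=
    Integrable.of_bound (by fun_prop) 1 (Eventually.of_forall fun x => by
      rw [Real.norm_eq_abs]; exact Real.abs_cos_le_one _)
  have his : Integrable (fun h => Real.sin (u * (l h + b - m))) (unif K) :=
    Integrable.of_bound (by fun_prop) 1 (Eventually.of_forall fun x => by
      rw [Real.norm_eq_abs]; exact Real.abs_sin_le_one _)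
  have hval : realExpect (T n) (Ap n) (Am n) a
            (fun h => Complex.exp (Complex.I *
              (t * (affinePairing (δ n) (T n) f h -
              (realExpect (T n) (Ap n) (Am n) a
                (fun h' => (affinePairing (δ n) (T n) f h' : ℂ))).re) / σ : ℝ))) =
      ((∫ h, Real.cos (u * (l h + b - m)) ∂(unif K) : ℝ) : ℂ) +
        ((∫ h, Real.sin (u * (l h + b - m)) ∂(unif K) : ℝ) : ℂ) * Complex.I := by
    have hC : ((∫ h, Real.cos (u * (l h + b - m)) ∂(unif K) : ℝ) : ℂ) =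
        ∫ h, ((Real.cos (u * (l h + b - m)) : ℝ) : ℂ) ∂(unif K) := integral_ofReal.symm
    have hS : ((∫ h, Real.sin (u * (l h + b - m)) ∂(unif K) : ℝ) : ℂ) =
        ∫ h, ((Real.sin (u * (l h + b - m)) : ℝ) : ℂ) ∂(unif K) := integral_ofReal.symm
    rw [hre, realExpect_eq' _ _ _ _ hdn, hC, hS,
      ← integral_mul_const, ← integral_add hic.ofReal (his.ofReal.mul_const _)]
    refine integral_congr_ae (Eventually.of_forall fun h => ?_)
    show Complex.exp (Complex.I * ((t * (X h - m) / σ : ℝ) : ℂ)) = _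
    have e1 : t * (X h - m) / σ = u * (l h + b - m) := by
      rw [hlb h, hu]; ring
    rw [e1, mul_comm Complex.I, Complex.exp_mul_I]
    push_cast
    ring
  rw [hval, dist_eq_norm]
  have hexp : Complex.exp (-(q * t ^ 2 / 2 : ℝ)) = ((Real.exp (-(Q * u ^ 2 / 2)) : ℝ) : ℂ) := by
    rw [hfin, Complex.ofReal_exp, Complex.ofReal_neg]
  rw [hexp]
  have hsplit : ((∫ h, Real.cos (u * (l h + b - m)) ∂(unif K) : ℝ) : ℂ) +
        ((∫ h, Real.sin (u * (l h + b - m)) ∂(unif K) : ℝ) : ℂ) * Complex.I -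
        ((Real.exp (-(Q * u ^ 2 / 2)) : ℝ) : ℂ) =
      ((∫ h, Real.cos (u * (l h + b - m)) ∂(unif K) - Real.exp (-(Q * u ^ 2 / 2)) : ℝ) : ℂ) +
        ((∫ h, Real.sin (u * (l h + b - m)) ∂(unif K) : ℝ) : ℂ) * Complex.I := by
    push_cast; ring
  rw [hsplit]
  refine lt_of_le_of_lt (norm_add_le _ _) ?_
  rw [norm_mul, Complex.norm_I, mul_one, Complex.norm_real, Complex.norm_real,
    Real.norm_eq_abs, Real.norm_eq_abs]
  linarith

/-- what the analysis of the real hammock model has to deliver, untilted form -/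
def SteinAsymp (κ : ℝ) : Prop :=
  ∀ a : ℝ, 0 < a → a ≤ 1 / 2 → ∀ (D : Set ℂ) (γ : ℝ → ℂ) (θ : ℝ) (φ : ℂ → ℂ),
      Crest.ProbabilityR.TriHeights.IsSmoothMarkedDomain D γ θ → DifferentiableOn ℂ φ D →
      Set.BijOn φ D (Metric.ball (0 : ℂ) 1) →
      ∀ (δ : ℕ → ℝ) (T : ℕ → Finset Crest.ProbabilityR.TriHeights.Tri)
        (ea eb : ℕ → (ℤ × ℤ) × (ℤ × ℤ)) (c : ℕ → ℝ → ℂ),
        Crest.ProbabilityR.TriHeights.IsMarkedApprox γ θ δ T ea eb c →
      ∀ f : ℂ → ℝ, ContDiff ℝ ∞ f → HasCompactSupport f → tsupport f ⊆ D →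
        (∀ᶠ n in atTop, ∀ v, v ∈ arcPlus (δ n) (T n) (c n) θ → v ∉ arcMinus (δ n) (T n) (c n) θ) ∧
        (∀ᶠ n in atTop, Anch (freeVerts (T n) (arcPlus (δ n) (T n) (c n) θ)
          (arcMinus (δ n) (T n) (c n) θ)) (triE (T n))) ∧
        (∀ ε : ℝ, 0 < ε → ∀ᶠ n in atTop,
          Var[pairX (δ n) (T n) (arcPlus (δ n) (T n) (c n) θ) (arcMinus (δ n) (T n) (c n) θ) a f;
            hamP (freeVerts (T n) (arcPlus (δ n) (T n) (c n) θ) (arcMinus (δ n) (T n) (c n) θ))
              (triE (T n)) (triXi (arcPlus (δ n) (T n) (c n) θ)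
                (arcMinus (δ n) (T n) (c n) θ) a)] ≤
            κ * Crest.ProbabilityR.HexHeights.domainGreenForm φ f + ε) ∧
        (∀ ε : ℝ, 0 < ε → ∀ᶠ n in atTop,
          ∃ (Y : (freeVerts (T n) (arcPlus (δ n) (T n) (c n) θ)
                (arcMinus (δ n) (T n) (c n) θ) → ℝ) →
              (freeVerts (T n) (arcPlus (δ n) (T n) (c n) θ)
                (arcMinus (δ n) (T n) (c n) θ) → ℝ)) (L : ℝ≥0) (t0 : ℝ),
            Tan (ham (freeVerts (T n) (arcPlus (δ n) (T n) (c n) θ)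
                (arcMinus (δ n) (T n) (c n) θ)) (triE (T n))
                (triXi (arcPlus (δ n) (T n) (c n) θ) (arcMinus (δ n) (T n) (c n) θ) a)) Y L t0 ∧
            ∫ h, (jac Y h * jac Y h).trace
              ∂(hamP (freeVerts (T n) (arcPlus (δ n) (T n) (c n) θ)
                (arcMinus (δ n) (T n) (c n) θ)) (triE (T n))
                (triXi (arcPlus (δ n) (T n) (c n) θ) (arcMinus (δ n) (T n) (c n) θ) a)) ≤
                κ * Crest.ProbabilityR.HexHeights.domainGreenForm φ f + ε ∧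
            ∫ h, |fderiv ℝ (pairX (δ n) (T n) (arcPlus (δ n) (T n) (c n) θ)
                (arcMinus (δ n) (T n) (c n) θ) a f) h (Y h) -
                κ * Crest.ProbabilityR.HexHeights.domainGreenForm φ f|
              ∂(hamP (freeVerts (T n) (arcPlus (δ n) (T n) (c n) θ)
                (arcMinus (δ n) (T n) (c n) θ)) (triE (T n))
                (triXi (arcPlus (δ n) (T n) (c n) θ) (arcMinus (δ n) (T n) (c n) θ) a)) ≤ ε)

/-- **S0197 from untilted inputs.** -/
theorem s0197_of_stein {κ : ℝ} (hκ0 : 0 < κ) (hκ1 : κ ≤ 2 / π) (H : SteinAsymp κ) :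
    ∃ A σ lam : ℝ, 0 < A ∧ 0 < σ ∧ σ ^ 2 = 1 / ((2 / Real.sqrt 3) * A) ∧ 0 < lam ∧
      lam ^ 2 = Real.pi / (8 * (2 / Real.sqrt 3) * A) ∧ lam ≤ 1 / 2 ∧
      ∀ a : ℝ, 0 < a → a ≤ 1 / 2 → ∀ (D : Set ℂ) (γ : ℝ → ℂ) (θ : ℝ) (φ : ℂ → ℂ),
      Crest.ProbabilityR.TriHeights.IsSmoothMarkedDomain D γ θ → DifferentiableOn ℂ φ D →
      Set.BijOn φ D (Metric.ball (0 : ℂ) 1) →
      ∀ (δ : ℕ → ℝ) (T : ℕ → Finset Crest.ProbabilityR.TriHeights.Tri) (ea eb : ℕ → (ℤ × ℤ) × (ℤ × ℤ)) (c : ℕ → ℝ → ℂ),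
        Crest.ProbabilityR.TriHeights.IsMarkedApprox γ θ δ T ea eb c →
      ∀ f : ℂ → ℝ, ContDiff ℝ ∞ f → HasCompactSupport f → tsupport f ⊆ D →
        ∀ t : ℝ, Filter.Tendsto (fun n : ℕ => Crest.ProbabilityR.TriHeights.realExpect (T n) (Crest.ProbabilityR.TriHeights.arcPlus (δ n) (T n) (c n) θ) (Crest.ProbabilityR.TriHeights.arcMinus (δ n) (T n) (c n) θ) a
            (fun h => Complex.exp (Complex.I *
              (t * (Crest.ProbabilityR.TriHeights.affinePairing (δ n) (T n) f h -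
              (Crest.ProbabilityR.TriHeights.realExpect (T n) (Crest.ProbabilityR.TriHeights.arcPlus (δ n) (T n) (c n) θ) (Crest.ProbabilityR.TriHeights.arcMinus (δ n) (T n) (c n) θ) a (fun h' => (Crest.ProbabilityR.TriHeights.affinePairing (δ n) (T n) f h' : ℂ))).re) / σ : ℝ))))
          Filter.atTop
          (nhds (Complex.exp (-(Crest.ProbabilityR.HexHeights.domainGreenForm φ f * t ^ 2 / 2 : ℝ)))) := by
  have h3 : 0 < Real.sqrt 3 := Real.sqrt_pos.mpr (by norm_num)
  have hπ : 0 < π := Real.pi_pos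
  refine ⟨Real.sqrt 3 / (2 * κ), Real.sqrt κ, Real.sqrt (π * κ / 8), by positivity,
    Real.sqrt_pos.mpr hκ0, ?_, Real.sqrt_pos.mpr (by positivity), ?_, ?_, ?_⟩
  · rw [Real.sq_sqrt hκ0.le]; field_simp
  · rw [Real.sq_sqrt (by positivity)]; field_simp
  · rw [Real.sqrt_le_left (by norm_num)]
    have : π * κ ≤ π * (2 / π) := by gcongr
    rw [mul_div_cancel₀ _ hπ.ne'] at this
    linarith
  · intro a ha0 ha1 D γ θ φ hD hφ hφ' δ T ea eb c hM f hf hf' hf'' t
    obtain ⟨hd, hA, hup, hY⟩ := H a ha0 ha1 D γ θ φ hD hφ hφ' δ T ea eb c hM f hf hf' hf''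
    have hs : Real.sqrt κ ^ 2 = κ := Real.sq_sqrt hκ0.le
    exact law_of_stein (Real.sqrt_pos.mpr hκ0) ha0 ha1 hd hA (by rw [hs]; exact hup)
      (by rw [hs]; exact hY) t

end Crest.Agent.R144.Stein540
end

-- ▼ part R144/Fin97_144
section

/-!
# R144 (S0197), the end of the chain (helper144): POS + UP' + LO + KAP imply the literal S0197
-/

set_option autoImplicit false

namespace Crest.Agent.R144.Skel144

open Filter Topology Metric MeasureTheory ProbabilityTheory
open Crest.ProbabilityR.TriHeights Crest.Agent.R144.Ham560 Crest.Agent.R144.Tilt714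
open Crest.Agent.R144
open scoped NNReal ENNReal Real ContDiff

/-- the output of `exists_kappa1` is 540's `SteinAsymp` -/
theorem steinAsymp_of {κ : ℝ} (h : ∀ I : Inst, ∀ ε : ℝ, 0 < ε →
      ∀ᶠ n in atTop, Var[I.X n; I.P0 n] ≤ κ * I.g + ε ∧ FieldAt I (κ * I.g) ε n) :
    Stein540.SteinAsymp κ := by
  intro a ha0 ha1 D γ θ φ hD hφ hbij δ T ea eb c hM f hf hfc hfs
  set I : Inst := ⟨a, ha0, ha1, D, γ, θ, φ, hD, hφ, hbij, δ, T, ea, eb, c, hM, f, hf, hfc, hfs⟩
    with hI
  refine ⟨Eventually.of_forall fun n v hv => I.arcs_disj n v hv,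
    Eventually.of_forall fun n => I.anch n, fun ε hε => ?_, fun ε hε => ?_⟩
  · exact (h I ε hε).mono fun n hn => hn.1
  · exact (h I ε hε).mono fun n hn => hn.2


end Crest.Agent.R144.Skel144
end

-- ▼ part R144/Fin98_144
section

/-!
# R144 (S0197), the end of the chain, form 2 (helper144): POS + UP' + LoD + KapD imply the literal
S0197
-/

set_option autoImplicit false

namespace Crest.Agent.R144.Skel144

open Filter Topology Metric MeasureTheory ProbabilityTheory
open Crest.ProbabilityR.TriHeights Crest.Agent.R144.Ham560 Crest.Agent.R144.Tilt714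
open Crest.Agent.R144
open scoped NNReal ENNReal Real ContDiff

/-- **S0197 from the four block outputs**, form 2. -/
theorem s0197_of_blocks1 (ab : ℕ → ℝ → ℝ) {c0 : ℝ} (hc0 : 0 < c0) (r0 : ℕ)
    {B : ℝ} (hPos : ∀ r, r0 ≤ r → ∀ L, ab r L ≤ B)
    (hUp : UpD ab c0) (hLo : LoD ab c0) (hKap : KapD ab c0) :
    ∃ A σ lam : ℝ, 0 < A ∧ 0 < σ ∧ σ ^ 2 = 1 / ((2 / Real.sqrt 3) * A) ∧ 0 < lam ∧
      lam ^ 2 = Real.pi / (8 * (2 / Real.sqrt 3) * A) ∧ lam ≤ 1 / 2 ∧
      ∀ a : ℝ, 0 < a → a ≤ 1 / 2 → ∀ (D : Set ℂ) (γ : ℝ → ℂ) (θ : ℝ) (φ : ℂ → ℂ),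
      Crest.ProbabilityR.TriHeights.IsSmoothMarkedDomain D γ θ → DifferentiableOn ℂ φ D →
      Set.BijOn φ D (Metric.ball (0 : ℂ) 1) →
      ∀ (δ : ℕ → ℝ) (T : ℕ → Finset Crest.ProbabilityR.TriHeights.Tri) (ea eb : ℕ → (ℤ × ℤ) × (ℤ × ℤ)) (c : ℕ → ℝ → ℂ),
        Crest.ProbabilityR.TriHeights.IsMarkedApprox γ θ δ T ea eb c →
      ∀ f : ℂ → ℝ, ContDiff ℝ ∞ f → HasCompactSupport f → tsupport f ⊆ D →
        ∀ t : ℝ, Filter.Tendsto (fun n : ℕ => Crest.ProbabilityR.TriHeights.realExpect (T n) (Crest.ProbabilityR.TriHeights.arcPlus (δ n) (T n) (c n) θ) (Crest.ProbabilityR.TriHeights.arcMinus (δ n) (T n) (c n) θ) a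
            (fun h => Complex.exp (Complex.I *
              (t * (Crest.ProbabilityR.TriHeights.affinePairing (δ n) (T n) f h -
              (Crest.ProbabilityR.TriHeights.realExpect (T n) (Crest.ProbabilityR.TriHeights.arcPlus (δ n) (T n) (c n) θ) (Crest.ProbabilityR.TriHeights.arcMinus (δ n) (T n) (c n) θ) a (fun h' => (Crest.ProbabilityR.TriHeights.affinePairing (δ n) (T n) f h' : ℂ))).re) / σ : ℝ))))
          Filter.atTop
          (nhds (Complex.exp (-(Crest.ProbabilityR.HexHeights.domainGreenForm φ f * t ^ 2 / 2 : ℝ)))) := by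
  obtain ⟨κ, h1, h2, h3⟩ := exists_kappa2 ab hc0 r0 hPos hUp hLo hKap
  exact Stein540.s0197_of_stein h1 h2 (steinAsymp_of h3)

end Crest.Agent.R144.Skel144
end

-- ▼ part R144/Lmu9_425
section

/-!
R144 (S0197), helper425.  Lmu9: **POS**, the shared scalar `abT` is bounded.

* `en_ref_le` : energy of the reference field on a fibre;
* `bbB_le`, `lintegral_bbB_le` : the block energies;
* `abT_le` : `abT P mu0 r L ≤ BP P` for all `r`, `L`, provided `12 * dpar ρ ε < 1`, `4 ≤ Λ`.
-/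

set_option autoImplicit false

open MeasureTheory Set Filter Topology
open scoped ENNReal NNReal

noncomputable section

namespace Crest.Agent.R144.Lw425

open Crest.Agent.R144.Ham560 Crest.Agent.R144.Tri560 Crest.Agent.R144.Zb560
open Crest.Agent.R144.BQ565 Crest.Agent.R144.Bl565
open Crest.Agent.R144.MW121 (jac jac_apply en en_nonneg measurable_en)
open Crest.Agent.R144.Lc279 (Ev vr HS bx mem_bx card_bx anch_bx card_nbr_lat_le mem_nbr_lat
  m0)

variable {P : Par} {m : ℕ} {I V : Finset (ℤ × ℤ)} {E : Finset ((ℤ × ℤ) × (ℤ × ℤ))}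
  {ζ : ℤ × ℤ → ℝ} {xi : Fin 2 → ℝ}

/-- Coefficients of the three coordinate fields. -/
def cf (xi : Fin 2 → ℝ) : Fin 3 → ℝ :=
  ![xi 0 - (xi 0 + xi 1) / 3, xi 1 - (xi 0 + xi 1) / 3, -((xi 0 + xi 1) / 3)]




/-- Sum of the path lengths over the block. -/
def GG (P : Par) (m : ℕ) (I : Finset (ℤ × ℤ)) (h : ℤ × ℤ → ℝ) : ℝ≥0∞ :=
  ∑ u ∈ I, ∑ k : Fin 3, PLn (win m I) P.rho P.eps P.Lam (ps k) u h





/-- Parameters for which the path tails are summable. -/
structure Small (P : Par) : Prop where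
  small : 12 * dpar P.rho P.eps < 1
  big : 4 ≤ P.Lam



/-- The bound. -/
def BP (P : Par) : ℝ :=
  (ENNReal.ofReal (1 / 6) * (3 * (3 * (ENNReal.ofReal (2 / 3 * (2 * P.Lam / P.eps) ^ 2) *
    (3 * KL P.rho P.eps))))).toReal



end Crest.Agent.R144.Lw425
end
end

-- ▼ part R144/Par_144

/-!
# R144 (S0197): one choice of the block parameters for all blocks (helper144)
-/

set_option autoImplicit false

namespace Crest.Agent.R144.Par144

open Crest.Agent.R144

/-- all smallness conditions on the parameters -/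
structure PAll (P : Bl565.Par) : Prop where
  s565 : Bl565.Small P
  s425 : Lw425.Small P
  s674 : Uid674.SmallU P

theorem exists_par : ∃ P : Bl565.Par, PAll P ∧ P.Lam = 4 := by
  have h := Uid674.e0_pos
  set t : ℝ := min Uid674.e0 (1 / (2304 * 576)) with ht
  have ht0 : 0 < t := lt_min h (by norm_num)
  refine ⟨⟨t / 2, t / 2, 4, by positivity, by positivity, by norm_num⟩, ⟨⟨?_, le_rfl⟩, ⟨?_, le_rfl⟩,
    ⟨?_, le_rfl⟩⟩, rfl⟩
  · have h1 : t ≤ 1 / (2304 * 576) := min_le_right _ _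
    show 2304 * (t / 2 + t / 2) ≤ 1 / 576
    linarith
  · have h1 : t ≤ 1 / (2304 * 576) := min_le_right _ _
    show 12 * Lw425.dpar (t / 2) (t / 2) < 1
    unfold Lw425.dpar
    have h2 : Real.sqrt (64 * 6 ^ 2 * (t / 2 + t / 2)) ≤ 1 / 24 := by
      apply Real.sqrt_le_iff.mpr
      constructor
      · norm_num
      · linarith
    linarith
  · show t / 2 + t / 2 ≤ Uid674.e0
    have h1 : t ≤ Uid674.e0 := min_le_left _ _
    linarith

end Crest.Agent.R144.Par144
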