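import Crest.Agent.R144.LoB5_95

-- ▼ part R144/LoB6_95
section

/-!
# R144 (S0197), helper95, lower bound (trace form), file 6: 560's field in the trace inequality

`Gm` : geometry (active sites `S`, blocks `I q`, deep parts, windows `W q`, neighbourhoods `N q`,
metric `dd`), `Tm` : templates.  `exists_low`, `tan_inst` (the trial field is tangent),
`gat_inst`, `dat_ae`, and the final pointwise inequality `main`.
-/

set_option autoImplicit false
set_option linter.unusedSectionVars false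

open MeasureTheory Set Filter Topology
open scoped ENNReal NNReal

noncomputable section

namespace Crest.Agent.R144.LoB95

open Crest.Agent.R144.Ham560
open Crest.Agent.R144.Tri560
open Crest.Agent.R144.Zb560 (sr iv IsOpt pt cz Zx gx gq lp pt_spec pt_mem' op isOpt_op no_visit
  cz_nonneg mem_lp single_mem_pt)
open Crest.Agent.R144.MW121 (jac jac_apply Tan)
open Crest.Agent.R144.Fib674 (pd)

variable {U : Type*} [DecidableEq U] {κ ι : Type*} [Fintype κ] [Fintype ι]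

/-- geometry -/
structure Gm (F S S' : Finset U) (E : Finset (U × U)) (I dp W N : ι → Finset U)
    (dd : U → U → ℕ) (k : ℕ) : Prop where
  SF : S ⊆ F
  SS : S ⊆ S'
  nS : ∀ a ∈ S, ∀ b ∈ nbr E a, b ∈ S'
  IS : ∀ q, I q ⊆ S
  sub : ∀ q, dp q ⊆ I q
  disj : ∀ q q' v, v ∈ I q → v ∈ I q' → q = q'
  k1 : 1 < k
  dd0 : ∀ a, dd a a = 0
  dds : ∀ a b, dd a b = dd b a
  ddt : ∀ a b d, dd a d ≤ dd a b + dd b d
  dd1 : ∀ a b, b ∈ nbr E a → dd a b ≤ 1
  deep : ∀ q, ∀ w ∈ dp q, ∀ z, z ∉ I q → k ≤ dd z w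
  WS : ∀ q, W q ⊆ S
  Wc : ∀ q, ∀ v ∈ W q, ∃ w ∈ I q, dd w v < k
  Ww : ∀ q, ∀ w ∈ I q, ∀ a ∈ S, dd w a < k → a ∈ W q
  NS : ∀ q, N q ⊆ S
  IN : ∀ q, I q ⊆ N q
  bN : ∀ q, ∀ z ∈ S, z ∉ I q → (∃ z' ∈ I q, z' ∈ nbr E z) → z ∈ N q

/-- templates -/
structure Tm (F : Finset U) (E : Finset (U × U)) (ξ : U → ℝ) (S : Finset U) (dp W : ι → Finset U)
    (T : κ → (F → ℝ) → F → ℝ) (CT B : ℝ) : Prop where
  fT : ∀ i, Fd F E ξ S CT (T i)
  T0 : ∀ i x (w : F), (∀ q, (w : U) ∉ dp q) → T i x w = 0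
  TB : ∀ i x w, |T i x w| ≤ B
  TW : ∀ i (x : F → ℝ) q (w v : F) (t : ℝ), (w : U) ∈ dp q → (v : U) ∉ W q →
    T i (x + t • (Pi.single v 1 : F → ℝ)) w = T i x w

variable {F S S' : Finset U} {E : Finset (U × U)} {ξ : U → ℝ} {I dp W N : ι → Finset U}
  {dd : U → U → ℕ} {k : ℕ}

theorem Gm.bg (H : Gm F S S' E I dp W N dd k) : BG E S I dp W where
  IS := H.IS
  sub := H.sub
  disj := H.disj
  win := by
    intro q q' v hv hv'
    obtain ⟨w, hw, hd⟩ := H.Wc q v hv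
    by_cases h : w ∈ I q'
    · exact (H.disj _ _ w hw h).symm
    · have := H.deep q' v hv' w h
      omega
  nb := by
    intro q a b ha hb _
    by_contra h
    have h1 := H.deep q a ha b h
    have h2 := H.dd1 a b hb
    rw [H.dds] at h2
    have := H.k1
    omega

theorem Fd.mono {C C' : ℝ} (hC : C ≤ C') {f : (F → ℝ) → F → ℝ} (h : Fd F E ξ S C f) :
    Fd F E ξ S C' f where
  lip x y w := (h.lip x y w).trans (mul_le_mul_of_nonneg_right hC (norm_nonneg _))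
  edge x hx a b ha hb hab := (h.edge x hx a b ha hb hab).trans
    (mul_le_mul_of_nonneg_right hC (slk_nonneg _ _ _))

variable {ρ ε Λ c0 : ℝ}

/-- 560's field on the free sites -/
def Zf (S : Finset U) (E : Finset (U × U)) (ρ ε Λ : ℝ) (φ : U → ℝ) (F : Finset U) (ξ : U → ℝ)
    (x : F → ℝ) (w : F) : ℝ := Zx S E ρ ε Λ φ F ξ w x

theorem abs_ext_sub_le {x : F → ℝ} (hx : x ∈ ham F E ξ) {a b : U} (h : b ∈ nbr E a) :
    |ext F ξ x a - ext F ξ x b| ≤ 1 := by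
  rcases (mem_nbr.mp h).2 with h | h
  · exact hx _ h
  · rw [abs_sub_comm]; exact hx _ h

theorem sr_le_slk (hρ : 0 ≤ ρ) (hε : 0 < ε) (hΛ : 0 ≤ Λ) {x : F → ℝ} (hx : x ∈ ham F E ξ)
    {a b : U} (h : b ∈ nbr E a) :
    Λ * sr ρ ε (ext F ξ x a - ext F ξ x b) ≤ Λ / ε * slk F ξ x a b := by
  have h1 := Zb560.sr_le hρ hε (abs_ext_sub_le hx h)
  have h2 : 1 - |ext F ξ x a - ext F ξ x b| ≤ slk F ξ x a b := le_max_right _ _
  calc Λ * sr ρ ε (ext F ξ x a - ext F ξ x b) =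
      Λ / ε * (ε * sr ρ ε (ext F ξ x a - ext F ξ x b)) := by field_simp
    _ ≤ Λ / ε * slk F ξ x a b := by gcongr; exact h1.trans h2

theorem fd_Zf (hρ : 0 ≤ ρ) (hε : 0 < ε) (hΛ : 0 ≤ Λ) (φ : U → ℝ) :
    Fd F E ξ S (max (Zb560.lcz S ε Λ : ℝ) (Λ / ε)) (Zf S E ρ ε Λ φ F ξ) where
  lip x y w := by
    have h := (Zb560.lip_Zx (V := S) (E := E) (ρ := ρ) (φ := φ) (F := F) (ξ := ξ) hε hΛ
      (w : U)).dist_le_mul x y
    rw [Real.dist_eq, dist_eq_norm] at h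
    exact h.trans (mul_le_mul_of_nonneg_right (le_max_left _ _) (norm_nonneg _))
  edge x hx a b ha hb hab := by
    refine (Zb560.Z_sub_le hΛ hab ha hb).trans ((sr_le_slk hρ hε hΛ hx hab).trans ?_)
    exact mul_le_mul_of_nonneg_right (le_max_right _ _) (slk_nonneg _ _ _)

theorem Zf_nonneg (hΛ : 0 ≤ Λ) {φ : U → ℝ} (hφ : ∀ a, 0 ≤ φ a) (h : U → ℝ) (u : U) :
    0 ≤ Zb560.Z S E ρ ε Λ φ h u :=
  Zb560.le_iv fun l _ => cost_nonneg hφ (cz_nonneg hΛ h) l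

theorem Zf_zero (hΛ : 0 ≤ Λ) {φ : U → ℝ} (hφ : ∀ a, 0 ≤ φ a) (h : U → ℝ) {u : U} (hu : φ u = 0) :
    Zb560.Z S E ρ ε Λ φ h u = 0 :=
  le_antisymm (hu ▸ Zb560.Z_le u) (Zf_nonneg hΛ hφ h u)

/-- the cut-off field is tangent to all the walls -/
theorem fd_V (H : Gm F S S' E I dp W N dd k) (hρ : 0 ≤ ρ) (hε : 0 < ε) (hΛ : 0 ≤ Λ) {φ0 : U → ℝ}
    (h0 : ∀ a, 0 ≤ φ0 a) (h0S : ∀ a, a ∉ S → φ0 a = 0) :
    Fd F E ξ F (max (Zb560.lcz S' ε Λ : ℝ) (Λ / ε)) (Zf S' E ρ ε Λ φ0 F ξ) ∧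
    (∀ x (w : F), (w : U) ∉ S → Zf S' E ρ ε Λ φ0 F ξ x w = 0) ∧
    (∀ x ∈ ham F E ξ, ∀ (a : F) (b : U), b ∉ F → b ∈ nbr E a →
      |Zf S' E ρ ε Λ φ0 F ξ x a| ≤ max (Zb560.lcz S' ε Λ : ℝ) (Λ / ε) * slk F ξ x a b) := by
  have hz : ∀ (x : F → ℝ) (u : U), u ∉ S → Zb560.Z S' E ρ ε Λ φ0 (ext F ξ x) u = 0 :=
    fun x u hu => Zf_zero hΛ h0 _ (h0S u hu)
  have nbsym : ∀ {a b : U}, b ∈ nbr E a → a ∈ nbr E b := by
    intro a b h
    rw [mem_nbr] at h ⊢
    exact ⟨h.1.symm, h.2.symm⟩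
  -- the basic edge estimate
  have hE : ∀ x ∈ ham F E ξ, ∀ a b : U, b ∈ nbr E a →
      |Zb560.Z S' E ρ ε Λ φ0 (ext F ξ x) a - Zb560.Z S' E ρ ε Λ φ0 (ext F ξ x) b| ≤
      max (Zb560.lcz S' ε Λ : ℝ) (Λ / ε) * slk F ξ x a b := by
    intro x hx a b hab
    have key : a ∈ S' → b ∈ S' → _ := fun ha hb =>
      (Zb560.Z_sub_le (V := S') (E := E) (ρ := ρ) (ε := ε) (φ := φ0) (h := ext F ξ x) hΛ hab ha
        hb).trans ((sr_le_slk hρ hε hΛ hx hab).trans
        (mul_le_mul_of_nonneg_right (le_max_right (Zb560.lcz S' ε Λ : ℝ) _) (slk_nonneg _ _ _)))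
    by_cases ha : a ∈ S
    · exact key (H.SS ha) (H.nS a ha b hab)
    · by_cases hb : b ∈ S
      · exact key (H.nS b hb a (nbsym hab)) (H.SS hb)
      · rw [hz x a ha, hz x b hb, sub_self, abs_zero]
        refine mul_nonneg (le_max_of_le_right (by positivity)) (slk_nonneg _ _ _)
  refine ⟨⟨fun x y w => ?_, fun x hx a b _ _ hab => hE x hx a b hab⟩, fun x w hw => hz x w hw,
    fun x hx a b hb hab => ?_⟩
  · have h := (Zb560.lip_Zx (V := S') (E := E) (ρ := ρ) (φ := φ0) (F := F) (ξ := ξ) hε hΛ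
      (w : U)).dist_le_mul x y
    rw [Real.dist_eq, dist_eq_norm] at h
    exact h.trans (mul_le_mul_of_nonneg_right (le_max_left _ _) (norm_nonneg _))
  · have h := hE x hx a b hab
    rwa [hz x b (fun h => hb (H.SF h)), sub_zero] at h

/-- the cut-offs -/
def gf (S : Finset U) (E : Finset (U × U)) (N : ι → Finset U) (k : ℕ) (ρ ε Λ c0 : ℝ)
    (φs : κ → U → ℝ) (F : Finset U) (ξ : U → ℝ) (q : ι) (x : F → ℝ) : ℝ :=
  gx S E (N q) k ρ ε Λ c0 φs F ξ x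

theorem gf_nonneg {φs : κ → U → ℝ} (q : ι) (x : F → ℝ) : 0 ≤ gf S E N k ρ ε Λ c0 φs F ξ q x :=
  Zb560.gq_nonneg

theorem gf_le_one {φs : κ → U → ℝ} (q : ι) (x : F → ℝ) : gf S E N k ρ ε Λ c0 φs F ξ q x ≤ 1 :=
  Zb560.gq_le_one


/-! ### good points -/


/-- switched-on windows do not see the deep sites -/
theorem see_inst (H : Gm F S S' E I dp W N dd k) (hΛ : 0 ≤ Λ) (hc0 : 0 < c0)
    {φs : κ → U → ℝ} {x : F → ℝ} {q : ι} (hg : 0 < gf S E N k ρ ε Λ c0 φs F ξ q x) {v w : F}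
    (hv : (v : U) ∉ I q) (hw : (w : U) ∈ dp q) (i : κ)
    (hd : DifferentiableAt ℝ (fun y => Zf S E ρ ε Λ (φs i) F ξ y v) x) :
    pd w (fun y => Zf S E ρ ε Λ (φs i) F ξ y v) x = 0 := by
  have ho := isOpt_op S E (φs i) (cz ρ ε Λ (ext F ξ x)) v
  refine Zb560.pd_Z_eq_zero (F := F) (ξ := ξ) hd ho (z := w) ?_
  refine no_visit (cz_nonneg hΛ _) dd H.dd0 H.ddt H.dd1 (I := (I q : Set U)) (k := k) ?_
    (by simpa using hv) (by simpa using H.sub q hw) (fun z hz => H.deep q w hw z (by simpa using hz))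
    ho
  intro z hz hzS hz' l hl
  have hzN : z ∈ N q := H.bN q z hzS (by simpa using hz) (by simpa using hz')
  exact Zb560.opt_short hc0 hg i hzN hl

/-- inside a switched-on block, the field is the window field (near the point) -/
theorem loc_inst (H : Gm F S S' E I dp W N dd k) (hε : 0 < ε) (hΛ : 0 ≤ Λ) (hc0 : 0 < c0)
    {φs : κ → U → ℝ} {x : F → ℝ} {q : ι} (hg : 0 < gf S E N k ρ ε Λ c0 φs F ξ q x) {w : F}
    (hw : (w : U) ∈ I q) (i : κ) (v : F) :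
    pd v (fun y => Zf S E ρ ε Λ (φs i) F ξ y w) x =
      pd v (fun y => Zf (W q) E ρ ε Λ (φs i) F ξ y w) x := by
  refine pd_congr ?_ v
  have hcont : Continuous (gf S E N k ρ ε Λ c0 φs F ξ q) :=
    (Zb560.lip_gx (V := S) (E := E) (N := N q) (k := k) (ρ := ρ) (φs := φs) (F := F)
      (ξ := ξ) hε hΛ hc0 (H.NS q)).continuous
  filter_upwards [(hcont.tendsto x).eventually (lt_mem_nhds hg)] with y hy
  refine (Zb560.iv_window_of_short dd H.dd0 H.ddt H.dd1 (H.WS q) (k := k) ?_ ?_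
    (H.IS q hw)).symm
  · intro l hl
    exact Zb560.opt_short hc0 hy i (H.IN q hw) hl
  · intro a ha hda
    exact H.Ww q w hw a ha hda


end Crest.Agent.R144.LoB95
end
end

-- ▼ part R144/LoB7_95
section

/-!
# R144 (S0197), helper95, lower bound (trace form), file 7: the final pointwise inequality

`main`: at almost every good point,
`tr (jac Y * jac Y) ≤ (1+θ)² ∑ q, Qb q + P² (a ∑ (non deep sites) m + b tl S + c ∑ (1 + #I q) tl (N q))
 + P₂² d ∑ q, #I q ∑ w ∈ I q, (L m w + B + R)²`, with `m w` the length of the longest cheap path.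
-/

set_option autoImplicit false
set_option linter.unusedSectionVars false

open MeasureTheory Set Filter Topology
open scoped ENNReal NNReal

noncomputable section

namespace Crest.Agent.R144.LoB95

open Crest.Agent.R144.Ham560
open Crest.Agent.R144.Tri560
open Crest.Agent.R144.Zb560 (sr iv IsOpt pt cz Zx gx gq lp pt_spec pt_mem' op isOpt_op no_visit
  cz_nonneg mem_lp single_mem_pt)
open Crest.Agent.R144.MW121 (jac jac_apply Tan)
open Crest.Agent.R144.Fib674 (pd)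

variable {U : Type*} [DecidableEq U] {κ ι : Type*} [Fintype κ] [Fintype ι]
variable {F S S' : Finset U} {E : Finset (U × U)} {ξ : U → ℝ} {I dp W N : ι → Finset U}
  {dd : U → U → ℕ} {k : ℕ} {ρ ε Λ c0 : ℝ}

theorem sum_inF {A : Finset U} (hA : A ⊆ F) (f : U → ℝ) :
    ∑ w ∈ inF F A, f w = ∑ u ∈ A, f u := by
  refine Finset.sum_bij (fun w _ => (w : U)) (fun w hw => mem_inF.mp hw) ?_ ?_ (fun _ _ => rfl)
  · intro w _ w' _ h
    exact Subtype.ext h
  · intro u hu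
    exact ⟨⟨u, hA hu⟩, mem_inF.mpr hu, rfl⟩

theorem card_inF {A : Finset U} (hA : A ⊆ F) : ((inF F A).card : ℝ) = A.card := by
  have := sum_inF hA fun _ => (1 : ℝ)
  simpa using this

theorem abs_pd_le_of_lip {C : ℝ} (hC : 0 ≤ C) {f : (F → ℝ) → ℝ}
    (hf : ∀ x y, |f x - f y| ≤ C * ‖x - y‖) (x : F → ℝ) (v : F) : |pd v f x| ≤ C := by
  have hl : LipschitzWith C.toNNReal f := by
    refine LipschitzWith.of_dist_le_mul fun y z => ?_
    rw [Real.dist_eq, dist_eq_norm, Real.coe_toNNReal _ hC]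
    exact hf y z
  have h1 : ‖fderiv ℝ f x (Pi.single v 1)‖ ≤ C.toNNReal * ‖(Pi.single v (1 : ℝ) : F → ℝ)‖ :=
    (ContinuousLinearMap.le_opNorm _ _).trans
      (mul_le_mul_of_nonneg_right (norm_fderiv_le_of_lipschitz ℝ hl) (norm_nonneg _))
  have h2 : ‖(Pi.single v (1 : ℝ) : F → ℝ)‖ = 1 := by
    rw [Pi.norm_single]; simp
  rw [h2, mul_one, Real.coe_toNNReal _ hC] at h1
  exact h1

theorem abs_pd_gx_le {N : Finset U} {φs : κ → U → ℝ} (hε : 0 < ε) (hΛ : 0 ≤ Λ) (hc0 : 0 < c0)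
    {x : F → ℝ} (hd : DifferentiableAt ℝ (gx S E N k ρ ε Λ c0 φs F ξ) x) (z : F) :
    |pd z (gx S E N k ρ ε Λ c0 φs F ξ) x| ≤ 2 * Λ / ε / c0 := by
  refine Zb560.abs_pd_le hd z fun t => ?_
  have h8 : 0 ≤ 2 * Λ / ε / c0 * |t| := by positivity
  have hx0 : 0 ≤ gx S E N k ρ ε Λ c0 φs F ξ x := Zb560.gq_nonneg
  refine max_le (by linarith) ?_
  have hx1 : Zb560.gap S E N k ρ ε Λ c0 φs (ext F ξ x) ≤ gx S E N k ρ ε Λ c0 φs F ξ x :=
    le_max_right _ _
  by_cases h1 : Zb560.gap S E N k ρ ε Λ c0 φs (ext F ξ x) < 1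
  · obtain ⟨i, w, hw, l, hl, hk, he⟩ := Zb560.exists_gap_eq h1
    have hfold : ∀ y : F → ℝ, Zb560.gap S E N k ρ ε Λ c0 φs (ext F ξ y) ≤
        (cost (φs i) (cz ρ ε Λ (ext F ξ y)) l - φs i w) / c0 := fun y =>
      Zb560.fold_min_le_of_mem (f := fun p : κ × U × List U =>
        (cost (φs p.1) (cz ρ ε Λ (ext F ξ y)) p.2.2 - φs p.1 p.2.1) / c0) (a := (i, w, l))
        (Finset.mem_product.mpr ⟨Finset.mem_univ _, mem_lp.mpr ⟨hw, hl, hk⟩⟩)
    have h6 := hfold (x + t • Pi.single z 1)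
    have h7 := Zb560.cost_line_le (ρ := ρ) (ξ := ξ) (φ := φs i) (x := x) (z := z) (t := t) hε hΛ l
      (pt_spec hl).1
    refine h6.trans ?_
    have h9 : (cost (φs i) (cz ρ ε Λ (ext F ξ (x + t • Pi.single z 1))) l - φs i w) / c0 ≤
        (cost (φs i) (cz ρ ε Λ (ext F ξ x)) l - φs i w + 2 * Λ / ε * |t|) / c0 :=
      div_le_div_of_nonneg_right (by linarith) hc0.le
    have h10 : (cost (φs i) (cz ρ ε Λ (ext F ξ x)) l - φs i w + 2 * Λ / ε * |t|) / c0 =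
        Zb560.gap S E N k ρ ε Λ c0 φs (ext F ξ x) + 2 * Λ / ε / c0 * |t| := by
      rw [he]; field_simp
    linarith
  · have h2 : Zb560.gap S E N k ρ ε Λ c0 φs (ext F ξ (x + t • Pi.single z 1)) ≤ 1 :=
      Zb560.fold_min_le_left _ _ _
    linarith




variable [DecidableEq κ]

/-- slope of `Psi` -/
def sl' (Psi : (κ → ℝ) → ℝ) (l : κ → ℝ) (i : κ) : ℝ := fderiv ℝ Psi l (Pi.single i 1)


end Crest.Agent.R144.LoB95
end
end

-- ▼ part R144/LoB8_95
section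

/-!
# R144 (S0197), helper95, lower bound (trace form), file 8: abstract explicit field

`ZAt`: what is used about the explicit field at a point; `main'`: the final pointwise inequality for
any explicit field satisfying `ZAt`, with the cut-offs of 560 for a family `ψ` (another index type).
-/

set_option autoImplicit false
set_option linter.unusedSectionVars false

open MeasureTheory Set Filter Topology
open scoped ENNReal NNReal

noncomputable section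

namespace Crest.Agent.R144.LoB95

open Crest.Agent.R144.Ham560
open Crest.Agent.R144.Tri560
open Crest.Agent.R144.Zb560 (sr iv IsOpt pt cz Zx gx gq lp pt_spec pt_mem' op isOpt_op no_visit
  cz_nonneg mem_lp single_mem_pt)
open Crest.Agent.R144.MW121 (jac jac_apply Tan)
open Crest.Agent.R144.Fib674 (pd)

variable {U : Type*} [DecidableEq U] {κ κ' ι : Type*} [Fintype κ] [Fintype κ'] [Fintype ι]
variable {F S S' : Finset U} {E : Finset (U × U)} {ξ : U → ℝ} {I dp W N : ι → Finset U}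
  {dd : U → U → ℕ} {k : ℕ} {ρ ε Λ c0 : ℝ}

open Classical in
/-- what is used about the explicit field at a point -/
structure ZAt (S : Finset U) (I dp : ι → Finset U) (k : ℕ) (g : ι → (F → ℝ) → ℝ)
    (Z : κ → (F → ℝ) → F → ℝ) (Zl : ι → κ → (F → ℝ) → F → ℝ) (φs : κ → U → ℝ) (m : U → ℕ)
    (A0 a1 L : ℝ) (x : F → ℝ) : Prop where
  row : ∀ i (w : F), ∑ v, pd v (fun y => Z i y w) x ^ 2 ≤ A0 * m w
  cross : ∀ i (w : F), ∑ v : F, (if Crs (fun q => inF F (I q)) (fun q => inF F (dp q)) w v then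
    pd v (fun y => Z i y w) x ^ 2 else 0) ≤ A0 * (if k < m w then (m w : ℝ) else 0)
  loc : ∀ q, 0 < g q x → ∀ w : F, (w : U) ∈ I q → ∀ i v,
    pd v (fun y => Z i y w) x = pd v (fun y => Zl q i y w) x
  sup : ∀ i (w v : F), |pd v (fun y => Z i y w) x| ≤ a1
  disp : ∀ i (w : F), |Z i x w - φs i w| ≤ L * m w

/-- bound of the derivative of the vector field -/
def KL' (a1 ε Λ c0 B CT : ℝ) : ℝ := a1 + (2 * Λ / ε / c0 * B + CT)

theorem abs_pd_L_le' (H : Gm F S S' E I dp W N dd k) (hε : 0 < ε) (hΛ : 0 ≤ Λ) (hc0 : 0 < c0)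
    {ψ : κ' → U → ℝ} {Z T : κ → (F → ℝ) → F → ℝ} {CT B a1 : ℝ} (hT : Tm F E ξ S dp W T CT B)
    (hCT : 0 ≤ CT) {x : F → ℝ} (hd : DAt (gf S E N k ρ ε Λ c0 ψ F ξ) Z T x)
    (hs : ∀ i (w v : F), |pd v (fun y => Z i y w) x| ≤ a1) (i : κ) (w v : F) :
    |pd v (fun y => Lf dp (gf S E N k ρ ε Λ c0 ψ F ξ) Z T i y w) x| ≤ KL' a1 ε Λ c0 B CT := by
  have hB : 0 ≤ B := (abs_nonneg _).trans (hT.TB i x w)
  rw [pd_L hd]
  have h2 : |dG dp (gf S E N k ρ ε Λ c0 ψ F ξ) x w v| ≤ 2 * Λ / ε / c0 := by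
    by_cases hw : ∃ q, (w : U) ∈ dp q
    · obtain ⟨q, hq⟩ := hw
      rw [dG_eq H.bg x hq]
      exact abs_pd_gx_le hε hΛ hc0 (hd.g q) v
    · push Not at hw
      rw [dG_eq_zero x hw, abs_zero]; positivity
  have h3 : |Gw dp (gf S E N k ρ ε Λ c0 ψ F ξ) x w| ≤ 1 := by
    by_cases hw : ∃ q, (w : U) ∈ dp q
    · obtain ⟨q, hq⟩ := hw
      rw [Gw_eq H.bg x hq, abs_of_nonneg (gf_nonneg q x)]
      exact gf_le_one q x
    · push Not at hw
      rw [Gw_eq_zero x hw, abs_zero]; exact zero_le_one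
  have h4 : |pd v (fun y => T i y w) x| ≤ CT :=
    abs_pd_le_of_lip hCT (fun y z => (hT.fT i).lip y z w) x v
  have h5 := hT.TB i x w
  unfold KL'
  refine (abs_add_le _ _).trans (add_le_add (hs i w v) ((abs_add_le _ _).trans (add_le_add ?_ ?_)))
  · rw [abs_mul]
    exact mul_le_mul h2 h5 (abs_nonneg _) (by positivity)
  · rw [abs_mul]
    calc _ ≤ 1 * CT := mul_le_mul h3 h4 (abs_nonneg _) zero_le_one
      _ = CT := one_mul _

/-- constant in front of the windows with a long cheap path -/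
def cE' (κc A0 ε Λ c0 B θ : ℝ) : ℝ :=
  κc * (2 * (B ^ 2 * (2 * Λ / ε / c0) ^ 2) + (1 + θ) ^ 2 * A0 +
    (1 + θ) * (1 + θ⁻¹) * (B ^ 2 * (2 * Λ / ε / c0) ^ 2))

variable [DecidableEq κ]

open Classical in
/-- **the pointwise inequality** -/
theorem main' (H : Gm F S S' E I dp W N dd k) (hε : 0 < ε) (hΛ : 0 ≤ Λ)
    (hc0 : 0 < c0) {ψ : κ' → U → ℝ} {φs : κ → U → ℝ}
    {Z T : κ → (F → ℝ) → F → ℝ} {Zl : ι → κ → (F → ℝ) → F → ℝ} {CT B : ℝ} (hCT : 0 ≤ CT)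
    (hB : 0 ≤ B) (hT : Tm F E ξ S dp W T CT B)
    {V : (F → ℝ) → F → ℝ} {Psi : (κ → ℝ) → ℝ} {C : ℝ}
    (hLow : Low F E ξ S I dp W (gf S E N k ρ ε Λ c0 ψ F ξ) Z T V Psi C)
    (hP : Differentiable ℝ Psi) {P P2 : ℝ} (hP0 : 0 ≤ P) (hP20 : 0 ≤ P2)
    (hP1 : ∀ l, ∑ i, sl' Psi l i ^ 2 ≤ P ^ 2)
    (hP2 : ∀ l l', ∑ i, (sl' Psi l i - sl' Psi l' i) ^ 2 ≤ P2 ^ 2 * ‖l - l'‖ ^ 2)
    {x : F → ℝ} (hd : DAt (gf S E N k ρ ε Λ c0 ψ F ξ) Z T x)
    (hg : GAt S I dp W (gf S E N k ρ ε Λ c0 ψ F ξ) Z T V Psi x)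
    {A0 a1 L : ℝ} (hA0 : 0 ≤ A0) (ha1 : 0 ≤ a1) (hL0 : 0 ≤ L)
    (hz : ZAt S I dp k (gf S E N k ρ ε Λ c0 ψ F ξ) Z Zl φs (mc S E ρ ε Λ c0 ψ (ext F ξ x))
      A0 a1 L x)
    {θ : ℝ} (hθ : 0 < θ) (a : ι → κ → ℝ) {R : ℝ} (hR : 0 ≤ R)
    (ha : ∀ q, ∀ w ∈ I q, ∀ i, |φs i w - a q i| ≤ R) :
    (jac (Yw S dp (gf S E N k ρ ε Λ c0 ψ F ξ) Z T V Psi) x *
      jac (Yw S dp (gf S E N k ρ ε Λ c0 ψ F ξ) Z T V Psi) x).trace ≤
      (1 + θ) ^ 2 * ∑ q, Qb (I q) (sl' Psi (a q)) (Zl q) T x +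
      P ^ 2 * (Fintype.card κ * A0 *
        ∑ w ∈ S.filter (fun w => ∀ q, w ∉ dp q), (mc S E ρ ε Λ c0 ψ (ext F ξ x) w : ℝ)) +
      P ^ 2 * (2 * (Fintype.card κ * A0) *
        tl S k (mc S E ρ ε Λ c0 ψ (ext F ξ x))) +
      P ^ 2 * (cE' (Fintype.card κ) A0 ε Λ c0 B θ *
        ∑ q, (1 + (I q).card) * tl (N q) k (mc S E ρ ε Λ c0 ψ (ext F ξ x))) +
      P2 ^ 2 * ((1 + θ⁻¹) * (Fintype.card κ * KL' a1 ε Λ c0 B CT ^ 2) *
        ∑ q, (I q).card * ∑ w ∈ I q, (L * mc S E ρ ε Λ c0 ψ (ext F ξ x) w + B + R) ^ 2) := by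
  -- abbreviations
  set g := gf S E N k ρ ε Λ c0 ψ F ξ with hgdef
  set m := mc S E ρ ε Λ c0 ψ (ext F ξ x) with hm
  set Kc : ℝ := (Fintype.card κ : ℝ) with hKc
  set B0 : ℝ := (2 * Λ / ε / c0) ^ 2 with hB0
  have hKc0 : 0 ≤ Kc := Nat.cast_nonneg _
  have hB00 : 0 ≤ B0 := sq_nonneg _
  have hθ' : 0 < θ⁻¹ := inv_pos.mpr hθ
  have hISF : ∀ q, I q ⊆ F := fun q => (H.IS q).trans H.SF
  have hdpF : ∀ q, dp q ⊆ F := fun q => (H.sub q).trans (hISF q)
  have h0 := hLow.trace_le hP hd hg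
  -- slopes
  have hnP : ∀ w : F, nP S dp g Z T Psi x w ≤ P ^ 2 := by
    intro w
    unfold nP pw
    by_cases hw : (w : U) ∈ S
    · simp only [if_pos hw]; exact hP1 _
    · simp only [if_neg hw]; simp; positivity
  have hnP0 : ∀ w : F, 0 ≤ nP S dp g Z T Psi x w := fun w =>
    Finset.sum_nonneg fun _ _ => sq_nonneg _
  have hnPS : ∀ w : F, (w : U) ∉ S → nP S dp g Z T Psi x w = 0 := by
    intro w hw
    unfold nP pw
    simp [if_neg hw]
  -- rows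
  have hrow : ∀ w : F, ∑ v, eZ Z x w v ≤ Kc * A0 * m w := by
    intro w
    unfold eZ
    rw [Finset.sum_comm]
    calc ∑ i, ∑ v, pd v (fun y => Z i y w) x ^ 2 ≤ ∑ _i : κ, A0 * m w :=
          Finset.sum_le_sum fun i _ => hz.row i w
      _ = Kc * A0 * m w := by simp [hKc, mul_assoc]
  have hrow0 : ∀ w : F, 0 ≤ ∑ v, eZ Z x w v := fun w =>
    Finset.sum_nonneg fun _ _ => Finset.sum_nonneg fun _ _ => sq_nonneg _
  have hcross : ∀ w : F, (∑ v : F, if Crs (fun q => inF F (I q)) (fun q => inF F (dp q)) w v then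
      eZ Z x w v else 0) ≤ Kc * A0 * (if k < m w then (m w : ℝ) else 0) := by
    intro w
    have e : (∑ v : F, if Crs (fun q => inF F (I q)) (fun q => inF F (dp q)) w v then
        eZ Z x w v else 0) = ∑ i, ∑ v : F, (if Crs (fun q => inF F (I q)) (fun q => inF F (dp q)) w v
          then pd v (fun y => Z i y w) x ^ 2 else 0) := by
      rw [Finset.sum_comm]
      refine Finset.sum_congr rfl fun v _ => ?_
      split_ifs
      · rfl
      · simp
    rw [e]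
    calc _ ≤ ∑ _i : κ, A0 * (if k < m w then (m w : ℝ) else 0) :=
          Finset.sum_le_sum fun i _ => hz.cross i w
      _ = _ := by simp [hKc, mul_assoc]
  have heT : ∀ w : F, eT T x w ≤ Kc * B ^ 2 := by
    intro w
    unfold eT
    calc _ ≤ ∑ _i : κ, B ^ 2 := Finset.sum_le_sum fun i _ => by
          rw [← sq_abs]; exact pow_le_pow_left₀ (abs_nonneg _) (hT.TB i x w) 2
      _ = _ := by simp [hKc]
  have heT0 : ∀ w : F, 0 ≤ eT T x w := fun w => Finset.sum_nonneg fun _ _ => sq_nonneg _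
  have heg : ∀ q, eg g x q ≤ B0 * tl (N q) k m := fun q => eg_le hε hΛ hc0 (hd.g q)
  have heg0 : ∀ q, 0 ≤ eg g x q := fun q => Finset.sum_nonneg fun _ _ => sq_nonneg _
  -- term A
  have tA : ∑ w : F, (if ¬ ∃ q, (w : U) ∈ dp q then nP S dp g Z T Psi x w * ∑ v, eZ Z x w v
      else 0) ≤ P ^ 2 * (Kc * A0 * ∑ w ∈ S.filter (fun w => ∀ q, w ∉ dp q), (m w : ℝ)) := by
    have h1 : ∀ w : F, (if ¬ ∃ q, (w : U) ∈ dp q then nP S dp g Z T Psi x w * ∑ v, eZ Z x w v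
        else 0) ≤ if w ∈ inF F (S.filter (fun w => ∀ q, w ∉ dp q)) then P ^ 2 * (Kc * A0 * m w)
          else 0 := by
      intro w
      by_cases hw : (w : U) ∈ S
      · by_cases hq : ∃ q, (w : U) ∈ dp q
        · rw [if_neg (not_not.mpr hq)]
          split_ifs <;> positivity
        · rw [if_pos hq, if_pos]
          · exact mul_le_mul (hnP w) (hrow w) (hrow0 w) (sq_nonneg _)
          · rw [mem_inF, Finset.mem_filter]
            push Not at hq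
            exact ⟨hw, hq⟩
      · rw [hnPS w hw, zero_mul]
        split_ifs <;> positivity
    refine (Finset.sum_le_sum fun w _ => h1 w).trans (le_of_eq ?_)
    rw [Finset.sum_ite_mem, Finset.univ_inter,
      sum_inF ((Finset.filter_subset _ _).trans H.SF) fun w => P ^ 2 * (Kc * A0 * m w),
      ← Finset.mul_sum, ← Finset.mul_sum]
  -- term B
  have tB : ∑ w : F, nP S dp g Z T Psi x w *
      (∑ v : F, if Crs (fun q => inF F (I q)) (fun q => inF F (dp q)) w v then eZ Z x w v else 0) ≤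
      P ^ 2 * (Kc * A0 * tl S k m) := by
    have h1 : ∀ w : F, nP S dp g Z T Psi x w *
        (∑ v : F, if Crs (fun q => inF F (I q)) (fun q => inF F (dp q)) w v then eZ Z x w v
          else 0) ≤ if w ∈ inF F S then P ^ 2 * (Kc * A0 * (if k < m w then (m w : ℝ) else 0))
            else 0 := by
      intro w
      by_cases hw : (w : U) ∈ S
      · rw [if_pos (mem_inF.mpr hw)]
        refine mul_le_mul (hnP w) (hcross w) ?_ (sq_nonneg _)
        refine Finset.sum_nonneg fun v _ => ?_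
        split_ifs
        · exact Finset.sum_nonneg fun _ _ => sq_nonneg _
        · exact le_rfl
      · rw [hnPS w hw, zero_mul, if_neg (fun h => hw (mem_inF.mp h))]
    refine (Finset.sum_le_sum fun w _ => h1 w).trans (le_of_eq ?_)
    rw [Finset.sum_ite_mem, Finset.univ_inter,
      sum_inF H.SF fun w => P ^ 2 * (Kc * A0 * (if k < m w then (m w : ℝ) else 0)),
      ← Finset.mul_sum, ← Finset.mul_sum]
    rfl
  -- term C
  have tC : ∑ q, ∑ w ∈ inF F (dp q), nP S dp g Z T Psi x w * eT T x w * eg g x q ≤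
      P ^ 2 * (Kc * (B ^ 2 * B0) * ∑ q, (1 + (I q).card) * tl (N q) k m) := by
    rw [Finset.mul_sum, Finset.mul_sum]
    refine Finset.sum_le_sum fun q _ => ?_
    have htl := tl_nonneg (N q) k m
    have h1 : ∀ w ∈ inF F (dp q), nP S dp g Z T Psi x w * eT T x w * eg g x q ≤
        P ^ 2 * (Kc * B ^ 2) * (B0 * tl (N q) k m) := by
      intro w _
      refine mul_le_mul ?_ (heg q) (heg0 q) (by positivity)
      exact mul_le_mul (hnP w) (heT w) (heT0 w) (sq_nonneg _)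
    refine (Finset.sum_le_sum h1).trans ?_
    rw [Finset.sum_const, nsmul_eq_mul, card_inF (hdpF q)]
    have h2 : ((dp q).card : ℝ) ≤ 1 + (I q).card := by
      have : (dp q).card ≤ (I q).card := Finset.card_le_card (H.sub q)
      have : ((dp q).card : ℝ) ≤ (I q).card := by exact_mod_cast this
      linarith
    calc ((dp q).card : ℝ) * (P ^ 2 * (Kc * B ^ 2) * (B0 * tl (N q) k m)) ≤
        (1 + (I q).card) * (P ^ 2 * (Kc * B ^ 2) * (B0 * tl (N q) k m)) := by gcongr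
      _ = _ := by ring
  -- blocks
  have tD : ∀ q, blk S I dp g Z T Psi x q ≤
      (1 + θ) ^ 2 * Qb (I q) (sl' Psi (a q)) (Zl q) T x +
      P ^ 2 * (Kc * ((1 + θ) ^ 2 * A0 + (1 + θ) * (1 + θ⁻¹) * (B ^ 2 * B0)) *
        ((1 + (I q).card) * tl (N q) k m)) +
      P2 ^ 2 * ((1 + θ⁻¹) * (Kc * KL' a1 ε Λ c0 B CT ^ 2) *
        ((I q).card * ∑ w ∈ I q, (L * m w + B + R) ^ 2)) := by
    intro q
    have htl := tl_nonneg (N q) k m
    have h1 := blk_le hLow hd q (sl' Psi (a q)) (Zl q)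
      (K := KL' a1 ε Λ c0 B CT) hθ
      (fun h w hw i v => hz.loc q h w hw i v)
      (fun i w v => abs_pd_L_le' H hε hΛ hc0 hT hCT hd hz.sup i w v)
    refine h1.trans ?_
    have hs0 : 0 ≤ ∑ i, sl' Psi (a q) i ^ 2 := Finset.sum_nonneg fun _ _ => sq_nonneg _
    -- the event `g < 1`
    have h2 : (if g q x < 1 then (∑ i, sl' Psi (a q) i ^ 2) *
        ∑ w ∈ inF F (I q), ∑ v, eZ Z x w v else 0) ≤
        P ^ 2 * (Kc * A0 * ((1 + (I q).card) * tl (N q) k m)) := by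
      split_ifs with hlt
      · have h3 : (k : ℝ) + 1 ≤ tl (N q) k m := tl_of_gx_lt hc0 hlt
        have h4 : ∑ w ∈ inF F (I q), ∑ v, eZ Z x w v ≤ Kc * A0 * ∑ w ∈ I q, (m w : ℝ) := by
          rw [Finset.mul_sum, ← sum_inF (hISF q) fun w => Kc * A0 * (m w : ℝ)]
          exact Finset.sum_le_sum fun w _ => hrow w
        have h5 : ∑ w ∈ I q, (m w : ℝ) ≤ (1 + (I q).card) * tl (N q) k m := by
          have h6 : ∀ w ∈ I q, (m w : ℝ) ≤ (if k < m w then (m w : ℝ) else 0) + k := by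
            intro w _
            split_ifs with hk
            · have : (0 : ℝ) ≤ k := Nat.cast_nonneg k
              linarith
            · have : (m w : ℝ) ≤ k := by exact_mod_cast not_lt.mp hk
              linarith
          have h7 : ∑ w ∈ I q, (if k < m w then (m w : ℝ) else 0) ≤ tl (N q) k m :=
            Finset.sum_le_sum_of_subset_of_nonneg (H.IN q) fun _ _ _ => by
              split_ifs <;> positivity
          calc ∑ w ∈ I q, (m w : ℝ) ≤ ∑ w ∈ I q, ((if k < m w then (m w : ℝ) else 0) + k) :=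
                Finset.sum_le_sum h6
            _ = ∑ w ∈ I q, (if k < m w then (m w : ℝ) else 0) + (I q).card * k := by
                rw [Finset.sum_add_distrib, Finset.sum_const, nsmul_eq_mul]
            _ ≤ tl (N q) k m + (I q).card * tl (N q) k m := by
                refine add_le_add h7 (mul_le_mul_of_nonneg_left (by linarith) (Nat.cast_nonneg _))
            _ = _ := by ring
        calc (∑ i, sl' Psi (a q) i ^ 2) * ∑ w ∈ inF F (I q), ∑ v, eZ Z x w v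
            ≤ P ^ 2 * (Kc * A0 * ∑ w ∈ I q, (m w : ℝ)) :=
              mul_le_mul (hP1 _) h4 (Finset.sum_nonneg fun w _ => hrow0 w) (sq_nonneg _)
          _ ≤ _ := by
              refine mul_le_mul_of_nonneg_left ?_ (sq_nonneg _)
              exact mul_le_mul_of_nonneg_left h5 (by positivity)
      · positivity
    -- templates
    have h8 : (∑ i, sl' Psi (a q) i ^ 2) * (∑ w ∈ inF F (I q), eT T x w) * eg g x q ≤
        P ^ 2 * (Kc * (B ^ 2 * B0) * ((1 + (I q).card) * tl (N q) k m)) := by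
      have h9 : ∑ w ∈ inF F (I q), eT T x w ≤ (I q).card * (Kc * B ^ 2) := by
        refine (Finset.sum_le_sum fun w _ => heT w).trans (le_of_eq ?_)
        rw [Finset.sum_const, nsmul_eq_mul, card_inF (hISF q)]
      calc _ ≤ P ^ 2 * ((I q).card * (Kc * B ^ 2)) * (B0 * tl (N q) k m) := by
            refine mul_le_mul ?_ (heg q) (heg0 q) (by positivity)
            exact mul_le_mul (hP1 _) h9 (Finset.sum_nonneg fun w _ => heT0 w) (sq_nonneg _)
        _ = P ^ 2 * (Kc * (B ^ 2 * B0) * ((I q).card * tl (N q) k m)) := by ring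
        _ ≤ _ := by
            gcongr
            linarith
    -- variation of the slope
    have h10 : ∑ w ∈ inF F (I q), ∑ i, (pw S dp g Z T Psi x w i - sl' Psi (a q) i) ^ 2 ≤
        P2 ^ 2 * ∑ w ∈ I q, (L * m w + B + R) ^ 2 := by
      rw [Finset.mul_sum, ← sum_inF (hISF q) fun w => P2 ^ 2 * (L * (m w : ℝ) + B + R) ^ 2]
      refine Finset.sum_le_sum fun w hw => ?_
      rw [mem_inF] at hw
      have hwS : (w : U) ∈ S := H.IS q hw
      have h11 : ∀ i, pw S dp g Z T Psi x w i = sl' Psi (fun i => Lf dp g Z T i x w) i := by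
        intro i
        rw [pw, if_pos hwS]; rfl
      simp only [h11]
      refine (hP2 _ _).trans (mul_le_mul_of_nonneg_left ?_ (sq_nonneg _))
      refine pow_le_pow_left₀ (norm_nonneg _) ?_ 2
      rw [pi_norm_le_iff_of_nonneg (by positivity)]
      intro i
      rw [Real.norm_eq_abs, Pi.sub_apply]
      have h12 : |Z i x w - φs i w| ≤ L * m w := hz.disp i w
      have h13 : |Gw dp g x w * T i x w| ≤ B := by
        rw [abs_mul]
        have h14 : |Gw dp g x w| ≤ 1 := by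
          by_cases hwd : ∃ q, (w : U) ∈ dp q
          · obtain ⟨q', hq'⟩ := hwd
            rw [Gw_eq H.bg x hq', abs_of_nonneg (gf_nonneg q' x)]
            exact gf_le_one q' x
          · push Not at hwd
            rw [Gw_eq_zero x hwd, abs_zero]; exact zero_le_one
        calc _ ≤ 1 * B := mul_le_mul h14 (hT.TB i x w) (abs_nonneg _) zero_le_one
          _ = B := one_mul _
      have h15 := ha q w hw i
      have e : Lf dp g Z T i x w - a q i = (Z i x w - φs i w) + Gw dp g x w * T i x w +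
          (φs i w - a q i) := by unfold Lf; ring
      rw [e]
      refine (abs_add_three _ _ _).trans ?_
      linarith
    have h2' := mul_le_mul_of_nonneg_left h2 (show (0:ℝ) ≤ (1 + θ) ^ 2 by positivity)
    have h8' := mul_le_mul_of_nonneg_left h8 (show (0:ℝ) ≤ (1 + θ) * (1 + θ⁻¹) by positivity)
    have h10' := mul_le_mul_of_nonneg_left h10
      (show (0:ℝ) ≤ (1 + θ⁻¹) * (Kc * KL' a1 ε Λ c0 B CT ^ 2 * (I q).card) by positivity)
    rw [card_inF (hISF q)]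
    rw [mul_add]
    calc _ ≤ (1 + θ) ^ 2 * Qb (I q) (sl' Psi (a q)) (Zl q) T x +
          (1 + θ) ^ 2 * (P ^ 2 * (Kc * A0 * ((1 + (I q).card) * tl (N q) k m))) +
          (1 + θ) * (1 + θ⁻¹) * (P ^ 2 * (Kc * (B ^ 2 * B0) * ((1 + (I q).card) * tl (N q) k m))) +
          (1 + θ⁻¹) * (Kc * KL' a1 ε Λ c0 B CT ^ 2 * (I q).card) *
            (P2 ^ 2 * ∑ w ∈ I q, (L * m w + B + R) ^ 2) := by
            refine add_le_add (add_le_add (add_le_add le_rfl h2') h8') ?_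
            refine le_trans (le_of_eq ?_) h10'
            ring
      _ = _ := by ring
  -- assembly
  have tD' := Finset.sum_le_sum fun q (_ : q ∈ (Finset.univ : Finset ι)) => tD q
  simp only [Finset.sum_add_distrib, ← Finset.mul_sum] at tD'
  have tB' := mul_le_mul_of_nonneg_left (add_le_add tB tC) (show (0:ℝ) ≤ 2 by norm_num)
  refine h0.trans ((add_le_add (add_le_add tD' tA) tB').trans (le_of_eq ?_))
  unfold cE'
  rw [← hB0]
  ring

end Crest.Agent.R144.LoB95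
end
end

-- ▼ part R144/LoB9_95

/-!
# R144 (S0197), helper95, lower bound (trace form), file 9: the symmetric explicit field (565)

`Zl ψ i = Z (ψ i) - (Z (ψ 0) + Z (ψ 1) + Z (ψ 2)) / 3`, `i : Fin 2`.  `zat_inst`, `exists_low'`,
`gat_inst'`, `dat_ae'`, `disp_le'`, and the cut-off criterion `cut_of_short`.
-/

set_option autoImplicit false
set_option linter.unusedSectionVars false

open MeasureTheory Set Filter Topology
open scoped ENNReal NNReal

noncomputable section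

namespace Crest.Agent.R144.LoB95

open Crest.Agent.R144.Ham560
open Crest.Agent.R144.Tri560
open Crest.Agent.R144.Zb560 (sr iv IsOpt pt cz Zx gx gq lp pt_spec pt_mem' op isOpt_op no_visit
  cz_nonneg mem_lp single_mem_pt Ei mem_nbr_Ei)
open Crest.Agent.R144.MW121 (jac jac_apply Tan)
open Crest.Agent.R144.Fib674 (pd)

variable {U : Type*} [DecidableEq U] {ι : Type*} [Fintype ι]
variable {F S S' : Finset U} {E : Finset (U × U)} {ξ : U → ℝ} {I dp W N : ι → Finset U}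
  {dd : U → U → ℕ} {k : ℕ} {ρ ε Λ c0 : ℝ}

/-- a family of three scalars minus its mean -/
def l3 (a : Fin 3 → ℝ) (i : Fin 2) : ℝ := a i.castSucc - (a 0 + a 1 + a 2) / 3

theorem abs_l3_le {a : Fin 3 → ℝ} {c : ℝ} (h : ∀ k, |a k| ≤ c) (i : Fin 2) : |l3 a i| ≤ 2 * c := by
  have h0 := abs_le.mp (h 0)
  have h1 := abs_le.mp (h 1)
  have h2 := abs_le.mp (h 2)
  have hi := abs_le.mp (h i.castSucc)
  have hc : 0 ≤ c := (abs_nonneg _).trans (h 0)
  unfold l3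
  rw [abs_le]
  constructor <;> linarith [h0.1, h0.2, h1.1, h1.2, h2.1, h2.2, hi.1, hi.2]

theorem l3_sq_le (a : Fin 3 → ℝ) (i : Fin 2) : l3 a i ^ 2 ≤ ∑ k, a k ^ 2 := by
  rw [Fin.sum_univ_three]
  unfold l3
  fin_cases i
  · change (a 0 - (a 0 + a 1 + a 2) / 3) ^ 2 ≤ _
    nlinarith [sq_nonneg (a 0 + a 1 + a 2), sq_nonneg (a 1 - a 2), sq_nonneg (a 0),
      sq_nonneg (a 1), sq_nonneg (a 2)]
  · change (a 1 - (a 0 + a 1 + a 2) / 3) ^ 2 ≤ _
    nlinarith [sq_nonneg (a 0 + a 1 + a 2), sq_nonneg (a 0 - a 2), sq_nonneg (a 0),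
      sq_nonneg (a 1), sq_nonneg (a 2)]

theorem l3_sub (a b : Fin 3 → ℝ) (i : Fin 2) : l3 a i - l3 b i = l3 (fun k => a k - b k) i := by
  unfold l3; ring

/-- the symmetric explicit field -/
def Zl (S : Finset U) (E : Finset (U × U)) (ρ ε Λ : ℝ) (ψ : Fin 3 → U → ℝ) (F : Finset U)
    (ξ : U → ℝ) (i : Fin 2) (x : F → ℝ) (w : F) : ℝ :=
  l3 (fun k => Zf S E ρ ε Λ (ψ k) F ξ x w) i

/-- its reference positions -/
def ph (ψ : Fin 3 → U → ℝ) (i : Fin 2) (w : U) : ℝ := l3 (fun k => ψ k w) i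

theorem fd_Zl (hρ : 0 ≤ ρ) (hε : 0 < ε) (hΛ : 0 ≤ Λ) (ψ : Fin 3 → U → ℝ) (i : Fin 2) :
    Fd F E ξ S (2 * max (Zb560.lcz S ε Λ : ℝ) (Λ / ε)) (Zl S E ρ ε Λ ψ F ξ i) where
  lip x y w := by
    unfold Zl
    rw [l3_sub]
    refine (abs_l3_le (c := max (Zb560.lcz S ε Λ : ℝ) (Λ / ε) * ‖x - y‖) (fun k =>
      (fd_Zf hρ hε hΛ (ψ k)).lip x y w) i).trans (le_of_eq (by ring))
  edge x hx a b ha hb hab := by
    unfold Zl
    rw [l3_sub]
    refine (abs_l3_le (c := max (Zb560.lcz S ε Λ : ℝ) (Λ / ε) * slk F ξ x a b) (fun k =>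
      (fd_Zf hρ hε hΛ (ψ k)).edge x hx a b ha hb hab) i).trans (le_of_eq (by ring))

/-- the data of the trial field satisfy `Low` -/
theorem exists_low' (H : Gm F S S' E I dp W N dd k) (hρ : 0 ≤ ρ) (hε : 0 < ε) (hΛ : 0 ≤ Λ)
    (hc0 : 0 < c0) (ψ : Fin 3 → U → ℝ) {φ0 : U → ℝ} (h0 : ∀ a, 0 ≤ φ0 a)
    (h0S : ∀ a, a ∉ S → φ0 a = 0) {T : Fin 2 → (F → ℝ) → F → ℝ} {CT B : ℝ}
    (hT : Tm F E ξ S dp W T CT B) {Psi : (Fin 2 → ℝ) → ℝ} {CP : ℝ}
    (hPl : ∀ l l' : Fin 2 → ℝ, |Psi l - Psi l'| ≤ CP * ‖l - l'‖) (hPB : ∀ l, |Psi l| ≤ CP) :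
    Low F E ξ S I dp W (gf S E N k ρ ε Λ c0 ψ F ξ) (Zl S E ρ ε Λ ψ F ξ) T
      (Zf S' E ρ ε Λ φ0 F ξ) Psi
      (1 + 2 * max (Zb560.lcz S ε Λ : ℝ) (Λ / ε) + max (Zb560.lcz S' ε Λ : ℝ) (Λ / ε) +
        (S.card + 1) * (2 * Λ / ε) / c0 + |CT| + |B| + |CP|) := by
  obtain ⟨v1, v2, v3⟩ := fd_V (ξ := ξ) H hρ hε hΛ h0 h0S
  set c1 : ℝ := 2 * max (Zb560.lcz S ε Λ : ℝ) (Λ / ε)
  set c2 : ℝ := max (Zb560.lcz S' ε Λ : ℝ) (Λ / ε)
  set c3 : ℝ := (S.card + 1) * (2 * Λ / ε) / c0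
  have p1 : 0 ≤ c1 := mul_nonneg zero_le_two (le_max_of_le_right (by positivity))
  have p2 : 0 ≤ c2 := le_max_of_le_right (by positivity)
  have p3 : 0 ≤ c3 := by positivity
  set C : ℝ := 1 + c1 + c2 + c3 + |CT| + |B| + |CP| with hC
  have n1 := abs_nonneg CT
  have n2 := abs_nonneg B
  have n3 := abs_nonneg CP
  have n4 := le_abs_self CT
  have n5 := le_abs_self B
  have n6 := le_abs_self CP
  exact
    { C1 := by linarith
      bg := H.bg
      fZ := fun i => (fd_Zl hρ hε hΛ ψ i).mono (by linarith)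
      fT := fun i => (hT.fT i).mono (by linarith)
      T0 := hT.T0
      TB := fun i x w => (hT.TB i x w).trans (by linarith)
      TW := hT.TW
      glip := fun q x y => by
        have h := (Zb560.lip_gx (V := S) (E := E) (N := N q) (k := k) (ρ := ρ) (φs := ψ) (F := F)
          (ξ := ξ) hε hΛ hc0 (H.NS q)).dist_le_mul x y
        rw [Real.dist_eq, dist_eq_norm, Real.coe_toNNReal _ p3] at h
        exact h.trans (mul_le_mul_of_nonneg_right (by linarith) (norm_nonneg _))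
      g0 := fun q x => Zb560.gq_nonneg
      g1 := fun q x => Zb560.gq_le_one
      fV := v1.mono (by linarith)
      VS := v2
      VF := fun x hx a b hb hab => (v3 x hx a b hb hab).trans
        (mul_le_mul_of_nonneg_right (by linarith) (slk_nonneg _ _ _))
      Plip := fun l l' => (hPl l l').trans
        (mul_le_mul_of_nonneg_right (by linarith) (norm_nonneg _))
      PB := fun l => (hPB l).trans (by linarith) }

/-! ### displacement with a Lipschitz bound inside `S` only -/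

theorem Ei_Ei : Ei S (Ei S E) = Ei S E := by
  unfold Ei
  rw [Finset.filter_filter]
  congr 1
  ext p
  simp

theorem pt_Ei (u : U) : pt S (Ei S E) u = pt S E u := by
  unfold pt
  rw [Ei_Ei]

theorem iv_Ei (φ : U → ℝ) (c : U → U → ℝ) (u : U) : iv S (Ei S E) φ c u = iv S E φ c u := by
  unfold iv
  simp only [pt_Ei]

theorem disp_le' (hΛ : 0 ≤ Λ) (hc0 : 0 < c0) {κ : Type*} [Fintype κ] {φs : κ → U → ℝ} {i : κ}
    {L : ℝ} (hL0 : 0 ≤ L) (hφ : ∀ a ∈ S, ∀ b ∈ S, b ∈ nbr E a → |φs i a - φs i b| ≤ L)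
    (x : F → ℝ) (w : F) :
    |Zx S E ρ ε Λ (φs i) F ξ w x - φs i w| ≤ L * mc S E ρ ε Λ c0 φs (ext F ξ x) w := by
  have ho := isOpt_op S E (φs i) (cz ρ ε Λ (ext F ξ x)) w
  set l := op S E (φs i) (cz ρ ε Λ (ext F ξ x)) w
  have ho' : IsOpt S (Ei S E) (φs i) (cz ρ ε Λ (ext F ξ x)) w l := by
    obtain ⟨h1, h2⟩ := ho
    refine ⟨by rw [pt_Ei]; exact h1, by rw [iv_Ei]; exact h2⟩
  have h1 := Zb560.iv_sub_abs_le (κ := L) (cz_nonneg hΛ (ext F ξ x))
    (fun a b hab => by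
      rw [mem_nbr_Ei] at hab
      exact hφ a hab.2.1 b hab.2.2 hab.1) ho'
  rw [iv_Ei] at h1
  have h2 := opt_le_mc (c0 := c0) (φs := φs) hc0 ho
  refine le_trans h1 (mul_le_mul_of_nonneg_left ?_ hL0)
  have h3 := pe_length _ (Zb560.pt_ne_nil ho.1)
  have h4 : (pe l).length ≤ mc S E ρ ε Λ c0 φs (ext F ξ x) w := by omega
  exact_mod_cast h4

/-! ### good points -/

/-- all the elementary data are differentiable -/
structure DA3 (S : Finset U) (E : Finset (U × U)) (N : ι → Finset U) (k : ℕ) (ρ ε Λ c0 : ℝ)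
    (ψ : Fin 3 → U → ℝ) (F : Finset U) (ξ : U → ℝ) (T : Fin 2 → (F → ℝ) → F → ℝ)
    (x : F → ℝ) : Prop where
  Z : ∀ k (w : F), DifferentiableAt ℝ (fun y => Zf S E ρ ε Λ (ψ k) F ξ y w) x
  T : ∀ i (w : F), DifferentiableAt ℝ (fun y => T i y w) x
  g : ∀ q, DifferentiableAt ℝ (gf S E N k ρ ε Λ c0 ψ F ξ q) x

theorem diff_l3 {a : Fin 3 → (F → ℝ) → ℝ} {x : F → ℝ} (h : ∀ k, DifferentiableAt ℝ (a k) x)
    (i : Fin 2) : DifferentiableAt ℝ (fun y => l3 (fun k => a k y) i) x := by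
  have e : (fun y => l3 (fun k => a k y) i) =
      a i.castSucc - (3 : ℝ)⁻¹ • (a 0 + a 1 + a 2) := by
    funext y
    simp only [l3, Pi.sub_apply, Pi.smul_apply, Pi.add_apply, smul_eq_mul]
    ring
  rw [e]
  exact (h _).sub ((((h 0).add (h 1)).add (h 2)).const_smul (3 : ℝ)⁻¹)

theorem pd_l3 {a : Fin 3 → (F → ℝ) → ℝ} {x : F → ℝ} (h : ∀ k, DifferentiableAt ℝ (a k) x)
    (i : Fin 2) (v : F) :
    pd v (fun y => l3 (fun k => a k y) i) x = l3 (fun k => pd v (a k) x) i := by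
  unfold l3
  have e : (fun y => a i.castSucc y - (a 0 y + a 1 y + a 2 y) / 3) =
      a i.castSucc - (3 : ℝ)⁻¹ • (a 0 + a 1 + a 2) := by
    funext y
    simp only [Pi.sub_apply, Pi.smul_apply, Pi.add_apply, smul_eq_mul]
    ring
  unfold pd
  rw [e, fderiv_sub (h _) (((h 0).add (h 1)).add (h 2) |>.const_smul _),
    fderiv_const_smul (((h 0).add (h 1)).add (h 2)), fderiv_add ((h 0).add (h 1)) (h 2),
    fderiv_add (h 0) (h 1)]
  simp only [_root_.sub_apply, _root_.smul_apply, _root_.add_apply, smul_eq_mul]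
  ring

variable {ψ : Fin 3 → U → ℝ} {T : Fin 2 → (F → ℝ) → F → ℝ} {x : F → ℝ}

theorem DA3.dat (h : DA3 S E N k ρ ε Λ c0 ψ F ξ T x) :
    DAt (gf S E N k ρ ε Λ c0 ψ F ξ) (Zl S E ρ ε Λ ψ F ξ) T x where
  Z i w := diff_l3 (fun k => h.Z k w) i
  T := h.T
  g := h.g

theorem dat_ae' (H : Gm F S S' E I dp W N dd k) (hε : 0 < ε) (hΛ : 0 ≤ Λ)
    (hc0 : 0 < c0) {CT B : ℝ} (hCT : 0 ≤ CT)
    (hT : Tm F E ξ S dp W T CT B) : ∀ᵐ x : F → ℝ, DA3 S E N k ρ ε Λ c0 ψ F ξ T x := by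
  have h1 : ∀ᵐ x : F → ℝ, ∀ k, ∀ w : F,
      DifferentiableAt ℝ (fun y => Zf S E ρ ε Λ (ψ k) F ξ y w) x :=
    ae_all_iff.mpr fun k => ae_all_iff.mpr fun w =>
      (Zb560.lip_Zx (V := S) (E := E) (ρ := ρ) (φ := ψ k) (F := F) (ξ := ξ) hε hΛ
        (w : U)).ae_differentiableAt
  have h2 : ∀ᵐ x : F → ℝ, ∀ i, ∀ w : F, DifferentiableAt ℝ (fun y => T i y w) x := by
    refine ae_all_iff.mpr fun i => ae_all_iff.mpr fun w => ?_
    have : LipschitzWith CT.toNNReal (fun y => T i y w) := by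
      refine LipschitzWith.of_dist_le_mul fun y z => ?_
      rw [Real.dist_eq, dist_eq_norm, Real.coe_toNNReal _ hCT]
      exact (hT.fT i).lip y z w
    exact this.ae_differentiableAt
  have h3 : ∀ᵐ x : F → ℝ, ∀ q, DifferentiableAt ℝ (gf S E N k ρ ε Λ c0 ψ F ξ q) x :=
    ae_all_iff.mpr fun q =>
      (Zb560.lip_gx (V := S) (E := E) (N := N q) (k := k) (ρ := ρ) (φs := ψ) (F := F)
          (ξ := ξ) hε hΛ hc0 (H.NS q)).ae_differentiableAt
  filter_upwards [h1, h2, h3] with x a b c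
  exact ⟨a, b, c⟩

theorem loc_ev (H : Gm F S S' E I dp W N dd k) (hε : 0 < ε) (hΛ : 0 ≤ Λ) (hc0 : 0 < c0)
    {q : ι} (hg : 0 < gf S E N k ρ ε Λ c0 ψ F ξ q x) {w : F}
    (hw : (w : U) ∈ I q) (j : Fin 3) :
    (fun y => Zf S E ρ ε Λ (ψ j) F ξ y w) =ᶠ[𝓝 x] fun y => Zf (W q) E ρ ε Λ (ψ j) F ξ y w := by
  have hcont : Continuous (gf S E N k ρ ε Λ c0 ψ F ξ q) :=
    (Zb560.lip_gx (V := S) (E := E) (N := N q) (k := k) (ρ := ρ) (φs := ψ) (F := F)
      (ξ := ξ) hε hΛ hc0 (H.NS q)).continuous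
  filter_upwards [(hcont.tendsto x).eventually (lt_mem_nhds hg)] with y hy
  refine (Zb560.iv_window_of_short dd H.dd0 H.ddt H.dd1 (H.WS q) (k := k) ?_ ?_
    (H.IS q hw)).symm
  · intro l hl
    exact Zb560.opt_short hc0 hy j (H.IN q hw) hl
  · intro a ha hda
    exact H.Ww q w hw a ha hda

theorem loc_inst' (H : Gm F S S' E I dp W N dd k) (hε : 0 < ε) (hΛ : 0 ≤ Λ) (hc0 : 0 < c0)
    {q : ι} (hg : 0 < gf S E N k ρ ε Λ c0 ψ F ξ q x) {w : F}
    (hw : (w : U) ∈ I q) (i : Fin 2) (v : F) :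
    pd v (fun y => Zl S E ρ ε Λ ψ F ξ i y w) x =
      pd v (fun y => Zl (W q) E ρ ε Λ ψ F ξ i y w) x := by
  refine pd_congr ?_ v
  filter_upwards [loc_ev H hε hΛ hc0 hg hw i.castSucc, loc_ev H hε hΛ hc0 hg hw 0,
    loc_ev H hε hΛ hc0 hg hw 1, loc_ev H hε hΛ hc0 hg hw 2] with y h1 h2 h3 h4
  simp only [Zl, l3]
  rw [h1, h2, h3, h4]

theorem see_inst' (H : Gm F S S' E I dp W N dd k) (hΛ : 0 ≤ Λ) (hc0 : 0 < c0)
    {q : ι} (hg : 0 < gf S E N k ρ ε Λ c0 ψ F ξ q x) {v w : F}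
    (hv : (v : U) ∉ I q) (hw : (w : U) ∈ dp q) (i : Fin 2)
    (hd : ∀ j, DifferentiableAt ℝ (fun y => Zf S E ρ ε Λ (ψ j) F ξ y v) x) :
    pd w (fun y => Zl S E ρ ε Λ ψ F ξ i y v) x = 0 := by
  have h : ∀ j, pd w (fun y => Zf S E ρ ε Λ (ψ j) F ξ y v) x = 0 := fun j =>
    see_inst H hΛ hc0 hg hv hw j (hd j)
  have h1 := pd_l3 hd i w
  unfold Zl
  rw [h1]
  unfold l3
  simp [h]

theorem gat_inst' (H : Gm F S S' E I dp W N dd k) (hΛ : 0 ≤ Λ) (hc0 : 0 < c0)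
    {V : (F → ℝ) → F → ℝ} {Psi : (Fin 2 → ℝ) → ℝ} (hd : DA3 S E N k ρ ε Λ c0 ψ F ξ T x)
    (hcut : ∀ w : F, (w : U) ∈ S → (fun i => Lf dp (gf S E N k ρ ε Λ c0 ψ F ξ)
      (Zl S E ρ ε Λ ψ F ξ) T i x w) ∈ tsupport Psi → 1 < V x w) :
    GAt S I dp W (gf S E N k ρ ε Λ c0 ψ F ξ) (Zl S E ρ ε Λ ψ F ξ) T V Psi x where
  cut := hcut
  see := fun _q hq v _w _ hvI hw i => see_inst' H hΛ hc0 hq hvI hw i fun j => hd.Z j v

theorem row_l3 (hd : DA3 S E N k ρ ε Λ c0 ψ F ξ T x) (i : Fin 2) (w v : F) :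
    pd v (fun y => Zl S E ρ ε Λ ψ F ξ i y w) x ^ 2 ≤
      ∑ j, pd v (fun y => Zf S E ρ ε Λ (ψ j) F ξ y w) x ^ 2 := by
  have h1 := pd_l3 (fun j => hd.Z j w) i v
  unfold Zl
  rw [h1]
  exact l3_sq_le _ _

open Classical in
/-- the symmetric field satisfies everything that the pointwise inequality needs -/
theorem zat_inst (H : Gm F S S' E I dp W N dd k) (hε : 0 < ε) (hΛ : 0 ≤ Λ) (hc0 : 0 < c0)
    (hd : DA3 S E N k ρ ε Λ c0 ψ F ξ T x) {L : ℝ} (hL0 : 0 ≤ L)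
    (hψ : ∀ j, ∀ a ∈ S, ∀ b ∈ S, b ∈ nbr E a → |ψ j a - ψ j b| ≤ L) :
    ZAt S I dp k (gf S E N k ρ ε Λ c0 ψ F ξ) (Zl S E ρ ε Λ ψ F ξ)
      (fun q => Zl (W q) E ρ ε Λ ψ F ξ) (ph ψ) (mc S E ρ ε Λ c0 ψ (ext F ξ x))
      (3 * (2 * Λ / ε) ^ 2) (2 * (2 * Λ / ε)) (2 * L) x where
  row i w := by
    calc ∑ v, pd v (fun y => Zl S E ρ ε Λ ψ F ξ i y w) x ^ 2
        ≤ ∑ v, ∑ j, pd v (fun y => Zf S E ρ ε Λ (ψ j) F ξ y w) x ^ 2 :=
          Finset.sum_le_sum fun v _ => row_l3 hd i w v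
      _ = ∑ j, ∑ v, pd v (fun y => Zf S E ρ ε Λ (ψ j) F ξ y w) x ^ 2 := Finset.sum_comm
      _ ≤ ∑ _j : Fin 3, (2 * Λ / ε) ^ 2 * mc S E ρ ε Λ c0 ψ (ext F ξ x) w :=
          Finset.sum_le_sum fun j _ => row_le hε hΛ hc0 (hd.Z j w)
      _ = _ := by
          rw [Finset.sum_const, Finset.card_univ, Fintype.card_fin, nsmul_eq_mul]
          push_cast
          ring
  cross i w := by
    calc _ ≤ ∑ v : F, ∑ j, (if Crs (fun q => inF F (I q)) (fun q => inF F (dp q)) w v then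
          pd v (fun y => Zf S E ρ ε Λ (ψ j) F ξ y w) x ^ 2 else 0) := by
          refine Finset.sum_le_sum fun v _ => ?_
          split_ifs with h
          · exact row_l3 hd i w v
          · simp
      _ = ∑ j, ∑ v : F, (if Crs (fun q => inF F (I q)) (fun q => inF F (dp q)) w v then
          pd v (fun y => Zf S E ρ ε Λ (ψ j) F ξ y w) x ^ 2 else 0) := Finset.sum_comm
      _ ≤ ∑ _j : Fin 3, (2 * Λ / ε) ^ 2 * (if k < mc S E ρ ε Λ c0 ψ (ext F ξ x) w then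
          (mc S E ρ ε Λ c0 ψ (ext F ξ x) w : ℝ) else 0) :=
          Finset.sum_le_sum fun j _ => by
            exact cross_le hε hΛ hc0 dd H.dd0 H.dds H.ddt H.dd1 H.deep (hd.Z j w)
      _ = _ := by
          rw [Finset.sum_const, Finset.card_univ, Fintype.card_fin, nsmul_eq_mul]
          push_cast
          ring
  loc q hg w hw i v := loc_inst' H hε hΛ hc0 hg hw i v
  sup i w v := by
    have h1 := pd_l3 (fun j => hd.Z j w) i v
    unfold Zl
    rw [h1]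
    exact abs_l3_le (fun j => Zb560.abs_pd_Z_le (V := S) (E := E) (ρ := ρ) (φ := ψ j) (ξ := ξ)
      hε hΛ (hd.Z j w) v) i
  disp i w := by
    unfold Zl ph
    rw [l3_sub]
    refine (abs_l3_le (c := L * mc S E ρ ε Λ c0 ψ (ext F ξ x) w) (fun j =>
      disp_le' (φs := ψ) hΛ hc0 hL0 (hψ j) x w) i).trans (le_of_eq (by ring))

end Crest.Agent.R144.LoB95
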