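import Crest.Agent.R144.Ham2_560
import Crest.Agent.R144.MW1_121
import Crest.Agent.R144.Ham4_560

-- ▼ part R144/Tri1_560
section

/-!
R144 (S0197), helper560, MW2: the explicit tangent field
`Y_u(x) = min_l (φ (last l) + Λ ∑ sl ε (∇))` over the simple paths `l` starting at `u`.

File 1: definition, comparison with `φ`, slope bound, Lipschitz bound, tangency.
-/

set_option autoImplicit false

open MeasureTheory Set
open scoped ENNReal NNReal
open Crest.Agent.R144.Ham560

noncomputable section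

namespace Crest.Agent.R144.Tri560

/-- Truncated slack of a slope. -/
def sl (ε s : ℝ) : ℝ := min 1 (max 0 ((1 - |s|) / ε))

theorem sl_nonneg (ε s : ℝ) : 0 ≤ sl ε s := le_min zero_le_one (le_max_left _ _)





theorem sl_eq_one {ε s : ℝ} (hε : 0 < ε) (hs : |s| ≤ 1 - ε) : sl ε s = 1 := by
  rw [sl, min_eq_left]
  refine le_max_of_le_right ?_
  rw [le_div_iff₀ hε]; linarith

theorem sl_lip {ε : ℝ} (hε : 0 < ε) (s t : ℝ) : |sl ε s - sl ε t| ≤ |s - t| / ε := by
  have h1 : |(1 - |s|) / ε - (1 - |t|) / ε| ≤ |s - t| / ε := by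
    rw [← sub_div, abs_div, abs_of_pos hε]
    refine div_le_div_of_nonneg_right ?_ hε.le
    rw [show (1 - |s|) - (1 - |t|) = |t| - |s| by ring]
    exact (abs_abs_sub_abs_le_abs_sub t s).trans (by rw [abs_sub_comm])
  have h2 : |max 0 ((1 - |s|) / ε) - max 0 ((1 - |t|) / ε)| ≤ |s - t| / ε :=
    (abs_max_sub_max_le_max _ _ _ _).trans (max_le (by simp; positivity) h1)
  exact (abs_min_sub_min_le_max _ _ _ _).trans (max_le (by simp; positivity) h2)

variable {U : Type*} [DecidableEq U] {F : Finset U} {E : Finset (U × U)} {ξ : U → ℝ}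

/-! ### Simple paths -/

/-- Duplicate-free lists with entries in `V`. -/
def nodupLists (V : Finset U) : Finset (List U) := V.powerset.biUnion fun s => s.val.lists.toFinset

theorem mem_nodupLists {V : Finset U} {l : List U} :
    l ∈ nodupLists V ↔ l.Nodup ∧ ∀ a ∈ l, a ∈ V := by
  rw [nodupLists, Finset.mem_biUnion]
  constructor
  · rintro ⟨s, hs, hl⟩
    rw [Multiset.mem_toFinset, Multiset.mem_lists_iff] at hl
    rw [Finset.mem_powerset] at hs
    have h1 : (l : Multiset U) = s.val := hl.symm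
    refine ⟨?_, fun a ha => hs ?_⟩
    · rw [← Multiset.coe_nodup, h1]; exact s.nodup
    · rw [← Finset.mem_val, ← h1]; exact ha
  · rintro ⟨h1, h2⟩
    refine ⟨l.toFinset, ?_, ?_⟩
    · rw [Finset.mem_powerset]
      intro a ha
      exact h2 a (List.mem_toFinset.mp ha)
    · rw [Multiset.mem_toFinset, Multiset.mem_lists_iff, List.toFinset_val, List.Nodup.dedup h1]
      rfl

theorem nbr_sy {a b : U} (h : b ∈ nbr E a) : a ∈ nbr E b := by
  rw [mem_nbr] at h ⊢
  exact ⟨h.1.symm, h.2.symm⟩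

/-- All vertices in play. -/
def vset (F : Finset U) (E : Finset (U × U)) : Finset U :=
  F ∪ (E.image Prod.fst ∪ E.image Prod.snd)

theorem nbr_mem_vset {a b : U} (h : b ∈ nbr E a) : a ∈ vset F E ∧ b ∈ vset F E := by
  simp only [vset, Finset.mem_union, Finset.mem_image]
  rcases (mem_nbr.mp h).2 with h | h
  · exact ⟨Or.inr (Or.inl ⟨_, h, rfl⟩), Or.inr (Or.inr ⟨_, h, rfl⟩)⟩
  · exact ⟨Or.inr (Or.inr ⟨_, h, rfl⟩), Or.inr (Or.inl ⟨_, h, rfl⟩)⟩

/-- Simple paths starting at `u`. -/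
def paths (F : Finset U) (E : Finset (U × U)) (u : U) : Finset (List U) :=
  insert [u] ((nodupLists (vset F E)).filter fun l => l.head? = some u ∧
    l.IsChain (fun a b => b ∈ nbr E a))

theorem mem_paths {u : U} {l : List U} : l ∈ paths F E u ↔ l = [u] ∨
    ((l.Nodup ∧ ∀ a ∈ l, a ∈ vset F E) ∧ l.head? = some u ∧
      l.IsChain (fun a b => b ∈ nbr E a)) := by
  rw [paths, Finset.mem_insert, Finset.mem_filter, mem_nodupLists]

theorem single_mem_paths (u : U) : [u] ∈ paths F E u := mem_paths.mpr (Or.inl rfl)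

theorem paths_spec {u : U} {l : List U} (h : l ∈ paths F E u) :
    l.Nodup ∧ l.head? = some u ∧ l.IsChain (fun a b => b ∈ nbr E a) := by
  rcases mem_paths.mp h with rfl | ⟨⟨h1, _⟩, h2, h3⟩
  · simp
  · exact ⟨h1, h2, h3⟩

theorem paths_cons {a b : U} {l : List U} (hab : b ∈ nbr E a) (hl : l ∈ paths F E b)
    (ha : a ∉ l) : a :: l ∈ paths F E a := by
  obtain ⟨h1, h2, h3⟩ := paths_spec hl
  have hV := nbr_mem_vset (F := F) hab
  refine mem_paths.mpr (Or.inr ⟨⟨?_, ?_⟩, rfl, ?_⟩)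
  · rw [List.nodup_cons]; exact ⟨ha, h1⟩
  · intro c hc
    rcases List.mem_cons.mp hc with rfl | hc
    · exact hV.1
    · rcases mem_paths.mp hl with rfl | ⟨⟨_, h4⟩, _⟩
      · rw [List.mem_singleton.mp hc]; exact hV.2
      · exact h4 c hc
  · rw [List.isChain_cons]
    refine ⟨fun y hy => ?_, h3⟩
    rw [h2] at hy
    obtain rfl := Option.mem_some_iff.mp hy
    exact hab

theorem paths_suffix {b z : U} {l1 l2 : List U} (h : l1 ++ z :: l2 ∈ paths F E b) :
    z :: l2 ∈ paths F E z := by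
  rcases mem_paths.mp h with h | ⟨⟨h1, h2⟩, _, h4⟩
  · rcases l1 with _ | ⟨c, l1⟩
    · simp only [List.nil_append, List.cons.injEq] at h
      obtain ⟨rfl, rfl⟩ := h
      exact single_mem_paths _
    · simp at h
  · refine mem_paths.mpr (Or.inr ⟨⟨?_, ?_⟩, rfl, ?_⟩)
    · exact h1.sublist (List.sublist_append_right _ _)
    · exact fun a ha => h2 a (List.mem_append_right _ ha)
    · exact h4.right_of_append

/-! ### Costs -/

/-- Sum of the step costs plus the value of `φ` at the end. -/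
def cost (φ : U → ℝ) (c : U → U → ℝ) : List U → ℝ
  | [] => 0
  | [a] => φ a
  | a :: b :: t => c a b + cost φ c (b :: t)

/-- Sum of the step costs. -/
def stp (c : U → U → ℝ) : List U → ℝ
  | [] => 0
  | [_] => 0
  | a :: b :: t => c a b + stp c (b :: t)

omit [DecidableEq U] in
theorem cost_cons (φ : U → ℝ) (c : U → U → ℝ) (a b : U) (t : List U) :
    cost φ c (a :: b :: t) = c a b + cost φ c (b :: t) := rfl

omit [DecidableEq U] in
theorem stp_cons (c : U → U → ℝ) (a b : U) (t : List U) :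
    stp c (a :: b :: t) = c a b + stp c (b :: t) := rfl

omit [DecidableEq U] in
theorem stp_nonneg {c : U → U → ℝ} (hc : ∀ a b, 0 ≤ c a b) : ∀ l, 0 ≤ stp c l
  | [] => le_rfl
  | [_] => le_rfl
  | a :: b :: t => by rw [stp_cons]; exact add_nonneg (hc a b) (stp_nonneg hc _)

omit [DecidableEq U] in
theorem cost_nonneg {φ : U → ℝ} {c : U → U → ℝ} (hφ : ∀ a, 0 ≤ φ a) (hc : ∀ a b, 0 ≤ c a b) :
    ∀ l, 0 ≤ cost φ c l
  | [] => le_rfl
  | [a] => hφ a
  | a :: b :: t => by rw [cost_cons]; exact add_nonneg (hc a b) (cost_nonneg hφ hc _)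

omit [DecidableEq U] in
theorem cost_append (φ : U → ℝ) (c : U → U → ℝ) (z : U) (l2 : List U) : ∀ l1 : List U,
    cost φ c (l1 ++ z :: l2) = stp c (l1 ++ [z]) + cost φ c (z :: l2)
  | [] => by simp [stp]
  | [a] => by
    simp only [List.cons_append, List.nil_append, cost_cons, stp_cons]
    simp [stp]
  | a :: b :: t => by
    have ih := cost_append φ c z l2 (b :: t)
    simp only [List.cons_append] at ih ⊢
    rw [cost_cons, stp_cons, ih]; ring

variable (F E) in
/-- Step cost at the configuration `x`. -/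
def cc (ξ : U → ℝ) (ε Λ : ℝ) (x : F → ℝ) (a b : U) : ℝ :=
  Λ * sl ε (ext F ξ x a - ext F ξ x b)

theorem cc_nonneg {ε Λ : ℝ} (hΛ : 0 ≤ Λ) (x : F → ℝ) (a b : U) : 0 ≤ cc F ξ ε Λ x a b :=
  mul_nonneg hΛ (sl_nonneg _ _)


/-- The explicit field. -/
def Yf (F : Finset U) (E : Finset (U × U)) (ξ : U → ℝ) (ε Λ : ℝ) (φ : U → ℝ) (x : F → ℝ)
    (u : U) : ℝ :=
  (paths F E u).inf' ⟨[u], single_mem_paths u⟩ (cost φ (cc F ξ ε Λ x))

section

variable {ε Λ : ℝ} {φ : U → ℝ} {x : F → ℝ}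

theorem Yf_le_cost {u : U} {l : List U} (hl : l ∈ paths F E u) :
    Yf F E ξ ε Λ φ x u ≤ cost φ (cc F ξ ε Λ x) l := Finset.inf'_le _ hl

theorem exists_opt (u : U) : ∃ l ∈ paths F E u, Yf F E ξ ε Λ φ x u = cost φ (cc F ξ ε Λ x) l :=
  Finset.exists_mem_eq_inf' _ _






end

end Crest.Agent.R144.Tri560
end
private theorem rz_628e15a979 : type_of% @_root_.Crest.Agent.R144.Tri560.cost.eq_def := @_root_.Crest.Agent.R144.Tri560.cost.eq_def -- L148
private theorem rz_de0213b30b : type_of% @_root_.Crest.Agent.R144.Tri560.cost.eq_1 := @_root_.Crest.Agent.R144.Tri560.cost.eq_1 -- L148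
private theorem rz_780b6199c2 : type_of% @_root_.Crest.Agent.R144.Tri560.stp.eq_def := @_root_.Crest.Agent.R144.Tri560.stp.eq_def -- L154
private theorem rz_064165001b : type_of% @_root_.Crest.Agent.R144.Tri560.stp.eq_1 := @_root_.Crest.Agent.R144.Tri560.stp.eq_1 -- L154
end

-- ▼ part R144/Tri2_560
section

/-!
R144 (S0197), helper560, MW2: the explicit tangent field, file 2.

* `Yv` : the field on the free sites, `lip_Yv`, `tan_Yv : MW121.Tan (ham F E ξ) Yv c (ε / Λ)`;
* triangular Jacobian: `jac_eq_zero_of_notMem`, `abs_jac_diag_le`, `abs_jac_le`, `jac_row_zero`,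
  `ae_lt`, `det_tri`, `det_jac`, `trace_jac_sq`, `en_le_sum`.
-/

set_option autoImplicit false

open MeasureTheory Set Filter Topology
open scoped ENNReal NNReal
open Crest.Agent.R144.Ham560
open Crest.Agent.R144.MW121 (jac jac_apply Tan en)

noncomputable section

namespace Crest.Agent.R144.Tri560

variable {U : Type*} [DecidableEq U] {F : Finset U} {E : Finset (U × U)} {ξ : U → ℝ}
variable {ε Λ : ℝ} {φ : U → ℝ}

/-! ### Lipschitz bounds -/

theorem ext_lip (x y : F → ℝ) (u : U) : |ext F ξ x u - ext F ξ y u| ≤ ‖x - y‖ := by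
  by_cases hu : u ∈ F
  · rw [ext_mem hu, ext_mem hu]
    exact norm_le_pi_norm (x - y) ⟨u, hu⟩
  · rw [ext_notMem hu, ext_notMem hu]; simp



theorem length_paths {u : U} {l : List U} (hl : l ∈ paths F E u) :
    l.length ≤ (vset F E).card + 1 := by
  rcases mem_paths.mp hl with rfl | ⟨⟨h1, h2⟩, _⟩
  · simp
  · rw [← List.toFinset_card_of_nodup h1]
    exact (Finset.card_le_card fun a ha => h2 a (List.mem_toFinset.mp ha)).trans (Nat.le_succ _)




/-- The field on the free sites. -/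
def Yv (F : Finset U) (E : Finset (U × U)) (ξ : U → ℝ) (ε Λ : ℝ) (φ : U → ℝ) (x : F → ℝ) :
    F → ℝ := fun v => Yf F E ξ ε Λ φ x v




/-! ### Dependence on one coordinate -/

theorem ext_add_single (x : F → ℝ) (z : F) (t : ℝ) (u : U) :
    ext F ξ (x + t • Pi.single z 1) u = ext F ξ x u + if u = z then t else 0 := by
  by_cases hu : u ∈ F
  · rw [ext_mem hu, ext_mem hu]
    by_cases h : u = z
    · subst h
      simp
    · have : (⟨u, hu⟩ : F) ≠ z := fun h' => h (congrArg Subtype.val h')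
      simp [h, this]
  · have : u ≠ z := fun h => hu (h ▸ z.2)
    rw [ext_notMem hu, ext_notMem hu, if_neg this, add_zero]

theorem cc_single_of_ne {x : F → ℝ} {z : F} {t : ℝ} {a b : U} (ha : a ≠ z) (hb : b ≠ z) :
    cc F ξ ε Λ (x + t • Pi.single z 1) a b = cc F ξ ε Λ x a b := by
  rw [cc, cc, ext_add_single, ext_add_single, if_neg ha, if_neg hb, add_zero, add_zero]

theorem cc_single_le (hε : 0 < ε) (hΛ : 0 ≤ Λ) {x : F → ℝ} {z : F} {t : ℝ} {a b : U}
    (hab : a ≠ b) :
    cc F ξ ε Λ (x + t • Pi.single z 1) a b ≤ cc F ξ ε Λ x a b + Λ / ε * |t| := by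
  have h1 := sl_lip hε (ext F ξ (x + t • Pi.single z 1) a - ext F ξ (x + t • Pi.single z 1) b)
    (ext F ξ x a - ext F ξ x b)
  have h2 : |ext F ξ (x + t • Pi.single z 1) a - ext F ξ (x + t • Pi.single z 1) b -
      (ext F ξ x a - ext F ξ x b)| ≤ |t| := by
    rw [ext_add_single, ext_add_single]
    by_cases ha : a = z
    · have hb : b ≠ z := fun h => hab (ha.trans h.symm)
      rw [if_pos ha, if_neg hb]
      apply le_of_eq; congr 1; ring
    · by_cases hb : b = z
      · rw [if_neg ha, if_pos hb, ← abs_neg]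
        apply le_of_eq; congr 1; ring
      · rw [if_neg ha, if_neg hb]
        simp
  have h3 := h1.trans (div_le_div_of_nonneg_right h2 hε.le)
  rw [cc, cc]
  have h4 := mul_le_mul_of_nonneg_left (abs_le.mp h3).2 hΛ
  have h5 : Λ * (|t| / ε) = Λ / ε * |t| := by ring
  rw [h5, mul_sub] at h4
  linarith

theorem cost_single_of_notMem {x : F → ℝ} {z : F} {t : ℝ} : ∀ l : List U, (z : U) ∉ l →
    cost φ (cc F ξ ε Λ (x + t • Pi.single z 1)) l = cost φ (cc F ξ ε Λ x) l
  | [], _ => rfl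
  | [a], _ => rfl
  | a :: b :: s, h => by
    have h1 : a ≠ z := fun e => h (e ▸ List.mem_cons_self)
    have h2 : (z : U) ∉ b :: s := fun e => h (List.mem_cons_of_mem _ e)
    have h3 : b ≠ z := fun e => h2 (e ▸ List.mem_cons_self)
    rw [cost_cons, cost_cons, cc_single_of_ne h1 h3, cost_single_of_notMem (b :: s) h2]

theorem cost_single_head (hε : 0 < ε) (hΛ : 0 ≤ Λ) {x : F → ℝ} {z : F} {t : ℝ} {s : List U}
    (hs : ((z : U) :: s).Nodup) :
    cost φ (cc F ξ ε Λ (x + t • Pi.single z 1)) (z :: s) ≤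
      cost φ (cc F ξ ε Λ x) (z :: s) + Λ / ε * |t| := by
  match s with
  | [] => simp only [cost]; have : 0 ≤ Λ / ε * |t| := by positivity
          linarith
  | b :: s =>
    rw [List.nodup_cons] at hs
    have h1 : (z : U) ≠ b := fun e => hs.1 (e ▸ List.mem_cons_self)
    rw [cost_cons, cost_cons, cost_single_of_notMem (b :: s) hs.1]
    have := cc_single_le (ξ := ξ) (x := x) (z := z) (t := t) hε hΛ h1
    linarith

theorem cost_single_le (hε : 0 < ε) (hΛ : 0 ≤ Λ) {x : F → ℝ} {z : F} {t : ℝ} :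
    ∀ l : List U, l.Nodup → cost φ (cc F ξ ε Λ (x + t • Pi.single z 1)) l ≤
      cost φ (cc F ξ ε Λ x) l + 2 * Λ / ε * |t|
  | [], _ => by simp only [cost]; positivity
  | [a], _ => by simp only [cost]; have : 0 ≤ 2 * Λ / ε * |t| := by positivity
                 linarith
  | a :: b :: s, hs => by
    have h0 : 0 ≤ Λ / ε * |t| := by positivity
    have h2 : 2 * Λ / ε * |t| = Λ / ε * |t| + Λ / ε * |t| := by ring
    rw [List.nodup_cons] at hs
    by_cases ha : a = z
    · subst ha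
      have := cost_single_head (ξ := ξ) (φ := φ) (x := x) (z := z) (t := t) hε hΛ
        (List.nodup_cons.mpr hs)
      linarith
    · by_cases hb : b = z
      · subst hb
        have h3 := cost_single_head (ξ := ξ) (φ := φ) (x := x) (z := z) (t := t) hε hΛ hs.2
        have h4 := cc_single_le (ξ := ξ) (x := x) (z := z) (t := t) hε hΛ ha
        rw [cost_cons, cost_cons]
        linarith
      · have ih := cost_single_le hε hΛ (x := x) (z := z) (t := t) (b :: s) hs.2
        rw [cost_cons, cost_cons, cc_single_of_ne ha hb]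
        linarith

/-! ### Touching from above -/

theorem abs_deriv_le_of_le {f : ℝ → ℝ} {d L : ℝ} (hf : HasDerivAt f d 0)
    (hle : ∀ t, f t ≤ f 0 + L * |t|) : |d| ≤ L := by
  have h1 := hf.tendsto_slope_zero_right
  have h2 := hf.tendsto_slope_zero_left
  simp only [zero_add, smul_eq_mul] at h1 h2
  rw [abs_le]
  constructor
  · refine ge_of_tendsto h2 ?_
    filter_upwards [self_mem_nhdsWithin] with t ht
    have ht' : t < 0 := ht
    have h3 := hle t
    rw [abs_of_neg ht'] at h3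
    have h4 : t⁻¹ < 0 := inv_lt_zero.mpr ht'
    have h5 : t⁻¹ * t = 1 := inv_mul_cancel₀ ht'.ne
    have h6 := mul_le_mul_of_nonpos_left (show f t - f 0 ≤ -(L * t) by linarith) h4.le
    have h7 : t⁻¹ * (-(L * t)) = -L := by linear_combination (-L) * h5
    linarith
  · refine le_of_tendsto h1 ?_
    filter_upwards [self_mem_nhdsWithin] with t ht
    have ht' : 0 < t := ht
    have h3 := hle t
    rw [abs_of_pos ht'] at h3
    have h4 : 0 < t⁻¹ := inv_pos.mpr ht'
    have h5 : t⁻¹ * t = 1 := inv_mul_cancel₀ ht'.ne'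
    have h6 := mul_le_mul_of_nonneg_left (show f t - f 0 ≤ L * t by linarith) h4.le
    have h7 : t⁻¹ * (L * t) = L := by linear_combination L * h5
    linarith

theorem hasDerivAt_line {x : F → ℝ} (hd : DifferentiableAt ℝ (Yv F E ξ ε Λ φ) x) (u z : F) :
    HasDerivAt (fun t : ℝ => Yf F E ξ ε Λ φ (x + t • Pi.single z 1) u)
      (jac (Yv F E ξ ε Λ φ) x u z) 0 := by
  have h1 : HasFDerivAt (Yv F E ξ ε Λ φ) (fderiv ℝ (Yv F E ξ ε Λ φ) x)
      (x + (0 : ℝ) • Pi.single z 1) := by simpa using hd.hasFDerivAt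
  have h2 : HasDerivAt (fun t : ℝ => x + t • (Pi.single z 1 : F → ℝ)) (Pi.single z 1) 0 := by
    have := ((hasDerivAt_id (0 : ℝ)).smul_const (Pi.single z 1 : F → ℝ)).const_add x
    simpa using this
  have h3 := h1.comp_hasDerivAt (0 : ℝ) h2
  have h4 := (hasDerivAt_pi.mp h3) u
  rw [jac_apply]
  exact h4

section jac

variable {x : F → ℝ} (hd : DifferentiableAt ℝ (Yv F E ξ ε Λ φ) x)
include hd




theorem abs_jac_le (hε : 0 < ε) (hΛ : 0 ≤ Λ) (u z : F) :
    |jac (Yv F E ξ ε Λ φ) x u z| ≤ 2 * Λ / ε := by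
  obtain ⟨l, hl, ho⟩ := exists_opt (F := F) (E := E) (ξ := ξ) (ε := ε) (Λ := Λ) (φ := φ)
    (x := x) u
  obtain ⟨h1, h2, _⟩ := paths_spec hl
  refine abs_deriv_le_of_le (hasDerivAt_line hd u z) fun t => ?_
  have h3 := Yf_le_cost (ξ := ξ) (ε := ε) (Λ := Λ) (φ := φ)
    (x := x + t • Pi.single z 1) hl
  have h4 := cost_single_le (ξ := ξ) (φ := φ) (x := x) (z := z) (t := t) hε hΛ l h1
  have h5 : Yf F E ξ ε Λ φ (x + (0 : ℝ) • Pi.single z 1) u = Yf F E ξ ε Λ φ x u := by simp
  rw [h5, ho]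
  linarith

end jac








end Crest.Agent.R144.Tri560
end
end

-- ▼ part R144/Tri3_560
section

/-!
R144 (S0197), helper560, MW2: the explicit tangent field, file 3.

* `opt x u` : an optimal path of minimal length; all its vertices but the last are free
  (`opt_free`), it is trivial iff `Y = φ`;
* `red_le` : `φ u - Y u ≤ Λ/2 * m`, `m = |opt| - 1`, and at least `m/2` steps are `ε`-tight;
* `en_le` : `en Y x ≤ (2Λ/ε)² ∑_{u : Y_u < φ_u} |opt x u|`;
* `opt_tail` : `μ (m + 1 ≤ |opt x u|) ≤ 2 (2 n d)^m B` if `μ (S tight) ≤ (d²)^|S| B`, `2nd ≤ 1/2`.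
-/

set_option autoImplicit false

open MeasureTheory Set Filter Topology
open scoped ENNReal NNReal
open Crest.Agent.R144.Ham560
open Crest.Agent.R144.MW121 (jac jac_apply Tan en)

noncomputable section

namespace Crest.Agent.R144.Tri560

variable {U : Type*} [DecidableEq U] {F : Finset U} {E : Finset (U × U)} {ξ : U → ℝ}
variable {ε Λ : ℝ} {φ : U → ℝ}




section

variable {x : F → ℝ} {u : U}








end

/-- Consecutive pairs. -/
def pe : List U → List (U × U)
  | [] => []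
  | [_] => []
  | a :: b :: t => (a, b) :: pe (b :: t)

omit [DecidableEq U] in
theorem pe_cons (a b : U) (t : List U) : pe (a :: b :: t) = (a, b) :: pe (b :: t) := rfl

omit [DecidableEq U] in
theorem pe_length : ∀ l : List U, l ≠ [] → (pe l).length + 1 = l.length
  | [], h => absurd rfl h
  | [_], _ => rfl
  | a :: b :: t, _ => by
    rw [pe_cons, List.length_cons, List.length_cons, pe_length (b :: t) (by simp)]

omit [DecidableEq U] in
theorem pe_mem : ∀ (l : List U), ∀ q ∈ pe l, q.1 ∈ l ∧ q.2 ∈ l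
  | [], q, hq => by simp [pe] at hq
  | [_], q, hq => by simp [pe] at hq
  | a :: b :: t, q, hq => by
    rw [pe_cons] at hq
    rcases List.mem_cons.mp hq with rfl | hq
    · simp
    · have := pe_mem (b :: t) q hq
      exact ⟨List.mem_cons_of_mem _ this.1, List.mem_cons_of_mem _ this.2⟩

theorem fresh_pe : ∀ (l : List U), l.Nodup → l.IsChain (fun a b => b ∈ nbr E a) →
    (∀ l1 l2 b c, l = l1 ++ b :: c :: l2 → b ∈ F) → Fresh F E (pe l)
  | [], _, _, _ => Fresh.nil
  | [_], _, _, _ => Fresh.nil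
  | a :: b :: t, hn, hc, hF => by
    rw [List.nodup_cons] at hn
    rw [List.isChain_cons_cons] at hc
    rw [pe_cons]
    refine Fresh.cons (fresh_pe (b :: t) hn.2 hc.2 fun l1 l2 c d h => hF (a :: l1) l2 c d ?_)
      (hF [] t a b rfl) hc.1 fun q hq => ?_
    · rw [h, List.cons_append]
    · have := pe_mem (b :: t) q hq
      exact ⟨fun e => hn.1 (e ▸ this.1), fun e => hn.1 (e ▸ this.2)⟩

theorem Fresh_sublist {S S' : List (U × U)} (h : Fresh F E S) (hs : S'.Sublist S) :
    Fresh F E S' := by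
  induction h generalizing S' with
  | nil => rw [List.sublist_nil.mp hs]; exact Fresh.nil
  | @cons v u S hS hv hu hf ih =>
    rcases List.sublist_cons_iff.mp hs with h | ⟨r, rfl, h⟩
    · exact ih h
    · exact Fresh.cons (ih h) hv hu fun q hq => hf q (h.subset hq)

/-- Cost in terms of the truncated slacks of the steps. -/
theorem cost_ge (hε : 0 < ε) (hΛ : 0 ≤ Λ) (x : F → ℝ)
    (hφL : ∀ a b, b ∈ nbr E a → |φ a - φ b| ≤ Λ / 2) :
    ∀ l : List U, l.IsChain (fun a b => b ∈ nbr E a) → ∀ u, l.head? = some u →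
      φ u + Λ / 2 * (pe l).length - Λ * ((pe l).filter fun q =>
        decide (1 - ε ≤ |ext F ξ x q.1 - ext F ξ x q.2|)).length ≤ cost φ (cc F ξ ε Λ x) l
  | [], _, u, h => by simp at h
  | [a], _, u, h => by
    simp only [List.head?_cons, Option.some.injEq] at h
    simp [pe, cost, h]
  | a :: b :: t, hc, u, h => by
    simp only [List.head?_cons, Option.some.injEq] at h
    subst h
    rw [List.isChain_cons_cons] at hc
    have ih := cost_ge hε hΛ x hφL (b :: t) hc.2 b rfl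
    have h1 := abs_le.mp (hφL a b hc.1)
    rw [pe_cons, cost_cons, List.filter_cons, List.length_cons]
    push_cast
    by_cases ht : 1 - ε ≤ |ext F ξ x a - ext F ξ x b|
    · rw [if_pos (by simpa using ht), List.length_cons]
      push_cast
      have h2 := cc_nonneg (ξ := ξ) (ε := ε) hΛ x a b
      nlinarith
    · rw [if_neg (by simpa using ht)]
      have h2 : cc F ξ ε Λ x a b = Λ := by
        rw [cc, sl_eq_one hε (by push Not at ht; exact ht.le), mul_one]
      rw [h2]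
      nlinarith

section

variable {x : F → ℝ} {u : U}



end



/-! ### Tails of the length of the optimal path -/

/-- Forward walks of length `m` from `u` whose vertices but the last one are free. -/
def wf (F : Finset U) (E : Finset (U × U)) : ℕ → U → Finset (List U)
  | 0, u => {[u]}
  | m + 1, u => if u ∈ F then (nbr E u).biUnion fun b => (wf F E m b).image (u :: ·) else ∅

theorem card_wf {n : ℕ} (hn : ∀ v ∈ F, (nbr E v).card ≤ n) :
    ∀ (m : ℕ) (u : U), (wf F E m u).card ≤ n ^ m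
  | 0, u => by simp [wf]
  | m + 1, u => by
    rw [wf]
    split_ifs with hu
    · calc _ ≤ (nbr E u).card * n ^ m :=
            Finset.card_biUnion_le_card_mul _ _ _ fun b _ =>
              Finset.card_image_le.trans (card_wf hn m b)
        _ ≤ n * n ^ m := by gcongr; exact hn u hu
        _ = n ^ (m + 1) := (pow_succ' _ _).symm
    · simp

theorem mem_wf : ∀ (m : ℕ) (u : U) (l : List U), l.length = m + 1 → l.head? = some u →
    l.IsChain (fun a b => b ∈ nbr E a) → (∀ l1 l2 b c, l = l1 ++ b :: c :: l2 → b ∈ F) →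
    l ∈ wf F E m u
  | 0, u, l, hl, hh, _, _ => by
    obtain ⟨a, rfl⟩ := List.length_eq_one_iff.mp hl
    simp only [List.head?_cons, Option.some.injEq] at hh
    simp [wf, hh]
  | m + 1, u, l, hl, hh, hc, hF => by
    match l with
    | [] => simp at hl
    | [a] => simp at hl
    | a :: b :: t =>
      simp only [List.head?_cons, Option.some.injEq] at hh
      subst hh
      rw [List.isChain_cons_cons] at hc
      rw [wf, if_pos (hF [] t a b rfl), Finset.mem_biUnion]
      refine ⟨b, hc.1, Finset.mem_image.mpr ⟨b :: t, ?_, rfl⟩⟩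
      refine mem_wf m b (b :: t) (by simpa using hl) rfl hc.2 fun l1 l2 c d h =>
        hF (a :: l1) l2 c d (by rw [h, List.cons_append])




end Crest.Agent.R144.Tri560
end
private theorem rz_e7b899ee5b : type_of% @_root_.Crest.Agent.R144.Tri560.pe.eq_def := @_root_.Crest.Agent.R144.Tri560.pe.eq_def -- L124
private theorem rz_10a3a6bb9a : type_of% @_root_.Crest.Agent.R144.Tri560.pe.eq_1 := @_root_.Crest.Agent.R144.Tri560.pe.eq_1 -- L124
private theorem rz_de34c821d3 : type_of% @_root_.Crest.Agent.R144.Tri560.wf.eq_def := @_root_.Crest.Agent.R144.Tri560.wf.eq_def -- L288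
private theorem rz_e0f814a510 : type_of% @_root_.Crest.Agent.R144.Tri560.wf.eq_1 := @_root_.Crest.Agent.R144.Tri560.wf.eq_1 -- L288
end

-- ▼ part R144/Zb1_560
section

/-!
R144 (S0197), helper560, Z-BLOCK, file 1 (structure, everything deterministic).

* `sr ρ ε s` : truncated slack, `0` for `1 - ρ ≤ |s|`, `1` for `|s| ≤ 1 - ρ - ε`;
* `Ei V E`, `pt V E u` : simple paths from `u` inside the window `V`;
* `iv V E φ c u = min over l ∈ pt V E u of φ (last l) + ∑ c` : inf-convolution;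
* `iv_le`, `iv_sub_le`, `iv_anti`, `IsOpt`, `IsOpt.suffix`, `iv_window`, `iv_red`;
* `dd`-metric lemmas, `no_visit`.
-/

set_option autoImplicit false

open MeasureTheory Set
open scoped ENNReal NNReal
open Crest.Agent.R144.Ham560
open Crest.Agent.R144.Tri560

noncomputable section

namespace Crest.Agent.R144.Zb560

/-! ### The truncated slack -/

/-- Truncated slack with a flat zone next to the wall. -/
def sr (ρ ε s : ℝ) : ℝ := min 1 (max 0 ((1 - ρ - |s|) / ε))

theorem sr_nonneg (ρ ε s : ℝ) : 0 ≤ sr ρ ε s := le_min zero_le_one (le_max_left _ _)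


theorem sr_neg (ρ ε s : ℝ) : sr ρ ε (-s) = sr ρ ε s := by rw [sr, abs_neg, sr]

theorem sr_eq_zero {ρ ε s : ℝ} (hε : 0 < ε) (hs : 1 - ρ ≤ |s|) : sr ρ ε s = 0 := by
  rw [sr, max_eq_left, min_eq_right zero_le_one]
  exact div_nonpos_of_nonpos_of_nonneg (by linarith) hε.le

theorem sr_eq_one {ρ ε s : ℝ} (hε : 0 < ε) (hs : |s| ≤ 1 - ρ - ε) : sr ρ ε s = 1 := by
  rw [sr, min_eq_left]
  refine le_max_of_le_right ?_
  rw [le_div_iff₀ hε]; linarith

theorem sr_lip {ρ ε : ℝ} (hε : 0 < ε) (s t : ℝ) : |sr ρ ε s - sr ρ ε t| ≤ |s - t| / ε := by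
  have h1 : |(1 - ρ - |s|) / ε - (1 - ρ - |t|) / ε| ≤ |s - t| / ε := by
    rw [← sub_div, abs_div, abs_of_pos hε]
    refine div_le_div_of_nonneg_right ?_ hε.le
    rw [show (1 - ρ - |s|) - (1 - ρ - |t|) = |t| - |s| by ring]
    exact (abs_abs_sub_abs_le_abs_sub t s).trans (by rw [abs_sub_comm])
  have h2 : |max 0 ((1 - ρ - |s|) / ε) - max 0 ((1 - ρ - |t|) / ε)| ≤ |s - t| / ε :=
    (abs_max_sub_max_le_max _ _ _ _).trans (max_le (by simp; positivity) h1)
  exact (abs_min_sub_min_le_max _ _ _ _).trans (max_le (by simp; positivity) h2)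

/-- The slack dominates: `ε * sr ≤ 1 - |s|` on `|s| ≤ 1`. -/
theorem sr_le {ρ ε s : ℝ} (hρ : 0 ≤ ρ) (hε : 0 < ε) (hs : |s| ≤ 1) : ε * sr ρ ε s ≤ 1 - |s| := by
  have h1 : sr ρ ε s ≤ max 0 ((1 - ρ - |s|) / ε) := min_le_right _ _
  have h2 : max 0 ((1 - ρ - |s|) / ε) ≤ (1 - |s|) / ε :=
    max_le (div_nonneg (by linarith) hε.le) (div_le_div_of_nonneg_right (by linarith) hε.le)
  calc ε * sr ρ ε s ≤ ε * ((1 - |s|) / ε) := by gcongr; exact h1.trans h2
    _ = 1 - |s| := by field_simp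

variable {U : Type*} [DecidableEq U] {V W : Finset U} {E : Finset (U × U)}

/-! ### Windows and paths -/

/-- Edges inside the window. -/
def Ei (V : Finset U) (E : Finset (U × U)) : Finset (U × U) :=
  E.filter fun p => p.1 ∈ V ∧ p.2 ∈ V

theorem mem_nbr_Ei {a b : U} : b ∈ nbr (Ei V E) a ↔ b ∈ nbr E a ∧ a ∈ V ∧ b ∈ V := by
  simp only [mem_nbr, Ei, Finset.mem_filter]
  tauto

theorem vset_Ei : vset V (Ei V E) = V := by
  ext a
  simp only [vset, Ei, Finset.mem_union, Finset.mem_image, Finset.mem_filter]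
  constructor
  · rintro (h | ⟨p, ⟨_, h1, h2⟩, rfl⟩ | ⟨p, ⟨_, h1, h2⟩, rfl⟩)
    · exact h
    · exact h1
    · exact h2
  · exact Or.inl

theorem isChain_Ei {l : List U} (hl : ∀ a ∈ l, a ∈ V) :
    l.IsChain (fun a b => b ∈ nbr (Ei V E) a) ↔ l.IsChain (fun a b => b ∈ nbr E a) := by
  induction l with
  | nil => simp
  | cons a s ih =>
    match s with
    | [] => simp
    | b :: t =>
      rw [List.isChain_cons_cons, List.isChain_cons_cons,
        ih fun c hc => hl c (List.mem_cons_of_mem _ hc), mem_nbr_Ei]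
      have h1 := hl a List.mem_cons_self
      have h2 := hl b (by simp)
      tauto

/-- Simple paths starting at `u` inside the window `V`. -/
def pt (V : Finset U) (E : Finset (U × U)) (u : U) : Finset (List U) := paths V (Ei V E) u

theorem mem_pt {u : U} {l : List U} : l ∈ pt V E u ↔ l = [u] ∨
    (l.Nodup ∧ (∀ a ∈ l, a ∈ V) ∧ l.head? = some u ∧ l.IsChain (fun a b => b ∈ nbr E a)) := by
  rw [pt, mem_paths, vset_Ei]
  constructor
  · rintro (h | ⟨⟨h1, h2⟩, h3, h4⟩)
    · exact Or.inl h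
    · exact Or.inr ⟨h1, h2, h3, (isChain_Ei h2).mp h4⟩
  · rintro (h | ⟨h1, h2, h3, h4⟩)
    · exact Or.inl h
    · exact Or.inr ⟨⟨h1, h2⟩, h3, (isChain_Ei h2).mpr h4⟩

theorem single_mem_pt (u : U) : [u] ∈ pt V E u := mem_pt.mpr (Or.inl rfl)

theorem pt_spec {u : U} {l : List U} (h : l ∈ pt V E u) :
    l.Nodup ∧ l.head? = some u ∧ l.IsChain (fun a b => b ∈ nbr E a) := by
  rcases mem_pt.mp h with rfl | ⟨h1, _, h3, h4⟩
  · simp
  · exact ⟨h1, h3, h4⟩

theorem pt_ne_nil {u : U} {l : List U} (h : l ∈ pt V E u) : l ≠ [] := by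
  rintro rfl
  have := (pt_spec h).2.1
  simp at this

/-- All vertices are in the window, once there is an edge. -/
theorem pt_mem {u : U} {l : List U} (h : l ∈ pt V E u) (hl : 1 < l.length) :
    ∀ a ∈ l, a ∈ V := by
  rcases mem_pt.mp h with rfl | ⟨_, h2, _⟩
  · simp at hl
  · exact h2

theorem pt_mem' {u : U} {l : List U} (h : l ∈ pt V E u) (hu : u ∈ V) : ∀ a ∈ l, a ∈ V := by
  rcases mem_pt.mp h with rfl | ⟨_, h2, _⟩
  · intro a ha; rw [List.mem_singleton.mp ha]; exact hu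
  · exact h2

theorem pt_mono (hVW : V ⊆ W) (u : U) : pt V E u ⊆ pt W E u := by
  intro l hl
  rcases mem_pt.mp hl with rfl | ⟨h1, h2, h3, h4⟩
  · exact single_mem_pt _
  · exact mem_pt.mpr (Or.inr ⟨h1, fun a ha => hVW (h2 a ha), h3, h4⟩)

theorem pt_suffix {b z : U} {l1 l2 : List U} (h : l1 ++ z :: l2 ∈ pt V E b) :
    z :: l2 ∈ pt V E z := paths_suffix h

theorem length_pt {u : U} {l : List U} (hl : l ∈ pt V E u) : l.length ≤ V.card + 1 := by
  have := length_paths hl
  rwa [vset_Ei] at this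

/-! ### Inf-convolution -/

variable {φ : U → ℝ} {c : U → U → ℝ}

/-- `min` over the simple paths from `u` in the window of the terminal value plus the costs. -/
def iv (V : Finset U) (E : Finset (U × U)) (φ : U → ℝ) (c : U → U → ℝ) (u : U) : ℝ :=
  (pt V E u).inf' ⟨[u], single_mem_pt u⟩ (cost φ c)

theorem iv_le_cost {u : U} {l : List U} (hl : l ∈ pt V E u) : iv V E φ c u ≤ cost φ c l :=
  Finset.inf'_le _ hl

theorem le_iv {u : U} {r : ℝ} (h : ∀ l ∈ pt V E u, r ≤ cost φ c l) : r ≤ iv V E φ c u :=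
  Finset.le_inf' _ _ h

/-- Optimal paths. -/
def IsOpt (V : Finset U) (E : Finset (U × U)) (φ : U → ℝ) (c : U → U → ℝ) (u : U)
    (l : List U) : Prop := l ∈ pt V E u ∧ iv V E φ c u = cost φ c l

theorem exists_isOpt (V : Finset U) (E : Finset (U × U)) (φ : U → ℝ) (c : U → U → ℝ) (u : U) :
    ∃ l, IsOpt V E φ c u l := by
  obtain ⟨l, h1, h2⟩ := Finset.exists_mem_eq_inf' (s := pt V E u) ⟨[u], single_mem_pt u⟩
    (cost φ c)
  exact ⟨l, h1, h2⟩

/-- A chosen optimal path. -/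
def op (V : Finset U) (E : Finset (U × U)) (φ : U → ℝ) (c : U → U → ℝ) (u : U) : List U :=
  (exists_isOpt V E φ c u).choose

theorem isOpt_op (V : Finset U) (E : Finset (U × U)) (φ : U → ℝ) (c : U → U → ℝ) (u : U) :
    IsOpt V E φ c u (op V E φ c u) := (exists_isOpt V E φ c u).choose_spec

theorem iv_le (u : U) : iv V E φ c u ≤ φ u := iv_le_cost (single_mem_pt u)

theorem iv_notMem {u : U} (hu : u ∉ V) : iv V E φ c u = φ u := by
  refine le_antisymm (iv_le u) (le_iv fun l hl => ?_)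
  rcases mem_pt.mp hl with rfl | ⟨_, h2, h3, _⟩
  · exact le_rfl
  · exfalso
    match l with
    | [] => simp at h3
    | a :: t =>
      simp only [List.head?_cons, Option.some.injEq] at h3
      exact hu (h3 ▸ h2 a List.mem_cons_self)

theorem iv_anti (hVW : V ⊆ W) (u : U) : iv W E φ c u ≤ iv V E φ c u :=
  le_iv fun _ hl => iv_le_cost (pt_mono hVW u hl)

theorem iv_congr_cost {c' : U → U → ℝ} {u : U}
    (h : ∀ l ∈ pt V E u, cost φ c l = cost φ c' l) : iv V E φ c u = iv V E φ c' u :=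
  le_antisymm (le_iv fun l hl => (h l hl) ▸ iv_le_cost hl)
    (le_iv fun l hl => (h l hl).symm ▸ iv_le_cost hl)

theorem iv_step (hc : ∀ a b, 0 ≤ c a b) {a b : U} (hab : b ∈ nbr E a) (ha : a ∈ V)
    (hb : b ∈ V) : iv V E φ c a ≤ c a b + iv V E φ c b := by
  obtain ⟨l, hl, h⟩ := exists_isOpt V E φ c b
  rw [h]
  by_cases hal : a ∈ l
  · obtain ⟨l1, l2, rfl⟩ := List.append_of_mem hal
    refine (iv_le_cost (pt_suffix hl)).trans ?_
    rw [cost_append]
    have h1 := stp_nonneg hc (l1 ++ [a])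
    have h2 := hc a b
    linarith
  · have h1 : a :: l ∈ pt V E a := paths_cons (mem_nbr_Ei.mpr ⟨hab, ha, hb⟩) hl hal
    refine (iv_le_cost h1).trans ?_
    obtain ⟨_, h2, _⟩ := pt_spec hl
    match l with
    | [] => simp at h2
    | d :: t =>
      simp only [List.head?_cons, Option.some.injEq] at h2
      rw [h2, cost_cons]

theorem iv_sub_le (hc : ∀ a b, 0 ≤ c a b) (hs : ∀ a b, c a b = c b a) {a b : U}
    (hab : b ∈ nbr E a) (ha : a ∈ V) (hb : b ∈ V) :
    |iv V E φ c a - iv V E φ c b| ≤ c a b := by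
  have h1 := iv_step (φ := φ) hc hab ha hb
  have h2 := iv_step (φ := φ) hc (nbr_sy hab) hb ha
  rw [hs b a] at h2
  rw [abs_le]; constructor <;> linarith

/-- Value along a chain. -/
theorem iv_le_stp (hc : ∀ a b, 0 ≤ c a b) (z : U) : ∀ (l1 : List U) (u : U),
    (l1 ++ [z]).head? = some u → (l1 ++ [z]).IsChain (fun a b => b ∈ nbr E a) →
    (∀ a ∈ l1 ++ [z], a ∈ V) → iv V E φ c u ≤ stp c (l1 ++ [z]) + iv V E φ c z
  | [], u, hu, _, _ => by
    simp only [List.nil_append, List.head?_cons, Option.some.injEq] at hu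
    rw [hu]; simp [stp]
  | [a], u, hu, hch, hV => by
    simp only [List.cons_append, List.nil_append, List.head?_cons, Option.some.injEq] at hu
    subst hu
    simp only [List.cons_append, List.nil_append, List.isChain_cons_cons] at hch
    have := iv_step (V := V) (φ := φ) hc hch.1 (hV a (by simp)) (hV z (by simp))
    simpa [stp] using this
  | a :: b :: t, u, hu, hch, hV => by
    simp only [List.cons_append, List.head?_cons, Option.some.injEq] at hu
    subst hu
    simp only [List.cons_append, List.isChain_cons_cons] at hch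
    have ih := iv_le_stp hc z (b :: t) b rfl (by simpa using hch.2)
      (fun d hd => hV d (List.mem_cons_of_mem _ hd))
    have h1 := iv_step (V := V) (φ := φ) hc hch.1 (hV a (by simp)) (hV b (by simp))
    simp only [List.cons_append] at ih ⊢
    rw [stp_cons]
    linarith

/-- Tails of optimal paths are optimal. -/
theorem IsOpt.suffix (hc : ∀ a b, 0 ≤ c a b) {u z : U} {l1 l2 : List U}
    (h : IsOpt V E φ c u (l1 ++ z :: l2)) : IsOpt V E φ c z (z :: l2) := by
  refine ⟨pt_suffix h.1, ?_⟩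
  refine le_antisymm (iv_le_cost (pt_suffix h.1)) ?_
  by_cases hl : 1 < (l1 ++ z :: l2).length
  · have hV := pt_mem h.1 hl
    obtain ⟨_, h2, h3⟩ := pt_spec h.1
    have e : l1 ++ z :: l2 = (l1 ++ [z]) ++ l2 := by simp
    have h4 := iv_le_stp (V := V) (φ := φ) hc z l1 u (by
        rcases l1 with _ | ⟨d, l1⟩
        · simpa using h2
        · simpa using h2) (by rw [e] at h3; exact h3.left_of_append) (fun a ha => hV a (by
          rw [e]; exact List.mem_append_left _ ha))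
    have h5 := h.2
    rw [cost_append] at h5
    linarith
  · have h1 : l1 = [] := by
      rcases l1 with _ | ⟨d, l1⟩
      · rfl
      · simp at hl
    subst h1
    have h2 : u = z := by
      have := (pt_spec h.1).2.1
      simpa using this.symm
    rw [← h2]
    have := h.2
    simp only [List.nil_append] at this
    rw [h2] at this ⊢
    exact this.ge

/-- An optimal path which stays in a smaller window. -/
theorem iv_window (hVW : V ⊆ W) {u : U} {l : List U} (h : IsOpt W E φ c u l)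
    (hl : ∀ a ∈ l, a ∈ V) : iv V E φ c u = iv W E φ c u := by
  refine le_antisymm ?_ (iv_anti hVW u)
  rw [h.2]
  refine iv_le_cost ?_
  obtain ⟨h1, h2, h3⟩ := pt_spec h.1
  exact mem_pt.mpr (Or.inr ⟨h1, hl, h2, h3⟩)

/-- Lower bound of the cost of a path when `φ` has slope at most `κ`. -/
theorem cost_ge_stp {κ : ℝ} (hφL : ∀ a b, b ∈ nbr E a → |φ a - φ b| ≤ κ) :
    ∀ l : List U, l.IsChain (fun a b => b ∈ nbr E a) → ∀ u, l.head? = some u →
      φ u - κ * (pe l).length + stp c l ≤ cost φ c l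
  | [], _, u, h => by simp at h
  | [a], _, u, h => by
    simp only [List.head?_cons, Option.some.injEq] at h
    simp [pe, cost, stp, h]
  | a :: b :: t, hc, u, h => by
    simp only [List.head?_cons, Option.some.injEq] at h
    subst h
    rw [List.isChain_cons_cons] at hc
    have ih := cost_ge_stp hφL (b :: t) hc.2 b rfl
    have h1 := abs_le.mp (hφL a b hc.1)
    rw [pe_cons, cost_cons, stp_cons, List.length_cons]
    push_cast
    linarith [h1.1, h1.2]

theorem iv_red (hc : ∀ a b, 0 ≤ c a b) {κ : ℝ} (hφL : ∀ a b, b ∈ nbr E a → |φ a - φ b| ≤ κ)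
    {u : U} {l : List U} (h : IsOpt V E φ c u l) :
    φ u - iv V E φ c u ≤ κ * (pe l).length := by
  obtain ⟨_, h2, h3⟩ := pt_spec h.1
  have h1 := cost_ge_stp (c := c) hφL l h3 u h2
  have h4 := stp_nonneg hc l
  rw [h.2]
  linarith

theorem iv_sub_abs_le (hc : ∀ a b, 0 ≤ c a b) {κ : ℝ}
    (hφL : ∀ a b, b ∈ nbr E a → |φ a - φ b| ≤ κ) {u : U} {l : List U}
    (h : IsOpt V E φ c u l) : |iv V E φ c u - φ u| ≤ κ * (pe l).length := by
  have h1 := iv_red hc hφL h
  have h2 := iv_le (V := V) (E := E) (φ := φ) (c := c) u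
  rw [abs_le]; constructor <;> linarith

/-! ### Metrics -/

omit [DecidableEq U] in
theorem dd_le {R : U → U → Prop} (dd : U → U → ℕ) (h0 : ∀ a, dd a a = 0)
    (ht : ∀ a b d, dd a d ≤ dd a b + dd b d) (h1 : ∀ a b, R a b → dd a b ≤ 1) :
    ∀ (l : List U) (u : U), l.head? = some u → l.IsChain R →
      ∀ w ∈ l, dd u w + 1 ≤ l.length
  | [], u, h, _, _, _ => by simp at h
  | [a], u, h, _, w, hw => by
    simp only [List.head?_cons, Option.some.injEq] at h
    rw [List.mem_singleton.mp hw, ← h, h0]; simp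
  | a :: b :: t, u, h, hch, w, hw => by
    simp only [List.head?_cons, Option.some.injEq] at h
    subst h
    rw [List.isChain_cons_cons] at hch
    rcases List.mem_cons.mp hw with rfl | hw
    · rw [h0]; simp
    · have ih := dd_le dd h0 ht h1 (b :: t) b rfl hch.2 w hw
      have h2 := ht a b w
      have h3 := h1 a b hch.1
      simp only [List.length_cons] at ih ⊢
      omega

omit [DecidableEq U] in
/-- First entrance of a chain into a set. -/
theorem exists_entry {I : Set U} {R : U → U → Prop} : ∀ (l : List U) (u : U),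
    l.head? = some u → u ∉ I → l.IsChain R → ∀ w ∈ l, w ∈ I →
      ∃ l1 z z' l2, l = l1 ++ z :: z' :: l2 ∧ z ∉ I ∧ z' ∈ I ∧ R z z' ∧ w ∈ z' :: l2
  | [], u, h, _, _, _, _, _ => by simp at h
  | [a], u, h, hu, _, w, hw, hwI => by
    simp only [List.head?_cons, Option.some.injEq] at h
    rw [List.mem_singleton.mp hw, h] at hwI
    exact absurd hwI hu
  | a :: b :: t, u, h, hu, hch, w, hw, hwI => by
    simp only [List.head?_cons, Option.some.injEq] at h
    subst h
    rw [List.isChain_cons_cons] at hch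
    have hw' : w ∈ b :: t := by
      rcases List.mem_cons.mp hw with rfl | hw
      · exact absurd hwI hu
      · exact hw
    by_cases hb : b ∈ I
    · exact ⟨[], a, b, t, rfl, hu, hb, hch.1, hw'⟩
    · obtain ⟨l1, z, z', l2, h1, h2, h3, h4, h5⟩ :=
        exists_entry (b :: t) b rfl hb hch.2 w hw' hwI
      exact ⟨a :: l1, z, z', l2, by rw [h1, List.cons_append], h2, h3, h4, h5⟩

/-- If all optimal paths from the sites outside `I` next to `I` are short, then no optimal path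
from outside `I` visits a site which is deep in `I`. -/
theorem no_visit (hc : ∀ a b, 0 ≤ c a b) (dd : U → U → ℕ) (h0 : ∀ a, dd a a = 0)
    (ht : ∀ a b d, dd a d ≤ dd a b + dd b d) (h1 : ∀ a b, b ∈ nbr E a → dd a b ≤ 1)
    {I : Set U} {k : ℕ}
    (hN : ∀ z ∉ I, z ∈ V → (∃ z' ∈ I, z' ∈ nbr E z) → ∀ l, IsOpt V E φ c z l → l.length ≤ k)
    {v w : U} (hv : v ∉ I) (hwI : w ∈ I) (hw : ∀ z ∉ I, k ≤ dd z w) {l : List U}
    (hl : IsOpt V E φ c v l) : w ∉ l := by
  intro hwl
  obtain ⟨_, h2, h3⟩ := pt_spec hl.1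
  obtain ⟨l1, z, z', l2, rfl, hz, hz', hzz', hw'⟩ :=
    exists_entry l v h2 hv h3 w hwl hwI
  have h4 := hl.suffix hc
  have hzV : z ∈ V := pt_mem hl.1 (by simp; omega) z (by simp)
  have h5 := hN z hz hzV ⟨z', hz', hzz'⟩ _ h4
  obtain ⟨_, h6, h7⟩ := pt_spec h4.1
  have h8 := dd_le dd h0 ht (R := fun a b => b ∈ nbr E a) h1 (z :: z' :: l2) z h6 h7 w
    (List.mem_cons_of_mem _ hw')
  have h9 := hw z hz
  omega

/-- Window version for short optimal paths. -/
theorem iv_window_of_short (dd : U → U → ℕ) (h0 : ∀ a, dd a a = 0)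
    (ht : ∀ a b d, dd a d ≤ dd a b + dd b d) (h1 : ∀ a b, b ∈ nbr E a → dd a b ≤ 1)
    (hVW : V ⊆ W) {u : U} {k : ℕ} (hk : ∀ l, IsOpt W E φ c u l → l.length ≤ k)
    (hV : ∀ a ∈ W, dd u a < k → a ∈ V) (hu : u ∈ W) : iv V E φ c u = iv W E φ c u := by
  obtain ⟨l, hl⟩ := exists_isOpt W E φ c u
  obtain ⟨_, h2, h3⟩ := pt_spec hl.1
  refine iv_window hVW hl fun a ha => hV a (pt_mem' hl.1 hu a ha) ?_
  have := dd_le dd h0 ht (R := fun a b => b ∈ nbr E a) h1 l u h2 h3 a ha
  have := hk l hl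
  omega

end Crest.Agent.R144.Zb560
end
end

-- ▼ part R144/Zb2_560

/-!
R144 (S0197), helper560, Z-BLOCK, file 2: the field `Z`, the gap and the scalar cut-off `gq`.

`Z V E ρ ε Λ φ h u` (`h : U → ℝ` the heights, `V` the window): tangent and rigid
(`Z_sub_le`, `Z_rigid`), Lipschitz (`Z_lip`), local (`Z_congr`), `|∂_z Z_u| ≤ 2Λ/ε` and
`∂_z Z_u = 0` off the optimal path (`pd_Z_eq_zero`, `abs_pd_Z_le`, `row_Z_le`).

`gq V E N k ρ ε Λ c0 φ h` : scalar, in `[0,1]`, Lipschitz; `0 < gq` forces all the optimal paths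
from `N` to have at most `k` vertices (`opt_short`), `gq < 1` forces a long almost optimal path.
-/

set_option autoImplicit false

open MeasureTheory Set Filter Topology
open scoped ENNReal NNReal
open Crest.Agent.R144.Ham560
open Crest.Agent.R144.Tri560

noncomputable section

namespace Crest.Agent.R144.Zb560

variable {U : Type*} [DecidableEq U] {V W : Finset U} {E : Finset (U × U)}
variable {ρ ε Λ : ℝ} {φ : U → ℝ}

/-- Step cost. -/
def cz (ρ ε Λ : ℝ) (h : U → ℝ) (a b : U) : ℝ := Λ * sr ρ ε (h a - h b)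

omit [DecidableEq U] in
theorem cz_nonneg (hΛ : 0 ≤ Λ) (h : U → ℝ) (a b : U) : 0 ≤ cz ρ ε Λ h a b :=
  mul_nonneg hΛ (sr_nonneg _ _ _)

omit [DecidableEq U] in
theorem cz_symm (h : U → ℝ) (a b : U) : cz ρ ε Λ h a b = cz ρ ε Λ h b a := by
  rw [cz, cz, ← sr_neg, neg_sub]

/-- The field. -/
def Z (V : Finset U) (E : Finset (U × U)) (ρ ε Λ : ℝ) (φ : U → ℝ) (h : U → ℝ) (u : U) : ℝ :=
  iv V E φ (cz ρ ε Λ h) u

variable {h h' : U → ℝ}

theorem Z_le (u : U) : Z V E ρ ε Λ φ h u ≤ φ u := iv_le u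

theorem Z_notMem {u : U} (hu : u ∉ V) : Z V E ρ ε Λ φ h u = φ u := iv_notMem hu

theorem Z_sub_le (hΛ : 0 ≤ Λ) {a b : U} (hab : b ∈ nbr E a) (ha : a ∈ V) (hb : b ∈ V) :
    |Z V E ρ ε Λ φ h a - Z V E ρ ε Λ φ h b| ≤ Λ * sr ρ ε (h a - h b) :=
  iv_sub_le (cz_nonneg hΛ h) (cz_symm h) hab ha hb

/-- Rigidity near the walls. -/
theorem Z_rigid (hε : 0 < ε) (hΛ : 0 ≤ Λ) {a b : U} (hab : b ∈ nbr E a) (ha : a ∈ V)
    (hb : b ∈ V) (hr : 1 - ρ ≤ |h a - h b|) : Z V E ρ ε Λ φ h a = Z V E ρ ε Λ φ h b := by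
  have h1 := Z_sub_le (V := V) (E := E) (ρ := ρ) (ε := ε) (φ := φ) (h := h) hΛ hab ha hb
  rw [sr_eq_zero hε hr, mul_zero] at h1
  exact sub_eq_zero.mp (abs_nonpos_iff.mp h1)

omit [DecidableEq U] in
/-- Comparison of costs along a path. -/
theorem cost_cz_le (hε : 0 < ε) (hΛ : 0 ≤ Λ) {M : ℝ} (hM0 : 0 ≤ M) : ∀ l : List U,
    (∀ a ∈ l, |h a - h' a| ≤ M) →
      |cost φ (cz ρ ε Λ h) l - cost φ (cz ρ ε Λ h') l| ≤ l.length * (2 * Λ / ε * M)
  | [], _ => by simp [cost]
  | [a], _ => by simp only [cost, sub_self, abs_zero]; positivity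
  | a :: b :: t, hM => by
    have ih := cost_cz_le hε hΛ hM0 (b :: t)
      fun d hd => hM d (List.mem_cons_of_mem _ hd)
    have h1 := sr_lip (ρ := ρ) hε (h a - h b) (h' a - h' b)
    have h2 : |h a - h b - (h' a - h' b)| ≤ 2 * M := by
      have e1 := abs_le.mp (hM a (by simp))
      have e2 := abs_le.mp (hM b (by simp))
      rw [abs_le]; constructor <;> linarith [e1.1, e1.2, e2.1, e2.2]
    have h3 : |cz ρ ε Λ h a b - cz ρ ε Λ h' a b| ≤ 2 * Λ / ε * M := by
      rw [cz, cz, ← mul_sub, abs_mul, abs_of_nonneg hΛ]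
      calc Λ * |sr ρ ε (h a - h b) - sr ρ ε (h' a - h' b)| ≤ Λ * (2 * M / ε) := by
            gcongr
            exact h1.trans (div_le_div_of_nonneg_right h2 hε.le)
        _ = 2 * Λ / ε * M := by ring
    rw [cost_cons, cost_cons, List.length_cons]
    push_cast
    rw [abs_le] at ih h3 ⊢
    constructor <;> nlinarith [ih.1, ih.2, h3.1, h3.2]

/-- The field is Lipschitz in the heights of the window. -/
theorem Z_lip (hε : 0 < ε) (hΛ : 0 ≤ Λ) {M : ℝ} (hM0 : 0 ≤ M)
    (hM : ∀ a ∈ V, |h a - h' a| ≤ M) (u : U) :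
    |Z V E ρ ε Λ φ h u - Z V E ρ ε Λ φ h' u| ≤ (V.card + 1) * (2 * Λ / ε * M) := by
  by_cases hu : u ∈ V
  · have key : ∀ h h' : U → ℝ, (∀ a ∈ V, |h a - h' a| ≤ M) →
        Z V E ρ ε Λ φ h u ≤ Z V E ρ ε Λ φ h' u + (V.card + 1) * (2 * Λ / ε * M) := by
      intro h h' hM
      obtain ⟨l, hl⟩ := exists_isOpt V E φ (cz ρ ε Λ h') u
      have h1 := (abs_le.mp (cost_cz_le (ρ := ρ) (φ := φ) hε hΛ hM0 l
        fun a ha => hM a (pt_mem' hl.1 hu a ha))).2
      have h2 : Z V E ρ ε Λ φ h u ≤ cost φ (cz ρ ε Λ h) l := iv_le_cost hl.1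
      have h3 : Z V E ρ ε Λ φ h' u = cost φ (cz ρ ε Λ h') l := hl.2
      have h4 : (l.length : ℝ) ≤ V.card + 1 := by exact_mod_cast length_pt hl.1
      have h5 : (l.length : ℝ) * (2 * Λ / ε * M) ≤ (V.card + 1) * (2 * Λ / ε * M) := by
        gcongr
      linarith
    have h1 := key h h' hM
    have h2 := key h' h fun a ha => by rw [abs_sub_comm]; exact hM a ha
    rw [abs_le]; constructor <;> linarith
  · rw [Z_notMem hu, Z_notMem hu]
    simp only [sub_self, abs_zero]
    positivity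

/-- The field only depends on the heights of the window. -/
theorem Z_congr (hh : ∀ a ∈ V, h a = h' a) (u : U) :
    Z V E ρ ε Λ φ h u = Z V E ρ ε Λ φ h' u := by
  by_cases hu : u ∈ V
  · refine iv_congr_cost fun l hl => ?_
    have hV := pt_mem' hl hu
    clear hl
    induction l with
    | nil => rfl
    | cons a s ih =>
      match s with
      | [] => rfl
      | b :: t =>
        rw [cost_cons, cost_cons, ih fun d hd => hV d (List.mem_cons_of_mem _ hd), cz, cz,
          hh a (hV a (by simp)), hh b (hV b (by simp))]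
  · rw [Z_notMem hu, Z_notMem hu]

theorem continuous_Z (u : U) :
    Continuous fun h : U → ℝ => Z V E ρ ε Λ φ h u := by
  unfold Z iv
  refine Continuous.finset_inf'_apply _ fun l hl => ?_
  clear hl
  induction l with
  | nil => exact continuous_const
  | cons a s ih =>
    match s with
    | [] => exact continuous_const
    | b :: t =>
      simp only [cost_cons]
      refine Continuous.add ?_ ih
      unfold cz sr
      fun_prop

/-! ### Functions of the free heights -/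

variable {F : Finset U} {ξ : U → ℝ}

/-- Partial derivative. -/
def pd (G : (F → ℝ) → ℝ) (x : F → ℝ) (z : F) : ℝ := fderiv ℝ G x (Pi.single z 1)

theorem abs_pd_le {G : (F → ℝ) → ℝ} {x : F → ℝ} (hd : DifferentiableAt ℝ G x) (z : F) {L : ℝ}
    (hle : ∀ t : ℝ, G (x + t • Pi.single z 1) ≤ G x + L * |t|) : |pd G x z| ≤ L := by
  have h1 : HasFDerivAt G (fderiv ℝ G x) (x + (0 : ℝ) • Pi.single z 1) := by
    simpa using hd.hasFDerivAt
  have h2 : HasDerivAt (fun t : ℝ => x + t • (Pi.single z 1 : F → ℝ)) (Pi.single z 1) 0 := by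
    have := ((hasDerivAt_id (0 : ℝ)).smul_const (Pi.single z 1 : F → ℝ)).const_add x
    simpa using this
  have h3 := h1.comp_hasDerivAt (0 : ℝ) h2
  refine abs_deriv_le_of_le (f := fun t : ℝ => G (x + t • Pi.single z 1)) h3 fun t => ?_
  simpa using hle t

theorem pd_eq_zero_of_le {G : (F → ℝ) → ℝ} {x : F → ℝ} (hd : DifferentiableAt ℝ G x) (z : F)
    (hle : ∀ t : ℝ, G (x + t • Pi.single z 1) ≤ G x) : pd G x z = 0 :=
  abs_nonpos_iff.mp (abs_pd_le hd z (L := 0) (by simpa using hle))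

theorem pd_eq_zero_of_ge {G : (F → ℝ) → ℝ} {x : F → ℝ} (hd : DifferentiableAt ℝ G x) (z : F)
    (hle : ∀ t : ℝ, G x ≤ G (x + t • Pi.single z 1)) : pd G x z = 0 := by
  have h1 := pd_eq_zero_of_le (G := fun y => -G y) hd.neg z
    (fun t => by simpa using hle t)
  have h2 : pd (fun y => -G y) x z = - pd G x z := by
    rw [pd, pd]
    rw [show (fun y => -G y) = -G from rfl, fderiv_neg]
    rfl
  rw [h2] at h1
  linarith

section line

variable {x : F → ℝ} {z : F} {t : ℝ}

theorem cz_line_of_ne {a b : U} (ha : a ≠ z) (hb : b ≠ z) :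
    cz ρ ε Λ (ext F ξ (x + t • Pi.single z 1)) a b = cz ρ ε Λ (ext F ξ x) a b := by
  rw [cz, cz, ext_add_single, ext_add_single, if_neg ha, if_neg hb, add_zero, add_zero]

theorem cz_line_le (hε : 0 < ε) (hΛ : 0 ≤ Λ) {a b : U} (hab : a ≠ b) :
    cz ρ ε Λ (ext F ξ (x + t • Pi.single z 1)) a b ≤
      cz ρ ε Λ (ext F ξ x) a b + Λ / ε * |t| := by
  have h1 := sr_lip (ρ := ρ) hε (ext F ξ (x + t • Pi.single z 1) a -
    ext F ξ (x + t • Pi.single z 1) b) (ext F ξ x a - ext F ξ x b)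
  have h2 : |ext F ξ (x + t • Pi.single z 1) a - ext F ξ (x + t • Pi.single z 1) b -
      (ext F ξ x a - ext F ξ x b)| ≤ |t| := by
    rw [ext_add_single, ext_add_single]
    by_cases ha : a = z
    · have hb : b ≠ z := fun h => hab (ha.trans h.symm)
      rw [if_pos ha, if_neg hb]
      apply le_of_eq; congr 1; ring
    · by_cases hb : b = z
      · rw [if_neg ha, if_pos hb, ← abs_neg]
        apply le_of_eq; congr 1; ring
      · rw [if_neg ha, if_neg hb]
        simp
  have h3 := h1.trans (div_le_div_of_nonneg_right h2 hε.le)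
  rw [cz, cz]
  have h4 := mul_le_mul_of_nonneg_left (abs_le.mp h3).2 hΛ
  have h5 : Λ * (|t| / ε) = Λ / ε * |t| := by ring
  rw [h5, mul_sub] at h4
  linarith

theorem cost_line_of_notMem : ∀ l : List U, (z : U) ∉ l →
    cost φ (cz ρ ε Λ (ext F ξ (x + t • Pi.single z 1))) l =
      cost φ (cz ρ ε Λ (ext F ξ x)) l
  | [], _ => rfl
  | [a], _ => rfl
  | a :: b :: s, h => by
    have h1 : a ≠ z := fun e => h (e ▸ List.mem_cons_self)
    have h2 : (z : U) ∉ b :: s := fun e => h (List.mem_cons_of_mem _ e)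
    have h3 : b ≠ z := fun e => h2 (e ▸ List.mem_cons_self)
    rw [cost_cons, cost_cons, cz_line_of_ne h1 h3, cost_line_of_notMem (b :: s) h2]

theorem cost_line_head (hε : 0 < ε) (hΛ : 0 ≤ Λ) {s : List U} (hs : ((z : U) :: s).Nodup) :
    cost φ (cz ρ ε Λ (ext F ξ (x + t • Pi.single z 1))) (z :: s) ≤
      cost φ (cz ρ ε Λ (ext F ξ x)) (z :: s) + Λ / ε * |t| := by
  match s with
  | [] => simp only [cost]; have : 0 ≤ Λ / ε * |t| := by positivity
          linarith
  | b :: s =>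
    rw [List.nodup_cons] at hs
    have h1 : (z : U) ≠ b := fun e => hs.1 (e ▸ List.mem_cons_self)
    rw [cost_cons, cost_cons, cost_line_of_notMem (b :: s) hs.1]
    have := cz_line_le (ρ := ρ) (ξ := ξ) (x := x) (z := z) (t := t) hε hΛ h1
    linarith

theorem cost_line_le (hε : 0 < ε) (hΛ : 0 ≤ Λ) :
    ∀ l : List U, l.Nodup → cost φ (cz ρ ε Λ (ext F ξ (x + t • Pi.single z 1))) l ≤
      cost φ (cz ρ ε Λ (ext F ξ x)) l + 2 * Λ / ε * |t|
  | [], _ => by simp only [cost]; positivity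
  | [a], _ => by simp only [cost]; have : 0 ≤ 2 * Λ / ε * |t| := by positivity
                 linarith
  | a :: b :: s, hs => by
    have h0 : 0 ≤ Λ / ε * |t| := by positivity
    have h2 : 2 * Λ / ε * |t| = Λ / ε * |t| + Λ / ε * |t| := by ring
    rw [List.nodup_cons] at hs
    by_cases ha : a = z
    · subst ha
      have := cost_line_head (ρ := ρ) (ξ := ξ) (φ := φ) (x := x) (z := z) (t := t) hε hΛ
        (List.nodup_cons.mpr hs)
      linarith
    · by_cases hb : b = z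
      · subst hb
        have h3 := cost_line_head (ρ := ρ) (ξ := ξ) (φ := φ) (x := x) (z := z) (t := t) hε hΛ
          hs.2
        have h4 := cz_line_le (ρ := ρ) (ξ := ξ) (x := x) (z := z) (t := t) hε hΛ ha
        rw [cost_cons, cost_cons]
        linarith
      · have ih := cost_line_le hε hΛ (b :: s) hs.2
        rw [cost_cons, cost_cons, cz_line_of_ne ha hb]
        linarith

end line

/-- The field as a function of the free heights. -/
def Zx (V : Finset U) (E : Finset (U × U)) (ρ ε Λ : ℝ) (φ : U → ℝ) (F : Finset U) (ξ : U → ℝ)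
    (u : U) (x : F → ℝ) : ℝ := Z V E ρ ε Λ φ (ext F ξ x) u

section pd

variable {x : F → ℝ} {u : U}

theorem pd_Z_eq_zero (hd : DifferentiableAt ℝ (Zx V E ρ ε Λ φ F ξ u) x) {l : List U}
    (hl : IsOpt V E φ (cz ρ ε Λ (ext F ξ x)) u l) {z : F} (hz : (z : U) ∉ l) :
    pd (Zx V E ρ ε Λ φ F ξ u) x z = 0 := by
  refine pd_eq_zero_of_le hd z fun t => ?_
  have h1 : Zx V E ρ ε Λ φ F ξ u (x + t • Pi.single z 1) ≤
      cost φ (cz ρ ε Λ (ext F ξ (x + t • Pi.single z 1))) l := iv_le_cost hl.1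
  have h2 : Zx V E ρ ε Λ φ F ξ u x = cost φ (cz ρ ε Λ (ext F ξ x)) l := hl.2
  rw [cost_line_of_notMem l hz, ← h2] at h1
  exact h1

theorem abs_pd_Z_le (hε : 0 < ε) (hΛ : 0 ≤ Λ)
    (hd : DifferentiableAt ℝ (Zx V E ρ ε Λ φ F ξ u) x) (z : F) :
    |pd (Zx V E ρ ε Λ φ F ξ u) x z| ≤ 2 * Λ / ε := by
  obtain ⟨l, hl⟩ := exists_isOpt V E φ (cz ρ ε Λ (ext F ξ x)) u
  refine abs_pd_le hd z fun t => ?_
  have h1 : Zx V E ρ ε Λ φ F ξ u (x + t • Pi.single z 1) ≤
      cost φ (cz ρ ε Λ (ext F ξ (x + t • Pi.single z 1))) l := iv_le_cost hl.1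
  have h2 : Zx V E ρ ε Λ φ F ξ u x = cost φ (cz ρ ε Λ (ext F ξ x)) l := hl.2
  have h3 := cost_line_le (ρ := ρ) (ξ := ξ) (φ := φ) (x := x) (z := z) (t := t) hε hΛ l
    (pt_spec hl.1).1
  rw [h2]
  exact h1.trans h3

/-- Counting the free sites on a list. -/
theorem card_filter_list (F : Finset U) (l : List U) :
    ((Finset.univ : Finset ↥F).filter fun z : ↥F => (z : U) ∈ l).card ≤ l.length := by
  have h2 : ((Finset.univ : Finset ↥F).filter fun z : ↥F => (z : U) ∈ l).card ≤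
      l.toFinset.card := by
    refine Finset.card_le_card_of_injOn (fun z : ↥F => (z : U)) ?_ ?_
    · intro z hz
      exact Finset.mem_coe.mpr (List.mem_toFinset.mpr (Finset.mem_filter.mp
        (Finset.mem_coe.mp hz)).2)
    · exact fun z _ z' _ h => Subtype.ext h
  exact h2.trans (List.toFinset_card_le _)

theorem sum_sq_le_of_list {g : F → ℝ} {K : ℝ} (l : List U) (h0 : ∀ z : F, (z : U) ∉ l → g z = 0)
    (h1 : ∀ z : F, |g z| ≤ K) : ∑ z, g z ^ 2 ≤ K ^ 2 * l.length := by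
  have h2 : ∀ z : F, g z ^ 2 ≤ if (z : U) ∈ l then K ^ 2 else 0 := by
    intro z
    split_ifs with hz
    · rw [← sq_abs]
      exact pow_le_pow_left₀ (abs_nonneg _) (h1 z) 2
    · rw [h0 z hz]; simp
  refine (Finset.sum_le_sum fun z _ => h2 z).trans ?_
  rw [← Finset.sum_filter, Finset.sum_const, nsmul_eq_mul, mul_comm]
  have := card_filter_list F l
  gcongr

theorem row_Z_le (hε : 0 < ε) (hΛ : 0 ≤ Λ)
    (hd : DifferentiableAt ℝ (Zx V E ρ ε Λ φ F ξ u) x) {l : List U}
    (hl : IsOpt V E φ (cz ρ ε Λ (ext F ξ x)) u l) :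
    ∑ z, pd (Zx V E ρ ε Λ φ F ξ u) x z ^ 2 ≤ (2 * Λ / ε) ^ 2 * l.length :=
  sum_sq_le_of_list l (fun _ hz => pd_Z_eq_zero hd hl hz) (abs_pd_Z_le hε hΛ hd)

end pd

/-- Lipschitz constant of `Z` as a function of the free heights. -/
def lcz (V : Finset U) (ε Λ : ℝ) : ℝ≥0 := Real.toNNReal ((V.card + 1) * (2 * Λ / ε))

omit [DecidableEq U] in
theorem coe_lcz (V : Finset U) (hε : 0 < ε) (hΛ : 0 ≤ Λ) :
    ((lcz V ε Λ : ℝ≥0) : ℝ) = (V.card + 1) * (2 * Λ / ε) := by
  rw [lcz, Real.coe_toNNReal _ (by positivity)]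

theorem lip_Zx (hε : 0 < ε) (hΛ : 0 ≤ Λ) (u : U) :
    LipschitzWith (lcz V ε Λ) (Zx V E ρ ε Λ φ F ξ u) := by
  refine LipschitzWith.of_dist_le_mul fun x y => ?_
  rw [Real.dist_eq, dist_eq_norm, coe_lcz V hε hΛ]
  have := Z_lip (V := V) (E := E) (ρ := ρ) (φ := φ) (h := ext F ξ x) (h' := ext F ξ y) hε hΛ
    (norm_nonneg (x - y)) (fun a _ => ext_lip x y a) u
  calc _ ≤ _ := this
    _ = _ := by ring

/-! ### Long almost optimal paths and the scalar cut-off -/

/-- Paths with more than `k` vertices starting in `N`. -/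
def lp (V : Finset U) (E : Finset (U × U)) (N : Finset U) (k : ℕ) : Finset (U × List U) :=
  N.biUnion fun w => ((pt V E w).filter fun l => k < l.length).image (Prod.mk w)

theorem mem_lp {N : Finset U} {k : ℕ} {p : U × List U} :
    p ∈ lp V E N k ↔ p.1 ∈ N ∧ p.2 ∈ pt V E p.1 ∧ k < p.2.length := by
  simp only [lp, Finset.mem_biUnion, Finset.mem_image, Finset.mem_filter]
  constructor
  · rintro ⟨w, hw, l, ⟨h1, h2⟩, rfl⟩
    exact ⟨hw, h1, h2⟩
  · rintro ⟨h1, h2, h3⟩
    exact ⟨p.1, h1, p.2, ⟨h2, h3⟩, rfl⟩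

variable {ι : Type*} [Fintype ι] {φs : ι → U → ℝ} {N : Finset U} {k : ℕ} {c0 : ℝ}

/-- The smallest excess of the long paths. -/
def gap (V : Finset U) (E : Finset (U × U)) (N : Finset U) (k : ℕ) (ρ ε Λ c0 : ℝ)
    (φs : ι → U → ℝ) (h : U → ℝ) : ℝ :=
  ((Finset.univ : Finset ι) ×ˢ lp V E N k).fold min 1
    (fun p => (cost (φs p.1) (cz ρ ε Λ h) p.2.2 - φs p.1 p.2.1) / c0)

/-- The scalar cut-off. -/
def gq (V : Finset U) (E : Finset (U × U)) (N : Finset U) (k : ℕ) (ρ ε Λ c0 : ℝ)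
    (φs : ι → U → ℝ) (h : U → ℝ) : ℝ := max 0 (gap V E N k ρ ε Λ c0 φs h)

omit [DecidableEq U] in
theorem fold_min_le_left {α : Type*} (s : Finset α) (f : α → ℝ) (b : ℝ) :
    s.fold min b f ≤ b := (Finset.fold_min_le b).mpr (Or.inl le_rfl)

omit [DecidableEq U] in
theorem fold_min_le_of_mem {α : Type*} {s : Finset α} {f : α → ℝ} {b : ℝ} {a : α}
    (ha : a ∈ s) : s.fold min b f ≤ f a := (Finset.fold_min_le _).mpr (Or.inr ⟨a, ha, le_rfl⟩)

theorem gq_nonneg : 0 ≤ gq V E N k ρ ε Λ c0 φs h := le_max_left _ _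

theorem gq_le_one : gq V E N k ρ ε Λ c0 φs h ≤ 1 :=
  max_le zero_le_one (fold_min_le_left _ _ _)

/-- On `0 < gq` a long path costs strictly more than staying. -/
theorem lt_cost_of_gq_pos (hc0 : 0 < c0) (hg : 0 < gq V E N k ρ ε Λ c0 φs h) (i : ι) {w : U}
    (hw : w ∈ N) {l : List U} (hl : l ∈ pt V E w) (hk : k < l.length) :
    φs i w < cost (φs i) (cz ρ ε Λ h) l := by
  have h1 : 0 < gap V E N k ρ ε Λ c0 φs h := by
    rcases lt_max_iff.mp hg with h | h
    · exact absurd h (lt_irrefl _)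
    · exact h
  have h2 : gap V E N k ρ ε Λ c0 φs h ≤ (cost (φs i) (cz ρ ε Λ h) l - φs i w) / c0 :=
    fold_min_le_of_mem (f := fun p : ι × U × List U =>
      (cost (φs p.1) (cz ρ ε Λ h) p.2.2 - φs p.1 p.2.1) / c0) (a := (i, w, l))
      (Finset.mem_product.mpr ⟨Finset.mem_univ _, mem_lp.mpr ⟨hw, hl, hk⟩⟩)
  have h3 := h1.trans_le h2
  have h4 := (div_pos_iff_of_pos_right hc0).mp h3
  linarith

/-- On `0 < gq` the optimal paths from `N` are short. -/
theorem opt_short (hc0 : 0 < c0) (hg : 0 < gq V E N k ρ ε Λ c0 φs h) (i : ι) {w : U}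
    (hw : w ∈ N) {l : List U} (hl : IsOpt V E (φs i) (cz ρ ε Λ h) w l) : l.length ≤ k := by
  by_contra hk
  push Not at hk
  have h1 := lt_cost_of_gq_pos hc0 hg i hw hl.1 hk
  have h2 := iv_le (V := V) (E := E) (φ := φs i) (c := cz ρ ε Λ h) w
  rw [hl.2] at h2
  linarith

/-- `gq < 1` : there is a long almost optimal path. -/
theorem exists_of_gq_lt (hc0 : 0 < c0) (hg : gq V E N k ρ ε Λ c0 φs h < 1) :
    ∃ i, ∃ w ∈ N, ∃ l ∈ pt V E w, k < l.length ∧
      cost (φs i) (cz ρ ε Λ h) l < φs i w + c0 := by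
  by_contra hne
  push Not at hne
  refine absurd hg (not_lt.mpr (le_max_of_le_right ?_))
  rw [gap, Finset.le_fold_min]
  refine ⟨le_rfl, fun p hp => ?_⟩
  obtain ⟨_, h2⟩ := Finset.mem_product.mp hp
  obtain ⟨h3, h4, h5⟩ := mem_lp.mp h2
  have h6 := hne p.1 p.2.1 h3 p.2.2 h4 h5
  rw [le_div_iff₀ hc0]
  linarith

/-- Minimiser of the gap. -/
theorem exists_gap_eq (hg : gap V E N k ρ ε Λ c0 φs h < 1) :
    ∃ i, ∃ w ∈ N, ∃ l ∈ pt V E w, k < l.length ∧
      gap V E N k ρ ε Λ c0 φs h = (cost (φs i) (cz ρ ε Λ h) l - φs i w) / c0 := by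
  obtain ⟨p, hp, h1⟩ : ∃ p ∈ (Finset.univ : Finset ι) ×ˢ lp V E N k,
      (cost (φs p.1) (cz ρ ε Λ h) p.2.2 - φs p.1 p.2.1) / c0 ≤ gap V E N k ρ ε Λ c0 φs h := by
    have := (Finset.fold_min_le (s := (Finset.univ : Finset ι) ×ˢ lp V E N k) (b := 1)
      (f := fun p => (cost (φs p.1) (cz ρ ε Λ h) p.2.2 - φs p.1 p.2.1) / c0)
      (gap V E N k ρ ε Λ c0 φs h)).mp le_rfl
    rcases this with h1 | h1
    · linarith
    · exact h1
  obtain ⟨_, h2⟩ := Finset.mem_product.mp hp
  obtain ⟨h3, h4, h5⟩ := mem_lp.mp h2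
  exact ⟨p.1, p.2.1, h3, p.2.2, h4, h5, le_antisymm (fold_min_le_of_mem
    (f := fun p : ι × U × List U =>
      (cost (φs p.1) (cz ρ ε Λ h) p.2.2 - φs p.1 p.2.1) / c0) hp) h1⟩


theorem gq_lip (hε : 0 < ε) (hΛ : 0 ≤ Λ) (hc0 : 0 < c0) (hN : N ⊆ V) {M : ℝ} (hM0 : 0 ≤ M)
    (hM : ∀ a ∈ V, |h a - h' a| ≤ M) :
    |gq V E N k ρ ε Λ c0 φs h - gq V E N k ρ ε Λ c0 φs h'| ≤
      (V.card + 1) * (2 * Λ / ε * M) / c0 := by
  have key : ∀ h h' : U → ℝ, (∀ a ∈ V, |h a - h' a| ≤ M) →
      gap V E N k ρ ε Λ c0 φs h - (V.card + 1) * (2 * Λ / ε * M) / c0 ≤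
        gap V E N k ρ ε Λ c0 φs h' := by
    intro h h' hM
    have hK : 0 ≤ (V.card + 1) * (2 * Λ / ε * M) / c0 := by positivity
    conv_rhs => rw [gap]
    rw [Finset.le_fold_min]
    refine ⟨?_, fun p hp => ?_⟩
    · have := fold_min_le_left ((Finset.univ : Finset ι) ×ˢ lp V E N k)
        (fun p => (cost (φs p.1) (cz ρ ε Λ h) p.2.2 - φs p.1 p.2.1) / c0) 1
      rw [gap]; linarith
    · obtain ⟨_, h2⟩ := Finset.mem_product.mp hp
      obtain ⟨h3, h4, h5⟩ := mem_lp.mp h2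
      have h6 : gap V E N k ρ ε Λ c0 φs h ≤
          (cost (φs p.1) (cz ρ ε Λ h) p.2.2 - φs p.1 p.2.1) / c0 :=
        fold_min_le_of_mem (f := fun p : ι × U × List U =>
          (cost (φs p.1) (cz ρ ε Λ h) p.2.2 - φs p.1 p.2.1) / c0) hp
      have h7 := (abs_le.mp (cost_cz_le (ρ := ρ) (φ := φs p.1) hε hΛ hM0 p.2.2
        fun a ha => hM a (pt_mem' h4 (hN h3) a ha))).2
      have h8 : (p.2.2.length : ℝ) ≤ V.card + 1 := by exact_mod_cast length_pt h4
      have h9 : (p.2.2.length : ℝ) * (2 * Λ / ε * M) ≤ (V.card + 1) * (2 * Λ / ε * M) := by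
        gcongr
      refine (sub_le_sub_right h6 _).trans ?_
      rw [← sub_div]
      exact div_le_div_of_nonneg_right (by linarith) hc0.le
  have h1 := key h h' hM
  have h2 := key h' h fun a ha => by rw [abs_sub_comm]; exact hM a ha
  rw [gq, gq]
  refine (abs_max_sub_max_le_max _ _ _ _).trans (max_le (by simp; positivity) ?_)
  rw [abs_le]; constructor <;> linarith

/-- The cut-off as a function of the free heights. -/
def gx (V : Finset U) (E : Finset (U × U)) (N : Finset U) (k : ℕ) (ρ ε Λ c0 : ℝ)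
    (φs : ι → U → ℝ) (F : Finset U) (ξ : U → ℝ) (x : F → ℝ) : ℝ :=
  gq V E N k ρ ε Λ c0 φs (ext F ξ x)

theorem lip_gx (hε : 0 < ε) (hΛ : 0 ≤ Λ) (hc0 : 0 < c0) (hN : N ⊆ V) :
    LipschitzWith (Real.toNNReal ((V.card + 1) * (2 * Λ / ε) / c0))
      (gx V E N k ρ ε Λ c0 φs F ξ) := by
  refine LipschitzWith.of_dist_le_mul fun x y => ?_
  rw [Real.dist_eq, dist_eq_norm, Real.coe_toNNReal _ (by positivity)]
  have := gq_lip (V := V) (E := E) (N := N) (k := k) (ρ := ρ) (φs := φs) (h := ext F ξ x)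
    (h' := ext F ξ y) hε hΛ hc0 hN (norm_nonneg (x - y)) (fun a _ => ext_lip x y a)
  calc _ ≤ _ := this
    _ = _ := by ring

/-- Gradient of the cut-off: it lives on one long almost optimal path. -/
theorem row_gx_le (hε : 0 < ε) (hΛ : 0 ≤ Λ) (hc0 : 0 < c0) {x : F → ℝ}
    (hd : DifferentiableAt ℝ (gx V E N k ρ ε Λ c0 φs F ξ) x) :
    (∀ z, pd (gx V E N k ρ ε Λ c0 φs F ξ) x z = 0) ∨
      ∃ i, ∃ w ∈ N, ∃ l ∈ pt V E w, k < l.length ∧
        cost (φs i) (cz ρ ε Λ (ext F ξ x)) l < φs i w + c0 ∧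
        (∀ z : F, (z : U) ∉ l → pd (gx V E N k ρ ε Λ c0 φs F ξ) x z = 0) ∧
        ∑ z, pd (gx V E N k ρ ε Λ c0 φs F ξ) x z ^ 2 ≤
          (2 * Λ / ε / c0) ^ 2 * l.length := by
  have hle1 : ∀ y, gx V E N k ρ ε Λ c0 φs F ξ y ≤ 1 := fun y => gq_le_one
  have hge0 : ∀ y, 0 ≤ gx V E N k ρ ε Λ c0 φs F ξ y := fun y => gq_nonneg
  rcases (hle1 x).eq_or_lt with h1 | h1
  · exact Or.inl fun z => pd_eq_zero_of_le hd z fun t => by rw [h1]; exact hle1 _
  rcases (hge0 x).eq_or_lt with h2 | h2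
  · exact Or.inl fun z => pd_eq_zero_of_ge hd z fun t => by rw [← h2]; exact hge0 _
  · refine Or.inr ?_
    have h3 : 0 < gap V E N k ρ ε Λ c0 φs (ext F ξ x) := by
      rcases lt_max_iff.mp h2 with h | h
      · exact absurd h (lt_irrefl _)
      · exact h
    have h4 : gx V E N k ρ ε Λ c0 φs F ξ x = gap V E N k ρ ε Λ c0 φs (ext F ξ x) :=
      max_eq_right h3.le
    rw [h4] at h1
    obtain ⟨i, w, hw, l, hl, hk, he⟩ := exists_gap_eq h1
    have h5 : cost (φs i) (cz ρ ε Λ (ext F ξ x)) l < φs i w + c0 := by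
      rw [he, div_lt_one hc0] at h1
      linarith
    have hfold : ∀ y : F → ℝ, gap V E N k ρ ε Λ c0 φs (ext F ξ y) ≤
        (cost (φs i) (cz ρ ε Λ (ext F ξ y)) l - φs i w) / c0 := fun y =>
      fold_min_le_of_mem (f := fun p : ι × U × List U =>
        (cost (φs p.1) (cz ρ ε Λ (ext F ξ y)) p.2.2 - φs p.1 p.2.1) / c0) (a := (i, w, l))
        (Finset.mem_product.mpr ⟨Finset.mem_univ _, mem_lp.mpr ⟨hw, hl, hk⟩⟩)
    have hz0 : ∀ z : F, (z : U) ∉ l → pd (gx V E N k ρ ε Λ c0 φs F ξ) x z = 0 := by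
      intro z hz
      refine pd_eq_zero_of_le hd z fun t => ?_
      have h6 := hfold (x + t • Pi.single z 1)
      rw [cost_line_of_notMem l hz, ← he] at h6
      rw [h4]
      exact max_le h3.le h6
    have hzb : ∀ z : F, |pd (gx V E N k ρ ε Λ c0 φs F ξ) x z| ≤ 2 * Λ / ε / c0 := by
      intro z
      refine abs_pd_le hd z fun t => ?_
      have h6 := hfold (x + t • Pi.single z 1)
      have h7 := cost_line_le (ρ := ρ) (ξ := ξ) (φ := φs i) (x := x) (z := z) (t := t) hε hΛ l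
        (pt_spec hl).1
      have h8 : 0 ≤ 2 * Λ / ε / c0 * |t| := by positivity
      rw [h4]
      refine max_le (by linarith) (h6.trans ?_)
      rw [he]
      have h9 : (cost (φs i) (cz ρ ε Λ (ext F ξ (x + t • Pi.single z 1))) l - φs i w) / c0 ≤
          (cost (φs i) (cz ρ ε Λ (ext F ξ x)) l - φs i w + 2 * Λ / ε * |t|) / c0 :=
        div_le_div_of_nonneg_right (by linarith) hc0.le
      refine h9.trans (le_of_eq ?_)
      field_simp
    exact ⟨i, w, hw, l, hl, hk, h5, hz0, sum_sq_le_of_list l hz0 hzb⟩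

end Crest.Agent.R144.Zb560
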