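import Mathlib
import Crest.Agent.R144.Fib4_674
import Crest.Agent.R144.MW1_121
import Crest.Agent.R144.Zb2_560

-- ▼ part R144/LoB1_95
section

/-!
# R144 (S0197), helper95, lower bound (trace form), file 1: the algebra of `tr (J * J)`

`J w v` is the derivative of the label `w` in the direction `v`.  `J = A + B + C`: explicit part,
derivative of the scalar cut-offs, derivative of the templates.  Templates only exist for labels in
the deep parts `dp q` of the blocks `I q`, they only see the window `W q`, and labels of `W q \ I q`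
do not see the sites of `dp q` as long as the template is switched on.
-/

set_option autoImplicit false
set_option linter.unusedSectionVars false

open Finset

noncomputable section

namespace Crest.Agent.R144.LoB95

section Algebra

variable {V ι : Type*} [Fintype V] [DecidableEq V] [Fintype ι] [DecidableEq ι]

/-- block geometry -/
structure Geom (I dp W : ι → Finset V) : Prop where
  sub : ∀ q, dp q ⊆ I q
  disj : ∀ q q' v, v ∈ I q → v ∈ I q' → q = q'
  win : ∀ q q' v, v ∈ W q → v ∈ dp q' → q' = q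

/-- crossing pairs: one site deep in a block, the other one outside this block -/
def Crs (I dp : ι → Finset V) (w v : V) : Prop :=
  ∃ q, (w ∈ dp q ∧ v ∉ I q) ∨ (v ∈ dp q ∧ w ∉ I q)

/-- pairs in the same block -/
def Same (I : ι → Finset V) (w v : V) : Prop := ∃ q, w ∈ I q ∧ v ∈ I q

/-- deep sites -/
def Deep (dp : ι → Finset V) (w : V) : Prop := ∃ q, w ∈ dp q

theorem Crs.symm {I dp : ι → Finset V} {w v : V} (h : Crs I dp w v) : Crs I dp v w := by
  obtain ⟨q, h⟩ := h
  exact ⟨q, h.symm⟩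

theorem Same.symm {I : ι → Finset V} {w v : V} (h : Same I w v) : Same I v w := by
  obtain ⟨q, h1, h2⟩ := h
  exact ⟨q, h2, h1⟩

open Classical in
/-- the pointwise inequality for one ordered pair -/
theorem pair_le {I dp W : ι → Finset V} (hG : Geom I dp W) {J A B C : V → V → ℝ}
    (hJ : ∀ w v, J w v = A w v + B w v + C w v)
    (hB : ∀ w v, ¬ Deep dp w → B w v = 0) (hC : ∀ w v, ¬ Deep dp w → C w v = 0)
    (hCW : ∀ q w v, w ∈ dp q → v ∉ W q → C w v = 0)
    (hns : ∀ q w v, w ∈ dp q → v ∈ W q → v ∉ I q → C w v = 0 ∨ A v w = 0) (w v : V) :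
    J w v * J v w ≤
      (if Same I w v then (J w v ^ 2 + J v w ^ 2) / 2 else 0) +
      ((if ¬ Deep dp w then A w v ^ 2 / 2 else 0) + (if ¬ Deep dp v then A v w ^ 2 / 2 else 0)) +
      (if Crs I dp w v then (A w v ^ 2 + A v w ^ 2) + (B w v ^ 2 + B v w ^ 2) else 0) := by
  have n1 : 0 ≤ (if ¬ Deep dp w then A w v ^ 2 / 2 else 0) := by split_ifs <;> positivity
  have n2 : 0 ≤ (if ¬ Deep dp v then A v w ^ 2 / 2 else 0) := by split_ifs <;> positivity
  have n3 : 0 ≤ (if Crs I dp w v then (A w v ^ 2 + A v w ^ 2) + (B w v ^ 2 + B v w ^ 2) else 0) := by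
    split_ifs <;> positivity
  by_cases hs : Same I w v
  · rw [if_pos hs]
    nlinarith [sq_nonneg (J w v - J v w)]
  · rw [if_neg hs, zero_add]
    -- the main claim for a deep first site
    have main : ∀ w v : V, ¬ Same I w v → Deep dp w →
        J w v * J v w ≤ (A w v ^ 2 + A v w ^ 2) + (B w v ^ 2 + B v w ^ 2) ∧ Crs I dp w v := by
      intro w v hs hd
      obtain ⟨q, hw⟩ := hd
      have hvI : v ∉ I q := fun h => hs ⟨q, hG.sub q hw, h⟩
      refine ⟨?_, q, Or.inl ⟨hw, hvI⟩⟩
      by_cases hc : C w v = 0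
      · have hc' : C v w = 0 := by
          by_cases hv : Deep dp v
          · obtain ⟨q', hv'⟩ := hv
            by_cases hW : w ∈ W q'
            · exfalso
              have := hG.win q' q w hW hw
              subst this
              exact hvI (hG.sub q hv')
            · exact hCW q' v w hv' hW
          · exact hC v w hv
        rw [hJ w v, hJ v w, hc, hc', add_zero, add_zero]
        nlinarith [sq_nonneg (A w v + B w v - (A v w + B v w)), sq_nonneg (A w v - B w v),
          sq_nonneg (A v w - B v w)]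
      · have hW : v ∈ W q := by
          by_contra h
          exact hc (hCW q w v hw h)
        have hvd : ¬ Deep dp v := by
          rintro ⟨q', hv'⟩
          have := hG.win q q' v hW hv'
          subst this
          exact hvI (hG.sub _ hv')
        have h0 : A v w = 0 := (hns q w v hw hW hvI).resolve_left hc
        have h1 : J v w = 0 := by rw [hJ v w, h0, hB v w hvd, hC v w hvd]; ring
        rw [h1, mul_zero]
        positivity
    by_cases hdw : Deep dp w
    · obtain ⟨h1, h2⟩ := main w v hs hdw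
      rw [if_pos h2]
      linarith
    · by_cases hdv : Deep dp v
      · obtain ⟨h1, h2⟩ := main v w (fun h => hs h.symm) hdv
        rw [if_pos h2.symm]
        linarith [mul_comm (J w v) (J v w)]
      · rw [if_pos hdw, if_pos hdv]
        have e1 : J w v = A w v := by rw [hJ w v, hB w v hdw, hC w v hdw]; ring
        have e2 : J v w = A v w := by rw [hJ v w, hB v w hdv, hC v w hdv]; ring
        rw [e1, e2] at *
        nlinarith [sq_nonneg (A w v - A v w)]

theorem sum_swap_half (a : V → V → ℝ) (P : V → V → Prop) [∀ w v, Decidable (P w v)]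
    (hP : ∀ w v, P w v → P v w) :
    ∑ w, ∑ v, (if P w v then (a w v + a v w) / 2 else 0) = ∑ w, ∑ v, if P w v then a w v else 0 := by
  have h1 : ∑ w, ∑ v, (if P w v then (a w v + a v w) / 2 else 0) =
      (∑ w, ∑ v, (if P w v then a w v else 0)) / 2 + (∑ w, ∑ v, (if P w v then a v w else 0)) / 2 := by
    simp only [Finset.sum_div, ← Finset.sum_add_distrib]
    refine Finset.sum_congr rfl fun w _ => Finset.sum_congr rfl fun v _ => ?_
    split_ifs <;> ring
  have h2 : ∑ w, ∑ v, (if P w v then a v w else 0) = ∑ w, ∑ v, (if P w v then a w v else 0) := by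
    rw [Finset.sum_comm]
    refine Finset.sum_congr rfl fun w _ => Finset.sum_congr rfl fun v _ => ?_
    by_cases h : P v w
    · rw [if_pos h, if_pos (hP _ _ h)]
    · rw [if_neg h, if_neg fun h' => h (hP _ _ h')]
  rw [h1, h2]
  ring

open Classical in
/-- the sum over pairs in the same block -/
theorem sum_same {I dp W : ι → Finset V} (hG : Geom I dp W) (a : V → V → ℝ) :
    ∑ w, ∑ v, (if Same I w v then a w v else 0) = ∑ q, ∑ w ∈ I q, ∑ v ∈ I q, a w v := by
  have h1 : ∀ w v, (if Same I w v then a w v else 0) =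
      ∑ q, if w ∈ I q then (if v ∈ I q then a w v else 0) else 0 := by
    intro w v
    by_cases h : Same I w v
    · obtain ⟨q, h1, h2⟩ := h
      rw [if_pos ⟨q, h1, h2⟩, Finset.sum_eq_single q]
      · rw [if_pos h1, if_pos h2]
      · intro q' _ hq'
        rw [if_neg fun h => hq' (hG.disj _ _ w h h1)]
      · intro h; exact absurd (Finset.mem_univ q) h
    · rw [if_neg h]
      symm
      refine Finset.sum_eq_zero fun q _ => ?_
      by_cases h1 : w ∈ I q
      · rw [if_pos h1, if_neg fun h2 => h ⟨q, h1, h2⟩]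
      · rw [if_neg h1]
  simp only [h1]
  have h2 : ∑ w, ∑ v, ∑ q, (if w ∈ I q then (if v ∈ I q then a w v else 0) else 0) =
      ∑ q, ∑ w, ∑ v, (if w ∈ I q then (if v ∈ I q then a w v else 0) else 0) := by
    rw [Finset.sum_comm' (t' := univ) (s' := fun _ => univ) (by simp)]
    simp only [Finset.sum_comm (s := (univ : Finset V)) (t := (univ : Finset ι))]
    refine (Finset.sum_congr rfl fun q _ => ?_)
    rw [Finset.sum_comm]
  rw [h2]
  refine Finset.sum_congr rfl fun q _ => ?_
  have h3 : ∀ w, ∑ v, (if w ∈ I q then (if v ∈ I q then a w v else 0) else 0) =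
      if w ∈ I q then ∑ v ∈ I q, a w v else 0 := by
    intro w
    by_cases h : w ∈ I q
    · simp only [if_pos h, Finset.sum_ite_mem, Finset.univ_inter]
    · simp only [if_neg h, Finset.sum_const_zero]
  simp only [h3, Finset.sum_ite_mem, Finset.univ_inter]

open Classical in
/-- **the algebraic trace inequality** -/
theorem trace_le {I dp W : ι → Finset V} (hG : Geom I dp W) {J A B C : V → V → ℝ}
    (hJ : ∀ w v, J w v = A w v + B w v + C w v)
    (hB : ∀ w v, ¬ Deep dp w → B w v = 0) (hC : ∀ w v, ¬ Deep dp w → C w v = 0)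
    (hCW : ∀ q w v, w ∈ dp q → v ∉ W q → C w v = 0)
    (hns : ∀ q w v, w ∈ dp q → v ∈ W q → v ∉ I q → C w v = 0 ∨ A v w = 0) :
    ∑ w, ∑ v, J w v * J v w ≤
      ∑ q, ∑ w ∈ I q, ∑ v ∈ I q, J w v ^ 2 +
      ∑ w, (if ¬ Deep dp w then ∑ v, A w v ^ 2 else 0) +
      2 * ∑ w, ∑ v, (if Crs I dp w v then A w v ^ 2 + B w v ^ 2 else 0) := by
  have h0 : ∑ w, ∑ v, J w v * J v w ≤ ∑ w, ∑ v,
      ((if Same I w v then (J w v ^ 2 + J v w ^ 2) / 2 else 0) +
      ((if ¬ Deep dp w then A w v ^ 2 / 2 else 0) + (if ¬ Deep dp v then A v w ^ 2 / 2 else 0)) +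
      (if Crs I dp w v then (A w v ^ 2 + A v w ^ 2) + (B w v ^ 2 + B v w ^ 2) else 0)) :=
    Finset.sum_le_sum fun w _ => Finset.sum_le_sum fun v _ => pair_le hG hJ hB hC hCW hns w v
  refine h0.trans (le_of_eq ?_)
  simp only [Finset.sum_add_distrib]
  have e1 : ∑ w, ∑ v, (if Same I w v then (J w v ^ 2 + J v w ^ 2) / 2 else 0) =
      ∑ q, ∑ w ∈ I q, ∑ v ∈ I q, J w v ^ 2 := by
    rw [sum_swap_half (fun w v => J w v ^ 2) (Same I) (fun w v h => h.symm)]
    exact sum_same hG _
  have e2 : ∑ w, ∑ v, (if ¬ Deep dp w then A w v ^ 2 / 2 else 0) +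
      ∑ w, ∑ v, (if ¬ Deep dp v then A v w ^ 2 / 2 else 0) =
      ∑ w, (if ¬ Deep dp w then ∑ v, A w v ^ 2 else 0) := by
    have : ∑ w, ∑ v, (if ¬ Deep dp v then A v w ^ 2 / 2 else 0) =
        ∑ w, ∑ v, (if ¬ Deep dp w then A w v ^ 2 / 2 else 0) := Finset.sum_comm
    rw [this, ← Finset.sum_add_distrib]
    refine Finset.sum_congr rfl fun w _ => ?_
    rw [← Finset.sum_add_distrib]
    by_cases h : Deep dp w
    · simp [h]
    · simp only [h, not_false_eq_true, if_true]
      exact Finset.sum_congr rfl fun v _ => by ring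
  have e3 : ∑ w, ∑ v, (if Crs I dp w v then (A w v ^ 2 + A v w ^ 2) + (B w v ^ 2 + B v w ^ 2) else 0) =
      2 * ∑ w, ∑ v, (if Crs I dp w v then A w v ^ 2 + B w v ^ 2 else 0) := by
    have h := sum_swap_half (fun w v => A w v ^ 2 + B w v ^ 2) (Crs I dp) (fun w v h => h.symm)
    rw [← h, Finset.mul_sum]
    refine Finset.sum_congr rfl fun w _ => ?_
    rw [Finset.mul_sum]
    refine Finset.sum_congr rfl fun v _ => ?_
    split_ifs <;> ring
  rw [e1, e2, e3]

end Algebra

end Crest.Agent.R144.LoB95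
end
end

-- ▼ part R144/LoB2_95
section

/-!
# R144 (S0197), helper95, lower bound (trace form), file 2: the field

`L = Z + g T`, `Y_w = chi (V_w) * Psi (L_w)` on the active sites `S`, `0` elsewhere.
`Z` tangent on `S`, `T` templates (zero off the deep parts of the blocks), `g` scalar cut-offs,
`V` a tangent field which vanishes off `S` (560's scalar field).  Main result: `tan_Y`.
-/

set_option autoImplicit false
set_option linter.unusedSectionVars false

open MeasureTheory Set
open scoped ENNReal NNReal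

noncomputable section

namespace Crest.Agent.R144.LoB95

open Crest.Agent.R144.Ham560
open Crest.Agent.R144.MW121 (jac jac_apply Tan)
open Crest.Agent.R144.Fib674 (pd)

variable {U : Type*} [DecidableEq U] {F : Finset U} {E : Finset (U × U)} {ξ : U → ℝ}

/-- slack of a pair of sites -/
def slk (F : Finset U) (ξ : U → ℝ) (x : F → ℝ) (a b : U) : ℝ :=
  max 0 (1 - |ext F ξ x a - ext F ξ x b|)

theorem slk_nonneg (x : F → ℝ) (a b : U) : 0 ≤ slk F ξ x a b := le_max_left _ _

/-- a scalar label field which is Lipschitz and tangent on the edges inside `S` -/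
structure Fd (F : Finset U) (E : Finset (U × U)) (ξ : U → ℝ) (S : Finset U) (C : ℝ)
    (f : (F → ℝ) → F → ℝ) : Prop where
  lip : ∀ x y w, |f x w - f y w| ≤ C * ‖x - y‖
  edge : ∀ x ∈ ham F E ξ, ∀ (a b : F), (a : U) ∈ S → (b : U) ∈ S → (b : U) ∈ nbr E a →
    |f x a - f x b| ≤ C * slk F ξ x a b

/-- geometry of the blocks in the vertex set -/
structure BG (E : Finset (U × U)) (S : Finset U) {ι : Type*} (I dp W : ι → Finset U) : Prop where
  IS : ∀ q, I q ⊆ S
  sub : ∀ q, dp q ⊆ I q
  disj : ∀ q q' v, v ∈ I q → v ∈ I q' → q = q'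
  win : ∀ q q' v, v ∈ W q → v ∈ dp q' → q' = q
  nb : ∀ q a b, a ∈ dp q → b ∈ nbr E a → b ∈ S → b ∈ I q

variable {κ ι : Type*} [Fintype κ] [Fintype ι]

/-- constant of the trial field -/
def KY (C : ℝ) : ℝ := C * C + C * (2 * C + C * C)

theorem KY_nonneg {C : ℝ} (hC : 0 ≤ C) : 0 ≤ KY C := by unfold KY; positivity

/-- the cut-off seen by a label -/
def Gw (dp : ι → Finset U) (g : ι → (F → ℝ) → ℝ) (x : F → ℝ) (w : F) : ℝ :=
  ∑ q, if (w : U) ∈ dp q then g q x else 0

/-- the vector field -/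
def Lf (dp : ι → Finset U) (g : ι → (F → ℝ) → ℝ) (Z T : κ → (F → ℝ) → F → ℝ) (i : κ) (x : F → ℝ)
    (w : F) : ℝ := Z i x w + Gw dp g x w * T i x w

/-- clamp to `[0,1]` -/
def chi (s : ℝ) : ℝ := max 0 (min 1 s)

theorem chi_nonneg (s : ℝ) : 0 ≤ chi s := le_max_left _ _
theorem chi_le_one (s : ℝ) : chi s ≤ 1 := max_le zero_le_one (min_le_left _ _)
theorem chi_zero : chi 0 = 0 := by simp [chi]
theorem chi_one {s : ℝ} (h : 1 ≤ s) : chi s = 1 := by simp [chi, h]
theorem abs_chi_le (s : ℝ) : |chi s| ≤ 1 := by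
  rw [abs_of_nonneg (chi_nonneg s)]; exact chi_le_one s
theorem chi_lip (s t : ℝ) : |chi s - chi t| ≤ |s - t| := by
  refine (abs_max_sub_max_le_max _ _ _ _).trans (max_le (by simp) ?_)
  exact (abs_min_sub_min_le_max _ _ _ _).trans (max_le (by simp) le_rfl)

/-- the trial field -/
def Yw (S : Finset U) (dp : ι → Finset U) (g : ι → (F → ℝ) → ℝ) (Z T : κ → (F → ℝ) → F → ℝ)
    (V : (F → ℝ) → F → ℝ) (Psi : (κ → ℝ) → ℝ) (x : F → ℝ) (w : F) : ℝ :=
  if (w : U) ∈ S then chi (V x w) * Psi (fun i => Lf dp g Z T i x w) else 0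

/-- hypotheses on the data of the trial field -/
structure Low (F : Finset U) (E : Finset (U × U)) (ξ : U → ℝ) (S : Finset U)
    (I dp W : ι → Finset U) (g : ι → (F → ℝ) → ℝ) (Z T : κ → (F → ℝ) → F → ℝ)
    (V : (F → ℝ) → F → ℝ) (Psi : (κ → ℝ) → ℝ) (C : ℝ) : Prop where
  C1 : 1 ≤ C
  bg : BG E S I dp W
  fZ : ∀ i, Fd F E ξ S C (Z i)
  fT : ∀ i, Fd F E ξ S C (T i)
  T0 : ∀ i x (w : F), (∀ q, (w : U) ∉ dp q) → T i x w = 0
  TB : ∀ i x w, |T i x w| ≤ C
  TW : ∀ i (x : F → ℝ) q (w v : F) (t : ℝ), (w : U) ∈ dp q → (v : U) ∉ W q →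
    T i (x + t • (Pi.single v 1 : F → ℝ)) w = T i x w
  glip : ∀ q x y, |g q x - g q y| ≤ C * ‖x - y‖
  g0 : ∀ q x, 0 ≤ g q x
  g1 : ∀ q x, g q x ≤ 1
  fV : Fd F E ξ F C V
  VS : ∀ x (w : F), (w : U) ∉ S → V x w = 0
  VF : ∀ x ∈ ham F E ξ, ∀ (a : F) (b : U), b ∉ F → b ∈ nbr E a → |V x a| ≤ C * slk F ξ x a b
  Plip : ∀ l l' : κ → ℝ, |Psi l - Psi l'| ≤ C * ‖l - l'‖
  PB : ∀ l, |Psi l| ≤ C

section

variable {S : Finset U} {I dp W : ι → Finset U} {g : ι → (F → ℝ) → ℝ} {Z T : κ → (F → ℝ) → F → ℝ}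
  {V : (F → ℝ) → F → ℝ} {Psi : (κ → ℝ) → ℝ} {C : ℝ}

theorem Gw_eq (bg : BG E S I dp W) (x : F → ℝ) {w : F} {q : ι} (h : (w : U) ∈ dp q) :
    Gw dp g x w = g q x := by
  classical
  rw [Gw, Finset.sum_eq_single q]
  · rw [if_pos h]
  · intro q' _ hq
    rw [if_neg]
    intro h'
    exact hq (bg.disj _ _ _ (bg.sub _ h') (bg.sub _ h))
  · intro h'; exact absurd (Finset.mem_univ q) h'

theorem Gw_eq_zero (x : F → ℝ) {w : F} (h : ∀ q, (w : U) ∉ dp q) : Gw dp g x w = 0 :=
  Finset.sum_eq_zero fun q _ => by rw [if_neg (h q)]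

variable (H : Low F E ξ S I dp W g Z T V Psi C)
include H

theorem Low.C0 : 0 ≤ C := zero_le_one.trans H.C1

/-- the product `g T` -/
theorem Low.gT_lip (i : κ) (x y : F → ℝ) (w : F) :
    |Gw dp g x w * T i x w - Gw dp g y w * T i y w| ≤ (C + C * C) * ‖x - y‖ := by
  have hC := H.C0
  by_cases h : ∃ q, (w : U) ∈ dp q
  · obtain ⟨q, hq⟩ := h
    rw [Gw_eq H.bg x hq, Gw_eq H.bg y hq]
    have e : g q x * T i x w - g q y * T i y w =
        g q x * (T i x w - T i y w) + (g q x - g q y) * T i y w := by ring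
    rw [e]
    have h1 := (H.fT i).lip x y w
    have h2 := H.glip q x y
    have h3 := H.TB i y w
    calc _ ≤ |g q x| * |T i x w - T i y w| + |g q x - g q y| * |T i y w| := by
          rw [← abs_mul, ← abs_mul]; exact abs_add_le _ _
      _ ≤ 1 * (C * ‖x - y‖) + (C * ‖x - y‖) * C := by
          refine add_le_add (mul_le_mul ?_ h1 (abs_nonneg _) zero_le_one)
            (mul_le_mul h2 h3 (abs_nonneg _) (by positivity))
          rw [abs_of_nonneg (H.g0 q x)]; exact H.g1 q x
      _ = _ := by ring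
  · push Not at h
    rw [Gw_eq_zero x h, Gw_eq_zero y h]
    simp only [zero_mul, sub_self, abs_zero]
    positivity

theorem Low.gT_edge (i : κ) {x : F → ℝ} (hx : x ∈ ham F E ξ) {a b : F} (ha : (a : U) ∈ S) (hb : (b : U) ∈ S)
    (hab : (b : U) ∈ nbr E a) :
    |Gw dp g x a * T i x a - Gw dp g x b * T i x b| ≤ C * slk F ξ x a b := by
  have hC := H.C0
  have hs := slk_nonneg (ξ := ξ) x (a : U) b
  have hT := (H.fT i).edge x hx a b ha hb hab
  have one : ∀ q, |g q x * (T i x a - T i x b)| ≤ C * slk F ξ x a b := by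
    intro q
    rw [abs_mul, abs_of_nonneg (H.g0 q x)]
    calc g q x * |T i x a - T i x b| ≤ 1 * (C * slk F ξ x a b) :=
          mul_le_mul (H.g1 q x) hT (abs_nonneg _) zero_le_one
      _ = _ := one_mul _
  have nbsym : ∀ {a b : U}, b ∈ nbr E a → a ∈ nbr E b := by
    intro a b h
    rw [mem_nbr] at h ⊢
    exact ⟨h.1.symm, h.2.symm⟩
  by_cases h : ∃ q, (a : U) ∈ dp q
  · obtain ⟨q, hq⟩ := h
    have hbI : (b : U) ∈ I q := H.bg.nb q a b hq hab hb
    by_cases h' : ∃ q', (b : U) ∈ dp q'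
    · obtain ⟨q', hq'⟩ := h'
      have : q = q' := H.bg.disj _ _ _ hbI (H.bg.sub _ hq')
      subst this
      rw [Gw_eq H.bg x hq, Gw_eq H.bg x hq', ← mul_sub]
      exact one q
    · push Not at h'
      rw [Gw_eq H.bg x hq, Gw_eq_zero x h', zero_mul, sub_zero]
      have h0 := H.T0 i x b h'
      have := one q
      rwa [h0, sub_zero] at this
  · push Not at h
    rw [Gw_eq_zero x h, zero_mul, zero_sub, abs_neg]
    by_cases h' : ∃ q', (b : U) ∈ dp q'
    · obtain ⟨q', hq'⟩ := h'
      rw [Gw_eq H.bg x hq']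
      have h0 := H.T0 i x a h
      have := one q'
      rwa [h0, zero_sub, mul_neg, abs_neg] at this
    · push Not at h'
      rw [Gw_eq_zero x h', zero_mul, abs_zero]
      positivity

theorem Low.L_lip (i : κ) (x y : F → ℝ) (w : F) :
    |Lf dp g Z T i x w - Lf dp g Z T i y w| ≤ (2 * C + C * C) * ‖x - y‖ := by
  have h1 := (H.fZ i).lip x y w
  have h2 := H.gT_lip i x y w
  have e : Lf dp g Z T i x w - Lf dp g Z T i y w = (Z i x w - Z i y w) +
      (Gw dp g x w * T i x w - Gw dp g y w * T i y w) := by unfold Lf; ring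
  rw [e]
  refine (abs_add_le _ _).trans ((add_le_add h1 h2).trans (le_of_eq (by ring)))

theorem Low.L_edge (i : κ) {x : F → ℝ} (hx : x ∈ ham F E ξ) {a b : F} (ha : (a : U) ∈ S) (hb : (b : U) ∈ S)
    (hab : (b : U) ∈ nbr E a) :
    |Lf dp g Z T i x a - Lf dp g Z T i x b| ≤ 2 * C * slk F ξ x a b := by
  have h1 := (H.fZ i).edge x hx a b ha hb hab
  have h2 := H.gT_edge i hx ha hb hab
  have e : Lf dp g Z T i x a - Lf dp g Z T i x b = (Z i x a - Z i x b) +
      (Gw dp g x a * T i x a - Gw dp g x b * T i x b) := by unfold Lf; ring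
  rw [e]
  refine (abs_add_le _ _).trans ((add_le_add h1 h2).trans (le_of_eq (by ring)))

omit H in
theorem prod_le {a a' b b' A B : ℝ} (h1 : |a - a'| ≤ A) (h2 : |b'| ≤ C) (h3 : |a| ≤ 1)
    (h4 : |b - b'| ≤ B) : |a * b - a' * b'| ≤ A * C + B := by
  have e : a * b - a' * b' = (a - a') * b' + a * (b - b') := by ring
  rw [e]
  refine (abs_add_le _ _).trans ?_
  rw [abs_mul, abs_mul]
  have hA : 0 ≤ A := (abs_nonneg _).trans h1
  have hB : 0 ≤ B := (abs_nonneg _).trans h4
  refine add_le_add (mul_le_mul h1 h2 (abs_nonneg _) hA) ?_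
  calc |a| * |b - b'| ≤ 1 * B := mul_le_mul h3 h4 (abs_nonneg _) zero_le_one
    _ = B := one_mul _

theorem Low.Y_lip (x y : F → ℝ) (w : F) :
    |Yw S dp g Z T V Psi x w - Yw S dp g Z T V Psi y w| ≤ KY C * ‖x - y‖ := by
  have hC := H.C0
  unfold Yw
  split_ifs with hw
  · have h1 : |chi (V x w) - chi (V y w)| ≤ C * ‖x - y‖ := (chi_lip _ _).trans (H.fV.lip x y w)
    have h2 : |Psi (fun i => Lf dp g Z T i x w) - Psi (fun i => Lf dp g Z T i y w)| ≤
        C * ((2 * C + C * C) * ‖x - y‖) := by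
      refine (H.Plip _ _).trans (mul_le_mul_of_nonneg_left ?_ hC)
      rw [pi_norm_le_iff_of_nonneg (by positivity)]
      intro i
      rw [Real.norm_eq_abs]
      exact H.L_lip i x y w
    refine (prod_le h1 (H.PB _) (abs_chi_le _) h2).trans (le_of_eq ?_)
    unfold KY; ring
  · rw [sub_self, abs_zero]
    exact mul_nonneg (KY_nonneg hC) (norm_nonneg _)

theorem Low.Y_edge {x : F → ℝ} (hx : x ∈ ham F E ξ) {a b : F} (hab : (b : U) ∈ nbr E a) :
    |Yw S dp g Z T V Psi x a - Yw S dp g Z T V Psi x b| ≤ KY C * slk F ξ x a b := by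
  have hC := H.C0
  have hC1 := H.C1
  have hs := slk_nonneg (ξ := ξ) x (a : U) b
  have hV := H.fV.edge x hx a b a.2 b.2 hab
  have hK : C * C ≤ KY C := by unfold KY; nlinarith [mul_nonneg hC hC]
  unfold Yw
  by_cases ha : (a : U) ∈ S
  · by_cases hb : (b : U) ∈ S
    · rw [if_pos ha, if_pos hb]
      have h1 : |chi (V x a) - chi (V x b)| ≤ C * slk F ξ x a b := (chi_lip _ _).trans hV
      have h2 : |Psi (fun i => Lf dp g Z T i x a) - Psi (fun i => Lf dp g Z T i x b)| ≤
          C * (2 * C * slk F ξ x a b) := by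
        refine (H.Plip _ _).trans (mul_le_mul_of_nonneg_left ?_ hC)
        rw [pi_norm_le_iff_of_nonneg (by positivity)]
        intro i
        rw [Real.norm_eq_abs]
        exact H.L_edge i hx ha hb hab
      refine (prod_le h1 (H.PB _) (abs_chi_le _) h2).trans ?_
      unfold KY
      nlinarith [mul_nonneg (mul_nonneg hC hC) (mul_nonneg hC hs)]
    · rw [if_pos ha, if_neg hb, sub_zero, abs_mul]
      have h0 := H.VS x b hb
      rw [h0, sub_zero] at hV
      have h1 : |chi (V x a)| ≤ C * slk F ξ x a b := by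
        have := chi_lip (V x a) 0
        rw [chi_zero, sub_zero, sub_zero] at this
        exact this.trans hV
      calc |chi (V x a)| * |Psi fun i => Lf dp g Z T i x a| ≤ (C * slk F ξ x a b) * C :=
            mul_le_mul h1 (H.PB _) (abs_nonneg _) (by positivity)
        _ = (C * C) * slk F ξ x a b := by ring
        _ ≤ _ := mul_le_mul_of_nonneg_right hK hs
  · by_cases hb : (b : U) ∈ S
    · rw [if_neg ha, if_pos hb, zero_sub, abs_neg, abs_mul]
      have h0 := H.VS x a ha
      rw [h0, zero_sub, abs_neg] at hV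
      have h1 : |chi (V x b)| ≤ C * slk F ξ x a b := by
        have := chi_lip (V x b) 0
        rw [chi_zero, sub_zero, sub_zero] at this
        exact this.trans hV
      calc |chi (V x b)| * |Psi fun i => Lf dp g Z T i x b| ≤ (C * slk F ξ x a b) * C :=
            mul_le_mul h1 (H.PB _) (abs_nonneg _) (by positivity)
        _ = (C * C) * slk F ξ x a b := by ring
        _ ≤ _ := mul_le_mul_of_nonneg_right hK hs
    · rw [if_neg ha, if_neg hb, sub_zero, abs_zero]
      exact mul_nonneg (KY_nonneg hC) hs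

theorem Low.Y_bdry {x : F → ℝ} (hx : x ∈ ham F E ξ) {a : F} {b : U} (hb : b ∉ F) (hab : b ∈ nbr E a) :
    |Yw S dp g Z T V Psi x a| ≤ KY C * slk F ξ x a b := by
  have hC := H.C0
  have hs := slk_nonneg (ξ := ξ) x (a : U) b
  have hK : C * C ≤ KY C := by unfold KY; nlinarith [mul_nonneg hC hC]
  unfold Yw
  split_ifs with ha
  · have h1 : |chi (V x a)| ≤ C * slk F ξ x a b := by
      have := chi_lip (V x a) 0
      rw [chi_zero, sub_zero, sub_zero] at this
      exact this.trans (H.VF x hx a b hb hab)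
    rw [abs_mul]
    calc |chi (V x a)| * |Psi fun i => Lf dp g Z T i x a| ≤ (C * slk F ξ x a b) * C :=
          mul_le_mul h1 (H.PB _) (abs_nonneg _) (by positivity)
      _ = (C * C) * slk F ξ x a b := by ring
      _ ≤ _ := mul_le_mul_of_nonneg_right hK hs
  · rw [abs_zero]
    exact mul_nonneg (KY_nonneg hC) hs

/-- **the trial field is tangent to the polytope.** -/
theorem Low.tan_Y : Tan (ham F E ξ) (Yw S dp g Z T V Psi) (KY C).toNNReal (1 / KY C) where
  lip := by
    refine LipschitzWith.of_dist_le_mul fun x y => ?_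
    rw [dist_pi_le_iff (by positivity), Real.coe_toNNReal _ (KY_nonneg H.C0)]
    intro w
    rw [Real.dist_eq, dist_eq_norm]
    exact H.Y_lip x y w
  pos := by
    have h1 := H.C1
    have : 0 < KY C := by unfold KY; positivity
    positivity
  inv := by
    intro x hx t ht p hp
    have h1 := H.C1
    have hK : 0 < KY C := by unfold KY; positivity
    set Y := Yw S dp g Z T V Psi x with hY
    -- extension of the field by zero
    have hext : ∀ u : U, ext F ξ (x + t • Y) u = ext F ξ x u + t * ext F 0 Y u := by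
      intro u
      by_cases hu : u ∈ F
      · rw [ext_mem hu, ext_mem hu, ext_mem hu]; rfl
      · rw [ext_notMem hu, ext_notMem hu, ext_notMem hu]; simp
    have hsl : ∀ a b : U, |ext F ξ x a - ext F ξ x b| ≤ 1 →
        slk F ξ x a b = 1 - |ext F ξ x a - ext F ξ x b| := by
      intro a b h
      unfold slk
      rw [max_eq_right (by linarith)]
    have hsym : ∀ a b : U, slk F ξ x a b = slk F ξ x b a := by
      intro a b
      unfold slk
      rw [abs_sub_comm]
    have hp1 := hx p hp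
    have key : p.1 ≠ p.2 → |ext F 0 Y p.1 - ext F 0 Y p.2| ≤ KY C * slk F ξ x p.1 p.2 := by
      intro hne
      have hn : p.2 ∈ nbr E p.1 := mem_nbr.mpr ⟨hne.symm, Or.inl hp⟩
      have hn' : p.1 ∈ nbr E p.2 := mem_nbr.mpr ⟨hne, Or.inr hp⟩
      by_cases ha : p.1 ∈ F
      · by_cases hb : p.2 ∈ F
        · rw [ext_mem ha, ext_mem hb]
          exact H.Y_edge hx (a := ⟨p.1, ha⟩) (b := ⟨p.2, hb⟩) hn
        · rw [ext_mem ha, ext_notMem hb, Pi.zero_apply, sub_zero]
          exact H.Y_bdry hx (a := ⟨p.1, ha⟩) hb hn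
      · by_cases hb : p.2 ∈ F
        · rw [ext_notMem ha, ext_mem hb, Pi.zero_apply, zero_sub, abs_neg, hsym]
          exact H.Y_bdry hx (a := ⟨p.2, hb⟩) ha hn'
        · rw [ext_notMem ha, ext_notMem hb, Pi.zero_apply, Pi.zero_apply, sub_self, abs_zero]
          exact mul_nonneg hK.le (slk_nonneg _ _ _)
    rw [hext, hext]
    by_cases hne : p.1 = p.2
    · rw [hne]; simp
    have h2 := key hne
    rw [hsl _ _ hp1] at h2
    have h4 : |t| * KY C ≤ 1 := by
      calc |t| * KY C ≤ 1 / KY C * KY C := by gcongr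
        _ = 1 := by field_simp
    have h5 : |t * (ext F 0 Y p.1 - ext F 0 Y p.2)| ≤ 1 - |ext F ξ x p.1 - ext F ξ x p.2| := by
      rw [abs_mul]
      calc |t| * |ext F 0 Y p.1 - ext F 0 Y p.2| ≤
            |t| * (KY C * (1 - |ext F ξ x p.1 - ext F ξ x p.2|)) := by gcongr
        _ = (|t| * KY C) * (1 - |ext F ξ x p.1 - ext F ξ x p.2|) := by ring
        _ ≤ 1 * (1 - |ext F ξ x p.1 - ext F ξ x p.2|) := by
            apply mul_le_mul_of_nonneg_right h4; linarith
        _ = _ := one_mul _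
    calc |ext F ξ x p.1 + t * ext F 0 Y p.1 - (ext F ξ x p.2 + t * ext F 0 Y p.2)|
        = |(ext F ξ x p.1 - ext F ξ x p.2) + t * (ext F 0 Y p.1 - ext F 0 Y p.2)| := by
          congr 1; ring
      _ ≤ |ext F ξ x p.1 - ext F ξ x p.2| + |t * (ext F 0 Y p.1 - ext F 0 Y p.2)| :=
          abs_add_le _ _
      _ ≤ 1 := by linarith

end

end Crest.Agent.R144.LoB95
end
end

-- ▼ part R144/LoB3_95
section

/-!
# R144 (S0197), helper95, lower bound (trace form), file 3: the pointwise trace inequality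

`Low.trace_le`: at a point `x` where everything is differentiable, where the cut-off field is `> 1`
as soon as `Psi` is alive, and where switched-on windows do not see deep sites,
`tr (jac Y * jac Y) ≤ ∑ blocks (∂_v Y_w)² + explicit terms`.
-/

set_option autoImplicit false
set_option linter.unusedSectionVars false

open MeasureTheory Set Filter Topology
open scoped ENNReal NNReal

noncomputable section

namespace Crest.Agent.R144.LoB95

open Crest.Agent.R144.Ham560
open Crest.Agent.R144.MW121 (jac jac_apply Tan)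
open Crest.Agent.R144.Fib674 (pd)

variable {U : Type*} [DecidableEq U] {F : Finset U} {E : Finset (U × U)} {ξ : U → ℝ}
variable {κ ι : Type*} [Fintype κ] [Fintype ι]

/-! ### partial derivatives -/

theorem pd_add {f h : (F → ℝ) → ℝ} {x : F → ℝ} (hf : DifferentiableAt ℝ f x)
    (hh : DifferentiableAt ℝ h x) (v : F) : pd v (fun y => f y + h y) x = pd v f x + pd v h x := by
  unfold pd
  rw [show (fun y => f y + h y) = f + h from rfl, fderiv_add hf hh]
  rfl

theorem pd_mul {f h : (F → ℝ) → ℝ} {x : F → ℝ} (hf : DifferentiableAt ℝ f x)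
    (hh : DifferentiableAt ℝ h x) (v : F) :
    pd v (fun y => f y * h y) x = pd v f x * h x + f x * pd v h x := by
  unfold pd
  rw [show (fun y => f y * h y) = f * h from rfl, fderiv_mul hf hh]
  simp only [ContinuousLinearMap.add_apply, _root_.smul_apply, smul_eq_mul]
  ring

theorem pd_congr {f h : (F → ℝ) → ℝ} {x : F → ℝ} (hfh : f =ᶠ[𝓝 x] h) (v : F) :
    pd v f x = pd v h x := by
  unfold pd
  rw [hfh.fderiv_eq]

theorem pd_eq_zero_of_line {f : (F → ℝ) → ℝ} {x : F → ℝ} (hf : DifferentiableAt ℝ f x) {v : F}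
    (h : ∀ t : ℝ, f (x + t • (Pi.single v 1 : F → ℝ)) = f x) : pd v f x = 0 := by
  unfold pd
  rw [← hf.lineDeriv_eq_fderiv]
  unfold lineDeriv
  simp only [h, deriv_const]


/-- sites of `F` in `A` -/
def inF (F A : Finset U) : Finset F := Finset.univ.filter fun v : F => (v : U) ∈ A

@[simp] theorem mem_inF {A : Finset U} {v : F} : v ∈ inF F A ↔ (v : U) ∈ A := by simp [inF]

/-! ### the objects at a point -/

section

variable (S : Finset U) (I dp W : ι → Finset U) (g : ι → (F → ℝ) → ℝ)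
  (Z T : κ → (F → ℝ) → F → ℝ) (V : (F → ℝ) → F → ℝ) (Psi : (κ → ℝ) → ℝ)

/-- gradient of `Psi` at the label `w` -/
def pw [DecidableEq κ] (x : F → ℝ) (w : F) (i : κ) : ℝ :=
  if (w : U) ∈ S then fderiv ℝ Psi (fun i => Lf dp g Z T i x w) (Pi.single i 1) else 0

/-- its square norm -/
def nP [DecidableEq κ] (x : F → ℝ) (w : F) : ℝ := ∑ i, pw S dp g Z T Psi x w i ^ 2

/-- derivative of the cut-off seen by `w` -/
def dG (x : F → ℝ) (w v : F) : ℝ := ∑ q, if (w : U) ∈ dp q then pd v (g q) x else 0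

/-- square of the derivative of the explicit field -/
def eZ (x : F → ℝ) (w v : F) : ℝ := ∑ i, pd v (fun y => Z i y w) x ^ 2

/-- square norm of the template at the label `w` -/
def eT (x : F → ℝ) (w : F) : ℝ := ∑ i, T i x w ^ 2

/-- squared gradient of the cut-off `q` -/
def eg (x : F → ℝ) (q : ι) : ℝ := ∑ v, pd v (g q) x ^ 2

/-- squared derivatives of the trial field inside the block `q` -/
def blk [DecidableEq κ] (x : F → ℝ) (q : ι) : ℝ :=
  ∑ w ∈ inF F (I q), ∑ v ∈ inF F (I q),
    (∑ i, pw S dp g Z T Psi x w i * pd v (fun y => Lf dp g Z T i y w) x) ^ 2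

/-- points where all data are differentiable -/
structure DAt (x : F → ℝ) : Prop where
  Z : ∀ i (w : F), DifferentiableAt ℝ (fun y => Z i y w) x
  T : ∀ i (w : F), DifferentiableAt ℝ (fun y => T i y w) x
  g : ∀ q, DifferentiableAt ℝ (g q) x

/-- good points -/
structure GAt (x : F → ℝ) : Prop where
  cut : ∀ w : F, (w : U) ∈ S → (fun i => Lf dp g Z T i x w) ∈ tsupport Psi → 1 < V x w
  see : ∀ q, 0 < g q x → ∀ v w : F, (v : U) ∈ W q → (v : U) ∉ I q → (w : U) ∈ dp q →
    ∀ i, pd w (fun y => Z i y v) x = 0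

end

section

variable {S : Finset U} {I dp W : ι → Finset U} {g : ι → (F → ℝ) → ℝ}
  {Z T : κ → (F → ℝ) → F → ℝ} {V : (F → ℝ) → F → ℝ} {Psi : (κ → ℝ) → ℝ} {x : F → ℝ}

theorem diff_Gw (hd : DAt g Z T x) (w : F) : DifferentiableAt ℝ (fun y => Gw dp g y w) x := by
  unfold Gw
  refine DifferentiableAt.fun_sum fun q _ => ?_
  split_ifs
  · exact hd.g q
  · exact differentiableAt_const _

theorem pd_Gw (hd : DAt g Z T x) (w v : F) : pd v (fun y => Gw dp g y w) x = dG dp g x w v := by
  unfold pd dG Gw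
  rw [fderiv_fun_sum]
  · rw [_root_.sum_apply]
    refine Finset.sum_congr rfl fun q _ => ?_
    split_ifs
    · rfl
    · simp
  · intro q _
    split_ifs
    · exact hd.g q
    · exact differentiableAt_const _

theorem diff_L (hd : DAt g Z T x) (i : κ) (w : F) :
    DifferentiableAt ℝ (fun y => Lf dp g Z T i y w) x := by
  unfold Lf
  exact (hd.Z i w).add ((diff_Gw hd w).mul (hd.T i w))

theorem pd_L (hd : DAt g Z T x) (i : κ) (w v : F) :
    pd v (fun y => Lf dp g Z T i y w) x = pd v (fun y => Z i y w) x +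
      (dG dp g x w v * T i x w + Gw dp g x w * pd v (fun y => T i y w) x) := by
  unfold Lf
  rw [pd_add (f := fun y => Z i y w) (h := fun y => Gw dp g y w * T i y w) (hd.Z i w)
    ((diff_Gw hd w).mul (hd.T i w)), pd_mul (diff_Gw hd w) (hd.T i w), pd_Gw hd]

theorem dG_eq (bg : BG E S I dp W) (x : F → ℝ) {w : F} {q : ι} (h : (w : U) ∈ dp q) (v : F) :
    dG dp g x w v = pd v (g q) x := by
  classical
  rw [dG, Finset.sum_eq_single q]
  · rw [if_pos h]
  · intro q' _ hq
    rw [if_neg]
    intro h'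
    exact hq (bg.disj _ _ _ (bg.sub _ h') (bg.sub _ h))
  · intro h'; exact absurd (Finset.mem_univ q) h'

theorem dG_eq_zero (x : F → ℝ) {w : F} (h : ∀ q, (w : U) ∉ dp q) (v : F) : dG dp g x w v = 0 :=
  Finset.sum_eq_zero fun q _ => by rw [if_neg (h q)]

variable [DecidableEq κ] {C : ℝ}

/-- derivative of one component of the trial field -/
theorem hasFDerivAt_Y (H : Low F E ξ S I dp W g Z T V Psi C) (hP : Differentiable ℝ Psi)
    (hd : DAt g Z T x) (hg : GAt S I dp W g Z T V Psi x) (w : F) :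
    HasFDerivAt (fun y => Yw S dp g Z T V Psi y w)
      (∑ i, pw S dp g Z T Psi x w i • fderiv ℝ (fun y => Lf dp g Z T i y w) x) x := by
  by_cases hw : (w : U) ∈ S
  · -- chain rule
    have hL : HasFDerivAt (fun y => (fun i => Lf dp g Z T i y w))
        (ContinuousLinearMap.pi fun i => fderiv ℝ (fun y => Lf dp g Z T i y w) x) x := by
      rw [hasFDerivAt_pi]
      exact fun i => (diff_L hd i w).hasFDerivAt
    have hc : HasFDerivAt (fun y => Psi (fun i => Lf dp g Z T i y w))
        ((fderiv ℝ Psi (fun i => Lf dp g Z T i x w)).comp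
          (ContinuousLinearMap.pi fun i => fderiv ℝ (fun y => Lf dp g Z T i y w) x)) x :=
      (hP _).hasFDerivAt.comp x hL
    have e : (fderiv ℝ Psi (fun i => Lf dp g Z T i x w)).comp
          (ContinuousLinearMap.pi fun i => fderiv ℝ (fun y => Lf dp g Z T i y w) x) =
        ∑ i, pw S dp g Z T Psi x w i • fderiv ℝ (fun y => Lf dp g Z T i y w) x := by
      ext z
      simp only [ContinuousLinearMap.comp_apply, _root_.sum_apply,
        _root_.smul_apply, smul_eq_mul]
      set u : κ → ℝ := ContinuousLinearMap.pi (fun i => fderiv ℝ (fun y => Lf dp g Z T i y w) x) z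
      have hu : u = ∑ i, u i • (Pi.single i 1 : κ → ℝ) := by
        funext j
        simp [Finset.sum_apply, Pi.single_apply]
      conv_lhs => rw [hu]
      rw [map_sum]
      refine Finset.sum_congr rfl fun i _ => ?_
      rw [map_smul, smul_eq_mul, mul_comm, pw, if_pos hw]
      rfl
    rw [e] at hc
    have hcL : ContinuousAt (fun y => (fun i => Lf dp g Z T i y w)) x := hL.continuousAt
    by_cases ht : (fun i => Lf dp g Z T i x w) ∈ tsupport Psi
    · have h1 := hg.cut w hw ht
      have hVc : Continuous fun y => V y w := by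
        have : LipschitzWith C.toNNReal (fun y => V y w) := by
          refine LipschitzWith.of_dist_le_mul fun y z => ?_
          rw [Real.dist_eq, dist_eq_norm, Real.coe_toNNReal _ H.C0]
          exact H.fV.lip y z w
        exact this.continuous
      have h2 : ∀ᶠ y in 𝓝 x, 1 < V y w := (hVc.tendsto x).eventually (lt_mem_nhds h1)
      refine hc.congr_of_eventuallyEq ?_
      filter_upwards [h2] with y hy
      rw [Yw, if_pos hw, chi_one hy.le, one_mul]
    · -- both sides vanish near `x`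
      have h0 : ∀ᶠ l in 𝓝 (fun i => Lf dp g Z T i x w), Psi l = 0 := by
        have := (isClosed_tsupport Psi).isOpen_compl.mem_nhds ht
        filter_upwards [this] with l hl
        exact image_eq_zero_of_notMem_tsupport hl
      refine hc.congr_of_eventuallyEq ?_
      filter_upwards [hcL.eventually h0] with y hy
      rw [Yw, if_pos hw, hy, mul_zero]
  · have e : ∑ i, pw S dp g Z T Psi x w i • fderiv ℝ (fun y => Lf dp g Z T i y w) x = 0 :=
      Finset.sum_eq_zero fun i _ => by rw [pw, if_neg hw, zero_smul]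
    rw [e]
    have : (fun y => Yw S dp g Z T V Psi y w) = fun _ => 0 := by
      funext y; rw [Yw, if_neg hw]
    rw [this]
    exact hasFDerivAt_const _ _

theorem jac_Y (H : Low F E ξ S I dp W g Z T V Psi C) (hP : Differentiable ℝ Psi)
    (hd : DAt g Z T x) (hg : GAt S I dp W g Z T V Psi x) (w v : F) :
    jac (Yw S dp g Z T V Psi) x w v =
      ∑ i, pw S dp g Z T Psi x w i * pd v (fun y => Lf dp g Z T i y w) x := by
  have h : HasFDerivAt (Yw S dp g Z T V Psi)
      (ContinuousLinearMap.pi fun w => ∑ i, pw S dp g Z T Psi x w i •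
        fderiv ℝ (fun y => Lf dp g Z T i y w) x) x := by
    rw [hasFDerivAt_pi]
    exact fun w => hasFDerivAt_Y H hP hd hg w
  rw [jac_apply, h.fderiv]
  simp [pd, _root_.sum_apply]

open Classical in
/-- **the pointwise trace inequality** -/
theorem Low.trace_le (H : Low F E ξ S I dp W g Z T V Psi C) (hP : Differentiable ℝ Psi)
    (hd : DAt g Z T x) (hg : GAt S I dp W g Z T V Psi x) :
    (jac (Yw S dp g Z T V Psi) x * jac (Yw S dp g Z T V Psi) x).trace ≤
      ∑ q, blk S I dp g Z T Psi x q +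
      ∑ w : F, (if ¬ ∃ q, (w : U) ∈ dp q then nP S dp g Z T Psi x w * ∑ v, eZ Z x w v else 0) +
      2 * (∑ w : F, nP S dp g Z T Psi x w *
          (∑ v : F, if Crs (fun q => inF F (I q)) (fun q => inF F (dp q)) w v then eZ Z x w v else 0) +
        ∑ q, ∑ w ∈ inF F (dp q), nP S dp g Z T Psi x w * eT T x w * eg g x q) := by
  set p := pw S dp g Z T Psi x with hp
  set J : F → F → ℝ := fun w v => jac (Yw S dp g Z T V Psi) x w v with hJ
  set A : F → F → ℝ := fun w v => ∑ i, p w i * pd v (fun y => Z i y w) x with hA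
  set B : F → F → ℝ := fun w v => dG dp g x w v * ∑ i, p w i * T i x w with hB
  set D : F → F → ℝ := fun w v => Gw dp g x w * ∑ i, p w i * pd v (fun y => T i y w) x with hD
  have bg := H.bg
  have hdeep : ∀ w : F, Deep (fun q => inF F (dp q)) w ↔ ∃ q, (w : U) ∈ dp q := by
    intro w
    unfold Deep
    simp only [mem_inF]
  have hG : Geom (fun q => inF F (I q)) (fun q => inF F (dp q)) (fun q => inF F (W q)) :=
    { sub := fun q v hv => by
        rw [mem_inF] at hv ⊢
        exact bg.sub q hv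
      disj := fun q q' v h1 h2 => bg.disj q q' v (mem_inF.mp h1) (mem_inF.mp h2)
      win := fun q q' v h1 h2 => bg.win q q' v (mem_inF.mp h1) (mem_inF.mp h2) }
  have h1 := LoB95.trace_le hG (J := J) (A := A) (B := B) (C := D)
    (fun w v => by
      simp only [hJ, hA, hB, hD]
      rw [jac_Y H hP hd hg, Finset.mul_sum, Finset.mul_sum, ← Finset.sum_add_distrib,
        ← Finset.sum_add_distrib]
      refine Finset.sum_congr rfl fun i _ => ?_
      rw [pd_L hd]
      ring)
    (fun w v hw => by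
      rw [hdeep] at hw
      push Not at hw
      simp only [hB]
      rw [dG_eq_zero x hw, zero_mul])
    (fun w v hw => by
      rw [hdeep] at hw
      push Not at hw
      simp only [hD]
      rw [Gw_eq_zero x hw, zero_mul])
    (fun q w v hw hv => by
      rw [mem_inF] at hw hv
      simp only [hD]
      rw [Finset.sum_eq_zero, mul_zero]
      intro i _
      rw [pd_eq_zero_of_line (hd.T i w) fun t => H.TW i x q w v t hw hv, mul_zero])
    (fun q w v hw hv hvI => by
      rw [mem_inF] at hw hv hvI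
      by_cases h0 : g q x = 0
      · left
        simp only [hD]
        rw [Gw_eq bg x hw, h0, zero_mul]
      · right
        have hpos : 0 < g q x := lt_of_le_of_ne (H.g0 q x) (Ne.symm h0)
        simp only [hA]
        refine Finset.sum_eq_zero fun i _ => ?_
        rw [hg.see q hpos v w hv hvI hw i, mul_zero])
  have etr : (jac (Yw S dp g Z T V Psi) x * jac (Yw S dp g Z T V Psi) x).trace =
      ∑ w, ∑ v, J w v * J v w := by
    simp only [Matrix.trace, Matrix.diag, Matrix.mul_apply, hJ]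
  rw [etr]
  refine h1.trans ?_
  have hA2 : ∀ w v, A w v ^ 2 ≤ nP S dp g Z T Psi x w * eZ Z x w v := by
    intro w v
    exact Finset.sum_mul_sq_le_sq_mul_sq _ _ _
  have hnP : ∀ w, 0 ≤ nP S dp g Z T Psi x w := fun w => Finset.sum_nonneg fun _ _ => sq_nonneg _
  have heZ : ∀ w v, 0 ≤ eZ Z x w v := fun w v => Finset.sum_nonneg fun _ _ => sq_nonneg _
  refine add_le_add (add_le_add (le_of_eq ?_) ?_) ?_
  · refine Finset.sum_congr rfl fun q _ => ?_
    unfold blk
    refine Finset.sum_congr rfl fun w _ => Finset.sum_congr rfl fun v _ => ?_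
    simp only [hJ]
    rw [jac_Y H hP hd hg]
  · refine Finset.sum_le_sum fun w _ => ?_
    simp only [hdeep]
    split_ifs
    · exact le_rfl
    · rw [Finset.mul_sum]
      exact Finset.sum_le_sum fun v _ => hA2 w v
  · refine mul_le_mul_of_nonneg_left ?_ zero_le_two
    have h2 : ∑ w, ∑ v, (if Crs (fun q => inF F (I q)) (fun q => inF F (dp q)) w v then
        A w v ^ 2 + B w v ^ 2 else 0) ≤
        ∑ w, ∑ v, ((if Crs (fun q => inF F (I q)) (fun q => inF F (dp q)) w v then
          nP S dp g Z T Psi x w * eZ Z x w v else 0) + B w v ^ 2) := by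
      refine Finset.sum_le_sum fun w _ => Finset.sum_le_sum fun v _ => ?_
      split_ifs
      · linarith [hA2 w v]
      · linarith [sq_nonneg (B w v)]
    refine h2.trans ?_
    simp only [Finset.sum_add_distrib]
    refine add_le_add (le_of_eq ?_) ?_
    · refine Finset.sum_congr rfl fun w _ => ?_
      rw [Finset.mul_sum]
      refine Finset.sum_congr rfl fun v _ => ?_
      split_ifs <;> ring
    · -- the cut-off part
      have h3 : ∀ w : F, ∑ v, B w v ^ 2 ≤
          ∑ q, if (w : U) ∈ dp q then nP S dp g Z T Psi x w * eT T x w * eg g x q else 0 := by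
        intro w
        by_cases hw : ∃ q, (w : U) ∈ dp q
        · obtain ⟨q, hq⟩ := hw
          have h4 : ∑ v, B w v ^ 2 ≤ nP S dp g Z T Psi x w * eT T x w * eg g x q := by
            have h5 : ∀ v, B w v ^ 2 ≤ nP S dp g Z T Psi x w * eT T x w * pd v (g q) x ^ 2 := by
              intro v
              simp only [hB]
              rw [dG_eq bg x hq, mul_pow, mul_comm]
              refine mul_le_mul_of_nonneg_right ?_ (sq_nonneg _)
              exact Finset.sum_mul_sq_le_sq_mul_sq _ _ _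
            refine (Finset.sum_le_sum fun v _ => h5 v).trans (le_of_eq ?_)
            rw [← Finset.mul_sum]
            rfl
          refine h4.trans ?_
          have h6 : ∀ q', 0 ≤ (if (w : U) ∈ dp q' then
              nP S dp g Z T Psi x w * eT T x w * eg g x q' else 0) := by
            intro q'
            split_ifs
            · exact mul_nonneg (mul_nonneg (hnP w) (Finset.sum_nonneg fun _ _ => sq_nonneg _))
                (Finset.sum_nonneg fun _ _ => sq_nonneg _)
            · exact le_rfl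
          refine le_trans (le_of_eq ?_) (Finset.single_le_sum (fun q' _ => h6 q') (Finset.mem_univ q))
          rw [if_pos hq]
        · push Not at hw
          have h4 : ∀ v, B w v ^ 2 = 0 := by
            intro v
            simp only [hB]
            rw [dG_eq_zero x hw, zero_mul, zero_pow two_ne_zero]
          rw [Finset.sum_eq_zero fun v _ => h4 v]
          refine Finset.sum_nonneg fun q _ => ?_
          rw [if_neg (hw q)]
      refine (Finset.sum_le_sum fun w _ => h3 w).trans (le_of_eq ?_)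
      rw [Finset.sum_comm]
      refine Finset.sum_congr rfl fun q _ => ?_
      rw [inF, Finset.sum_filter]

end

end Crest.Agent.R144.LoB95
end
end

-- ▼ part R144/LoB4_95
section

/-!
# R144 (S0197), helper95, lower bound (trace form), file 4: the energy inside a block

`blk_le`: at a good point, with `ξ` the (constant) slope of the block and `Zl` the window version of
`Z`, the sum over the block of `(∂_v Y_w)²` is at most `(1+θ)²` times the LOCAL functional
`Qb = ∑_{w,v ∈ I q} (ξ · ∂_v (Zl + T)_w)²` plus explicit errors.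
-/

set_option autoImplicit false
set_option linter.unusedSectionVars false

open MeasureTheory Set Filter Topology
open scoped ENNReal NNReal

noncomputable section

namespace Crest.Agent.R144.LoB95

open Crest.Agent.R144.Ham560
open Crest.Agent.R144.MW121 (jac jac_apply Tan)
open Crest.Agent.R144.Fib674 (pd)

theorem sq_add_le (a b : ℝ) {θ : ℝ} (hθ : 0 < θ) :
    (a + b) ^ 2 ≤ (1 + θ) * a ^ 2 + (1 + θ⁻¹) * b ^ 2 := by
  have h1 : 0 ≤ (θ * a - b) ^ 2 * θ⁻¹ := by positivity
  have h2 : (θ * a - b) ^ 2 * θ⁻¹ = θ * a ^ 2 - 2 * a * b + θ⁻¹ * b ^ 2 := by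
    field_simp
    ring
  nlinarith

theorem convex_sq (a b : ℝ) {g : ℝ} (h0 : 0 ≤ g) (h1 : g ≤ 1) :
    ((1 - g) * a + g * b) ^ 2 ≤ (1 - g) * a ^ 2 + g * b ^ 2 := by
  nlinarith [mul_nonneg (mul_nonneg (sub_nonneg.mpr h1) h0) (sq_nonneg (a - b))]

theorem sum4 {V : Type*} (s : Finset V) (a b c d : V → V → ℝ) (A1 A2 A3 : ℝ) :
    ∑ w ∈ s, ∑ v ∈ s, (A1 * (a w v + b w v) + A2 * c w v + A3 * d w v) =
      A1 * ((∑ w ∈ s, ∑ v ∈ s, a w v) + ∑ w ∈ s, ∑ v ∈ s, b w v) +
        A2 * (∑ w ∈ s, ∑ v ∈ s, c w v) + A3 * ∑ w ∈ s, ∑ v ∈ s, d w v := by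
  simp only [Finset.sum_add_distrib, mul_add, ← Finset.mul_sum]

/-- one pair of sites -/
theorem pair_blk {κ : Type*} [Fintype κ] (p s z t l : κ → ℝ) {g d θ : ℝ} (hθ : 0 < θ)
    (h0 : 0 ≤ g) (h1 : g ≤ 1) (τ : κ → ℝ) (hl : ∀ i, l i = z i + (d * τ i + g * t i)) :
    (∑ i, p i * l i) ^ 2 ≤
      (1 + θ) ^ 2 * ((1 - g) * ((∑ i, s i ^ 2) * ∑ i, z i ^ 2) +
        g * (∑ i, s i * (z i + t i)) ^ 2) +
      (1 + θ) * (1 + θ⁻¹) * ((∑ i, s i ^ 2) * (∑ i, τ i ^ 2) * d ^ 2) +
      (1 + θ⁻¹) * ((∑ i, (p i - s i) ^ 2) * ∑ i, l i ^ 2) := by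
  have e1 : ∑ i, p i * l i = (∑ i, s i * l i) + ∑ i, (p i - s i) * l i := by
    rw [← Finset.sum_add_distrib]
    exact Finset.sum_congr rfl fun i _ => by ring
  have e2 : ∑ i, s i * l i = ((1 - g) * (∑ i, s i * z i) + g * ∑ i, s i * (z i + t i)) +
      d * ∑ i, s i * τ i := by
    simp only [hl, Finset.mul_sum]
    rw [← Finset.sum_add_distrib, ← Finset.sum_add_distrib]
    exact Finset.sum_congr rfl fun i _ => by ring
  have cs1 : (∑ i, (p i - s i) * l i) ^ 2 ≤ (∑ i, (p i - s i) ^ 2) * ∑ i, l i ^ 2 :=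
    Finset.sum_mul_sq_le_sq_mul_sq _ _ _
  have cs2 : (∑ i, s i * z i) ^ 2 ≤ (∑ i, s i ^ 2) * ∑ i, z i ^ 2 :=
    Finset.sum_mul_sq_le_sq_mul_sq _ _ _
  have cs3 : (∑ i, s i * τ i) ^ 2 ≤ (∑ i, s i ^ 2) * ∑ i, τ i ^ 2 :=
    Finset.sum_mul_sq_le_sq_mul_sq _ _ _
  have hθ' : 0 < θ⁻¹ := inv_pos.mpr hθ
  rw [e1]
  refine (sq_add_le _ _ hθ).trans ?_
  have h2 : (∑ i, s i * l i) ^ 2 ≤
      (1 + θ) * ((1 - g) * ((∑ i, s i ^ 2) * ∑ i, z i ^ 2) +
        g * (∑ i, s i * (z i + t i)) ^ 2) +
      (1 + θ⁻¹) * ((∑ i, s i ^ 2) * (∑ i, τ i ^ 2) * d ^ 2) := by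
    rw [e2]
    refine (sq_add_le _ _ hθ).trans (add_le_add ?_ ?_)
    · refine mul_le_mul_of_nonneg_left ?_ (by positivity)
      refine (convex_sq _ _ h0 h1).trans ?_
      exact add_le_add (mul_le_mul_of_nonneg_left cs2 (sub_nonneg.mpr h1)) le_rfl
    · refine mul_le_mul_of_nonneg_left ?_ (by positivity)
      rw [mul_pow, mul_comm]
      exact mul_le_mul_of_nonneg_right cs3 (sq_nonneg _)
  have h3 := mul_le_mul_of_nonneg_left h2 (show (0:ℝ) ≤ 1 + θ by positivity)
  have h4 := mul_le_mul_of_nonneg_left cs1 (show (0:ℝ) ≤ 1 + θ⁻¹ by positivity)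
  calc _ ≤ _ := add_le_add h3 h4
    _ = _ := by ring

variable {U : Type*} [DecidableEq U] {F : Finset U} {E : Finset (U × U)} {ξ : U → ℝ}
variable {κ ι : Type*} [Fintype κ] [Fintype ι]

/-- the local functional of a block -/
def Qb (I : Finset U) (s : κ → ℝ) (Zl T : κ → (F → ℝ) → F → ℝ) (x : F → ℝ) : ℝ :=
  ∑ w ∈ inF F I, ∑ v ∈ inF F I,
    (∑ i, s i * (pd v (fun y => Zl i y w) x + pd v (fun y => T i y w) x)) ^ 2

theorem Qb_nonneg (I : Finset U) (s : κ → ℝ) (Zl T : κ → (F → ℝ) → F → ℝ) (x : F → ℝ) :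
    0 ≤ Qb I s Zl T x :=
  Finset.sum_nonneg fun _ _ => Finset.sum_nonneg fun _ _ => sq_nonneg _

section

variable {S : Finset U} {I dp W : ι → Finset U} {g : ι → (F → ℝ) → ℝ}
  {Z T : κ → (F → ℝ) → F → ℝ} {V : (F → ℝ) → F → ℝ} {Psi : (κ → ℝ) → ℝ} {x : F → ℝ}
  [DecidableEq κ] {C : ℝ}

open Classical in
/-- **the energy inside a block.** -/
theorem blk_le (H : Low F E ξ S I dp W g Z T V Psi C) (hd : DAt g Z T x) (q : ι)
    (s : κ → ℝ) (Zl : κ → (F → ℝ) → F → ℝ) {θ K : ℝ} (hθ : 0 < θ)
    (hloc : 0 < g q x → ∀ w : F, (w : U) ∈ I q → ∀ i v,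
      pd v (fun y => Z i y w) x = pd v (fun y => Zl i y w) x)
    (hK : ∀ i (w v : F), |pd v (fun y => Lf dp g Z T i y w) x| ≤ K) :
    blk S I dp g Z T Psi x q ≤
      (1 + θ) ^ 2 * (Qb (I q) s Zl T x +
        (if g q x < 1 then (∑ i, s i ^ 2) * ∑ w ∈ inF F (I q), ∑ v, eZ Z x w v else 0)) +
      (1 + θ) * (1 + θ⁻¹) * ((∑ i, s i ^ 2) * (∑ w ∈ inF F (I q), eT T x w) * eg g x q) +
      (1 + θ⁻¹) * (Fintype.card κ * K ^ 2 * (inF F (I q)).card *
        ∑ w ∈ inF F (I q), ∑ i, (pw S dp g Z T Psi x w i - s i) ^ 2) := by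
  have hg0 := H.g0 q x
  have hg1 := H.g1 q x
  have hθ' : 0 < θ⁻¹ := inv_pos.mpr hθ
  -- one pair
  have key : ∀ w ∈ inF F (I q), ∀ v : F,
      (∑ i, pw S dp g Z T Psi x w i * pd v (fun y => Lf dp g Z T i y w) x) ^ 2 ≤
      (1 + θ) ^ 2 * ((∑ i, s i * (pd v (fun y => Zl i y w) x + pd v (fun y => T i y w) x)) ^ 2 +
        (if g q x < 1 then (∑ i, s i ^ 2) * eZ Z x w v else 0)) +
      (1 + θ) * (1 + θ⁻¹) * ((∑ i, s i ^ 2) * eT T x w * pd v (g q) x ^ 2) +
      (1 + θ⁻¹) * ((∑ i, (pw S dp g Z T Psi x w i - s i) ^ 2) * (Fintype.card κ * K ^ 2)) := by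
    intro w hw v
    rw [mem_inF] at hw
    -- the derivative of `L` with the cut-off of the block
    have hl : ∀ i, pd v (fun y => Lf dp g Z T i y w) x = pd v (fun y => Z i y w) x +
        (pd v (g q) x * T i x w + g q x * pd v (fun y => T i y w) x) := by
      intro i
      rw [pd_L hd]
      by_cases hdp : (w : U) ∈ dp q
      · rw [dG_eq H.bg x hdp, Gw_eq H.bg x hdp]
      · have hnd : ∀ q', (w : U) ∉ dp q' := by
          intro q' h'
          have : q = q' := H.bg.disj _ _ _ hw (H.bg.sub _ h')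
          exact hdp (this ▸ h')
        have h1 : ∀ y, T i y w = 0 := fun y => H.T0 i y w hnd
        have h2 : pd v (fun y => T i y w) x = 0 := by
          have : (fun y => T i y w) = fun _ => 0 := funext h1
          rw [this]; simp [pd]
        rw [dG_eq_zero x hnd, Gw_eq_zero x hnd, h1 x, h2]
        ring
    refine (pair_blk (pw S dp g Z T Psi x w) s (fun i => pd v (fun y => Z i y w) x)
      (fun i => pd v (fun y => T i y w) x) (fun i => pd v (fun y => Lf dp g Z T i y w) x)
      hθ hg0 hg1 (fun i => T i x w) hl).trans ?_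
    refine add_le_add (add_le_add ?_ le_rfl) ?_
    · refine mul_le_mul_of_nonneg_left ?_ (by positivity)
      rw [add_comm]
      refine add_le_add ?_ ?_
      · by_cases h0 : 0 < g q x
        · have e : ∑ i, s i * (pd v (fun y => Z i y w) x + pd v (fun y => T i y w) x) =
              ∑ i, s i * (pd v (fun y => Zl i y w) x + pd v (fun y => T i y w) x) :=
            Finset.sum_congr rfl fun i _ => by rw [hloc h0 w hw i v]
          rw [e]
          calc _ ≤ 1 * _ := mul_le_mul_of_nonneg_right hg1 (sq_nonneg _)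
            _ = _ := one_mul _
        · have h0' : g q x = 0 := le_antisymm (not_lt.mp h0) hg0
          rw [h0', zero_mul]
          exact sq_nonneg _
      · split_ifs with h
        · have h5 : 0 ≤ (∑ i, s i ^ 2) * eZ Z x w v :=
            mul_nonneg (Finset.sum_nonneg fun _ _ => sq_nonneg _)
              (Finset.sum_nonneg fun _ _ => sq_nonneg _)
          calc (1 - g q x) * ((∑ i, s i ^ 2) * eZ Z x w v) ≤ 1 * ((∑ i, s i ^ 2) * eZ Z x w v) :=
                mul_le_mul_of_nonneg_right (by linarith) h5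
            _ = _ := one_mul _
        · have : g q x = 1 := le_antisymm hg1 (not_lt.mp h)
          rw [this, sub_self, zero_mul]
    · refine mul_le_mul_of_nonneg_left ?_ (by positivity)
      refine mul_le_mul_of_nonneg_left ?_ (Finset.sum_nonneg fun _ _ => sq_nonneg _)
      calc ∑ i, pd v (fun y => Lf dp g Z T i y w) x ^ 2 ≤ ∑ _i : κ, K ^ 2 := by
            refine Finset.sum_le_sum fun i _ => ?_
            rw [← sq_abs]
            exact pow_le_pow_left₀ (abs_nonneg _) (hK i w v) 2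
        _ = Fintype.card κ * K ^ 2 := by simp
  have h1 : blk S I dp g Z T Psi x q ≤ ∑ w ∈ inF F (I q), ∑ v ∈ inF F (I q),
      ((1 + θ) ^ 2 * ((∑ i, s i * (pd v (fun y => Zl i y w) x + pd v (fun y => T i y w) x)) ^ 2 +
        (if g q x < 1 then (∑ i, s i ^ 2) * eZ Z x w v else 0)) +
      (1 + θ) * (1 + θ⁻¹) * ((∑ i, s i ^ 2) * eT T x w * pd v (g q) x ^ 2) +
      (1 + θ⁻¹) * ((∑ i, (pw S dp g Z T Psi x w i - s i) ^ 2) * (Fintype.card κ * K ^ 2))) :=
    Finset.sum_le_sum fun w hw => Finset.sum_le_sum fun v _ => key w hw v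
  refine h1.trans ?_
  rw [sum4]
  have hS : 0 ≤ ∑ i, s i ^ 2 := Finset.sum_nonneg fun _ _ => sq_nonneg _
  have t1 : (1 + θ) ^ 2 * ∑ w ∈ inF F (I q), ∑ v ∈ inF F (I q),
      (if g q x < 1 then (∑ i, s i ^ 2) * eZ Z x w v else 0) ≤
      (1 + θ) ^ 2 * (if g q x < 1 then (∑ i, s i ^ 2) * ∑ w ∈ inF F (I q), ∑ v, eZ Z x w v
        else 0) := by
    refine mul_le_mul_of_nonneg_left ?_ (by positivity)
    split_ifs
    · rw [Finset.mul_sum]
      refine Finset.sum_le_sum fun w _ => ?_
      rw [← Finset.mul_sum]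
      refine mul_le_mul_of_nonneg_left ?_ hS
      exact Finset.sum_le_sum_of_subset_of_nonneg (Finset.subset_univ _)
        fun _ _ _ => Finset.sum_nonneg fun _ _ => sq_nonneg _
    · simp
  have t2 : ∑ w ∈ inF F (I q), ∑ v ∈ inF F (I q), (∑ i, s i ^ 2) * eT T x w * pd v (g q) x ^ 2 ≤
      (∑ i, s i ^ 2) * (∑ w ∈ inF F (I q), eT T x w) * eg g x q := by
    rw [Finset.mul_sum, Finset.sum_mul]
    refine Finset.sum_le_sum fun w _ => ?_
    rw [← Finset.mul_sum]
    refine mul_le_mul_of_nonneg_left ?_ (mul_nonneg hS (Finset.sum_nonneg fun _ _ => sq_nonneg _))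
    exact Finset.sum_le_sum_of_subset_of_nonneg (Finset.subset_univ _) fun _ _ _ => sq_nonneg _
  have t3 : ∑ w ∈ inF F (I q), ∑ _v ∈ inF F (I q),
      (∑ i, (pw S dp g Z T Psi x w i - s i) ^ 2) * (Fintype.card κ * K ^ 2) =
      Fintype.card κ * K ^ 2 * (inF F (I q)).card *
        ∑ w ∈ inF F (I q), ∑ i, (pw S dp g Z T Psi x w i - s i) ^ 2 := by
    simp only [Finset.sum_const, nsmul_eq_mul]
    rw [Finset.mul_sum]
    exact Finset.sum_congr rfl fun w _ => by ring
  rw [t3]
  have t2' := mul_le_mul_of_nonneg_left t2 (show (0:ℝ) ≤ (1 + θ) * (1 + θ⁻¹) by positivity)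
  have e0 : ∑ w ∈ inF F (I q), ∑ v ∈ inF F (I q),
      (∑ i, s i * (pd v (fun y => Zl i y w) x + pd v (fun y => T i y w) x)) ^ 2 =
      Qb (I q) s Zl T x := rfl
  rw [e0, mul_add, mul_add]
  linarith

end

end Crest.Agent.R144.LoB95
end
end

-- ▼ part R144/LoB5_95

/-!
# R144 (S0197), helper95, lower bound (trace form), file 5: 560's field and the cheap paths

`mc S E ρ ε Λ c0 φs h w` : the largest number of vertices of a simple path from `w` in `S` whose cost
is `< φ w + c0` (for one of the functions `φs i`).  Optimal paths, the gradient of the cut-off and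
the event `gq < 1` are all controlled by `mc`.
-/

set_option autoImplicit false
set_option linter.unusedSectionVars false

open MeasureTheory Set Filter Topology
open scoped ENNReal NNReal

noncomputable section

namespace Crest.Agent.R144.LoB95

open Crest.Agent.R144.Ham560
open Crest.Agent.R144.Tri560
open Crest.Agent.R144.Zb560 (sr iv IsOpt pt cz Zx gx gq lp pt_spec pt_mem' op isOpt_op no_visit
  cz_nonneg mem_lp single_mem_pt)
open Crest.Agent.R144.Fib674 (pd)

variable {U : Type*} [DecidableEq U] {κ : Type*} [Fintype κ]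

open Classical in
/-- length of the longest cheap path -/
def mc (S : Finset U) (E : Finset (U × U)) (ρ ε Λ c0 : ℝ) (φs : κ → U → ℝ) (h : U → ℝ) (w : U) : ℕ :=
  ((pt S E w).filter fun l => ∃ i, cost (φs i) (cz ρ ε Λ h) l < φs i w + c0).sup List.length

section

variable {S S' : Finset U} {E : Finset (U × U)} {ρ ε Λ c0 : ℝ} {φs : κ → U → ℝ} {h : U → ℝ} {w : U}

theorem length_le_mc {l : List U} (hl : l ∈ pt S E w) {i : κ}
    (hc : cost (φs i) (cz ρ ε Λ h) l < φs i w + c0) : l.length ≤ mc S E ρ ε Λ c0 φs h w := by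
  classical
  exact Finset.le_sup (f := List.length) (Finset.mem_filter.mpr ⟨hl, i, hc⟩)

theorem opt_le_mc (hc0 : 0 < c0) {l : List U} {i : κ}
    (hl : IsOpt S E (φs i) (cz ρ ε Λ h) w l) : l.length ≤ mc S E ρ ε Λ c0 φs h w := by
  refine length_le_mc (i := i) hl.1 ?_
  have h1 := Zb560.iv_le (V := S) (E := E) (φ := φs i) (c := cz ρ ε Λ h) w
  rw [hl.2] at h1
  linarith

theorem exists_mc {K : ℕ} (h1 : 0 < K) (hK : K ≤ mc S E ρ ε Λ c0 φs h w) :
    ∃ i, ∃ l ∈ pt S E w, K ≤ l.length ∧ cost (φs i) (cz ρ ε Λ h) l < φs i w + c0 := by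
  classical
  obtain ⟨l, hl, h2⟩ := (Finset.le_sup_iff (show (⊥ : ℕ) < K from h1)).mp hK
  obtain ⟨h3, i, h4⟩ := Finset.mem_filter.mp hl
  exact ⟨i, l, h3, h2, h4⟩

/-- the longest cheap path of a set of sites, when it is long -/
def tl (N : Finset U) (k : ℕ) (m : U → ℕ) : ℝ := ∑ z ∈ N, if k < m z then (m z : ℝ) else 0

omit [DecidableEq U] in
theorem tl_nonneg (N : Finset U) (k : ℕ) (m : U → ℕ) : 0 ≤ tl N k m :=
  Finset.sum_nonneg fun _ _ => by split_ifs <;> positivity

omit [DecidableEq U] in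
theorem le_tl {N : Finset U} {k : ℕ} {m : U → ℕ} {z : U} (hz : z ∈ N) (h : k < m z) :
    (m z : ℝ) ≤ tl N k m := by
  have := Finset.single_le_sum (f := fun z => if k < m z then (m z : ℝ) else 0)
    (fun z _ => by split_ifs <;> positivity) hz
  rwa [if_pos h] at this

variable {F : Finset U} {ξ : U → ℝ} {x : F → ℝ} {N : Finset U} {k : ℕ}

/-- the event `g < 1` -/
theorem tl_of_gx_lt (hc0 : 0 < c0) (hg : gx S E N k ρ ε Λ c0 φs F ξ x < 1) :
    (k : ℝ) + 1 ≤ tl N k (mc S E ρ ε Λ c0 φs (ext F ξ x)) := by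
  obtain ⟨i, w, hw, l, hl, hk, hc⟩ := Zb560.exists_of_gq_lt hc0 hg
  have h1 := length_le_mc (i := i) hl hc
  have h2 : k < mc S E ρ ε Λ c0 φs (ext F ξ x) w := lt_of_lt_of_le hk h1
  have h3 := le_tl hw h2
  have h4 : (k : ℝ) + 1 ≤ mc S E ρ ε Λ c0 φs (ext F ξ x) w := by exact_mod_cast h2
  linarith


/-- the gradient of the cut-off -/
theorem eg_le (hε : 0 < ε) (hΛ : 0 ≤ Λ) (hc0 : 0 < c0)
    (hd : DifferentiableAt ℝ (gx S E N k ρ ε Λ c0 φs F ξ) x) :
    ∑ v, pd v (gx S E N k ρ ε Λ c0 φs F ξ) x ^ 2 ≤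
      (2 * Λ / ε / c0) ^ 2 * tl N k (mc S E ρ ε Λ c0 φs (ext F ξ x)) := by
  rcases Zb560.row_gx_le (N := N) (k := k) (φs := φs) hε hΛ hc0 hd with h | h
  · have : ∑ v, pd v (gx S E N k ρ ε Λ c0 φs F ξ) x ^ 2 = 0 := by
      refine Finset.sum_eq_zero fun v _ => ?_
      have := h v
      rw [show pd v (gx S E N k ρ ε Λ c0 φs F ξ) x =
        Zb560.pd (gx S E N k ρ ε Λ c0 φs F ξ) x v from rfl, this]
      simp
    rw [this]
    exact mul_nonneg (sq_nonneg _) (tl_nonneg _ _ _)
  · obtain ⟨i, w, hw, l, hl, hk, hc, _, hs⟩ := h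
    refine le_trans hs (mul_le_mul_of_nonneg_left ?_ (sq_nonneg _))
    have h1 := length_le_mc (i := i) hl hc
    have h2 : k < mc S E ρ ε Λ c0 φs (ext F ξ x) w := lt_of_lt_of_le hk h1
    have h3 := le_tl hw h2
    have h4 : (l.length : ℝ) ≤ mc S E ρ ε Λ c0 φs (ext F ξ x) w := by exact_mod_cast h1
    linarith

/-- rows of the derivative of the explicit field -/
theorem row_le (hε : 0 < ε) (hΛ : 0 ≤ Λ) (hc0 : 0 < c0) {i : κ} {w : F}
    (hd : DifferentiableAt ℝ (Zx S E ρ ε Λ (φs i) F ξ w) x) :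
    ∑ v, pd v (Zx S E ρ ε Λ (φs i) F ξ w) x ^ 2 ≤
      (2 * Λ / ε) ^ 2 * mc S E ρ ε Λ c0 φs (ext F ξ x) w := by
  have ho := isOpt_op S E (φs i) (cz ρ ε Λ (ext F ξ x)) w
  have h1 := Zb560.row_Z_le hε hΛ hd ho
  have h2 := opt_le_mc (c0 := c0) (φs := φs) hc0 ho
  refine le_trans h1 (mul_le_mul_of_nonneg_left ?_ (sq_nonneg _))
  exact_mod_cast h2

/-- sum over crossing pairs -/
theorem cross_le {ι : Type*} {I dp : ι → Finset U} (hε : 0 < ε) (hΛ : 0 ≤ Λ) (hc0 : 0 < c0)
    (dd : U → U → ℕ) (h0 : ∀ a, dd a a = 0) (hsy : ∀ a b, dd a b = dd b a)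
    (ht : ∀ a b d, dd a d ≤ dd a b + dd b d) (h1 : ∀ a b, b ∈ nbr E a → dd a b ≤ 1)
    (hdeep : ∀ q, ∀ w ∈ dp q, ∀ z, z ∉ I q → k ≤ dd z w) {i : κ} {w : F}
    (hd : DifferentiableAt ℝ (Zx S E ρ ε Λ (φs i) F ξ w) x)
    [∀ w v, Decidable (Crs (fun q => inF F (I q)) (fun q => inF F (dp q)) w v)] :
    ∑ v, (if Crs (fun q => inF F (I q)) (fun q => inF F (dp q)) w v then
      pd v (Zx S E ρ ε Λ (φs i) F ξ w) x ^ 2 else 0) ≤
      (2 * Λ / ε) ^ 2 * (if k < mc S E ρ ε Λ c0 φs (ext F ξ x) w then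
        (mc S E ρ ε Λ c0 φs (ext F ξ x) w : ℝ) else 0) := by
  classical
  have ho := isOpt_op S E (φs i) (cz ρ ε Λ (ext F ξ x)) w
  set l := op S E (φs i) (cz ρ ε Λ (ext F ξ x)) w
  have h2 := opt_le_mc (c0 := c0) (φs := φs) hc0 ho
  obtain ⟨_, h3, h4⟩ := pt_spec ho.1
  by_cases hk : k < l.length
  · rw [if_pos (lt_of_lt_of_le hk h2)]
    refine le_trans (Finset.sum_le_sum fun v _ => ?_) (row_le (c0 := c0) (φs := φs) hε hΛ hc0 hd)
    split_ifs
    · exact le_rfl
    · exact sq_nonneg _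
  · have hz : ∑ v, (if Crs (fun q => inF F (I q)) (fun q => inF F (dp q)) w v then
        pd v (Zx S E ρ ε Λ (φs i) F ξ w) x ^ 2 else 0) = 0 := by
      refine Finset.sum_eq_zero fun v _ => ?_
      split_ifs with hcr
      · have hv : (v : U) ∉ l := by
          intro hv
          have h5 := dd_le' dd h0 ht h1 l w h3 h4 v hv
          obtain ⟨q, h6⟩ := hcr
          simp only [mem_inF] at h6
          rcases h6 with ⟨h7, h8⟩ | ⟨h7, h8⟩
          · have := hdeep q w h7 v h8
            rw [hsy] at this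
            omega
          · have := hdeep q v h7 w h8
            omega
        have := Zb560.pd_Z_eq_zero hd ho hv
        rw [show pd v (Zx S E ρ ε Λ (φs i) F ξ w) x =
          Zb560.pd (Zx S E ρ ε Λ (φs i) F ξ w) x v from rfl, this]
        simp
      · rfl
    rw [hz]
    refine mul_nonneg (sq_nonneg _) ?_
    split_ifs <;> positivity
where
  dd_le' (dd : U → U → ℕ) (h0 : ∀ a, dd a a = 0) (ht : ∀ a b d, dd a d ≤ dd a b + dd b d)
      (h1 : ∀ a b, b ∈ nbr E a → dd a b ≤ 1) (l : List U) (u : U) (h3 : l.head? = some u)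
      (h4 : l.IsChain (fun a b => b ∈ nbr E a)) (w : U) (hw : w ∈ l) : dd u w + 1 ≤ l.length :=
    Zb560.dd_le dd h0 ht (R := fun a b => b ∈ nbr E a) h1 l u h3 h4 w hw


theorem measurable_cost (φ : U → ℝ) : ∀ l : List U,
    Measurable fun h : U → ℝ => cost φ (cz ρ ε Λ h) l
  | [] => measurable_const
  | [a] => measurable_const
  | a :: b :: t => by
    simp only [cost_cons]
    refine Measurable.add ?_ (measurable_cost φ (b :: t))
    unfold cz sr
    fun_prop

theorem measurable_sup_nat {α β : Type*} [MeasurableSpace α] (s : Finset β) (f : β → α → ℕ)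
    (hf : ∀ b ∈ s, Measurable (f b)) : Measurable fun a => s.sup fun b => f b a := by
  classical
  induction s using Finset.induction_on with
  | empty => simp
  | insert b s hb ih =>
    simp only [Finset.sup_insert]
    exact (hf b (Finset.mem_insert_self b s)).sup
      (ih fun c hc => hf c (Finset.mem_insert_of_mem hc))

theorem measurable_mc (S : Finset U) (E : Finset (U × U)) (w : U) :
    Measurable fun h : U → ℝ => mc S E ρ ε Λ c0 φs h w := by
  classical
  have e : (fun h : U → ℝ => mc S E ρ ε Λ c0 φs h w) = fun h =>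
      (pt S E w).sup fun l => if ∃ i, cost (φs i) (cz ρ ε Λ h) l < φs i w + c0 then l.length
        else 0 := by
    funext h
    unfold mc
    apply le_antisymm
    · refine Finset.sup_le fun l hl => ?_
      obtain ⟨h1, h2⟩ := Finset.mem_filter.mp hl
      refine le_trans ?_ (Finset.le_sup h1)
      rw [if_pos h2]
    · refine Finset.sup_le fun l hl => ?_
      split_ifs with h2
      · exact Finset.le_sup (f := List.length) (Finset.mem_filter.mpr ⟨hl, h2⟩)
      · exact Nat.zero_le _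
  rw [e]
  refine measurable_sup_nat _ _ fun l _ => ?_
  refine Measurable.ite ?_ measurable_const measurable_const
  have : {h : U → ℝ | ∃ i, cost (φs i) (cz ρ ε Λ h) l < φs i w + c0} =
      ⋃ i, {h : U → ℝ | cost (φs i) (cz ρ ε Λ h) l < φs i w + c0} := by
    ext h; simp
  rw [this]
  exact MeasurableSet.iUnion fun i => measurableSet_lt (measurable_cost _ l) measurable_const

end

end Crest.Agent.R144.LoB95
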