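import Crest.Agent.R144.Uig6_714
import Crest.Agent.R144.Zb3_560
import Crest.Agent.R144.LoB5_95

-- ▼ part R144/Uid1_674
section

/-!
# R144 (S0197), block UID (helper674), part 1: covering of the lengths of the cheap paths

* `covAt_mc` : `{mc w = k}` is covered by fresh tight lists near `w`, total weight `CA / A ^ k`;
* `exists_block` : a path with many edges, half of them tight, has a block of `r` edges, a quarter of
  them tight;
* `covAt_long`, `mc_subset_long` : very long cheap paths.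
-/

set_option autoImplicit false

open MeasureTheory Set Filter Topology
open scoped ENNReal NNReal

noncomputable section

namespace Crest.Agent.R144.Uid674

open Crest.Agent.R144.Ham560 (ext ham nbr mem_nbr Fresh tight)
open Crest.Agent.R144.Tri560
open Crest.Agent.R144.Zb560
open Crest.Agent.R144.LoB95 (mc exists_mc length_le_mc measurable_mc)
open Crest.Agent.R144.Kor620 (P2 nrm)
open Crest.Agent.R144.KorE761 (LatE)
open Crest.Agent.R144.Uig714 (CovAt nrm_tri)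
open Crest.ProbabilityR.HexHeights (Adj)

variable {κ : Type*} [Fintype κ]
variable {F S : Finset P2} {E : Finset (P2 × P2)} {ξ : P2 → ℝ} {ρ ε Λ c0 L : ℝ}
  {φs : κ → P2 → ℝ} {w : P2}

/-- the length of the longest cheap path is attained -/
theorem mc_eq_subset (m : ℕ) :
    {x : F → ℝ | mc S E ρ ε Λ c0 φs (ext F ξ x) w = m + 1} ⊆
      ⋃ i, bad S E ρ ε Λ c0 (φs i) F ξ m w := by
  intro x hx
  simp only [Set.mem_ofPred_eq] at hx
  obtain ⟨i, l, hl, h1, h2⟩ := exists_mc (K := m + 1) (by omega) hx.ge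
  have h3 := length_le_mc hl h2
  simp only [mem_iUnion]
  exact ⟨i, mem_bad hl (by omega) h2.le⟩

/-- the metric of the lattice -/
def dn (a b : P2) : ℕ := nrm (b - a)

theorem dn_self (a : P2) : dn a a = 0 := by simp [dn, nrm]

theorem dn_tri (a b d : P2) : dn a d ≤ dn a b + dn b d := by
  have := nrm_tri d b a
  unfold dn
  omega

theorem dn_adj (hE : LatE E) (a b : P2) (h : b ∈ nbr E a) : dn a b ≤ 1 :=
  (KorE761.nrm_eq_one (Kor620.adj_symm (hE.nbr h))).le

/-- weight of a list when `2304 e ≤ d ^ 4` -/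
theorem weight_le {e d : ℝ} (he : 0 ≤ e) (hd : 0 ≤ d) (hd1 : d ≤ 1) (h : 2304 * e ≤ d ^ 4)
    {m t : ℕ} (ht : m ≤ 4 * t) : (2304 * e) ^ t ≤ d ^ m := by
  calc (2304 * e) ^ t ≤ (d ^ 4) ^ t := by gcongr
    _ = d ^ (4 * t) := (pow_mul _ _ _).symm
    _ ≤ d ^ m := pow_le_pow_of_le_one hd hd1 ht

/-- **covering of the lengths of the cheap paths** -/
theorem covAt_mc (hSF : S ⊆ F) (hE : LatE E) (hn : ∀ v ∈ F, (nbr E v).card ≤ 6)
    (hρ : 0 ≤ ρ) (hε : 0 < ε) (hΛ : 0 < Λ) (hL : 4 * L ≤ Λ)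
    (hφ : ∀ i a b, b ∈ nbr E a → |φs i a - φs i b| ≤ L)
    {A CA : ℝ} (hA : 1 ≤ A) (hsm : 2304 * (ρ + ε) ≤ (1 / (12 * A)) ^ 4)
    {k0 : ℕ} (hk0 : 4 * c0 ≤ Λ * k0) (hCA : A ^ (k0 + 1) ≤ CA) (k : ℕ) :
    CovAt F E ξ 2304 (ρ + ε) (CA / A ^ k) k w
      {x | mc S E ρ ε Λ c0 φs (ext F ξ x) w = k} := by
  classical
  have hA0 : 0 < A := by linarith
  by_cases hk : k ≤ k0
  · refine ⟨{[]}, ?_, ?_, ?_⟩
    · simp only [Finset.sum_singleton, List.length_nil, pow_zero]
      rw [le_div_iff₀ (by positivity), one_mul]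
      exact (pow_le_pow_right₀ hA (by omega)).trans hCA
    · simp
    · rintro h ⟨hh, _⟩
      exact ⟨[], by simp, Fresh.nil, hh, by simp⟩
  · push Not at hk
    obtain ⟨m, rfl⟩ : ∃ m, k = m + 1 := ⟨k - 1, by omega⟩
    have hm : 4 * c0 ≤ Λ * (m : ℝ) := by
      have : (k0 : ℝ) ≤ m := by exact_mod_cast (by omega : k0 ≤ m)
      nlinarith
    refine ⟨Zb560.Fam S E m w, ?_, ?_, ?_⟩
    · have hd0 : 0 ≤ 1 / (12 * A) := by positivity
      have hd1 : 1 / (12 * A) ≤ 1 := by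
        rw [div_le_one (by positivity)]; linarith
      calc ∑ T ∈ Zb560.Fam S E m w, (2304 * (ρ + ε)) ^ T.length
          ≤ ∑ _T ∈ Zb560.Fam S E m w, (1 / (12 * A)) ^ m := by
            refine Finset.sum_le_sum fun T hT => ?_
            have := (Fam_len hT).1
            exact weight_le (by positivity) hd0 hd1 hsm (by omega)
        _ = (Zb560.Fam S E m w).card * (1 / (12 * A)) ^ m := by
            rw [Finset.sum_const, nsmul_eq_mul]
        _ ≤ 12 ^ m * (1 / (12 * A)) ^ m := by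
            gcongr
            have := Fam_card (V := S) (E := E) (n := 6) (fun v hv => hn v (hSF hv)) m w
            exact_mod_cast this
        _ = 1 / A ^ m := by
            rw [← mul_pow, ← one_div_pow]
            congr 1
            field_simp
        _ ≤ CA / A ^ (m + 1) := by
            rw [div_le_div_iff₀ (by positivity) (by positivity), one_mul, pow_succ']
            have : A ≤ CA := (le_self_pow₀ hA (by omega)).trans hCA
            gcongr
    · intro T hT q hq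
      have h1 := Fam_near dn dn_self dn_tri (dn_adj hE) hT q hq
      unfold dn at h1
      omega
    · rintro x ⟨hx, hx'⟩
      have h1 := mc_eq_subset (S := S) (E := E) (ρ := ρ) (ε := ε) (Λ := Λ) (c0 := c0) (φs := φs)
        (w := w) (ξ := ξ) m hx'
      simp only [mem_iUnion] at h1
      obtain ⟨i, hi⟩ := h1
      have h2 := bad_subset hε hΛ hL (hφ i) hm hi
      simp only [mem_iUnion] at h2
      obtain ⟨T, hT, hT'⟩ := h2
      exact ⟨T, hT, Fresh_mono hSF (Fam_fresh hT), hx, hT'⟩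

/-! ### Very long paths -/

/-- splitting of the list of edges -/
theorem pe_split (r : ℕ) : ∀ l : List P2, r < l.length →
    pe l = pe (l.take (r + 1)) ++ pe (l.drop r) := by
  induction r with
  | zero =>
    intro l hl
    match l with
    | [] => simp at hl
    | [a] => simp [pe]
    | a :: b :: t => simp [pe]
  | succ r ih =>
    intro l hl
    match l with
    | [] => simp at hl
    | [a] => simp at hl
    | a :: b :: t =>
      have h1 := ih (b :: t) (by simp only [List.length_cons] at hl ⊢; omega)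
      rw [List.take_succ_cons, List.drop_succ_cons]
      rw [List.take_succ_cons] at h1 ⊢
      rw [pe_cons, pe_cons, h1, List.cons_append]

/-- a path with many edges, half of them tight, has a block of `r` edges, a quarter of them
tight -/
theorem exists_block {p : P2 × P2 → Bool} {r : ℕ} (hr : 0 < r) : ∀ (N : ℕ) (l : List P2),
    l.length ≤ N → l ≠ [] →
    (∀ l1 l' l2, l = l1 ++ l' ++ l2 → l'.length = r + 1 → 4 * ((pe l').filter p).length < r) →
    4 * ((pe l).filter p).length ≤ (pe l).length + 3 * r := by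
  intro N
  induction N with
  | zero =>
    intro l hl hne
    exact absurd (List.length_eq_zero_iff.mp (by omega)) hne
  | succ N ih =>
    intro l hl hne H
    have hlen := pe_length l hne
    by_cases hlr : (pe l).length < r
    · have := List.length_filter_le p (pe l)
      omega
    · have hrl : r < l.length := by omega
      have hd : l.drop r ≠ [] := by
        intro h
        have := List.drop_eq_nil_iff.mp h
        omega
      have e1 := pe_split r l hrl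
      have h1 : 4 * ((pe (l.take (r + 1))).filter p).length < r := by
        refine H [] (l.take (r + 1)) (l.drop (r + 1)) (by simp) ?_
        rw [List.length_take]; omega
      have h2 := ih (l.drop r) (by rw [List.length_drop]; omega) hd (by
        intro l1 l' l2 h3 h4
        refine H (l.take r ++ l1) l' l2 ?_ h4
        rw [List.append_assoc, List.append_assoc, ← List.append_assoc l1, ← h3]
        exact (List.take_append_drop r l).symm)
      have e2 : (pe (l.take (r + 1))).length + (pe (l.drop r)).length = (pe l).length := by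
        rw [e1, List.length_append]
      have e3 : ((pe (l.take (r + 1))).filter p).length + ((pe (l.drop r)).filter p).length =
          ((pe l).filter p).length := by
        rw [e1, List.filter_append, List.length_append]
      have e4 := pe_length (l.take (r + 1)) (by
        intro h
        have := congrArg List.length h
        rw [List.length_take, List.length_nil] at this
        omega)
      rw [List.length_take, min_eq_left (by omega)] at e4
      omega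

/-- edge lists covering the paths with `m` edges, a quarter of them tight -/
def Fam4 (V : Finset P2) (E : Finset (P2 × P2)) (m : ℕ) (u : P2) : Finset (List (P2 × P2)) :=
  ((wf V E m u).filter fun l => l ∈ pt V E u ∧ l.length = m + 1).biUnion fun l =>
    (pe l).sublists.toFinset.filter fun S => m ≤ 4 * S.length

theorem mem_Fam4 {V : Finset P2} {m : ℕ} {u : P2} {S : List (P2 × P2)} : S ∈ Fam4 V E m u ↔
    ∃ l ∈ wf V E m u, l ∈ pt V E u ∧ l.length = m + 1 ∧ S.Sublist (pe l) ∧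
      m ≤ 4 * S.length := by
  simp only [Fam4, Finset.mem_biUnion, Finset.mem_filter, List.mem_toFinset, List.mem_sublists]
  constructor
  · rintro ⟨l, ⟨h1, h2, h3⟩, h4, h5⟩
    exact ⟨l, h1, h2, h3, h4, h5⟩
  · rintro ⟨l, h1, h2, h3, h4, h5⟩
    exact ⟨l, ⟨h1, h2, h3⟩, h4, h5⟩

theorem Fam4_card {V : Finset P2} {n : ℕ} (hn : ∀ v ∈ V, (nbr E v).card ≤ n) (m : ℕ) (u : P2) :
    (Fam4 V E m u).card ≤ (2 * n) ^ m := by
  calc (Fam4 V E m u).card
      ≤ ((wf V E m u).filter fun l => l ∈ pt V E u ∧ l.length = m + 1).card * 2 ^ m := by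
        refine Finset.card_biUnion_le_card_mul _ _ _ fun l hl => ?_
        refine (Finset.card_filter_le _ _).trans ((List.toFinset_card_le _).trans ?_)
        rw [List.length_sublists]
        rw [Finset.mem_filter] at hl
        have := pe_length l (pt_ne_nil hl.2.1)
        have h1 : (pe l).length = m := by omega
        rw [h1]
    _ ≤ n ^ m * 2 ^ m := by
        gcongr
        exact (Finset.card_filter_le _ _).trans (card_wf hn m u)
    _ = (2 * n) ^ m := by rw [mul_pow, mul_comm]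

theorem Fam4_fresh {V : Finset P2} {m : ℕ} {u : P2} {S : List (P2 × P2)} (hS : S ∈ Fam4 V E m u) :
    Fresh V E S := by
  obtain ⟨l, _, h2, h3, h4, h5⟩ := mem_Fam4.mp hS
  rcases Nat.eq_zero_or_pos m with rfl | hm
  · have h6 := pe_length l (pt_ne_nil h2)
    have h7 : pe l = [] := List.length_eq_zero_iff.mp (by omega)
    rw [h7] at h4
    rw [List.sublist_nil.mp h4]
    exact Fresh.nil
  · have hV := pt_mem h2 (by omega)
    obtain ⟨h6, _, h8⟩ := pt_spec h2
    refine Fresh_sublist (fresh_pe l h6 h8 fun l1 l2 b c hl => ?_) h4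
    exact hV b (by rw [hl]; simp)

theorem Fam4_near (dd : P2 → P2 → ℕ) (h0 : ∀ a, dd a a = 0)
    (ht : ∀ a b d, dd a d ≤ dd a b + dd b d) (h1 : ∀ a b, b ∈ nbr E a → dd a b ≤ 1)
    {V : Finset P2} {m : ℕ} {u : P2} {S : List (P2 × P2)} (hS : S ∈ Fam4 V E m u) :
    ∀ q ∈ S, dd u q.1 ≤ m ∧ dd u q.2 ≤ m := by
  obtain ⟨l, _, h2, h3, h4, h5⟩ := mem_Fam4.mp hS
  intro q hq
  have h6 := pe_mem l q (h4.subset hq)
  obtain ⟨_, h7, h8⟩ := pt_spec h2
  have h9 := dd_le dd h0 ht (R := fun a b => b ∈ nbr E a) h1 l u h7 h8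
  have e1 := h9 _ h6.1
  have e2 := h9 _ h6.2
  constructor <;> omega

/-- there is a path with `r` edges from `v`, a quarter of them tight -/
def lng (S : Finset P2) (E : Finset (P2 × P2)) (e : ℝ) (F : Finset P2) (ξ : P2 → ℝ) (r : ℕ)
    (v : P2) : Set (F → ℝ) := ⋃ T ∈ Fam4 S E r v, tS F ξ e T

theorem covAt_long (hSF : S ⊆ F) (hE : LatE E) (hn : ∀ v ∈ F, (nbr E v).card ≤ 6)
    {e : ℝ} (he : 0 ≤ e) {A : ℝ} (hA : 1 ≤ A) (hsm : 2304 * e ≤ (1 / (12 * A)) ^ 4) (r : ℕ)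
    (v : P2) : CovAt F E ξ 2304 e (1 / A ^ r) r v (lng S E e F ξ r v) := by
  classical
  have hA0 : 0 < A := by linarith
  refine ⟨Fam4 S E r v, ?_, ?_, ?_⟩
  · have hd0 : 0 ≤ 1 / (12 * A) := by positivity
    have hd1 : 1 / (12 * A) ≤ 1 := by
      rw [div_le_one (by positivity)]; linarith
    calc ∑ T ∈ Fam4 S E r v, (2304 * e) ^ T.length
        ≤ ∑ _T ∈ Fam4 S E r v, (1 / (12 * A)) ^ r := by
          refine Finset.sum_le_sum fun T hT => ?_
          obtain ⟨l, _, _, _, _, h5⟩ := mem_Fam4.mp hT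
          exact weight_le (by positivity) hd0 hd1 hsm (by omega)
      _ = (Fam4 S E r v).card * (1 / (12 * A)) ^ r := by
          rw [Finset.sum_const, nsmul_eq_mul]
      _ ≤ 12 ^ r * (1 / (12 * A)) ^ r := by
          gcongr
          have := Fam4_card (V := S) (E := E) (n := 6) (fun v hv => hn v (hSF hv)) r v
          exact_mod_cast this
      _ = 1 / A ^ r := by
          rw [← mul_pow, ← one_div_pow]
          congr 1
          field_simp
  · intro T hT q hq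
    have h1 := Fam4_near dn dn_self dn_tri (dn_adj hE) hT q hq
    unfold dn at h1
    omega
  · rintro x ⟨hx, hx'⟩
    simp only [lng, mem_iUnion] at hx'
    obtain ⟨T, hT, hT'⟩ := hx'
    exact ⟨T, hT, Fresh_mono hSF (Fam4_fresh hT), hx, hT'⟩

/-- **very long cheap paths contain long tight blocks** -/
theorem mc_subset_long (hε : 0 < ε) (hΛ : 0 < Λ) (hL : 4 * L ≤ Λ)
    (hφ : ∀ i a b, b ∈ nbr E a → |φs i a - φs i b| ≤ L) {r : ℕ} (hr : 0 < r)
    (hc : c0 ≤ Λ * r) {k : ℕ} (hk : 4 * r + 1 ≤ k) :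
    {x : F → ℝ | k ≤ mc S E ρ ε Λ c0 φs (ext F ξ x) w} ⊆
      ⋃ v ∈ S, lng S E (ρ + ε) F ξ r v := by
  classical
  intro x hx
  simp only [Set.mem_ofPred_eq] at hx
  obtain ⟨i, l, hl, h1, h2⟩ := exists_mc (K := k) (by omega) hx
  obtain ⟨h3, h4, h5⟩ := pt_spec hl
  have hne := pt_ne_nil hl
  have h6 := pe_length l hne
  have hV := pt_mem hl (by omega)
  have h7 : (4 * r : ℕ) ≤ (pe l).length := by omega
  have h8 := tight_half (h := ext F ξ x) (ρ := ρ) hε hΛ hL (hφ i) h5 h4 h2.le (by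
    have : ((4 * r : ℕ) : ℝ) ≤ (pe l).length := by exact_mod_cast h7
    push_cast at this
    nlinarith)
  set p : P2 × P2 → Bool := fun q => decide (1 - (ρ + ε) ≤ |ext F ξ x q.1 - ext F ξ x q.2|)
    with hp
  by_contra hcon
  have hb := exists_block (p := p) hr l.length l le_rfl hne (by
    intro l1 l' l2 h9 h10
    by_contra hlt
    push Not at hlt
    apply hcon
    have hl'ne : l' ≠ [] := by
      intro h; rw [h] at h10; simp at h10
    obtain ⟨v, t, rfl⟩ := List.exists_cons_of_ne_nil hl'ne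
    have hsub : ∀ a ∈ v :: t, a ∈ S := fun a ha => hV a (by
      rw [h9]; exact List.mem_append_left _ (List.mem_append_right _ ha))
    have hnd : (v :: t).Nodup := by
      have : (l1 ++ (v :: t)).Nodup := by
        rw [h9] at h3; exact (List.nodup_append.mp h3).1
      exact (List.nodup_append.mp this).2.1
    have hch : (v :: t).IsChain (fun a b => b ∈ nbr E a) := by
      rw [h9] at h5
      exact (h5.left_of_append).right_of_append
    have hpt : (v :: t) ∈ pt S E v := mem_pt.mpr (Or.inr ⟨hnd, hsub, rfl, hch⟩)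
    simp only [mem_iUnion]
    refine ⟨v, hsub v List.mem_cons_self, ?_⟩
    simp only [lng, mem_iUnion]
    refine ⟨(pe (v :: t)).filter p, mem_Fam4.mpr ⟨v :: t, ?_, hpt, h10, List.filter_sublist, hlt⟩,
      ?_⟩
    · exact mem_wf r v (v :: t) h10 rfl hch fun l1 l2 b c hbc => hsub b (by rw [hbc]; simp)
    · intro q hq
      simpa [hp] using (List.mem_filter.mp hq).2)
  have h8' : (pe l).length ≤ 2 * ((pe l).filter p).length := h8
  omega

end Crest.Agent.R144.Uid674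
end
end

-- ▼ part R144/Uid2_674
section

/-!
# R144 (S0197), block UID (helper674), part 2: the instances

* `tbq_u` : the LC bound in hexagonal balls with a universal exponential rate `KU`;
* `e0` : the universal smallness of `ρ + ε`;
* `Prm` : admissible parameters of the cheap paths;
* `mid_le`, `long_le`, `window_le`.
-/

set_option autoImplicit false

open MeasureTheory Set Filter Topology
open scoped ENNReal NNReal

noncomputable section

namespace Crest.Agent.R144.Uid674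

open Crest.Agent.R144.Skel144
open Crest.Agent.R144.Ham560 (ext ham nbr mem_nbr Fresh tight hamP measurableSet_ham ext_mem
  ext_notMem FreshR tightR wgt wgt_const)
open Crest.Agent.R144.Tri560
open Crest.Agent.R144.Zb560
open Crest.Agent.R144.LoB95 (mc exists_mc length_le_mc measurable_mc)
open Crest.Agent.R144.Kor620 (P2 nrm FullE)
open Crest.Agent.R144.KorE761 (LatE)
open Crest.Agent.R144.Uig714 (CovAt TBQ nrm_tri Off xe rh k2 single_le joint_le uib_sets pos_bound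
  delta_small tendsto_delta_rh tendsto_rh pow_k2_le lt_pow_k2 rh_pos one_div_delta_le
  real_le_sqrt latE_inst ham_xe)
open Crest.ProbabilityR.TriHeights Crest.ProbabilityR.HexHeights

variable (I : Inst)

/-- universal exponential rate of the LC bound -/
def KU : ℝ := LC121.KL ^ 25

theorem one_le_KU : 1 ≤ KU := one_le_pow₀ LC121.one_le_KL

/-- **LEMMA LC for the instances, universal exponential rate** -/
theorem tbq_u {ε : ℝ} (hε : 0 < ε) : ∃ ρ : ℝ, 0 < ρ ∧ ∃ C : ℝ, 1 ≤ C ∧ ∀ᶠ n in atTop,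
    ∀ (z : P2) (r : ℕ), I.δ n * r ≤ ρ → Off I ε n z →
      TBQ (I.Fr n) (I.Ed n) (I.xi n) (I.P0 n) 2304 (ENNReal.ofReal (C / I.δ n * KU ^ r))
        {u | nrm (u - z) ≤ r} := by
  obtain ⟨ρ, hρ, hρf⟩ := LC121.flat_inst I hε
  obtain ⟨C, hC, hCb⟩ := LC121.height_bound I
  have hK := LC121.one_le_KL
  refine ⟨ρ / 2, by positivity, KU * (2 * C), ?_, ?_⟩
  · have := one_le_KU
    nlinarith
  have hδ1 : ∀ᶠ n in atTop, I.δ n < min 1 (ρ / 2) :=
    (tendsto_order.1 I.hM.2.1).2 _ (by positivity)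
  filter_upwards [hρf, hCb, hδ1] with n hn hCn hδn z r hr hoff T hT hTQ ε' hε' _
  have hδ := I.hM.1 n
  have hδn1 : I.δ n < 1 := hδn.trans_le (min_le_left _ _)
  have hδn2 : I.δ n < ρ / 2 := hδn.trans_le (min_le_right _ _)
  obtain ⟨c0, hc0, hF⟩ := hn z (r + 1) (by push_cast; linarith) hoff.1 hoff.2
  have key : ∀ u : P2, nrm (u - z) ≤ r → u ∈ LC121.box z r := by
    intro u hu
    have h3 : (u.1 - z.1).natAbs ≤ r := le_trans (by simp [nrm]) hu
    have h4 : (u.2 - z.2).natAbs ≤ r := le_trans (by simp [nrm]) hu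
    rw [LC121.mem_box, abs_le, abs_le]
    omega
  set S : List ((P2 × P2) × ℝ) := T.map fun q => (q, ε') with hS
  have hSb : ∀ q ∈ S, q.1.1 ∈ LC121.box z r ∧ q.1.2 ∈ LC121.box z r := by
    intro q hq
    obtain ⟨q', hq', rfl⟩ := List.mem_map.mp hq
    exact ⟨key _ (hTQ q' hq').1, key _ (hTQ q' hq').2⟩
  have hS' : ∀ q ∈ S, q.1.1 ∈ LC121.box z (r + 1) ∧ q.1.2 ∈ LC121.box z (r + 1) := fun q hq =>
    ⟨LC121.box_mono (Nat.le_succ r) (hSb q hq).1, LC121.box_mono (Nat.le_succ r) (hSb q hq).2⟩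
  have hSo : ∀ q ∈ S, q.1.1 ≠ (z.1 + (r + 1 : ℕ), z.2 + (r + 1 : ℕ)) := by
    intro q hq h
    have h1 := (LC121.mem_box.mp (hSb q hq).1).1
    rw [h] at h1
    simp only [add_sub_cancel_left] at h1
    rw [abs_of_nonneg (by positivity)] at h1
    push_cast at h1
    linarith
  have hmain := LC121.LC_box_prob (LC121.lat_inst I n) (I.anch n) (fun u _ => I.abs_xi_le n u) hc0
    hF hCn (fun v _ => LC121.card_nbr_triE (I.T n) v) (hT.toR hε') hS' hSo
  have e0 : wgt 6 S = ENNReal.ofReal (2304 * ε') ^ T.length := by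
    rw [hS, wgt_const]
    norm_num
  have hsub : tight (I.Fr n) (I.Ed n) (I.xi n) T ε' ⊆ tightR (I.Fr n) (I.Ed n) (I.xi n) S := by
    rintro x ⟨hx, hx2⟩
    refine ⟨hx, fun q hq => ?_⟩
    obtain ⟨q', hq', rfl⟩ := List.mem_map.mp hq
    exact hx2 q' hq'
  refine (measure_mono hsub).trans (hmain.trans ?_)
  rw [e0]
  have e1 : max 1 (2 * (C / I.δ n)) ≤ 2 * C / I.δ n := by
    refine max_le ?_ (le_of_eq (by ring))
    rw [one_le_div hδ]; linarith
  have e2 : ENNReal.ofReal LC121.KL ^ (10 * (r + 1) + 5) ≤ ENNReal.ofReal (KU * KU ^ r) := by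
    have hK1 : (1 : ℝ≥0∞) ≤ ENNReal.ofReal LC121.KL := by
      rw [← ENNReal.ofReal_one]; exact ENNReal.ofReal_le_ofReal hK
    calc ENNReal.ofReal LC121.KL ^ (10 * (r + 1) + 5) ≤ ENNReal.ofReal LC121.KL ^ (25 + 25 * r) :=
          pow_le_pow_right₀ hK1 (by omega)
      _ = ENNReal.ofReal (KU * KU ^ r) := by
          rw [KU, ← pow_mul, ← pow_add, ← ENNReal.ofReal_pow (by linarith)]
  calc ENNReal.ofReal LC121.KL ^ (10 * (r + 1) + 5) *
        (ENNReal.ofReal (max 1 (2 * (C / I.δ n))) * ENNReal.ofReal (2304 * ε') ^ T.length)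
      ≤ ENNReal.ofReal (KU * KU ^ r) *
        (ENNReal.ofReal (2 * C / I.δ n) * ENNReal.ofReal (2304 * ε') ^ T.length) :=
        mul_le_mul' e2 (mul_le_mul' (ENNReal.ofReal_le_ofReal e1) le_rfl)
    _ = ENNReal.ofReal (2304 * ε') ^ T.length *
        (ENNReal.ofReal (KU * KU ^ r) * ENNReal.ofReal (2 * C / I.δ n)) := by ring
    _ = _ := by
        have hKU := one_le_KU
        rw [← ENNReal.ofReal_mul (by positivity)]
        congr 2
        ring

/-- universal base -/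
def AU : ℕ := ⌈KU * (24 ^ 4) ^ 40⌉₊ + 96

theorem AU_ge : KU * (24 ^ 4) ^ 40 ≤ (AU : ℝ) := by
  unfold AU
  push_cast
  have := Nat.le_ceil (KU * (24 ^ 4) ^ 40)
  linarith

theorem AU_96 : 8 * 12 ≤ AU := by unfold AU; omega

theorem one_le_AU : (1 : ℝ) ≤ AU := by
  have : 1 ≤ AU := by unfold AU; omega
  exact_mod_cast this

/-- the universal smallness of the parameters -/
def e0 : ℝ := (1 / (12 * (AU : ℝ))) ^ 4 / 2304

theorem e0_pos : 0 < e0 := by
  have := one_le_AU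
  unfold e0
  positivity

theorem le_e0 {e : ℝ} (h : e ≤ e0) : 2304 * e ≤ (1 / (12 * (AU : ℝ))) ^ 4 := by
  unfold e0 at h
  rw [le_div_iff₀ (by norm_num)] at h
  linarith

theorem e0_le_one {e : ℝ} (h : e ≤ e0) : e ≤ 1 := by
  have h1 := le_e0 h
  have h2 : (1 / (12 * (AU : ℝ))) ^ 4 ≤ 1 := by
    have := one_le_AU
    refine pow_le_one₀ (by positivity) ?_
    rw [div_le_one (by positivity)]; linarith
  linarith

/-- admissible parameters of the cheap paths -/
structure Prm {κ : Type*} (ρ ε Λ c0 L : ℝ) (φs : κ → P2 → ℝ) : Prop where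
  hρ : 0 ≤ ρ
  hε : 0 < ε
  small : ρ + ε ≤ e0
  hΛ : 0 < Λ
  hL : 4 * L ≤ Λ
  hφ : ∀ i a b, Adj a b → |φs i a - φs i b| ≤ L

variable {κ : Type*} [Fintype κ] {ρ ε Λ c0 L : ℝ} {φs : κ → P2 → ℝ}

/-- the length of the longest cheap path at the instance -/
abbrev MC (n : ℕ) (S : Finset P2) (ρ ε Λ c0 : ℝ) (φs : κ → P2 → ℝ) (w : P2) (x : I.Fr n → ℝ) :
    ℕ := mc S (I.Ed n) ρ ε Λ c0 φs (ext (I.Fr n) (I.xi n) x) w

theorem measurable_MC (n : ℕ) (S : Finset P2) (w : P2) :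
    Measurable (MC I n S ρ ε Λ c0 φs w) :=
  (measurable_mc S (I.Ed n) w).comp (measurable_pi_iff.mpr fun u =>
    (Ham560.continuous_ext (F := I.Fr n) (ξ := I.xi n) u).measurable)

theorem ae_ham (n : ℕ) : ∀ᵐ h ∂(I.P0 n), h ∈ ham (I.Fr n) (I.Ed n) (I.xi n) := by
  have := Uig714.ae_ham I n
  rwa [ham_xe] at this

theorem deg_inst (n : ℕ) : ∀ v ∈ I.Fr n, (nbr (I.Ed n) v).card ≤ 6 := fun v _ =>
  LC121.card_nbr_triE (I.T n) v

/-- covering at the instance -/
theorem covAt_inst (H : Prm ρ ε Λ c0 L φs) {n : ℕ} {S : Finset P2} (hS : S ⊆ I.Fr n)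
    {k0 : ℕ} (hk0 : 4 * c0 ≤ Λ * k0) (w : P2) (k : ℕ) :
    CovAt (I.Fr n) (I.Ed n) (I.xi n) 2304 (ρ + ε) ((AU : ℝ) ^ (k0 + 1) / (AU : ℝ) ^ k) k w
      {x | MC I n S ρ ε Λ c0 φs w x = k} :=
  covAt_mc hS (latE_inst I n) (deg_inst I n) H.hρ H.hε H.hΛ H.hL
    (fun i a b h => H.hφ i a b ((latE_inst I n).nbr h)) one_le_AU (le_e0 H.small) hk0 le_rfl k

omit [Fintype κ] in
theorem eps_bd (H : Prm ρ ε Λ c0 L φs) : 0 < ρ + ε ∧ ρ + ε ≤ 1 := by
  have h1 := H.hρ
  have h2 := H.hε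
  exact ⟨by linarith, e0_le_one H.small⟩

/-- the ratio of the rates -/
def rt : ℝ := KU / AU

theorem rt_nonneg : 0 ≤ rt := by
  have := one_le_KU
  unfold rt
  positivity

theorem rt_le : rt ≤ 1 / (24 ^ 4) ^ 40 := by
  have := AU_ge
  have h1 := one_le_AU
  unfold rt
  rw [div_le_div_iff₀ (by linarith) (by positivity)]
  linarith

/-- one site, moderate lengths -/
theorem mid_le (H : Prm ρ ε Λ c0 L φs) {ε₁ : ℝ} (hε₁ : 0 < ε₁) : ∃ ρ₁ : ℝ, 0 < ρ₁ ∧ ∃ C : ℝ, 1 ≤ C ∧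
    ∀ᶠ n in atTop, ∀ S : Finset P2, S ⊆ I.Fr n → ∀ w, Off I ε₁ n w → ∀ k : ℕ, I.δ n * k ≤ ρ₁ →
      (I.P0 n).real {x | MC I n S ρ ε Λ c0 φs w x = k} ≤ C / I.δ n * rt ^ k := by
  obtain ⟨ρ₁, hρ₁, C, hC, h⟩ := tbq_u I hε₁
  obtain ⟨k0, hk0⟩ : ∃ k0 : ℕ, 4 * c0 ≤ Λ * k0 := by
    obtain ⟨k0, hk0⟩ := exists_nat_ge (4 * c0 / Λ)
    refine ⟨k0, ?_⟩
    rw [div_le_iff₀ H.hΛ] at hk0
    linarith
  have hAU := one_le_AU
  refine ⟨ρ₁, hρ₁, (AU : ℝ) ^ (k0 + 1) * C, ?_, ?_⟩
  · have : (1 : ℝ) ≤ (AU : ℝ) ^ (k0 + 1) := one_le_pow₀ hAU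
    nlinarith
  filter_upwards [h] with n hn S hS w hw k hk
  have hδ := I.hM.1 n
  obtain ⟨e1, e2⟩ := eps_bd H
  have h1 := single_le (hn w k hk hw) (by norm_num) e1 e2 (covAt_inst I H hS hk0 w k) (ae_ham I n)
  rw [← ENNReal.ofReal_mul (by positivity)] at h1
  rw [measureReal_def]
  have hKU := one_le_KU
  refine ENNReal.toReal_le_of_le_ofReal ?_ (h1.trans (le_of_eq ?_))
  · have := rt_nonneg
    positivity
  · congr 1
    rw [rt, div_pow]
    field_simp

/-- one site, very long paths -/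
theorem long_le (H : Prm ρ ε Λ c0 L φs) {ε₁ : ℝ} (hε₁ : 0 < ε₁) : ∃ ρ₁ : ℝ, 0 < ρ₁ ∧ ∃ C : ℝ, 1 ≤ C ∧
    ∀ᶠ n in atTop, ∀ S : Finset P2, S ⊆ I.Fr n → (∀ v ∈ S, Off I ε₁ n v) →
    ∀ r : ℕ, 0 < r → c0 ≤ Λ * r → I.δ n * r ≤ ρ₁ →
      (I.P0 n).real {x | ∃ w, 4 * r + 1 ≤ MC I n S ρ ε Λ c0 φs w x} ≤
        S.card * (C / I.δ n * rt ^ r) := by
  obtain ⟨ρ₁, hρ₁, C, hC, h⟩ := tbq_u I hε₁
  have hAU := one_le_AU
  refine ⟨ρ₁, hρ₁, C, hC, ?_⟩
  filter_upwards [h] with n hn S hS hoff r hr hc hk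
  have hδ := I.hM.1 n
  obtain ⟨e1, e2⟩ := eps_bd H
  have hKU := one_le_KU
  have hrt := rt_nonneg
  have hsub : {x : I.Fr n → ℝ | ∃ w, 4 * r + 1 ≤ MC I n S ρ ε Λ c0 φs w x} ⊆
      ⋃ v ∈ S, lng S (I.Ed n) (ρ + ε) (I.Fr n) (I.xi n) r v := by
    rintro x ⟨w, hw⟩
    exact mc_subset_long H.hε H.hΛ H.hL (fun i a b h => H.hφ i a b ((latE_inst I n).nbr h)) hr hc
      (k := 4 * r + 1) le_rfl hw
  have h1 : I.P0 n {x : I.Fr n → ℝ | ∃ w, 4 * r + 1 ≤ MC I n S ρ ε Λ c0 φs w x} ≤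
      ENNReal.ofReal (S.card * (C / I.δ n * rt ^ r)) := by
    calc _ ≤ I.P0 n (⋃ v ∈ S, lng S (I.Ed n) (ρ + ε) (I.Fr n) (I.xi n) r v) := measure_mono hsub
      _ ≤ ∑ v ∈ S, I.P0 n (lng S (I.Ed n) (ρ + ε) (I.Fr n) (I.xi n) r v) :=
          measure_biUnion_finset_le _ _
      _ ≤ ∑ _v ∈ S, ENNReal.ofReal (C / I.δ n * rt ^ r) := by
          refine Finset.sum_le_sum fun v hv => ?_
          have h2 := single_le (hn v r hk (hoff v hv)) (by norm_num) e1 e2
            (covAt_long hS (latE_inst I n) (deg_inst I n) e1.le one_le_AU (le_e0 H.small) r v)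
            (ae_ham I n)
          rw [← ENNReal.ofReal_mul (by positivity)] at h2
          refine h2.trans (le_of_eq ?_)
          congr 1
          rw [rt, div_pow]
          field_simp
      _ = _ := by
          rw [Finset.sum_const, nsmul_eq_mul,
            ENNReal.ofReal_mul (p := (S.card : ℝ)) (Nat.cast_nonneg _), ENNReal.ofReal_natCast]
  rw [measureReal_def]
  exact ENNReal.toReal_le_of_le_ofReal (by positivity) h1

/-- **boxes: moderate lengths, averaged** -/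
theorem window_le (H : Prm ρ ε Λ c0 L φs) {ε₁ : ℝ} (hε₁ : 0 < ε₁) : ∃ C : ℝ, 1 ≤ C ∧
    ∀ᶠ n in atTop, ∀ S : Finset P2, S ⊆ I.Fr n → (∀ v ∈ S, Off I ε₁ n v) →
    ∀ k : ℕ, k ≤ k2 I n →
      I.δ n ^ 2 * ∑ w ∈ S, (I.P0 n).real {x | MC I n S ρ ε Λ c0 φs w x = k} ≤
        C * (1 / 12) ^ k := by
  classical
  obtain ⟨ρ₁, hρ₁, C, hC, hTBQ⟩ := tbq_u I hε₁
  obtain ⟨R, hR, hpos⟩ := pos_bound I
  have hC0 : 0 ≤ C := by linarith
  have hKU := one_le_KU
  obtain ⟨k0, hk0⟩ : ∃ k0 : ℕ, 4 * c0 ≤ Λ * k0 := by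
    obtain ⟨k0, hk0⟩ := exists_nat_ge (4 * c0 / Λ)
    refine ⟨k0, ?_⟩
    rw [div_le_iff₀ H.hΛ] at hk0
    linarith
  have hAU := one_le_AU
  obtain ⟨e1, e2⟩ := eps_bd H
  have hCA : (1 : ℝ) ≤ (AU : ℝ) ^ (k0 + 1) := one_le_pow₀ hAU
  have hC₃ : (1 : ℝ) ≤ 4 * C * KU ^ 4 := by
    have : (1 : ℝ) ≤ KU ^ 4 := one_le_pow₀ hKU
    nlinarith
  obtain ⟨k₁, ρ₀, hk₁, key⟩ := uib_sets.{0} (B := 12) (Cf := 1) (κ₀ := 0) (A := AU) (by norm_num)
      (by norm_num) AU_96 (c := 2304) (by norm_num) hCA hC₃ one_pos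
  refine ⟨12 ^ k₁ * (2 * R + 3) ^ 2, ?_, ?_⟩
  · have h1 : (1 : ℝ) ≤ 12 ^ k₁ := one_le_pow₀ (by norm_num)
    have h2 : (1 : ℝ) ≤ (2 * R + 3) ^ 2 := one_le_pow₀ (by linarith)
    nlinarith
  filter_upwards [hTBQ, hpos, delta_small I one_pos,
    (tendsto_order.1 (tendsto_delta_rh I)).2 (min (ρ₁ / 4) 1) (by positivity),
    (tendsto_atTop.mp (tendsto_rh I)) ρ₀] with n hn hpn hδ1 hδr hr S hS hoff k hk
  have hδ := I.hM.1 n
  have hδr1 : I.δ n * rh I n < ρ₁ / 4 := hδr.trans_le (min_le_left _ _)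
  have hδr2 : I.δ n * rh I n < 1 := hδr.trans_le (min_le_right _ _)
  set W : ℕ := ⌊R / I.δ n⌋₊ with hW
  have hWR : (W : ℝ) ≤ R / I.δ n := Nat.floor_le (by positivity)
  -- number of sites
  have hcard : I.δ n ^ 2 * (S.card : ℝ) ≤ (2 * R + 3) ^ 2 := by
    have h1 : S.card ≤ (2 * W + 1) ^ 2 := by
      rw [← Uig714.card_grid]
      refine Finset.card_le_card fun u hu => ?_
      have h2 := hpn u (hS hu)
      have h3 := Nat.le_floor h2.1
      have h4 := Nat.le_floor h2.2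
      rw [Finset.mem_product, Finset.mem_Icc, Finset.mem_Icc]
      omega
    have h2 : (S.card : ℝ) ≤ (2 * W + 1) ^ 2 := by exact_mod_cast h1
    have h3 : I.δ n * (2 * W + 1) ≤ 2 * R + 3 := by
      rw [le_div_iff₀ hδ] at hWR
      nlinarith
    calc I.δ n ^ 2 * (S.card : ℝ) ≤ I.δ n ^ 2 * (2 * W + 1) ^ 2 := by gcongr
      _ = (I.δ n * (2 * W + 1)) ^ 2 := by ring
      _ ≤ _ := by gcongr
  have h12 : (12 : ℝ) ^ k₁ * (2 * R + 3) ^ 2 * (1 / 12) ^ k =
      (2 * R + 3) ^ 2 * (12 ^ k₁ * (1 / 12) ^ k) := by ring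
  rw [h12]
  by_cases hkk : k < k₁
  · have h1 : ∑ w ∈ S, (I.P0 n).real {x | MC I n S ρ ε Λ c0 φs w x = k} ≤ S.card := by
      calc _ ≤ ∑ _w ∈ S, (1 : ℝ) := Finset.sum_le_sum fun _ _ => measureReal_le_one
        _ = _ := by simp
    have h2 : (1 : ℝ) ≤ 12 ^ k₁ * (1 / 12) ^ k := by
      rw [one_div_pow, mul_one_div, one_le_div (by positivity)]
      exact pow_le_pow_right₀ (by norm_num) hkk.le
    calc I.δ n ^ 2 * ∑ w ∈ S, (I.P0 n).real {x | MC I n S ρ ε Λ c0 φs w x = k}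
        ≤ I.δ n ^ 2 * S.card := by gcongr
      _ ≤ (2 * R + 3) ^ 2 := hcard
      _ ≤ (2 * R + 3) ^ 2 * (12 ^ k₁ * (1 / 12) ^ k) := le_mul_of_one_le_right (by positivity) h2
  · push Not at hkk
    have key' := key (rh I n) hr (k2 I n) (pow_k2_le I n) (I.Fr n) (I.Ed n) (I.xi n) (I.P0 n)
      (I.P0 n) (ae_ham I n) (fun A _ => real_le_sqrt _ A) S (fun p => p) W
      (fun p hp => by
        have h1 := hpn p (hS hp)
        exact ⟨Nat.le_floor h1.1, Nat.le_floor h1.2⟩)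
      (fun z T hT => by
        have : T ⊆ {z} := fun p hp => Finset.mem_singleton.mpr (hT p hp).2
        simpa using Finset.card_le_card this)
      (fun w k => {x | MC I n S ρ ε Λ c0 φs w x = k})
      (fun w k => (measurable_MC I n S w) (measurableSet_singleton k))
      (fun k _ _ => ⟨ρ + ε, e1, e2, fun w _ => covAt_inst I H hS hk0 w k⟩)
      (fun w hw => by
        refine (hn w (4 * rh I n) ?_ (hoff w hw)).mono ?_ (Set.Subset.refl _)
        · push_cast; linarith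
        · apply ENNReal.ofReal_le_ofReal
          have h1 := one_div_delta_le I n
          have h2 : (rh I n : ℝ) ≤ 2 ^ rh I n := by
            exact_mod_cast (Nat.lt_two_pow_self (n := rh I n)).le
          have hr1 : 1 ≤ rh I n := rh_pos I n
          calc C / I.δ n * KU ^ (4 * rh I n) = C * (1 / I.δ n) * KU ^ (4 * rh I n) := by ring
            _ ≤ C ^ (rh I n) * (2 ^ rh I n) ^ 2 * KU ^ (4 * rh I n) := by
                have h3 : C ≤ C ^ rh I n := le_self_pow₀ hC (by omega)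
                have h4 : 1 / I.δ n ≤ ((2 : ℝ) ^ rh I n) ^ 2 := h1.trans (by gcongr)
                have h5 : 0 ≤ 1 / I.δ n := by positivity
                gcongr
            _ = (4 * C * KU ^ 4) ^ rh I n := by
                have e1 : ((2 : ℝ) ^ rh I n) ^ 2 = 4 ^ rh I n := by
                  rw [pow_right_comm]; norm_num
                rw [e1, mul_pow, mul_pow, ← pow_mul]; ring)
    have h1 : ((12 : ℕ) : ℝ≥0∞) ^ k * ∑ w ∈ S, I.P0 n {x | MC I n S ρ ε Λ c0 φs w x = k} ≤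
        ENNReal.ofReal ((1 * (2 * W + 3 * rh I n) ^ 2 : ℕ) * 1) := by
      refine le_trans ?_ key'
      exact Finset.single_le_sum (f := fun k => ((12 : ℕ) : ℝ≥0∞) ^ k *
        ∑ w ∈ S, I.P0 n {x | MC I n S ρ ε Λ c0 φs w x = k}) (fun _ _ => bot_le)
        (Finset.mem_Ico.mpr ⟨hkk, by omega⟩)
    have h2 : (12 : ℝ) ^ k * ∑ w ∈ S, (I.P0 n).real {x | MC I n S ρ ε Λ c0 φs w x = k} ≤
        (2 * W + 3 * rh I n) ^ 2 := by
      have h3 : ((12 : ℕ) : ℝ≥0∞) ^ k * ∑ w ∈ S, I.P0 n {x | MC I n S ρ ε Λ c0 φs w x = k} =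
          ENNReal.ofReal ((12 : ℝ) ^ k *
            ∑ w ∈ S, (I.P0 n).real {x | MC I n S ρ ε Λ c0 φs w x = k}) := by
        rw [ENNReal.ofReal_mul (by positivity), ENNReal.ofReal_pow (by norm_num),
          ENNReal.ofReal_sum_of_nonneg fun _ _ => measureReal_nonneg]
        congr 1
        · simp
        · exact Finset.sum_congr rfl fun w _ => (ofReal_measureReal).symm
      rw [h3, ENNReal.ofReal_le_ofReal_iff (by positivity)] at h1
      push_cast at h1
      linarith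
    have h4 : ∑ w ∈ S, (I.P0 n).real {x | MC I n S ρ ε Λ c0 φs w x = k} ≤
        (2 * W + 3 * rh I n) ^ 2 * (1 / 12) ^ k := by
      rw [one_div_pow, mul_one_div, le_div_iff₀ (by positivity)]
      linarith
    have h5 : I.δ n * (2 * W + 3 * rh I n) ≤ 2 * R + 3 := by
      rw [le_div_iff₀ hδ] at hWR
      nlinarith
    calc I.δ n ^ 2 * ∑ w ∈ S, (I.P0 n).real {x | MC I n S ρ ε Λ c0 φs w x = k}
        ≤ I.δ n ^ 2 * ((2 * W + 3 * rh I n) ^ 2 * (1 / 12) ^ k) := by gcongr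
      _ = (I.δ n * (2 * W + 3 * rh I n)) ^ 2 * (1 / 12) ^ k := by ring
      _ ≤ (2 * R + 3) ^ 2 * (1 * (1 / 12) ^ k) := by rw [one_mul]; gcongr
      _ ≤ _ := by
        gcongr
        exact one_le_pow₀ (by norm_num)

end Crest.Agent.R144.Uid674
end
end

-- ▼ part R144/Uid3_674

/-!
# R144 (S0197), block UID (helper674), part 3: moments of the lengths of the cheap paths

* `uid_far` : `P0 {∃ w, c / δ < MC w} ≤ δ ^ a`;
* `uid_moment` : `δ² ∑_{w ∈ S} ∫ MC w ^ p 1(j < MC w) ≤ C / 2 ^ j`;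
* `uid` : (U1), (U2), (U3) of the lower bound.
-/

set_option autoImplicit false

open MeasureTheory Set Filter Topology
open scoped ENNReal NNReal

noncomputable section

namespace Crest.Agent.R144.Uid674

open Crest.Agent.R144.Skel144
open Crest.Agent.R144.Ham560 (ext ham nbr mem_nbr Fresh tight hamP measurableSet_ham ext_mem
  ext_notMem FreshR tightR wgt wgt_const)
open Crest.Agent.R144.Tri560
open Crest.Agent.R144.Zb560
open Crest.Agent.R144.LoB95 (mc exists_mc length_le_mc measurable_mc)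
open Crest.Agent.R144.Kor620 (P2 nrm FullE)
open Crest.Agent.R144.KorE761 (LatE)
open Crest.Agent.R144.Uig714 (CovAt TBQ nrm_tri Off xe rh k2 single_le joint_le uib_sets pos_bound
  delta_small tendsto_delta_rh tendsto_rh pow_k2_le lt_pow_k2 rh_pos one_div_delta_le
  real_le_sqrt latE_inst ham_xe)
open Crest.ProbabilityR.TriHeights Crest.ProbabilityR.HexHeights

variable (I : Inst)
variable {κ : Type*} [Fintype κ] {ρ ε Λ c0 L : ℝ} {φs : κ → P2 → ℝ}

/-- number of sites -/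
theorem card_bound : ∃ K : ℝ, 1 ≤ K ∧ ∀ᶠ n in atTop, ∀ S : Finset P2, S ⊆ I.Fr n →
    I.δ n ^ 2 * (S.card : ℝ) ≤ K := by
  obtain ⟨R, hR, hpos⟩ := pos_bound I
  refine ⟨(2 * R + 3) ^ 2, one_le_pow₀ (by linarith), ?_⟩
  filter_upwards [hpos, delta_small I one_pos] with n hpn hδ1 S hS
  have hδ := I.hM.1 n
  set W : ℕ := ⌊R / I.δ n⌋₊ with hW
  have hWR : (W : ℝ) ≤ R / I.δ n := Nat.floor_le (by positivity)
  have h1 : S.card ≤ (2 * W + 1) ^ 2 := by
    rw [← Uig714.card_grid]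
    refine Finset.card_le_card fun u hu => ?_
    have h2 := hpn u (hS hu)
    have h3 := Nat.le_floor h2.1
    have h4 := Nat.le_floor h2.2
    rw [Finset.mem_product, Finset.mem_Icc, Finset.mem_Icc]
    omega
  have h2 : (S.card : ℝ) ≤ (2 * W + 1) ^ 2 := by exact_mod_cast h1
  have h3 : I.δ n * (2 * W + 1) ≤ 2 * R + 3 := by
    rw [le_div_iff₀ hδ] at hWR
    nlinarith
  calc I.δ n ^ 2 * (S.card : ℝ) ≤ I.δ n ^ 2 * (2 * W + 1) ^ 2 := by gcongr
    _ = (I.δ n * (2 * W + 1)) ^ 2 := by ring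
    _ ≤ _ := by gcongr

/-- the number of vertices of a path -/
theorem MC_le (n : ℕ) (S : Finset P2) (w : P2) (x : I.Fr n → ℝ) :
    MC I n S ρ ε Λ c0 φs w x ≤ S.card + 1 := by
  refine Finset.sup_le fun l hl => ?_
  exact length_pt (Finset.mem_filter.mp hl).1

theorem rt_le_half : rt ≤ 1 / 2 := by
  refine rt_le.trans ?_
  rw [div_le_div_iff₀ (by positivity) (by norm_num)]
  have : (1 : ℝ) ≤ (24 ^ 4) ^ 39 := one_le_pow₀ (by norm_num)
  calc (1 : ℝ) * 2 ≤ (24 ^ 4) ^ 39 * 24 ^ 4 := by nlinarith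
    _ = 1 * (24 ^ 4) ^ 40 := by rw [one_mul, ← pow_succ]

/-- **(U3)** no macroscopic cheap path -/
theorem uid_far (H : Prm ρ ε Λ c0 L φs) {ε₁ : ℝ} (hε₁ : 0 < ε₁) {c : ℝ} (hc : 0 < c) (a : ℕ) :
    ∀ᶠ n in atTop, ∀ S : Finset P2, S ⊆ I.Fr n → (∀ v ∈ S, Off I ε₁ n v) →
      (I.P0 n).real {x | ∃ w, c / I.δ n ≤ MC I n S ρ ε Λ c0 φs w x} ≤ I.δ n ^ a := by
  obtain ⟨ρ₁, hρ₁, C, hC, h⟩ := long_le I H hε₁
  obtain ⟨K, hK, hcard⟩ := card_bound I
  set c' : ℝ := min c ρ₁ with hc'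
  have hc'0 : 0 < c' := lt_min hc hρ₁
  have hc'c : c' ≤ c := min_le_left _ _
  have hc'ρ : c' ≤ ρ₁ := min_le_right _ _
  -- decay
  have hdec : Tendsto (fun r : ℕ => (r : ℝ) ^ (a + 3) * (1 / 2) ^ r) atTop (𝓝 0) :=
    tendsto_pow_const_mul_const_pow_of_abs_lt_one (a + 3) (by
      rw [abs_of_pos (by norm_num)]; norm_num)
  have hcst : 0 < (c' / 16) ^ (a + 3) / (K * C) := by positivity
  obtain ⟨r₀, hr₀⟩ := eventually_atTop.mp ((tendsto_order.1 hdec).2 _ hcst)
  have hΛ := H.hΛ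
  obtain ⟨r₁, hr₁⟩ := exists_nat_ge (c0 / Λ)
  set m : ℝ := c' / (16 * ((r₀ : ℝ) + r₁ + 1)) with hm
  have hm0 : 0 < m := by positivity
  filter_upwards [h, hcard, delta_small I hm0] with n hn hcn hδs S hS hoff
  have hδ := I.hM.1 n
  set r : ℕ := ⌊c' / (8 * I.δ n)⌋₊ with hr
  have hbig : (r₀ : ℝ) + r₁ + 1 ≤ c' / (16 * I.δ n) := by
    rw [le_div_iff₀ (by positivity)]
    rw [hm, lt_div_iff₀ (by positivity)] at hδs
    nlinarith
  have hr1 : (r : ℝ) ≤ c' / (8 * I.δ n) := Nat.floor_le (by positivity)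
  have hr2 : c' / (8 * I.δ n) - 1 ≤ r := by
    have := Nat.lt_floor_add_one (c' / (8 * I.δ n))
    linarith
  have e8 : c' / (8 * I.δ n) = 2 * (c' / (16 * I.δ n)) := by
    field_simp; norm_num
  have hr3 : c' / (16 * I.δ n) ≤ r := by
    have h0 : (0 : ℝ) ≤ r₀ := Nat.cast_nonneg _
    have h1 : (0 : ℝ) ≤ r₁ := Nat.cast_nonneg _
    linarith
  have hrr0 : r₀ ≤ r := by
    have h1 : (0 : ℝ) ≤ r₁ := Nat.cast_nonneg _
    have : (r₀ : ℝ) ≤ r := by linarith
    exact_mod_cast this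
  have hrr1 : (r₁ : ℝ) ≤ r := by
    have h0 : (0 : ℝ) ≤ r₀ := Nat.cast_nonneg _
    linarith
  have hrpos' : (1 : ℝ) ≤ r := by
    have h0 : (0 : ℝ) ≤ r₀ := Nat.cast_nonneg _
    have h1 : (0 : ℝ) ≤ r₁ := Nat.cast_nonneg _
    linarith
  have hrpos : 0 < r := by exact_mod_cast (by linarith : (0 : ℝ) < r)
  have hc0r : c0 ≤ Λ * r := by
    rw [div_le_iff₀ hΛ] at hr₁
    nlinarith
  have hδr : I.δ n * r ≤ ρ₁ := by
    calc I.δ n * r ≤ I.δ n * (c' / (8 * I.δ n)) := by gcongr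
      _ = c' / 8 := by field_simp
      _ ≤ ρ₁ := by linarith
  have h4r : (4 * (r : ℝ) + 1) ≤ c / I.δ n := by
    have h1 : (8 : ℝ) * (c' / (8 * I.δ n)) = c' / I.δ n := by field_simp
    have h2 : c' / I.δ n ≤ c / I.δ n := by gcongr
    linarith
  have hmain := hn S hS hoff r hrpos hc0r hδr
  have hsub : {x : I.Fr n → ℝ | ∃ w, c / I.δ n ≤ MC I n S ρ ε Λ c0 φs w x} ⊆
      {x | ∃ w, 4 * r + 1 ≤ MC I n S ρ ε Λ c0 φs w x} := by
    rintro x ⟨w, hw⟩
    refine ⟨w, ?_⟩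
    have := h4r.trans hw
    exact_mod_cast this
  refine (measureReal_mono hsub (measure_ne_top _ _)).trans (hmain.trans ?_)
  have hrt : rt ^ r ≤ (1 / 2) ^ r := pow_le_pow_left₀ rt_nonneg rt_le_half r
  have hS2 : (S.card : ℝ) ≤ K / I.δ n ^ 2 := by
    rw [le_div_iff₀ (by positivity)]
    have := hcn S hS
    linarith
  have hinv : 1 / I.δ n ≤ 16 / c' * r := by
    have : c' / (16 * I.δ n) * (16 / c') ≤ r * (16 / c') := by gcongr
    calc 1 / I.δ n = c' / (16 * I.δ n) * (16 / c') := by field_simp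
      _ ≤ r * (16 / c') := this
      _ = _ := by ring
  have hdr := hr₀ r hrr0
  -- assembly
  have hrt0 := rt_nonneg
  have hKC : 0 < K * C := by positivity
  rw [lt_div_iff₀ hKC] at hdr
  have h5 : (S.card : ℝ) * (C / I.δ n * rt ^ r) ≤ K * C * (1 / I.δ n) ^ 3 * (1 / 2) ^ r := by
    calc (S.card : ℝ) * (C / I.δ n * rt ^ r)
        ≤ K / I.δ n ^ 2 * (C / I.δ n * (1 / 2) ^ r) := by gcongr
      _ = _ := by field_simp
  refine h5.trans ?_
  have h6 : K * C * (1 / I.δ n) ^ 3 * (1 / 2) ^ r * (1 / I.δ n) ^ a ≤ 1 := by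
    calc K * C * (1 / I.δ n) ^ 3 * (1 / 2) ^ r * (1 / I.δ n) ^ a
        = K * C * (1 / 2) ^ r * (1 / I.δ n) ^ (a + 3) := by rw [pow_add]; ring
      _ ≤ K * C * (1 / 2) ^ r * (16 / c' * r) ^ (a + 3) := by gcongr
      _ = (r : ℝ) ^ (a + 3) * (1 / 2) ^ r * (K * C) * (16 / c') ^ (a + 3) := by
          rw [mul_pow]; ring
      _ ≤ (c' / 16) ^ (a + 3) * (16 / c') ^ (a + 3) := by gcongr
      _ = 1 := by
          rw [← mul_pow]
          rw [show c' / 16 * (16 / c') = 1 by field_simp, one_pow]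
  rw [one_div_pow (I.δ n) a, mul_one_div, div_le_one (by positivity)] at h6
  exact h6

/-- pointwise bound of the moments -/
theorem moment_pt {N M j p : ℕ} (hN : N ≤ M) (G : Finset ℕ) (B : Prop) [Decidable B]
    (hG : ¬ B → j < N → N ∈ G) :
    (if j < N then (N : ℝ) ^ p else 0) ≤
      ∑ k ∈ G, (if N = k then (k : ℝ) ^ p else 0) + (if B then (M : ℝ) ^ p else 0) := by
  have h1 : 0 ≤ ∑ k ∈ G, (if N = k then (k : ℝ) ^ p else 0) :=
    Finset.sum_nonneg fun _ _ => by split_ifs <;> positivity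
  have h2 : 0 ≤ (if B then (M : ℝ) ^ p else 0) := by split_ifs <;> positivity
  by_cases hj : j < N
  · rw [if_pos hj]
    by_cases hB : B
    · rw [if_pos hB]
      have : (N : ℝ) ^ p ≤ (M : ℝ) ^ p := by gcongr
      linarith
    · have h3 := Finset.single_le_sum (f := fun k => if N = k then (k : ℝ) ^ p else 0)
        (fun k _ => by split_ifs <;> positivity) (hG hB hj)
      simp only [if_true] at h3
      linarith
  · rw [if_neg hj]
    linarith

/-- polynomials are at most exponential -/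
theorem pow_le_exp (p : ℕ) : ∃ Cp : ℝ, 1 ≤ Cp ∧ ∀ k : ℕ, (k : ℝ) ^ p ≤ Cp * 2 ^ k := by
  have h := tendsto_pow_const_div_const_pow_of_one_lt p (by norm_num : (1 : ℝ) < 2)
  obtain ⟨B, hB⟩ := h.bddAbove_range
  refine ⟨max B 1, le_max_right _ _, fun k => ?_⟩
  have h1 := hB ⟨k, rfl⟩
  simp only at h1
  rw [div_le_iff₀ (by positivity)] at h1
  exact h1.trans (by gcongr; exact le_max_left _ _)

/-- geometric sums -/
theorem geom_le {q : ℝ} (h0 : 0 ≤ q) (h1 : q ≤ 1 / 2) (G : Finset ℕ) {j : ℕ}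
    (hG : ∀ k ∈ G, j < k) : ∑ k ∈ G, q ^ k ≤ q ^ j := by
  have hq : q < 1 := by linarith
  have hs : Summable fun k : ℕ => q ^ (k + (j + 1)) := by
    have := (summable_geometric_of_lt_one h0 hq).mul_right (q ^ (j + 1))
    exact this.congr fun k => (pow_add q k (j + 1)).symm
  have h2 : ∑ k ∈ G, q ^ k ≤ ∑' k : ℕ, q ^ (k + (j + 1)) := by
    have h3 : ∑ k ∈ G, q ^ k = ∑ k ∈ G.image (fun k => k - (j + 1)), q ^ (k + (j + 1)) := by
      rw [Finset.sum_image]
      · refine Finset.sum_congr rfl fun k hk => ?_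
        have := hG k hk
        rw [Nat.sub_add_cancel (by omega)]
      · intro a ha b hb hab
        have h4 := hG a ha
        have h5 := hG b hb
        simp only at hab
        omega
    rw [h3]
    exact hs.sum_le_tsum _ fun _ _ => by positivity
  refine h2.trans ?_
  have h3 : ∑' k : ℕ, q ^ (k + (j + 1)) = (1 - q)⁻¹ * q ^ (j + 1) := by
    simp_rw [pow_add q _ (j + 1)]
    rw [tsum_mul_right, tsum_geometric_of_lt_one h0 hq]
  rw [h3, pow_succ, ← mul_assoc, mul_comm ((1 - q)⁻¹), mul_assoc]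
  refine mul_le_of_le_one_right (by positivity) ?_
  rw [inv_mul_le_iff₀ (by linarith)]
  linarith

/-- **moments of the lengths of the cheap paths** -/
theorem uid_moment (H : Prm ρ ε Λ c0 L φs) {ε₁ : ℝ} (hε₁ : 0 < ε₁) (p : ℕ) :
    ∃ C : ℝ, 0 < C ∧ ∀ j : ℕ, ∀ᶠ n in atTop, ∀ S : Finset P2, S ⊆ I.Fr n →
      (∀ v ∈ S, Off I ε₁ n v) →
      I.δ n ^ 2 * ∑ w ∈ S, ∫ x, (if j < MC I n S ρ ε Λ c0 φs w x then
        (MC I n S ρ ε Λ c0 φs w x : ℝ) ^ p else 0) ∂(I.P0 n) ≤ C * (1 / 2) ^ j := by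
  classical
  obtain ⟨C1, hC1, hw⟩ := window_le I H hε₁
  obtain ⟨ρ₁, hρ₁, C2, hC2, hm⟩ := mid_le I H hε₁
  obtain ⟨K, hK, hcard⟩ := card_bound I
  obtain ⟨Cp, hCp, hpe⟩ := pow_le_exp p
  refine ⟨C1 * Cp + 1, by positivity, fun j => ?_⟩
  set B1 : ℝ := K * C2 * Cp with hB1
  set B2 : ℝ := K * (K + 1) ^ p with hB2
  have hm0 : 0 < (1 / 2) ^ j / (B1 + B2) := by positivity
  filter_upwards [hw, hm, hcard, uid_far I H hε₁ (show 0 < ρ₁ by exact hρ₁) (2 * p + 1),
    delta_small I one_pos, delta_small I hm0] with n hwn hmn hcn hfar hδ1 hδs S hS hoff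
  have hδ := I.hM.1 n
  -- abbreviations
  set N : P2 → (I.Fr n → ℝ) → ℕ := fun w x => MC I n S ρ ε Λ c0 φs w x with hN
  set M : ℕ := S.card + 1 with hM
  have hNM : ∀ w x, N w x ≤ M := fun w x => MC_le I n S w x
  have hNm : ∀ w, Measurable (N w) := fun w => measurable_MC I n S w
  set G : Finset ℕ := (Finset.Ico (j + 1) (M + 1)).filter fun k => I.δ n * k ≤ ρ₁ with hG
  set T : ℕ → ℝ := fun k => ∑ w ∈ S, (I.P0 n).real {x | N w x = k} with hT
  set Q : ℝ := (I.P0 n).real {x | ∃ w, ρ₁ / I.δ n ≤ N w x} with hQ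
  have hQ0 : 0 ≤ Q := measureReal_nonneg
  have hT0 : ∀ k, 0 ≤ T k := fun k => Finset.sum_nonneg fun _ _ => measureReal_nonneg
  -- one site
  have hsite : ∀ w, ∫ x, (if j < N w x then (N w x : ℝ) ^ p else 0) ∂(I.P0 n) ≤
      ∑ k ∈ G, (k : ℝ) ^ p * (I.P0 n).real {x | N w x = k} + (M : ℝ) ^ p * Q := by
    intro w
    have hmB : MeasurableSet {x : I.Fr n → ℝ | ρ₁ / I.δ n ≤ N w x} :=
      measurableSet_le measurable_const (measurable_from_top.comp (hNm w))
    have hpt : ∀ x, (if j < N w x then (N w x : ℝ) ^ p else 0) ≤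
        ∑ k ∈ G, ({x | N w x = k}.indicator (fun _ => (k : ℝ) ^ p) x) +
          {x : I.Fr n → ℝ | ρ₁ / I.δ n ≤ N w x}.indicator (fun _ => (M : ℝ) ^ p) x := by
      intro x
      refine (moment_pt (p := p) (hNM w x) G (ρ₁ / I.δ n ≤ N w x) fun hB hj => ?_).trans
        (le_of_eq ?_)
      · rw [hG, Finset.mem_filter, Finset.mem_Ico]
        refine ⟨⟨by omega, by have := hNM w x; omega⟩, ?_⟩
        push Not at hB
        rw [lt_div_iff₀ hδ] at hB
        linarith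
      · simp only [Set.indicator, Set.mem_ofPred_eq]
    have hi1 : ∀ k : ℕ, Integrable (fun x => {x | N w x = k}.indicator
        (fun _ => (k : ℝ) ^ p) x) (I.P0 n) := fun k =>
      (integrable_const _).indicator ((hNm w) (measurableSet_singleton k))
    have hi2 : Integrable (fun x => {x : I.Fr n → ℝ | ρ₁ / I.δ n ≤ N w x}.indicator
        (fun _ => (M : ℝ) ^ p) x) (I.P0 n) := (integrable_const _).indicator hmB
    calc ∫ x, (if j < N w x then (N w x : ℝ) ^ p else 0) ∂(I.P0 n)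
        ≤ ∫ x, (∑ k ∈ G, ({x | N w x = k}.indicator (fun _ => (k : ℝ) ^ p) x) +
          {x : I.Fr n → ℝ | ρ₁ / I.δ n ≤ N w x}.indicator (fun _ => (M : ℝ) ^ p) x) ∂(I.P0 n) := by
          refine integral_mono_of_nonneg (Eventually.of_forall fun x => ?_)
            ((integrable_finsetSum _ fun k _ => hi1 k).add hi2) (Eventually.of_forall hpt)
          simp only [Pi.zero_apply]
          split_ifs <;> positivity
      _ = ∑ k ∈ G, (k : ℝ) ^ p * (I.P0 n).real {x | N w x = k} +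
          (M : ℝ) ^ p * (I.P0 n).real {x | ρ₁ / I.δ n ≤ N w x} := by
          rw [integral_add (integrable_finsetSum _ fun k _ => hi1 k) hi2,
            integral_finsetSum _ fun k _ => hi1 k]
          congr 1
          · refine Finset.sum_congr rfl fun k _ => ?_
            have hms : MeasurableSet {x | N w x = k} := (hNm w) (measurableSet_singleton k)
            rw [integral_indicator_const _ hms, smul_eq_mul, mul_comm]
          · rw [integral_indicator_const _ hmB, smul_eq_mul, mul_comm]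
      _ ≤ _ := by
          gcongr
          exact measureReal_mono (fun x hx => ⟨w, hx⟩) (measure_ne_top _ _)
  -- sum over the sites
  have hsum : ∑ w ∈ S, ∫ x, (if j < N w x then (N w x : ℝ) ^ p else 0) ∂(I.P0 n) ≤
      ∑ k ∈ G, (k : ℝ) ^ p * T k + S.card * ((M : ℝ) ^ p * Q) := by
    calc _ ≤ ∑ w ∈ S, (∑ k ∈ G, (k : ℝ) ^ p * (I.P0 n).real {x | N w x = k} +
          (M : ℝ) ^ p * Q) := Finset.sum_le_sum fun w _ => hsite w
      _ = _ := by
          rw [Finset.sum_add_distrib, Finset.sum_comm, Finset.sum_const, nsmul_eq_mul]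
          congr 1
          refine Finset.sum_congr rfl fun k _ => ?_
          rw [hT, Finset.mul_sum]
  -- the two ranges
  have hcS := hcn S hS
  have hS2 : (S.card : ℝ) ≤ K / I.δ n ^ 2 := by
    rw [le_div_iff₀ (by positivity)]; linarith
  have hrange : ∀ k ∈ G, I.δ n ^ 2 * ((k : ℝ) ^ p * T k) ≤
      C1 * Cp * (1 / 2) ^ k * (1 / 2) ^ k + B1 * I.δ n * (1 / 2) ^ k := by
    intro k hk
    rw [hG, Finset.mem_filter, Finset.mem_Ico] at hk
    have hkp := hpe k
    by_cases hk2 : k ≤ k2 I n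
    · have h1 := hwn S hS hoff k hk2
      have h2 : I.δ n ^ 2 * ((k : ℝ) ^ p * T k) ≤ (Cp * 2 ^ k) * (C1 * (1 / 12) ^ k) := by
        calc I.δ n ^ 2 * ((k : ℝ) ^ p * T k) = (k : ℝ) ^ p * (I.δ n ^ 2 * T k) := by ring
          _ ≤ _ := by
              have : 0 ≤ I.δ n ^ 2 * T k := mul_nonneg (by positivity) (hT0 k)
              exact mul_le_mul hkp h1 this (by positivity)
      have h3 : (Cp * 2 ^ k) * (C1 * (1 / 12) ^ k) ≤ C1 * Cp * (1 / 2) ^ k * (1 / 2) ^ k := by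
        have h4 : (2 : ℝ) ^ k * (1 / 12) ^ k ≤ (1 / 2) ^ k * (1 / 2) ^ k := by
          rw [← mul_pow, ← mul_pow]
          exact pow_le_pow_left₀ (by norm_num) (by norm_num) k
        calc (Cp * 2 ^ k) * (C1 * (1 / 12) ^ k) = C1 * Cp * ((2 : ℝ) ^ k * (1 / 12) ^ k) := by ring
          _ ≤ C1 * Cp * ((1 / 2) ^ k * (1 / 2) ^ k) := by gcongr
          _ = _ := by ring
      have h5 : 0 ≤ B1 * I.δ n * (1 / 2) ^ k := by positivity
      linarith
    · push Not at hk2
      have h1 : T k ≤ S.card * (C2 / I.δ n * rt ^ k) := by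
        calc T k ≤ ∑ _w ∈ S, (C2 / I.δ n * rt ^ k) :=
              Finset.sum_le_sum fun w hw' => hmn S hS w (hoff w hw') k hk.2
          _ = _ := by rw [Finset.sum_const, nsmul_eq_mul]
      have hrt0 := rt_nonneg
      -- `rt ^ k ≤ 4 ^ (-k) δ ^ 2`
      have hrh : (0 : ℝ) < rh I n := by exact_mod_cast rh_pos I n
      have h2 : rt ^ k ≤ (1 / 4) ^ k * I.δ n ^ 2 := by
        have h24 : (0 : ℝ) < 24 ^ 4 := by norm_num
        have h3 : rt ≤ (1 / 4) * (1 / 24 ^ 4) ^ 4 := by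
          refine rt_le.trans ?_
          have e : (1 : ℝ) / 4 * (1 / 24 ^ 4) ^ 4 = 1 / (4 * (24 ^ 4) ^ 4) := by
            rw [one_div_pow]; field_simp
          rw [e]
          apply one_div_le_one_div_of_le (by positivity)
          have e' : ((24 : ℝ) ^ 4) ^ 40 = (24 ^ 4) ^ 36 * (24 ^ 4) ^ 4 := by rw [← pow_add]
          rw [e']
          gcongr
          calc (4 : ℝ) ≤ 24 ^ 4 := by norm_num
            _ ≤ (24 ^ 4) ^ 36 := le_self_pow₀ (by norm_num) (by norm_num)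
        have h4 : (rh I n : ℝ) ≤ (24 ^ 4) ^ k := by
          have h5 := (lt_pow_k2 I n).le
          have h6 : (24 ^ 4) ^ (k2 I n + 1) ≤ (24 ^ 4) ^ k :=
            Nat.pow_le_pow_right (by norm_num) (by omega)
          exact_mod_cast h5.trans h6
        calc rt ^ k ≤ ((1 / 4) * (1 / 24 ^ 4) ^ 4) ^ k := by gcongr
          _ = (1 / 4) ^ k * (1 / ((24 ^ 4) ^ k)) ^ 4 := by
              rw [mul_pow, pow_right_comm (1 / (24 : ℝ) ^ 4) 4 k, one_div_pow ((24 : ℝ) ^ 4) k]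
          _ ≤ (1 / 4) ^ k * (1 / (rh I n : ℝ)) ^ 4 := by gcongr
          _ ≤ (1 / 4) ^ k * I.δ n ^ 2 := by
              gcongr
              have h6 := one_div_delta_le I n
              have h7 : 1 / (rh I n : ℝ) ^ 2 ≤ I.δ n := by
                rw [div_le_iff₀ (by positivity)]
                rw [div_le_iff₀ hδ] at h6
                linarith
              calc (1 / (rh I n : ℝ)) ^ 4 = (1 / (rh I n : ℝ) ^ 2) ^ 2 := by
                    rw [one_div_pow, one_div_pow, ← pow_mul]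
                _ ≤ I.δ n ^ 2 := by gcongr
      have h3 : I.δ n ^ 2 * ((k : ℝ) ^ p * T k) ≤ B1 * I.δ n * (1 / 2) ^ k := by
        calc I.δ n ^ 2 * ((k : ℝ) ^ p * T k)
            ≤ I.δ n ^ 2 * ((Cp * 2 ^ k) * (K / I.δ n ^ 2 *
                (C2 / I.δ n * ((1 / 4) ^ k * I.δ n ^ 2)))) := by
              have := hT0 k
              gcongr
              refine h1.trans ?_
              gcongr
          _ = K * C2 * Cp * I.δ n * (2 ^ k * (1 / 4) ^ k) := by
              field_simp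
          _ = B1 * I.δ n * (1 / 2) ^ k := by
              rw [← mul_pow]; norm_num [hB1]
      have h5 : 0 ≤ C1 * Cp * (1 / 2) ^ k * (1 / 2) ^ k := by positivity
      linarith
  -- sum over `k`
  have hGj : ∀ k ∈ G, j < k := by
    intro k hk
    rw [hG, Finset.mem_filter, Finset.mem_Ico] at hk
    omega
  have hgeo := geom_le (q := 1 / 2) (by norm_num) le_rfl G hGj
  have hgeo4 : ∑ k ∈ G, ((1 / 2 : ℝ) ^ k * (1 / 2) ^ k) ≤ (1 / 2) ^ j := by
    refine le_trans (Finset.sum_le_sum fun k _ => ?_) hgeo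
    exact mul_le_of_le_one_right (by positivity) (pow_le_one₀ (by norm_num) (by norm_num))
  have hgeo1 : ∑ k ∈ G, (1 / 2 : ℝ) ^ k ≤ 1 := hgeo.trans (pow_le_one₀ (by norm_num) (by norm_num))
  have hI : I.δ n ^ 2 * ∑ k ∈ G, (k : ℝ) ^ p * T k ≤ C1 * Cp * (1 / 2) ^ j + B1 * I.δ n := by
    rw [Finset.mul_sum]
    refine (Finset.sum_le_sum hrange).trans ?_
    rw [Finset.sum_add_distrib]
    have e1 : ∑ k ∈ G, C1 * Cp * (1 / 2) ^ k * (1 / 2) ^ k =
        C1 * Cp * ∑ k ∈ G, ((1 / 2 : ℝ) ^ k * (1 / 2) ^ k) := by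
      rw [Finset.mul_sum]; exact Finset.sum_congr rfl fun _ _ => by ring
    have e2 : ∑ k ∈ G, B1 * I.δ n * (1 / 2) ^ k = B1 * I.δ n * ∑ k ∈ G, (1 / 2 : ℝ) ^ k := by
      rw [Finset.mul_sum]
    rw [e1, e2]
    have hB10 : 0 ≤ B1 * I.δ n := by positivity
    refine add_le_add (by gcongr) ?_
    exact mul_le_of_le_one_right hB10 hgeo1
  have hII : I.δ n ^ 2 * (S.card * ((M : ℝ) ^ p * Q)) ≤ B2 * I.δ n := by
    have hQ1 : Q ≤ I.δ n ^ (2 * p + 1) := hfar S hS hoff
    have hMK : (M : ℝ) ≤ (K + 1) / I.δ n ^ 2 := by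
      rw [hM]
      push_cast
      rw [le_div_iff₀ (by positivity)]
      have : I.δ n ^ 2 ≤ 1 := pow_le_one₀ hδ.le hδ1.le
      nlinarith
    calc I.δ n ^ 2 * (S.card * ((M : ℝ) ^ p * Q))
        ≤ I.δ n ^ 2 * (K / I.δ n ^ 2 * (((K + 1) / I.δ n ^ 2) ^ p * I.δ n ^ (2 * p + 1))) := by
          gcongr
      _ = B2 * I.δ n := by
          rw [div_pow, ← pow_mul, hB2]
          field_simp
          ring
  have hfin : (B1 + B2) * I.δ n ≤ (1 / 2) ^ j := by
    rw [lt_div_iff₀ (by positivity)] at hδs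
    linarith
  calc I.δ n ^ 2 * ∑ w ∈ S, ∫ x, (if j < N w x then (N w x : ℝ) ^ p else 0) ∂(I.P0 n)
      ≤ I.δ n ^ 2 * (∑ k ∈ G, (k : ℝ) ^ p * T k + S.card * ((M : ℝ) ^ p * Q)) := by gcongr
    _ = I.δ n ^ 2 * ∑ k ∈ G, (k : ℝ) ^ p * T k + I.δ n ^ 2 * (S.card * ((M : ℝ) ^ p * Q)) := by
        ring
    _ ≤ (C1 * Cp * (1 / 2) ^ j + B1 * I.δ n) + B2 * I.δ n := add_le_add hI hII
    _ ≤ (C1 * Cp + 1) * (1 / 2) ^ j := by linarith

end Crest.Agent.R144.Uid674
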