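import Crest.Agent.R144.Con4_549
import Crest.Agent.R144.Geo6_268
import Crest.Agent.R144.Geo5_268
import Crest.Agent.R144.Cov_353
import Crest.Agent.R144.ConS_938

-- ▼ part R144/Lat1_549
section

/-!
# R144, lattice flow, part 1 (helper549)

Three lattice directions `d₀ = (1,0)`, `d₁ = (0,1)`, `d₂ = (1,-1)`; the rhombus `R k` of the edge
`(0, d_k)` in lattice coordinates; integration by parts against the tent function:
`∫ (∂_{d_k} g) · tent = ∫_{R k} g - ∫_{R k} g(· - d_k)`.
-/

set_option autoImplicit false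

open MeasureTheory Metric Set Filter Topology
open scoped ContDiff

namespace Crest.Agent.R144.Lat549

open Crest.ProbabilityR.HexHeights Crest.Agent.R144.HexTil353 Crest.Agent.R144.Geo268
  Crest.Agent.R144.Con549

noncomputable section

/-- the three lattice directions -/
def d (k : Fin 3) : ℤ × ℤ := ![(1, 0), (0, 1), (1, -1)] k

/-- the same as real vectors -/
def dr (k : Fin 3) : ℝ × ℝ := ![(1, 0), (0, 1), (1, -1)] k

/-- the unit vectors of the plane in the three directions -/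
def ed (k : Fin 3) : ℂ := cen 1 (dr k).1 (dr k).2

def al (k : Fin 3) (p : ℝ × ℝ) : ℝ := ![p.1, p.2, p.1] k

def be (k : Fin 3) (p : ℝ × ℝ) : ℝ := ![-(p.1 + p.2), -(p.1 + p.2), p.2] k

/-- the rhombus of the edge `(0, d k)` (half open) -/
def R (k : Fin 3) : Set (ℝ × ℝ) := {p | al k p ∈ Ico (0 : ℝ) 1 ∧ be k p ∈ Ico (-1 : ℝ) 0}

theorem dr_eq (k : Fin 3) : dr k = (((d k).1 : ℝ), ((d k).2 : ℝ)) := by
  fin_cases k <;> simp [dr, d]

theorem al_add (k : Fin 3) (p q : ℝ × ℝ) : al k (p + q) = al k p + al k q := by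
  fin_cases k <;> simp [al]

theorem be_add (k : Fin 3) (p q : ℝ × ℝ) : be k (p + q) = be k p + be k q := by
  fin_cases k <;> simp [be] <;> ring

theorem al_dr (k : Fin 3) (s : ℝ) : al k (s • dr k) = s := by
  fin_cases k <;> simp [al, dr]

theorem be_dr (k : Fin 3) (s : ℝ) : be k (s • dr k) = -s := by
  fin_cases k <;> simp [be, dr]

theorem tent_al_be (k : Fin 3) (p : ℝ × ℝ) : tent (al k p) (be k p) = tent p.1 p.2 := by
  have h1 : ∀ x y : ℝ, tent x (-(x + y)) = tent x y := by
    intro x y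
    unfold tent
    have : x + -(x + y) = -y := by ring
    rw [this, abs_neg, abs_neg, max_comm |x + y| |y|]
  have h2 : ∀ x y : ℝ, tent y (-(x + y)) = tent x y := by
    intro x y
    unfold tent
    have : y + -(x + y) = -x := by ring
    rw [this, abs_neg, abs_neg, max_comm |x + y| |x|, max_left_comm]
  fin_cases k
  · simpa [al, be] using h1 p.1 p.2
  · simpa [al, be] using h2 p.1 p.2
  · simp [al, be]

theorem continuous_al (k : Fin 3) : Continuous (al k) := by
  unfold al
  fin_cases k <;> simp <;> fun_prop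

theorem continuous_be (k : Fin 3) : Continuous (be k) := by
  unfold be
  fin_cases k <;> simp <;> fun_prop

theorem measurableSet_R (k : Fin 3) : MeasurableSet (R k) :=
  ((continuous_al k).measurable measurableSet_Ico).inter
    ((continuous_be k).measurable measurableSet_Ico)

theorem R_bound {k : Fin 3} {p : ℝ × ℝ} (hp : p ∈ R k) : |p.1| ≤ 1 ∧ |p.2| ≤ 1 := by
  obtain ⟨⟨h1, h2⟩, h3, h4⟩ := hp
  fin_cases k <;> simp [al, be] at h1 h2 h3 h4 <;> constructor <;> rw [abs_le] <;>
    constructor <;> linarith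

theorem volume_ray (k : Fin 3) (p : ℝ × ℝ) :
    (volume : Measure ℝ) (Icc (0 : ℝ) 1 ∩ {s | p + s • dr k ∈ R k}) =
      ENNReal.ofReal (tent p.1 p.2) := by
  rw [← tent_al_be k p, ← tent_volume]
  have h1 : {s : ℝ | p + s • dr k ∈ R k} =
      Ico (-al k p) (1 - al k p) ∩ Ioc (be k p) (1 + be k p) := by
    ext s
    simp only [R, mem_ofPred_eq, al_add, be_add, al_dr, be_dr, mem_Ico, mem_inter_iff, mem_Ioc]
    constructor
    · rintro ⟨⟨h1, h2⟩, h3, h4⟩
      exact ⟨⟨by linarith, by linarith⟩, by linarith, by linarith⟩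
    · rintro ⟨⟨h1, h2⟩, h3, h4⟩
      exact ⟨⟨by linarith, by linarith⟩, by linarith, by linarith⟩
  rw [h1, ← inter_assoc]
  exact measure_congr (((ae_eq_refl _).inter Ico_ae_eq_Icc).inter Ioc_ae_eq_Icc)

theorem measurable_ray (k : Fin 3) (p : ℝ × ℝ) : MeasurableSet {s : ℝ | p + s • dr k ∈ R k} :=
  (by fun_prop : Measurable fun s : ℝ => p + s • dr k) (measurableSet_R k)


theorem volume_R (k : Fin 3) : (volume : Measure (ℝ × ℝ)) (R k) = 1 := by
  have h1 := lintegral_tent
  have h2 : ∀ p : ℝ × ℝ, ENNReal.ofReal (tent p.1 p.2) =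
      ∫⁻ s in Icc (0 : ℝ) 1, (R k).indicator 1 (p + s • dr k) := by
    intro p
    rw [← volume_ray k p, inter_comm, ← Measure.restrict_apply (measurable_ray k p),
      ← lintegral_indicator_one (measurable_ray k p)]
    rfl
  simp_rw [h2] at h1
  rw [lintegral_lintegral_swap] at h1
  · have h3 : ∀ s : ℝ, ∫⁻ p : ℝ × ℝ, (R k).indicator 1 (p + s • dr k) = volume (R k) := by
      intro s
      rw [lintegral_add_right_eq_self (fun p => (R k).indicator (1 : ℝ × ℝ → ENNReal) p),
        lintegral_indicator_one (measurableSet_R k)]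
    simp_rw [h3] at h1
    rw [lintegral_const, Measure.restrict_apply_univ, Real.volume_Icc] at h1
    simpa using h1
  · refine Measurable.aemeasurable ?_
    exact (measurable_one.indicator (measurableSet_R k)).comp
      (by fun_prop : Measurable fun q : (ℝ × ℝ) × ℝ => q.1 + q.2 • dr k)

theorem tent_eq_integral (k : Fin 3) (p : ℝ × ℝ) :
    tent p.1 p.2 = ∫ s in Icc (0 : ℝ) 1, (R k).indicator (fun _ => (1 : ℝ)) (p + s • dr k) := by
  have h1 : (fun s : ℝ => (R k).indicator (fun _ => (1 : ℝ)) (p + s • dr k)) =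
      {s : ℝ | p + s • dr k ∈ R k}.indicator fun _ => (1 : ℝ) := by
    funext s
    by_cases hs : p + s • dr k ∈ R k
    · rw [indicator_of_mem hs, indicator_of_mem (show s ∈ {s : ℝ | p + s • dr k ∈ R k} from hs)]
    · rw [indicator_of_notMem hs,
        indicator_of_notMem (show s ∉ {s : ℝ | p + s • dr k ∈ R k} from hs)]
  rw [h1, integral_indicator (measurable_ray k p), setIntegral_const, smul_eq_mul, mul_one,
    Measure.real, Measure.restrict_apply (measurable_ray k p), inter_comm, volume_ray,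
    ENNReal.toReal_ofReal (tent_nonneg _ _)]

/-- integration by parts against the tent -/
theorem ibp (k : Fin 3) {g : ℝ × ℝ → ℝ} (hg : ContDiff ℝ 1 g) :
    ∫ p, fderiv ℝ g p (dr k) * tent p.1 p.2 =
      (∫ p in R k, g p) - ∫ p in R k, g (p - dr k) := by
  set h : ℝ × ℝ → ℝ := fun p => fderiv ℝ g p (dr k) with hh
  have hc : Continuous h := (hg.continuous_fderiv (by simp)).clm_apply continuous_const
  have hdr : ‖dr k‖ ≤ 1 := by
    fin_cases k <;> simp [dr, Prod.norm_def]
  have hRc : R k ⊆ closedBall 0 1 := by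
    intro p hp
    rw [mem_closedBall_zero_iff, Prod.norm_def, Real.norm_eq_abs, Real.norm_eq_abs]
    exact max_le (R_bound hp).1 (R_bound hp).2
  -- first swap
  obtain ⟨C, hC0, hC⟩ : ∃ C : ℝ, 0 ≤ C ∧ ∀ p ∈ closedBall (0 : ℝ × ℝ) 2, ‖h p‖ ≤ C := by
    obtain ⟨C, hC⟩ := (isCompact_closedBall (0 : ℝ × ℝ) 2).exists_bound_of_continuousOn
      hc.continuousOn
    exact ⟨max C 0, le_max_right _ _, fun p hp => (hC p hp).trans (le_max_left _ _)⟩
  have hind : Measurable fun q : (ℝ × ℝ) × ℝ =>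
      (R k).indicator (fun _ => (1 : ℝ)) (q.1 + q.2 • dr k) :=
    (measurable_const.indicator (measurableSet_R k)).comp
      (by fun_prop : Measurable fun q : (ℝ × ℝ) × ℝ => q.1 + q.2 • dr k)
  have hint1 : Integrable (Function.uncurry fun (p : ℝ × ℝ) (s : ℝ) =>
      h p * (R k).indicator (fun _ => (1 : ℝ)) (p + s • dr k))
      ((volume : Measure (ℝ × ℝ)).prod (volume.restrict (Icc (0 : ℝ) 1))) := by
    have hb : Integrable ((closedBall (0 : ℝ × ℝ) 2).indicator fun _ => C) volume :=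
      (integrable_indicator_iff isClosed_closedBall.measurableSet).2
        (integrableOn_const (isCompact_closedBall (0 : ℝ × ℝ) 2).measure_lt_top.ne)
    have hb2 := hb.comp_fst (volume.restrict (Icc (0 : ℝ) 1))
    refine hb2.mono' ?_ ?_
    · exact ((hc.measurable.comp measurable_fst).mul hind).aestronglyMeasurable
    · have h1 : ∀ᵐ q ∂((volume : Measure (ℝ × ℝ)).prod (volume.restrict (Icc (0 : ℝ) 1))),
          q.2 ∈ Icc (0 : ℝ) 1 := by
        have : (volume : Measure (ℝ × ℝ)).prod (volume.restrict (Icc (0 : ℝ) 1)) =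
          ((volume : Measure (ℝ × ℝ)).prod volume).restrict (univ ×ˢ Icc (0 : ℝ) 1) := by
          rw [← Measure.prod_restrict, Measure.restrict_univ]
        rw [this]
        filter_upwards [ae_restrict_mem (MeasurableSet.univ.prod measurableSet_Icc)] with q hq
        exact hq.2
      filter_upwards [h1] with q hq
      simp only [Function.uncurry]
      by_cases hq1 : q.1 + q.2 • dr k ∈ R k
      · have h2 : q.1 ∈ closedBall (0 : ℝ × ℝ) 2 := by
          rw [mem_closedBall_zero_iff]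
          have h3 := hRc hq1
          rw [mem_closedBall_zero_iff] at h3
          have h4 : q.1 = (q.1 + q.2 • dr k) - q.2 • dr k := by simp
          rw [h4]
          refine (norm_sub_le _ _).trans ?_
          rw [norm_smul, Real.norm_eq_abs, abs_of_nonneg hq.1]
          nlinarith [hq.2, norm_nonneg (dr k), hq.1]
        rw [indicator_of_mem hq1, indicator_of_mem h2, mul_one]
        exact hC _ h2
      · rw [indicator_of_notMem hq1, mul_zero, norm_zero]
        exact indicator_nonneg (fun _ _ => hC0) _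
  have e1 : ∫ p, h p * tent p.1 p.2 = ∫ s in Icc (0 : ℝ) 1, ∫ p : ℝ × ℝ,
      h p * (R k).indicator (fun _ => (1 : ℝ)) (p + s • dr k) := by
    rw [← integral_integral_swap hint1]
    congr 1
    funext p
    rw [tent_eq_integral k p, integral_const_mul]
  have e2 : ∀ s : ℝ, ∫ p : ℝ × ℝ, h p * (R k).indicator (fun _ => (1 : ℝ)) (p + s • dr k) =
      ∫ p in R k, h (p - s • dr k) := by
    intro s
    have h1 := integral_add_right_eq_self (μ := (volume : Measure (ℝ × ℝ)))
      (fun p => h (p - s • dr k) * (R k).indicator (fun _ => (1 : ℝ)) p) (s • dr k)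
    simp only [add_sub_cancel_right] at h1
    rw [h1, ← integral_indicator (measurableSet_R k)]
    congr 1
    funext p
    by_cases hp : p ∈ R k
    · rw [indicator_of_mem hp, indicator_of_mem hp, mul_one]
    · rw [indicator_of_notMem hp, indicator_of_notMem hp, mul_zero]
  have hint2 : Integrable (Function.uncurry fun (s : ℝ) (p : ℝ × ℝ) => h (p - s • dr k))
      ((volume.restrict (Icc (0 : ℝ) 1)).prod (volume.restrict (R k))) := by
    rw [Measure.prod_restrict]
    have h1 : Continuous (Function.uncurry fun (s : ℝ) (p : ℝ × ℝ) => h (p - s • dr k)) := by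
      change Continuous fun q : ℝ × (ℝ × ℝ) => h (q.2 - q.1 • dr k)
      fun_prop
    have h2 : IntegrableOn (Function.uncurry fun (s : ℝ) (p : ℝ × ℝ) => h (p - s • dr k))
        (Icc (0 : ℝ) 1 ×ˢ closedBall (0 : ℝ × ℝ) 1) (volume.prod volume) :=
      h1.continuousOn.integrableOn_compact (isCompact_Icc.prod (isCompact_closedBall _ _))
    exact h2.mono_set (prod_mono_right hRc)
  have e3 : ∫ s in Icc (0 : ℝ) 1, ∫ p in R k, h (p - s • dr k) =
      ∫ p in R k, (g p - g (p - dr k)) := by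
    rw [integral_integral_swap hint2]
    congr 1
    funext p
    have h1 : ∀ s ∈ uIcc (0 : ℝ) 1, HasDerivAt (fun s : ℝ => -g (p - s • dr k))
        (h (p - s • dr k)) s := by
      intro s _
      have h2 : HasDerivAt (fun s : ℝ => p - s • dr k) (-dr k) s := by
        have := ((hasDerivAt_id s).smul_const (dr k)).const_sub p
        simpa using this
      have h3 := ((hg.differentiable (by simp) (p - s • dr k)).hasFDerivAt).comp_hasDerivAt s h2
      have h4 := h3.neg
      rw [map_neg, neg_neg] at h4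
      exact h4
    have h2 : IntervalIntegrable (fun s : ℝ => h (p - s • dr k)) volume 0 1 :=
      (by fun_prop : Continuous fun s : ℝ => h (p - s • dr k)).intervalIntegrable _ _
    have h3 := intervalIntegral.integral_eq_sub_of_hasDerivAt h1 h2
    rw [intervalIntegral.integral_of_le zero_le_one, ← integral_Icc_eq_integral_Ioc] at h3
    rw [h3]
    simp
    ring
  have i1 : IntegrableOn g (R k) :=
    (hg.continuous.continuousOn.integrableOn_compact (isCompact_closedBall (0 : ℝ × ℝ) 1)).mono_set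
      hRc
  have i2 : IntegrableOn (fun p => g (p - dr k)) (R k) :=
    ((hg.continuous.comp (continuous_id.sub continuous_const)).continuousOn.integrableOn_compact
      (isCompact_closedBall (0 : ℝ × ℝ) 1)).mono_set hRc
  calc ∫ p, h p * tent p.1 p.2 = _ := e1
    _ = ∫ s in Icc (0 : ℝ) 1, ∫ p in R k, h (p - s • dr k) := by
        congr 1
        funext s
        exact e2 s
    _ = _ := e3
    _ = _ := integral_sub i1 i2

end

end Crest.Agent.R144.Lat549
end

-- ▼ part R144/Lat2_549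
section

/-!
# R144, lattice flow, part 2 (helper549)

`latF δ J k v` = flow of the vector field `J` through the lattice edge `v → v + d k`
(`(2 / (3 δ)) ∫ ⟪J, e_k⟫` over the rhombus of the edge).  Exact discrete divergence = weights of the
affine pairing, first order accuracy, sharp energy inequality.
-/

set_option autoImplicit false

open MeasureTheory Metric Set Filter Topology
open scoped ContDiff

namespace Crest.Agent.R144.Lat549

open Crest.ProbabilityR.HexHeights Crest.Agent.R144.HexTil353 Crest.Agent.R144.Geo268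
  Crest.Agent.R144.Con549

noncomputable section

/-- real inner product of the plane -/
def ip (a b : ℂ) : ℝ := a.re * b.re + a.im * b.im


theorem ip_sub (a b c : ℂ) : ip (a - b) c = ip a c - ip b c := by simp [ip]; ring



theorem abs_ip_le (a b : ℂ) : |ip a b| ≤ ‖a‖ * ‖b‖ := by
  have h1 : ip a b = (starRingEnd ℂ a * b).re := by simp [ip]
  rw [h1]
  refine (Complex.abs_re_le_norm _).trans ?_
  rw [norm_mul, RCLike.norm_conj]

theorem ed_re (k : Fin 3) : (ed k).re = ![1, 1 / 2, 1 / 2] k := by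
  unfold ed
  rw [cen_re]
  fin_cases k <;> simp [dr]
  norm_num

theorem ed_im (k : Fin 3) : (ed k).im = ![0, Real.sqrt 3 / 2, -(Real.sqrt 3 / 2)] k := by
  unfold ed
  rw [cen_im]
  fin_cases k <;> simp [dr]

theorem norm_ed (k : Fin 3) : ‖ed k‖ = 1 := by
  have h1 : ‖ed k‖ ^ 2 = 1 := by
    unfold ed
    rw [norm_cen_sq]
    fin_cases k <;> simp [dr, N]
  have h2 := norm_nonneg (ed k)
  nlinarith

theorem cen_dr (δ : ℝ) (k : Fin 3) : cen δ (dr k).1 (dr k).2 = (δ : ℂ) * ed k := by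
  unfold ed cen
  push_cast
  ring

theorem centre_d (δ : ℝ) (k : Fin 3) : centre δ (d k) = (δ : ℂ) * ed k := by
  rw [centre_eq, ← cen_dr, dr_eq]

theorem centre_add (δ : ℝ) (u v : ℤ × ℤ) : centre δ (u + v) = centre δ u + centre δ v := by
  simp only [centre_eq, cen_add, Prod.fst_add, Prod.snd_add]
  push_cast
  rfl

/-- `∑ ⟪a, e_k⟫² = (3/2) |a|²` -/
theorem sum_ip_sq (a : ℂ) : ∑ k, ip a (ed k) ^ 2 = 3 / 2 * ‖a‖ ^ 2 := by
  rw [← Complex.normSq_eq_norm_sq, Complex.normSq_apply, Fin.sum_univ_three]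
  simp only [ip, ed_re, ed_im]
  have h3 : Real.sqrt 3 * Real.sqrt 3 = 3 := Real.mul_self_sqrt (by norm_num)
  simp
  linear_combination (a.im ^ 2 / 2) * h3

/-- `∑ ⟪L e_k, e_k⟫ = (3/2) tr L` -/
theorem sum_ip_lin (L : ℂ →L[ℝ] ℂ) :
    ∑ k, ip (L (ed k)) (ed k) = 3 / 2 * ((L 1).re + (L Complex.I).im) := by
  have h1 : ∀ v : ℂ, L v = v.re • L 1 + v.im • L Complex.I := by
    intro v
    have h1 : v = v.re • (1 : ℂ) + v.im • Complex.I := by
      apply Complex.ext <;> simp
    conv_lhs => rw [h1]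
    rw [map_add, map_smul, map_smul]
  rw [Fin.sum_univ_three]
  simp only [h1 (ed _), ip, Complex.add_re, Complex.add_im, Complex.smul_re, Complex.smul_im,
    ed_re, ed_im]
  have h3 : Real.sqrt 3 * Real.sqrt 3 = 3 := Real.mul_self_sqrt (by norm_num)
  simp
  linear_combination ((L Complex.I).im / 2) * h3

/-- point of the rhombus with lattice coordinates `p` relative to `v` -/
def pt (δ : ℝ) (v : ℤ × ℤ) (p : ℝ × ℝ) : ℂ := cen δ (v.1 + p.1) (v.2 + p.2)

theorem pt_eq (δ : ℝ) (v : ℤ × ℤ) (p : ℝ × ℝ) : pt δ v p = centre δ v + cen δ p.1 p.2 := by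
  rw [pt, centre_eq, cen_add]

theorem norm_pt_sub {δ : ℝ} (hδ : 0 ≤ δ) (v : ℤ × ℤ) {p : ℝ × ℝ} (h1 : |p.1| ≤ 1)
    (h2 : |p.2| ≤ 1) : ‖pt δ v p - centre δ v‖ ≤ 2 * δ := by
  rw [pt_eq, add_sub_cancel_left]
  exact norm_cen_le hδ h1 h2

theorem pt_sub_dr (δ : ℝ) (v : ℤ × ℤ) (k : Fin 3) (p : ℝ × ℝ) :
    pt δ v (p - dr k) = pt δ (v - d k) p := by
  unfold pt
  rw [dr_eq]
  simp only [Prod.fst_sub, Prod.snd_sub]
  push_cast
  ring_nf

theorem continuous_pt (δ : ℝ) (v : ℤ × ℤ) : Continuous (pt δ v) := by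
  unfold pt cen
  fun_prop

theorem contDiff_pt (δ : ℝ) (v : ℤ × ℤ) : ContDiff ℝ ∞ (pt δ v) := by
  unfold pt cen
  have h1 : ContDiff ℝ ∞ fun p : ℝ × ℝ => (((v.1 : ℝ) + p.1 : ℝ) : ℂ) :=
    Complex.ofRealCLM.contDiff.comp (contDiff_const.add contDiff_fst)
  have h2 : ContDiff ℝ ∞ fun p : ℝ × ℝ => (((v.2 : ℝ) + p.2 : ℝ) : ℂ) :=
    Complex.ofRealCLM.contDiff.comp (contDiff_const.add contDiff_snd)
  exact contDiff_const.mul (h1.add (h2.mul contDiff_const))

/-- the flow of `J` along the edge `v → v + d k` -/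
def latF (δ : ℝ) (J : ℂ → ℂ) (k : Fin 3) (v : ℤ × ℤ) : ℝ :=
  δ / Real.sqrt 3 * ∫ p in R k, ip (J (pt δ v p)) (ed k)

theorem R_sub_ball (k : Fin 3) : R k ⊆ closedBall 0 1 := by
  intro p hp
  rw [mem_closedBall_zero_iff, Prod.norm_def, Real.norm_eq_abs, Real.norm_eq_abs]
  exact max_le (R_bound hp).1 (R_bound hp).2

theorem volR (k : Fin 3) : (volume : Measure (ℝ × ℝ)).real (R k) = 1 := by
  rw [Measure.real, volume_R, ENNReal.toReal_one]

theorem integrableOn_R {k : Fin 3} {g : ℝ × ℝ → ℝ} (hg : Continuous g) : IntegrableOn g (R k) :=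
  (hg.continuousOn.integrableOn_compact (isCompact_closedBall (0 : ℝ × ℝ) 1)).mono_set
    (R_sub_ball k)

theorem hcs_tent : HasCompactSupport fun p : ℝ × ℝ => tent p.1 p.2 := by
  refine HasCompactSupport.of_support_subset_isCompact (isCompact_closedBall (0 : ℝ × ℝ) 1) ?_
  intro p hp
  have h1 := ker_tent.supp p hp
  rw [mem_closedBall_zero_iff, Prod.norm_def, Real.norm_eq_abs, Real.norm_eq_abs]
  exact max_le h1.1 h1.2

theorem continuous_ip {α : Type*} [TopologicalSpace α] {g : α → ℂ} (hg : Continuous g) (c : ℂ) :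
    Continuous fun x => ip (g x) c := by
  unfold ip
  exact ((Complex.continuous_re.comp hg).mul continuous_const).add
    ((Complex.continuous_im.comp hg).mul continuous_const)

/-- exact discrete divergence -/
theorem latF_div {δ : ℝ} {J : ℂ → ℂ} (hJ : ContDiff ℝ ∞ J) {f : ℂ → ℝ} {v : ℤ × ℤ} (hδ : 0 < δ)
    (hdv : ∀ z ∈ closedBall (centre δ v) (2 * δ), dv J z = f z) :
    ∑ k, (latF δ J k v - latF δ J k (v - d k)) = wK (fun p => tent p.1 p.2) δ f v := by
  set g : Fin 3 → ℝ × ℝ → ℝ := fun k p => ip (J (pt δ v p)) (ed k) with hg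
  have hJp : ContDiff ℝ ∞ fun p => J (pt δ v p) := hJ.comp (contDiff_pt δ v)
  have hgs : ∀ k, ContDiff ℝ 1 (g k) := by
    intro k
    have h1 : ContDiff ℝ ∞ (g k) := by
      simp only [hg, ip]
      exact ((Complex.reCLM.contDiff.comp hJp).mul contDiff_const).add
        ((Complex.imCLM.contDiff.comp hJp).mul contDiff_const)
    exact h1.of_le (by norm_cast)
  have hder : ∀ k p, fderiv ℝ (g k) p (dr k) =
      δ * ip (fderiv ℝ J (pt δ v p) (ed k)) (ed k) := by
    intro k p
    have h1 : HasFDerivAt (pt δ v) (fderiv ℝ (pt δ v) p) p :=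
      ((contDiff_pt δ v).differentiable (by simp) p).hasFDerivAt
    have h2 : fderiv ℝ (pt δ v) p (dr k) = (δ : ℂ) * ed k := by
      have h3 : HasDerivAt (fun s : ℝ => pt δ v (p + s • dr k)) (fderiv ℝ (pt δ v) p (dr k)) 0 := by
        have h4 : HasDerivAt (fun s : ℝ => p + s • dr k) (dr k) 0 := by
          have := ((hasDerivAt_id (0 : ℝ)).smul_const (dr k)).const_add p
          simpa using this
        have h5 : HasFDerivAt (pt δ v) (fderiv ℝ (pt δ v) p) (p + (0 : ℝ) • dr k) := by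
          simpa using h1
        exact h5.comp_hasDerivAt (0 : ℝ) h4
      have h6 : (fun s : ℝ => pt δ v (p + s • dr k)) =
          fun s : ℝ => pt δ v p + (s : ℂ) * ((δ : ℂ) * ed k) := by
        funext s
        rw [← cen_dr]
        unfold pt cen
        simp only [Prod.fst_add, Prod.snd_add, Prod.smul_fst, Prod.smul_snd, smul_eq_mul]
        push_cast
        ring
      have h7 : HasDerivAt (fun s : ℝ => pt δ v p + (s : ℂ) * ((δ : ℂ) * ed k))
          ((δ : ℂ) * ed k) 0 := by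
        have h8 : HasDerivAt (fun s : ℝ => (s : ℂ)) 1 0 := by
          exact_mod_cast Complex.ofRealCLM.hasDerivAt (x := (0 : ℝ))
        have := (h8.mul_const ((δ : ℂ) * ed k)).const_add (pt δ v p)
        simpa using this
      rw [h6] at h3
      exact h3.unique h7
    have h3 : HasFDerivAt (fun p => J (pt δ v p))
        ((fderiv ℝ J (pt δ v p)).comp (fderiv ℝ (pt δ v) p)) p :=
      ((hJ.differentiable (by simp) _).hasFDerivAt).comp p h1
    have h4 : HasFDerivAt (g k) ((ed k).re • (Complex.reCLM.comp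
        ((fderiv ℝ J (pt δ v p)).comp (fderiv ℝ (pt δ v) p))) + (ed k).im • (Complex.imCLM.comp
        ((fderiv ℝ J (pt δ v p)).comp (fderiv ℝ (pt δ v) p)))) p := by
      exact ((Complex.reCLM.hasFDerivAt.comp p h3).mul_const _).add
        ((Complex.imCLM.hasFDerivAt.comp p h3).mul_const _)
    rw [h4.fderiv]
    simp only [add_apply, smul_apply,
      ContinuousLinearMap.comp_apply, h2, Complex.reCLM_apply, Complex.imCLM_apply, smul_eq_mul]
    have h5 : (δ : ℂ) * ed k = δ • ed k := by rw [Complex.real_smul]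
    rw [h5, map_smul]
    simp only [ip, Complex.smul_re, Complex.smul_im, smul_eq_mul]
    ring
  have hsum : ∀ k, (∫ p in R k, g k p) - ∫ p in R k, g k (p - dr k) =
      ∫ p, fderiv ℝ (g k) p (dr k) * tent p.1 p.2 := fun k => (ibp k (hgs k)).symm
  have hint : ∀ k ∈ (Finset.univ : Finset (Fin 3)),
      Integrable fun p => fderiv ℝ (g k) p (dr k) * tent p.1 p.2 := by
    intro k _
    refine Continuous.integrable_of_hasCompactSupport ?_ hcs_tent.mul_left
    exact (((hgs k).continuous_fderiv (by simp)).clm_apply continuous_const).mul continuous_tent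
  have e1 : ∑ k, (latF δ J k v - latF δ J k (v - d k)) =
      δ / Real.sqrt 3 * ∑ k, ∫ p, fderiv ℝ (g k) p (dr k) * tent p.1 p.2 := by
    rw [Finset.mul_sum]
    refine Finset.sum_congr rfl fun k _ => ?_
    rw [← hsum k]
    unfold latF
    rw [mul_sub]
    congr 2
    refine setIntegral_congr_fun (measurableSet_R k) fun p _ => ?_
    simp only [hg]
    rw [pt_sub_dr]
  rw [e1, ← integral_finsetSum _ hint]
  have e2 : ∫ p : ℝ × ℝ, ∑ k, fderiv ℝ (g k) p (dr k) * tent p.1 p.2 =
      ∫ p : ℝ × ℝ, (3 / 2 * δ) * (f (pt δ v p) * tent p.1 p.2) := by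
    congr 1
    funext p
    by_cases hp : tent p.1 p.2 = 0
    · simp [hp]
    · have h1 := ker_tent.supp p hp
      have h2 : pt δ v p ∈ closedBall (centre δ v) (2 * δ) := by
        rw [mem_closedBall, dist_eq_norm]
        exact norm_pt_sub hδ.le v h1.1 h1.2
      rw [← Finset.sum_mul, Finset.sum_congr rfl fun k _ => hder k p, ← Finset.mul_sum, sum_ip_lin,
        ← hdv _ h2]
      unfold dv
      ring
  rw [e2, integral_const_mul]
  unfold wK
  have h3 : Real.sqrt 3 * Real.sqrt 3 = 3 := Real.mul_self_sqrt (by norm_num)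
  have h4 : δ / Real.sqrt 3 * (3 / 2 * δ) = Real.sqrt 3 / 2 * δ ^ 2 := by
    have h5 : Real.sqrt 3 ≠ 0 := by positivity
    field_simp
    linear_combination -h3
  rw [← h4]
  unfold pt
  ring

/-- pointwise bound -/
theorem latF_le {δ : ℝ} (hδ : 0 ≤ δ) {J : ℂ → ℂ} {v : ℤ × ℤ} {B : ℝ}
    (hB : ∀ z ∈ closedBall (centre δ v) (2 * δ), ‖J z‖ ≤ B) (k : Fin 3) :
    |latF δ J k v| ≤ δ / Real.sqrt 3 * B := by
  unfold latF
  rw [abs_mul, abs_of_nonneg (by positivity)]
  gcongr
  have h1 : ‖∫ p in R k, ip (J (pt δ v p)) (ed k)‖ ≤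
      B * (volume : Measure (ℝ × ℝ)).real (R k) := by
    refine norm_setIntegral_le_of_norm_le_const (by rw [volume_R]; exact ENNReal.one_lt_top)
      fun p hp => ?_
    rw [Real.norm_eq_abs]
    refine (abs_ip_le _ _).trans ?_
    rw [norm_ed, mul_one]
    refine hB _ ?_
    rw [mem_closedBall, dist_eq_norm]
    exact norm_pt_sub hδ v (R_bound hp).1 (R_bound hp).2
  rwa [volR, mul_one, Real.norm_eq_abs] at h1

theorem latF_eq_zero {δ : ℝ} (hδ : 0 ≤ δ) {J : ℂ → ℂ} {v : ℤ × ℤ}
    (hB : ∀ z ∈ closedBall (centre δ v) (2 * δ), J z = 0) (k : Fin 3) :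
    latF δ J k v = 0 := by
  have h := latF_le hδ (J := J) (v := v) (B := 0) (fun z hz => by rw [hB z hz, norm_zero]) k
  rw [mul_zero] at h
  exact abs_nonpos_iff.1 h

/-- first order accuracy -/
theorem latF_approx {δ : ℝ} (hδ : 0 ≤ δ) {J : ℂ → ℂ} (hJ : Continuous J) {L : ℝ}
    (hL : ∀ z w, ‖J z - J w‖ ≤ L * ‖z - w‖) (k : Fin 3) (v : ℤ × ℤ) {m : ℂ}
    (hm : ‖m - centre δ v‖ ≤ 2 * δ) :
    |latF δ J k v - δ / Real.sqrt 3 * ip (J m) (ed k)| ≤ δ / Real.sqrt 3 * (L * (4 * δ)) := by
  have hL0 : 0 ≤ L := by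
    have := hL 0 1
    rw [zero_sub, norm_neg, norm_one, mul_one] at this
    exact (norm_nonneg _).trans this
  have h1 : latF δ J k v - δ / Real.sqrt 3 * ip (J m) (ed k) =
      δ / Real.sqrt 3 * ∫ p in R k, (ip (J (pt δ v p)) (ed k) - ip (J m) (ed k)) := by
    have i1 : IntegrableOn (fun p => ip (J (pt δ v p)) (ed k)) (R k) :=
      integrableOn_R (continuous_ip (hJ.comp (continuous_pt δ v)) _)
    have i2 : IntegrableOn (fun _ : ℝ × ℝ => ip (J m) (ed k)) (R k) :=
      integrableOn_const (by rw [volume_R]; exact ENNReal.one_ne_top)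
    unfold latF
    rw [integral_sub i1 i2, setIntegral_const, volR, one_smul]
    ring
  rw [h1, abs_mul, abs_of_nonneg (by positivity)]
  gcongr
  have h2 : ‖∫ p in R k, (ip (J (pt δ v p)) (ed k) - ip (J m) (ed k))‖ ≤
      L * (4 * δ) * (volume : Measure (ℝ × ℝ)).real (R k) := by
    refine norm_setIntegral_le_of_norm_le_const (by rw [volume_R]; exact ENNReal.one_lt_top)
      fun p hp => ?_
    rw [Real.norm_eq_abs, ← ip_sub]
    refine (abs_ip_le _ _).trans ?_
    rw [norm_ed, mul_one]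
    refine (hL _ _).trans ?_
    gcongr
    have h3 := norm_pt_sub hδ v (R_bound hp).1 (R_bound hp).2
    have h4 : pt δ v p - m = (pt δ v p - centre δ v) - (m - centre δ v) := by ring
    rw [h4]
    refine (norm_sub_le _ _).trans ?_
    linarith
  rwa [volR, mul_one, Real.norm_eq_abs] at h2

end

end Crest.Agent.R144.Lat549
end

-- ▼ part R144/Lat3_549
section

/-!
# R144, lattice flow, part 3 (helper549)

Sharp energy inequality `∑ F² ≤ (1/√3) ∫_N |J|²` and summation by parts.
-/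

set_option autoImplicit false

open MeasureTheory Metric Set Filter Topology
open scoped ContDiff

namespace Crest.Agent.R144.Lat549

open Crest.ProbabilityR.HexHeights Crest.Agent.R144.HexTil353 Crest.Agent.R144.Geo268
  Crest.Agent.R144.Con549

noncomputable section

/-- lattice point as a real vector -/
def vr (v : ℤ × ℤ) : ℝ × ℝ := ((v.1 : ℝ), (v.2 : ℝ))

theorem int_Ico {a b : ℤ} {x c : ℝ} (h1 : x - a ∈ Ico c (c + 1)) (h2 : x - b ∈ Ico c (c + 1)) :
    a = b := by
  have h3 : ((a - b : ℤ) : ℝ) < 1 := by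
    push_cast
    linarith [h1.1, h2.2]
  have h4 : ((b - a : ℤ) : ℝ) < 1 := by
    push_cast
    linarith [h1.2, h2.1]
  have h5 : a - b < 1 := by exact_mod_cast h3
  have h6 : b - a < 1 := by exact_mod_cast h4
  omega

theorem R_unique (k : Fin 3) {q : ℝ × ℝ} {v v' : ℤ × ℤ} (h : q - vr v ∈ R k)
    (h' : q - vr v' ∈ R k) : v = v' := by
  obtain ⟨h1, h2⟩ := h
  obtain ⟨h3, h4⟩ := h'
  have e1 : (-1 : ℝ) + 1 = 0 := by norm_num
  have e0 : (0 : ℝ) + 1 = 1 := by norm_num
  fin_cases k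
  · simp only [al, be, vr, Fin.zero_eta, Matrix.cons_val_zero, Prod.fst_sub, Prod.snd_sub] at h1 h2 h3 h4
    have a1 : v.1 = v'.1 := int_Ico (c := 0) (by rw [e0]; exact h1) (by rw [e0]; exact h3)
    have a2 : -(v.1 + v.2) = -(v'.1 + v'.2) := by
      refine int_Ico (x := -(q.1 + q.2)) (c := -1) ?_ ?_
      · rw [e1]; push_cast; convert h2 using 1; ring
      · rw [e1]; push_cast; convert h4 using 1; ring
    ext <;> omega
  · simp only [al, be, vr, Fin.mk_one, Matrix.cons_val_one, Matrix.cons_val_zero, Prod.fst_sub,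
      Prod.snd_sub] at h1 h2 h3 h4
    have a1 : v.2 = v'.2 := int_Ico (c := 0) (by rw [e0]; exact h1) (by rw [e0]; exact h3)
    have a2 : -(v.1 + v.2) = -(v'.1 + v'.2) := by
      refine int_Ico (x := -(q.1 + q.2)) (c := -1) ?_ ?_
      · rw [e1]; push_cast; convert h2 using 1; ring
      · rw [e1]; push_cast; convert h4 using 1; ring
    ext <;> omega
  · have h1' : q.1 - (v.1 : ℝ) ∈ Ico (0 : ℝ) 1 := h1
    have h3' : q.1 - (v'.1 : ℝ) ∈ Ico (0 : ℝ) 1 := h3
    have h2' : q.2 - (v.2 : ℝ) ∈ Ico (-1 : ℝ) 0 := h2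
    have h4' : q.2 - (v'.2 : ℝ) ∈ Ico (-1 : ℝ) 0 := h4
    have a1 : v.1 = v'.1 := int_Ico (c := 0) (by rw [e0]; exact h1') (by rw [e0]; exact h3')
    have a2 : v.2 = v'.2 := int_Ico (c := -1) (by rw [e1]; exact h2') (by rw [e1]; exact h4')
    ext
    · exact a1
    · exact a2

/-- the set `N` in lattice coordinates -/
def NN (δ : ℝ) (N : Set ℂ) : Set (ℝ × ℝ) := {q | cen δ q.1 q.2 ∈ N}

theorem continuous_cen (δ : ℝ) : Continuous fun q : ℝ × ℝ => cen δ q.1 q.2 := by
  unfold cen
  fun_prop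

theorem NN_sub {δ : ℝ} (hδ : 0 < δ) {N : Set ℂ} (hN : Bornology.IsBounded N) :
    ∃ K : Set (ℝ × ℝ), IsCompact K ∧ NN δ N ⊆ K := by
  refine ⟨(fun z => (ca δ z, cb δ z)) '' closure N,
    hN.isCompact_closure.image ((continuous_ca δ).prodMk (continuous_cb δ)), fun q hq => ?_⟩
  refine ⟨cen δ q.1 q.2, subset_closure hq, ?_⟩
  simp only [ca_cen hδ, cb_cen hδ]

theorem measurableSet_NN (δ : ℝ) {N : Set ℂ} (hN : MeasurableSet N) : MeasurableSet (NN δ N) :=
  (continuous_cen δ).measurable hN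

/-- one direction -/
theorem sum_sq_le {δ : ℝ} (hδ : 0 < δ) {J : ℂ → ℂ} (hJ : Continuous J) {N : Set ℂ}
    (hNm : MeasurableSet N) (hNb : Bornology.IsBounded N) (k : Fin 3) (S : Finset (ℤ × ℤ))
    (hS : ∀ v ∈ S, ∀ p ∈ R k, pt δ v p ∈ N) :
    ∑ v ∈ S, latF δ J k v ^ 2 ≤
      δ ^ 2 / 3 * ∫ q in NN δ N, ip (J (cen δ q.1 q.2)) (ed k) ^ 2 := by
  set G : ℝ × ℝ → ℝ := fun q => ip (J (cen δ q.1 q.2)) (ed k) with hG
  have hGc : Continuous G := continuous_ip (hJ.comp (continuous_cen δ)) _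
  obtain ⟨K, hK, hNK⟩ := NN_sub hδ hNb
  have hGi : IntegrableOn (fun q => G q ^ 2) (NN δ N) :=
    ((hGc.pow 2).continuousOn.integrableOn_compact hK).mono_set hNK
  have hNNm := measurableSet_NN δ hNm
  have hpt : ∀ v p, J (pt δ v p) = J (cen δ (vr v + p).1 (vr v + p).2) := by
    intro v p
    rfl
  -- one edge
  have h1 : ∀ v ∈ S, latF δ J k v ^ 2 ≤
      δ ^ 2 / 3 * ∫ q, (R k).indicator (fun _ => (1 : ℝ)) (q - vr v) * G q ^ 2 := by
    intro v _
    set g : ℝ × ℝ → ℝ := fun p => ip (J (pt δ v p)) (ed k) with hg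
    have hgc : Continuous g := continuous_ip (hJ.comp (continuous_pt δ v)) _
    have i1 : IntegrableOn g (R k) := integrableOn_R hgc
    have i2 : IntegrableOn (fun p => g p ^ 2) (R k) := integrableOn_R (hgc.pow 2)
    have i3 : ∀ c : ℝ, IntegrableOn (fun _ : ℝ × ℝ => c) (R k) := fun c =>
      integrableOn_const (by rw [volume_R]; exact ENNReal.one_ne_top)
    have h2 : (∫ p in R k, g p) ^ 2 ≤ ∫ p in R k, g p ^ 2 := by
      set c := ∫ p in R k, g p with hc
      have h3 : 0 ≤ ∫ p in R k, (g p - c) ^ 2 := integral_nonneg fun p => sq_nonneg _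
      have h4 : ∫ p in R k, (g p - c) ^ 2 = (∫ p in R k, g p ^ 2) - 2 * c * c + c ^ 2 := by
        have h5 : (fun p => (g p - c) ^ 2) = fun p => (g p ^ 2 - 2 * c * g p) + c ^ 2 := by
          funext p; ring
        have i4 : IntegrableOn (fun p => 2 * c * g p) (R k) := i1.const_mul _
        have i5 : IntegrableOn (fun p => g p ^ 2 - 2 * c * g p) (R k) := i2.sub i4
        rw [h5, integral_add i5 (i3 _), integral_sub i2 i4,
          integral_const_mul, setIntegral_const, volR, one_smul]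
      rw [h4] at h3
      nlinarith
    have h3 : ∫ p in R k, g p ^ 2 =
        ∫ q, (R k).indicator (fun _ => (1 : ℝ)) (q - vr v) * G q ^ 2 := by
      rw [← integral_indicator (measurableSet_R k),
        ← integral_sub_right_eq_self (μ := (volume : Measure (ℝ × ℝ)))
          ((R k).indicator fun p => g p ^ 2) (vr v)]
      congr 1
      funext q
      have h4 : g (q - vr v) = G q := by
        simp only [hg, hG, hpt, add_sub_cancel]
      by_cases hq : q - vr v ∈ R k
      · rw [indicator_of_mem hq, indicator_of_mem hq, h4, one_mul]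
      · rw [indicator_of_notMem hq, indicator_of_notMem hq, zero_mul]
    have h4 : latF δ J k v ^ 2 = δ ^ 2 / 3 * (∫ p in R k, g p) ^ 2 := by
      unfold latF
      rw [mul_pow, div_pow, Real.sq_sqrt (by norm_num)]
    rw [h4, ← h3]
    gcongr
  refine (Finset.sum_le_sum h1).trans ?_
  rw [← Finset.mul_sum]
  gcongr
  have hind : ∀ v : ℤ × ℤ, Measurable fun q : ℝ × ℝ =>
      (R k).indicator (fun _ => (1 : ℝ)) (q - vr v) := fun v =>
    (measurable_const.indicator (measurableSet_R k)).comp (measurable_sub_const _)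
  have hle : ∀ q, ∑ v ∈ S, (R k).indicator (fun _ => (1 : ℝ)) (q - vr v) * G q ^ 2 ≤
      (NN δ N).indicator (fun q => G q ^ 2) q := by
    intro q
    rw [← Finset.sum_mul]
    by_cases hq : ∃ v ∈ S, q - vr v ∈ R k
    · obtain ⟨v, hv, hvq⟩ := hq
      have h2 : ∑ v ∈ S, (R k).indicator (fun _ => (1 : ℝ)) (q - vr v) = 1 := by
        rw [Finset.sum_eq_single v]
        · exact indicator_of_mem hvq _
        · intro v' _ hne
          refine indicator_of_notMem (fun h => hne ?_) _
          exact R_unique k h hvq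
        · intro h; exact absurd hv h
      have h3 : q ∈ NN δ N := by
        have h4 := hS v hv _ hvq
        have h5 : pt δ v (q - vr v) = cen δ q.1 q.2 := by
          have : vr v + (q - vr v) = q := by abel
          calc pt δ v (q - vr v) = cen δ (vr v + (q - vr v)).1 (vr v + (q - vr v)).2 := rfl
            _ = _ := by rw [this]
        rw [h5] at h4
        exact h4
      rw [h2, indicator_of_mem h3, one_mul]
    · push Not at hq
      have h2 : ∑ v ∈ S, (R k).indicator (fun _ => (1 : ℝ)) (q - vr v) = 0 :=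
        Finset.sum_eq_zero fun v hv => indicator_of_notMem (hq v hv) _
      rw [h2, zero_mul]
      exact indicator_nonneg (fun _ _ => sq_nonneg _) _
  have hindi : Integrable ((NN δ N).indicator fun q => G q ^ 2) :=
    (integrable_indicator_iff hNNm).2 hGi
  have hti : ∀ v ∈ S, Integrable fun q =>
      (R k).indicator (fun _ => (1 : ℝ)) (q - vr v) * G q ^ 2 := by
    intro v hv
    refine hindi.mono' ((hind v).mul ((hGc.pow 2).measurable)).aestronglyMeasurable
      (Eventually.of_forall fun q => ?_)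
    have h2 : 0 ≤ (R k).indicator (fun _ => (1 : ℝ)) (q - vr v) * G q ^ 2 :=
      mul_nonneg (indicator_nonneg (fun _ _ => zero_le_one) _) (sq_nonneg _)
    rw [Real.norm_eq_abs, abs_of_nonneg h2]
    refine le_trans ?_ (hle q)
    exact Finset.single_le_sum (f := fun v => (R k).indicator (fun _ => (1 : ℝ)) (q - vr v) *
      G q ^ 2) (fun v _ => mul_nonneg (indicator_nonneg (fun _ _ => zero_le_one) _)
        (sq_nonneg _)) hv
  rw [← integral_finsetSum _ hti, ← integral_indicator hNNm]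
  exact integral_mono (integrable_finsetSum _ hti) hindi hle

/-- sharp energy inequality -/
theorem energy_le {δ : ℝ} (hδ : 0 < δ) {J : ℂ → ℂ} (hJ : Continuous J) {N : Set ℂ}
    (hNm : MeasurableSet N) (hNb : Bornology.IsBounded N) (S : Fin 3 → Finset (ℤ × ℤ))
    (hS : ∀ k, ∀ v ∈ S k, ∀ p ∈ R k, pt δ v p ∈ N) :
    ∑ k, ∑ v ∈ S k, latF δ J k v ^ 2 ≤ 1 / Real.sqrt 3 * ∫ z in N, ‖J z‖ ^ 2 := by
  obtain ⟨K, hK, hNK⟩ := NN_sub hδ hNb
  have hNNm := measurableSet_NN δ hNm
  have hi : ∀ k ∈ (Finset.univ : Finset (Fin 3)),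
      IntegrableOn (fun q : ℝ × ℝ => ip (J (cen δ q.1 q.2)) (ed k) ^ 2) (NN δ N) := fun k _ =>
    (((continuous_ip (hJ.comp (continuous_cen δ)) _).pow 2).continuousOn.integrableOn_compact
      hK).mono_set hNK
  have h1 := Finset.sum_le_sum fun k (_ : k ∈ (Finset.univ : Finset (Fin 3))) =>
    sum_sq_le hδ hJ hNm hNb k (S k) (hS k)
  refine h1.trans (le_of_eq ?_)
  rw [← Finset.mul_sum, ← integral_finsetSum _ hi]
  simp only [sum_ip_sq]
  rw [integral_const_mul]
  have h2 : ∫ z in N, ‖J z‖ ^ 2 =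
      (Real.sqrt 3 / 2 * δ ^ 2) * ∫ q in NN δ N, ‖J (cen δ q.1 q.2)‖ ^ 2 := by
    rw [← integral_indicator hNm, integral_cen hδ, smul_eq_mul, ← integral_indicator hNNm]
    rfl
  rw [h2]
  have h3 : Real.sqrt 3 ≠ 0 := by positivity
  field_simp

/-! ### summation by parts -/

/-- starting points of the `k`-edges touching `S` -/
def edg (S : Finset (ℤ × ℤ)) (k : Fin 3) : Finset (ℤ × ℤ) := S ∪ S.image fun v => v - d k

theorem mem_edg {S : Finset (ℤ × ℤ)} {k : Fin 3} {v : ℤ × ℤ} :
    v ∈ edg S k ↔ v ∈ S ∨ v + d k ∈ S := by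
  unfold edg
  rw [Finset.mem_union, Finset.mem_image]
  constructor
  · rintro (h | ⟨u, hu, rfl⟩)
    · exact Or.inl h
    · right; rwa [sub_add_cancel]
  · rintro (h | h)
    · exact Or.inl h
    · exact Or.inr ⟨v + d k, h, add_sub_cancel_right _ _⟩

theorem sum_by_parts {F : Fin 3 → ℤ × ℤ → ℝ} {w Y : ℤ × ℤ → ℝ} {S : Finset (ℤ × ℤ)}
    (hY : ∀ v, v ∉ S → Y v = 0) (hw : ∀ v ∈ S, ∑ k, (F k v - F k (v - d k)) = w v) :
    ∑ v ∈ S, w v * Y v = ∑ k, ∑ v ∈ edg S k, F k v * (Y v - Y (v + d k)) := by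
  have h1 : ∑ v ∈ S, w v * Y v = ∑ k, ∑ v ∈ S, (F k v - F k (v - d k)) * Y v := by
    rw [Finset.sum_comm]
    refine Finset.sum_congr rfl fun v hv => ?_
    rw [← hw v hv, Finset.sum_mul]
  rw [h1]
  refine Finset.sum_congr rfl fun k _ => ?_
  have h2 : ∑ v ∈ S, F k v * Y v = ∑ v ∈ edg S k, F k v * Y v := by
    refine Finset.sum_subset (fun v hv => mem_edg.2 (Or.inl hv)) fun v _ hv => ?_
    rw [hY v hv, mul_zero]
  have h3 : ∑ v ∈ S, F k (v - d k) * Y v = ∑ v ∈ edg S k, F k v * Y (v + d k) := by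
    have h4 : ∑ v ∈ S, F k (v - d k) * Y v =
        ∑ v ∈ S.image fun v => v - d k, F k v * Y (v + d k) := by
      rw [Finset.sum_image (fun a _ b _ h => sub_left_injective h)]
      refine Finset.sum_congr rfl fun v _ => ?_
      rw [sub_add_cancel]
    rw [h4]
    refine Finset.sum_subset (fun v hv => Finset.mem_union_right _ hv) fun v _ hv => ?_
    rw [hY (v + d k), mul_zero]
    intro h
    exact hv (Finset.mem_image.2 ⟨v + d k, h, add_sub_cancel_right _ _⟩)
  simp only [sub_mul, mul_sub, Finset.sum_sub_distrib]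
  rw [h2, h3]

end

end Crest.Agent.R144.Lat549
end

-- ▼ part R144/Lat4_549

/-!
# R144, lattice flow, part 4 (helper549)

(F): for a marked domain, a marked approximation and a test function, a smooth field `J` and its
lattice flows `latF (δ n) J`, exact divergence, sharp energy, zero near the marks.
-/

set_option autoImplicit false

open MeasureTheory Metric Set Filter Topology
open scoped ContDiff

namespace Crest.Agent.R144.Lat549

open Crest.ProbabilityR.HexHeights Crest.ProbabilityR.TriHeights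
  Crest.Agent.R144.HexTil353 Crest.Agent.R144.Geo268 Crest.Agent.R144.Con549

noncomputable section

section near

variable {D : Set ℂ} {γ : ℝ → ℂ} {θ : ℝ} {δ : ℕ → ℝ} {T : ℕ → Finset Tri}
  {ea eb : ℕ → (ℤ × ℤ) × (ℤ × ℤ)} {c : ℕ → ℝ → ℂ}

/-- the vertices of the approximating polygons are eventually near the domain -/
theorem verts_near (hD : IsSmoothMarkedDomain D γ θ) (hA : IsMarkedApprox γ θ δ T ea eb c)
    {ε : ℝ} (hε : 0 < ε) :
    ∀ᶠ n in atTop, ∀ v ∈ verts (T n), infDist (centre (δ n) v) D < ε := by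
  filter_upwards [Crest.Agent.R144.Cov353.tri_near hD hA (half_pos hε)] with n hn v hv
  have hδ := hA.1 n
  obtain ⟨t, ht, hvt⟩ := Finset.mem_biUnion.1 (show v ∈ (T n).biUnion corners from hv)
  have h1 : centre (δ n) v ∈ closure (polygon (δ n) (T n)) :=
    closure_mono (openTri_subset_polygon hδ ht)
      (tri_subset_closure hδ t (centre_mem_tri hvt))
  have h2 : closure (polygon (δ n) (T n)) ⊆ {z | infDist z D ≤ ε / 2} :=
    closure_minimal (fun z hz => (hn z hz).le)
      (isClosed_le (continuous_infDist_pt D) continuous_const)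
  have h3 : infDist (centre (δ n) v) D ≤ ε / 2 := h2 h1
  linarith

end near

theorem norm_centre_d {δ : ℝ} (hδ : 0 ≤ δ) (k : Fin 3) : ‖centre δ (d k)‖ = δ := by
  rw [centre_d, norm_mul, norm_ed, mul_one, Complex.norm_real, Real.norm_eq_abs, abs_of_nonneg hδ]

/-- rhombi of the edges touching a vertex are within `3δ` of it -/
theorem pt_near {δ : ℝ} (hδ : 0 ≤ δ) {S : Finset (ℤ × ℤ)} {N : Set ℂ}
    (hN : ∀ u ∈ S, closedBall (centre δ u) (3 * δ) ⊆ N) {k : Fin 3} {v : ℤ × ℤ}
    (hv : v ∈ edg S k) {p : ℝ × ℝ} (hp : p ∈ R k) : pt δ v p ∈ N := by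
  have h1 := norm_pt_sub hδ v (R_bound hp).1 (R_bound hp).2
  rcases mem_edg.1 hv with h | h
  · refine hN v h ?_
    rw [mem_closedBall, dist_eq_norm]
    linarith
  · refine hN _ h ?_
    rw [mem_closedBall, dist_eq_norm]
    have h2 : pt δ v p - centre δ (v + d k) = (pt δ v p - centre δ v) - centre δ (d k) := by
      rw [centre_add]; ring
    rw [h2]
    refine (norm_sub_le _ _).trans ?_
    rw [norm_centre_d hδ]
    linarith

/-- **(F)** -/
theorem exists_lattice_flow {D : Set ℂ} {γ : ℝ → ℂ} {θ : ℝ} {δ : ℕ → ℝ} {T : ℕ → Finset Tri}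
    {ea eb : ℕ → (ℤ × ℤ) × (ℤ × ℤ)} {c : ℕ → ℝ → ℂ}
    (hD : IsSmoothMarkedDomain D γ θ) (hA : IsMarkedApprox γ θ δ T ea eb c)
    {φ : ℂ → ℂ} (hφ : DifferentiableOn ℂ φ D) (hb : BijOn φ D (ball (0 : ℂ) 1))
    {f : ℂ → ℝ} (hf : IsTest D f) {ε : ℝ} (hε : 0 < ε) :
    ∃ (N : Set ℂ) (J : ℂ → ℂ) (C ρ : ℝ), IsOpen N ∧ Bornology.IsBounded N ∧ closure D ⊆ N ∧
      ContDiff ℝ ∞ J ∧ HasCompactSupport J ∧ (∀ z ∈ N, dv J z = f z) ∧
      ∫ z in N, ‖J z‖ ^ 2 ≤ domainGreenForm φ f + ε ∧ 0 ≤ C ∧ 0 < ρ ∧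
      (∀ z ∈ ball (γ 0) ρ ∪ ball (γ θ) ρ, J z = 0) ∧ (∀ z, ‖J z‖ ≤ C) ∧
      (∀ z w, ‖J z - J w‖ ≤ C * ‖z - w‖) ∧
      (∀ n k v, |latF (δ n) J k v| ≤ C * δ n) ∧
      (∀ n k v m, ‖m - centre (δ n) v‖ ≤ 2 * δ n →
        |latF (δ n) J k v - δ n / Real.sqrt 3 * ip (J m) (ed k)| ≤ C * δ n ^ 2) ∧
      ∀ᶠ n in atTop,
        (∀ v ∈ verts (T n), closedBall (centre (δ n) v) (3 * δ n) ⊆ N) ∧
        (∀ v ∈ verts (T n), ∑ k, (latF (δ n) J k v - latF (δ n) J k (v - d k)) =
          wA (δ n) f v) ∧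
        (∀ k v, centre (δ n) v ∈ ball (γ 0) (ρ / 2) ∪ ball (γ θ) (ρ / 2) →
          latF (δ n) J k v = 0) ∧
        ∑ k, ∑ v ∈ edg (verts (T n)) k, latF (δ n) J k v ^ 2 ≤
          1 / Real.sqrt 3 * (domainGreenForm φ f + ε) := by
  obtain ⟨ψ, B⟩ := exists_bih hD.1 hφ hb
  have hJor := Crest.Agent.R144.ConP938.jor_of_marked hD
  obtain ⟨N, J, hNo, hNb, hcl, hJs, hJc, hdv, hmk, hen⟩ :=
    Crest.Agent.R144.ConP938.exists_flow_marks hJor B hf {γ 0, γ θ} (by
      intro p hp
      rw [Finset.mem_insert, Finset.mem_singleton] at hp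
      rcases hp with rfl | rfl <;> exact Crest.Agent.R144.ConP938.marks_mem hJor _) hε
  -- constants
  obtain ⟨B0, hB0⟩ := hJc.exists_bound_of_continuous hJs.continuous
  obtain ⟨L, hL⟩ := ContDiff.lipschitzWith_of_hasCompactSupport hJc
    (hJs.of_le (by norm_cast : (1 : WithTop ℕ∞) ≤ ∞)) (by simp)
  set B1 : ℝ := max B0 0 with hB1
  have hB1' : ∀ z, ‖J z‖ ≤ B1 := fun z => (hB0 z).trans (le_max_left _ _)
  have hB10 : 0 ≤ B1 := le_max_right _ _
  have hL' : ∀ z w, ‖J z - J w‖ ≤ (L : ℝ) * ‖z - w‖ := fun z w => by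
    have := hL.dist_le_mul z w
    rwa [dist_eq_norm, dist_eq_norm] at this
  set C : ℝ := B1 + 4 * L with hC
  have hC0 : 0 ≤ C := by positivity
  have hLC : (L : ℝ) ≤ C := by
    have := L.coe_nonneg
    rw [hC]; linarith
  have hBC : B1 ≤ C := by
    have := L.coe_nonneg
    rw [hC]; linarith
  have hs3 : 1 ≤ Real.sqrt 3 := Real.one_le_sqrt.2 (by norm_num)
  -- radius at the marks
  obtain ⟨ρ, hρ, hρJ⟩ : ∃ ρ : ℝ, 0 < ρ ∧ ∀ z ∈ ball (γ 0) ρ ∪ ball (γ θ) ρ, J z = 0 := by
    obtain ⟨r1, hr1, h1⟩ := Metric.eventually_nhds_iff_ball.1 (hmk (γ 0) (by simp))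
    obtain ⟨r2, hr2, h2⟩ := Metric.eventually_nhds_iff_ball.1 (hmk (γ θ) (by simp))
    refine ⟨min r1 r2, lt_min hr1 hr2, fun z hz => ?_⟩
    rcases hz with hz | hz
    · exact h1 z (ball_subset_ball (min_le_left _ _) hz)
    · exact h2 z (ball_subset_ball (min_le_right _ _) hz)
  -- room around `D`
  obtain ⟨r, hr, hrN⟩ : ∃ r : ℝ, 0 < r ∧ thickening r D ⊆ N := by
    obtain ⟨r, hr, h⟩ := (hD.2.1.isCompact_closure).exists_thickening_subset_open hNo hcl
    exact ⟨r, hr, (thickening_subset_of_subset r subset_closure).trans h⟩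
  refine ⟨N, J, C, ρ, hNo, hNb, hcl, hJs, hJc, hdv, hen, hC0, hρ, hρJ,
    fun z => (hB1' z).trans hBC, fun z w => (hL' z w).trans (by gcongr), ?_, ?_, ?_⟩
  · intro n k v
    have hδ := hA.1 n
    refine (latF_le hδ.le (fun z _ => hB1' z) k).trans ?_
    calc δ n / Real.sqrt 3 * B1 ≤ δ n / 1 * C := by gcongr
      _ = C * δ n := by ring
  · intro n k v m hm
    have hδ := hA.1 n
    refine (latF_approx hδ.le hJs.continuous hL' k v hm).trans ?_
    calc δ n / Real.sqrt 3 * (L * (4 * δ n)) ≤ δ n / 1 * (L * (4 * δ n)) := by gcongr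
      _ = 4 * L * δ n ^ 2 := by ring
      _ ≤ C * δ n ^ 2 := by
          gcongr
          rw [hC]; linarith
  · filter_upwards [verts_near hD hA (half_pos hr),
      hA.2.1.eventually (gt_mem_nhds (show 0 < r / 8 by positivity)),
      hA.2.1.eventually (gt_mem_nhds (show 0 < ρ / 4 by positivity))] with n h1 h2 h3
    have hδ := hA.1 n
    have hNn : ∀ v ∈ verts (T n), closedBall (centre (δ n) v) (3 * δ n) ⊆ N := by
      intro v hv z hz
      refine hrN ?_
      rw [mem_thickening_iff_infDist_lt (hD.2.2.1.nonempty)]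
      have h4 := h1 v hv
      have h5 := infDist_le_infDist_add_dist (s := D) (x := z) (y := centre (δ n) v)
      rw [mem_closedBall] at hz
      linarith
    refine ⟨hNn, fun v hv => ?_, fun k v hv => ?_, ?_⟩
    · rw [wA_eq hδ]
      refine latF_div hJs hδ fun z hz => hdv z (hNn v hv ?_)
      exact closedBall_subset_closedBall (by linarith) hz
    · refine latF_eq_zero hδ.le (fun z hz => hρJ z ?_) k
      rw [mem_closedBall] at hz
      rcases hv with hv | hv
      · left
        rw [mem_ball] at hv ⊢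
        have := dist_triangle z (centre (δ n) v) (γ 0)
        linarith
      · right
        rw [mem_ball] at hv ⊢
        have := dist_triangle z (centre (δ n) v) (γ θ)
        linarith
    · refine (energy_le hδ hJs.continuous hNo.measurableSet hNb _
        fun k v hv p hp => pt_near hδ.le hNn hv hp).trans ?_
      gcongr

end

end Crest.Agent.R144.Lat549
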