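import Crest.Agent.R144.Kor1_620
import Crest.Agent.R144.MW1_121
import Crest.Agent.R144.Ham5_560

-- ▼ part R144/Kor2_620
section

/-!
R144 (S0197), helper620.  GLOBAL KORN INEQUALITY (doc 1585), part 2.

`kor_main` : for `ζ` of class `C¹` vanishing on the single wall `h u - h v = 1` of the hammock
polytope `K = ham F E ξ`,
`∫_{K ∩ B} ρ w ζ² ≤ C ∫_K ρ ∑_x (∂_x ζ)²`,
`w = r ^ #S / (#S + 1)`, `S = {x : h x < h v + γ x}`, `B = {h : push 1 h ∈ K}`.
-/

set_option autoImplicit false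

open MeasureTheory Set
open scoped ENNReal

noncomputable section

namespace Crest.Agent.R144.Kor620

open Crest.Agent.R144.Ham560 (ext ham ext_mem ext_notMem continuous_ext extL ext_comb nbr mem_nbr
  ext_update isClosed_ham measurableSet_ham convex_ham)

/-- Cauchy–Schwarz on an interval. -/
theorem sq_integral_le {a b : ℝ} (hab : a ≤ b) {f : ℝ → ℝ} (hf : ContinuousOn f (Icc a b)) :
    (∫ s in a..b, f s) ^ 2 ≤ (b - a) * ∫ s in a..b, f s ^ 2 := by
  rcases eq_or_lt_of_le hab with rfl | hlt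
  · simp
  set m := ∫ s in a..b, f s with hm
  have hu : uIcc a b = Icc a b := uIcc_of_le hab
  have i1 : IntervalIntegrable f volume a b := (hu ▸ hf).intervalIntegrable
  have i2 : IntervalIntegrable (fun s => f s ^ 2) volume a b :=
    ((hu ▸ hf).pow 2).intervalIntegrable
  have h0 : 0 ≤ ∫ s in a..b, ((b - a) * f s - m) ^ 2 :=
    intervalIntegral.integral_nonneg hab fun s _ => sq_nonneg _
  have h1 : ∫ s in a..b, ((b - a) * f s - m) ^ 2 =
      (b - a) ^ 2 * (∫ s in a..b, f s ^ 2) - 2 * (b - a) * m * m + m ^ 2 * (b - a) := by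
    have e : ∀ s, ((b - a) * f s - m) ^ 2 =
        (b - a) ^ 2 * f s ^ 2 - 2 * (b - a) * m * f s + m ^ 2 := by intro s; ring
    simp only [e]
    rw [intervalIntegral.integral_add ((i2.const_mul _).sub (i1.const_mul _))
      intervalIntegrable_const, intervalIntegral.integral_sub (i2.const_mul _) (i1.const_mul _),
      intervalIntegral.integral_const_mul, intervalIntegral.integral_const_mul,
      intervalIntegral.integral_const, ← hm, smul_eq_mul]
    ring
  rw [h1] at h0
  have hpos : 0 < b - a := by linarith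
  have h2 : 0 ≤ (b - a) * ((b - a) * (∫ s in a..b, f s ^ 2) - m ^ 2) := by linarith
  have h3 := (mul_nonneg_iff_of_pos_left hpos).mp h2
  linarith

/-- The fundamental theorem of calculus with Cauchy–Schwarz, in `ℝ≥0∞`. -/
theorem sq_sub_le {a b : ℝ} (hab : a ≤ b) {z z' : ℝ → ℝ}
    (hz : ∀ s ∈ Icc a b, HasDerivAt z (z' s) s) (hz' : ContinuousOn z' (Icc a b)) :
    ENNReal.ofReal ((z b - z a) ^ 2) ≤
      ENNReal.ofReal (b - a) * ∫⁻ s in Icc a b, ENNReal.ofReal (z' s ^ 2) := by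
  have hu : uIcc a b = Icc a b := uIcc_of_le hab
  have h1 : ∫ s in a..b, z' s = z b - z a := by
    refine intervalIntegral.integral_eq_sub_of_hasDerivAt (fun s hs => hz s (hu ▸ hs)) ?_
    exact (hu ▸ hz').intervalIntegrable
  rw [← h1]
  have h2 := sq_integral_le hab hz'
  refine (ENNReal.ofReal_le_ofReal h2).trans ?_
  rw [ENNReal.ofReal_mul (by linarith)]
  gcongr
  rw [intervalIntegral.integral_of_le hab, ← integral_Icc_eq_integral_Ioc,
    ofReal_integral_eq_lintegral_ofReal]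
  · exact (hz'.pow 2).integrableOn_Icc
  · exact Filter.Eventually.of_forall fun s => sq_nonneg _

/-- One-dimensional link. -/
theorem link_one {a b : ℝ} {z z' : ℝ → ℝ}
    (hz : ∀ s ∈ Icc a b, HasDerivAt z (z' s) s) (hz' : ContinuousOn z' (Icc a b)) (hzb : z b = 0)
    {s : ℝ} (hs : s ∈ Icc a b) :
    ENNReal.ofReal (z s ^ 2) ≤
      ENNReal.ofReal (b - a) * ∫⁻ s in Icc a b, ENNReal.ofReal (z' s ^ 2) := by
  have hsub : Icc s b ⊆ Icc a b := Icc_subset_Icc_left hs.1
  have h := sq_sub_le hs.2 (fun r hr => hz r (hsub hr)) (hz'.mono hsub)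
  rw [hzb, zero_sub, neg_sq] at h
  refine h.trans ?_
  gcongr
  · exact hs.1

variable {U : Type*} [DecidableEq U] {F : Finset U} {E : Finset (U × U)} {ξ : U → ℝ}

/-- Partial derivative. -/
def pd (ζ : (F → ℝ) → ℝ) (x : F) (h : F → ℝ) : ℝ := fderiv ℝ ζ h (Pi.single x 1)

/-- Energy density. -/
def en (ζ : (F → ℝ) → ℝ) (h : F → ℝ) : ℝ := ∑ x : F, pd ζ x h ^ 2

theorem continuous_pd {ζ : (F → ℝ) → ℝ} (hζ : ContDiff ℝ 1 ζ) (x : F) : Continuous (pd ζ x) :=
  (hζ.continuous_fderiv (by norm_num)).clm_apply continuous_const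

theorem continuous_en {ζ : (F → ℝ) → ℝ} (hζ : ContDiff ℝ 1 ζ) : Continuous (en ζ) :=
  continuous_finsetSum _ fun x _ => (continuous_pd hζ x).pow 2

theorem en_nonneg (ζ : (F → ℝ) → ℝ) (h : F → ℝ) : 0 ≤ en ζ h :=
  Finset.sum_nonneg fun _ _ => sq_nonneg _

theorem fderiv_apply (ζ : (F → ℝ) → ℝ) (h g : F → ℝ) :
    fderiv ℝ ζ h g = ∑ x : F, g x * pd ζ x h := by
  conv_lhs => rw [← Finset.univ_sum_single g]
  rw [map_sum]
  refine Finset.sum_congr rfl fun x _ => ?_
  have : (Pi.single x (g x) : F → ℝ) = g x • Pi.single x (1 : ℝ) := by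
    rw [← Pi.single_smul, smul_eq_mul, mul_one]
  rw [this, map_smul, smul_eq_mul]; rfl

theorem sq_fderiv_le (ζ : (F → ℝ) → ℝ) (h g : F → ℝ) {S : Finset F} {D : ℝ}
    (hg0 : ∀ x, x ∉ S → g x = 0) (hg : ∀ x ∈ S, |g x| ≤ D) :
    (fderiv ℝ ζ h g) ^ 2 ≤ D ^ 2 * S.card * en ζ h := by
  rw [fderiv_apply]
  have h1 : ∑ x : F, g x * pd ζ x h = ∑ x ∈ S, g x * pd ζ x h := by
    symm
    refine Finset.sum_subset (Finset.subset_univ _) fun x _ hx => ?_
    rw [hg0 x hx, zero_mul]
  rw [h1]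
  refine (Finset.sum_mul_sq_le_sq_mul_sq _ _ _).trans ?_
  have h2 : ∑ x ∈ S, g x ^ 2 ≤ D ^ 2 * S.card := by
    calc ∑ x ∈ S, g x ^ 2 ≤ ∑ _x ∈ S, D ^ 2 :=
          Finset.sum_le_sum fun x hx => sq_le_sq' (by linarith [(abs_le.mp (hg x hx)).1])
            (abs_le.mp (hg x hx)).2
      _ = D ^ 2 * S.card := by rw [Finset.sum_const, nsmul_eq_mul]; ring
  have h3 : ∑ x ∈ S, pd ζ x h ^ 2 ≤ en ζ h :=
    Finset.sum_le_sum_of_subset_of_nonneg (Finset.subset_univ _) fun _ _ _ => sq_nonneg _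
  exact mul_le_mul h2 h3 (Finset.sum_nonneg fun _ _ => sq_nonneg _) (by positivity)

/-! ### the one-site link -/

/-- Constraints of `ham` that do not involve `u`. -/
def rst (F : Finset U) (E : Finset (U × U)) (ξ : U → ℝ) (u : U) : Set (F → ℝ) :=
  {x | ∀ p ∈ E, p.1 ≠ u → p.2 ≠ u → |ext F ξ x p.1 - ext F ξ x p.2| ≤ 1}

theorem mem_ham_iff {u : U} (x : F → ℝ) :
    x ∈ ham F E ξ ↔ x ∈ rst F E ξ u ∧ ∀ w ∈ nbr E u, |ext F ξ x u - ext F ξ x w| ≤ 1 := by
  constructor
  · intro h1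
    refine ⟨fun p hp _ _ => h1 p hp, fun w hw => ?_⟩
    rcases (mem_nbr.mp hw).2 with h | h
    · exact h1 _ h
    · rw [abs_sub_comm]; exact h1 _ h
  · rintro ⟨h1, h3⟩ p hp
    by_cases ha : p.1 = u
    · by_cases hb : p.2 = u
      · rw [ha, hb]; simp
      · rw [ha]; exact h3 _ (mem_nbr.mpr ⟨hb, Or.inl (by rw [← ha]; exact hp)⟩)
    · by_cases hb : p.2 = u
      · rw [hb, abs_sub_comm]; exact h3 _ (mem_nbr.mpr ⟨ha, Or.inr (by rw [← hb]; exact hp)⟩)
      · exact h1 p hp ha hb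

theorem rst_update {u : U} (hu : u ∈ F) (x : F → ℝ) (t : ℝ) :
    Function.update x ⟨u, hu⟩ t ∈ rst F E ξ u ↔ x ∈ rst F E ξ u := by
  constructor
  · intro h1 p hp ha hb
    have := h1 p hp ha hb
    rwa [ext_update hu, ext_update hu, if_neg ha, if_neg hb] at this
  · intro h1 p hp ha hb
    rw [ext_update hu, ext_update hu, if_neg ha, if_neg hb]; exact h1 p hp ha hb

/-- `v` is the lowest neighbour of `u`. -/
def low (F : Finset U) (E : Finset (U × U)) (ξ : U → ℝ) (u v : U) : Set (F → ℝ) :=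
  {h | ∀ y ∈ nbr E u, ext F ξ h v ≤ ext F ξ h y}

theorem isClosed_low (u v : U) : IsClosed (low F E ξ u v) := by
  have : low F E ξ u v = ⋂ y ∈ nbr E u, {h | ext F ξ h v ≤ ext F ξ h y} := by
    ext h; simp [low]
  rw [this]
  exact isClosed_biInter fun y _ => isClosed_le (continuous_ext v) (continuous_ext y)

/-- Oscillation of the density along the fibre of `u` inside `K`. -/
def OscAt (F : Finset U) (E : Finset (U × U)) (ξ : U → ℝ) (u : U) (ρ : (F → ℝ) → ℝ≥0∞)
    (Q : ℝ≥0∞) : Prop :=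
  ∀ h ∈ ham F E ξ, ∀ h' ∈ ham F E ξ, (∀ x : F, (x : U) ≠ u → h x = h' x) → ρ h ≤ Q * ρ h'

/-- **One-site link.** -/
theorem link {u v : U} (hu : u ∈ F) (hv : v ∈ nbr E u) {ρ : (F → ℝ) → ℝ≥0∞}
    (hρ : Measurable ρ) {Q : ℝ≥0∞} (hQ : OscAt F E ξ u ρ Q) {ζ : (F → ℝ) → ℝ}
    (hζ : ContDiff ℝ 1 ζ)
    (hw : ∀ h ∈ ham F E ξ, ext F ξ h u - ext F ξ h v = 1 → ζ h = 0) :
    ∫⁻ h, (ham F E ξ ∩ low F E ξ u v).indicator (fun h => ρ h * ENNReal.ofReal (ζ h ^ 2)) h ≤
      4 * Q * ∫⁻ h, (ham F E ξ).indicator (fun h => ρ h * ENNReal.ofReal (en ζ h)) h := by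
  classical
  set f : (F → ℝ) → ℝ≥0∞ :=
    (ham F E ξ ∩ low F E ξ u v).indicator fun h => ρ h * ENNReal.ofReal (ζ h ^ 2) with hf
  set g : (F → ℝ) → ℝ≥0∞ :=
    fun h => 4 * Q * (ham F E ξ).indicator (fun h => ρ h * ENNReal.ofReal (en ζ h)) h with hg
  have hfm : Measurable f := (hρ.mul ((hζ.continuous.pow 2).measurable.ennreal_ofReal)).indicator
    (measurableSet_ham.inter (isClosed_low u v).measurableSet)
  have hgm : Measurable g := ((hρ.mul (continuous_en hζ).measurable.ennreal_ofReal).indicator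
    measurableSet_ham).const_mul _
  have hvu : v ≠ u := (mem_nbr.mp hv).1
  have key : ∫⁻ x, f x ∂(Measure.pi fun _ : F => (volume : Measure ℝ)) ≤
      ∫⁻ x, g x ∂(Measure.pi fun _ : F => (volume : Measure ℝ)) := by
    refine lintegral_le_of_lmarginal_le {(⟨u, hu⟩ : F)} hfm hgm ?_
    rw [lmarginal_singleton, lmarginal_singleton]
    intro x
    dsimp only
    by_cases hx : x ∈ rst F E ξ u ∧ ∀ y ∈ nbr E u, ext F ξ x v ≤ ext F ξ x y
    swap
    · refine lintegral_mono fun t => ?_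
      simp only [hf]
      rw [indicator_of_notMem]
      · exact bot_le
      · rintro ⟨h1, h2⟩
        refine hx ⟨?_, fun y hy => ?_⟩
        · have := ((mem_ham_iff (u := u) _).mp h1).1
          rwa [rst_update hu] at this
        · have := h2 y hy
          rwa [ext_update hu, ext_update hu, if_neg hvu, if_neg (mem_nbr.mp hy).1] at this
    obtain ⟨hx1, hx2⟩ := hx
    have hmem : ∀ t, Function.update x ⟨u, hu⟩ t ∈ ham F E ξ ↔
        ∀ w ∈ nbr E u, |t - ext F ξ x w| ≤ 1 := by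
      intro t
      rw [mem_ham_iff (u := u), rst_update hu]
      simp only [hx1, true_and]
      constructor
      · intro h w hw
        have := h w hw
        rwa [ext_update hu, ext_update hu, if_pos rfl, if_neg (mem_nbr.mp hw).1] at this
      · intro h w hw
        rw [ext_update hu, ext_update hu, if_pos rfl, if_neg (mem_nbr.mp hw).1]
        exact h w hw
    obtain ⟨wM, hwM, hM⟩ := Finset.exists_max_image (nbr E u) (fun w => ext F ξ x w) ⟨v, hv⟩
    set a := ext F ξ x wM - 1 with ha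
    set b := ext F ξ x v + 1 with hb
    have hfib : ∀ t, Function.update x ⟨u, hu⟩ t ∈ ham F E ξ ↔ t ∈ Icc a b := by
      intro t
      rw [hmem t, mem_Icc]
      constructor
      · intro h
        have h1 := abs_le.mp (h wM hwM)
        have h2 := abs_le.mp (h v hv)
        constructor <;> linarith
      · rintro ⟨h1, h2⟩ w hw
        have h3 := hM w hw
        have h4 := hx2 w hw
        rw [abs_le]; constructor <;> linarith
    rcases lt_or_ge b a with hab | hab
    · -- empty fibre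
      refine lintegral_mono fun t => ?_
      simp only [hf]
      rw [indicator_of_notMem]
      · exact bot_le
      · rintro ⟨h1, h2⟩
        have := (hfib t).mp h1
        linarith [this.1, this.2]
    have hba : b - a ≤ 2 := by
      have := hx2 wM hwM
      have := hM v hv
      linarith
    have hupd : ∀ s, HasDerivAt (fun t => ζ (Function.update x ⟨u, hu⟩ t))
        (pd ζ ⟨u, hu⟩ (Function.update x ⟨u, hu⟩ s)) s := by
      intro s
      have h1 : HasFDerivAt ζ (fderiv ℝ ζ (Function.update x ⟨u, hu⟩ s))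
          (Function.update x ⟨u, hu⟩ s) :=
        (hζ.differentiable (by norm_num) _).hasFDerivAt
      exact h1.comp_hasDerivAt s (hasDerivAt_update x ⟨u, hu⟩ s)
    have hcu : Continuous fun s : ℝ => Function.update x ⟨u, hu⟩ s :=
      continuous_const.update _ continuous_id
    have hcz : Continuous fun s => pd ζ ⟨u, hu⟩ (Function.update x ⟨u, hu⟩ s) :=
      (continuous_pd hζ _).comp hcu
    have hzb : ζ (Function.update x ⟨u, hu⟩ b) = 0 := by
      refine hw _ ((hfib b).mpr ⟨hab, le_rfl⟩) ?_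
      rw [ext_update hu, ext_update hu, if_pos rfl, if_neg hvu, hb]; ring
    set J : ℝ≥0∞ := ∫⁻ s in Icc a b, ENNReal.ofReal
      (pd ζ ⟨u, hu⟩ (Function.update x ⟨u, hu⟩ s) ^ 2) with hJ
    have hpt : ∀ s ∈ Icc a b, ENNReal.ofReal (ζ (Function.update x ⟨u, hu⟩ s) ^ 2) ≤ 2 * J := by
      intro s hs
      refine (link_one (fun s _ => hupd s) hcz.continuousOn hzb hs).trans ?_
      rw [← hJ]
      gcongr
      rw [show (2 : ℝ≥0∞) = ENNReal.ofReal 2 by simp]
      exact ENNReal.ofReal_le_ofReal hba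
    -- compare
    have hrm : Measurable fun s => ρ (Function.update x ⟨u, hu⟩ s) := hρ.comp hcu.measurable
    calc ∫⁻ t, f (Function.update x ⟨u, hu⟩ t)
        ≤ ∫⁻ t in Icc a b, ρ (Function.update x ⟨u, hu⟩ t) * (2 * J) := by
          rw [← lintegral_indicator measurableSet_Icc]
          refine lintegral_mono fun t => ?_
          simp only [hf]
          by_cases ht : Function.update x ⟨u, hu⟩ t ∈ ham F E ξ ∩ low F E ξ u v
          · have ht' := (hfib t).mp ht.1
            rw [indicator_of_mem ht, indicator_of_mem ht']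
            gcongr
            exact hpt t ht'
          · rw [indicator_of_notMem ht]; exact bot_le
      _ = ∫⁻ t in Icc a b, ∫⁻ s in Icc a b, 2 * (ρ (Function.update x ⟨u, hu⟩ t) *
            ENNReal.ofReal (pd ζ ⟨u, hu⟩ (Function.update x ⟨u, hu⟩ s) ^ 2)) := by
          refine lintegral_congr fun t => ?_
          have hm : Measurable fun s => ENNReal.ofReal
              (pd ζ ⟨u, hu⟩ (Function.update x ⟨u, hu⟩ s) ^ 2) :=
            (hcz.pow 2).measurable.ennreal_ofReal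
          rw [lintegral_const_mul _ (hm.const_mul _), lintegral_const_mul _ hm, ← hJ]
          ring
      _ ≤ ∫⁻ t in Icc a b, ∫⁻ s in Icc a b, 2 * (Q * ρ (Function.update x ⟨u, hu⟩ s) *
            ENNReal.ofReal (pd ζ ⟨u, hu⟩ (Function.update x ⟨u, hu⟩ s) ^ 2)) := by
          refine setLIntegral_mono' measurableSet_Icc fun t ht => ?_
          refine setLIntegral_mono' measurableSet_Icc fun s hs => ?_
          gcongr
          refine hQ _ ((hfib t).mpr ht) _ ((hfib s).mpr hs) fun y hy => ?_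
          have hy' : y ≠ ⟨u, hu⟩ := fun h => hy (by rw [h])
          rw [Function.update_of_ne hy', Function.update_of_ne hy']
      _ = ENNReal.ofReal (b - a) * ∫⁻ s in Icc a b, 2 * (Q * ρ (Function.update x ⟨u, hu⟩ s) *
            ENNReal.ofReal (pd ζ ⟨u, hu⟩ (Function.update x ⟨u, hu⟩ s) ^ 2)) := by
          rw [setLIntegral_const, Real.volume_Icc, mul_comm]
      _ ≤ 2 * ∫⁻ s in Icc a b, 2 * Q * (ρ (Function.update x ⟨u, hu⟩ s) *
            ENNReal.ofReal (en ζ (Function.update x ⟨u, hu⟩ s))) := by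
          refine mul_le_mul' ?_ (lintegral_mono fun s => ?_)
          · rw [show (2 : ℝ≥0∞) = ENNReal.ofReal 2 by simp]
            exact ENNReal.ofReal_le_ofReal hba
          · have h1 : pd ζ ⟨u, hu⟩ (Function.update x ⟨u, hu⟩ s) ^ 2 ≤
                en ζ (Function.update x ⟨u, hu⟩ s) :=
              Finset.single_le_sum (f := fun y => pd ζ y (Function.update x ⟨u, hu⟩ s) ^ 2)
                (fun _ _ => sq_nonneg _) (Finset.mem_univ _)
            calc _ = 2 * Q * (ρ (Function.update x ⟨u, hu⟩ s) *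
                  ENNReal.ofReal (pd ζ ⟨u, hu⟩ (Function.update x ⟨u, hu⟩ s) ^ 2)) := by ring
              _ ≤ _ := mul_le_mul' le_rfl (mul_le_mul' le_rfl (ENNReal.ofReal_le_ofReal h1))
      _ = ∫⁻ t, g (Function.update x ⟨u, hu⟩ t) := by
          have hm : Measurable fun s => ρ (Function.update x ⟨u, hu⟩ s) *
            ENNReal.ofReal (en ζ (Function.update x ⟨u, hu⟩ s)) :=
            hrm.mul ((continuous_en hζ).comp hcu).measurable.ennreal_ofReal
          rw [lintegral_const_mul _ hm, ← mul_assoc, ← mul_assoc,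
            show (2 : ℝ≥0∞) * 2 = 4 by norm_num, ← lintegral_indicator measurableSet_Icc,
            ← lintegral_const_mul _ (hm.indicator measurableSet_Icc)]
          refine lintegral_congr fun t => ?_
          simp only [hg]
          by_cases ht : t ∈ Icc a b
          · rw [indicator_of_mem ht, indicator_of_mem ((hfib t).mpr ht)]
          · rw [indicator_of_notMem ht, indicator_of_notMem (fun h => ht ((hfib t).mp h))]
  have hgm' : Measurable fun h => (ham F E ξ).indicator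
      (fun h => ρ h * ENNReal.ofReal (en ζ h)) h :=
    (hρ.mul (continuous_en hζ).measurable.ennreal_ofReal).indicator measurableSet_ham
  have e2 : ∫⁻ x, g x = 4 * Q * ∫⁻ h, (ham F E ξ).indicator
      (fun h => ρ h * ENNReal.ofReal (en ζ h)) h := by
    simp only [hg]
    rw [lintegral_const_mul _ hgm']
  rw [← e2]
  exact key

/-! ### the weighted inequality -/

/-- The displacement of the push. -/
def disp (F : Finset U) (ξ : U → ℝ) (v : U) (γ : U → ℝ) (h : F → ℝ) (x : F) : ℝ :=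
  if (x : U) = v then 0 else max 0 (ext F ξ h v + γ x - h x)

theorem push_eq (v : U) (γ : U → ℝ) (t : ℝ) (h : F → ℝ) :
    push F ξ v γ t h = h + t • disp F ξ v γ h := by
  ext x
  simp only [push, disp, Pi.add_apply, Pi.smul_apply, smul_eq_mul]
  split_ifs <;> ring

theorem disp_of_notMem {v : U} {γ : U → ℝ} {h : F → ℝ} {x : F} (hx : x ∉ sset F ξ v γ h) :
    disp F ξ v γ h x = 0 := by
  have h1 := push_of_notMem (t := 1) hx
  rw [push_eq] at h1
  simpa using h1

theorem disp_of_mem {v : U} {γ : U → ℝ} {h : F → ℝ} {x : F} (hx : x ∈ sset F ξ v γ h) :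
    disp F ξ v γ h x = ext F ξ h v + γ x - h x := by
  have h1 := push_of_mem (t := 1) hx
  rw [push_eq] at h1
  simp only [Pi.add_apply, Pi.smul_apply, smul_eq_mul, one_mul] at h1
  linarith

/-- Heights whose push is admissible. -/
def good (F : Finset U) (E : Finset (U × U)) (ξ : U → ℝ) (v : U) (γ : U → ℝ) : Set (F → ℝ) :=
  {h | h ∈ ham F E ξ ∧ push F ξ v γ 1 h ∈ ham F E ξ}


theorem push_mem_ham {v : U} {γ : U → ℝ} {h : F → ℝ} (hh : h ∈ good F E ξ v γ) {t : ℝ}
    (h0 : 0 ≤ t) (h1 : t ≤ 1) : push F ξ v γ t h ∈ ham F E ξ := by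
  have h2 := convex_ham (F := F) (E := E) (ξ := ξ) hh.1 hh.2 (by linarith : 0 ≤ 1 - t) h0 (by ring)
  have e : push F ξ v γ t h = (1 - t) • h + t • push F ξ v γ 1 h := by
    ext x
    simp only [push_eq, Pi.add_apply, Pi.smul_apply, smul_eq_mul]
    ring
  rw [e]; exact h2

theorem push_mem_low {u v : U} {γ : U → ℝ} {h : F → ℝ} (hu : u ∈ F) (hv : v ∈ nbr E u)
    (hγu : γ u = 1) {θ τ : ℝ} (hγ : ∀ y ∈ nbr E u, y ∈ F → y ≠ v → θ ≤ γ y)
    (hτ0 : 0 ≤ τ) (hτ1 : τ ≤ 1) (hτ : 2 * (1 - τ) ≤ τ * θ) (hh : h ∈ good F E ξ v γ) :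
    push F ξ v γ τ h ∈ low F E ξ u v := by
  intro y hy
  rw [ext_push_v]
  by_cases hyv : y = v
  · rw [hyv, ext_push_v]
  have huv : u ≠ v := fun h => (mem_nbr.mp hv).1 h.symm
  have k1 := abs_le.mp (((mem_ham_iff (u := u) _).mp hh.1).2 v hv)
  by_cases hyF : y ∈ F
  · rw [ext_mem hyF, push, if_neg (by exact hyv)]
    have k2 := abs_le.mp (((mem_ham_iff (u := u) _).mp hh.1).2 y hy)
    rw [ext_mem hyF] at k2
    have k3 := hγ y hy hyF hyv
    have k4 : ext F ξ h v + γ y - h ⟨y, hyF⟩ ≤ max 0 (ext F ξ h v + γ y - h ⟨y, hyF⟩) :=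
      le_max_right _ _
    have k5 : 0 ≤ max 0 (ext F ξ h v + γ y - h ⟨y, hyF⟩) := le_max_left _ _
    have k6 : τ * (ext F ξ h v + γ y - h ⟨y, hyF⟩) ≤
        τ * max 0 (ext F ξ h v + γ y - h ⟨y, hyF⟩) := mul_le_mul_of_nonneg_left k4 hτ0
    have k7 : τ * θ ≤ τ * γ y := mul_le_mul_of_nonneg_left k3 hτ0
    have k8 : h ⟨y, hyF⟩ - ext F ξ h v ≥ -2 := by linarith
    change ext F ξ h v ≤ h ⟨y, hyF⟩ + τ * max 0 (ext F ξ h v + γ y - h ⟨y, hyF⟩)
    nlinarith [mul_le_mul_of_nonneg_left k8 (by linarith : 0 ≤ 1 - τ)]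
  · rw [ext_notMem hyF]
    have k2 := abs_le.mp (((mem_ham_iff (u := u) _).mp hh.2).2 y hy)
    rw [ext_notMem hyF, ext_mem hu, push, if_neg (by exact huv), hγu] at k2
    have k4 : ext F ξ h v + 1 - h ⟨u, hu⟩ ≤ max 0 (ext F ξ h v + 1 - h ⟨u, hu⟩) :=
      le_max_right _ _
    change _ ∧ h ⟨u, hu⟩ + 1 * max 0 (ext F ξ h v + 1 - h ⟨u, hu⟩) - ξ y ≤ 1 at k2
    linarith [k2.2]

/-- The density does not decrease too much along the push. -/
def DensAt (F : Finset U) (E : Finset (U × U)) (ξ : U → ℝ) (v : U) (γ : U → ℝ)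
    (ρ : (F → ℝ) → ℝ≥0∞) (q : ℝ) : Prop :=
  ∀ h ∈ good F E ξ v γ, ∀ t : ℝ, 0 ≤ t → t ≤ 1 →
    ρ h ≤ ENNReal.ofReal q ^ (sset F ξ v γ h).card * ρ (push F ξ v γ t h)

/-- The weight. -/
def wt (F : Finset U) (ξ : U → ℝ) (v : U) (γ : U → ℝ) (κ : ℝ) (h : F → ℝ) : ℝ :=
  κ ^ (sset F ξ v γ h).card / ((sset F ξ v γ h).card + 1)

theorem continuous_push₂ (v : U) (γ : U → ℝ) :
    Continuous fun p : (F → ℝ) × ℝ => push F ξ v γ p.2 p.1 := by
  refine continuous_pi fun x => ?_
  by_cases hx : (x : U) = v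
  · simp only [push, hx, if_true]; exact (continuous_apply x).comp continuous_fst
  · simp only [push, hx, if_false]
    exact ((continuous_apply x).comp continuous_fst).add (continuous_snd.mul
      (continuous_const.max ((((continuous_ext v).comp continuous_fst).add
        continuous_const).sub ((continuous_apply x).comp continuous_fst))))

/-- **GLOBAL KORN INEQUALITY for one wall.** -/
theorem kor_main {u v : U} {γ : U → ℝ} (hu : u ∈ F) (hv : v ∈ nbr E u) (hγu : γ u = 1)
    {θ τ D κ q : ℝ} (hγ : ∀ y ∈ nbr E u, y ∈ F → y ≠ v → θ ≤ γ y)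
    (hτ0 : 0 ≤ τ) (hτ1 : τ < 1) (hτ : 2 * (1 - τ) ≤ τ * θ)
    (hD : ∀ h ∈ ham F E ξ, ∀ x : F, (x : U) ≠ v → ext F ξ h v + γ x - h x ≤ D)
    (hκ : 0 ≤ κ) (hq : 0 ≤ q) (hκq : κ * q ≤ 1 - τ)
    {ρ : (F → ℝ) → ℝ≥0∞} (hρ : Measurable ρ) {Q : ℝ≥0∞} (hQ : OscAt F E ξ u ρ Q)
    (hρq : DensAt F E ξ v γ ρ q) {ζ : (F → ℝ) → ℝ} (hζ : ContDiff ℝ 1 ζ)
    (hw : ∀ h ∈ ham F E ξ, ext F ξ h u - ext F ξ h v = 1 → ζ h = 0) :
    ∫⁻ h, (good F E ξ v γ).indicator
        (fun h => ρ h * ENNReal.ofReal (wt F ξ v γ κ h * ζ h ^ 2)) h ≤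
      (8 * Q + ENNReal.ofReal (2 * D ^ 2)) *
        ∫⁻ h, (ham F E ξ).indicator (fun h => ρ h * ENNReal.ofReal (en ζ h)) h := by
  classical
  set f1 : (F → ℝ) → ℝ≥0∞ :=
    (ham F E ξ ∩ low F E ξ u v).indicator fun h => ρ h * ENNReal.ofReal (ζ h ^ 2) with hf1
  set f2 : (F → ℝ) → ℝ≥0∞ :=
    (ham F E ξ).indicator fun h => ρ h * ENNReal.ofReal (en ζ h) with hf2
  have hf1m : Measurable f1 := (hρ.mul ((hζ.continuous.pow 2).measurable.ennreal_ofReal)).indicator
    (measurableSet_ham.inter (isClosed_low u v).measurableSet)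
  have hf2m : Measurable f2 := (hρ.mul (continuous_en hζ).measurable.ennreal_ofReal).indicator
    measurableSet_ham
  have hlink : ∫⁻ h, f1 h ≤ 4 * Q * ∫⁻ h, f2 h := link hu hv hρ hQ hζ hw
  -- pointwise estimate
  have hpt : ∀ h, (good F E ξ v γ).indicator
      (fun h => ρ h * ENNReal.ofReal (wt F ξ v γ κ h * ζ h ^ 2)) h ≤
      2 * (ENNReal.ofReal ((1 - τ) ^ (sset F ξ v γ h).card) * f1 (push F ξ v γ τ h)) +
      ENNReal.ofReal (2 * D ^ 2) * ∫⁻ t in Icc 0 τ,
        ENNReal.ofReal ((1 - t) ^ (sset F ξ v γ h).card) * f2 (push F ξ v γ t h) := by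
    intro h
    by_cases hh : h ∈ good F E ξ v γ
    swap
    · rw [indicator_of_notMem hh]; exact bot_le
    rw [indicator_of_mem hh]
    set n := (sset F ξ v γ h).card with hn
    have hn0 : (0:ℝ) ≤ n := Nat.cast_nonneg n
    have hz : ∀ s, HasDerivAt (fun t => ζ (push F ξ v γ t h))
        (fderiv ℝ ζ (push F ξ v γ s h) (disp F ξ v γ h)) s := by
      intro s
      have h1 : HasFDerivAt ζ (fderiv ℝ ζ (push F ξ v γ s h)) (push F ξ v γ s h) :=
        (hζ.differentiable (by norm_num) _).hasFDerivAt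
      have h2 : HasDerivAt (fun t => push F ξ v γ t h) (disp F ξ v γ h) s := by
        have e : (fun t => push F ξ v γ t h) = fun t : ℝ => h + t • disp F ξ v γ h := by
          ext t x; rw [push_eq]
        rw [e]
        simpa using ((hasDerivAt_id s).smul_const (disp F ξ v γ h)).const_add h
      exact h1.comp_hasDerivAt s h2
    have hcz : Continuous fun s => fderiv ℝ ζ (push F ξ v γ s h) (disp F ξ v γ h) := by
      have h3 : Continuous fun s => push F ξ v γ s h :=
        (continuous_push₂ v γ).comp (continuous_const.prodMk continuous_id)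
      exact ((hζ.continuous_fderiv (by norm_num)).comp h3).clm_apply continuous_const
    have hstep := sq_sub_le hτ0 (fun s _ => hz s) hcz.continuousOn
    have hpush0 : push F ξ v γ 0 h = h := by rw [push_eq]; simp
    rw [hpush0] at hstep
    -- bound of the displacement
    have hdisp : ∀ x ∈ sset F ξ v γ h, |disp F ξ v γ h x| ≤ D := by
      intro x hx
      have h4 := mem_sset.mp hx
      rw [disp_of_mem hx, abs_le]
      have := hD h hh.1 x h4.1
      constructor <;> linarith [h4.2]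
    have hder : ∀ s, (fderiv ℝ ζ (push F ξ v γ s h) (disp F ξ v γ h)) ^ 2 ≤
        D ^ 2 * n * en ζ (push F ξ v γ s h) := fun s =>
      sq_fderiv_le ζ _ _ (fun x hx => disp_of_notMem hx) hdisp
    have hsq : ζ h ^ 2 ≤ 2 * ζ (push F ξ v γ τ h) ^ 2 + 2 * (ζ (push F ξ v γ τ h) - ζ h) ^ 2 := by
      nlinarith [sq_nonneg (ζ (push F ξ v γ τ h) * 2 - ζ h)]
    -- the density
    have hden : ∀ t ∈ Icc (0:ℝ) τ, ENNReal.ofReal (κ ^ n) * ρ h ≤
        ENNReal.ofReal ((1 - t) ^ n) * ρ (push F ξ v γ t h) := by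
      intro t ht
      calc ENNReal.ofReal (κ ^ n) * ρ h ≤ ENNReal.ofReal (κ ^ n) *
            (ENNReal.ofReal q ^ n * ρ (push F ξ v γ t h)) := by
            gcongr
            exact hρq h hh t ht.1 (by linarith [ht.2])
        _ = ENNReal.ofReal ((κ * q) ^ n) * ρ (push F ξ v γ t h) := by
            rw [← mul_assoc, ← ENNReal.ofReal_pow hq, ← ENNReal.ofReal_mul (by positivity),
              mul_pow]
        _ ≤ _ := by
            gcongr
            linarith [ht.2]
    have hmemt : ∀ t ∈ Icc (0:ℝ) τ, push F ξ v γ t h ∈ ham F E ξ := fun t ht =>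
      push_mem_ham hh ht.1 (by linarith [ht.2])
    have hwt : wt F ξ v γ κ h = κ ^ n / (n + 1) := by rw [wt]
    have hwt0 : 0 ≤ wt F ξ v γ κ h := by rw [hwt]; positivity
    have hwt1 : wt F ξ v γ κ h ≤ κ ^ n := by
      rw [hwt]
      exact div_le_self (by positivity) (by linarith)
    have hwt2 : wt F ξ v γ κ h * n ≤ κ ^ n := by
      rw [hwt, div_mul_eq_mul_div, div_le_iff₀ (by linarith)]
      nlinarith [pow_nonneg hκ n]
    calc ρ h * ENNReal.ofReal (wt F ξ v γ κ h * ζ h ^ 2)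
        ≤ ρ h * (ENNReal.ofReal (2 * (wt F ξ v γ κ h * ζ (push F ξ v γ τ h) ^ 2)) +
            ENNReal.ofReal (2 * wt F ξ v γ κ h) *
              ENNReal.ofReal ((ζ (push F ξ v γ τ h) - ζ h) ^ 2)) := by
          gcongr
          rw [← ENNReal.ofReal_mul (by positivity), ← ENNReal.ofReal_add (by positivity)
            (by positivity)]
          apply ENNReal.ofReal_le_ofReal
          nlinarith [mul_le_mul_of_nonneg_left hsq hwt0]
      _ = ρ h * ENNReal.ofReal (2 * (wt F ξ v γ κ h * ζ (push F ξ v γ τ h) ^ 2)) +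
            ρ h * (ENNReal.ofReal (2 * wt F ξ v γ κ h) *
              ENNReal.ofReal ((ζ (push F ξ v γ τ h) - ζ h) ^ 2)) := by rw [mul_add]
      _ ≤ _ := by
          refine add_le_add ?_ ?_
          · -- endpoint
            have hlow : push F ξ v γ τ h ∈ ham F E ξ ∩ low F E ξ u v :=
              ⟨hmemt τ ⟨hτ0, le_rfl⟩, push_mem_low hu hv hγu hγ hτ0 hτ1.le hτ hh⟩
            rw [hf1, indicator_of_mem hlow, ENNReal.ofReal_mul (by norm_num),
              ENNReal.ofReal_mul hwt0]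
            calc ρ h * (ENNReal.ofReal 2 * (ENNReal.ofReal (wt F ξ v γ κ h) *
                  ENNReal.ofReal (ζ (push F ξ v γ τ h) ^ 2)))
                ≤ ρ h * (ENNReal.ofReal 2 * (ENNReal.ofReal (κ ^ n) *
                  ENNReal.ofReal (ζ (push F ξ v γ τ h) ^ 2))) := by gcongr
              _ = 2 * ((ENNReal.ofReal (κ ^ n) * ρ h) *
                  ENNReal.ofReal (ζ (push F ξ v γ τ h) ^ 2)) := by
                  rw [show ENNReal.ofReal 2 = 2 by simp]; ring
              _ ≤ 2 * ((ENNReal.ofReal ((1 - τ) ^ n) * ρ (push F ξ v γ τ h)) *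
                  ENNReal.ofReal (ζ (push F ξ v γ τ h) ^ 2)) := by
                  exact mul_le_mul' le_rfl (mul_le_mul' (hden τ ⟨hτ0, le_rfl⟩) le_rfl)
              _ = _ := by ring
          · -- path
            have hcen : Continuous fun t => en ζ (push F ξ v γ t h) :=
              (continuous_en hζ).comp
                ((continuous_push₂ v γ).comp (continuous_const.prodMk continuous_id))
            calc ρ h * (ENNReal.ofReal (2 * wt F ξ v γ κ h) *
                  ENNReal.ofReal ((ζ (push F ξ v γ τ h) - ζ h) ^ 2))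
                ≤ ρ h * (ENNReal.ofReal (2 * wt F ξ v γ κ h) *
                  ∫⁻ t in Icc 0 τ, ENNReal.ofReal (D ^ 2 * n * en ζ (push F ξ v γ t h))) := by
                  gcongr
                  refine hstep.trans ?_
                  calc _ ≤ 1 * ∫⁻ t in Icc 0 τ, ENNReal.ofReal
                        ((fderiv ℝ ζ (push F ξ v γ t h) (disp F ξ v γ h)) ^ 2) := by
                        gcongr
                        rw [← ENNReal.ofReal_one]
                        exact ENNReal.ofReal_le_ofReal (by linarith)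
                    _ ≤ _ := by
                        rw [one_mul]
                        exact lintegral_mono fun t => ENNReal.ofReal_le_ofReal (hder t)
              _ = ∫⁻ t in Icc 0 τ, ρ h * (ENNReal.ofReal (2 * wt F ξ v γ κ h) *
                    ENNReal.ofReal (D ^ 2 * n * en ζ (push F ξ v γ t h))) := by
                  have hm : Measurable fun t => ENNReal.ofReal
                      (D ^ 2 * n * en ζ (push F ξ v γ t h)) :=
                    (continuous_const.mul hcen).measurable.ennreal_ofReal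
                  rw [lintegral_const_mul _ (hm.const_mul _), lintegral_const_mul _ hm]
              _ ≤ ∫⁻ t in Icc 0 τ, ENNReal.ofReal (2 * D ^ 2) *
                    (ENNReal.ofReal ((1 - t) ^ n) * f2 (push F ξ v γ t h)) := by
                  refine setLIntegral_mono' measurableSet_Icc fun t ht => ?_
                  have hen := en_nonneg ζ (push F ξ v γ t h)
                  rw [hf2, indicator_of_mem (hmemt t ht)]
                  calc ρ h * (ENNReal.ofReal (2 * wt F ξ v γ κ h) *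
                        ENNReal.ofReal (D ^ 2 * n * en ζ (push F ξ v γ t h)))
                      = ρ h * ENNReal.ofReal (2 * D ^ 2 * (wt F ξ v γ κ h * n) *
                          en ζ (push F ξ v γ t h)) := by
                        rw [← ENNReal.ofReal_mul (by positivity)]
                        congr 2; ring
                    _ ≤ ρ h * ENNReal.ofReal (2 * D ^ 2 * κ ^ n *
                          en ζ (push F ξ v γ t h)) := by
                        gcongr
                    _ = ENNReal.ofReal (2 * D ^ 2) * ((ENNReal.ofReal (κ ^ n) * ρ h) *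
                          ENNReal.ofReal (en ζ (push F ξ v γ t h))) := by
                        rw [ENNReal.ofReal_mul (by positivity), ENNReal.ofReal_mul (by positivity)]
                        ring
                    _ ≤ ENNReal.ofReal (2 * D ^ 2) * ((ENNReal.ofReal ((1 - t) ^ n) *
                          ρ (push F ξ v γ t h)) *
                          ENNReal.ofReal (en ζ (push F ξ v γ t h))) := by
                        exact mul_le_mul' le_rfl (mul_le_mul' (hden t ht) le_rfl)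
                    _ = _ := by ring
              _ = _ := by
                  rw [lintegral_const_mul']
                  exact ENNReal.ofReal_ne_top
  -- integrate
  have hcard : Measurable fun p : (F → ℝ) × ℝ => (sset F ξ v γ p.1).card :=
    measurable_card_sset.comp measurable_fst
  have hjoint : Measurable fun p : (F → ℝ) × ℝ =>
      ENNReal.ofReal ((1 - p.2) ^ (sset F ξ v γ p.1).card) * f2 (push F ξ v γ p.2 p.1) := by
    refine Measurable.mul (Measurable.ennreal_ofReal ?_) (hf2m.comp (continuous_push₂ v γ).measurable)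
    exact (measurable_const.sub measurable_snd).pow hcard
  calc ∫⁻ h, (good F E ξ v γ).indicator
        (fun h => ρ h * ENNReal.ofReal (wt F ξ v γ κ h * ζ h ^ 2)) h
      ≤ ∫⁻ h, (2 * (ENNReal.ofReal ((1 - τ) ^ (sset F ξ v γ h).card) * f1 (push F ξ v γ τ h)) +
        ENNReal.ofReal (2 * D ^ 2) * ∫⁻ t in Icc 0 τ,
          ENNReal.ofReal ((1 - t) ^ (sset F ξ v γ h).card) * f2 (push F ξ v γ t h)) :=
        lintegral_mono hpt
    _ = 2 * (∫⁻ h, ENNReal.ofReal ((1 - τ) ^ (sset F ξ v γ h).card) * f1 (push F ξ v γ τ h)) +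
        ENNReal.ofReal (2 * D ^ 2) * ∫⁻ h, ∫⁻ t in Icc 0 τ,
          ENNReal.ofReal ((1 - t) ^ (sset F ξ v γ h).card) * f2 (push F ξ v γ t h) := by
        have hm1 : Measurable fun h => ENNReal.ofReal ((1 - τ) ^ (sset F ξ v γ h).card) *
            f1 (push F ξ v γ τ h) := by
          refine Measurable.mul (Measurable.ennreal_ofReal ?_)
            (hf1m.comp (continuous_push τ).measurable)
          exact measurable_const.pow measurable_card_sset
        rw [lintegral_add_left (hm1.const_mul _), lintegral_const_mul _ hm1,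
          lintegral_const_mul' _ _ ENNReal.ofReal_ne_top]
    _ = 2 * (∫⁻ h, f1 h) + ENNReal.ofReal (2 * D ^ 2) * (ENNReal.ofReal τ * ∫⁻ h, f2 h) := by
        rw [lintegral_push hτ1 hf1m]
        congr 2
        rw [lintegral_lintegral_swap (f := fun h t =>
          ENNReal.ofReal ((1 - t) ^ (sset F ξ v γ h).card) * f2 (push F ξ v γ t h))
          hjoint.aemeasurable]
        rw [setLIntegral_congr_fun measurableSet_Icc (g := fun _ => ∫⁻ h, f2 h) (fun t ht => by
          exact lintegral_push (lt_of_le_of_lt ht.2 hτ1) hf2m)]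
        rw [setLIntegral_const, Real.volume_Icc, sub_zero, mul_comm]
    _ ≤ 2 * (4 * Q * ∫⁻ h, f2 h) + ENNReal.ofReal (2 * D ^ 2) * (1 * ∫⁻ h, f2 h) := by
        gcongr
        rw [← ENNReal.ofReal_one]
        exact ENNReal.ofReal_le_ofReal hτ1.le
    _ = _ := by ring

end Crest.Agent.R144.Kor620
end
end

-- ▼ part R144/KorE1_761
section

/-!
R144 (S0197), helper761.  Korn inequality, hard walls: both sides of an edge.

On top of helper620's `kor_main`:
* `push_one_mem` : when is `push 1 h` in `ham F E ξ`;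
* `dens`, `osc_dens`, `densAt_dens` : linear sources;
* `korn_lower`, `korn_upper`, `korn_edge`.
-/

set_option autoImplicit false
set_option linter.unusedSectionVars false

open MeasureTheory Set
open scoped ENNReal

noncomputable section

namespace Crest.Agent.R144.KorE761

open Crest.Agent.R144.Ham560 (ext ham ext_mem ext_notMem continuous_ext nbr mem_nbr
  ext_update isClosed_ham measurableSet_ham convex_ham ext_neg ham_neg)
open Crest.Agent.R144.Kor620

variable {U : Type*} [DecidableEq U] {F : Finset U} {E : Finset (U × U)} {ξ : U → ℝ}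

/-- Conditions on the profile of the cone of the ordered edge `(u, v)`. -/
structure Prof (F : Finset U) (E : Finset (U × U)) (u v : U) (γ : U → ℝ) : Prop where
  apex : γ u = 1
  lip : ∀ a b, ((a, b) ∈ E ∨ (b, a) ∈ E) → a ≠ v → b ≠ v → |γ a - γ b| ≤ 1
  nbr_v : ∀ a ∈ nbr E v, |γ a| ≤ 1
  nbr_u : ∀ y ∈ nbr E u, y ≠ v → 1 / 2 ≤ γ y

theorem abs_max_sub_le {a b c c' : ℝ} (h1 : |a - b| ≤ 1) (h2 : |c - c'| ≤ 1) :
    |max a c - max b c'| ≤ 1 :=
  (abs_max_sub_max_le_max a c b c').trans (max_le h1 h2)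

theorem ext_push_one (v : U) (γ : U → ℝ) (h : F → ℝ) (z : U) :
    ext F ξ (push F ξ v γ 1 h) z =
      if z ∈ F ∧ z ≠ v then max (ext F ξ h z) (ext F ξ h v + γ z) else ext F ξ h z := by
  by_cases hz : z ∈ F
  · rw [ext_mem hz, ext_mem hz, push]
    by_cases hzv : z = v
    · simp [hzv]
    · simp only [hzv, if_false, hz, ne_eq, not_false_eq_true, and_self, if_true, one_mul]
      rcases le_total (h ⟨z, hz⟩) (ext F ξ h v + γ z) with h1 | h1
      · rw [max_eq_right (by linarith), max_eq_right h1]; ring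
      · rw [max_eq_left (by linarith), max_eq_left h1]; ring
  · simp [ext_notMem hz, hz]

/-- The full push of an admissible height is admissible. -/
theorem push_one_mem {u v : U} {γ : U → ℝ} (hγ : Prof F E u v γ) {h : F → ℝ}
    (hh : h ∈ ham F E ξ)
    (hfix : ∀ a ∈ F, a ≠ v → ∀ b ∈ nbr E a, b ∉ F → b ≠ v → ext F ξ h v + γ a ≤ ξ b + 1) :
    push F ξ v γ 1 h ∈ ham F E ξ := by
  have key : ∀ a b, ((a, b) ∈ E ∨ (b, a) ∈ E) → (a ∈ F ∧ a ≠ v) →
      |ext F ξ (push F ξ v γ 1 h) a - ext F ξ (push F ξ v γ 1 h) b| ≤ 1 := by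
    intro a b hab ha
    have h0 : |ext F ξ h a - ext F ξ h b| ≤ 1 := by
      rcases hab with h1 | h1
      · exact hh _ h1
      · rw [abs_sub_comm]; exact hh _ h1
    rw [ext_push_one, ext_push_one, if_pos ha]
    by_cases hb : b ∈ F ∧ b ≠ v
    · rw [if_pos hb]
      refine abs_max_sub_le h0 ?_
      have := hγ.lip a b hab ha.2 hb.2
      rwa [add_sub_add_left_eq_sub]
    · rw [if_neg hb]
      by_cases hbv : b = v
      · subst hbv
        have h1 : a ∈ nbr E b := mem_nbr.mpr ⟨ha.2, hab.symm⟩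
        have h2 := abs_le.mp (hγ.nbr_v a h1)
        have h3 := abs_le.mp h0
        rw [abs_le]
        constructor
        · have := le_max_left (ext F ξ h a) (ext F ξ h b + γ a)
          linarith [h3.1]
        · have := max_le (show ext F ξ h a ≤ ext F ξ h b + 1 by linarith [h3.2])
            (show ext F ξ h b + γ a ≤ ext F ξ h b + 1 by linarith [h2.2])
          linarith
      · have hbF : b ∉ F := fun h => hb ⟨h, hbv⟩
        have hba : b ≠ a := fun h => hbF (h ▸ ha.1)
        have h1 := hfix a ha.1 ha.2 b (mem_nbr.mpr ⟨hba, hab⟩) hbF hbv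
        have h3 := abs_le.mp h0
        rw [ext_notMem hbF] at h3 ⊢
        rw [abs_le]
        constructor
        · have := le_max_left (ext F ξ h a) (ext F ξ h v + γ a)
          linarith [h3.1]
        · have := max_le (show ext F ξ h a ≤ ξ b + 1 by linarith [h3.2]) h1
          linarith
  intro p hp
  by_cases h1 : p.1 ∈ F ∧ p.1 ≠ v
  · exact key _ _ (Or.inl hp) h1
  by_cases h2 : p.2 ∈ F ∧ p.2 ≠ v
  · rw [abs_sub_comm]
    exact key _ _ (Or.inr hp) h2
  · rw [ext_push_one, ext_push_one, if_neg h1, if_neg h2]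
    exact hh p hp

/-- Density of a linear source. -/
def dens (l : F → ℝ) (h : F → ℝ) : ℝ≥0∞ := ENNReal.ofReal (Real.exp (∑ x, l x * h x))

theorem continuous_lin (l : F → ℝ) : Continuous fun h : F → ℝ => ∑ x, l x * h x := by fun_prop

theorem measurable_dens (l : F → ℝ) : Measurable (dens l) :=
  ((Real.continuous_exp.comp (continuous_lin l)).measurable).ennreal_ofReal

theorem dens_neg (l : F → ℝ) (h : F → ℝ) : dens (-l) (-h) = dens l h := by
  have e : ∑ x, (-l) x * (-h) x = ∑ x, l x * h x :=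
    Finset.sum_congr rfl fun x _ => by simp
  unfold dens
  rw [e]

theorem osc_dens {u v : U} (hu : u ∈ F) (hv : v ∈ nbr E u) {l : F → ℝ} {ε : ℝ}
    (hl : ∀ x, |l x| ≤ ε) : OscAt F E ξ u (dens l) (ENNReal.ofReal (Real.exp (2 * ε))) := by
  intro h hh h' hh' heq
  unfold dens
  rw [← ENNReal.ofReal_mul (Real.exp_pos _).le, ← Real.exp_add]
  apply ENNReal.ofReal_le_ofReal
  rw [Real.exp_le_exp]
  have hvu : v ≠ u := (mem_nbr.mp hv).1
  have e1 : ∑ x, l x * h x - ∑ x, l x * h' x = l ⟨u, hu⟩ * (h ⟨u, hu⟩ - h' ⟨u, hu⟩) := by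
    rw [← Finset.sum_sub_distrib, Finset.sum_eq_single (⟨u, hu⟩ : F)]
    · ring
    · intro x _ hx
      have hx' : (x : U) ≠ u := fun h => hx (Subtype.ext h)
      rw [heq x hx']; ring
    · intro h; exact absurd (Finset.mem_univ _) h
  have k1 := abs_le.mp (((mem_ham_iff (u := u) _).mp hh).2 v hv)
  have k2 := abs_le.mp (((mem_ham_iff (u := u) _).mp hh').2 v hv)
  have e2 : ext F ξ h v = ext F ξ h' v := by
    by_cases hvF : v ∈ F
    · rw [ext_mem hvF, ext_mem hvF]; exact heq ⟨v, hvF⟩ hvu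
    · rw [ext_notMem hvF, ext_notMem hvF]
  rw [ext_mem hu] at k1 k2
  rw [e2] at k1
  have h3 : |h ⟨u, hu⟩ - h' ⟨u, hu⟩| ≤ 2 := by
    rw [abs_le]; constructor <;> linarith [k1.1, k1.2, k2.1, k2.2]
  have h4 : l ⟨u, hu⟩ * (h ⟨u, hu⟩ - h' ⟨u, hu⟩) ≤ ε * 2 := by
    refine (le_abs_self _).trans ?_
    rw [abs_mul]
    have := (abs_nonneg (l ⟨u, hu⟩)).trans (hl ⟨u, hu⟩)
    exact mul_le_mul (hl _) h3 (abs_nonneg _) this
  linarith

theorem densAt_dens {v : U} {γ : U → ℝ} {l : F → ℝ} {ε D : ℝ} (hl : ∀ x, |l x| ≤ ε)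
    (hD : ∀ h ∈ ham F E ξ, ∀ x : F, (x : U) ≠ v → ext F ξ h v + γ x - h x ≤ D)
    (hD0 : 0 ≤ D) :
    DensAt F E ξ v γ (dens l) (Real.exp (D * ε)) := by
  intro h hh t ht0 ht1
  set S := sset F ξ v γ h with hS
  unfold dens
  rw [← ENNReal.ofReal_pow (Real.exp_pos _).le, ← Real.exp_nat_mul,
    ← ENNReal.ofReal_mul (Real.exp_pos _).le, ← Real.exp_add]
  apply ENNReal.ofReal_le_ofReal
  rw [Real.exp_le_exp]
  have e1 : ∑ x, l x * h x - ∑ x, l x * push F ξ v γ t h x =
      ∑ x ∈ S, l x * (h x - push F ξ v γ t h x) := by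
    rw [← Finset.sum_sub_distrib, ← Finset.sum_subset (Finset.subset_univ S)]
    · exact Finset.sum_congr rfl fun x _ => by ring
    · intro x _ hx
      rw [push_of_notMem hx]; ring
  have h2 : ∑ x ∈ S, l x * (h x - push F ξ v γ t h x) ≤ ∑ _x ∈ S, D * ε := by
    refine Finset.sum_le_sum fun x hx => ?_
    have h3 := mem_sset.mp hx
    have h4 := hD h hh.1 x h3.1
    have hε : 0 ≤ ε := (abs_nonneg (l x)).trans (hl x)
    refine (le_abs_self _).trans ?_
    rw [abs_mul, mul_comm D]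
    refine mul_le_mul (hl x) ?_ (abs_nonneg _) hε
    rw [push_of_mem hx, abs_le]
    constructor <;> nlinarith [h3.2]
  rw [Finset.sum_const, nsmul_eq_mul] at h2
  linarith

/-- `50` is enough. -/
theorem const_le {ε : ℝ} (hε : ε ≤ 1 / 20) :
    8 * ENNReal.ofReal (Real.exp (2 * ε)) + ENNReal.ofReal (2 * (5 / 2) ^ 2) ≤
      ENNReal.ofReal 25 := by
  have h1 : Real.exp (2 * ε) ≤ 1.2 := by
    have h2 : Real.exp (2 * ε) ≤ Real.exp (1 / 10) := Real.exp_le_exp.mpr (by linarith)
    have h3 : Real.exp (1 / 10 : ℝ) ≤ 1.2 := by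
      have := Real.exp_bound' (x := 1 / 10) (by norm_num) (by norm_num) (n := 3) (by norm_num)
      norm_num [Finset.sum_range_succ, Nat.factorial] at this
      linarith
    linarith
  rw [show (8 : ℝ≥0∞) = ENNReal.ofReal 8 by simp, ← ENNReal.ofReal_mul (by norm_num),
    ← ENNReal.ofReal_add (by positivity) (by norm_num)]
  apply ENNReal.ofReal_le_ofReal
  norm_num at h1 ⊢
  linarith

theorem exp_small {ε : ℝ} (hε : ε ≤ 1 / 20) : 1 / 6 * Real.exp (5 / 2 * ε) ≤ 1 - 4 / 5 := by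
  have h2 : Real.exp (5 / 2 * ε) ≤ Real.exp (1 / 8) := Real.exp_le_exp.mpr (by linarith)
  have h3 : Real.exp (1 / 8 : ℝ) ≤ 1.2 := by
    have := Real.exp_bound' (x := 1 / 8) (by norm_num) (by norm_num) (n := 3) (by norm_num)
    norm_num [Finset.sum_range_succ, Nat.factorial] at this
    linarith
  norm_num at h3 ⊢
  linarith

/-- Condition on the fixed data, seen from the height `c` at `v`. -/
def LowOK (F : Finset U) (E : Finset (U × U)) (ξ : U → ℝ) (v : U) (γ : U → ℝ) (c : ℝ) : Prop :=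
  ∀ a ∈ F, a ≠ v → ∀ b ∈ nbr E a, b ∉ F → b ≠ v → c + γ a ≤ ξ b + 1

theorem LowOK.mono {v : U} {γ : U → ℝ} {c c' : ℝ} (h : LowOK F E ξ v γ c) (hc : c' ≤ c) :
    LowOK F E ξ v γ c' := fun a ha hav b hb hbF hbv => by
  linarith [h a ha hav b hb hbF hbv]

/-- Korn inequality, `h_v` low. -/
theorem korn_lower {u v : U} {γ : U → ℝ} (hu : u ∈ F) (hv : v ∈ nbr E u) (hγ : Prof F E u v γ)
    (hD : ∀ h ∈ ham F E ξ, ∀ x : F, (x : U) ≠ v → ext F ξ h v + γ x - h x ≤ 5 / 2)
    {l : F → ℝ} {ε : ℝ} (hl : ∀ x, |l x| ≤ ε) (hε : ε ≤ 1 / 20) {c : ℝ}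
    (hc : LowOK F E ξ v γ c) {ζ : (F → ℝ) → ℝ} (hζ : ContDiff ℝ 1 ζ)
    (hw : ∀ h ∈ ham F E ξ, ext F ξ h u - ext F ξ h v = 1 → ζ h = 0) :
    ∫⁻ h, (ham F E ξ ∩ {h | ext F ξ h v ≤ c}).indicator
        (fun h => dens l h * ENNReal.ofReal (wt F ξ v γ (1 / 6) h * ζ h ^ 2)) h ≤
      ENNReal.ofReal 25 *
        ∫⁻ h, (ham F E ξ).indicator (fun h => dens l h * ENNReal.ofReal (en ζ h)) h := by
  have h1 := kor_main hu hv hγ.apex (θ := 1 / 2) (τ := 4 / 5) (D := 5 / 2) (κ := 1 / 6)
    (q := Real.exp (5 / 2 * ε)) (fun y hy _ hyv => hγ.nbr_u y hy hyv) (by norm_num)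
    (by norm_num) (by norm_num) hD (by norm_num) (Real.exp_pos _).le (exp_small hε)
    (measurable_dens l) (osc_dens (ξ := ξ) hu hv hl) (densAt_dens hl hD (by norm_num)) hζ hw
  refine le_trans (lintegral_mono fun h => ?_) (h1.trans (mul_le_mul' (const_le hε) le_rfl))
  refine indicator_le_indicator_of_subset ?_ (fun _ => bot_le) h
  rintro h ⟨h2, h3⟩
  exact ⟨h2, push_one_mem hγ h2 (hc.mono h3)⟩

theorem pd_neg {ζ : (F → ℝ) → ℝ} (hζ : ContDiff ℝ 1 ζ) (x : F) (h : F → ℝ) :
    pd (fun h => ζ (-h)) x h = -pd ζ x (-h) := by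
  unfold pd
  have h1 : HasFDerivAt ζ (fderiv ℝ ζ (-h)) (-h) :=
    (hζ.differentiable (by norm_num) _).hasFDerivAt
  have h2 : HasFDerivAt (fun h : F → ℝ => -h) (-ContinuousLinearMap.id ℝ (F → ℝ)) h :=
    (hasFDerivAt_id h).neg
  have h3 : HasFDerivAt (fun h => ζ (-h))
      ((fderiv ℝ ζ (-h)).comp (-ContinuousLinearMap.id ℝ (F → ℝ))) h := h1.comp h h2
  rw [h3.fderiv]
  simp

theorem en_neg {ζ : (F → ℝ) → ℝ} (hζ : ContDiff ℝ 1 ζ) (h : F → ℝ) :
    en (fun h => ζ (-h)) h = en ζ (-h) := by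
  unfold en
  refine Finset.sum_congr rfl fun x _ => ?_
  rw [pd_neg hζ]; ring

theorem neg_mem_ham_iff {h : F → ℝ} : -h ∈ ham F E (-ξ) ↔ h ∈ ham F E ξ := by
  constructor
  · intro h1
    have := ham_neg h1
    simpa using this
  · exact ham_neg

theorem ext_neg' (h : F → ℝ) (z : U) : ext F (-ξ) h z = -ext F ξ (-h) z := by
  have := ext_neg (F := F) (ξ := ξ) (-h) z
  rw [neg_neg] at this
  exact this

/-- Korn inequality, `h_v` high. -/
theorem korn_upper {u v : U} {γ : U → ℝ} (hu : u ∈ F) (hv : v ∈ nbr E u) (hγ : Prof F E u v γ)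
    (hD : ∀ h ∈ ham F E ξ, ∀ x : F, (x : U) ≠ v → h x - ext F ξ h v + γ x ≤ 5 / 2)
    {l : F → ℝ} {ε : ℝ} (hl : ∀ x, |l x| ≤ ε) (hε : ε ≤ 1 / 20) {c : ℝ}
    (hc : LowOK F E (-ξ) v γ (-c)) {ζ : (F → ℝ) → ℝ} (hζ : ContDiff ℝ 1 ζ)
    (hw : ∀ h ∈ ham F E ξ, ext F ξ h u - ext F ξ h v = -1 → ζ h = 0) :
    ∫⁻ h, (ham F E ξ ∩ {h | c ≤ ext F ξ h v}).indicator
        (fun h => dens l h * ENNReal.ofReal (wt F (-ξ) v γ (1 / 6) (-h) * ζ h ^ 2)) h ≤
      ENNReal.ofReal 25 *
        ∫⁻ h, (ham F E ξ).indicator (fun h => dens l h * ENNReal.ofReal (en ζ h)) h := by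
  have hζ' : ContDiff ℝ 1 fun h : F → ℝ => ζ (-h) := hζ.comp contDiff_neg
  have h1 := korn_lower (ξ := -ξ) (l := -l) (ε := ε) (c := -c) hu hv hγ ?_ ?_ hε hc hζ' ?_
  · rw [← lintegral_neg_eq_self, ← lintegral_neg_eq_self
      (f := fun h => (ham F E ξ).indicator (fun h => dens l h * ENNReal.ofReal (en ζ h)) h)]
    refine le_trans (le_of_eq ?_) (h1.trans (le_of_eq ?_))
    · refine lintegral_congr fun h => ?_
      have e1 : -h ∈ ham F E ξ ∩ {h | c ≤ ext F ξ h v} ↔
          h ∈ ham F E (-ξ) ∩ {h | ext F (-ξ) h v ≤ -c} := by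
        have h2 : -h ∈ ham F E ξ ↔ h ∈ ham F E (-ξ) := by
          rw [← neg_mem_ham_iff, neg_neg]
        simp only [mem_inter_iff, h2, ext_neg']
        constructor
        · rintro ⟨h3, h4⟩
          refine ⟨h3, ?_⟩
          show -ext F ξ (-h) v ≤ -c
          have : c ≤ ext F ξ (-h) v := h4
          linarith
        · rintro ⟨h3, h4⟩
          refine ⟨h3, ?_⟩
          show c ≤ ext F ξ (-h) v
          have : -ext F ξ (-h) v ≤ -c := h4
          linarith
      have e2 : dens (-l) h = dens l (-h) := by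
        rw [← dens_neg l (-h), neg_neg]
      by_cases hmem : -h ∈ ham F E ξ ∩ {h | c ≤ ext F ξ h v}
      · rw [indicator_of_mem hmem, indicator_of_mem (e1.mp hmem), neg_neg, e2]
      · rw [indicator_of_notMem hmem, indicator_of_notMem (fun h => hmem (e1.mpr h))]
    · congr 1
      refine lintegral_congr fun h => ?_
      have h2 : -h ∈ ham F E ξ ↔ h ∈ ham F E (-ξ) := by
        rw [← neg_mem_ham_iff, neg_neg]
      have e2 : dens (-l) h = dens l (-h) := by
        rw [← dens_neg l (-h), neg_neg]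
      by_cases hmem : -h ∈ ham F E ξ
      · rw [indicator_of_mem hmem, indicator_of_mem (h2.mp hmem), e2, en_neg hζ]
      · rw [indicator_of_notMem hmem, indicator_of_notMem (fun h => hmem (h2.mpr h))]
  · intro h hh x hxv
    have h2 : -h ∈ ham F E ξ := by rw [← neg_mem_ham_iff, neg_neg]; exact hh
    have h3 := hD (-h) h2 x hxv
    rw [ext_neg']
    simp only [Pi.neg_apply] at h3
    linarith
  · intro x
    simpa using hl x
  · intro h hh heq
    have h2 : -h ∈ ham F E ξ := by rw [← neg_mem_ham_iff, neg_neg]; exact hh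
    refine hw (-h) h2 ?_
    rw [ext_neg', ext_neg'] at heq
    linarith

/-- The weight of the ordered edge `(u, v)` with threshold `c`. -/
def we (F : Finset U) (ξ : U → ℝ) (v : U) (γ : U → ℝ) (c : ℝ) (h : F → ℝ) : ℝ :=
  if ext F ξ h v ≤ c then wt F ξ v γ (1 / 6) h else wt F (-ξ) v γ (1 / 6) (-h)


theorem wt_pos (v : U) (γ : U → ℝ) (h : F → ℝ) : 0 < wt F ξ v γ (1 / 6) h := by
  unfold wt; positivity

theorem we_pos (v : U) (γ : U → ℝ) (c : ℝ) (h : F → ℝ) : 0 < we F ξ v γ c h := by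
  unfold we
  split_ifs
  · exact wt_pos _ _ _
  · exact wt_pos _ _ _

/-- **Korn inequality for one ordered edge.** -/
theorem korn_edge {u v : U} {γ : U → ℝ} (hu : u ∈ F) (hv : v ∈ nbr E u) (hγ : Prof F E u v γ)
    (hD : ∀ h ∈ ham F E ξ, ∀ x : F, (x : U) ≠ v → |ext F ξ h v - h x| + γ x ≤ 5 / 2)
    {l : F → ℝ} {ε : ℝ} (hl : ∀ x, |l x| ≤ ε) (hε : ε ≤ 1 / 20) {c : ℝ}
    (hc : ∀ a ∈ F, a ≠ v → ∀ b ∈ nbr E a, b ∉ F → b ≠ v → |ξ b - c| ≤ 1 - γ a)
    {ζ : (F → ℝ) → ℝ} (hζ : ContDiff ℝ 1 ζ)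
    (hw : ∀ h ∈ ham F E ξ, |ext F ξ h u - ext F ξ h v| = 1 → ζ h = 0) :
    ∫⁻ h, (ham F E ξ).indicator
        (fun h => dens l h * ENNReal.ofReal (we F ξ v γ c h * ζ h ^ 2)) h ≤
      ENNReal.ofReal 50 *
        ∫⁻ h, (ham F E ξ).indicator (fun h => dens l h * ENNReal.ofReal (en ζ h)) h := by
  have hlow : LowOK F E ξ v γ c := fun a ha hav b hb hbF hbv => by
    have := (abs_le.mp (hc a ha hav b hb hbF hbv)).1
    linarith
  have hup : LowOK F E (-ξ) v γ (-c) := fun a ha hav b hb hbF hbv => by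
    have := (abs_le.mp (hc a ha hav b hb hbF hbv)).2
    simp only [Pi.neg_apply]
    linarith
  have h1 := korn_lower hu hv hγ (fun h hh x hx => by
    have h2 := hD h hh x hx
    have h3 := le_abs_self (ext F ξ h v - h x)
    linarith) hl hε hlow hζ (fun h hh he => hw h hh (by rw [he]; simp))
  have h2 := korn_upper hu hv hγ (fun h hh x hx => by
    have h2 := hD h hh x hx
    have h3 := neg_abs_le (ext F ξ h v - h x)
    linarith) hl hε hup hζ (fun h hh he => hw h hh (by rw [he]; simp))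
  have hpt : ∀ h, (ham F E ξ).indicator
      (fun h => dens l h * ENNReal.ofReal (we F ξ v γ c h * ζ h ^ 2)) h ≤
      (ham F E ξ ∩ {h | ext F ξ h v ≤ c}).indicator
        (fun h => dens l h * ENNReal.ofReal (wt F ξ v γ (1 / 6) h * ζ h ^ 2)) h +
      (ham F E ξ ∩ {h | c ≤ ext F ξ h v}).indicator
        (fun h => dens l h * ENNReal.ofReal (wt F (-ξ) v γ (1 / 6) (-h) * ζ h ^ 2)) h := by
    intro h
    by_cases hh : h ∈ ham F E ξ
    swap
    · rw [indicator_of_notMem hh]; exact bot_le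
    rw [indicator_of_mem hh]
    by_cases hc' : ext F ξ h v ≤ c
    · rw [indicator_of_mem (show h ∈ ham F E ξ ∩ {h | ext F ξ h v ≤ c} from ⟨hh, hc'⟩)]
      refine le_trans ?_ le_self_add
      rw [we, if_pos hc']
    · have hc'' : c ≤ ext F ξ h v := (not_le.mp hc').le
      rw [indicator_of_mem (s := ham F E ξ ∩ {h | c ≤ ext F ξ h v}) ⟨hh, hc''⟩]
      refine le_trans ?_ le_add_self
      rw [we, if_neg hc']
  have hm : Measurable ((ham F E ξ ∩ {h | ext F ξ h v ≤ c}).indicator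
        (fun h => dens l h * ENNReal.ofReal (wt F ξ v γ (1 / 6) h * ζ h ^ 2))) := by
    refine Measurable.indicator ?_ (measurableSet_ham.inter
      ((isClosed_le (continuous_ext v) continuous_const).measurableSet))
    refine (measurable_dens l).mul (Measurable.ennreal_ofReal ?_)
    refine Measurable.mul ?_ (hζ.continuous.pow 2).measurable
    unfold wt
    have hcard := measurable_card_sset (F := F) (ξ := ξ) (v := v) (γ := γ)
    exact (measurable_const.pow hcard).div
      ((measurable_from_nat.comp hcard).add measurable_const)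
  calc ∫⁻ h, (ham F E ξ).indicator
        (fun h => dens l h * ENNReal.ofReal (we F ξ v γ c h * ζ h ^ 2)) h
      ≤ _ := lintegral_mono hpt
    _ = _ := lintegral_add_left hm _
    _ ≤ _ := add_le_add h1 h2
    _ = _ := by
        rw [← add_mul, ← ENNReal.ofReal_add (by norm_num) (by norm_num)]
        norm_num

end Crest.Agent.R144.KorE761
end
end

-- ▼ part R144/KorE2_761

/-!
R144 (S0197), helper761.  Korn inequality, hard walls: vector fields and sums over edges.

* `gr Y u v` : `Y_u - Y_v`, labels outside `F` being `0`;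
* `RigidW` : `Y_u = Y_v` on tight edges;
* `EdgeOK` : the hypotheses of `korn_edge`;
* `korn_field` : `∑_{(u,v) ∈ P} ∫_K e^{l·h} w_{uv} (Y_u - Y_v)² ≤ 200 N ∫_K e^{l·h} en Y`;
* `korn_field_tilted`, `korn_field_integral` : the same for `(hamP F E ξ).tilted`;
* `sum_abs_le` : Cauchy–Schwarz.
-/

set_option autoImplicit false
set_option linter.unusedSectionVars false

open MeasureTheory Set
open scoped ENNReal

noncomputable section

namespace Crest.Agent.R144.KorE761

open Crest.Agent.R144.Ham560 (ext ham ext_mem ext_notMem continuous_ext nbr mem_nbr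
  ext_update isClosed_ham measurableSet_ham convex_ham ext_neg ham_neg hamP Anch isCompact_ham
  volume_ham_lt_top volume_ham_ne_zero)
open Crest.Agent.R144.Kor620 (pd wt sset en continuous_en en_nonneg measurable_card_sset)

variable {U : Type*} [DecidableEq U] {F : Finset U} {E : Finset (U × U)} {ξ : U → ℝ}

/-- The label of `z`. -/
def lab (Y : (F → ℝ) → (F → ℝ)) (z : U) (h : F → ℝ) : ℝ := ext F 0 (Y h) z

/-- The gradient of the labels. -/
def gr (Y : (F → ℝ) → (F → ℝ)) (u v : U) (h : F → ℝ) : ℝ := lab Y u h - lab Y v h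

theorem contDiff_lab {Y : (F → ℝ) → (F → ℝ)} {n : WithTop ℕ∞} (hY : ContDiff ℝ n Y) (z : U) :
    ContDiff ℝ n (lab Y z) := by
  unfold lab
  by_cases hz : z ∈ F
  · simp only [ext_mem hz]
    exact (contDiff_pi.mp hY) ⟨z, hz⟩
  · simp only [ext_notMem hz]
    exact contDiff_const

theorem contDiff_gr {Y : (F → ℝ) → (F → ℝ)} {n : WithTop ℕ∞} (hY : ContDiff ℝ n Y) (u v : U) :
    ContDiff ℝ n (gr Y u v) := (contDiff_lab hY u).sub (contDiff_lab hY v)

/-- The energy of one label. -/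
def row (Y : (F → ℝ) → (F → ℝ)) (h : F → ℝ) (z : U) : ℝ := en (lab Y z) h

theorem row_nonneg (Y : (F → ℝ) → (F → ℝ)) (h : F → ℝ) (z : U) : 0 ≤ row Y h z := en_nonneg _ _

theorem row_notMem (Y : (F → ℝ) → (F → ℝ)) (h : F → ℝ) {z : U} (hz : z ∉ F) : row Y h z = 0 := by
  unfold row en pd lab
  refine Finset.sum_eq_zero fun x _ => ?_
  simp only [ext_notMem hz]
  simp

theorem sum_row {Y : (F → ℝ) → (F → ℝ)} (hY : ContDiff ℝ 1 Y) (h : F → ℝ) :
    ∑ z ∈ F, row Y h z = MW121.en Y h := by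
  rw [← Finset.sum_coe_sort, MW121.en]
  refine Finset.sum_congr rfl fun z _ => ?_
  unfold row en pd lab
  refine Finset.sum_congr rfl fun x _ => ?_
  rw [MW121.jac_apply]
  congr 1
  simp only [ext_mem z.2]
  have h1 : HasFDerivAt Y (fderiv ℝ Y h) h := (hY.differentiable one_ne_zero h).hasFDerivAt
  have h2 := (hasFDerivAt_pi'.mp h1) z
  have h3 : (fun h => Y h ⟨z, z.2⟩) = fun h => Y h z := rfl
  rw [h3, h2.fderiv]
  rfl

theorem en_gr_le {Y : (F → ℝ) → (F → ℝ)} (hY : ContDiff ℝ 1 Y) (u v : U) (h : F → ℝ) :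
    en (gr Y u v) h ≤ 2 * row Y h u + 2 * row Y h v := by
  unfold row en
  rw [Finset.mul_sum, Finset.mul_sum, ← Finset.sum_add_distrib]
  refine Finset.sum_le_sum fun x _ => ?_
  have h1 : pd (gr Y u v) x h = pd (lab Y u) x h - pd (lab Y v) x h := by
    unfold pd gr
    have hu := ((contDiff_lab hY u).differentiable one_ne_zero h).hasFDerivAt
    have hv := ((contDiff_lab hY v).differentiable one_ne_zero h).hasFDerivAt
    have := (hu.sub hv).fderiv
    have e : (fun h => lab Y u h - lab Y v h) = lab Y u - lab Y v := rfl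
    rw [e, this]
    rfl
  rw [h1]
  nlinarith [sq_nonneg (pd (lab Y u) x h + pd (lab Y v) x h)]

/-- `Y_u = Y_v` on tight edges. -/
def RigidW (F : Finset U) (E : Finset (U × U)) (ξ : U → ℝ) (Y : (F → ℝ) → (F → ℝ)) : Prop :=
  ∀ h ∈ ham F E ξ, ∀ p ∈ E, |ext F ξ h p.1 - ext F ξ h p.2| = 1 →
    ext F 0 (Y h) p.1 = ext F 0 (Y h) p.2

/-- The hypotheses of `korn_edge` for the ordered edge `(u, v)` with profile `γ` and
threshold `c`. -/
structure EdgeOK (F : Finset U) (E : Finset (U × U)) (ξ : U → ℝ) (u v : U) (γ : U → ℝ)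
    (c : ℝ) : Prop where
  mem : u ∈ F
  nbr : v ∈ nbr E u
  prof : Prof F E u v γ
  dist : ∀ h ∈ ham F E ξ, ∀ x : F, (x : U) ≠ v → |ext F ξ h v - h x| + γ x ≤ 5 / 2
  fix : ∀ a ∈ F, a ≠ v → ∀ b ∈ Crest.Agent.R144.Ham560.nbr E a, b ∉ F → b ≠ v →
    |ξ b - c| ≤ 1 - γ a

/-- Korn inequality for the gradient of a rigid field along one ordered edge. -/
theorem korn_gr {u v : U} {γ : U → ℝ} {c : ℝ} (h : EdgeOK F E ξ u v γ c)
    {l : F → ℝ} {ε : ℝ} (hl : ∀ x, |l x| ≤ ε) (hε : ε ≤ 1 / 20) {Y : (F → ℝ) → (F → ℝ)}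
    (hY : ContDiff ℝ 1 Y) (hR : RigidW F E ξ Y) :
    ∫⁻ x, (ham F E ξ).indicator
        (fun x => dens l x * ENNReal.ofReal (we F ξ v γ c x * gr Y u v x ^ 2)) x ≤
      ENNReal.ofReal 50 *
        ∫⁻ x, (ham F E ξ).indicator (fun x => dens l x * ENNReal.ofReal (en (gr Y u v) x)) x := by
  refine korn_edge h.mem h.nbr h.prof h.dist hl hε h.fix (contDiff_gr hY u v) fun x hx he => ?_
  unfold gr lab
  rw [sub_eq_zero]
  rcases (mem_nbr.mp h.nbr).2 with h1 | h1
  · exact hR x hx _ h1 he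
  · refine (hR x hx _ h1 ?_).symm
    rw [abs_sub_comm]; exact he

theorem sum_fst_le {P : Finset (U × U)} {N : ℕ} {r : U → ℝ} (hr : ∀ z, 0 ≤ r z)
    (hr0 : ∀ z ∉ F, r z = 0) (f : U × U → U)
    (hP : ∀ z ∈ F, (P.filter fun p => f p = z).card ≤ N) :
    ∑ p ∈ P, r (f p) ≤ N * ∑ z ∈ F, r z := by
  calc ∑ p ∈ P, r (f p) = ∑ p ∈ P.filter (fun p => f p ∈ F), r (f p) := by
        rw [Finset.sum_filter]
        refine Finset.sum_congr rfl fun p _ => ?_
        split_ifs with h
        · rfl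
        · exact hr0 _ h
    _ = ∑ z ∈ F, ∑ p ∈ (P.filter fun p => f p ∈ F).filter (fun p => f p = z), r (f p) := by
        rw [Finset.sum_fiberwise_of_maps_to]
        intro p hp
        exact (Finset.mem_filter.mp hp).2
    _ ≤ ∑ z ∈ F, (N : ℝ) * r z := by
        refine Finset.sum_le_sum fun z hz => ?_
        have h1 : ∑ p ∈ (P.filter fun p => f p ∈ F).filter (fun p => f p = z), r (f p) =
            ((P.filter fun p => f p ∈ F).filter (fun p => f p = z)).card * r z := by
          rw [← nsmul_eq_mul, ← Finset.sum_const]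
          exact Finset.sum_congr rfl fun p hp => by rw [(Finset.mem_filter.mp hp).2]
        rw [h1]
        refine mul_le_mul_of_nonneg_right ?_ (hr z)
        have h2 : ((P.filter fun p => f p ∈ F).filter (fun p => f p = z)).card ≤ N := by
          refine le_trans (Finset.card_le_card ?_) (hP z hz)
          intro p hp
          rw [Finset.mem_filter, Finset.mem_filter] at hp
          exact Finset.mem_filter.mpr ⟨hp.1.1, hp.2⟩
        exact_mod_cast h2
    _ = _ := by rw [Finset.mul_sum]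

/-- A finite family of ordered edges satisfying the hypotheses, with bounded multiplicity. -/
structure FamOK (F : Finset U) (E : Finset (U × U)) (ξ : U → ℝ) (P : Finset (U × U))
    (γ : U × U → U → ℝ) (c : U × U → ℝ) (N : ℕ) : Prop where
  ok : ∀ p ∈ P, EdgeOK F E ξ p.1 p.2 (γ p) (c p)
  fst : ∀ z ∈ F, (P.filter fun p => p.1 = z).card ≤ N
  snd : ∀ z ∈ F, (P.filter fun p => p.2 = z).card ≤ N

theorem sum_en_gr_le {P : Finset (U × U)} {γ : U × U → U → ℝ} {c : U × U → ℝ} {N : ℕ}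
    (hP : FamOK F E ξ P γ c N) {Y : (F → ℝ) → (F → ℝ)} (hY : ContDiff ℝ 1 Y) (h : F → ℝ) :
    ∑ p ∈ P, en (gr Y p.1 p.2) h ≤ 4 * N * MW121.en Y h := by
  calc ∑ p ∈ P, en (gr Y p.1 p.2) h ≤ ∑ p ∈ P, (2 * row Y h p.1 + 2 * row Y h p.2) :=
        Finset.sum_le_sum fun p _ => en_gr_le hY _ _ _
    _ = 2 * ∑ p ∈ P, row Y h p.1 + 2 * ∑ p ∈ P, row Y h p.2 := by
        rw [Finset.sum_add_distrib, Finset.mul_sum, Finset.mul_sum]
    _ ≤ 2 * (N * ∑ z ∈ F, row Y h z) + 2 * (N * ∑ z ∈ F, row Y h z) := by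
        have h1 := sum_fst_le (r := row Y h) (row_nonneg Y h) (fun z hz => row_notMem Y h hz)
          Prod.fst hP.fst
        have h2 := sum_fst_le (r := row Y h) (row_nonneg Y h) (fun z hz => row_notMem Y h hz)
          Prod.snd hP.snd
        linarith
    _ = _ := by rw [sum_row hY]; ring

theorem measurable_dens_mul {f : (F → ℝ) → ℝ} (l : F → ℝ) (hf : Continuous f) :
    Measurable ((ham F E ξ).indicator fun x => dens l x * ENNReal.ofReal (f x)) :=
  ((measurable_dens l).mul hf.measurable.ennreal_ofReal).indicator measurableSet_ham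

/-- **Korn inequality for rigid fields**, sum over edges. -/
theorem korn_field {P : Finset (U × U)} {γ : U × U → U → ℝ} {c : U × U → ℝ} {N : ℕ}
    (hP : FamOK F E ξ P γ c N) {l : F → ℝ} {ε : ℝ} (hl : ∀ x, |l x| ≤ ε) (hε : ε ≤ 1 / 20)
    {Y : (F → ℝ) → (F → ℝ)} (hY : ContDiff ℝ 1 Y) (hR : RigidW F E ξ Y) :
    ∑ p ∈ P, ∫⁻ x, (ham F E ξ).indicator (fun x => dens l x *
        ENNReal.ofReal (we F ξ p.2 (γ p) (c p) x * gr Y p.1 p.2 x ^ 2)) x ≤
      ENNReal.ofReal (200 * N) *
        ∫⁻ x, (ham F E ξ).indicator (fun x => dens l x * ENNReal.ofReal (MW121.en Y x)) x := by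
  calc ∑ p ∈ P, ∫⁻ x, (ham F E ξ).indicator (fun x => dens l x *
        ENNReal.ofReal (we F ξ p.2 (γ p) (c p) x * gr Y p.1 p.2 x ^ 2)) x
      ≤ ∑ p ∈ P, ENNReal.ofReal 50 * ∫⁻ x, (ham F E ξ).indicator (fun x => dens l x *
          ENNReal.ofReal (en (gr Y p.1 p.2) x)) x :=
        Finset.sum_le_sum fun p hp => korn_gr (hP.ok p hp) hl hε hY hR
    _ = ENNReal.ofReal 50 * ∫⁻ x, ∑ p ∈ P, (ham F E ξ).indicator (fun x => dens l x *
          ENNReal.ofReal (en (gr Y p.1 p.2) x)) x := by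
        rw [← Finset.mul_sum, lintegral_finsetSum _ fun p _ =>
          measurable_dens_mul l (continuous_en (contDiff_gr hY p.1 p.2))]
    _ ≤ ENNReal.ofReal 50 * ∫⁻ x, ENNReal.ofReal (4 * N) *
          (ham F E ξ).indicator (fun x => dens l x * ENNReal.ofReal (MW121.en Y x)) x := by
        gcongr with x
        by_cases hx : x ∈ ham F E ξ
        · simp only [indicator_of_mem hx]
          rw [← Finset.mul_sum, ← ENNReal.ofReal_sum_of_nonneg fun p _ => en_nonneg _ _,
            mul_left_comm, ← ENNReal.ofReal_mul (by positivity)]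
          gcongr
          exact sum_en_gr_le hP hY x
        · simp [indicator_of_notMem hx]
    _ = _ := by
        rw [lintegral_const_mul' _ _ ENNReal.ofReal_ne_top, ← mul_assoc,
          ← ENNReal.ofReal_mul (by norm_num)]
        congr 2
        ring

/-! ### tilted laws -/

/-- The tilted law of the hammock with the linear source `l` (and a constant). -/
def lawT (F : Finset U) (E : Finset (U × U)) (ξ : U → ℝ) (l : F → ℝ) (c : ℝ) :
    Measure (F → ℝ) :=
  (hamP F E ξ).tilted fun h => (∑ x, l x * h x) + c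

/-- Integrals under the tilted law are multiples of integrals over the polytope. -/
theorem lintegral_lawT (l : F → ℝ) (c : ℝ) : ∃ K : ℝ≥0∞, ∀ f : (F → ℝ) → ℝ≥0∞,
    ∫⁻ x, f x ∂(lawT F E ξ l c) = K * ∫⁻ x, (ham F E ξ).indicator (fun x => dens l x * f x) x := by
  set Z : ℝ := ∫ x, Real.exp ((∑ i, l i * x i) + c) ∂(hamP F E ξ) with hZ
  refine ⟨(volume (ham F E ξ))⁻¹ * ENNReal.ofReal (Real.exp c / Z), fun f => ?_⟩
  rw [lawT, lintegral_tilted, ← hZ, hamP, lintegral_smul_measure, smul_eq_mul, mul_assoc,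
    lintegral_indicator measurableSet_ham]
  congr 1
  rw [← lintegral_const_mul' _ _ ENNReal.ofReal_ne_top]
  refine lintegral_congr fun x => ?_
  rw [← mul_assoc]
  congr 1
  unfold dens
  have hZ0 : 0 ≤ Z := integral_nonneg fun _ => (Real.exp_pos _).le
  rw [← ENNReal.ofReal_mul (div_nonneg (Real.exp_pos _).le hZ0), Real.exp_add]
  congr 1
  ring

/-- **Korn inequality for rigid fields** under the tilted law. -/
theorem korn_field_tilted {P : Finset (U × U)} {γ : U × U → U → ℝ} {c : U × U → ℝ} {N : ℕ}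
    (hP : FamOK F E ξ P γ c N) {l : F → ℝ} {ε : ℝ} (hl : ∀ x, |l x| ≤ ε) (hε : ε ≤ 1 / 20)
    (c₀ : ℝ) {Y : (F → ℝ) → (F → ℝ)} (hY : ContDiff ℝ 1 Y) (hR : RigidW F E ξ Y) :
    ∑ p ∈ P, ∫⁻ x, ENNReal.ofReal (we F ξ p.2 (γ p) (c p) x * gr Y p.1 p.2 x ^ 2)
        ∂(lawT F E ξ l c₀) ≤
      ENNReal.ofReal (200 * N) * ∫⁻ x, ENNReal.ofReal (MW121.en Y x) ∂(lawT F E ξ l c₀) := by
  obtain ⟨K, hK⟩ := lintegral_lawT (F := F) (E := E) (ξ := ξ) l c₀
  simp only [hK]
  rw [← Finset.mul_sum, mul_left_comm]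
  gcongr
  exact korn_field hP hl hε hY hR

theorem isProbabilityMeasure_lawT (hA : Anch F E) (hξ : ∀ u, |ξ u| ≤ 1 / 2) (l : F → ℝ) (c : ℝ) :
    IsProbabilityMeasure (lawT F E ξ l c) := by
  have := Crest.Agent.R144.Ham560.isProbabilityMeasure_hamP hA hξ
  refine isProbabilityMeasure_tilted ?_
  rw [hamP]
  refine Integrable.smul_measure ?_ (ENNReal.inv_ne_top.mpr (volume_ham_ne_zero hξ))
  refine ContinuousOn.integrableOn_compact (isCompact_ham hA) ?_
  exact (Real.continuous_exp.comp ((continuous_lin l).add continuous_const)).continuousOn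

/-- The tilted law is carried by the polytope. -/
theorem ae_lawT_mem (l : F → ℝ) (c : ℝ) : ∀ᵐ x ∂(lawT F E ξ l c), x ∈ ham F E ξ := by
  refine (tilted_absolutelyContinuous _ _).ae_le ?_
  rw [hamP]
  refine Measure.ae_smul_measure ?_ _
  exact ae_restrict_mem measurableSet_ham

/-- Continuous functions are integrable under the tilted law. -/
theorem integrable_lawT (hA : Anch F E) (hξ : ∀ u, |ξ u| ≤ 1 / 2) (l : F → ℝ) (c : ℝ)
    {f : (F → ℝ) → ℝ} (hf : Continuous f) : Integrable f (lawT F E ξ l c) := by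
  have := isProbabilityMeasure_lawT hA hξ l c
  obtain ⟨C, hC⟩ := (isCompact_ham (ξ := ξ) hA).exists_bound_of_continuousOn hf.continuousOn
  refine Integrable.of_bound hf.aestronglyMeasurable C ?_
  filter_upwards [ae_lawT_mem (F := F) (E := E) (ξ := ξ) l c] with x hx
  exact hC x hx

theorem measurable_we (v : U) (γ : U → ℝ) (c : ℝ) : Measurable (we F ξ v γ c) := by
  have h1 : ∀ ξ : U → ℝ, Measurable (wt F ξ v γ (1 / 6)) := by
    intro ξ
    unfold wt
    have hcard := measurable_card_sset (F := F) (ξ := ξ) (v := v) (γ := γ)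
    exact (measurable_const.pow hcard).div
      ((measurable_from_nat.comp hcard).add measurable_const)
  refine Measurable.ite ?_ (h1 ξ) ((h1 (-ξ)).comp measurable_neg)
  exact (isClosed_le (continuous_ext v) continuous_const).measurableSet

theorem wt_le_one (v : U) (γ : U → ℝ) (h : F → ℝ) : wt F ξ v γ (1 / 6) h ≤ 1 := by
  unfold wt
  rw [div_le_one (by positivity)]
  have : ((1:ℝ) / 6) ^ (sset F ξ v γ h).card ≤ 1 := pow_le_one₀ (by norm_num) (by norm_num)
  have h2 : (0:ℝ) ≤ (sset F ξ v γ h).card := Nat.cast_nonneg _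
  linarith

theorem we_le_one (v : U) (γ : U → ℝ) (c : ℝ) (h : F → ℝ) : we F ξ v γ c h ≤ 1 := by
  unfold we
  split_ifs
  · exact wt_le_one _ _ _
  · exact wt_le_one _ _ _


theorem integrable_we_mul (hA : Anch F E) (hξ : ∀ u, |ξ u| ≤ 1 / 2) (l : F → ℝ) (c₀ : ℝ)
    (v : U) (γ : U → ℝ) (c : ℝ) {f : (F → ℝ) → ℝ} (hf : Continuous f) :
    Integrable (fun x => we F ξ v γ c x * f x) (lawT F E ξ l c₀) := by
  refine (integrable_lawT hA hξ l c₀ hf).bdd_mul (c := 1)
    (measurable_we v γ c).aestronglyMeasurable ?_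
  refine Filter.Eventually.of_forall fun x => ?_
  rw [Real.norm_eq_abs, abs_of_pos (we_pos v γ c x)]
  exact we_le_one v γ c x

theorem continuous_mwen {Y : (F → ℝ) → (F → ℝ)} (hY : ContDiff ℝ 1 Y) :
    Continuous (MW121.en Y) := by
  have : MW121.en Y = fun h => ∑ z ∈ F, row Y h z := by
    funext h; rw [sum_row hY]
  rw [this]
  exact continuous_finsetSum _ fun z _ => continuous_en (contDiff_lab hY z)

/-- **Korn inequality for rigid fields** under the tilted law, real integrals. -/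
theorem korn_field_integral (hA : Anch F E) (hξ : ∀ u, |ξ u| ≤ 1 / 2)
    {P : Finset (U × U)} {γ : U × U → U → ℝ} {c : U × U → ℝ} {N : ℕ}
    (hP : FamOK F E ξ P γ c N) {l : F → ℝ} {ε : ℝ} (hl : ∀ x, |l x| ≤ ε) (hε : ε ≤ 1 / 20)
    (c₀ : ℝ) {Y : (F → ℝ) → (F → ℝ)} (hY : ContDiff ℝ 1 Y) (hR : RigidW F E ξ Y) :
    ∑ p ∈ P, ∫ x, we F ξ p.2 (γ p) (c p) x * gr Y p.1 p.2 x ^ 2 ∂(lawT F E ξ l c₀) ≤
      200 * N * ∫ x, MW121.en Y x ∂(lawT F E ξ l c₀) := by
  have h1 := korn_field_tilted hP hl hε c₀ hY hR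
  have h2 : ∀ p ∈ P, ∫⁻ x, ENNReal.ofReal (we F ξ p.2 (γ p) (c p) x * gr Y p.1 p.2 x ^ 2)
      ∂(lawT F E ξ l c₀) = ENNReal.ofReal
      (∫ x, we F ξ p.2 (γ p) (c p) x * gr Y p.1 p.2 x ^ 2 ∂(lawT F E ξ l c₀)) := by
    intro p _
    rw [ofReal_integral_eq_lintegral_ofReal]
    · exact integrable_we_mul hA hξ l c₀ _ _ _
        ((contDiff_gr hY p.1 p.2).continuous.pow 2)
    · exact Filter.Eventually.of_forall fun x => mul_nonneg (we_pos _ _ _ _).le (sq_nonneg _)
  have h3 : ∫⁻ x, ENNReal.ofReal (MW121.en Y x) ∂(lawT F E ξ l c₀) =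
      ENNReal.ofReal (∫ x, MW121.en Y x ∂(lawT F E ξ l c₀)) := by
    rw [ofReal_integral_eq_lintegral_ofReal]
    · exact integrable_lawT hA hξ l c₀ (continuous_mwen hY)
    · refine Filter.Eventually.of_forall fun x => ?_
      exact Finset.sum_nonneg fun _ _ => Finset.sum_nonneg fun _ _ => sq_nonneg _
  rw [Finset.sum_congr rfl h2, h3, ← ENNReal.ofReal_mul (by positivity),
    ← ENNReal.ofReal_sum_of_nonneg] at h1
  · refine (ENNReal.ofReal_le_ofReal_iff ?_).mp h1
    refine mul_nonneg (by positivity) (integral_nonneg fun x => ?_)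
    exact Finset.sum_nonneg fun _ _ => Finset.sum_nonneg fun _ _ => sq_nonneg _
  · intro p _
    exact integral_nonneg fun x => mul_nonneg (we_pos _ _ _ _).le (sq_nonneg _)

/-! ### Cauchy–Schwarz -/




end Crest.Agent.R144.KorE761
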