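import Crest.Agent.R144.Kor1_620
import Crest.Agent.R144.Ham6_560
import Crest.Prelude.Def_HexHeights
import Crest.Agent.R144.KorE2_761
import Mathlib
import Crest.Agent.R144.Ham4_560
import Crest.Agent.R144.Ham5_560
import Crest.Agent.R144.LCL_121

-- ▼ part R144/KorT1_620
section

/-!
R144 (S0197), helper620.  TAILS of the push cluster (doc 1585), part 1: geometry of the cluster in a
sector, the covering of one sector by fresh lists of tight edges.
-/

set_option autoImplicit false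

open MeasureTheory Set
open scoped ENNReal

noncomputable section

namespace Crest.Agent.R144.Kor620

open Crest.Agent.R144.Ham560 (ext ham ext_mem ext_notMem nbr mem_nbr Fresh tight)
open Crest.ProbabilityR.HexHeights (Adj)

abbrev P2 : Type := ℤ × ℤ

/-- Hexagonal norm. -/
def nrm (z : P2) : ℕ := max (max z.1.natAbs z.2.natAbs) (z.1 + z.2).natAbs

/-- The two directions span a sector of angle 60 degrees. -/
structure Sec (p q : P2) : Prop where
  nrm : ∀ a b : ℕ, nrm ((a : ℤ) * p.1 + b * q.1, (a : ℤ) * p.2 + b * q.2) = a + b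
  adj1 : ∀ z : P2, Adj z (z.1 + p.1, z.2 + p.2)
  adj2 : ∀ z : P2, Adj z (z.1 + q.1, z.2 + q.2)
  det : (p.1 * q.2 - p.2 * q.1) ^ 2 = 1

/-- The point with sector coordinates `(a, b)`. -/
def pt (u p q : P2) (a b : ℕ) : P2 :=
  (u.1 + a * p.1 + b * q.1, u.2 + a * p.2 + b * q.2)

theorem pt_zero (u p q : P2) : pt u p q 0 0 = u := by simp [pt]

theorem pt_comm (u p q : P2) (a b : ℕ) : pt u p q a b = pt u q p b a := by
  simp only [pt]; ext <;> ring

theorem Sec.symm {p q : P2} (h : Sec p q) : Sec q p := by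
  refine ⟨fun a b => ?_, h.adj2, h.adj1, ?_⟩
  · have := h.nrm b a
    rw [add_comm b a] at this
    rw [← this]; congr 2 <;> ring
  · rw [← h.det]; ring

theorem nrm_pt {u p q : P2} (h : Sec p q) (a b : ℕ) : nrm (pt u p q a b - u) = a + b := by
  rw [← h.nrm a b]
  congr 1
  ext <;> simp [pt] <;> ring

theorem adj_pt_succ {u p q : P2} (h : Sec p q) (a b : ℕ) :
    Adj (pt u p q a b) (pt u p q (a + 1) b) := by
  have := h.adj1 (pt u p q a b)
  have e : pt u p q (a + 1) b = ((pt u p q a b).1 + p.1, (pt u p q a b).2 + p.2) := by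
    simp only [pt]; ext <;> push_cast <;> ring
  rwa [e]

theorem adj_pt_succ' {u p q : P2} (h : Sec p q) (a b : ℕ) :
    Adj (pt u p q a b) (pt u p q a (b + 1)) := by
  rw [pt_comm, pt_comm (b := b + 1)]
  exact adj_pt_succ h.symm b a

theorem pt_inj {u p q : P2} (h : Sec p q) {a b a' b' : ℕ} (e : pt u p q a b = pt u p q a' b') :
    a = a' ∧ b = b' := by
  have h1 : ((a : ℤ) - a') * p.1 + (b - b') * q.1 = 0 := by
    have := congrArg Prod.fst e; simp only [pt] at this; linarith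
  have h2 : ((a : ℤ) - a') * p.2 + (b - b') * q.2 = 0 := by
    have := congrArg Prod.snd e; simp only [pt] at this; linarith
  have hd := h.det
  have ha : ((a : ℤ) - a') * (p.1 * q.2 - p.2 * q.1) = 0 := by linear_combination q.2 * h1 - q.1 * h2
  have hb : ((b : ℤ) - b') * (p.1 * q.2 - p.2 * q.1) = 0 := by linear_combination p.1 * h2 - p.2 * h1
  have hne : p.1 * q.2 - p.2 * q.1 ≠ 0 := by
    intro h0; rw [h0] at hd; norm_num at hd
  have ha' := (mul_eq_zero.mp ha).resolve_right hne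
  have hb' := (mul_eq_zero.mp hb).resolve_right hne
  omega

theorem adj_symm {a b : P2} (h : Adj a b) : Adj b a := by
  unfold Adj at *; omega

/-- The six sectors. -/
def dirs : Finset (P2 × P2) :=
  {((1, 0), (0, 1)), ((0, 1), (-1, 1)), ((-1, 1), (-1, 0)), ((-1, 0), (0, -1)),
    ((0, -1), (1, -1)), ((1, -1), (1, 0))}

theorem sec_of_mem {d : P2 × P2} (hd : d ∈ dirs) : Sec d.1 d.2 := by
  simp only [dirs, Finset.mem_insert, Finset.mem_singleton] at hd
  rcases hd with rfl | rfl | rfl | rfl | rfl | rfl <;>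
  · constructor
    · intro a b; simp only [nrm]; omega
    · intro z; simp only [Adj]; omega
    · intro z; simp only [Adj]; omega
    · norm_num

theorem exists_sector (u x : P2) : ∃ d ∈ dirs, ∃ a b : ℕ, x = pt u d.1 d.2 a b := by
  obtain ⟨u1, u2⟩ := u
  obtain ⟨x1, x2⟩ := x
  have key : ∀ (p q : P2) (a b : ℤ), (p, q) ∈ dirs → 0 ≤ a → 0 ≤ b →
      x1 = u1 + a * p.1 + b * q.1 → x2 = u2 + a * p.2 + b * q.2 →
      ∃ d ∈ dirs, ∃ a b : ℕ, ((x1, x2) : P2) = pt (u1, u2) d.1 d.2 a b := by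
    intro p q a b hd ha hb e1 e2
    refine ⟨(p, q), hd, a.toNat, b.toNat, ?_⟩
    simp only [pt, Int.toNat_of_nonneg ha, Int.toNat_of_nonneg hb]
    exact Prod.ext e1 e2
  by_cases h1 : 0 ≤ x1 - u1
  · by_cases h2 : 0 ≤ x2 - u2
    · exact key (1, 0) (0, 1) (x1 - u1) (x2 - u2) (by simp [dirs]) h1 h2 (by ring) (by ring)
    · by_cases h3 : 0 ≤ (x1 - u1) + (x2 - u2)
      · -- a (1,-1) + b (1,0), a = -(x2-u2), b = sum
        exact key (1, -1) (1, 0) (-(x2 - u2)) ((x1 - u1) + (x2 - u2)) (by simp [dirs])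
          (by omega) h3 (by ring) (by ring)
      · -- a (0,-1) + b (1,-1), b = x1-u1, a = -(x2-u2) - b
        exact key (0, -1) (1, -1) (-(x2 - u2) - (x1 - u1)) (x1 - u1) (by simp [dirs])
          (by omega) h1 (by ring) (by ring)
  · by_cases h2 : 0 ≤ x2 - u2
    · by_cases h3 : 0 ≤ (x1 - u1) + (x2 - u2)
      · -- a (0,1) + b (-1,1)
        exact key (0, 1) (-1, 1) ((x1 - u1) + (x2 - u2)) (-(x1 - u1)) (by simp [dirs])
          h3 (by omega) (by ring) (by ring)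
      · -- a (-1,1) + b (-1,0)
        exact key (-1, 1) (-1, 0) (x2 - u2) (-(x1 - u1) - (x2 - u2)) (by simp [dirs])
          h2 (by omega) (by ring) (by ring)
    · exact key (-1, 0) (0, -1) (-(x1 - u1)) (-(x2 - u2)) (by simp [dirs])
        (by omega) (by omega) (by ring) (by ring)

/-- The cone. -/
def gam (u x : P2) : ℝ := if x = u then 1 else 3 / 2 - nrm (x - u)

/-- Structural hypotheses on the system, the edge and the height. -/
structure Cfg (F : Finset P2) (E : Finset (P2 × P2)) (ξ : P2 → ℝ) (u v : P2) (h : F → ℝ) :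
    Prop where
  nb : ∀ x ∈ F, ∀ y, Adj x y → y ∈ nbr E x
  lip : ∀ a b, Adj a b → |ext F ξ h a - ext F ξ h b| ≤ 1
  uv : Adj u v
  far : ∀ z, z ∉ F → 3 ≤ nrm (z - u) → ext F ξ h v + 3 / 2 - nrm (z - u) ≤ ξ z

/-- The cluster in sector coordinates. -/
def In (F : Finset P2) (ξ : P2 → ℝ) (u v : P2) (h : F → ℝ) (p q : P2) (a b : ℕ) : Prop :=
  pt u p q a b ∈ F ∧ ext F ξ h (pt u p q a b) < ext F ξ h v + 3 / 2 - (a + b : ℕ)

variable {F : Finset P2} {E : Finset (P2 × P2)} {ξ : P2 → ℝ} {u v : P2} {h : F → ℝ} {p q : P2}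

theorem lip_row (hc : Cfg F E ξ u v h) (hs : Sec p q) (a b n : ℕ) :
    |ext F ξ h (pt u p q a b) - ext F ξ h (pt u p q (a + n) b)| ≤ n := by
  induction n with
  | zero => simp
  | succ n ih =>
    have h1 := hc.lip _ _ (adj_pt_succ (u := u) hs (a + n) b)
    rw [abs_le] at *
    push_cast
    rw [← add_assoc]
    constructor <;> linarith

theorem lip_col (hc : Cfg F E ξ u v h) (hs : Sec p q) (a b n : ℕ) :
    |ext F ξ h (pt u p q a b) - ext F ξ h (pt u p q a (b + n))| ≤ n := by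
  rw [pt_comm, pt_comm (b := b + n)]
  exact lip_row hc hs.symm b a n

theorem lip_pt (hc : Cfg F E ξ u v h) (hs : Sec p q) {a b a' b' : ℕ} (ha : a' ≤ a) (hb : b' ≤ b) :
    |ext F ξ h (pt u p q a' b') - ext F ξ h (pt u p q a b)| ≤ (a + b : ℕ) - (a' + b' : ℕ) := by
  obtain ⟨n, rfl⟩ := Nat.exists_eq_add_of_le ha
  obtain ⟨m, rfl⟩ := Nat.exists_eq_add_of_le hb
  have h1 := abs_le.mp (lip_row hc hs a' b' n)
  have h2 := abs_le.mp (lip_col hc hs (a' + n) b' m)
  rw [abs_le]; push_cast; constructor <;> linarith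

/-- The cluster is an order ideal away from the origin. -/
theorem In.ideal (hc : Cfg F E ξ u v h) (hs : Sec p q) {a b a' b' : ℕ} (hab : In F ξ u v h p q a b)
    (ha : a' ≤ a) (hb : b' ≤ b) (h3 : 3 ≤ a' + b') : In F ξ u v h p q a' b' := by
  have h1 := abs_le.mp (lip_pt hc hs ha hb)
  have h2 := hab.2
  have h4 : ext F ξ h (pt u p q a' b') < ext F ξ h v + 3 / 2 - (a' + b' : ℕ) := by linarith
  refine ⟨?_, h4⟩
  by_contra hF
  have h5 := hc.far _ hF (by rw [nrm_pt hs]; exact h3)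
  rw [nrm_pt hs] at h5
  rw [ext_notMem hF] at h4
  linarith

theorem dist_uv (hc : Cfg F E ξ u v h) : |ext F ξ h u - ext F ξ h v| ≤ 1 := hc.lip _ _ hc.uv

/-- Total slack of a row of the cluster. -/
theorem row_slack (hc : Cfg F E ξ u v h) (hs : Sec p q) {n b : ℕ}
    (hab : In F ξ u v h p q (n + 3) b) :
    (n : ℝ) - (ext F ξ h (pt u p q 3 b) - ext F ξ h (pt u p q (n + 3) b)) < 5 / 2 := by
  have h1 := abs_le.mp (lip_pt (a := 3) (b := b) (a' := 0) (b' := 0) hc hs (by omega) (by omega))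
  rw [pt_zero] at h1
  have h2 := hab.2
  have h3 := abs_le.mp (dist_uv hc)
  push_cast at h1 h2
  linarith [h1.2, h3.1]

/-- The list of the first `n` edges of row `b`, starting at abscissa 3, in decreasing order. -/
def rowL (u p q : P2) (b : ℕ) : ℕ → List (P2 × P2)
  | 0 => []
  | n + 1 => (pt u p q (n + 4) b, pt u p q (n + 3) b) :: rowL u p q b n

theorem length_rowL (u p q : P2) (b n : ℕ) : (rowL u p q b n).length = n := by
  induction n with
  | zero => rfl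
  | succ n ih => simp [rowL, ih]

theorem mem_rowL {b n : ℕ} {e : P2 × P2} (he : e ∈ rowL u p q b n) :
    ∃ i < n, e = (pt u p q (i + 4) b, pt u p q (i + 3) b) := by
  induction n with
  | zero => simp [rowL] at he
  | succ n ih =>
    rcases List.mem_cons.mp he with rfl | he
    · exact ⟨n, by omega, rfl⟩
    · obtain ⟨i, hi, h1⟩ := ih he
      exact ⟨i, by omega, h1⟩

theorem fresh_rowL (hnb : ∀ x ∈ F, ∀ y, Adj x y → y ∈ nbr E x) (hs : Sec p q) {b n : ℕ}
    (hF : ∀ i, i ≤ n → pt u p q (i + 3) b ∈ F) {T : List (P2 × P2)} (hT : Fresh F E T)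
    (hTb : ∀ e ∈ T, ∃ a a' b' b'', b < b' ∧ b < b'' ∧ e = (pt u p q a b', pt u p q a' b'')) :
    Fresh F E (rowL u p q b n ++ T) := by
  induction n with
  | zero => exact hT
  | succ n ih =>
    refine Fresh.cons (ih fun i hi => hF i (by omega)) (hF (n + 1) le_rfl) ?_ ?_
    · exact hnb _ (hF (n + 1) le_rfl) _ (adj_symm (adj_pt_succ hs (n + 3) b))
    · intro e he
      rcases List.mem_append.mp he with he | he
      · obtain ⟨i, hi, rfl⟩ := mem_rowL he
        constructor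
        · intro e'; have := (pt_inj hs e').1; omega
        · intro e'; have := (pt_inj hs e').1; omega
      · obtain ⟨a, a', b', b'', h1, h2, rfl⟩ := hTb e he
        constructor
        · intro e'; have := (pt_inj hs e').2; omega
        · intro e'; have := (pt_inj hs e').2; omega

theorem Fresh.sublist {S T : List (P2 × P2)} (hT : Fresh F E T) (hST : S.Sublist T) :
    Fresh F E S := by
  induction hT generalizing S with
  | nil => rw [List.sublist_nil.mp hST]; exact Fresh.nil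
  | @cons v u T hT hv hu hf ih =>
    rcases List.sublist_cons_iff.mp hST with h1 | ⟨r, rfl, h1⟩
    · exact ih h1
    · exact Fresh.cons (ih h1) hv hu fun q hq => hf q (h1.subset hq)

/-- Counting the tight edges of a row. -/
theorem row_count (hc : Cfg F E ξ u v h) (hs : Sec p q) (ε : ℝ) (b n : ℕ) :
    ((n : ℝ) - ((rowL u p q b n).filter
      (fun e => decide (1 - ε ≤ |ext F ξ h e.1 - ext F ξ h e.2|))).length) * ε ≤
      n - (ext F ξ h (pt u p q 3 b) - ext F ξ h (pt u p q (n + 3) b)) := by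
  induction n with
  | zero => simp [rowL]
  | succ n ih =>
    have h1 := abs_le.mp (hc.lip _ _ (adj_pt_succ (u := u) hs (n + 3) b))
    rw [rowL, List.filter_cons]
    have e4 : n + 1 + 3 = n + 4 := by omega
    rw [e4]
    have e5 : n + 3 + 1 = n + 4 := by omega
    rw [e5] at h1
    by_cases ht : 1 - ε ≤ |ext F ξ h (pt u p q (n + 4) b) - ext F ξ h (pt u p q (n + 3) b)|
    · rw [if_pos (by simpa using ht), List.length_cons]
      push_cast
      linarith
    · rw [if_neg (by simpa using ht)]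
      push_cast
      have h2 := (abs_lt.mp (not_le.mp ht)).1
      nlinarith

/-! ### sums over families of lists -/

theorem sum_biUnion_le' {α β : Type*} [DecidableEq β] (s : Finset α) (t : α → Finset β)
    (f : β → ℝ) (hf : ∀ x, 0 ≤ f x) : ∑ x ∈ s.biUnion t, f x ≤ ∑ a ∈ s, ∑ x ∈ t a, f x := by
  classical
  induction s using Finset.induction_on with
  | empty => simp
  | @insert a s ha ih =>
    rw [Finset.biUnion_insert, Finset.sum_insert ha]
    have h1 := Finset.sum_union_inter (s₁ := t a) (s₂ := s.biUnion t) (f := f)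
    have h2 : 0 ≤ ∑ x ∈ t a ∩ s.biUnion t, f x := Finset.sum_nonneg fun x _ => hf x
    linarith

theorem sum_image_le' {α β : Type*} [DecidableEq β] (s : Finset α) (g : α → β)
    (f : β → ℝ) (hf : ∀ x, 0 ≤ f x) : ∑ x ∈ s.image g, f x ≤ ∑ a ∈ s, f (g a) := by
  classical
  have h1 : s.image g = s.biUnion fun a => {g a} := by
    ext x; simp [eq_comm]
  rw [h1]
  refine (sum_biUnion_le' s _ f hf).trans (le_of_eq ?_)
  refine Finset.sum_congr rfl fun a _ => ?_
  simp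

/-- Sublists of a row with many edges. -/
def rowFam (u p q : P2) (b N s : ℕ) : Finset (List (P2 × P2)) :=
  ((rowL u p q b N).sublists.toFinset).filter fun l => s ≤ 2 * l.length

theorem sum_rowFam_le (u p q : P2) (b N s : ℕ) {δ : ℝ} (h0 : 0 ≤ δ) (h1 : δ ≤ 1) :
    ∑ l ∈ rowFam u p q b N s, (δ ^ 2) ^ l.length ≤ 2 ^ N * δ ^ s := by
  calc ∑ l ∈ rowFam u p q b N s, (δ ^ 2) ^ l.length ≤ ∑ _l ∈ rowFam u p q b N s, δ ^ s := by
        refine Finset.sum_le_sum fun l hl => ?_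
        rw [← pow_mul]
        exact pow_le_pow_of_le_one h0 h1 (Finset.mem_filter.mp hl).2
    _ = (rowFam u p q b N s).card * δ ^ s := by rw [Finset.sum_const, nsmul_eq_mul]
    _ ≤ 2 ^ N * δ ^ s := by
        gcongr
        have h2 : (rowFam u p q b N s).card ≤ 2 ^ N := by
          calc (rowFam u p q b N s).card ≤ ((rowL u p q b N).sublists.toFinset).card :=
                Finset.card_filter_le _ _
            _ ≤ (rowL u p q b N).sublists.length := List.toFinset_card_le _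
            _ = 2 ^ N := by rw [List.length_sublists, length_rowL]
        exact_mod_cast h2

open scoped Classical in
/-- The far part of the cluster in a sector. -/
def farC (F : Finset P2) (ξ : P2 → ℝ) (u v : P2) (h : F → ℝ) (p q : P2) (L M b0 : ℕ) :
    Finset (ℕ × ℕ) :=
  (Finset.range M ×ˢ Finset.range M).filter fun x =>
    b0 ≤ x.2 ∧ L + 3 ≤ x.1 ∧ In F ξ u v h p q x.1 x.2

/-- **Covering of a sector by fresh lists of tight edges.** -/
theorem cover_rows {u p q : P2} (hs : Sec p q) {L : ℕ} {ε κ δ : ℝ} (hL : 10 ≤ ε * L)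
    (hε : 0 < ε) (hκ0 : 0 < κ) (hκ1 : κ ≤ 1) (hδ0 : 0 < δ) (hδ : 4 * δ ≤ κ) :
    ∀ m b0 : ℕ, ∃ Fam : Finset (List (P2 × P2)),
      (∑ T ∈ Fam, (δ ^ 2) ^ T.length ≤ κ ^ m) ∧
      (∀ T ∈ Fam, ∀ e ∈ T, ∃ i b, b0 ≤ b ∧ b < b0 + m ∧ i + 4 ≤ L + m + 2 ∧
        e = (pt u p q (i + 4) b, pt u p q (i + 3) b)) ∧
      ∀ (F : Finset P2) (E : Finset (P2 × P2)) (ξ : P2 → ℝ) (v : P2) (h : F → ℝ) (M : ℕ),
        Cfg F E ξ u v h → (∀ a b, In F ξ u v h p q a b → a < M ∧ b < M) →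
        m ≤ (farC F ξ u v h p q L M b0).card →
        ∃ T ∈ Fam, Fresh F E T ∧ ∀ e ∈ T, 1 - ε ≤ |ext F ξ h e.1 - ext F ξ h e.2| := by
  classical
  intro m
  induction m using Nat.strong_induction_on with
  | _ m ih =>
  intro b0
  rcases Nat.eq_zero_or_pos m with rfl | hm
  · refine ⟨{[]}, by simp, by simp, fun F E ξ v h M _ _ _ => ⟨[], by simp, Fresh.nil, by simp⟩⟩
  -- families for the remaining rows
  have hch : ∀ r : ℕ, ∃ Fam : Finset (List (P2 × P2)), 1 ≤ r → r ≤ m →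
      (∑ T ∈ Fam, (δ ^ 2) ^ T.length ≤ κ ^ (m - r)) ∧
      (∀ T ∈ Fam, ∀ e ∈ T, ∃ i b, b0 + 1 ≤ b ∧ b < b0 + 1 + (m - r) ∧ i + 4 ≤ L + (m - r) + 2 ∧
        e = (pt u p q (i + 4) b, pt u p q (i + 3) b)) ∧
      ∀ (F : Finset P2) (E : Finset (P2 × P2)) (ξ : P2 → ℝ) (v : P2) (h : F → ℝ) (M : ℕ),
        Cfg F E ξ u v h → (∀ a b, In F ξ u v h p q a b → a < M ∧ b < M) →
        m - r ≤ (farC F ξ u v h p q L M (b0 + 1)).card →
        ∃ T ∈ Fam, Fresh F E T ∧ ∀ e ∈ T, 1 - ε ≤ |ext F ξ h e.1 - ext F ξ h e.2| := by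
    intro r
    by_cases hr : 1 ≤ r ∧ r ≤ m
    · obtain ⟨Fam, h1⟩ := ih (m - r) (by omega) (b0 + 1)
      exact ⟨Fam, fun _ _ => h1⟩
    · exact ⟨∅, fun h1 h2 => absurd ⟨h1, h2⟩ hr⟩
  choose G hG using hch
  let Fam : Finset (List (P2 × P2)) := (Finset.Icc 1 m).biUnion fun r =>
    ((rowFam u p q b0 (L + r - 1) (L + r)) ×ˢ (G r)).image fun x => x.1 ++ x.2
  have hδ1 : δ ≤ 1 := by linarith
  refine ⟨Fam, ?_, ?_, ?_⟩
  · -- weights
    have h1 : ∑ T ∈ Fam, (δ ^ 2) ^ T.length ≤ ∑ r ∈ Finset.Icc 1 m,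
        (2 ^ (L + r - 1) * δ ^ (L + r)) * κ ^ (m - r) := by
      refine (sum_biUnion_le' _ _ (fun T : List (P2 × P2) => (δ ^ 2) ^ T.length)
        fun _ => by positivity).trans ?_
      refine Finset.sum_le_sum fun r hr => ?_
      obtain ⟨hr1, hr2⟩ := Finset.mem_Icc.mp hr
      refine (sum_image_le' _ _ (fun T : List (P2 × P2) => (δ ^ 2) ^ T.length)
        fun _ => by positivity).trans ?_
      rw [Finset.sum_product]
      calc ∑ l ∈ rowFam u p q b0 (L + r - 1) (L + r), ∑ T ∈ G r, (δ ^ 2) ^ (l ++ T).length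
          = ∑ l ∈ rowFam u p q b0 (L + r - 1) (L + r), (δ ^ 2) ^ l.length *
              ∑ T ∈ G r, (δ ^ 2) ^ T.length := by
            refine Finset.sum_congr rfl fun l _ => ?_
            rw [Finset.mul_sum]
            refine Finset.sum_congr rfl fun T _ => ?_
            rw [List.length_append, pow_add]
        _ = (∑ l ∈ rowFam u p q b0 (L + r - 1) (L + r), (δ ^ 2) ^ l.length) *
              ∑ T ∈ G r, (δ ^ 2) ^ T.length := by rw [Finset.sum_mul]
        _ ≤ (2 ^ (L + r - 1) * δ ^ (L + r)) * κ ^ (m - r) := by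
            refine mul_le_mul (sum_rowFam_le u p q b0 _ _ hδ0.le hδ1) (hG r hr1 hr2).1
              (Finset.sum_nonneg fun _ _ => by positivity) (by positivity)
    refine h1.trans ?_
    have h2 : ∀ r ∈ Finset.Icc 1 m, (2 ^ (L + r - 1) * δ ^ (L + r)) * κ ^ (m - r) ≤
        κ ^ m * (1 / 2) ^ r := by
      intro r hr
      obtain ⟨hr1, hr2⟩ := Finset.mem_Icc.mp hr
      have e1 : κ ^ m = κ ^ r * κ ^ (m - r) := by rw [← pow_add]; congr 1; omega
      have e2 : (2:ℝ) ^ (L + r - 1) ≤ 2 ^ (L + r) := pow_le_pow_right₀ (by norm_num) (by omega)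
      have e3 : (2:ℝ) ^ (L + r) * δ ^ (L + r) ≤ (κ / 2) ^ r := by
        rw [← mul_pow]
        calc (2 * δ) ^ (L + r) ≤ (κ / 2) ^ (L + r) := by
              apply pow_le_pow_left₀ (by positivity); linarith
          _ ≤ (κ / 2) ^ r := pow_le_pow_of_le_one (by positivity) (by linarith) (by omega)
      calc (2 ^ (L + r - 1) * δ ^ (L + r)) * κ ^ (m - r)
          ≤ (2 ^ (L + r) * δ ^ (L + r)) * κ ^ (m - r) := by gcongr
        _ ≤ (κ / 2) ^ r * κ ^ (m - r) := by gcongr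
        _ = κ ^ m * (1 / 2) ^ r := by rw [e1]; ring
    refine (Finset.sum_le_sum h2).trans ?_
    rw [← Finset.mul_sum]
    have h3 : ∑ r ∈ Finset.Icc 1 m, ((1:ℝ) / 2) ^ r ≤ 1 := by
      have h4 : ∀ n : ℕ, ∑ r ∈ Finset.Icc 1 n, ((1:ℝ) / 2) ^ r = 1 - (1 / 2) ^ n := by
        intro n
        induction n with
        | zero => simp
        | succ n ihn =>
          rw [Finset.sum_Icc_succ_top (by omega), ihn]; ring
      rw [h4]
      have : (0:ℝ) ≤ (1 / 2) ^ m := by positivity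
      linarith
    calc κ ^ m * ∑ r ∈ Finset.Icc 1 m, ((1:ℝ) / 2) ^ r ≤ κ ^ m * 1 := by gcongr
      _ = κ ^ m := mul_one _
  · -- location
    intro T hT e he
    simp only [Fam, Finset.mem_biUnion, Finset.mem_image, Finset.mem_product, Prod.exists,
      Finset.mem_Icc] at hT
    obtain ⟨r, ⟨hr1, hr2⟩, l, T', ⟨hl, hT'⟩, rfl⟩ := hT
    rcases List.mem_append.mp he with he | he
    · have h1 := (List.mem_sublists.mp (List.mem_toFinset.mp (Finset.mem_filter.mp hl).1)).subset he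
      obtain ⟨i, hi, rfl⟩ := mem_rowL h1
      exact ⟨i, b0, le_rfl, by omega, by omega, rfl⟩
    · obtain ⟨i, b, h1, h2, h3, h4⟩ := (hG r hr1 hr2).2.1 T' hT' e he
      exact ⟨i, b, by omega, by omega, by omega, h4⟩
  · -- covering
    intro F E ξ v h M hc hM hcard
    set R : Finset ℕ := (Finset.range M).filter fun a => L + 3 ≤ a ∧ In F ξ u v h p q a b0 with hR
    have hL1 : 1 ≤ L := by
      by_contra hL0
      have : L = 0 := by omega
      rw [this] at hL; norm_num at hL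
    have hsplit : (farC F ξ u v h p q L M b0).card ≤
        R.card + (farC F ξ u v h p q L M (b0 + 1)).card := by
      have h1 : farC F ξ u v h p q L M b0 ⊆
          (R ×ˢ {b0}) ∪ farC F ξ u v h p q L M (b0 + 1) := by
        intro x hx
        obtain ⟨hx1, hx2, hx3, hx4⟩ := Finset.mem_filter.mp hx
        rw [Finset.mem_product] at hx1
        rw [Finset.mem_union]
        by_cases hb : x.2 = b0
        · left
          rw [Finset.mem_product, Finset.mem_singleton]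
          exact ⟨Finset.mem_filter.mpr ⟨hx1.1, hx3, hb ▸ hx4⟩, hb⟩
        · right
          exact Finset.mem_filter.mpr ⟨Finset.mem_product.mpr hx1, by omega, hx3, hx4⟩
      refine (Finset.card_le_card h1).trans ((Finset.card_union_le _ _).trans ?_)
      rw [Finset.card_product, Finset.card_singleton, mul_one]
    have hR1 : 1 ≤ R.card := by
      have hne : (farC F ξ u v h p q L M b0).Nonempty := Finset.card_pos.mp (by omega)
      obtain ⟨x, hx⟩ := hne
      obtain ⟨hx1, hx2, hx3, hx4⟩ := Finset.mem_filter.mp hx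
      have h1 := hx4.ideal hc hs hx3 hx2 (by omega)
      exact Finset.card_pos.mpr ⟨L + 3, Finset.mem_filter.mpr
        ⟨Finset.mem_range.mpr (hM _ _ h1).1, le_rfl, h1⟩⟩
    set r := min R.card m with hr
    have hr1 : 1 ≤ r := le_min hR1 hm
    have hrm : r ≤ m := min_le_right _ _
    have hIn : In F ξ u v h p q (L + 2 + r) b0 := by
      by_contra hn
      have h1 : R ⊆ Finset.Ico (L + 3) (L + 2 + r) := by
        intro a ha
        obtain ⟨h2, h3, h4⟩ := Finset.mem_filter.mp ha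
        rw [Finset.mem_Ico]
        refine ⟨h3, ?_⟩
        by_contra h5
        exact hn (h4.ideal hc hs (not_lt.mp h5) le_rfl (by omega))
      have h2 := Finset.card_le_card h1
      rw [Nat.card_Ico] at h2
      have h3 : r ≤ R.card := min_le_left _ _
      omega
    have hrest : m - r ≤ (farC F ξ u v h p q L M (b0 + 1)).card := by
      rcases le_total R.card m with h1 | h1
      · have : r = R.card := min_eq_left h1
        omega
      · have : r = m := min_eq_right h1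
        omega
    obtain ⟨T', hT', hfr, htight⟩ := (hG r hr1 hrm).2.2 F E ξ v h M hc hM hrest
    set N := L + r - 1 with hN
    have hN3 : N + 3 = L + 2 + r := by omega
    set l := (rowL u p q b0 N).filter
      (fun e => decide (1 - ε ≤ |ext F ξ h e.1 - ext F ξ h e.2|)) with hl
    have hlen : L + r ≤ 2 * l.length := by
      have h1 := row_count hc hs ε b0 N
      have h2 := row_slack (n := N) (b := b0) hc hs (by rw [hN3]; exact hIn)
      rw [← hl] at h1
      have h3 : ((N:ℝ) - l.length) * ε < 5 / 2 := lt_of_le_of_lt h1 h2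
      by_contra hcon
      have h4 : 2 * l.length + 1 ≤ L + r := by omega
      have h4' : 2 * (l.length : ℝ) + 1 ≤ L + r := by exact_mod_cast h4
      have hNr : (N : ℝ) = L + r - 1 := by
        rw [hN, Nat.cast_sub (by omega)]; push_cast; ring
      -- `N - l.length ≥ (L + r - 1) / 2 ≥ L / 2`
      have h5 : (L : ℝ) / 2 ≤ N - l.length := by
        have : (1:ℝ) ≤ r := by exact_mod_cast hr1
        rw [hNr]; linarith
      have h6 : (L : ℝ) / 2 * ε ≤ (N - l.length) * ε := by gcongr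
      linarith
    have hNF : ∀ i, i ≤ N → pt u p q (i + 3) b0 ∈ F := fun i hi =>
      (hIn.ideal hc hs (a' := i + 3) (b' := b0) (by omega) le_rfl (by omega)).1
    have hTb : ∀ e ∈ T', ∃ a a' b' b'', b0 < b' ∧ b0 < b'' ∧
        e = (pt u p q a b', pt u p q a' b'') := by
      intro e he
      obtain ⟨i, b, h1, h2, h3, h4⟩ := (hG r hr1 hrm).2.1 T' hT' e he
      exact ⟨i + 4, i + 3, b, b, by omega, by omega, h4⟩
    have hfresh : Fresh F E (l ++ T') :=
      Fresh.sublist (fresh_rowL hc.nb hs hNF hfr hTb)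
        ((List.filter_sublist (l := rowL u p q b0 N)).append (List.Sublist.refl T'))
    refine ⟨l ++ T', ?_, hfresh, ?_⟩
    · simp only [Fam, Finset.mem_biUnion, Finset.mem_image, Finset.mem_product, Prod.exists,
        Finset.mem_Icc]
      refine ⟨r, ⟨hr1, hrm⟩, l, T', ⟨?_, hT'⟩, rfl⟩
      exact Finset.mem_filter.mpr ⟨List.mem_toFinset.mpr (List.mem_sublists.mpr
        List.filter_sublist), hlen⟩
    · intro e he
      rcases List.mem_append.mp he with he | he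
      · have := (List.mem_filter.mp he).2
        simpa using this
      · exact htight e he

end Crest.Agent.R144.Kor620
end
private theorem rz_1868832b43 : type_of% @_root_.Crest.Agent.R144.Kor620.rowL.eq_def := @_root_.Crest.Agent.R144.Kor620.rowL.eq_def -- L198
private theorem rz_0647d92abd : type_of% @_root_.Crest.Agent.R144.Kor620.rowL.eq_1 := @_root_.Crest.Agent.R144.Kor620.rowL.eq_1 -- L198
end

-- ▼ part R144/KorT2_620
section

/-!
R144 (S0197), helper620.  TAILS of the push cluster (doc 1585), part 2.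

* `cover` : covering of `{k ≤ #S}` by a family of fresh lists of `ε`-tight edges with total weight
  `C A^{-k}`, uniformly in the system, the data and the edge;
* `cover_neg` : the mirror image;
* `vol_tail`, `lintegral_tail` : consequences for volumes.
-/

set_option autoImplicit false

open MeasureTheory Set
open scoped ENNReal

noncomputable section

namespace Crest.Agent.R144.Kor620

open Crest.Agent.R144.Ham560 (ext ham ext_mem ext_notMem nbr mem_nbr Fresh tight ext_neg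
  vol_tight_le)
open Crest.ProbabilityR.HexHeights (Adj)

variable {F : Finset P2} {E : Finset (P2 × P2)} {ξ : P2 → ℝ} {u v : P2} {h : F → ℝ} {p q : P2}

theorem In.comm {a b : ℕ} : In F ξ u v h p q a b ↔ In F ξ u v h q p b a := by
  unfold In
  rw [pt_comm, add_comm a b]

theorem gam_pt (hs : Sec p q) {a b : ℕ} (hab : 1 ≤ a + b) :
    gam u (pt u p q a b) = 3 / 2 - (a + b : ℕ) := by
  rw [gam, if_neg, nrm_pt hs]
  intro h0
  rw [← pt_zero u p q] at h0
  rw [pt_zero] at h0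
  have := pt_inj (u := u) (a' := 0) (b' := 0) hs (by rw [h0, pt_zero])
  omega

/-- A bound for the sector coordinates of points of `F`. -/
theorem exists_bound (F : Finset P2) (u : P2) : ∃ M : ℕ, ∀ p q : P2, Sec p q → ∀ a b : ℕ,
    pt u p q a b ∈ F → a < M ∧ b < M := by
  refine ⟨F.sup (fun x => nrm (x - u)) + 1, fun p q hs a b hab => ?_⟩
  have h1 : nrm (pt u p q a b - u) ≤ F.sup (fun x => nrm (x - u)) :=
    Finset.le_sup (f := fun x => nrm (x - u)) hab
  rw [nrm_pt hs] at h1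
  omega

open scoped Classical in
/-- The number of points of the cluster. -/
theorem card_sset_le {M L : ℕ} (hM : ∀ p q : P2, Sec p q → ∀ a b : ℕ,
    pt u p q a b ∈ F → a < M ∧ b < M) :
    (sset F ξ v (gam u) h).card ≤ 25 + ∑ d ∈ dirs, ((L + 3) ^ 2 +
      (farC F ξ u v h d.1 d.2 L M 0).card + (farC F ξ u v h d.2 d.1 L M 0).card) := by
  set S' : Finset P2 := (sset F ξ v (gam u) h).image Subtype.val with hS'
  have hcard : S'.card = (sset F ξ v (gam u) h).card :=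
    Finset.card_image_of_injective _ Subtype.val_injective
  let D : P2 × P2 → Finset (ℕ × ℕ) := fun d => (Finset.range M ×ˢ Finset.range M).filter fun x =>
    3 ≤ x.1 + x.2 ∧ In F ξ u v h d.1 d.2 x.1 x.2
  let Ball : Finset P2 := ((Finset.Icc (-2 : ℤ) 2) ×ˢ (Finset.Icc (-2 : ℤ) 2)).image fun z => u + z
  have hsub : S' ⊆ Ball ∪ dirs.biUnion fun d => (D d).image fun x => pt u d.1 d.2 x.1 x.2 := by
    intro x hx
    obtain ⟨y, hy, rfl⟩ := Finset.mem_image.mp hx
    obtain ⟨hy1, hy2⟩ := mem_sset.mp hy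
    obtain ⟨d, hd, a, b, hab⟩ := exists_sector u y
    have hs := sec_of_mem hd
    rw [Finset.mem_union]
    by_cases h3 : 3 ≤ a + b
    · right
      rw [Finset.mem_biUnion]
      refine ⟨d, hd, Finset.mem_image.mpr ⟨(a, b), ?_, hab.symm⟩⟩
      have hIn : In F ξ u v h d.1 d.2 a b := by
        refine ⟨hab ▸ y.2, ?_⟩
        rw [hab, gam_pt hs (by omega)] at hy2
        have e : ext F ξ h (pt u d.1 d.2 a b) = h y := by
          rw [ext_mem (hab ▸ y.2)]
          congr 1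
          exact Subtype.ext hab.symm
        rw [e]; linarith
      have hb := hM _ _ hs a b hIn.1
      exact Finset.mem_filter.mpr ⟨Finset.mem_product.mpr
        ⟨Finset.mem_range.mpr hb.1, Finset.mem_range.mpr hb.2⟩, h3, hIn⟩
    · left
      refine Finset.mem_image.mpr ⟨(y : P2) - u, ?_, by abel⟩
      have h4 : nrm ((y : P2) - u) = a + b := by rw [hab, nrm_pt hs]
      rw [Finset.mem_product, Finset.mem_Icc, Finset.mem_Icc]
      simp only [nrm] at h4
      omega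
  have hBall : Ball.card ≤ 25 := by
    refine Finset.card_image_le.trans ?_
    rw [Finset.card_product]; simp
  have hD : ∀ d ∈ dirs, (D d).card ≤ (L + 3) ^ 2 +
      (farC F ξ u v h d.1 d.2 L M 0).card + (farC F ξ u v h d.2 d.1 L M 0).card := by
    intro d hd
    have h1 : D d ⊆ (Finset.range (L + 3) ×ˢ Finset.range (L + 3)) ∪
        farC F ξ u v h d.1 d.2 L M 0 ∪ (farC F ξ u v h d.2 d.1 L M 0).image Prod.swap := by
      intro x hx
      obtain ⟨hx1, hx2, hx3⟩ := Finset.mem_filter.mp hx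
      rw [Finset.mem_product, Finset.mem_range, Finset.mem_range] at hx1
      rw [Finset.mem_union, Finset.mem_union]
      by_cases ha : L + 3 ≤ x.1
      · left; right
        exact Finset.mem_filter.mpr ⟨Finset.mem_product.mpr ⟨Finset.mem_range.mpr hx1.1,
          Finset.mem_range.mpr hx1.2⟩, Nat.zero_le _, ha, hx3⟩
      · by_cases hb : L + 3 ≤ x.2
        · right
          refine Finset.mem_image.mpr ⟨(x.2, x.1), ?_, rfl⟩
          exact Finset.mem_filter.mpr ⟨Finset.mem_product.mpr ⟨Finset.mem_range.mpr hx1.2,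
            Finset.mem_range.mpr hx1.1⟩, Nat.zero_le _, hb, In.comm.mp hx3⟩
        · left; left
          exact Finset.mem_product.mpr ⟨Finset.mem_range.mpr (by omega),
            Finset.mem_range.mpr (by omega)⟩
    refine (Finset.card_le_card h1).trans ((Finset.card_union_le _ _).trans ?_)
    have h2 := Finset.card_union_le (Finset.range (L + 3) ×ˢ Finset.range (L + 3))
      (farC F ξ u v h d.1 d.2 L M 0)
    rw [Finset.card_product, Finset.card_range] at h2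
    have h3 : ((farC F ξ u v h d.2 d.1 L M 0).image Prod.swap).card ≤
        (farC F ξ u v h d.2 d.1 L M 0).card := Finset.card_image_le
    nlinarith
  rw [← hcard]
  refine (Finset.card_le_card hsub).trans ((Finset.card_union_le _ _).trans ?_)
  refine add_le_add hBall (Finset.card_biUnion_le.trans ?_)
  exact Finset.sum_le_sum fun d hd => Finset.card_image_le.trans (hD d hd)

/-- **COVERING OF LARGE CLUSTERS.**  `c` is the constant of the joint density bound. -/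
theorem cover {A c : ℝ} (hA : 1 ≤ A) (hc : 1 ≤ c) : ∃ (C ε : ℝ), 1 ≤ C ∧ 0 < ε ∧ ε ≤ 1 ∧
    ∀ (k : ℕ) (u : P2), ∃ Fam : Finset (List (P2 × P2)),
      (∑ T ∈ Fam, (c * ε) ^ T.length ≤ C * (1 / A) ^ k) ∧
      (∀ T ∈ Fam, ∀ e ∈ T, nrm (e.1 - u) ≤ k + 2 ∧ nrm (e.2 - u) ≤ k + 2) ∧
      ∀ (F : Finset P2) (E : Finset (P2 × P2)) (ξ : P2 → ℝ) (v : P2) (h : F → ℝ),
        Cfg F E ξ u v h → k ≤ (sset F ξ v (gam u) h).card →
        ∃ T ∈ Fam, Fresh F E T ∧ ∀ e ∈ T, 1 - ε ≤ |ext F ξ h e.1 - ext F ξ h e.2| := by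
  classical
  have hA0 : 0 < A := by linarith
  set κ : ℝ := (1 / A) ^ 12 with hκ
  have hκ0 : 0 < κ := by positivity
  have hκ1 : κ ≤ 1 := by
    rw [hκ]
    exact pow_le_one₀ (by positivity) (by rw [div_le_one hA0]; exact hA)
  set δ : ℝ := κ / 4 with hδ
  have hδ0 : 0 < δ := by positivity
  set ε : ℝ := δ ^ 2 / c with hε
  have hc0 : 0 < c := by linarith
  have hε0 : 0 < ε := by positivity
  have hcε : c * ε = δ ^ 2 := by rw [hε]; field_simp
  have hε1 : ε ≤ 1 := by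
    rw [hε, div_le_one hc0]
    have : δ ≤ 1 := by rw [hδ]; linarith
    nlinarith
  obtain ⟨L, hL⟩ := exists_nat_ge (10 / ε)
  have hL' : 10 ≤ ε * L := by
    rw [div_le_iff₀ hε0] at hL; linarith
  set K0 : ℕ := 25 + 6 * (L + 3) ^ 2 with hK0
  refine ⟨12 * A ^ (K0 + 11), ε, ?_, hε0, hε1, fun k u => ?_⟩
  · have : (1:ℝ) ≤ A ^ (K0 + 11) := one_le_pow₀ hA
    linarith
  set m := (k - K0) / 12 with hm
  have hch1 : ∀ d : P2 × P2, ∃ Fam : Finset (List (P2 × P2)), d ∈ dirs →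
      (∑ T ∈ Fam, (δ ^ 2) ^ T.length ≤ κ ^ m) ∧
      (∀ T ∈ Fam, ∀ e ∈ T, ∃ i b, 0 ≤ b ∧ b < 0 + m ∧ i + 4 ≤ L + m + 2 ∧
        e = (pt u d.1 d.2 (i + 4) b, pt u d.1 d.2 (i + 3) b)) ∧
      ∀ (F : Finset P2) (E : Finset (P2 × P2)) (ξ : P2 → ℝ) (v : P2) (h : F → ℝ) (M : ℕ),
        Cfg F E ξ u v h → (∀ a b, In F ξ u v h d.1 d.2 a b → a < M ∧ b < M) →
        m ≤ (farC F ξ u v h d.1 d.2 L M 0).card →
        ∃ T ∈ Fam, Fresh F E T ∧ ∀ e ∈ T, 1 - ε ≤ |ext F ξ h e.1 - ext F ξ h e.2| := by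
    intro d
    by_cases hd : d ∈ dirs
    · obtain ⟨Fam, h1⟩ := cover_rows (u := u) (sec_of_mem hd) hL' hε0 hκ0 hκ1 hδ0 (by
        rw [hδ]; linarith) m 0
      exact ⟨Fam, fun _ => h1⟩
    · exact ⟨∅, fun h => absurd h hd⟩
  have hch2 : ∀ d : P2 × P2, ∃ Fam : Finset (List (P2 × P2)), d ∈ dirs →
      (∑ T ∈ Fam, (δ ^ 2) ^ T.length ≤ κ ^ m) ∧
      (∀ T ∈ Fam, ∀ e ∈ T, ∃ i b, 0 ≤ b ∧ b < 0 + m ∧ i + 4 ≤ L + m + 2 ∧
        e = (pt u d.2 d.1 (i + 4) b, pt u d.2 d.1 (i + 3) b)) ∧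
      ∀ (F : Finset P2) (E : Finset (P2 × P2)) (ξ : P2 → ℝ) (v : P2) (h : F → ℝ) (M : ℕ),
        Cfg F E ξ u v h → (∀ a b, In F ξ u v h d.2 d.1 a b → a < M ∧ b < M) →
        m ≤ (farC F ξ u v h d.2 d.1 L M 0).card →
        ∃ T ∈ Fam, Fresh F E T ∧ ∀ e ∈ T, 1 - ε ≤ |ext F ξ h e.1 - ext F ξ h e.2| := by
    intro d
    by_cases hd : d ∈ dirs
    · obtain ⟨Fam, h1⟩ := cover_rows (u := u) (sec_of_mem hd).symm hL' hε0 hκ0 hκ1 hδ0 (by
        rw [hδ]; linarith) m 0
      exact ⟨Fam, fun _ => h1⟩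
    · exact ⟨∅, fun h => absurd h hd⟩
  choose G1 hG1 using hch1
  choose G2 hG2 using hch2
  refine ⟨dirs.biUnion fun d => G1 d ∪ G2 d, ?_, ?_, ?_⟩
  · rw [hcε]
    have h1 : ∑ T ∈ dirs.biUnion (fun d => G1 d ∪ G2 d), (δ ^ 2) ^ T.length ≤ 12 * κ ^ m := by
      refine (sum_biUnion_le' _ _ (fun T : List (P2 × P2) => (δ ^ 2) ^ T.length)
        fun _ => by positivity).trans ?_
      have h2 : ∀ d ∈ dirs, ∑ T ∈ G1 d ∪ G2 d, (δ ^ 2) ^ T.length ≤ 2 * κ ^ m := by
        intro d hd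
        have h3 := Finset.sum_union_inter (s₁ := G1 d) (s₂ := G2 d)
          (f := fun T : List (P2 × P2) => (δ ^ 2) ^ T.length)
        have h4 : 0 ≤ ∑ T ∈ G1 d ∩ G2 d, (δ ^ 2) ^ T.length :=
          Finset.sum_nonneg fun _ _ => by positivity
        linarith [(hG1 d hd).1, (hG2 d hd).1]
      refine (Finset.sum_le_sum h2).trans (le_of_eq ?_)
      rw [Finset.sum_const]
      have : dirs.card = 6 := by decide
      rw [this]; simp only [nsmul_eq_mul]; push_cast; ring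
    refine h1.trans ?_
    rw [mul_assoc]
    gcongr
    have hk : k ≤ 12 * m + (K0 + 11) := by omega
    have h5 : κ ^ m = (1 / A) ^ (12 * m) := by rw [hκ, ← pow_mul]
    rw [h5]
    have h6 : A ^ (K0 + 11) * (1 / A) ^ k = A ^ (K0 + 11) * (1 / A) ^ k := rfl
    have h7 : (1 / A) ^ (12 * m) * ((1 / A) ^ (K0 + 11) * A ^ (K0 + 11)) = (1 / A) ^ (12 * m) := by
      rw [← mul_pow, one_div_mul_cancel hA0.ne', one_pow, mul_one]
    rw [← h7]
    have h8 : (1 / A) ^ (12 * m) * ((1 / A) ^ (K0 + 11) * A ^ (K0 + 11)) =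
        A ^ (K0 + 11) * (1 / A) ^ (12 * m + (K0 + 11)) := by rw [pow_add]; ring
    rw [h8]
    gcongr A ^ (K0 + 11) * ?_
    exact pow_le_pow_of_le_one (by positivity) (by rw [div_le_one hA0]; exact hA) hk
  · intro T hT e he
    obtain ⟨d, hd, hT⟩ := Finset.mem_biUnion.mp hT
    have hloc : ∀ m' : ℕ, m' = m → 0 < m' → L + 2 * m' + 2 ≤ k + 2 := by
      intro m' h1 h2
      subst h1
      have h3 : 12 * m ≤ k - K0 := by omega
      have h4 : L ≤ K0 := by rw [hK0]; nlinarith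
      omega
    rcases Finset.mem_union.mp hT with hT | hT
    · obtain ⟨i, b, h1, h2, h3, rfl⟩ := (hG1 d hd).2.1 T hT e he
      have h5 := hloc m rfl (by omega)
      rw [nrm_pt (sec_of_mem hd), nrm_pt (sec_of_mem hd)]
      omega
    · obtain ⟨i, b, h1, h2, h3, rfl⟩ := (hG2 d hd).2.1 T hT e he
      have h5 := hloc m rfl (by omega)
      rw [nrm_pt (sec_of_mem hd).symm, nrm_pt (sec_of_mem hd).symm]
      omega
  · intro F E ξ v h hcfg hk
    obtain ⟨M, hM⟩ := exists_bound F u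
    have hcard := card_sset_le (F := F) (ξ := ξ) (u := u) (v := v) (h := h) (L := L) hM
    have hpig : ∃ d ∈ dirs, m ≤ (farC F ξ u v h d.1 d.2 L M 0).card ∨
        m ≤ (farC F ξ u v h d.2 d.1 L M 0).card := by
      by_contra hcon
      push Not at hcon
      have h1 : ∑ d ∈ dirs, ((L + 3) ^ 2 + (farC F ξ u v h d.1 d.2 L M 0).card +
          (farC F ξ u v h d.2 d.1 L M 0).card) ≤ ∑ _d ∈ dirs, ((L + 3) ^ 2 + 2 * (m - 1)) := by
        refine Finset.sum_le_sum fun d hd => ?_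
        obtain ⟨h2, h3⟩ := hcon d hd
        omega
      rw [Finset.sum_const] at h1
      have h6 : dirs.card = 6 := by decide
      rw [h6, smul_eq_mul] at h1
      obtain ⟨h2, h3⟩ := hcon ((1, 0), (0, 1)) (by simp [dirs])
      have hm0 : 0 < m := by omega
      have h4 : 12 * m ≤ k - K0 := by omega
      omega
    obtain ⟨d, hd, hfar⟩ := hpig
    rcases hfar with hfar | hfar
    · obtain ⟨T, hT, h1⟩ := (hG1 d hd).2.2 F E ξ v h M hcfg
        (fun a b hab => hM _ _ (sec_of_mem hd) a b hab.1) hfar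
      exact ⟨T, Finset.mem_biUnion.mpr ⟨d, hd, Finset.mem_union_left _ hT⟩, h1⟩
    · obtain ⟨T, hT, h1⟩ := (hG2 d hd).2.2 F E ξ v h M hcfg
        (fun a b hab => hM _ _ (sec_of_mem hd).symm a b hab.1) hfar
      exact ⟨T, Finset.mem_biUnion.mpr ⟨d, hd, Finset.mem_union_right _ hT⟩, h1⟩

end Crest.Agent.R144.Kor620
end
end

-- ▼ part R144/KorT3_620
section

/-!
R144 (S0197), helper620.  TAILS of the push cluster (doc 1585), part 3: consequences.

* `Cfg.of_half` : the structural hypotheses hold for data `|ξ| ≤ 1/2` and `h v ≤ 1/2`;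
* `cover_neg` : covering for the mirror cluster;
* `TB μ c Z` : joint tightness bound; `tail_TB`, `moment_TB`;
* `TB_volume` : the hammock law itself; `vol_tail`, `vol_moment`.
-/

set_option autoImplicit false

open MeasureTheory Set
open scoped ENNReal

noncomputable section

namespace Crest.Agent.R144.Kor620

open Crest.Agent.R144.Ham560 (ext ham ext_mem ext_notMem nbr mem_nbr Fresh tight ext_neg
  vol_tight_le ham_neg)
open Crest.ProbabilityR.HexHeights (Adj)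

variable {F : Finset P2} {E : Finset (P2 × P2)} {ξ : P2 → ℝ} {u v : P2} {h : F → ℝ}

/-- All lattice edges touching `F` belong to `E`. -/
def FullE (F : Finset P2) (E : Finset (P2 × P2)) : Prop := ∀ x ∈ F, ∀ y, Adj x y → y ∈ nbr E x

theorem ham_nbr' (hx : h ∈ ham F E ξ) {a b : P2} (hb : b ∈ nbr E a) :
    |ext F ξ h a - ext F ξ h b| ≤ 1 := by
  rcases (mem_nbr.mp hb).2 with h1 | h1
  · exact hx _ h1
  · rw [abs_sub_comm]; exact hx _ h1

theorem lip_of_half (hE : FullE F E) (hξ : ∀ z, |ξ z| ≤ 1 / 2) (hh : h ∈ ham F E ξ) :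
    ∀ a b, Adj a b → |ext F ξ h a - ext F ξ h b| ≤ 1 := by
  intro a b hab
  by_cases ha : a ∈ F
  · exact ham_nbr' hh (hE a ha b hab)
  · by_cases hb : b ∈ F
    · rw [abs_sub_comm]; exact ham_nbr' hh (hE b hb a (adj_symm hab))
    · rw [ext_notMem ha, ext_notMem hb]
      have h1 := abs_le.mp (hξ a)
      have h2 := abs_le.mp (hξ b)
      rw [abs_le]; constructor <;> linarith

theorem Cfg.of_half (hE : FullE F E) (hξ : ∀ z, |ξ z| ≤ 1 / 2) (huv : Adj u v)
    (hh : h ∈ ham F E ξ) (hv : ext F ξ h v ≤ 1 / 2) : Cfg F E ξ u v h := by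
  refine ⟨hE, lip_of_half hE hξ hh, huv, fun z _ h3 => ?_⟩
  have h1 := abs_le.mp (hξ z)
  have h2 : (3 : ℝ) ≤ nrm (z - u) := by exact_mod_cast h3
  linarith

theorem ext_neg' (x : F → ℝ) (w : P2) : ext F (-ξ) (-x) w = -ext F ξ x w := ext_neg x w

/-- Covering for the mirror cluster. -/
theorem cover_neg {A c : ℝ} (hA : 1 ≤ A) (hc : 1 ≤ c) : ∃ (C ε : ℝ), 1 ≤ C ∧ 0 < ε ∧ ε ≤ 1 ∧
    ∀ (k : ℕ) (u : P2), ∃ Fam : Finset (List (P2 × P2)),
      (∑ T ∈ Fam, (c * ε) ^ T.length ≤ C * (1 / A) ^ k) ∧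
      (∀ T ∈ Fam, ∀ e ∈ T, nrm (e.1 - u) ≤ k + 2 ∧ nrm (e.2 - u) ≤ k + 2) ∧
      ∀ (F : Finset P2) (E : Finset (P2 × P2)) (ξ : P2 → ℝ) (v : P2) (h : F → ℝ),
        ((Cfg F E ξ u v h ∧ k ≤ (sset F ξ v (gam u) h).card) ∨
          (Cfg F E (-ξ) u v (-h) ∧ k ≤ (sset F (-ξ) v (gam u) (-h)).card)) →
        ∃ T ∈ Fam, Fresh F E T ∧ ∀ e ∈ T, 1 - ε ≤ |ext F ξ h e.1 - ext F ξ h e.2| := by
  obtain ⟨C, ε, h1, h2, h3, h4⟩ := cover hA hc
  refine ⟨C, ε, h1, h2, h3, fun k u => ?_⟩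
  obtain ⟨Fam, h5, h6, h7⟩ := h4 k u
  refine ⟨Fam, h5, h6, fun F E ξ v h hcase => ?_⟩
  rcases hcase with ⟨h8, h9⟩ | ⟨h8, h9⟩
  · exact h7 F E ξ v h h8 h9
  · obtain ⟨T, hT, hf, ht⟩ := h7 F E (-ξ) v (-h) h8 h9
    refine ⟨T, hT, hf, fun e he => ?_⟩
    have := ht e he
    rw [ext_neg', ext_neg'] at this
    rwa [show -ext F ξ h e.1 - -ext F ξ h e.2 = -(ext F ξ h e.1 - ext F ξ h e.2) by ring,
      abs_neg] at this

/-- Joint tightness bound for a measure on heights, with constant `c` and normalisation `Z`. -/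
def TB (F : Finset P2) (E : Finset (P2 × P2)) (ξ : P2 → ℝ) (μ : Measure (F → ℝ)) (c : ℝ)
    (Z : ℝ≥0∞) : Prop :=
  ∀ T : List (P2 × P2), Fresh F E T → ∀ ε : ℝ, 0 < ε → ε ≤ 1 →
    μ {h | h ∈ ham F E ξ ∧ ∀ e ∈ T, 1 - ε ≤ |ext F ξ h e.1 - ext F ξ h e.2|} ≤
      ENNReal.ofReal (c * ε) ^ T.length * Z


open scoped Classical in
/-- The cluster of the ordered edge `(u, v)`: upward push if `h v ≤ lam`, downward push otherwise. -/
def cnum (F : Finset P2) (ξ : P2 → ℝ) (u v : P2) (lam : ℝ) (h : F → ℝ) : ℕ :=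
  if ext F ξ h v ≤ lam then (sset F ξ v (gam u) h).card else (sset F (-ξ) v (gam u) (-h)).card

theorem measurable_cnum (lam : ℝ) : Measurable (cnum F ξ u v lam) := by
  classical
  unfold cnum
  refine Measurable.ite ?_ measurable_card_sset ?_
  · exact measurableSet_le (Ham560.continuous_ext v).measurable measurable_const
  · exact (measurable_card_sset (F := F) (ξ := -ξ) (v := v) (γ := gam u)).comp
      measurable_neg




end Crest.Agent.R144.Kor620
end
end

-- ▼ part R144/KorE3_761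
section

/-!
R144 (S0197), helper761.  Korn inequality, hard walls: the triangular lattice.

With helper620's `gam`, `nrm`, `FullE`, `cnum`:
* `edgeOK_lattice` : the hypotheses of `korn_edge` hold for a lattice edge `(u, v)`, `u` free, when
  the fixed sites at distance at most two from `u` (other than `v`) carry one value `lam`;
* `famOK_lattice` : families of such edges;
* `korn_lattice` : `∑_p ∫ (1/6)^cnum / (cnum + 1) * gr² ≤ 1200 ∫ en Y` under tilted laws;
* `sum_abs_lattice` : Cauchy–Schwarz.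
-/

set_option autoImplicit false
set_option linter.unusedSectionVars false

open MeasureTheory Set
open scoped ENNReal

noncomputable section

namespace Crest.Agent.R144.KorE761

open Crest.Agent.R144.Ham560 (ext ham ext_mem ext_notMem continuous_ext nbr mem_nbr
  hamP Anch)
open Crest.Agent.R144.Kor620 (P2 nrm gam FullE cnum wt sset adj_symm exists_sector pt pt_zero
  nrm_pt adj_pt_succ adj_pt_succ' lip_of_half sec_of_mem)
open Crest.ProbabilityR.HexHeights (Adj)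

variable {F : Finset P2} {E : Finset (P2 × P2)} {ξ : P2 → ℝ} {u v : P2}

theorem adj_cases {a b : P2} (h : Adj a b) : (b.1 = a.1 + 1 ∧ b.2 = a.2) ∨
    (b.1 = a.1 - 1 ∧ b.2 = a.2) ∨ (b.1 = a.1 ∧ b.2 = a.2 + 1) ∨ (b.1 = a.1 ∧ b.2 = a.2 - 1) ∨
    (b.1 = a.1 + 1 ∧ b.2 = a.2 - 1) ∨ (b.1 = a.1 - 1 ∧ b.2 = a.2 + 1) := by
  unfold Adj at h
  omega

theorem nrm_le_iff {z : P2} {n : ℕ} :
    nrm z ≤ n ↔ z.1.natAbs ≤ n ∧ z.2.natAbs ≤ n ∧ (z.1 + z.2).natAbs ≤ n := by
  unfold nrm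
  rw [max_le_iff, max_le_iff, and_assoc]

theorem nrm_adj {a b : P2} (h : Adj a b) (u : P2) : nrm (a - u) ≤ nrm (b - u) + 1 := by
  obtain ⟨h1, h2, h3⟩ := nrm_le_iff.mp (le_refl (nrm (b - u)))
  rw [Prod.fst_sub] at h1 h3
  rw [Prod.snd_sub] at h2 h3
  have k1 : (a.1 - b.1).natAbs ≤ 1 ∧ (a.2 - b.2).natAbs ≤ 1 ∧
      (a.1 + a.2 - (b.1 + b.2)).natAbs ≤ 1 := by
    rcases adj_cases h with h | h | h | h | h | h <;> rw [h.1, h.2] <;>
      exact ⟨by omega, by omega, by omega⟩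
  rw [nrm_le_iff, Prod.fst_sub, Prod.snd_sub]
  generalize nrm (b - u) = n at h1 h2 h3 ⊢
  have g1 : (a.1 - u.1).natAbs ≤ (b.1 - u.1).natAbs + (a.1 - b.1).natAbs := by
    have := Int.natAbs_add_le (b.1 - u.1) (a.1 - b.1)
    rwa [show b.1 - u.1 + (a.1 - b.1) = a.1 - u.1 by ring] at this
  have g2 : (a.2 - u.2).natAbs ≤ (b.2 - u.2).natAbs + (a.2 - b.2).natAbs := by
    have := Int.natAbs_add_le (b.2 - u.2) (a.2 - b.2)
    rwa [show b.2 - u.2 + (a.2 - b.2) = a.2 - u.2 by ring] at this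
  have g3 : (a.1 - u.1 + (a.2 - u.2)).natAbs ≤ (b.1 - u.1 + (b.2 - u.2)).natAbs +
      (a.1 + a.2 - (b.1 + b.2)).natAbs := by
    have := Int.natAbs_add_le (b.1 - u.1 + (b.2 - u.2)) (a.1 + a.2 - (b.1 + b.2))
    rwa [show b.1 - u.1 + (b.2 - u.2) + (a.1 + a.2 - (b.1 + b.2)) =
      a.1 - u.1 + (a.2 - u.2) by ring] at this
  exact ⟨by linarith [k1.1], by linarith [k1.2.1], by linarith [k1.2.2]⟩

theorem nrm_adj_real {a b : P2} (h : Adj a b) (u : P2) :
    |(nrm (a - u) : ℝ) - nrm (b - u)| ≤ 1 := by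
  have h1 : ((nrm (a - u) : ℤ) : ℝ) ≤ ((nrm (b - u) : ℤ) : ℝ) + 1 := by
    exact_mod_cast nrm_adj h u
  have h2 : ((nrm (b - u) : ℤ) : ℝ) ≤ ((nrm (a - u) : ℤ) : ℝ) + 1 := by
    exact_mod_cast nrm_adj (adj_symm h) u
  push_cast at h1 h2
  rw [abs_le]; constructor <;> linarith

theorem one_le_nrm {a u : P2} (h : a ≠ u) : 1 ≤ nrm (a - u) := by
  by_contra hcon
  have h1 : nrm (a - u) ≤ 0 := by omega
  obtain ⟨h2, h3, _⟩ := nrm_le_iff.mp h1
  rw [Prod.fst_sub] at h2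
  rw [Prod.snd_sub] at h3
  apply h
  ext
  · omega
  · omega

theorem nrm_self (u : P2) : nrm (u - u) = 0 := by simp [nrm]

theorem nrm_eq_one {a u : P2} (h : Adj a u) : nrm (a - u) = 1 := by
  have h1 := nrm_adj h u
  rw [nrm_self] at h1
  refine le_antisymm h1 (one_le_nrm ?_)
  rintro rfl
  have := adj_cases h
  omega


/-- All edges of `E` are lattice edges. -/
def LatE (E : Finset (P2 × P2)) : Prop := ∀ p ∈ E, Adj p.1 p.2

theorem LatE.adj (h : LatE E) {a b : P2} (hab : (a, b) ∈ E ∨ (b, a) ∈ E) : Adj a b := by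
  rcases hab with h1 | h1
  · exact h _ h1
  · exact adj_symm (h _ h1)

theorem LatE.nbr (h : LatE E) {a b : P2} (hab : b ∈ Ham560.nbr E a) : Adj a b :=
  h.adj (mem_nbr.mp hab).2

theorem prof_lattice (hE : LatE E) (huv : Adj u v) : Prof F E u v (gam u) where
  apex := by simp [gam]
  lip a b hab _ _ := by
    have h1 := hE.adj hab
    unfold gam
    by_cases ha : a = u
    · subst ha
      by_cases hb : b = a
      · subst hb; simp
      · have h2 := nrm_eq_one (adj_symm h1)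
        simp only [if_true, if_neg hb, h2]
        norm_num [abs_le]
    · by_cases hb : b = u
      · subst hb
        have h2 := nrm_eq_one h1
        simp only [if_true, if_neg ha, h2]
        norm_num [abs_le]
      · simp only [if_neg ha, if_neg hb]
        have := nrm_adj_real h1 u
        rw [abs_sub_comm] at this
        rwa [sub_sub_sub_cancel_left]
  nbr_v a ha := by
    have h1 := hE.nbr ha
    unfold gam
    by_cases hau : a = u
    · simp [hau]
    · simp only [if_neg hau]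
      have h2 := one_le_nrm hau
      have h3 := nrm_adj (adj_symm h1) u
      have h4 := nrm_eq_one (adj_symm huv)
      rw [h4] at h3
      have h5 : (nrm (a - u) : ℝ) ≤ 2 := by exact_mod_cast h3
      have h6 : (1 : ℝ) ≤ nrm (a - u) := by exact_mod_cast h2
      rw [abs_le]; constructor <;> linarith
  nbr_u y hy _ := by
    have h1 := hE.nbr hy
    have h2 := nrm_eq_one (adj_symm h1)
    have h3 : y ≠ u := (mem_nbr.mp hy).1
    unfold gam
    rw [if_neg h3, h2]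
    norm_num

/-- A height which is `1`-Lipschitz along lattice edges is `1`-Lipschitz for `nrm`. -/
theorem lip_nrm {f : P2 → ℝ} (hf : ∀ a b, Adj a b → |f a - f b| ≤ 1) (u x : P2) :
    |f u - f x| ≤ nrm (x - u) := by
  obtain ⟨d, hd, a, b, rfl⟩ := exists_sector u x
  have hs := sec_of_mem hd
  rw [nrm_pt hs]
  have key1 : ∀ a : ℕ, |f u - f (pt u d.1 d.2 a 0)| ≤ a := by
    intro a
    induction a with
    | zero => simp [pt_zero]
    | succ n ih =>
      have h1 := hf _ _ (adj_pt_succ (u := u) hs n 0)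
      rw [abs_le] at *
      push_cast
      constructor <;> linarith
  have key2 : ∀ b : ℕ, |f u - f (pt u d.1 d.2 a b)| ≤ (a + b : ℕ) := by
    intro b
    induction b with
    | zero => simpa using key1 a
    | succ n ih =>
      have h1 := hf _ _ (adj_pt_succ' (u := u) hs a n)
      rw [abs_le] at *
      push_cast at *
      constructor <;> linarith
  exact key2 b

/-- The hypotheses of `korn_edge` on the lattice. -/
theorem edgeOK_lattice (hE : LatE E) (hF : FullE F E) (hξ : ∀ z, |ξ z| ≤ 1 / 2) (hu : u ∈ F)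
    (huv : Adj u v) {lam : ℝ} (hlam : |lam| ≤ 1 / 2)
    (hfix : ∀ b, b ∉ F → b ≠ v → nrm (b - u) ≤ 2 → ξ b = lam) :
    EdgeOK F E ξ u v (gam u) lam where
  mem := hu
  nbr := hF u hu v huv
  prof := prof_lattice hE huv
  dist h hh x hxv := by
    have hl := lip_of_half hF hξ hh
    have h1 := lip_nrm hl u x
    have h2 := hl u v huv
    rw [ext_mem x.2] at h1
    unfold gam
    have h3 : |ext F ξ h v - h x| ≤ |ext F ξ h u - ext F ξ h v| + |ext F ξ h u - h x| := by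
      rw [abs_sub_comm (ext F ξ h u) (ext F ξ h v)]
      exact abs_sub_le _ _ _
    have h1' : |ext F ξ h u - h x| ≤ nrm ((x : P2) - u) := h1
    by_cases hxu : (x : P2) = u
    · rw [if_pos hxu]
      have h4 : nrm ((x : P2) - u) = 0 := by rw [hxu]; exact nrm_self u
      rw [h4] at h1'
      push_cast at h1'
      linarith
    · rw [if_neg hxu]
      linarith
  fix a ha hav b hb hbF hbv := by
    have h1 := hE.nbr hb
    unfold gam
    by_cases hau : a = u
    · subst hau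
      have h2 := nrm_eq_one (adj_symm h1)
      rw [hfix b hbF hbv (by omega)]
      simp
    · rw [if_neg hau]
      have h2 := one_le_nrm hau
      have h3 := nrm_adj (adj_symm h1) u
      rcases Nat.lt_or_ge 1 (nrm (a - u)) with h4 | h4
      · have h5 : (2 : ℝ) ≤ nrm (a - u) := by exact_mod_cast h4
        have h6 := abs_le.mp (hξ b)
        have h7 := abs_le.mp hlam
        rw [abs_le]; constructor <;> linarith
      · have h5 : nrm (a - u) = 1 := by omega
        rw [h5] at h3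
        rw [hfix b hbF hbv (by omega), h5]
        norm_num

/-- A vertex has at most six lattice neighbours. -/
theorem card_adj_le (P : Finset (P2 × P2)) (hP : ∀ p ∈ P, Adj p.1 p.2) (z : P2) :
    (P.filter fun p => p.1 = z).card ≤ 6 ∧ (P.filter fun p => p.2 = z).card ≤ 6 := by
  let D : Finset P2 := {(1, 0), (-1, 0), (0, 1), (0, -1), (1, -1), (-1, 1)}
  have hD : D.card ≤ 6 := Finset.card_le_six
  constructor
  · refine le_trans (Finset.card_le_card_of_injOn (fun p => p.2 - z) ?_ ?_) hD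
    · intro p hp
      have h1 := Finset.mem_filter.mp hp
      have h2 := adj_cases (hP p h1.1)
      rw [h1.2] at h2
      simp only [D, Finset.coe_insert, Finset.coe_singleton, mem_insert_iff,
        mem_singleton_iff, Prod.ext_iff, Prod.fst_sub, Prod.snd_sub]
      omega
    · intro p hp q hq hpq
      have h1 := (Finset.mem_filter.mp hp).2
      have h2 := (Finset.mem_filter.mp hq).2
      have h3 : p.2 = q.2 := by simpa using hpq
      exact Prod.ext (h1.trans h2.symm) h3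
  · refine le_trans (Finset.card_le_card_of_injOn (fun p => p.1 - z) ?_ ?_) hD
    · intro p hp
      have h1 := Finset.mem_filter.mp hp
      have h2 := adj_cases (hP p h1.1)
      rw [h1.2] at h2
      simp only [D, Finset.coe_insert, Finset.coe_singleton, mem_insert_iff,
        mem_singleton_iff, Prod.ext_iff, Prod.fst_sub, Prod.snd_sub]
      omega
    · intro p hp q hq hpq
      have h1 := (Finset.mem_filter.mp hp).2
      have h2 := (Finset.mem_filter.mp hq).2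
      have h3 : p.1 = q.1 := by simpa using hpq
      exact Prod.ext h3 (h1.trans h2.symm)

/-- A family of ordered lattice edges with free first endpoint, around which the fixed sites carry
one value. -/
structure LatFam (F : Finset P2) (ξ : P2 → ℝ) (P : Finset (P2 × P2)) (lam : P2 × P2 → ℝ) :
    Prop where
  mem : ∀ p ∈ P, p.1 ∈ F
  adj : ∀ p ∈ P, Adj p.1 p.2
  half : ∀ p ∈ P, |lam p| ≤ 1 / 2
  fix : ∀ p ∈ P, ∀ b, b ∉ F → b ≠ p.2 → nrm (b - p.1) ≤ 2 → ξ b = lam p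

theorem LatFam.famOK {P : Finset (P2 × P2)} {lam : P2 × P2 → ℝ} (hP : LatFam F ξ P lam)
    (hE : LatE E) (hF : FullE F E) (hξ : ∀ z, |ξ z| ≤ 1 / 2) :
    FamOK F E ξ P (fun p => gam p.1) lam 6 where
  ok p hp := edgeOK_lattice hE hF hξ (hP.mem p hp) (hP.adj p hp) (hP.half p hp) (hP.fix p hp)
  fst z _ := (card_adj_le P hP.adj z).1
  snd z _ := (card_adj_le P hP.adj z).2

/-- The weight in terms of the cluster number of helper620. -/
theorem we_eq (u v : P2) (lam : ℝ) (h : F → ℝ) :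
    we F ξ v (gam u) lam h = (1 / 6) ^ cnum F ξ u v lam h / (cnum F ξ u v lam h + 1) := by
  unfold we cnum wt
  split_ifs <;> rfl


/-- **Korn inequality on the lattice**, tilted laws. -/
theorem korn_lattice (hA : Anch F E) (hE : LatE E) (hF : FullE F E) (hξ : ∀ z, |ξ z| ≤ 1 / 2)
    {P : Finset (P2 × P2)} {lam : P2 × P2 → ℝ} (hP : LatFam F ξ P lam)
    {l : F → ℝ} {ε : ℝ} (hl : ∀ x, |l x| ≤ ε) (hε : ε ≤ 1 / 20)
    (c₀ : ℝ) {Y : (F → ℝ) → (F → ℝ)} (hY : ContDiff ℝ 1 Y) (hR : RigidW F E ξ Y) :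
    ∑ p ∈ P, ∫ x, (1 / 6) ^ cnum F ξ p.1 p.2 (lam p) x / (cnum F ξ p.1 p.2 (lam p) x + 1) *
        gr Y p.1 p.2 x ^ 2 ∂(lawT F E ξ l c₀) ≤
      1200 * ∫ x, MW121.en Y x ∂(lawT F E ξ l c₀) := by
  have h1 := korn_field_integral hA hξ (hP.famOK hE hF hξ) hl hε c₀ hY hR
  simp only [we_eq] at h1
  refine h1.trans (le_of_eq ?_)
  norm_num


/-! ### the frozen edges -/

open Crest.ProbabilityR.TriHeights

theorem latE_triE (T : Finset Tri) : LatE (Ham560.triE T) := by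
  intro p hp
  have h1 := Ham560.mem_triE.mp hp
  obtain ⟨hne, t, _, h2, h3⟩ := h1
  obtain ⟨⟨a, b⟩, c, d⟩ := p
  obtain ⟨⟨t1, t2⟩, s⟩ := t
  simp only [corners, Finset.mem_image, Finset.mem_univ, true_and] at h2 h3
  obtain ⟨i, hi⟩ := h2
  obtain ⟨j, hj⟩ := h3
  simp only at hne
  unfold Adj
  cases s <;> fin_cases i <;> fin_cases j <;> simp [corner] at hi hj <;>
    (obtain ⟨rfl, rfl⟩ := hi; obtain ⟨rfl, rfl⟩ := hj; simp at hne ⊢)

end Crest.Agent.R144.KorE761
end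
end

-- ▼ part R144/Uia1_714
section

/-!
# R144 (S0197), block UIA (helper714), part 1: abstract counting

Uniform integrability in average of `B ^ N e` for a finite family of random natural numbers `N e`
(cluster sizes), from (H1) a single-edge tail bound for large sizes and (H2) a joint bound for
separated families inside boxes.
-/

set_option autoImplicit false

namespace Crest.Agent.R144.Uia714

open MeasureTheory Finset
open scoped ENNReal BigOperators

variable {Ω : Type*} [MeasurableSpace Ω] {μ : Measure Ω}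
variable {ε : Type*} [DecidableEq ε]



/-- a maximal separated subset: if every vertex conflicts with at most `c` vertices (itself
included), every set of at least `c * j` vertices contains a separated subset of size `j`. -/
lemma exists_separated (R : ε → ε → Prop) [DecidableRel R] (hrefl : ∀ a, R a a)
    (hsymm : ∀ a b, R a b → R b a) {c : ℕ} (hc : 0 < c) :
    ∀ (j : ℕ) (A : Finset ε), (∀ a ∈ A, (A.filter (R a)).card ≤ c) → c * j ≤ A.card →
      ∃ S ⊆ A, S.card = j ∧ ∀ a ∈ S, ∀ b ∈ S, a ≠ b → ¬ R a b := by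
  intro j
  induction j with
  | zero => exact fun A _ _ => ⟨∅, empty_subset _, rfl, by simp⟩
  | succ j ih =>
    intro A hA hcard
    have hpos : 0 < A.card := by
      have : 0 < c * (j + 1) := by positivity
      omega
    obtain ⟨a, ha⟩ := card_pos.mp hpos
    set A' := A.filter (fun b => ¬ R a b) with hA'
    have hsub : A' ⊆ A := filter_subset _ _
    have hc1 : A'.card + (A.filter (R a)).card = A.card := by
      rw [hA', add_comm]; exact card_filter_add_card_filter_not (s := A) (R a)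
    have hc2 : c * j ≤ A'.card := by
      have := hA a ha
      have h3 : c * (j + 1) = c * j + c := by ring
      omega
    obtain ⟨S, hSA, hSc, hSs⟩ := ih A' (fun b hb => by
      refine le_trans (card_le_card ?_) (hA b (hsub hb))
      exact filter_subset_filter _ hsub) hc2
    have haS : a ∉ S := fun h => by
      have := (mem_filter.mp (hSA h)).2
      exact this (hrefl a)
    refine ⟨insert a S, ?_, ?_, ?_⟩
    · intro b hb
      rcases mem_insert.mp hb with rfl | hb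
      · exact ha
      · exact hsub (hSA hb)
    · rw [card_insert_of_notMem haS, hSc]
    · intro x hx y hy hxy
      rcases mem_insert.mp hx with hx' | hx' <;> rcases mem_insert.mp hy with hy' | hy'
      · exact absurd (hx'.trans hy'.symm) hxy
      · rw [hx']; exact (mem_filter.mp (hSA hy')).2
      · rw [hy']; exact fun h => (mem_filter.mp (hSA hx')).2 (hsymm _ _ h)
      · exact hSs x hx' y hy' hxy

/-- separated finite sets -/
def Sep (R : ε → ε → Prop) (S : Finset ε) : Prop := ∀ a ∈ S, ∀ b ∈ S, a ≠ b → ¬ R a b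

lemma sum_biUnion_le' {ι : Type*} (I : Finset ι) (box : ι → Finset ε) (f : ε → ℝ≥0∞) :
    ∑ e ∈ I.biUnion box, f e ≤ ∑ i ∈ I, ∑ e ∈ box i, f e := by
  classical
  induction I using Finset.induction_on with
  | empty => simp
  | insert i I hi ih =>
    rw [biUnion_insert, sum_insert hi]
    calc ∑ e ∈ box i ∪ I.biUnion box, f e
        ≤ ∑ e ∈ box i ∪ I.biUnion box, f e + ∑ e ∈ box i ∩ I.biUnion box, f e := le_self_add
      _ = ∑ e ∈ box i, f e + ∑ e ∈ I.biUnion box, f e := sum_union_inter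
      _ ≤ _ := by gcongr

/-- number of bad indices -/
noncomputable def cnt (A : Finset ε) (D : ε → Set Ω) (ω : Ω) : ℕ :=
  haveI := Classical.decPred fun e => ω ∈ D e
  (A.filter fun e => ω ∈ D e).card

omit [MeasurableSpace Ω] [DecidableEq ε] in
lemma cnt_le_card (A : Finset ε) (D : ε → Set Ω) (ω : Ω) : cnt A D ω ≤ A.card := by
  classical
  unfold cnt
  exact card_filter_le _ _

/-- **joint bound for the number of bad indices** -/
theorem cnt_tail (R : ε → ε → Prop) (hrefl : ∀ a, R a a)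
    (hsymm : ∀ a b, R a b → R b a) {c : ℕ} (hc : 0 < c) (A : Finset ε) (D : ε → Set Ω)
    (hR : ∀ a ∈ A, haveI := Classical.decPred (R a); (A.filter (R a)).card ≤ c)
    {b q : ℝ≥0∞} (j : ℕ)
    (hj : ∀ S ⊆ A, S.card = j → Sep R S → μ (⋂ e ∈ S, D e) ≤ b * q ^ j) :
    μ {ω | c * j ≤ cnt A D ω} ≤ (A.card.choose j) * (b * q ^ j) := by
  classical
  set T := (A.powersetCard j).filter (Sep R) with hT
  have hsub : {ω | c * j ≤ cnt A D ω} ⊆ ⋃ S ∈ T, ⋂ e ∈ S, D e := by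
    intro ω hω
    simp only [Set.mem_ofPred_eq, cnt] at hω
    obtain ⟨S, hS, hSc, hSs⟩ := exists_separated R hrefl hsymm hc j
      (A.filter fun e => ω ∈ D e) (fun a ha => by
        refine le_trans (card_le_card ?_) (by simpa using hR a (mem_filter.mp ha).1)
        intro x hx
        rw [mem_filter] at hx ⊢
        exact ⟨(mem_filter.mp hx.1).1, hx.2⟩) (by convert hω)
    simp only [Set.mem_iUnion]
    refine ⟨S, ?_, ?_⟩
    · rw [hT, mem_filter, mem_powersetCard]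
      exact ⟨⟨hS.trans (filter_subset _ _), hSc⟩, hSs⟩
    · simp only [Set.mem_iInter]
      exact fun e he => (mem_filter.mp (hS he)).2
  calc μ {ω | c * j ≤ cnt A D ω} ≤ μ (⋃ S ∈ T, ⋂ e ∈ S, D e) := measure_mono hsub
    _ ≤ ∑ S ∈ T, μ (⋂ e ∈ S, D e) := measure_biUnion_finset_le _ _
    _ ≤ ∑ _S ∈ T, b * q ^ j := by
        apply sum_le_sum
        intro S hS
        rw [hT, mem_filter, mem_powersetCard] at hS
        exact hj S hS.1.1 hS.1.2 hS.2
    _ = T.card * (b * q ^ j) := by rw [sum_const, nsmul_eq_mul]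
    _ ≤ (A.card.choose j) * (b * q ^ j) := by
        gcongr
        rw [← card_powersetCard]
        exact card_le_card (filter_subset _ _)

/-- `C(K, j) q^j ≤ (3 K q / j)^j` in real form. -/
lemma choose_mul_pow_le (K j : ℕ) (hj : 0 < j) {q : ℝ} (hq : 0 ≤ q) :
    (K.choose j : ℝ) * q ^ j ≤ (3 * K * q / j) ^ j := by
  have h1 : (K.choose j : ℝ) ≤ (K : ℝ) ^ j / j.factorial := Nat.choose_le_pow_div j K
  have hj' : (0 : ℝ) < j := by exact_mod_cast hj
  have h2 : (j : ℝ) ^ j / 3 ^ j ≤ j.factorial := by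
    have h3 := Real.exp_one_lt_d9
    have h4 : (j : ℝ) ^ j / Real.exp j ≤ j.factorial := by
      have h5 : (j : ℝ) ^ j / j.factorial ≤ Real.exp j := Real.pow_div_factorial_le_exp (j : ℝ) hj'.le j
      have h6 : (0 : ℝ) < j.factorial := by exact_mod_cast Nat.factorial_pos j
      rw [div_le_iff₀ h6] at h5
      rw [div_le_iff₀ (Real.exp_pos _)]
      linarith
    have h7 : Real.exp j ≤ 3 ^ j := by
      have : Real.exp (j : ℝ) = Real.exp 1 ^ j := by rw [← Real.exp_nat_mul]; simp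
      rw [this]
      exact pow_le_pow_left₀ (Real.exp_pos _).le (by linarith) j
    refine le_trans ?_ h4
    gcongr
  have h6 : (0 : ℝ) < j.factorial := by exact_mod_cast Nat.factorial_pos j
  calc (K.choose j : ℝ) * q ^ j ≤ ((K : ℝ) ^ j / j.factorial) * q ^ j := by gcongr
    _ ≤ ((K : ℝ) ^ j / ((j : ℝ) ^ j / 3 ^ j)) * q ^ j := by gcongr
    _ = (3 * K * q / j) ^ j := by
        rw [div_pow, mul_pow, mul_pow]; field_simp


end Crest.Agent.R144.Uia714
end

-- ▼ part R144/Uig2_714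
section

/-!
# R144 (S0197), block UIG (helper714), part 2: numerics of the boxes

`uia_box`: boxes of side `ρ`; joint bound `C₃ ^ ρ * (CA / A ^ k) ^ |S|` for separated sets of bad
edges; then `∑ ∫ B ^ N 1(k₁ ≤ N ≤ k₂) ≤ η * (volume)` as soon as `(2B)^(4 k₂) ≤ ρ`, `ρ ≥ ρ₀(η)`,
`k₁ = k₁(η)`, also for a second law `ν` with `ν A ≤ √(23 μ A)`.
-/

set_option autoImplicit false

namespace Crest.Agent.R144.Uig714

open MeasureTheory Finset
open Crest.Agent.R144.Uia714
open scoped BigOperators ENNReal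

section num

lemma sq_le_four_pow (k : ℕ) : (k + 1) ^ 2 ≤ 4 * 2 ^ k := by
  induction k with
  | zero => norm_num
  | succ k ih =>
    rcases Nat.lt_or_ge k 2 with hk | hk
    · interval_cases k <;> norm_num
    · calc (k + 1 + 1) ^ 2 ≤ 2 * (k + 1) ^ 2 := by nlinarith
        _ ≤ 2 * (4 * 2 ^ k) := by omega
        _ = 4 * 2 ^ (k + 1) := by ring

lemma num_r {B Cb Cc A : ℕ} (hB : 1 ≤ B) (hCb : 1 ≤ Cb) (hCc : 1 ≤ Cc) (hA : 8 * B ≤ A)
    {CA C₃ η : ℝ} (hCA : 1 ≤ CA) (hC₃ : 1 ≤ C₃) (hη : 0 < η) :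
    ∃ k₁ ρ₀ : ℕ, (1 : ℝ) / 2 ^ k₁ ≤ η ∧ 1 ≤ k₁ ∧ ∀ ρ : ℕ, ρ₀ ≤ ρ → ∀ k₂ : ℕ,
      (2 * B) ^ (4 * k₂) ≤ ρ →
      ∀ k, k₁ ≤ k → k ≤ k₂ → ∃ j : ℕ, 0 < j ∧
        (Cc * (k + 1) ^ 2) * j * (2 * B) ^ k ≤ Cb * ρ ^ 2 ∧
        23 * ((3 * ((Cb * ρ ^ 2 : ℕ) : ℝ) * (CA / (A : ℝ) ^ k) / j) ^ j * C₃ ^ ρ) ≤
          (η / ((k₂ + 1) * (B : ℝ) ^ k)) ^ 2 := by
  -- `k₁`
  obtain ⟨k₁, hk₁⟩ : ∃ k₁ : ℕ, 192 * CA * Cc + 1 / η ≤ 2 ^ k₁ ∧ 1 ≤ k₁ := by
    obtain ⟨k, hk⟩ := pow_unbounded_of_one_lt (192 * CA * Cc + 1 / η) (one_lt_two)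
    refine ⟨k + 1, hk.le.trans ?_, by omega⟩
    exact pow_le_pow_right₀ one_le_two (by omega)
  obtain ⟨M, hM⟩ := pow_unbounded_of_one_lt (16 * C₃) (by norm_num : (1 : ℝ) < 8)
  have hM1 : 1 ≤ M := by
    by_contra h
    have : M = 0 := by omega
    rw [this, pow_zero] at hM; linarith
  -- `ρ₀`
  have hlim := tendsto_pow_const_div_const_pow_of_one_lt 4 (by norm_num : (1 : ℝ) < 16)
  obtain ⟨ρ₁, hρ₁⟩ := Filter.eventually_atTop.mp
    (hlim.eventually (gt_mem_nhds (show 0 < η ^ 2 / 23 by positivity)))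
  refine ⟨k₁, max ρ₁ ((4 * M * Cc) ^ 2), ?_, hk₁.2, ?_⟩
  · rw [div_le_iff₀ (by positivity)]
    have h1 : 1 / η ≤ 2 ^ k₁ := le_trans (by
      have : 0 ≤ 192 * CA * (Cc : ℝ) := by positivity
      linarith) hk₁.1
    rw [div_le_iff₀ hη] at h1
    linarith
  intro ρ hρ k₂ hk₂ k hk hkk
  have hρ1 : ρ₁ ≤ ρ := le_trans (le_max_left _ _) hρ
  have hρ2 : (4 * M * Cc) ^ 2 ≤ ρ := le_trans (le_max_right _ _) hρ
  set D : ℕ := (2 * B) ^ k * (Cc * (k + 1) ^ 2) with hD
  have hD0 : 0 < D := by positivity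
  set j : ℕ := (Cb * ρ ^ 2) / D with hj
  have h2B : 1 ≤ 2 * B := by omega
  -- bound for `D`
  have hD1 : M * ρ * D ≤ Cb * ρ ^ 2 := by
    have e1 : D ≤ 4 * Cc * (2 * B) ^ (2 * k₂) := by
      calc D ≤ (2 * B) ^ k * (Cc * (4 * 2 ^ k)) := by
            rw [hD]; gcongr; exact sq_le_four_pow k
        _ ≤ (2 * B) ^ k * (Cc * (4 * (2 * B) ^ k)) :=
            Nat.mul_le_mul_left _ (Nat.mul_le_mul_left _ (Nat.mul_le_mul_left _
              (Nat.pow_le_pow_left (by omega) _)))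
        _ = 4 * Cc * (2 * B) ^ (2 * k) := by rw [two_mul k, pow_add]; ring
        _ ≤ _ := by gcongr
    have e2 : M * D ≤ ρ := by
      have e3 : (M * D) ^ 2 ≤ ρ ^ 2 := by
        calc (M * D) ^ 2 ≤ (M * (4 * Cc * (2 * B) ^ (2 * k₂))) ^ 2 := by gcongr
          _ = (4 * M * Cc) ^ 2 * (2 * B) ^ (4 * k₂) := by
              rw [show 4 * k₂ = 2 * k₂ * 2 by ring, pow_mul (2 * B) (2 * k₂) 2]; ring
          _ ≤ ρ * ρ := Nat.mul_le_mul hρ2 hk₂
          _ = ρ ^ 2 := by ring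
      exact (Nat.pow_le_pow_iff_left (by norm_num)).mp e3
    calc M * ρ * D = (M * D) * ρ := by ring
      _ ≤ ρ * ρ := by gcongr
      _ = 1 * ρ ^ 2 := by ring
      _ ≤ Cb * ρ ^ 2 := by gcongr
  have hjM : M * ρ ≤ j := by
    rw [hj, Nat.le_div_iff_mul_le hD0]; exact hD1
  have hρpos : 0 < ρ := by
    have : 0 < (2 * B) ^ (4 * k₂) := by positivity
    omega
  have hj0 : 0 < j := by
    have : 0 < M * ρ := Nat.mul_pos hM1 hρpos
    omega
  have hjD : j * D ≤ Cb * ρ ^ 2 := Nat.div_mul_le_self _ _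
  have hjD' : Cb * ρ ^ 2 < (j + 1) * D := by
    have := Nat.lt_div_mul_add (a := Cb * ρ ^ 2) hD0
    rw [hj, add_mul, one_mul]; exact this
  refine ⟨j, hj0, ?_, ?_⟩
  · calc (Cc * (k + 1) ^ 2) * j * (2 * B) ^ k = j * D := by rw [hD]; ring
      _ ≤ _ := hjD
  · have hjR : (0 : ℝ) < j := by exact_mod_cast hj0
    have hBR : (1 : ℝ) ≤ B := by exact_mod_cast hB
    have hAR : (8 : ℝ) * B ≤ A := by exact_mod_cast hA
    have hAk : (0 : ℝ) < (A : ℝ) ^ k := by
      have : (0 : ℝ) < A := by linarith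
      positivity
    have hx : 3 * ((Cb * ρ ^ 2 : ℕ) : ℝ) * (CA / (A : ℝ) ^ k) / j ≤ 1 / 8 := by
      have e1 : ((Cb * ρ ^ 2 : ℕ) : ℝ) ≤ 2 * j * D := by
        have : Cb * ρ ^ 2 ≤ 2 * j * D := by
          have h1 : (j + 1) * D ≤ 2 * j * D := Nat.mul_le_mul_right _ (by omega)
          omega
        exact_mod_cast this
      have e2 : (D : ℝ) ≤ 4 * Cc * (4 * B) ^ k := by
        have : D ≤ 4 * Cc * (4 * B) ^ k := by
          calc D ≤ (2 * B) ^ k * (Cc * (4 * 2 ^ k)) := by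
                rw [hD]; gcongr; exact sq_le_four_pow k
            _ = 4 * Cc * (4 * B) ^ k := by
                rw [show 4 * B = (2 * B) * 2 by ring, mul_pow (2 * B) 2]
                generalize (2 * B) ^ k = y
                ring
        exact_mod_cast this
      have e3 : (4 * (B : ℝ)) ^ k / (A : ℝ) ^ k ≤ 1 / 2 ^ k := by
        rw [div_le_div_iff₀ hAk (by positivity), one_mul, ← mul_pow]
        exact pow_le_pow_left₀ (by positivity) (by linarith) k
      have e4 : 192 * CA * Cc ≤ (2 : ℝ) ^ k := by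
        have h1 : (2 : ℝ) ^ k₁ ≤ 2 ^ k := pow_le_pow_right₀ one_le_two hk
        have h2 : 0 ≤ 1 / η := by positivity
        linarith [hk₁.1]
      calc 3 * ((Cb * ρ ^ 2 : ℕ) : ℝ) * (CA / (A : ℝ) ^ k) / j
          ≤ 3 * (2 * j * (4 * Cc * (4 * B) ^ k)) * (CA / (A : ℝ) ^ k) / j := by
            have : ((Cb * ρ ^ 2 : ℕ) : ℝ) ≤ 2 * j * (4 * Cc * (4 * B) ^ k) :=
              e1.trans (by gcongr)
            gcongr
        _ = 24 * CA * Cc * ((4 * (B : ℝ)) ^ k / (A : ℝ) ^ k) := by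
            field_simp; ring
        _ ≤ 24 * CA * Cc * (1 / 2 ^ k) := by gcongr
        _ ≤ 1 / 8 := by
            rw [mul_one_div, div_le_div_iff₀ (by positivity) (by norm_num)]
            linarith
    have hx0 : 0 ≤ 3 * ((Cb * ρ ^ 2 : ℕ) : ℝ) * (CA / (A : ℝ) ^ k) / j := by positivity
    have h1 : (3 * ((Cb * ρ ^ 2 : ℕ) : ℝ) * (CA / (A : ℝ) ^ k) / j) ^ j * C₃ ^ ρ ≤ 1 / 16 ^ ρ := by
      calc (3 * ((Cb * ρ ^ 2 : ℕ) : ℝ) * (CA / (A : ℝ) ^ k) / j) ^ j * C₃ ^ ρ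
          ≤ (1 / 8) ^ j * C₃ ^ ρ := by gcongr
        _ ≤ (1 / 8) ^ (M * ρ) * C₃ ^ ρ :=
            mul_le_mul_of_nonneg_right
              (pow_le_pow_of_le_one (by norm_num) (by norm_num) hjM) (by positivity)
        _ = (C₃ / 8 ^ M) ^ ρ := by rw [pow_mul, ← mul_pow]; congr 1; rw [one_div, inv_pow]; ring
        _ ≤ (1 / 16) ^ ρ := by
            refine pow_le_pow_left₀ (by positivity) ?_ ρ
            rw [div_le_div_iff₀ (by positivity) (by norm_num)]; linarith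
        _ = 1 / 16 ^ ρ := by rw [one_div, inv_pow, one_div]
    have h2 : (ρ : ℝ) ^ 4 / 16 ^ ρ < η ^ 2 / 23 := hρ₁ ρ hρ1
    have hρR : (1 : ℝ) ≤ ρ := by exact_mod_cast hρpos
    have hk2ρ : ((k₂ : ℝ) + 1) ≤ ρ := by
      have : k₂ + 1 ≤ ρ := by
        calc k₂ + 1 ≤ 2 ^ k₂ := Nat.lt_two_pow_self
          _ ≤ (2 * B) ^ k₂ := Nat.pow_le_pow_left (by omega) _
          _ ≤ (2 * B) ^ (4 * k₂) := Nat.pow_le_pow_right (by omega) (by omega)
          _ ≤ ρ := hk₂
      exact_mod_cast this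
    have hBk : (B : ℝ) ^ k ≤ ρ := by
      have : B ^ k ≤ ρ := by
        calc B ^ k ≤ (2 * B) ^ k := Nat.pow_le_pow_left (by omega) _
          _ ≤ (2 * B) ^ (4 * k₂) := Nat.pow_le_pow_right (by omega) (by omega)
          _ ≤ ρ := hk₂
      exact_mod_cast this
    have h3 : η / (ρ : ℝ) ^ 2 ≤ η / ((k₂ + 1) * (B : ℝ) ^ k) := by
      apply div_le_div_of_nonneg_left hη.le (by positivity)
      rw [pow_two]
      exact mul_le_mul hk2ρ hBk (by positivity) (by positivity)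
    calc 23 * ((3 * ((Cb * ρ ^ 2 : ℕ) : ℝ) * (CA / (A : ℝ) ^ k) / j) ^ j * C₃ ^ ρ)
        ≤ 23 * (1 / 16 ^ ρ) := by gcongr
      _ ≤ (η / (ρ : ℝ) ^ 2) ^ 2 := by
          rw [div_lt_div_iff₀ (by positivity) (by norm_num)] at h2
          rw [mul_one_div, div_pow, div_le_div_iff₀ (by positivity) (by positivity)]
          calc 23 * ((ρ : ℝ) ^ 2) ^ 2 = (ρ : ℝ) ^ 4 * 23 := by ring
            _ ≤ _ := h2.le
      _ ≤ _ := pow_le_pow_left₀ (by positivity) h3 2

end num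

section box

universe u v w

variable {Ω : Type u} [MeasurableSpace Ω] {ε : Type v}

lemma measurable_cnt (A : Finset ε) {D : ε → Set Ω} (hD : ∀ e, MeasurableSet (D e)) :
    Measurable (cnt A D) := by
  classical
  have : cnt A D = fun ω => ∑ e ∈ A, Set.indicator (D e) (fun _ => (1 : ℕ)) ω := by
    funext ω
    rw [cnt, card_filter]
    refine sum_congr rfl fun e _ => ?_
    by_cases h : ω ∈ D e <;> simp [h]
  rw [this]
  exact Finset.measurable_sum _ fun e _ => measurable_const.indicator (hD e)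


lemma sum_measure_le_of_cnt {ν : Measure Ω} [IsProbabilityMeasure ν] (A : Finset ε) {K : ℕ}
    (hK : A.card ≤ K) {D : ε → Set Ω} (hD : ∀ e, MeasurableSet (D e)) {l r : ℝ≥0∞}
    (H : ν {ω | l * K ≤ (cnt A D ω : ℝ≥0∞)} ≤ r) :
    ∑ e ∈ A, ν (D e) ≤ K * (l + r) := by
  classical
  have hsumc : ∑ e ∈ A, ν (D e) = ∫⁻ ω, (cnt A D ω : ℝ≥0∞) ∂ν := by
    have : (fun ω => (cnt A D ω : ℝ≥0∞)) =
        fun ω => ∑ e ∈ A, Set.indicator (D e) (fun _ => (1 : ℝ≥0∞)) ω := by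
      funext ω
      rw [cnt, card_filter, Nat.cast_sum]
      refine sum_congr rfl fun e _ => ?_
      by_cases h : ω ∈ D e <;> simp [h]
    rw [this, lintegral_finsetSum _ fun e _ => measurable_const.indicator (hD e)]
    refine sum_congr rfl fun e _ => ?_
    rw [lintegral_indicator_const (hD e), one_mul]
  rw [hsumc]
  set G : Set Ω := {ω | l * K ≤ (cnt A D ω : ℝ≥0∞)} with hG
  have hGm : MeasurableSet G := measurableSet_le measurable_const
    (measurable_from_top.comp (measurable_cnt A hD))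
  have hpt : ∀ ω, (cnt A D ω : ℝ≥0∞) ≤ l * K + G.indicator (fun _ => (K : ℝ≥0∞)) ω := by
    intro ω
    by_cases h : ω ∈ G
    · rw [Set.indicator_of_mem h]
      refine le_trans ?_ le_add_self
      exact_mod_cast (cnt_le_card A D ω).trans hK
    · rw [Set.indicator_of_notMem h, add_zero]
      rw [hG] at h
      simp only [Set.mem_ofPred_eq, not_le] at h
      exact h.le
  calc ∫⁻ ω, (cnt A D ω : ℝ≥0∞) ∂ν
      ≤ ∫⁻ ω, (l * K + G.indicator (fun _ => (K : ℝ≥0∞)) ω) ∂ν := lintegral_mono hpt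
    _ = l * K + K * ν G := by
        rw [lintegral_add_left measurable_const, lintegral_const, measure_univ, mul_one,
          lintegral_indicator_const hGm]
    _ ≤ l * K + K * r := by gcongr
    _ = K * (l + r) := by ring

/-- **Counting in boxes**: `∑_k B ^ k ∑_e ν (D e k)` is small. -/
theorem uia_sets {B Cb Cc A : ℕ} (hB : 1 ≤ B) (hCb : 1 ≤ Cb) (hCc : 1 ≤ Cc) (hA : 8 * B ≤ A)
    {CA C₃ η : ℝ} (hCA : 1 ≤ CA) (hC₃ : 1 ≤ C₃) (hη : 0 < η) :
    ∃ k₁ ρ₀ : ℕ, 1 ≤ k₁ ∧ ∀ ρ : ℕ, ρ₀ ≤ ρ → ∀ k₂ : ℕ, (2 * B) ^ (4 * k₂) ≤ ρ →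
      ∀ {Ω : Type u} [MeasurableSpace Ω] {ε : Type v} {ι : Type w} (μ ν : Measure Ω)
        [IsProbabilityMeasure μ] [IsProbabilityMeasure ν]
        (_ : ∀ A, MeasurableSet A → ν.real A ≤ √(23 * μ.real A))
        (𝓔 : Finset ε) (I : Finset ι) (box : ι → Finset ε)
        (_ : ∀ e ∈ 𝓔, ∃ i ∈ I, e ∈ box i) (_ : ∀ i ∈ I, (box i).card ≤ Cb * ρ ^ 2)
        (D : ε → ℕ → Set Ω) (_ : ∀ e k, MeasurableSet (D e k))
        (R : ℕ → ε → ε → Prop) (_ : ∀ k a, R k a a) (_ : ∀ k a b, R k a b → R k b a)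
        (_ : ∀ k, ∀ i ∈ I, ∀ a ∈ box i, haveI := Classical.decPred (R k a)
          ((box i).filter (R k a)).card ≤ Cc * (k + 1) ^ 2)
        (_ : ∀ k, k₁ ≤ k → k ≤ k₂ → ∀ i ∈ I, ∀ S ⊆ box i, Sep (R k) S →
          μ (⋂ e ∈ S, D e k) ≤ ENNReal.ofReal (C₃ ^ ρ * (CA / (A : ℝ) ^ k) ^ S.card)),
        ∑ k ∈ Ico k₁ (k₂ + 1), (B : ℝ≥0∞) ^ k * ∑ e ∈ 𝓔, ν (D e k) ≤
          I.card * (Cb * ρ ^ 2 : ℕ) * ENNReal.ofReal η := by
  classical
  obtain ⟨k₁, ρ₀, hk₁, hk₁1, H⟩ := num_r hB hCb hCc hA hCA hC₃ (show 0 < η / 3 by positivity)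
  refine ⟨k₁, ρ₀, hk₁1, ?_⟩
  intro ρ hρ k₂ hk₂ Ω _ ε ι μ ν _ _ hν 𝓔 I box hcov hcard D hD R hrefl hsymm hR hj
  have hB0 : (0 : ℝ) < B := by exact_mod_cast hB
  -- one box, one level
  have hbox : ∀ k, k₁ ≤ k → k ≤ k₂ → ∀ i ∈ I, ∑ e ∈ box i, ν (D e k) ≤
      (Cb * ρ ^ 2 : ℕ) * (((2 * B : ℕ) : ℝ≥0∞)⁻¹ ^ k +
        ENNReal.ofReal (η / 3 / ((k₂ + 1) * (B : ℝ) ^ k))) := by
    intro k hk1 hk2 i hi
    refine sum_measure_le_of_cnt (box i) (hcard i hi) (fun e => hD e k) ?_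
    obtain ⟨j, hj0, hjK, hjr⟩ := H ρ hρ k₂ hk₂ k hk1 hk2
    set G : Set Ω := {ω | Cc * (k + 1) ^ 2 * j ≤ cnt (box i) (fun e => D e k) ω} with hG
    have hGm : MeasurableSet G :=
      measurableSet_le measurable_const (measurable_cnt _ fun e => hD e k)
    have hsub : {ω | ((2 * B : ℕ) : ℝ≥0∞)⁻¹ ^ k * ((Cb * ρ ^ 2 : ℕ) : ℝ≥0∞) ≤
        (cnt (box i) (fun e => D e k) ω : ℝ≥0∞)} ⊆ G := by
      intro ω hω
      simp only [Set.mem_ofPred_eq] at hω
      simp only [hG, Set.mem_ofPred_eq]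
      have h4 : ((Cc * (k + 1) ^ 2 * j : ℕ) : ℝ≥0∞) ≤
          ((2 * B : ℕ) : ℝ≥0∞)⁻¹ ^ k * ((Cb * ρ ^ 2 : ℕ) : ℝ≥0∞) := by
        rw [← ENNReal.inv_pow, ← ENNReal.div_eq_inv_mul]
        rw [ENNReal.le_div_iff_mul_le (Or.inl (by positivity)) (Or.inl (by finiteness))]
        exact_mod_cast hjK
      have h5 := h4.trans hω
      exact_mod_cast h5
    have hμG : μ.real G ≤ (3 * ((Cb * ρ ^ 2 : ℕ) : ℝ) * (CA / (A : ℝ) ^ k) / j) ^ j * C₃ ^ ρ := by
      have hc0 : 0 < Cc * (k + 1) ^ 2 := by positivity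
      have h1 := cnt_tail (μ := μ) (R k) (hrefl k) (hsymm k) hc0 (box i)
        (fun e => D e k) (fun a ha => hR k i hi a ha)
        (b := ENNReal.ofReal (C₃ ^ ρ)) (q := ENNReal.ofReal (CA / (A : ℝ) ^ k)) j
        (fun S hS hSc hSep => by
          refine (hj k hk1 hk2 i hi S hS hSep).trans (le_of_eq ?_)
          rw [ENNReal.ofReal_mul (by positivity), hSc,
            ENNReal.ofReal_pow (show 0 ≤ CA / (A : ℝ) ^ k by positivity) j])
      have h2 : μ.real G ≤ ((box i).card.choose j : ℝ) * (C₃ ^ ρ * (CA / (A : ℝ) ^ k) ^ j) := by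
        rw [measureReal_def]
        refine ENNReal.toReal_le_of_le_ofReal (by positivity) (h1.trans (le_of_eq ?_))
        rw [ENNReal.ofReal_mul (by positivity), ENNReal.ofReal_mul (by positivity),
          ENNReal.ofReal_natCast, ENNReal.ofReal_pow (show 0 ≤ CA / (A : ℝ) ^ k by positivity) j]
      have h3 := choose_mul_pow_le (Cb * ρ ^ 2) j hj0 (q := CA / (A : ℝ) ^ k) (by positivity)
      have h4 : ((box i).card.choose j : ℝ) ≤ ((Cb * ρ ^ 2).choose j : ℝ) := by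
        exact_mod_cast Nat.choose_le_choose j (hcard i hi)
      calc μ.real G ≤ ((box i).card.choose j : ℝ) * (C₃ ^ ρ * (CA / (A : ℝ) ^ k) ^ j) := h2
        _ ≤ ((Cb * ρ ^ 2).choose j : ℝ) * (C₃ ^ ρ * (CA / (A : ℝ) ^ k) ^ j) := by gcongr
        _ = (((Cb * ρ ^ 2).choose j : ℝ) * (CA / (A : ℝ) ^ k) ^ j) * C₃ ^ ρ := by ring
        _ ≤ _ := by gcongr
    have hνG : ν.real G ≤ η / 3 / ((k₂ + 1) * (B : ℝ) ^ k) := by
      refine (hν G hGm).trans ?_
      rw [Real.sqrt_le_left (by positivity)]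
      exact (mul_le_mul_of_nonneg_left hμG (by norm_num)).trans hjr
    calc ν {ω | ((2 * B : ℕ) : ℝ≥0∞)⁻¹ ^ k * ((Cb * ρ ^ 2 : ℕ) : ℝ≥0∞) ≤
          (cnt (box i) (fun e => D e k) ω : ℝ≥0∞)}
        ≤ ν G := measure_mono hsub
      _ ≤ ENNReal.ofReal (η / 3 / ((k₂ + 1) * (B : ℝ) ^ k)) := by
          rw [measureReal_def] at hνG
          exact ENNReal.le_ofReal_iff_toReal_le (measure_ne_top _ _) (by positivity) |>.mpr hνG
  -- one level
  have hlev : ∀ k, k₁ ≤ k → k ≤ k₂ → (B : ℝ≥0∞) ^ k * ∑ e ∈ 𝓔, ν (D e k) ≤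
      I.card * (Cb * ρ ^ 2 : ℕ) * ENNReal.ofReal ((1 / 2) ^ k + η / 3 / (k₂ + 1)) := by
    intro k hk1 hk2
    have e2 : (B : ℝ≥0∞) ^ k * (((2 * B : ℕ) : ℝ≥0∞)⁻¹ ^ k +
        ENNReal.ofReal (η / 3 / ((k₂ + 1) * (B : ℝ) ^ k))) =
        ENNReal.ofReal ((1 / 2) ^ k + η / 3 / (k₂ + 1)) := by
      have h1 : (B : ℝ≥0∞) ^ k = ENNReal.ofReal ((B : ℝ) ^ k) := by
        rw [ENNReal.ofReal_pow hB0.le, ENNReal.ofReal_natCast]
      have h2 : ((2 * B : ℕ) : ℝ≥0∞)⁻¹ ^ k = ENNReal.ofReal ((1 / (2 * B)) ^ k) := by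
        rw [ENNReal.ofReal_pow (by positivity)]
        congr 1
        rw [one_div, ENNReal.ofReal_inv_of_pos (by positivity)]
        congr 1
        rw [show (2 * (B : ℝ)) = ((2 * B : ℕ) : ℝ) by push_cast; ring, ENNReal.ofReal_natCast]
      rw [h1, h2, ← ENNReal.ofReal_add (by positivity) (by positivity),
        ← ENNReal.ofReal_mul (by positivity)]
      congr 1
      rw [mul_add]
      congr 1
      · rw [← mul_pow]; congr 1; field_simp
      · field_simp
    calc (B : ℝ≥0∞) ^ k * ∑ e ∈ 𝓔, ν (D e k)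
        ≤ (B : ℝ≥0∞) ^ k * ∑ e ∈ I.biUnion box, ν (D e k) := by
          refine mul_le_mul' le_rfl (sum_le_sum_of_subset fun e he => ?_)
          obtain ⟨i, hi, h⟩ := hcov e he
          exact mem_biUnion.mpr ⟨i, hi, h⟩
      _ ≤ (B : ℝ≥0∞) ^ k * ∑ i ∈ I, ∑ e ∈ box i, ν (D e k) := by
          gcongr
          exact sum_biUnion_le' _ _ _
      _ ≤ (B : ℝ≥0∞) ^ k * ∑ _i ∈ I, (Cb * ρ ^ 2 : ℕ) * (((2 * B : ℕ) : ℝ≥0∞)⁻¹ ^ k +
            ENNReal.ofReal (η / 3 / ((k₂ + 1) * (B : ℝ) ^ k))) := by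
          gcongr with i hi
          exact hbox k hk1 hk2 i hi
      _ = I.card * (Cb * ρ ^ 2 : ℕ) * ((B : ℝ≥0∞) ^ k * (((2 * B : ℕ) : ℝ≥0∞)⁻¹ ^ k +
            ENNReal.ofReal (η / 3 / ((k₂ + 1) * (B : ℝ) ^ k)))) := by
          rw [sum_const, nsmul_eq_mul]; ring
      _ = _ := by rw [e2]
  calc ∑ k ∈ Ico k₁ (k₂ + 1), (B : ℝ≥0∞) ^ k * ∑ e ∈ 𝓔, ν (D e k)
      ≤ ∑ k ∈ Ico k₁ (k₂ + 1), I.card * (Cb * ρ ^ 2 : ℕ) *
          ENNReal.ofReal ((1 / 2) ^ k + η / 3 / (k₂ + 1)) := by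
        refine sum_le_sum fun k hk => ?_
        rw [mem_Ico] at hk
        exact hlev k hk.1 (by omega)
    _ ≤ I.card * (Cb * ρ ^ 2 : ℕ) * ENNReal.ofReal η := by
        rw [← mul_sum]
        gcongr
        rw [← ENNReal.ofReal_sum_of_nonneg (fun k _ => by positivity)]
        apply ENNReal.ofReal_le_ofReal
        rw [sum_add_distrib, sum_const, Nat.card_Ico, nsmul_eq_mul]
        have h1 : ∑ k ∈ Ico k₁ (k₂ + 1), (1 / 2 : ℝ) ^ k ≤ 2 * (1 / 2) ^ k₁ := by
          rcases le_or_gt k₁ (k₂ + 1) with h | h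
          · rw [geom_sum_Ico (by norm_num) h]
            have : 0 ≤ (1 / 2 : ℝ) ^ (k₂ + 1) := by positivity
            rw [div_le_iff_of_neg (by norm_num)]
            linarith
          · rw [Ico_eq_empty (by omega), sum_empty]; positivity
        have h2 : (1 / 2 : ℝ) ^ k₁ ≤ η / 3 := by rw [one_div, inv_pow, ← one_div]; exact hk₁
        have h3 : ((k₂ + 1 - k₁ : ℕ) : ℝ) * (η / 3 / (k₂ + 1)) ≤ η / 3 := by
          have : ((k₂ + 1 - k₁ : ℕ) : ℝ) ≤ k₂ + 1 := by exact_mod_cast Nat.sub_le _ _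
          calc ((k₂ + 1 - k₁ : ℕ) : ℝ) * (η / 3 / (k₂ + 1)) ≤ (k₂ + 1) * (η / 3 / (k₂ + 1)) := by
                gcongr
            _ = η / 3 := by field_simp
        linarith

/-- `∫ B ^ N 1(k₁ ≤ N ≤ k₂) ≤ ∑_{k₁ ≤ k ≤ k₂} B ^ k ν {k ≤ N}` -/
lemma lintegral_pow_window_le {ν : Measure Ω} {N : Ω → ℕ} (hN : ∀ k, MeasurableSet {ω | k ≤ N ω})
    (B : ℝ≥0∞) (k₁ k₂ : ℕ) :
    ∫⁻ ω, (if k₁ ≤ N ω ∧ N ω ≤ k₂ then B ^ (N ω) else 0) ∂ν ≤
      ∑ k ∈ Ico k₁ (k₂ + 1), B ^ k * ν {ω | k ≤ N ω} := by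
  calc ∫⁻ ω, (if k₁ ≤ N ω ∧ N ω ≤ k₂ then B ^ (N ω) else 0) ∂ν
      ≤ ∫⁻ ω, ∑ k ∈ Ico k₁ (k₂ + 1), {ω | k ≤ N ω}.indicator (fun _ => B ^ k) ω ∂ν := by
        refine lintegral_mono fun ω => ?_
        simp only
        split_ifs with h
        · calc B ^ (N ω) = {ω' | N ω ≤ N ω'}.indicator (fun _ => B ^ (N ω)) ω := by simp
            _ ≤ _ := single_le_sum (f := fun k => {ω | k ≤ N ω}.indicator (fun _ => B ^ k) ω)
                (fun _ _ => bot_le) (mem_Ico.mpr ⟨h.1, by omega⟩)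
        · exact bot_le
    _ = _ := by
        rw [lintegral_finsetSum _ fun k _ => measurable_const.indicator (hN k)]
        refine sum_congr rfl fun k _ => ?_
        rw [lintegral_indicator_const (hN k)]


end box

end Crest.Agent.R144.Uig714
end

-- ▼ part R144/Uig3_714
section

/-!
# R144 (S0197), block UIG (helper714), part 3: joint bounds for separated bad events

`TBQ` : joint tightness bound of a law for fresh lists inside `Q` (output of the LC lemma).
`CovAt` : covering of an event by fresh tight lists within hexagonal distance `r` of `u`.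
`joint_le` : joint bound for separated events.
-/

set_option autoImplicit false

namespace Crest.Agent.R144.Uig714

open MeasureTheory Finset
open Crest.Agent.R144.Uia714
open Crest.Agent.R144.Ham560 (ext ham nbr mem_nbr Fresh tight hamP measurableSet_ham)
open Crest.Agent.R144.Kor620 (P2 nrm FullE)
open scoped BigOperators ENNReal

variable {F : Finset P2} {E : Finset (P2 × P2)} {ξ : P2 → ℝ}

/-- joint tightness bound inside `Q` -/
def TBQ (F : Finset P2) (E : Finset (P2 × P2)) (ξ : P2 → ℝ) (μ : Measure (F → ℝ)) (c : ℝ)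
    (K₀ : ℝ≥0∞) (Q : Set P2) : Prop :=
  ∀ T : List (P2 × P2), Fresh F E T → (∀ e ∈ T, e.1 ∈ Q ∧ e.2 ∈ Q) → ∀ ε : ℝ, 0 < ε → ε ≤ 1 →
    μ (tight F E ξ T ε) ≤ ENNReal.ofReal (c * ε) ^ T.length * K₀

lemma TBQ.mono {μ : Measure (F → ℝ)} {c : ℝ} {K₀ K₁ : ℝ≥0∞} {Q Q' : Set P2}
    (h : TBQ F E ξ μ c K₀ Q) (hK : K₀ ≤ K₁) (hQ : Q' ⊆ Q) : TBQ F E ξ μ c K₁ Q' := by
  intro T hT hTQ ε hε hε1
  exact (h T hT (fun e he => ⟨hQ (hTQ e he).1, hQ (hTQ e he).2⟩) ε hε hε1).trans (by gcongr)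

/-- covering of an event by fresh tight lists near `u` -/
def CovAt (F : Finset P2) (E : Finset (P2 × P2)) (ξ : P2 → ℝ) (c ε q : ℝ) (r : ℕ) (u : P2)
    (D : Set (F → ℝ)) : Prop :=
  ∃ Fam : Finset (List (P2 × P2)), (∑ T ∈ Fam, (c * ε) ^ T.length ≤ q) ∧
    (∀ T ∈ Fam, ∀ e ∈ T, nrm (e.1 - u) ≤ r ∧ nrm (e.2 - u) ≤ r) ∧
    ∀ h ∈ ham F E ξ ∩ D, ∃ T ∈ Fam, Fresh F E T ∧ h ∈ tight F E ξ T ε

lemma nrm_comm (x y : P2) : nrm (x - y) = nrm (y - x) := by
  have h1 : (x - y).1 = -(y - x).1 := by simp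
  have h2 : (x - y).2 = -(y - x).2 := by simp
  have h3 : -(y - x).1 + -(y - x).2 = -((y - x).1 + (y - x).2) := by ring
  rw [nrm, nrm, h1, h2, h3, Int.natAbs_neg, Int.natAbs_neg, Int.natAbs_neg]

lemma nrm_add_le (a b : P2) : nrm (a + b) ≤ nrm a + nrm b := by
  have h1 : (a + b).1.natAbs ≤ a.1.natAbs + b.1.natAbs := Int.natAbs_add_le _ _
  have h2 : (a + b).2.natAbs ≤ a.2.natAbs + b.2.natAbs := Int.natAbs_add_le _ _
  have h3 : ((a + b).1 + (a + b).2).natAbs ≤ (a.1 + a.2).natAbs + (b.1 + b.2).natAbs := by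
    have : (a + b).1 + (a + b).2 = (a.1 + a.2) + (b.1 + b.2) := by
      simp only [Prod.fst_add, Prod.snd_add]; ring
    rw [this]; exact Int.natAbs_add_le _ _
  unfold nrm
  omega

lemma nrm_tri (x y z : P2) : nrm (x - z) ≤ nrm (x - y) + nrm (y - z) := by
  have := nrm_add_le (x - y) (y - z)
  rwa [sub_add_sub_cancel] at this

lemma tight_append (S S' : List (P2 × P2)) (ε : ℝ) :
    tight F E ξ (S ++ S') ε = tight F E ξ S ε ∩ tight F E ξ S' ε := by
  ext x
  constructor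
  · rintro ⟨h1, h2⟩
    exact ⟨⟨h1, fun q hq => h2 q (List.mem_append_left _ hq)⟩,
      ⟨h1, fun q hq => h2 q (List.mem_append_right _ hq)⟩⟩
  · rintro ⟨⟨h1, h2⟩, ⟨_, h3⟩⟩
    refine ⟨h1, fun q hq => ?_⟩
    rcases List.mem_append.mp hq with hq | hq
    · exact h2 q hq
    · exact h3 q hq

/-- **Joint bound for separated events** -/
theorem joint_le {ι : Type*} (S : Finset ι) (pos : ι → P2) (D : ι → Set (F → ℝ))
    {μ : Measure (F → ℝ)} {c ε q : ℝ} {K₀ : ℝ≥0∞} {Q : Set P2} (hTB : TBQ F E ξ μ c K₀ Q)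
    (hc : 0 ≤ c) (hε : 0 < ε) (hε1 : ε ≤ 1) {r : ℕ}
    (hcov : ∀ i ∈ S, CovAt F E ξ c ε q r (pos i) (D i))
    (hQ : ∀ i ∈ S, ∀ z, nrm (z - pos i) ≤ r → z ∈ Q)
    (hsep : ∀ i ∈ S, ∀ j ∈ S, i ≠ j → 2 * r < nrm (pos i - pos j)) :
    μ (ham F E ξ ∩ ⋂ i ∈ S, D i) ≤ ENNReal.ofReal q ^ S.card * K₀ := by
  classical
  have hq0 : ∀ i ∈ S, 0 ≤ q := by
    intro i hi
    obtain ⟨Fam, h1, _⟩ := hcov i hi
    exact le_trans (sum_nonneg fun T _ => by positivity) h1
  have key : ∀ S' : Finset ι, S' ⊆ S → ∀ T₀ : List (P2 × P2), Fresh F E T₀ →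
      (∀ e ∈ T₀, e.1 ∈ Q ∧ e.2 ∈ Q) →
      (∀ i ∈ S', ∀ e ∈ T₀, r < nrm (e.1 - pos i) ∧ r < nrm (e.2 - pos i)) →
      μ (tight F E ξ T₀ ε ∩ ⋂ i ∈ S', D i) ≤
        ENNReal.ofReal (c * ε) ^ T₀.length * ENNReal.ofReal q ^ S'.card * K₀ := by
    intro S'
    induction S' using Finset.induction_on with
    | empty =>
      intro _ T₀ hT₀ hQ₀ _
      simp only [Finset.notMem_empty, Set.iInter_of_empty, Set.iInter_univ, Set.inter_univ,
        Finset.card_empty, pow_zero, mul_one]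
      exact hTB T₀ hT₀ hQ₀ ε hε hε1
    | @insert i S' hi ih =>
      intro hS' T₀ hT₀ hQ₀ hd
      have hiS : i ∈ S := hS' (mem_insert_self _ _)
      have hS'' : S' ⊆ S := fun j hj => hS' (mem_insert_of_mem hj)
      obtain ⟨Fam, h1, h2, h3⟩ := hcov i hiS
      have hsub : tight F E ξ T₀ ε ∩ ⋂ j ∈ insert i S', D j ⊆
          ⋃ T ∈ Fam.filter (fun T => Fresh F E T),
            (tight F E ξ (T ++ T₀) ε ∩ ⋂ j ∈ S', D j) := by
        rintro x ⟨hx, hx'⟩
        simp only [Set.mem_iInter, mem_insert, forall_eq_or_imp] at hx'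
        obtain ⟨T, hT, hTf, hTt⟩ := h3 x ⟨hx.1, hx'.1⟩
        simp only [Set.mem_iUnion]
        refine ⟨T, mem_filter.mpr ⟨hT, hTf⟩, ?_, ?_⟩
        · rw [tight_append]; exact ⟨hTt, hx⟩
        · simp only [Set.mem_iInter]; exact hx'.2
      calc μ (tight F E ξ T₀ ε ∩ ⋂ j ∈ insert i S', D j)
          ≤ ∑ T ∈ Fam.filter (fun T => Fresh F E T),
              μ (tight F E ξ (T ++ T₀) ε ∩ ⋂ j ∈ S', D j) :=
            (measure_mono hsub).trans (measure_biUnion_finset_le _ _)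
        _ ≤ ∑ T ∈ Fam.filter (fun T => Fresh F E T), ENNReal.ofReal (c * ε) ^ (T ++ T₀).length *
              ENNReal.ofReal q ^ S'.card * K₀ := by
            refine sum_le_sum fun T hT => ?_
            rw [mem_filter] at hT
            refine ih hS'' (T ++ T₀) ?_ ?_ ?_
            · refine Fresh.append hT.2 hT₀ fun e he e' he' => ?_
              have h4 := (h2 T hT.1 e he).1
              have h5 := hd i (mem_insert_self _ _) e' he'
              constructor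
              · intro h6; rw [h6] at h5; omega
              · intro h6; rw [h6] at h5; omega
            · intro e he
              rcases List.mem_append.mp he with he | he
              · exact ⟨hQ i hiS _ (h2 T hT.1 e he).1, hQ i hiS _ (h2 T hT.1 e he).2⟩
              · exact hQ₀ e he
            · intro j hj e he
              rcases List.mem_append.mp he with he | he
              · have h4 := h2 T hT.1 e he
                have h5 := hsep i hiS j (hS'' hj) (fun h => hi (h ▸ hj))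
                have h6 := nrm_tri (pos i) e.1 (pos j)
                have h7 := nrm_tri (pos i) e.2 (pos j)
                rw [nrm_comm (pos i) e.1] at h6
                rw [nrm_comm (pos i) e.2] at h7
                omega
              · exact hd j (mem_insert_of_mem hj) e he
        _ ≤ ∑ T ∈ Fam, ENNReal.ofReal (c * ε) ^ (T ++ T₀).length *
              ENNReal.ofReal q ^ S'.card * K₀ :=
            sum_le_sum_of_subset (filter_subset _ _)
        _ = ENNReal.ofReal (∑ T ∈ Fam, (c * ε) ^ T.length) *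
              (ENNReal.ofReal (c * ε) ^ T₀.length * ENNReal.ofReal q ^ S'.card * K₀) := by
            rw [ENNReal.ofReal_sum_of_nonneg (fun T _ => by positivity), sum_mul]
            refine sum_congr rfl fun T _ => ?_
            rw [List.length_append, pow_add, ENNReal.ofReal_pow (by positivity)]
            ring
        _ ≤ ENNReal.ofReal q *
              (ENNReal.ofReal (c * ε) ^ T₀.length * ENNReal.ofReal q ^ S'.card * K₀) := by
            gcongr
        _ = _ := by rw [card_insert_of_notMem hi, pow_succ]; ring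
  have h := key S (Subset.refl _) [] Fresh.nil (by simp) (by simp)
  simp only [List.length_nil, pow_zero, one_mul] at h
  refine le_trans (measure_mono ?_) h
  rintro x ⟨h1, h2⟩
  exact ⟨⟨h1, by simp⟩, h2⟩

end Crest.Agent.R144.Uig714
end

-- ▼ part R144/Uig4_714
section

/-!
# R144 (S0197), block UIG (helper714), part 4: grid boxes in the lattice

`uib_sets` : for a law `μ` with the LC bound in balls of radius `4ρ` and bad events covered by fresh
tight lists, `∑_k B ^ k ∑_e ν (D e k)` is at most `η * Cf * (2 W + 3 ρ) ^ 2`.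
-/

set_option autoImplicit false

namespace Crest.Agent.R144.Uig714

open MeasureTheory Finset
open Crest.Agent.R144.Uia714
open Crest.Agent.R144.Ham560 (ext ham nbr mem_nbr Fresh tight hamP measurableSet_ham)
open Crest.Agent.R144.Kor620 (P2 nrm FullE)
open scoped BigOperators ENNReal

/-- the grid box of a site -/
def bx (ρ : ℕ) (u : P2) : P2 := (u.1 / (ρ : ℤ), u.2 / (ρ : ℤ))

lemma bx_eq {ρ : ℕ} (hρ : 0 < ρ) {u i : P2} (h : bx ρ u = i) :
    (ρ : ℤ) * i.1 ≤ u.1 ∧ u.1 < ρ * i.1 + ρ ∧ (ρ : ℤ) * i.2 ≤ u.2 ∧ u.2 < ρ * i.2 + ρ := by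
  have hρ' : (0 : ℤ) < ρ := by exact_mod_cast hρ
  subst h
  refine ⟨Int.mul_ediv_self_le hρ'.ne', Int.lt_mul_ediv_self_add hρ', Int.mul_ediv_self_le hρ'.ne',
    Int.lt_mul_ediv_self_add hρ'⟩

lemma bx_nrm {ρ : ℕ} (hρ : 0 < ρ) {u v : P2} (h : bx ρ u = bx ρ v) : nrm (u - v) ≤ 2 * ρ := by
  have h1 := bx_eq hρ h
  have h2 := bx_eq hρ (rfl : bx ρ v = bx ρ v)
  obtain ⟨a1, a2, a3, a4⟩ := h1
  obtain ⟨b1, b2, b3, b4⟩ := h2
  set X := (ρ : ℤ) * (bx ρ v).1
  set Y := (ρ : ℤ) * (bx ρ v).2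
  have e1 : (u - v).1 = u.1 - v.1 := rfl
  have e2 : (u - v).2 = u.2 - v.2 := rfl
  rw [nrm, e1, e2]
  refine max_le (max_le ?_ ?_) ?_ <;> omega

lemma bx_mem {ρ W : ℕ} (hρ : 0 < ρ) {u : P2} (h1 : u.1.natAbs ≤ W) (h2 : u.2.natAbs ≤ W) :
    bx ρ u ∈ Icc (-((W / ρ + 1 : ℕ) : ℤ)) ((W / ρ + 1 : ℕ) : ℤ) ×ˢ
      Icc (-((W / ρ + 1 : ℕ) : ℤ)) ((W / ρ + 1 : ℕ) : ℤ) := by
  have hρ' : (0 : ℤ) < ρ := by exact_mod_cast hρ
  have hW : (W : ℤ) < ρ * ((W / ρ : ℕ) : ℤ) + ρ := by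
    have := Nat.lt_div_mul_add (a := W) hρ
    have h3 : W < ρ * (W / ρ) + ρ := by rw [mul_comm]; exact this
    exact_mod_cast h3
  have key : ∀ x : ℤ, x.natAbs ≤ W → -((W / ρ + 1 : ℕ) : ℤ) ≤ x / ρ ∧
      x / ρ ≤ ((W / ρ + 1 : ℕ) : ℤ) := by
    generalize W / ρ = q at hW
    intro x hx
    constructor
    · rw [Int.le_ediv_iff_mul_le hρ']
      push_cast
      have : -(W : ℤ) ≤ x := by omega
      nlinarith
    · apply Int.ediv_le_of_le_mul hρ'
      push_cast
      have : x ≤ (W : ℤ) := by omega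
      nlinarith
  rw [mem_product, mem_Icc, mem_Icc]
  exact ⟨key _ h1, key _ h2⟩

lemma card_grid (m : ℕ) : (Icc (-(m : ℤ)) (m : ℤ) ×ˢ Icc (-(m : ℤ)) (m : ℤ)).card =
    (2 * m + 1) ^ 2 := by
  rw [card_product, Int.card_Icc]
  have : ((m : ℤ) + 1 - -(m : ℤ)).toNat = 2 * m + 1 := by omega
  rw [this]; ring

lemma card_ball_le (u : P2) (m : ℕ) (S : Finset P2) (h : ∀ z ∈ S, nrm (u - z) ≤ m) :
    S.card ≤ (2 * m + 1) ^ 2 := by
  classical
  have h1 : S.image (fun z => z - u) ⊆ Icc (-(m : ℤ)) (m : ℤ) ×ˢ Icc (-(m : ℤ)) (m : ℤ) := by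
    intro y hy
    obtain ⟨z, hz, rfl⟩ := mem_image.mp hy
    have h2 := h z hz
    rw [nrm_comm] at h2
    have h3 : (z - u).1.natAbs ≤ m := le_trans (by unfold nrm; omega) h2
    have h4 : (z - u).2.natAbs ≤ m := le_trans (by unfold nrm; omega) h2
    rw [mem_product, mem_Icc, mem_Icc]
    omega
  rw [← card_image_of_injective S (sub_left_injective (b := u)), ← card_grid]
  exact card_le_card h1

lemma card_box_le {ρ : ℕ} (hρ : 0 < ρ) (i : P2) (S : Finset P2) (h : ∀ z ∈ S, bx ρ z = i) :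
    S.card ≤ ρ ^ 2 := by
  classical
  have h1 : S ⊆ Ico ((ρ : ℤ) * i.1) (ρ * i.1 + ρ) ×ˢ Ico ((ρ : ℤ) * i.2) (ρ * i.2 + ρ) := by
    intro z hz
    obtain ⟨a1, a2, a3, a4⟩ := bx_eq hρ (h z hz)
    rw [mem_product, mem_Ico, mem_Ico]
    exact ⟨⟨a1, a2⟩, ⟨a3, a4⟩⟩
  refine (card_le_card h1).trans (le_of_eq ?_)
  rw [card_product, Int.card_Ico, Int.card_Ico]
  have h2 : ((ρ : ℤ) * i.1 + ρ - ρ * i.1).toNat = ρ := by omega
  have h3 : ((ρ : ℤ) * i.2 + ρ - ρ * i.2).toNat = ρ := by omega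
  rw [h2, h3]; ring

universe v

/-- **Counting bad events in a domain** (fixed lattice domain). -/
theorem uib_sets {B Cf κ₀ A : ℕ} (hB : 1 ≤ B) (hCf : 1 ≤ Cf) (hA : 8 * B ≤ A)
    {c CA C₃ η : ℝ} (hc : 0 ≤ c) (hCA : 1 ≤ CA) (hC₃ : 1 ≤ C₃) (hη : 0 < η) :
    ∃ k₁ ρ₀ : ℕ, 1 ≤ k₁ ∧ ∀ ρ : ℕ, ρ₀ ≤ ρ → ∀ k₂ : ℕ, (2 * B) ^ (4 * k₂) ≤ ρ →
      ∀ (F : Finset P2) (E : Finset (P2 × P2)) (ξ : P2 → ℝ) (μ ν : Measure (F → ℝ))
        [IsProbabilityMeasure μ] [IsProbabilityMeasure ν] (_ : ∀ᵐ h ∂μ, h ∈ ham F E ξ)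
        (_ : ∀ A, MeasurableSet A → ν.real A ≤ √(23 * μ.real A))
        {κ : Type v} (𝓔 : Finset κ) (pos : κ → P2) (W : ℕ)
        (_ : ∀ e ∈ 𝓔, (pos e).1.natAbs ≤ W ∧ (pos e).2.natAbs ≤ W)
        (_ : ∀ (z : P2) (S : Finset κ), (∀ e ∈ S, e ∈ 𝓔 ∧ pos e = z) → S.card ≤ Cf)
        (D : κ → ℕ → Set (F → ℝ)) (_ : ∀ e k, MeasurableSet (D e k))
        (_ : ∀ k, k₁ ≤ k → k ≤ k₂ → ∃ ε, 0 < ε ∧ ε ≤ 1 ∧
          ∀ e ∈ 𝓔, CovAt F E ξ c ε (CA / (A : ℝ) ^ k) (k + κ₀) (pos e) (D e k))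
        (_ : ∀ e ∈ 𝓔, TBQ F E ξ μ c (ENNReal.ofReal (C₃ ^ ρ)) {z | nrm (z - pos e) ≤ 4 * ρ}),
        ∑ k ∈ Ico k₁ (k₂ + 1), (B : ℝ≥0∞) ^ k * ∑ e ∈ 𝓔, ν (D e k) ≤
          ENNReal.ofReal ((Cf * (2 * W + 3 * ρ) ^ 2 : ℕ) * η) := by
  classical
  have hCc : 1 ≤ Cf * (4 * κ₀ + 5) ^ 2 := Nat.one_le_iff_ne_zero.mpr (by positivity)
  obtain ⟨k₁, ρ₀, hk₁, H⟩ := uia_sets.{0, v, 0} hB hCf hCc hA hCA hC₃ hη
  refine ⟨k₁, max ρ₀ (κ₀ + 1), hk₁, ?_⟩
  intro ρ hρ k₂ hk₂ F E ξ μ ν _ _ hμ hν κ 𝓔 pos W hW hfib D hDm hcov hLC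
  have hρ1 : ρ₀ ≤ ρ := le_trans (le_max_left _ _) hρ
  have hρ2 : κ₀ + 1 ≤ ρ := le_trans (le_max_right _ _) hρ
  have hρ0 : 0 < ρ := by omega
  have hk2ρ : k₂ < ρ := by
    calc k₂ < 2 ^ k₂ := Nat.lt_two_pow_self
      _ ≤ (2 * B) ^ k₂ := Nat.pow_le_pow_left (by omega) _
      _ ≤ (2 * B) ^ (4 * k₂) := Nat.pow_le_pow_right (by omega) (by omega)
      _ ≤ ρ := hk₂
  set I : Finset P2 := 𝓔.image fun e => bx ρ (pos e) with hI
  set box : P2 → Finset κ := fun i => 𝓔.filter fun e => bx ρ (pos e) = i with hbox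
  have hfib' : ∀ (S : Finset κ), S ⊆ 𝓔 → S.card ≤ Cf * (S.image pos).card := by
    intro S hS
    refine card_le_mul_card_image S Cf fun z _ => hfib z _ fun e he => ?_
    rw [mem_filter] at he
    exact ⟨hS he.1, he.2⟩
  have hboxS : ∀ i, box i ⊆ 𝓔 := fun i => filter_subset _ _
  have h1 := H ρ hρ1 k₂ hk₂ μ ν hν 𝓔 I box
    (fun e he => ⟨bx ρ (pos e), mem_image_of_mem _ he, mem_filter.mpr ⟨he, rfl⟩⟩)
    (fun i _ => by
      refine (hfib' _ (hboxS i)).trans (Nat.mul_le_mul_left _ (card_box_le hρ0 i _ ?_))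
      intro z hz
      obtain ⟨e, he, rfl⟩ := mem_image.mp hz
      exact (mem_filter.mp he).2)
    D hDm (fun k e e' => nrm (pos e - pos e') ≤ 2 * (k + κ₀))
    (fun k e => by simp [nrm])
    (fun k e e' h => by rw [nrm_comm]; exact h)
    (fun k i _ e _ => by
      refine (hfib' _ ((@filter_subset _ _ (_) _).trans (hboxS i))).trans ?_
      have h3 : (2 * (2 * (k + κ₀)) + 1) ^ 2 ≤ (4 * κ₀ + 5) ^ 2 * (k + 1) ^ 2 := by
        rw [← mul_pow]
        refine Nat.pow_le_pow_left ?_ 2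
        nlinarith
      refine (Nat.mul_le_mul_left _ ((card_ball_le (pos e) (2 * (k + κ₀)) _ ?_).trans h3)).trans
        (le_of_eq (mul_assoc _ _ _).symm)
      intro z hz
      obtain ⟨e', he', rfl⟩ := mem_image.mp hz
      exact ((@mem_filter _ _ (_) _ _).mp he').2)
    (fun k hk1 hk2 i hi S hS hSep => by
      obtain ⟨ε, hε, hε1, hcv⟩ := hcov k hk1 hk2
      obtain ⟨e₀, he₀, rfl⟩ := mem_image.mp hi
      have hSb : ∀ e ∈ S, e ∈ 𝓔 ∧ bx ρ (pos e) = bx ρ (pos e₀) := fun e he =>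
        mem_filter.mp (hS he)
      have h4 := joint_le (F := F) (E := E) (ξ := ξ) S pos (fun e => D e k) (hLC e₀ he₀) hc hε hε1
        (q := CA / (A : ℝ) ^ k) (r := k + κ₀) (fun e he => hcv e (hSb e he).1)
        (fun e he z hz => by
          have h5 := bx_nrm hρ0 (hSb e he).2
          have h6 := nrm_tri z (pos e) (pos e₀)
          simp only [Set.mem_ofPred_eq]
          omega)
        (fun e he e' he' hne => by
          have := hSep e he e' he' hne
          omega)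
      have h5 : μ (⋂ e ∈ S, D e k) = μ (ham F E ξ ∩ ⋂ e ∈ S, D e k) := by
        refine measure_congr ?_
        filter_upwards [hμ] with h hh
        apply propext
        change h ∈ (⋂ e ∈ S, D e k) ↔ h ∈ ham F E ξ ∩ ⋂ e ∈ S, D e k
        exact ⟨fun h6 => ⟨hh, h6⟩, fun h6 => h6.2⟩
      rw [h5]
      refine h4.trans (le_of_eq ?_)
      have hA0 : (0 : ℝ) < A := by
        have : 0 < A := by omega
        exact_mod_cast this
      rw [mul_comm, ENNReal.ofReal_mul (by positivity),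
        ENNReal.ofReal_pow (show 0 ≤ CA / (A : ℝ) ^ k by positivity)])
  refine h1.trans ?_
  have hIc : I.card ≤ (2 * (W / ρ + 1) + 1) ^ 2 := by
    rw [← card_grid]
    refine card_le_card fun i hi => ?_
    obtain ⟨e, he, rfl⟩ := mem_image.mp hi
    exact bx_mem hρ0 (hW e he).1 (hW e he).2
  have hN : I.card * (Cf * ρ ^ 2) ≤ Cf * (2 * W + 3 * ρ) ^ 2 := by
    have h6 : (2 * (W / ρ + 1) + 1) * ρ ≤ 2 * W + 3 * ρ := by
      have := Nat.div_mul_le_self W ρ
      nlinarith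
    calc I.card * (Cf * ρ ^ 2) ≤ (2 * (W / ρ + 1) + 1) ^ 2 * (Cf * ρ ^ 2) :=
          Nat.mul_le_mul_right _ hIc
      _ = Cf * ((2 * (W / ρ + 1) + 1) * ρ) ^ 2 := by ring
      _ ≤ _ := Nat.mul_le_mul_left _ (Nat.pow_le_pow_left h6 2)
  rw [ENNReal.ofReal_mul (by positivity), ENNReal.ofReal_natCast]
  gcongr
  exact_mod_cast hN

end Crest.Agent.R144.Uig714
end

-- ▼ part R144/Uig5_714
section

/-!
# R144 (S0197), block UIG (helper714), part 5: the instances

* `sep_inst` : away from the marks the two arcs are separated;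
* `xe` : the boundary data extended beyond the arcs (same polytope, same law);
* `tbq_inst` : the LC bound in hexagonal balls;
* `latFam_inst` : 761's `LatFam` for all lattice edges off the marks;
* `pos_bound` : sites have coordinates at most `R / δ`.
-/

set_option autoImplicit false

namespace Crest.Agent.R144.Uig714

open MeasureTheory Finset Filter Topology
open Crest.Agent.R144.Uia714 Crest.Agent.R144.Skel144
open Crest.Agent.R144.Ham560 (ext ham nbr mem_nbr Fresh tight hamP measurableSet_ham ext_mem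
  ext_notMem triE mem_triE mem_nbr_triE triXi mem_freeVerts' abs_triXi_le Anch)
open Crest.Agent.R144.Kor620 (P2 nrm FullE)
open Crest.Agent.R144.KorE761 (LatE LatFam latE_triE)
open Crest.ProbabilityR.TriHeights Crest.ProbabilityR.HexHeights
open scoped BigOperators ENNReal

variable (I : Inst)

/-- the two arcs are separated away from the marks -/
theorem sep_inst {ε : ℝ} (hε : 0 < ε) : ∃ ρ : ℝ, 0 < ρ ∧ ∀ᶠ n in atTop, ∀ z : ℂ,
    ε ≤ dist z (I.γ 0) → ε ≤ dist z (I.γ I.θ) → ∀ u ∈ I.Ap n, ∀ v ∈ I.Am n,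
    dist (centre (I.δ n) u) z ≤ ρ → dist (centre (I.δ n) v) z ≤ ρ → False := by
  obtain ⟨d, hd, hdd⟩ := LC121.arcs_apart I.hD (half_pos hε)
  set η : ℝ := min (ε / 8) (d / 8) with hη
  have hη0 : 0 < η := by positivity
  have hη1 : η ≤ ε / 8 := min_le_left _ _
  have hη2 : η ≤ d / 8 := min_le_right _ _
  refine ⟨η, hη0, ?_⟩
  filter_upwards [Metric.tendstoUniformly_iff.1 I.hM.2.2.2.2 η hη0] with n hn z hz0 hzθ
  rintro u ⟨-, s, hs0, hs1, hs⟩ v ⟨-, t, ht0, ht1, ht⟩ hu hv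
  have d1 : dist (I.γ s) z ≤ 2 * η := by
    have h1 := hn s
    rw [hs] at h1
    calc _ ≤ dist (I.γ s) (centre (I.δ n) u) + dist (centre (I.δ n) u) z :=
          dist_triangle _ _ _
      _ ≤ _ := by linarith
  have d2 : dist (I.γ t) z ≤ 2 * η := by
    have h1 := hn t
    rw [ht] at h1
    calc _ ≤ dist (I.γ t) (centre (I.δ n) v) + dist (centre (I.δ n) v) z :=
          dist_triangle _ _ _
      _ ≤ _ := by linarith
  have far : ∀ p q : ℂ, dist p z ≤ 2 * η → ε ≤ dist z q → ε / 2 ≤ dist p q := by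
    intro p q h1 h2
    have := dist_triangle z p q
    rw [dist_comm z p] at this
    linarith
  have h3 := hdd s ⟨hs0.le, hs1.le⟩ t ⟨ht0.le, ht1.le⟩ (far _ _ d1 hz0) (far _ _ d1 hzθ)
    (far _ _ d2 hz0) (far _ _ d2 hzθ)
  have h4 : dist (I.γ s) (I.γ t) ≤ 4 * η := by
    have := dist_triangle (I.γ s) z (I.γ t)
    rw [dist_comm z (I.γ t)] at this
    linarith
  linarith

/-- hexagonal balls are small -/
lemma dist_centre_nrm {δ : ℝ} (hδ : 0 ≤ δ) {u v : P2} {r : ℕ} (h : nrm (u - v) ≤ r) :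
    dist (centre δ u) (centre δ v) ≤ 2 * (δ * r) := by
  refine (LC121.dist_centre_le hδ u v).trans ?_
  have h1 : (u.1 - v.1).natAbs ≤ r := le_trans (by simp [nrm]) h
  have h2 : (u.2 - v.2).natAbs ≤ r := le_trans (by simp [nrm]) h
  have h1' : |(u.1 : ℝ) - v.1| ≤ r := by
    have : |u.1 - v.1| ≤ (r : ℤ) := by rw [abs_le]; omega
    exact_mod_cast this
  have h2' : |(u.2 : ℝ) - v.2| ≤ r := by
    have : |u.2 - v.2| ≤ (r : ℤ) := by rw [abs_le]; omega
    exact_mod_cast this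
  nlinarith

open scoped Classical in
/-- the boundary data extended beyond the arcs -/
noncomputable def xe (n : ℕ) (u : P2) : ℝ :=
  if u ∈ I.Ap n ∨ (u ∉ I.Am n ∧ ∃ z ∈ I.Ap n, nrm (z - u) ≤ 1) then I.a else -I.a

lemma abs_xe_le (n : ℕ) (u : P2) : |xe I n u| ≤ 1 / 2 := by
  unfold xe
  have h := I.ha0
  have h' := I.ha1
  split_ifs
  · rw [abs_of_pos h]; exact h'
  · rw [abs_neg, abs_of_pos h]; exact h'

lemma mem_verts_of_edge {T : Finset Tri} {u v : P2} (h : IsEdge T u v) :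
    u ∈ verts T ∧ v ∈ verts T := by
  obtain ⟨-, t, ht, h1, h2⟩ := h
  exact ⟨Finset.mem_biUnion.mpr ⟨t, ht, h1⟩, Finset.mem_biUnion.mpr ⟨t, ht, h2⟩⟩

lemma xe_eq (n : ℕ) {u : P2} (hu : u ∈ verts (I.T n)) (huF : u ∉ I.Fr n) :
    xe I n u = I.xi n u := by
  have h1 : u ∈ I.Ap n ∨ u ∈ I.Am n := by
    by_contra h
    push Not at h
    exact huF (mem_freeVerts'.mpr ⟨hu, h.1, h.2⟩)
  rcases h1 with h1 | h1
  · simp only [xe, Inst.xi, triXi, if_pos h1, if_pos (Or.inl h1 : u ∈ I.Ap n ∨ _)]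
  · have h2 : u ∉ I.Ap n := fun h => I.arcs_disj n u h h1
    have h3 : ¬ (u ∈ I.Ap n ∨ (u ∉ I.Am n ∧ ∃ z ∈ I.Ap n, nrm (z - u) ≤ 1)) := by
      rintro (h | h)
      · exact h2 h
      · exact h.1 h1
    simp only [xe, Inst.xi, triXi, if_neg h2, if_pos h1, if_neg h3]

lemma ext_xe (n : ℕ) {u : P2} (hu : u ∈ verts (I.T n)) (x : I.Fr n → ℝ) :
    ext (I.Fr n) (xe I n) x u = ext (I.Fr n) (I.xi n) x u := by
  by_cases huF : u ∈ I.Fr n
  · rw [ext_mem huF, ext_mem huF]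
  · rw [ext_notMem huF, ext_notMem huF, xe_eq I n hu huF]

lemma ham_xe (n : ℕ) : ham (I.Fr n) (I.Ed n) (xe I n) = ham (I.Fr n) (I.Ed n) (I.xi n) := by
  ext x
  have h : ∀ p ∈ I.Ed n, ext (I.Fr n) (xe I n) x p.1 = ext (I.Fr n) (I.xi n) x p.1 ∧
      ext (I.Fr n) (xe I n) x p.2 = ext (I.Fr n) (I.xi n) x p.2 := fun p hp => by
    have := mem_verts_of_edge (mem_triE.mp hp)
    exact ⟨ext_xe I n this.1 x, ext_xe I n this.2 x⟩
  constructor
  · intro hx p hp
    have := hx p hp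
    rwa [(h p hp).1, (h p hp).2] at this
  · intro hx p hp
    have := hx p hp
    rwa [← (h p hp).1, ← (h p hp).2] at this

lemma hamP_xe (n : ℕ) : hamP (I.Fr n) (I.Ed n) (xe I n) = I.P0 n := by
  unfold Inst.P0 hamP
  rw [ham_xe]

lemma tight_xe (n : ℕ) {T : List (P2 × P2)} (hT : Fresh (I.Fr n) (I.Ed n) T) (ε : ℝ) :
    tight (I.Fr n) (I.Ed n) (xe I n) T ε = tight (I.Fr n) (I.Ed n) (I.xi n) T ε := by
  ext x
  unfold tight
  simp only [Set.mem_ofPred_eq]
  rw [ham_xe]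
  have h : ∀ p ∈ T, ext (I.Fr n) (xe I n) x p.1 = ext (I.Fr n) (I.xi n) x p.1 ∧
      ext (I.Fr n) (xe I n) x p.2 = ext (I.Fr n) (I.xi n) x p.2 := fun p hp => by
    rcases hT.edge p hp with h1 | h1
    · have := mem_verts_of_edge (mem_triE.mp h1)
      exact ⟨ext_xe I n this.1 x, ext_xe I n this.2 x⟩
    · have := mem_verts_of_edge (mem_triE.mp h1)
      exact ⟨ext_xe I n this.2 x, ext_xe I n this.1 x⟩
  constructor
  · rintro ⟨h1, h2⟩
    refine ⟨h1, fun q hq => ?_⟩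
    have := h2 q hq
    rwa [(h q hq).1, (h q hq).2] at this
  · rintro ⟨h1, h2⟩
    refine ⟨h1, fun q hq => ?_⟩
    have := h2 q hq
    rwa [← (h q hq).1, ← (h q hq).2] at this

lemma fullE_inst (n : ℕ) : FullE (I.Fr n) (I.Ed n) := by
  intro x hx y hxy
  rw [mem_nbr_triE]
  exact Geo268.isEdge_of_adj (I.hM.1 n) ((Geo268.mem_free_iff I.hM n x).1 hx) hxy

lemma latE_inst (n : ℕ) : LatE (I.Ed n) := latE_triE _

/-- off the marks -/
def Off (ε : ℝ) (n : ℕ) (u : P2) : Prop :=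
  ε ≤ dist (centre (I.δ n) u) (I.γ 0) ∧ ε ≤ dist (centre (I.δ n) u) (I.γ I.θ)

/-- **the LC bound in hexagonal balls** -/
theorem tbq_inst {ε : ℝ} (hε : 0 < ε) : ∃ ρ : ℝ, 0 < ρ ∧ ∃ C : ℝ, 1 ≤ C ∧ ∀ᶠ n in atTop,
    ∀ (z : P2) (r : ℕ), I.δ n * r ≤ ρ → Off I ε n z →
      TBQ (I.Fr n) (I.Ed n) (xe I n) (I.P0 n) 2304 (ENNReal.ofReal (C / I.δ n * C ^ r))
        {u | nrm (u - z) ≤ r} := by
  obtain ⟨ρ, hρ, C, hC, h⟩ := LC121.lcl_fresh I hε
  refine ⟨ρ, hρ, C, hC, ?_⟩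
  filter_upwards [h] with n hn z r hr hz T hT hTQ ε' hε' _
  have hδ := I.hM.1 n
  have hC0 : 0 ≤ C := by linarith
  rw [tight_xe I n hT]
  have h1 := hn z r hr hz.1 hz.2 T hT (fun q hq => by
    have h2 := hTQ q hq
    simp only [Set.mem_ofPred_eq] at h2
    have key : ∀ u : P2, nrm (u - z) ≤ r → u ∈ LC121.box z r := by
      intro u hu
      have h3 : (u.1 - z.1).natAbs ≤ r := le_trans (by simp [nrm]) hu
      have h4 : (u.2 - z.2).natAbs ≤ r := le_trans (by simp [nrm]) hu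
      rw [LC121.mem_box, abs_le, abs_le]
      omega
    exact ⟨key _ h2.1, key _ h2.2⟩) ε' hε'
  refine h1.trans (le_of_eq ?_)
  rw [ENNReal.ofReal_mul (show 0 ≤ C / I.δ n by positivity), ENNReal.ofReal_pow hC0]
  exact mul_comm _ _

/-- `δ`-smallness -/
lemma delta_small {c : ℝ} (hc : 0 < c) : ∀ᶠ n in atTop, I.δ n < c :=
  (tendsto_order.1 I.hM.2.1).2 c hc

/-- sites have coordinates at most `R / δ` -/
theorem pos_bound : ∃ R : ℝ, 1 ≤ R ∧ ∀ᶠ n in atTop, ∀ u ∈ I.Fr n,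
    (u.1.natAbs : ℝ) ≤ R / I.δ n ∧ (u.2.natAbs : ℝ) ≤ R / I.δ n := by
  obtain ⟨M, hM0, hM⟩ := LC121.polygon_bound I.hD I.hM
  refine ⟨3 * M + 1, by linarith, ?_⟩
  filter_upwards [hM] with n hn u hu
  have hδ := I.hM.1 n
  have h1 := hn _ ((Geo268.mem_free_iff I.hM n u).1 hu)
  have h3 : Real.sqrt 3 * Real.sqrt 3 = 3 := Real.mul_self_sqrt (by norm_num)
  have h3' : 1 ≤ Real.sqrt 3 := by
    rw [Real.one_le_sqrt]; norm_num
  have him : |(centre (I.δ n) u).im| ≤ M := (Complex.abs_im_le_norm _).trans h1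
  have hre : |(centre (I.δ n) u).re| ≤ M := (Complex.abs_re_le_norm _).trans h1
  have e1 : (centre (I.δ n) u).im = I.δ n * (u.2 * (Real.sqrt 3 / 2)) := by
    unfold centre; simp
  have e2 : (centre (I.δ n) u).re = I.δ n * (u.1 + u.2 / 2) := by
    unfold centre; simp; left; ring
  have hu2 : |(u.2 : ℝ)| ≤ 2 * M / I.δ n := by
    rw [le_div_iff₀ hδ]
    rw [e1, abs_mul, abs_mul, abs_of_pos hδ, abs_of_pos (show 0 < Real.sqrt 3 / 2 by positivity)]
      at him
    have : 0 ≤ |(u.2 : ℝ)| * I.δ n := by positivity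
    nlinarith
  have hu1 : |(u.1 : ℝ)| ≤ 2 * M / I.δ n := by
    have h4 : |(u.1 : ℝ) + u.2 / 2| ≤ M / I.δ n := by
      rw [le_div_iff₀ hδ]
      rw [e2, abs_mul, abs_of_pos hδ] at hre
      linarith
    have h5 : |(u.1 : ℝ)| ≤ |(u.1 : ℝ) + u.2 / 2| + |(u.2 : ℝ)| / 2 := by
      have := abs_sub (u.1 + u.2 / 2 : ℝ) (u.2 / 2 : ℝ)
      rw [add_sub_cancel_right, abs_div, abs_two] at this
      exact this
    have e3 : 2 * M / I.δ n = M / I.δ n + 2 * M / I.δ n / 2 := by ring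
    linarith
  have hR : 2 * M / I.δ n ≤ (3 * M + 1) / I.δ n := by
    gcongr; linarith
  rw [Nat.cast_natAbs, Nat.cast_natAbs]
  push_cast
  exact ⟨hu1.trans hR, hu2.trans hR⟩

open scoped Classical in
/-- the constant near `u` -/
noncomputable def lamI (n : ℕ) (p : P2 × P2) : ℝ :=
  if ∃ z ∈ I.Ap n, nrm (z - p.1) ≤ 3 then I.a else -I.a

lemma abs_lamI_le (n : ℕ) (p : P2 × P2) : |lamI I n p| ≤ 1 / 2 := by
  unfold lamI
  have h := I.ha0
  have h' := I.ha1
  split_ifs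
  · rw [abs_of_pos h]; exact h'
  · rw [abs_neg, abs_of_pos h]; exact h'

/-- a site at distance at most two of a free site has a vertex of the polygon next to it -/
lemma exists_between {u b : P2} (h : nrm (b - u) ≤ 2) (hb : b ≠ u) :
    ∃ w, Adj u w ∧ nrm (w - b) ≤ 1 := by
  obtain ⟨u1, u2⟩ := u
  obtain ⟨b1, b2⟩ := b
  rw [KorE761.nrm_le_iff] at h
  simp only [Prod.mk_sub_mk] at h
  have hne : ¬ (b1 = u1 ∧ b2 = u2) := fun hh => hb (by rw [hh.1, hh.2])
  obtain ⟨h1, h2, h3⟩ := h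
  have key : ∀ w1 w2 : ℤ, Adj (u1, u2) (u1 + w1, u2 + w2) → (u1 + w1 - b1).natAbs ≤ 1 →
      (u2 + w2 - b2).natAbs ≤ 1 → (u1 + w1 - b1 + (u2 + w2 - b2)).natAbs ≤ 1 →
      ∃ w, Adj (u1, u2) w ∧ nrm (w - (b1, b2)) ≤ 1 := by
    intro w1 w2 hadj h4 h5 h6
    refine ⟨(u1 + w1, u2 + w2), hadj, ?_⟩
    rw [KorE761.nrm_le_iff]
    exact ⟨h4, h5, h6⟩
  by_cases c1 : 1 ≤ b1 - u1 ∧ b2 - u2 ≤ 0 ∧ 0 ≤ (b1 - u1) + (b2 - u2)
  · by_cases c2 : b1 - u1 + (b2 - u2) = 0
    · exact key 1 (-1) (by unfold Adj; simp only; omega) (by omega) (by omega) (by omega)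
    · exact key 1 0 (by unfold Adj; simp only; omega) (by omega) (by omega) (by omega)
  by_cases c3 : b1 - u1 ≤ -1 ∧ 0 ≤ b2 - u2 ∧ (b1 - u1) + (b2 - u2) ≤ 0
  · by_cases c2 : b1 - u1 + (b2 - u2) = 0
    · exact key (-1) 1 (by unfold Adj; simp only; omega) (by omega) (by omega) (by omega)
    · exact key (-1) 0 (by unfold Adj; simp only; omega) (by omega) (by omega) (by omega)
  by_cases c4 : 0 ≤ b1 - u1 ∧ 1 ≤ b2 - u2
  · exact key 0 1 (by unfold Adj; simp only; omega) (by omega) (by omega) (by omega)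
  by_cases c5 : b1 - u1 ≤ 0 ∧ b2 - u2 ≤ -1
  · exact key 0 (-1) (by unfold Adj; simp only; omega) (by omega) (by omega) (by omega)
  by_cases c6 : 0 ≤ b2 - u2
  · by_cases c7 : 1 ≤ b1 - u1
    · exact key 1 0 (by unfold Adj; simp only; omega) (by omega) (by omega) (by omega)
    · exact key (-1) 1 (by unfold Adj; simp only; omega) (by omega) (by omega) (by omega)
  · by_cases c7 : 1 ≤ b1 - u1
    · exact key 1 (-1) (by unfold Adj; simp only; omega) (by omega) (by omega) (by omega)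
    · exact key (-1) 0 (by unfold Adj; simp only; omega) (by omega) (by omega) (by omega)

/-- **761's `LatFam` off the marks** -/
theorem latFam_inst {ε : ℝ} (hε : 0 < ε) : ∀ᶠ n in atTop, ∀ P : Finset (P2 × P2),
    (∀ p ∈ P, p.1 ∈ I.Fr n ∧ Adj p.1 p.2 ∧ Off I ε n p.1) →
    LatFam (I.Fr n) (xe I n) P (lamI I n) := by
  obtain ⟨ρ, hρ, hsep⟩ := sep_inst I hε
  filter_upwards [hsep, delta_small I (show 0 < ρ / 6 by positivity)] with n hn hδρ P hP
  have hδ := I.hM.1 n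
  have hclose : ∀ z u : P2, nrm (z - u) ≤ 3 → dist (centre (I.δ n) z) (centre (I.δ n) u) ≤ ρ := by
    intro z u h
    have := dist_centre_nrm hδ.le h
    push_cast at this
    linarith
  refine ⟨fun p hp => (hP p hp).1, fun p hp => (hP p hp).2.1, fun p _ => abs_lamI_le I n p, ?_⟩
  intro p hp b hbF _ hb2
  obtain ⟨hu, _, hoff⟩ := hP p hp
  have hne : b ≠ p.1 := fun h => hbF (h ▸ hu)
  have sep : ∀ z ∈ I.Ap n, ∀ w ∈ I.Am n, nrm (z - p.1) ≤ 3 → nrm (w - p.1) ≤ 3 → False :=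
    fun z hz w hw h1 h2 => hn _ hoff.1 hoff.2 z hz w hw (hclose _ _ h1) (hclose _ _ h2)
  by_cases hbp : b ∈ I.Ap n
  · have h1 : xe I n b = I.a := by simp only [xe, if_pos (Or.inl hbp : b ∈ I.Ap n ∨ _)]
    have h2 : lamI I n p = I.a := by
      simp only [lamI, if_pos (⟨b, hbp, by omega⟩ : ∃ z ∈ I.Ap n, nrm (z - p.1) ≤ 3)]
    rw [h1, h2]
  by_cases hbm : b ∈ I.Am n
  · have h1 : xe I n b = -I.a := by
      have h3 : ¬ (b ∈ I.Ap n ∨ (b ∉ I.Am n ∧ ∃ z ∈ I.Ap n, nrm (z - b) ≤ 1)) := by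
        rintro (h | h)
        · exact hbp h
        · exact h.1 hbm
      simp only [xe, if_neg h3]
    have h2 : lamI I n p = -I.a := by
      have h3 : ¬ ∃ z ∈ I.Ap n, nrm (z - p.1) ≤ 3 := by
        rintro ⟨z, hz, h4⟩
        exact sep z hz b hbm h4 (by omega)
      simp only [lamI, if_neg h3]
    rw [h1, h2]
  -- off the polygon: the neighbour of `u` towards `b` is on an arc
  obtain ⟨w, hw, hwb⟩ := exists_between hb2 hne
  have hwv : w ∈ verts (I.T n) :=
    (mem_verts_of_edge (mem_nbr_triE.mp (fullE_inst I n _ hu w hw))).2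
  have hwn : nrm (w - p.1) ≤ 1 := (KorE761.nrm_eq_one (Kor620.adj_symm hw)).le
  have hwF : w ∉ I.Fr n := by
    intro hwF
    have h4 : w ≠ b := by rintro rfl; exact hbF hwF
    have h5 : Adj w b := by
      have h6 := KorE761.nrm_le_iff.mp hwb
      obtain ⟨w1, w2⟩ := w
      obtain ⟨b1, b2⟩ := b
      simp only [Prod.mk_sub_mk] at h6
      have h7 : ¬ (w1 = b1 ∧ w2 = b2) := fun hh => h4 (by rw [hh.1, hh.2])
      unfold Adj
      simp only
      omega
    have h6 : b ∈ verts (I.T n) :=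
      (mem_verts_of_edge (mem_nbr_triE.mp (fullE_inst I n _ hwF b h5))).2
    exact hbF (mem_freeVerts'.mpr ⟨h6, hbp, hbm⟩)
  have hwarc : w ∈ I.Ap n ∨ w ∈ I.Am n := by
    by_contra h
    push Not at h
    exact hwF (mem_freeVerts'.mpr ⟨hwv, h.1, h.2⟩)
  rcases hwarc with hwp | hwm
  · have h1 : xe I n b = I.a := by
      simp only [xe, if_pos (Or.inr ⟨hbm, w, hwp, hwb⟩ :
        b ∈ I.Ap n ∨ (b ∉ I.Am n ∧ ∃ z ∈ I.Ap n, nrm (z - b) ≤ 1))]
    have h2 : lamI I n p = I.a := by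
      simp only [lamI, if_pos (⟨w, hwp, by omega⟩ : ∃ z ∈ I.Ap n, nrm (z - p.1) ≤ 3)]
    rw [h1, h2]
  · have h1 : xe I n b = -I.a := by
      have h3 : ¬ (b ∈ I.Ap n ∨ (b ∉ I.Am n ∧ ∃ z ∈ I.Ap n, nrm (z - b) ≤ 1)) := by
        rintro (h | ⟨_, z, hz, hzb⟩)
        · exact hbp h
        · have := nrm_tri z b p.1
          exact sep z hz w hwm (by omega) (by omega)
      simp only [xe, if_neg h3]
    have h2 : lamI I n p = -I.a := by
      have h3 : ¬ ∃ z ∈ I.Ap n, nrm (z - p.1) ≤ 3 := by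
        rintro ⟨z, hz, h4⟩
        exact sep z hz w hwm h4 (by omega)
      simp only [lamI, if_neg h3]
    rw [h1, h2]

end Crest.Agent.R144.Uig714
end

-- ▼ part R144/Uig6_714

/-!
# R144 (S0197), block UIG (helper714), part 6: cluster numbers of the instances

`rh`, `k2` : side of the boxes and cut-off level;
`cnum_window` : `δ² ∑ ∫ 12 ^ N 1(k₁ ≤ N ≤ k₂)` is small;
`cnum_tail` : `P0 {k₂ < N} ≤ δ ^ 18`.
-/

set_option autoImplicit false

namespace Crest.Agent.R144.Uig714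

open MeasureTheory Finset Filter Topology
open Crest.Agent.R144.Uia714 Crest.Agent.R144.Skel144
open Crest.Agent.R144.Ham560 (ext ham nbr mem_nbr Fresh tight hamP measurableSet_ham ext_mem
  ext_notMem triE mem_triE mem_nbr_triE triXi mem_freeVerts' abs_triXi_le Anch ham_neg)
open Crest.Agent.R144.Kor620 (P2 nrm FullE cnum measurable_cnum cover_neg Cfg sset gam ext_neg')
open Crest.Agent.R144.KorE761 (LatE LatFam latE_triE)
open Crest.ProbabilityR.TriHeights Crest.ProbabilityR.HexHeights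
open scoped BigOperators ENNReal

/-- covering of the tails of the cluster number -/
theorem covAt_cnum {A c : ℝ} (hA : 1 ≤ A) (hc : 1 ≤ c) : ∃ C ε : ℝ, 1 ≤ C ∧ 0 < ε ∧ ε ≤ 1 ∧
    ∀ (k : ℕ) (F : Finset P2) (E : Finset (P2 × P2)) (ξ : P2 → ℝ), FullE F E →
      (∀ z, |ξ z| ≤ 1 / 2) → ∀ (u v : P2), Adj u v → ∀ lam : ℝ, |lam| ≤ 1 / 2 →
      CovAt F E ξ c ε (C / A ^ k) (k + 2) u {h | k ≤ cnum F ξ u v lam h} := by
  classical
  obtain ⟨C, ε, h1, h2, h3, h4⟩ := cover_neg hA hc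
  refine ⟨C, ε, h1, h2, h3, fun k F E ξ hE hξ u v huv lam hlam => ?_⟩
  obtain ⟨Fam, h5, h6, h7⟩ := h4 k u
  refine ⟨Fam, ?_, h6, ?_⟩
  · rw [one_div, inv_pow, ← div_eq_mul_inv] at h5
    exact h5
  · rintro h ⟨hh, hk⟩
    have hl := abs_le.mp hlam
    have hcase : (Cfg F E ξ u v h ∧ k ≤ (sset F ξ v (gam u) h).card) ∨
        (Cfg F E (-ξ) u v (-h) ∧ k ≤ (sset F (-ξ) v (gam u) (-h)).card) := by
      simp only [Set.mem_ofPred_eq, cnum] at hk
      by_cases hv : ext F ξ h v ≤ lam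
      · rw [if_pos hv] at hk
        exact Or.inl ⟨Cfg.of_half hE hξ huv hh (by linarith), hk⟩
      · rw [if_neg hv] at hk
        refine Or.inr ⟨Cfg.of_half hE (fun z => ?_) huv (ham_neg hh) ?_, hk⟩
        · rw [Pi.neg_apply, abs_neg]; exact hξ z
        · rw [ext_neg']; linarith
    obtain ⟨T, hT, hf, ht⟩ := h7 F E ξ v h hcase
    exact ⟨T, hT, hf, hh, ht⟩

/-- one site -/
lemma single_le {F : Finset P2} {E : Finset (P2 × P2)} {ξ : P2 → ℝ} {D : Set (F → ℝ)}
    {μ : Measure (F → ℝ)} {c ε q : ℝ} {K₀ : ℝ≥0∞} {r : ℕ} {u : P2}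
    (hTB : TBQ F E ξ μ c K₀ {z | nrm (z - u) ≤ r}) (hc : 0 ≤ c) (hε : 0 < ε) (hε1 : ε ≤ 1)
    (hcov : CovAt F E ξ c ε q r u D) (hμ : ∀ᵐ h ∂μ, h ∈ ham F E ξ) :
    μ D ≤ ENNReal.ofReal q * K₀ := by
  have h := joint_le (F := F) (E := E) (ξ := ξ) ({0} : Finset ℕ) (fun _ => u) (fun _ => D) hTB hc
    hε hε1 (fun _ _ => hcov) (fun _ _ z hz => hz) (fun i hi j hj hij => by
      rw [mem_singleton] at hi hj; exact absurd (hi.trans hj.symm) hij)
  rw [card_singleton, pow_one] at h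
  refine le_trans (le_of_eq ?_) h
  refine measure_congr ?_
  filter_upwards [hμ] with x hx
  apply propext
  change x ∈ D ↔ x ∈ ham F E ξ ∩ ⋂ i ∈ ({0} : Finset ℕ), D
  constructor
  · exact fun h => ⟨hx, by simpa using h⟩
  · rintro ⟨_, h⟩; simpa using h

variable (I : Inst)

/-- side of the boxes -/
noncomputable def rh (n : ℕ) : ℕ := ⌈1 / Real.sqrt (I.δ n)⌉₊

/-- cut-off level -/
noncomputable def k2 (n : ℕ) : ℕ := Nat.log (24 ^ 4) (rh I n)

lemma rh_pos (n : ℕ) : 0 < rh I n := by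
  have := Real.sqrt_pos.mpr (I.hM.1 n)
  exact Nat.ceil_pos.mpr (by positivity)

lemma one_div_delta_le (n : ℕ) : 1 / I.δ n ≤ (rh I n : ℝ) ^ 2 := by
  have hδ := I.hM.1 n
  have h0 := Real.sqrt_pos.mpr hδ
  have h1 : 1 / Real.sqrt (I.δ n) ≤ rh I n := Nat.le_ceil _
  calc 1 / I.δ n = (1 / Real.sqrt (I.δ n)) ^ 2 := by
        rw [div_pow, one_pow, Real.sq_sqrt hδ.le]
    _ ≤ _ := pow_le_pow_left₀ (by positivity) h1 2

lemma rh_le {n : ℕ} (h : I.δ n ≤ 1) : (rh I n : ℝ) ≤ 2 / Real.sqrt (I.δ n) := by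
  have hδ := I.hM.1 n
  have h0 := Real.sqrt_pos.mpr hδ
  have h1 : (rh I n : ℝ) < 1 / Real.sqrt (I.δ n) + 1 := Nat.ceil_lt_add_one (by positivity)
  have h2 : Real.sqrt (I.δ n) ≤ 1 := by
    calc Real.sqrt (I.δ n) ≤ Real.sqrt 1 := Real.sqrt_le_sqrt h
      _ = 1 := Real.sqrt_one
  have h3 : 1 ≤ 1 / Real.sqrt (I.δ n) := by rw [le_div_iff₀ h0]; linarith
  have h4 : 2 / Real.sqrt (I.δ n) = 1 / Real.sqrt (I.δ n) + 1 / Real.sqrt (I.δ n) := by ring
  linarith

lemma delta_mul_rh_le {n : ℕ} (h : I.δ n ≤ 1) : I.δ n * rh I n ≤ 2 * Real.sqrt (I.δ n) := by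
  have hδ := I.hM.1 n
  have h0 := Real.sqrt_pos.mpr hδ
  calc I.δ n * rh I n ≤ I.δ n * (2 / Real.sqrt (I.δ n)) := by
        gcongr; exact rh_le I h
    _ = (Real.sqrt (I.δ n) * Real.sqrt (I.δ n)) * (2 / Real.sqrt (I.δ n)) := by
        rw [Real.mul_self_sqrt hδ.le]
    _ = _ := by field_simp

lemma tendsto_delta_rh : Tendsto (fun n => I.δ n * rh I n) atTop (𝓝 0) := by
  have h1 : Tendsto (fun n => 2 * Real.sqrt (I.δ n)) atTop (𝓝 0) := by
    have := (Real.continuous_sqrt.tendsto 0).comp I.hM.2.1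
    simp only [Real.sqrt_zero] at this
    simpa using this.const_mul 2
  refine squeeze_zero' (Eventually.of_forall fun n => ?_) ?_ h1
  · have := I.hM.1 n; positivity
  · filter_upwards [delta_small I one_pos] with n hn
    exact delta_mul_rh_le I hn.le

lemma tendsto_rh : Tendsto (fun n => rh I n) atTop atTop := by
  rw [tendsto_atTop]
  intro b
  filter_upwards [delta_small I (show (0 : ℝ) < 1 / ((b : ℝ) + 1) ^ 2 by positivity)] with n hn
  have hδ := I.hM.1 n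
  have h1 := one_div_delta_le I n
  have h2 : ((b : ℝ) + 1) ^ 2 < 1 / I.δ n := by
    rw [lt_div_iff₀ hδ]
    rw [lt_div_iff₀ (by positivity)] at hn
    linarith
  have h3 : ((b : ℝ) + 1) ^ 2 < (rh I n : ℝ) ^ 2 := h2.trans_le h1
  have h4 : (b : ℝ) + 1 < rh I n := lt_of_pow_lt_pow_left₀ 2 (by positivity) h3
  have h5 : (b : ℝ) < rh I n := by linarith
  exact_mod_cast h5.le

lemma pow_k2_le (n : ℕ) : (2 * 12) ^ (4 * k2 I n) ≤ rh I n := by
  rw [show (2 * 12 : ℕ) = 24 by norm_num, pow_mul]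
  exact Nat.pow_log_le_self _ (rh_pos I n).ne'

lemma lt_pow_k2 (n : ℕ) : rh I n < (24 ^ 4) ^ (k2 I n + 1) :=
  Nat.lt_pow_succ_log_self (by norm_num) _

lemma ae_ham (n : ℕ) : ∀ᵐ h ∂(I.P0 n), h ∈ ham (I.Fr n) (I.Ed n) (xe I n) := by
  rw [ham_xe]
  unfold Inst.P0 hamP
  exact Measure.ae_smul_measure (ae_restrict_mem measurableSet_ham) _

lemma real_le_sqrt {Ω : Type*} [MeasurableSpace Ω] (μ : Measure Ω) [IsProbabilityMeasure μ]
    (A : Set Ω) : μ.real A ≤ √(23 * μ.real A) := by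
  have h0 : 0 ≤ μ.real A := measureReal_nonneg
  have h1 : μ.real A ≤ 1 := measureReal_le_one
  apply Real.le_sqrt_of_sq_le
  nlinarith

/-- the cluster number of the ordered edge `p` -/
noncomputable abbrev NI (n : ℕ) (p : P2 × P2) (h : I.Fr n → ℝ) : ℕ :=
  cnum (I.Fr n) (xe I n) p.1 p.2 (lamI I n p) h

lemma measurable_NI (n : ℕ) (p : P2 × P2) : Measurable (NI I n p) := measurable_cnum _

/-- **window and tail of the cluster numbers** -/
theorem cnum_bounds {ε : ℝ} (hε : 0 < ε) :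
    (∀ᶠ n in atTop, ∀ p : P2 × P2, p.1 ∈ I.Fr n → Adj p.1 p.2 → Off I ε n p.1 →
      I.P0 n {h | k2 I n < NI I n p h} ≤ ENNReal.ofReal (I.δ n ^ 18)) ∧
    (∀ η : ℝ, 0 < η → ∃ k₁ : ℕ, 1 ≤ k₁ ∧ ∀ᶠ n in atTop, ∀ P : Finset (P2 × P2),
      (∀ p ∈ P, p.1 ∈ I.Fr n ∧ Adj p.1 p.2 ∧ Off I ε n p.1) →
      ENNReal.ofReal (I.δ n ^ 2) * ∑ p ∈ P, ∫⁻ h, (if k₁ ≤ NI I n p h ∧ NI I n p h ≤ k2 I n then
        ((12 : ℕ) : ℝ≥0∞) ^ NI I n p h else 0) ∂(I.P0 n) ≤ ENNReal.ofReal η) := by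
  classical
  obtain ⟨ρ, hρ, C, hC, hTBQ⟩ := tbq_inst I hε
  obtain ⟨R, hR, hpos⟩ := pos_bound I
  have hC0 : 0 ≤ C := by linarith
  -- the base `A`
  obtain ⟨A, hA⟩ : ∃ A : ℕ, C * (24 ^ 4) ^ 40 + 96 ≤ A := exists_nat_ge _
  have hA96 : 8 * 12 ≤ A := by
    have h1 : (96 : ℝ) ≤ A := by
      have : 0 ≤ C * (24 ^ 4) ^ 40 := by positivity
      linarith
    exact_mod_cast h1
  have hA1 : (1 : ℝ) ≤ A := by
    have : 1 ≤ A := by omega
    exact_mod_cast this
  have hAC : C * (24 ^ 4) ^ 40 ≤ (A : ℝ) := by linarith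
  obtain ⟨CA, ε', hCA, hε', hε'1, hcov⟩ := covAt_cnum (A := (A : ℝ)) (c := 2304) hA1 (by norm_num)
  constructor
  · -- tail
    filter_upwards [hTBQ, delta_small I (show (0 : ℝ) < min 1 (min (1 / (CA * C ^ 4)) (1 / 1)) by
      positivity), (tendsto_order.1 (tendsto_delta_rh I)).2 (ρ / 4) (by positivity),
      (tendsto_atTop.mp (tendsto_rh I)) 4] with n hn hδs hδr hr4 p hp1 hp2 hoff
    have hδ := I.hM.1 n
    have hδ1 : I.δ n < 1 := hδs.trans_le (min_le_left _ _)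
    have hδC : I.δ n < 1 / (CA * C ^ 4) := hδs.trans_le ((min_le_right _ _).trans (min_le_left _ _))
    set k := k2 I n + 1 with hk
    have hkr : k + 2 ≤ 4 * rh I n := by
      have h1 : k2 I n < rh I n := by
        calc k2 I n < 2 ^ k2 I n := Nat.lt_two_pow_self
          _ ≤ (2 * 12) ^ (k2 I n) := Nat.pow_le_pow_left (by norm_num) _
          _ ≤ (2 * 12) ^ (4 * k2 I n) := Nat.pow_le_pow_right (by norm_num) (by omega)
          _ ≤ rh I n := pow_k2_le I n
      omega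
    have hTB := hn p.1 (k + 2) (by
      have h1 : ((k + 2 : ℕ) : ℝ) ≤ ((4 * rh I n : ℕ) : ℝ) := by exact_mod_cast hkr
      calc I.δ n * ((k + 2 : ℕ) : ℝ) ≤ I.δ n * ((4 * rh I n : ℕ) : ℝ) := by gcongr
        _ = 4 * (I.δ n * rh I n) := by push_cast; ring
        _ ≤ ρ := by linarith) hoff
    have h1 := single_le hTB (by norm_num) hε' hε'1
      (hcov k (I.Fr n) (I.Ed n) (xe I n) (fullE_inst I n) (abs_xe_le I n) p.1 p.2 hp2 (lamI I n p)
        (abs_lamI_le I n p)) (ae_ham I n)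
    refine le_trans (measure_mono fun h hh => ?_) (h1.trans ?_)
    · exact hh
    · rw [← ENNReal.ofReal_mul (by positivity)]
      apply ENNReal.ofReal_le_ofReal
      have h24 : (0 : ℝ) < 24 ^ 4 := by norm_num
      -- `(C / A) ^ k ≤ rh ^ (-40)`
      have h2 : (C / A) ^ k ≤ 1 / (rh I n : ℝ) ^ 40 := by
        have h3 : C / A ≤ 1 / (24 ^ 4) ^ 40 := by
          rw [div_le_div_iff₀ (by linarith) (by positivity)]
          linarith
        have h4 : (rh I n : ℝ) ≤ (24 ^ 4) ^ k := by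
          have := (lt_pow_k2 I n).le
          exact_mod_cast this
        calc (C / A) ^ k ≤ (1 / (24 ^ 4) ^ 40) ^ k := by gcongr
          _ = 1 / ((24 ^ 4) ^ k) ^ 40 := by
              rw [div_pow, one_pow, pow_right_comm]
          _ ≤ 1 / (rh I n : ℝ) ^ 40 := by
              have : (0 : ℝ) < rh I n := by exact_mod_cast rh_pos I n
              gcongr
      have h5 : 1 / (rh I n : ℝ) ^ 40 ≤ I.δ n ^ 20 := by
        have h6 := one_div_delta_le I n
        have h7 : (1 / I.δ n) ^ 20 ≤ ((rh I n : ℝ) ^ 2) ^ 20 := by gcongr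
        have h8 : (0 : ℝ) < rh I n := by exact_mod_cast rh_pos I n
        rw [div_le_iff₀ (by positivity)]
        calc (1 : ℝ) = I.δ n ^ 20 * (1 / I.δ n) ^ 20 := by
              rw [← mul_pow, mul_one_div, div_self hδ.ne', one_pow]
          _ ≤ I.δ n ^ 20 * ((rh I n : ℝ) ^ 2) ^ 20 := by gcongr
          _ = _ := by rw [← pow_mul]
      have hA0 : (0 : ℝ) < A := by linarith
      calc CA / (A : ℝ) ^ k * (C / I.δ n * C ^ (k + 2))
          = (CA * C ^ 3) * (C / A) ^ k / I.δ n := by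
            rw [div_pow]; field_simp; ring
        _ ≤ (CA * C ^ 3) * I.δ n ^ 20 / I.δ n := by
            have := h2.trans h5
            gcongr
        _ = (CA * C ^ 3 * I.δ n) * I.δ n ^ 18 := by field_simp
        _ ≤ 1 * I.δ n ^ 18 := by
            have h9 : CA * C ^ 3 * I.δ n ≤ 1 := by
              rw [lt_div_iff₀ (by positivity)] at hδC
              have : CA * C ^ 3 ≤ CA * C ^ 4 := by
                have : C ^ 3 ≤ C ^ 4 := pow_le_pow_right₀ hC (by norm_num)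
                gcongr
              nlinarith
            gcongr
        _ = _ := one_mul _
  · -- window
    intro η hη
    set η' : ℝ := η / (6 * (2 * R + 3) ^ 2) with hη'
    have hη'0 : 0 < η' := by positivity
    have hC₃ : (1 : ℝ) ≤ 4 * C ^ 5 := by
      have : (1 : ℝ) ≤ C ^ 5 := one_le_pow₀ hC
      linarith
    obtain ⟨k₁, ρ₀, hk₁, H⟩ := uib_sets.{0} (B := 12) (Cf := 6) (κ₀ := 2) (A := A) (by norm_num)
      (by norm_num) hA96 (c := 2304) (by norm_num) hCA hC₃ hη'0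
    refine ⟨k₁, hk₁, ?_⟩
    filter_upwards [hTBQ, hpos, delta_small I one_pos,
      (tendsto_order.1 (tendsto_delta_rh I)).2 (min (ρ / 4) 1) (by positivity),
      (tendsto_atTop.mp (tendsto_rh I)) ρ₀] with n hn hpn hδ1 hδr hr P hP
    have hδ := I.hM.1 n
    have hδr1 : I.δ n * rh I n < ρ / 4 := hδr.trans_le (min_le_left _ _)
    have hδr2 : I.δ n * rh I n < 1 := hδr.trans_le (min_le_right _ _)
    set W : ℕ := ⌊R / I.δ n⌋₊ with hW
    have hWR : (W : ℝ) ≤ R / I.δ n := Nat.floor_le (by positivity)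
    have key := H (rh I n) hr (k2 I n) (pow_k2_le I n) (I.Fr n) (I.Ed n) (xe I n) (I.P0 n) (I.P0 n)
      (ae_ham I n) (fun A _ => real_le_sqrt _ A) P (fun p => p.1) W
      (fun p hp => by
        have h1 := hpn p.1 (hP p hp).1
        exact ⟨Nat.le_floor h1.1, Nat.le_floor h1.2⟩)
      (fun z S hS => by
        have h1 := (KorE761.card_adj_le S (fun p hp => (hP p (hS p hp).1).2.1) z).1
        rwa [filter_true_of_mem (fun p hp => (hS p hp).2)] at h1)
      (fun p k => {h | k ≤ NI I n p h})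
      (fun p k => measurableSet_le measurable_const (measurable_NI I n p))
      (fun k _ _ => ⟨ε', hε', hε'1, fun p hp =>
        hcov k (I.Fr n) (I.Ed n) (xe I n) (fullE_inst I n) (abs_xe_le I n) p.1 p.2 (hP p hp).2.1
          (lamI I n p) (abs_lamI_le I n p)⟩)
      (fun p hp => by
        refine (hn p.1 (4 * rh I n) ?_ (hP p hp).2.2).mono ?_ (Set.Subset.refl _)
        · push_cast; linarith
        · apply ENNReal.ofReal_le_ofReal
          have h1 := one_div_delta_le I n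
          have h2 : (rh I n : ℝ) ≤ 2 ^ rh I n := by
            exact_mod_cast (Nat.lt_two_pow_self (n := rh I n)).le
          have hr1 : 1 ≤ rh I n := rh_pos I n
          calc C / I.δ n * C ^ (4 * rh I n) = C * (1 / I.δ n) * C ^ (4 * rh I n) := by ring
            _ ≤ C ^ (rh I n) * (2 ^ rh I n) ^ 2 * C ^ (4 * rh I n) := by
                have h3 : C ≤ C ^ rh I n := le_self_pow₀ hC (by omega)
                have h4 : 1 / I.δ n ≤ ((2 : ℝ) ^ rh I n) ^ 2 := h1.trans (by gcongr)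
                have h5 : 0 ≤ 1 / I.δ n := by positivity
                gcongr
            _ = (4 * C ^ 5) ^ rh I n := by
                have e1 : ((2 : ℝ) ^ rh I n) ^ 2 = 4 ^ rh I n := by
                  rw [pow_right_comm]; norm_num
                have e2 : C ^ rh I n * C ^ (4 * rh I n) = (C ^ 5) ^ rh I n := by
                  rw [← pow_add, ← pow_mul]; congr 1; ring
                rw [e1, mul_pow, ← e2]; ring)
    calc ENNReal.ofReal (I.δ n ^ 2) * ∑ p ∈ P, ∫⁻ h, (if k₁ ≤ NI I n p h ∧ NI I n p h ≤ k2 I n then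
          ((12 : ℕ) : ℝ≥0∞) ^ NI I n p h else 0) ∂(I.P0 n)
        ≤ ENNReal.ofReal (I.δ n ^ 2) * ∑ p ∈ P, ∑ k ∈ Ico k₁ (k2 I n + 1),
            ((12 : ℕ) : ℝ≥0∞) ^ k * I.P0 n {h | k ≤ NI I n p h} := by
          gcongr with p hp
          exact lintegral_pow_window_le
            (fun k => measurableSet_le measurable_const (measurable_NI I n p)) _ _ _
      _ = ENNReal.ofReal (I.δ n ^ 2) * ∑ k ∈ Ico k₁ (k2 I n + 1),
            ((12 : ℕ) : ℝ≥0∞) ^ k * ∑ p ∈ P, I.P0 n {h | k ≤ NI I n p h} := by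
          rw [sum_comm]
          congr 1
          exact sum_congr rfl fun k _ => by rw [mul_sum]
      _ ≤ ENNReal.ofReal (I.δ n ^ 2) *
            ENNReal.ofReal ((6 * (2 * W + 3 * rh I n) ^ 2 : ℕ) * η') := by gcongr
      _ = ENNReal.ofReal (I.δ n ^ 2 * ((6 * (2 * W + 3 * rh I n) ^ 2 : ℕ) * η')) :=
          (ENNReal.ofReal_mul (by positivity)).symm
      _ ≤ ENNReal.ofReal η := by
          apply ENNReal.ofReal_le_ofReal
          push_cast
          have h1 : I.δ n * (2 * W + 3 * rh I n) ≤ 2 * R + 3 := by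
            rw [le_div_iff₀ hδ] at hWR
            nlinarith
          have h2 : 0 ≤ I.δ n * (2 * W + 3 * rh I n) := by positivity
          calc I.δ n ^ 2 * (6 * (2 * (W : ℝ) + 3 * rh I n) ^ 2 * η')
              = 6 * (I.δ n * (2 * W + 3 * rh I n)) ^ 2 * η' := by ring
            _ ≤ 6 * (2 * R + 3) ^ 2 * η' := by gcongr
            _ = η := by rw [hη']; field_simp

end Crest.Agent.R144.Uig714
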