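import Mathlib
import Crest.Agent.R144.Uig6_714
import Crest.Agent.R144.Hpw1_812
import Crest.Agent.R144.Lat4_549
import Crest.Agent.R144.Cnt2_268
import Crest.Agent.R144.Upp7_296
import Crest.Agent.R144.Fa1_812

-- ▼ part R144/Uig1_714
section

/-!
# R144 (S0197), block UIG (helper714), part 1: abstract uniform integrability of gradients

From a weighted `L²` bound `∑ ∫ B^{-N e} g e² ≤ C₁` (Korn), an averaged moment bound of `B ^ N e` on
`k₁ < N e ≤ k₂`, and a crude bound on `k₂ < N e`, the scaled sums `δ ∑ ∫ g e 1(g e > Λ δ)` are small.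
-/

set_option autoImplicit false

namespace Crest.Agent.R144.Uig714

open MeasureTheory Finset
open scoped BigOperators

variable {Ω : Type*} [MeasurableSpace Ω] {P : Measure Ω} [IsProbabilityMeasure P]
variable {ε : Type*}

omit [IsProbabilityMeasure P] in
/-- Cauchy-Schwarz for bounded functions -/
lemma cs {f g : Ω → ℝ} (hf : MemLp f 2 P) (hg : MemLp g 2 P) (hf0 : 0 ≤ᵐ[P] f) (hg0 : 0 ≤ᵐ[P] g) :
    ∫ ω, f ω * g ω ∂P ≤ Real.sqrt (∫ ω, f ω ^ 2 ∂P) * Real.sqrt (∫ ω, g ω ^ 2 ∂P) := by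
  have h1 := integral_mul_le_Lp_mul_Lq_of_nonneg (μ := P) (p := 2) (q := 2)
    Real.HolderConjugate.two_two hf0 hg0 (by simpa using hf) (by simpa using hg)
  simp only [Real.rpow_two] at h1
  rw [Real.sqrt_eq_rpow, Real.sqrt_eq_rpow]
  exact h1

lemma memLp_of_bdd {f : Ω → ℝ} (hf : Measurable f) {C : ℝ} (hC : ∀ ω, |f ω| ≤ C) :
    MemLp f 2 P :=
  MemLp.of_bound hf.aestronglyMeasurable C (Filter.Eventually.of_forall fun ω => by
    rw [Real.norm_eq_abs]; exact hC ω)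

lemma int_of_bdd {f : Ω → ℝ} (hf : Measurable f) {C : ℝ} (hC : ∀ ω, |f ω| ≤ C) :
    Integrable f P :=
  Integrable.of_bound hf.aestronglyMeasurable C (Filter.Eventually.of_forall fun ω => by
    rw [Real.norm_eq_abs]; exact hC ω)

/-- sum over a finite set of Cauchy-Schwarz -/
lemma sum_sqrt_mul_le {s : Finset ε} {a b : ε → ℝ} (ha : ∀ e ∈ s, 0 ≤ a e)
    (hb : ∀ e ∈ s, 0 ≤ b e) :
    ∑ e ∈ s, Real.sqrt (a e) * Real.sqrt (b e) ≤
      Real.sqrt (∑ e ∈ s, a e) * Real.sqrt (∑ e ∈ s, b e) := by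
  have h := Finset.sum_mul_sq_le_sq_mul_sq s (fun e => Real.sqrt (a e)) (fun e => Real.sqrt (b e))
  have h1 : ∑ e ∈ s, Real.sqrt (a e) ^ 2 = ∑ e ∈ s, a e :=
    sum_congr rfl fun e he => Real.sq_sqrt (ha e he)
  have h2 : ∑ e ∈ s, Real.sqrt (b e) ^ 2 = ∑ e ∈ s, b e :=
    sum_congr rfl fun e he => Real.sq_sqrt (hb e he)
  rw [h1, h2] at h
  rw [← Real.sqrt_mul (sum_nonneg ha)]
  exact Real.le_sqrt_of_sq_le h

/-- **Abstract uniform integrability.** -/
theorem ui_abs (𝓔 : Finset ε) {g : ε → Ω → ℝ} {N : ε → Ω → ℕ}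
    (hg : ∀ e, Measurable (g e)) (hg0 : ∀ e ω, 0 ≤ g e ω) (hgb : ∀ e, ∃ C, ∀ ω, g e ω ≤ C)
    (hN : ∀ e, Measurable (N e)) {Nmax : ℕ} (hNb : ∀ e ω, N e ω ≤ Nmax)
    {δ B C₀ C₁ η₁ η₂ Λ : ℝ} (hδ : 0 < δ) (hB : 1 ≤ B) (hΛ : 0 < Λ) (hη₂ : 0 ≤ η₂) {k₁ k₂ : ℕ}
    (ha : ∑ e ∈ 𝓔, ∫ ω, (B ^ N e ω)⁻¹ * g e ω ^ 2 ∂P ≤ C₁)
    (hb : δ ^ 2 * ∑ e ∈ 𝓔, ∫ ω, (if k₁ < N e ω ∧ N e ω ≤ k₂ then B ^ N e ω else 0) ∂P ≤ η₁)
    (hc : ∀ e ∈ 𝓔, (∫ ω, g e ω ^ 2 ∂P) * P.real {ω | k₂ < N e ω} ≤ (η₂ * δ) ^ 2)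
    (hd : δ ^ 2 * 𝓔.card ≤ C₀) :
    δ * ∑ e ∈ 𝓔, ∫ ω, (if Λ * δ < g e ω then g e ω else 0) ∂P ≤
      B ^ k₁ * C₁ / Λ + Real.sqrt (C₁ * η₁) + C₀ * η₂ := by
  have hB0 : 0 < B := by linarith
  -- integrability facts
  have hgi : ∀ e, Integrable (g e) P := fun e => by
    obtain ⟨C, hC⟩ := hgb e
    exact int_of_bdd (hg e) (C := C) fun ω => by rw [abs_of_nonneg (hg0 e ω)]; exact hC ω
  have hw : ∀ e ω, 0 < B ^ N e ω := fun e ω => by positivity
  have hBN : ∀ e, Measurable fun ω => B ^ N e ω := fun e =>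
    (measurable_from_top (f := fun k : ℕ => B ^ k)).comp (hN e)
  have hBb : ∀ e ω, B ^ N e ω ≤ B ^ Nmax := fun e ω => pow_le_pow_right₀ hB (hNb e ω)
  have hBi : ∀ e ω, (B ^ N e ω)⁻¹ ≤ 1 := fun e ω => inv_le_one_of_one_le₀ (one_le_pow₀ hB)
  have hwg : ∀ e, Integrable (fun ω => (B ^ N e ω)⁻¹ * g e ω ^ 2) P := fun e => by
    obtain ⟨C, hC⟩ := hgb e
    refine int_of_bdd (((hBN e).inv).mul ((hg e).pow_const 2)) (C := C ^ 2) fun ω => ?_
    rw [abs_of_nonneg (mul_nonneg (inv_nonneg.mpr (hw e ω).le) (sq_nonneg _))]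
    calc (B ^ N e ω)⁻¹ * g e ω ^ 2 ≤ 1 * g e ω ^ 2 := by gcongr; exact hBi e ω
      _ ≤ C ^ 2 := by rw [one_mul]; exact pow_le_pow_left₀ (hg0 e ω) (hC ω) 2
  -- three pieces
  set A₁ : ε → Set Ω := fun e => {ω | N e ω ≤ k₁} with hA₁
  set A₂ : ε → Set Ω := fun e => {ω | k₁ < N e ω ∧ N e ω ≤ k₂} with hA₂
  set A₃ : ε → Set Ω := fun e => {ω | k₂ < N e ω} with hA₃
  have mA₁ : ∀ e, MeasurableSet (A₁ e) := fun e => measurableSet_le (hN e) measurable_const
  have mA₃ : ∀ e, MeasurableSet (A₃ e) := fun e => measurableSet_lt measurable_const (hN e)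
  have mA₂ : ∀ e, MeasurableSet (A₂ e) := fun e =>
    (measurableSet_lt measurable_const (hN e)).inter (measurableSet_le (hN e) measurable_const)
  have hpt : ∀ e ω, (if Λ * δ < g e ω then g e ω else 0) ≤
      B ^ k₁ / (Λ * δ) * ((B ^ N e ω)⁻¹ * g e ω ^ 2) + (A₂ e).indicator (g e) ω +
        (A₃ e).indicator (g e) ω := by
    intro e ω
    have h2 : 0 ≤ (A₂ e).indicator (g e) ω := Set.indicator_nonneg (fun _ _ => hg0 e _) ω
    have h3 : 0 ≤ (A₃ e).indicator (g e) ω := Set.indicator_nonneg (fun _ _ => hg0 e _) ω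
    have h1 : 0 ≤ B ^ k₁ / (Λ * δ) * ((B ^ N e ω)⁻¹ * g e ω ^ 2) :=
      mul_nonneg (by positivity) (mul_nonneg (inv_nonneg.mpr (hw e ω).le) (sq_nonneg _))
    split_ifs with hgt
    · rcases le_or_gt (N e ω) k₁ with hk | hk
      · have h4 : g e ω ≤ B ^ k₁ / (Λ * δ) * ((B ^ N e ω)⁻¹ * g e ω ^ 2) := by
          have h5 : 1 ≤ B ^ k₁ * (B ^ N e ω)⁻¹ := by
            rw [← div_eq_mul_inv, one_le_div (hw e ω)]
            exact pow_le_pow_right₀ hB hk
          have h6 : 1 ≤ g e ω / (Λ * δ) := by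
            rw [one_le_div (by positivity)]; exact hgt.le
          calc g e ω = 1 * 1 * g e ω := by ring
            _ ≤ (B ^ k₁ * (B ^ N e ω)⁻¹) * (g e ω / (Λ * δ)) * g e ω := by
                have := hg0 e ω
                gcongr
            _ = _ := by ring
        linarith
      · rcases le_or_gt (N e ω) k₂ with hk2 | hk2
        · have : ω ∈ A₂ e := ⟨hk, hk2⟩
          rw [Set.indicator_of_mem this]; linarith
        · have : ω ∈ A₃ e := hk2
          rw [Set.indicator_of_mem this]; linarith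
    · positivity
  have i1 : ∀ e, Integrable (fun ω => B ^ k₁ / (Λ * δ) * ((B ^ N e ω)⁻¹ * g e ω ^ 2)) P :=
    fun e => (hwg e).const_mul _
  have i2 : ∀ e, Integrable ((A₂ e).indicator (g e)) P := fun e => (hgi e).indicator (mA₂ e)
  have i3 : ∀ e, Integrable ((A₃ e).indicator (g e)) P := fun e => (hgi e).indicator (mA₃ e)
  have i0 : ∀ e, Integrable (fun ω => if Λ * δ < g e ω then g e ω else 0) P := fun e => by
    have : (fun ω => if Λ * δ < g e ω then g e ω else 0) =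
        Set.indicator {ω | Λ * δ < g e ω} (g e) := by
      funext ω; simp only [Set.indicator, Set.mem_ofPred_eq]
    rw [this]
    exact (hgi e).indicator (measurableSet_lt measurable_const (hg e))
  -- middle piece
  have hmid : ∀ e, ∫ ω, (A₂ e).indicator (g e) ω ∂P ≤
      Real.sqrt (∫ ω, (B ^ N e ω)⁻¹ * g e ω ^ 2 ∂P) *
        Real.sqrt (∫ ω, (if k₁ < N e ω ∧ N e ω ≤ k₂ then B ^ N e ω else 0) ∂P) := by
    intro e
    obtain ⟨C, hC⟩ := hgb e
    set f₁ : Ω → ℝ := fun ω => Real.sqrt ((B ^ N e ω)⁻¹) * g e ω with hf₁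
    set f₂ : Ω → ℝ := fun ω => (A₂ e).indicator (fun ω => Real.sqrt (B ^ N e ω)) ω with hf₂
    have hs1 : ∀ ω, Real.sqrt ((B ^ N e ω)⁻¹) ≤ 1 := fun ω => by
      calc Real.sqrt ((B ^ N e ω)⁻¹) ≤ Real.sqrt 1 := Real.sqrt_le_sqrt (hBi e ω)
        _ = 1 := Real.sqrt_one
    have hf₁m : Measurable f₁ := ((hBN e).inv.sqrt).mul (hg e)
    have hf₁b : ∀ ω, |f₁ ω| ≤ C := fun ω => by
      rw [abs_of_nonneg (mul_nonneg (Real.sqrt_nonneg _) (hg0 e ω))]
      calc Real.sqrt ((B ^ N e ω)⁻¹) * g e ω ≤ 1 * g e ω :=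
            mul_le_mul_of_nonneg_right (hs1 ω) (hg0 e ω)
        _ ≤ C := by rw [one_mul]; exact hC ω
    have hf₂m : Measurable f₂ := ((hBN e).sqrt).indicator (mA₂ e)
    have hf₂b : ∀ ω, |f₂ ω| ≤ Real.sqrt (B ^ Nmax) := fun ω => by
      rw [abs_of_nonneg (Set.indicator_nonneg (fun _ _ => Real.sqrt_nonneg _) ω)]
      by_cases hω : ω ∈ A₂ e
      · simp only [Set.indicator_of_mem hω]
        exact Real.sqrt_le_sqrt (hBb e ω)
      · simp only [Set.indicator_of_notMem hω]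
        exact Real.sqrt_nonneg _
    have hprod : ∀ ω, (A₂ e).indicator (g e) ω = f₁ ω * f₂ ω := by
      intro ω
      by_cases hω : ω ∈ A₂ e
      · simp only [hf₁, hf₂, Set.indicator_of_mem hω]
        have : Real.sqrt ((B ^ N e ω)⁻¹) * Real.sqrt (B ^ N e ω) = 1 := by
          rw [← Real.sqrt_mul (inv_nonneg.mpr (hw e ω).le), inv_mul_cancel₀ (hw e ω).ne',
            Real.sqrt_one]
        calc g e ω = (Real.sqrt ((B ^ N e ω)⁻¹) * Real.sqrt (B ^ N e ω)) * g e ω := by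
              rw [this, one_mul]
          _ = _ := by ring
      · simp only [hf₂, Set.indicator_of_notMem hω, mul_zero]
    have hcs := cs (P := P) (memLp_of_bdd hf₁m hf₁b) (memLp_of_bdd hf₂m hf₂b)
      (Filter.Eventually.of_forall fun ω => mul_nonneg (Real.sqrt_nonneg _) (hg0 e ω))
      (Filter.Eventually.of_forall fun ω => Set.indicator_nonneg (fun _ _ => Real.sqrt_nonneg _) ω)
    have e1 : ∫ ω, f₁ ω ^ 2 ∂P = ∫ ω, (B ^ N e ω)⁻¹ * g e ω ^ 2 ∂P := by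
      congr 1; funext ω
      simp only [hf₁]
      rw [mul_pow, Real.sq_sqrt (inv_nonneg.mpr (hw e ω).le)]
    have e2 : ∫ ω, f₂ ω ^ 2 ∂P =
        ∫ ω, (if k₁ < N e ω ∧ N e ω ≤ k₂ then B ^ N e ω else 0) ∂P := by
      congr 1; funext ω
      simp only [hf₂, Set.indicator, hA₂, Set.mem_ofPred_eq]
      split_ifs with h
      · rw [Real.sq_sqrt (hw e ω).le]
      · simp
    rw [e1, e2] at hcs
    calc ∫ ω, (A₂ e).indicator (g e) ω ∂P = ∫ ω, f₁ ω * f₂ ω ∂P := by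
          congr 1; funext ω; exact hprod ω
      _ ≤ _ := hcs
  -- last piece
  have hlast : ∀ e ∈ 𝓔, ∫ ω, (A₃ e).indicator (g e) ω ∂P ≤ η₂ * δ := by
    intro e he
    obtain ⟨C, hC⟩ := hgb e
    have hcs := cs (P := P) (f := g e) (g := (A₃ e).indicator 1)
      (memLp_of_bdd (hg e) (C := C) fun ω => by rw [abs_of_nonneg (hg0 e ω)]; exact hC ω)
      (memLp_of_bdd (measurable_one.indicator (mA₃ e)) (C := 1) fun ω => by
        by_cases hω : ω ∈ A₃ e <;> simp [hω])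
      (Filter.Eventually.of_forall (hg0 e))
      (Filter.Eventually.of_forall fun ω => Set.indicator_nonneg (fun _ _ => zero_le_one) ω)
    have e1 : ∫ ω, ((A₃ e).indicator (1 : Ω → ℝ) ω) ^ 2 ∂P = P.real (A₃ e) := by
      rw [← integral_indicator_one (mA₃ e)]
      congr 1; funext ω
      by_cases hω : ω ∈ A₃ e <;> simp [hω]
    rw [e1, ← Real.sqrt_mul (integral_nonneg fun ω => sq_nonneg _)] at hcs
    calc ∫ ω, (A₃ e).indicator (g e) ω ∂P = ∫ ω, g e ω * (A₃ e).indicator 1 ω ∂P := by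
          congr 1; funext ω
          by_cases hω : ω ∈ A₃ e <;> simp [hω]
      _ ≤ _ := hcs
      _ ≤ Real.sqrt ((η₂ * δ) ^ 2) := Real.sqrt_le_sqrt (hc e he)
      _ = η₂ * δ := Real.sqrt_sq (by positivity)
  -- assembly
  have hC1 : 0 ≤ C₁ := le_trans (sum_nonneg fun e _ => integral_nonneg fun ω =>
    mul_nonneg (inv_nonneg.mpr (hw e ω).le) (sq_nonneg _)) ha
  have hS2 : 0 ≤ ∑ e ∈ 𝓔, ∫ ω, (if k₁ < N e ω ∧ N e ω ≤ k₂ then B ^ N e ω else 0) ∂P :=
    sum_nonneg fun e _ => integral_nonneg fun ω => by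
      split_ifs
      · exact (hw e ω).le
      · exact le_rfl
  have hsum : ∑ e ∈ 𝓔, ∫ ω, (if Λ * δ < g e ω then g e ω else 0) ∂P ≤
      B ^ k₁ / (Λ * δ) * C₁ + Real.sqrt C₁ *
        Real.sqrt (∑ e ∈ 𝓔, ∫ ω, (if k₁ < N e ω ∧ N e ω ≤ k₂ then B ^ N e ω else 0) ∂P) +
        𝓔.card * (η₂ * δ) := by
    calc ∑ e ∈ 𝓔, ∫ ω, (if Λ * δ < g e ω then g e ω else 0) ∂P
        ≤ ∑ e ∈ 𝓔, (B ^ k₁ / (Λ * δ) * ∫ ω, (B ^ N e ω)⁻¹ * g e ω ^ 2 ∂P +
            Real.sqrt (∫ ω, (B ^ N e ω)⁻¹ * g e ω ^ 2 ∂P) *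
            Real.sqrt (∫ ω, (if k₁ < N e ω ∧ N e ω ≤ k₂ then B ^ N e ω else 0) ∂P) + η₂ * δ) := by
          apply sum_le_sum
          intro e he
          calc ∫ ω, (if Λ * δ < g e ω then g e ω else 0) ∂P
              ≤ ∫ ω, (B ^ k₁ / (Λ * δ) * ((B ^ N e ω)⁻¹ * g e ω ^ 2) +
                  (A₂ e).indicator (g e) ω + (A₃ e).indicator (g e) ω) ∂P :=
                integral_mono (i0 e) (((i1 e).add (i2 e)).add (i3 e)) (hpt e)
            _ = B ^ k₁ / (Λ * δ) * ∫ ω, (B ^ N e ω)⁻¹ * g e ω ^ 2 ∂P +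
                  ∫ ω, (A₂ e).indicator (g e) ω ∂P + ∫ ω, (A₃ e).indicator (g e) ω ∂P := by
                have h12 : Integrable (fun ω => B ^ k₁ / (Λ * δ) * ((B ^ N e ω)⁻¹ * g e ω ^ 2) +
                  (A₂ e).indicator (g e) ω) P := (i1 e).add (i2 e)
                rw [integral_add h12 (i3 e), integral_add (i1 e) (i2 e),
                  integral_const_mul]
            _ ≤ _ := add_le_add (add_le_add le_rfl (hmid e)) (hlast e he)
      _ = B ^ k₁ / (Λ * δ) * ∑ e ∈ 𝓔, ∫ ω, (B ^ N e ω)⁻¹ * g e ω ^ 2 ∂P +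
            ∑ e ∈ 𝓔, Real.sqrt (∫ ω, (B ^ N e ω)⁻¹ * g e ω ^ 2 ∂P) *
            Real.sqrt (∫ ω, (if k₁ < N e ω ∧ N e ω ≤ k₂ then B ^ N e ω else 0) ∂P) +
            𝓔.card * (η₂ * δ) := by
          rw [sum_add_distrib, sum_add_distrib, mul_sum, sum_const, nsmul_eq_mul]
      _ ≤ _ := by
          have h1 := sum_sqrt_mul_le (s := 𝓔)
            (a := fun e => ∫ ω, (B ^ N e ω)⁻¹ * g e ω ^ 2 ∂P)
            (b := fun e => ∫ ω, (if k₁ < N e ω ∧ N e ω ≤ k₂ then B ^ N e ω else 0) ∂P)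
            (fun e _ => integral_nonneg fun ω =>
              mul_nonneg (inv_nonneg.mpr (hw e ω).le) (sq_nonneg _))
            (fun e _ => integral_nonneg fun ω => by
              split_ifs
              · exact (hw e ω).le
              · exact le_rfl)
          have h2 : Real.sqrt (∑ e ∈ 𝓔, ∫ ω, (B ^ N e ω)⁻¹ * g e ω ^ 2 ∂P) ≤ Real.sqrt C₁ :=
            Real.sqrt_le_sqrt ha
          refine add_le_add (add_le_add ?_ (h1.trans ?_)) le_rfl
          · gcongr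
          · gcongr
  calc δ * ∑ e ∈ 𝓔, ∫ ω, (if Λ * δ < g e ω then g e ω else 0) ∂P
      ≤ δ * (B ^ k₁ / (Λ * δ) * C₁ + Real.sqrt C₁ *
        Real.sqrt (∑ e ∈ 𝓔, ∫ ω, (if k₁ < N e ω ∧ N e ω ≤ k₂ then B ^ N e ω else 0) ∂P) +
        𝓔.card * (η₂ * δ)) := by gcongr
    _ = B ^ k₁ * C₁ / Λ + Real.sqrt C₁ * (δ *
        Real.sqrt (∑ e ∈ 𝓔, ∫ ω, (if k₁ < N e ω ∧ N e ω ≤ k₂ then B ^ N e ω else 0) ∂P)) +
        (δ ^ 2 * 𝓔.card) * η₂ := by
          field_simp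
    _ ≤ B ^ k₁ * C₁ / Λ + Real.sqrt (C₁ * η₁) + C₀ * η₂ := by
          refine add_le_add (add_le_add le_rfl ?_) (mul_le_mul_of_nonneg_right hd hη₂)
          rw [Real.sqrt_mul hC1]
          gcongr
          apply Real.le_sqrt_of_sq_le
          rw [mul_pow, Real.sq_sqrt hS2]
          exact hb

end Crest.Agent.R144.Uig714
end

-- ▼ part R144/Uig7_714
section

/-!
# R144 (S0197), block UIG (helper714), part 7: crude bounds, `L¹` bound, uniform integrability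

* `crude_abs`, `gr_crude` : crude polynomial bound of `∫ |∇Y|²`;
* `l1_bound` : `δ ∑ ∫ |∇Y| ≤ S √(∫ en Y)`;
* `uig` : uniform integrability of the gradients of nice fields, off the marks.
-/

set_option autoImplicit false

namespace Crest.Agent.R144.Uig714

open MeasureTheory Finset Filter Topology
open Crest.Agent.R144.Uia714 Crest.Agent.R144.Skel144
open Crest.Agent.R144.Ham560 (ext ham nbr mem_nbr Fresh tight hamP measurableSet_ham ext_mem
  ext_notMem triE mem_triE mem_nbr_triE triXi mem_freeVerts' abs_triXi_le Anch ham_neg)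
open Crest.Agent.R144.Kor620 (P2 nrm FullE cnum measurable_cnum)
open Crest.Agent.R144.KorE761 (LatE LatFam latE_triE gr RigidW lawT)
open Crest.ProbabilityR.TriHeights Crest.ProbabilityR.HexHeights
open scoped BigOperators ENNReal NNReal

section abs

variable {Ω : Type*} [MeasurableSpace Ω] {P : Measure Ω} [IsProbabilityMeasure P]

/-- Cauchy-Schwarz on an event -/
lemma integral_abs_indicator_le {g : Ω → ℝ} (hg : Measurable g) (hgb : ∃ C, ∀ ω, |g ω| ≤ C)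
    {A : Set Ω} (hA : MeasurableSet A) :
    ∫ ω, A.indicator (fun ω => |g ω|) ω ∂P ≤
      Real.sqrt (∫ ω, A.indicator (fun ω => g ω ^ 2) ω ∂P) * Real.sqrt (P.real A) := by
  obtain ⟨C, hC⟩ := hgb
  have h1 := cs (P := P) (f := A.indicator (fun ω => |g ω|)) (g := A.indicator 1)
    (memLp_of_bdd ((hg.norm).indicator hA) (C := C) fun ω => by
      by_cases hω : ω ∈ A
      · rw [Set.indicator_of_mem hω, abs_abs]; exact hC ω
      · rw [Set.indicator_of_notMem hω, abs_zero]; exact (abs_nonneg _).trans (hC ω))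
    (memLp_of_bdd (measurable_one.indicator hA) (C := 1) fun ω => by
      by_cases hω : ω ∈ A <;> simp [hω])
    (Eventually.of_forall fun ω => Set.indicator_nonneg (fun _ _ => abs_nonneg _) ω)
    (Eventually.of_forall fun ω => Set.indicator_nonneg (fun _ _ => zero_le_one) ω)
  have e1 : ∀ ω, A.indicator (fun ω => |g ω|) ω * A.indicator (1 : Ω → ℝ) ω =
      A.indicator (fun ω => |g ω|) ω := fun ω => by
    by_cases hω : ω ∈ A <;> simp [hω]
  have e2 : ∀ ω, A.indicator (fun ω => |g ω|) ω ^ 2 = A.indicator (fun ω => g ω ^ 2) ω := fun ω => by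
    by_cases hω : ω ∈ A <;> simp [hω]
  have e3 : ∫ ω, (A.indicator (1 : Ω → ℝ) ω) ^ 2 ∂P = P.real A := by
    rw [← integral_indicator_one hA]
    congr 1; funext ω
    by_cases hω : ω ∈ A <;> simp [hω]
  simp only [e1, e2] at h1
  rwa [e3] at h1

/-- crude bound of the second moment -/
lemma crude_abs {g : Ω → ℝ} (hg : Measurable g) (hgb : ∃ C, ∀ ω, |g ω| ≤ C)
    {A : Set Ω} (hA : MeasurableSet A) {V K : ℝ} (hP : P.real Aᶜ ≤ 1 / 4)
    (hV : ∫ ω, g ω ^ 2 ∂P - (∫ ω, g ω ∂P) ^ 2 ≤ V)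
    (hK : ∫ ω, A.indicator (fun ω => g ω ^ 2) ω ∂P ≤ K) :
    ∫ ω, g ω ^ 2 ∂P ≤ 2 * V + 4 * K := by
  obtain ⟨C, hC⟩ := hgb
  have hgi : Integrable g P := int_of_bdd hg hC
  have hgai : Integrable (fun ω => |g ω|) P := hgi.abs
  have hg2 : Integrable (fun ω => g ω ^ 2) P := int_of_bdd (hg.pow_const 2) (C := C ^ 2) fun ω => by
    rw [abs_pow]; exact pow_le_pow_left₀ (abs_nonneg _) (hC ω) 2
  have h1 := integral_abs_indicator_le (P := P) hg ⟨C, hC⟩ hA
  have h2 := integral_abs_indicator_le (P := P) hg ⟨C, hC⟩ hA.compl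
  set x2 := ∫ ω, g ω ^ 2 ∂P with hx2
  have hx0 : 0 ≤ x2 := integral_nonneg fun ω => sq_nonneg _
  have hK0 : 0 ≤ K := le_trans (integral_nonneg fun ω => Set.indicator_nonneg
    (fun _ _ => sq_nonneg _) ω) hK
  have h3 : |∫ ω, g ω ∂P| ≤ ∫ ω, A.indicator (fun ω => |g ω|) ω ∂P +
      ∫ ω, Aᶜ.indicator (fun ω => |g ω|) ω ∂P := by
    rw [← integral_add (hgai.indicator hA) (hgai.indicator hA.compl)]
    refine (abs_integral_le_integral_abs).trans (le_of_eq ?_)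
    congr 1; funext ω
    by_cases hω : ω ∈ A <;> simp [hω]
  have h4 : ∫ ω, A.indicator (fun ω => |g ω|) ω ∂P ≤ Real.sqrt K := by
    refine h1.trans ?_
    calc _ ≤ Real.sqrt K * Real.sqrt 1 :=
          mul_le_mul (Real.sqrt_le_sqrt hK) (Real.sqrt_le_sqrt measureReal_le_one)
            (Real.sqrt_nonneg _) (Real.sqrt_nonneg _)
      _ = _ := by rw [Real.sqrt_one, mul_one]
  have h5 : ∫ ω, Aᶜ.indicator (fun ω => |g ω|) ω ∂P ≤ Real.sqrt x2 * Real.sqrt (1 / 4) := by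
    refine h2.trans (mul_le_mul (Real.sqrt_le_sqrt ?_) (Real.sqrt_le_sqrt hP)
      (Real.sqrt_nonneg _) (Real.sqrt_nonneg _))
    refine integral_mono (hg2.indicator hA.compl) hg2 fun ω => ?_
    by_cases hω : ω ∈ Aᶜ
    · rw [Set.indicator_of_mem hω]
    · rw [Set.indicator_of_notMem hω]; exact sq_nonneg _
  have h6 : (∫ ω, g ω ∂P) ^ 2 ≤ 2 * K + x2 / 2 := by
    have h7 : |∫ ω, g ω ∂P| ≤ Real.sqrt K + Real.sqrt x2 * Real.sqrt (1 / 4) := by linarith
    have h8 : Real.sqrt (1 / 4) ^ 2 = 1 / 4 := Real.sq_sqrt (by norm_num)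
    have h9 := Real.sq_sqrt hK0
    have h10 := Real.sq_sqrt hx0
    have h11 : |∫ ω, g ω ∂P| ^ 2 ≤ (Real.sqrt K + Real.sqrt x2 * Real.sqrt (1 / 4)) ^ 2 :=
      pow_le_pow_left₀ (abs_nonneg _) h7 2
    rw [sq_abs] at h11
    have h12 : (Real.sqrt K + Real.sqrt x2 * Real.sqrt (1 / 4)) ^ 2 ≤
        2 * Real.sqrt K ^ 2 + 2 * (Real.sqrt x2 * Real.sqrt (1 / 4)) ^ 2 := by
      nlinarith [sq_nonneg (Real.sqrt K - Real.sqrt x2 * Real.sqrt (1 / 4))]
    rw [mul_pow, h8, h9, h10] at h12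
    linarith
  linarith

end abs

variable (I : Inst)

/-- nice fields: smooth, compactly supported, rigid on tight edges -/
structure NiceF (n : ℕ) (Y : (I.Fr n → ℝ) → (I.Fr n → ℝ)) : Prop where
  smooth : ContDiff ℝ 1 Y
  cpt : HasCompactSupport Y
  rigid : RigidW (I.Fr n) (I.Ed n) (I.xi n) Y

variable {I}

lemma NiceF.rigid_xe {n : ℕ} {Y : (I.Fr n → ℝ) → (I.Fr n → ℝ)} (hY : NiceF I n Y) :
    RigidW (I.Fr n) (I.Ed n) (xe I n) Y := by
  intro h hh p hp hg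
  rw [ham_xe] at hh
  have h1 := mem_verts_of_edge (mem_triE.mp hp)
  rw [ext_xe I n h1.1, ext_xe I n h1.2] at hg
  exact hY.rigid h hh p hp hg

lemma NiceF.bdd {n : ℕ} {Y : (I.Fr n → ℝ) → (I.Fr n → ℝ)} (hY : NiceF I n Y) (u v : P2) :
    ∃ C, ∀ h, |gr Y u v h| ≤ C := by
  obtain ⟨C, hC⟩ := hY.cpt.exists_bound_of_continuous hY.smooth.continuous
  have hC0 : 0 ≤ C := (norm_nonneg _).trans (hC 0)
  have key : ∀ (z : P2) (h : I.Fr n → ℝ), |KorE761.lab Y z h| ≤ C := by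
    intro z h
    unfold KorE761.lab
    by_cases hz : z ∈ I.Fr n
    · rw [ext_mem hz]
      exact (norm_le_pi_norm (Y h) ⟨z, hz⟩).trans (hC h)
    · rw [ext_notMem hz]; simpa using hC0
  refine ⟨2 * C, fun h => ?_⟩
  unfold gr
  have h1 := key u h
  have h2 := key v h
  calc |KorE761.lab Y u h - KorE761.lab Y v h| ≤ |KorE761.lab Y u h| + |KorE761.lab Y v h| :=
        abs_sub _ _
    _ ≤ _ := by linarith

lemma NiceF.measurable_gr {n : ℕ} {Y : (I.Fr n → ℝ) → (I.Fr n → ℝ)} (hY : NiceF I n Y) (u v : P2) :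
    Measurable (gr Y u v) := (KorE761.contDiff_gr hY.smooth u v).continuous.measurable

lemma NiceF.lip {n : ℕ} {Y : (I.Fr n → ℝ) → (I.Fr n → ℝ)} (hY : NiceF I n Y) (u v : P2) :
    ∃ L : ℝ≥0, LipschitzWith L (gr Y u v) := by
  refine ContDiff.lipschitzWith_of_hasCompactSupport (𝕂 := ℝ) (n := 1) ?_
    (KorE761.contDiff_gr hY.smooth u v) one_ne_zero
  refine hY.cpt.mono' ?_
  intro h hh
  apply subset_tsupport
  rw [Function.mem_support] at hh ⊢
  intro h0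
  apply hh
  unfold gr KorE761.lab
  rw [h0]
  have : ∀ z : P2, ext (I.Fr n) 0 (0 : I.Fr n → ℝ) z = 0 := fun z => by
    by_cases hz : z ∈ I.Fr n
    · rw [ext_mem hz]; rfl
    · rw [ext_notMem hz]; rfl
  rw [this, this, sub_zero]

/-- the energy -/
noncomputable abbrev EnI (n : ℕ) (Y : (I.Fr n → ℝ) → (I.Fr n → ℝ)) : ℝ :=
  ∫ h, MW121.en Y h ∂(I.P0 n)

lemma lawT_zero (n : ℕ) : lawT (I.Fr n) (I.Ed n) (xe I n) 0 0 = I.P0 n := by
  unfold lawT
  have : (fun h : I.Fr n → ℝ => (∑ x, (0 : I.Fr n → ℝ) x * h x) + 0) = fun _ => (0 : ℝ) := by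
    funext h; simp
  rw [this, tilted_const', hamP_xe, measure_univ, inv_one, one_smul]

lemma integrable_cont (n : ℕ) {f : (I.Fr n → ℝ) → ℝ} (hf : Continuous f) :
    Integrable f (I.P0 n) := by
  rw [← lawT_zero]
  exact KorE761.integrable_lawT (I.anch n) (abs_xe_le I n) 0 0 hf

lemma EnI_nonneg (n : ℕ) (Y : (I.Fr n → ℝ) → (I.Fr n → ℝ)) : 0 ≤ EnI n Y :=
  integral_nonneg fun _ => Finset.sum_nonneg fun _ _ => Finset.sum_nonneg fun _ _ => sq_nonneg _

/-- variance of a gradient -/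
lemma gr_var {n : ℕ} {Y : (I.Fr n → ℝ) → (I.Fr n → ℝ)} (hY : NiceF I n Y) (u v : P2) :
    ∫ h, gr Y u v h ^ 2 ∂(I.P0 n) - (∫ h, gr Y u v h ∂(I.P0 n)) ^ 2 ≤
      8 * ((I.Fr n).card : ℝ) ^ 3 * EnI n Y := by
  obtain ⟨L, hL⟩ := hY.lip u v
  have h1 := Hpw812.var_hamP (I.anch n) (I.xi n) (hL.lipschitzOnWith (s := ham (I.Fr n) (I.Ed n) (I.xi n)))
  have hg : Integrable (gr Y u v) (I.P0 n) :=
    integrable_cont n (KorE761.contDiff_gr hY.smooth u v).continuous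
  have hg2 : Integrable (fun h => gr Y u v h ^ 2) (I.P0 n) :=
    integrable_cont n ((KorE761.contDiff_gr hY.smooth u v).continuous.pow 2)
  set m := ∫ h, gr Y u v h ∂(I.P0 n) with hm
  have e1 : ∫ h, (gr Y u v h - m) ^ 2 ∂(I.P0 n) = ∫ h, gr Y u v h ^ 2 ∂(I.P0 n) - m ^ 2 := by
    have : ∀ h, (gr Y u v h - m) ^ 2 = gr Y u v h ^ 2 - (2 * m) * gr Y u v h + m ^ 2 := fun h => by
      ring
    simp only [this]
    have i1 : Integrable (fun h => gr Y u v h ^ 2 - 2 * m * gr Y u v h) (I.P0 n) :=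
      hg2.sub (hg.const_mul _)
    rw [integral_add i1 (integrable_const _), integral_sub hg2 (hg.const_mul _),
      integral_const_mul, integral_const, probReal_univ, one_smul, ← hm]
    ring
  rw [e1] at h1
  refine h1.trans ?_
  have h2 : ∫ h, ∑ w, fderiv ℝ (gr Y u v) h (Pi.single w 1) ^ 2 ∂(I.P0 n) ≤ 4 * EnI n Y := by
    rw [← integral_const_mul]
    refine integral_mono (integrable_cont n ?_) (integrable_cont n ?_) fun h => ?_
    · exact Kor620.continuous_en (KorE761.contDiff_gr hY.smooth u v)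
    · exact (KorE761.continuous_mwen hY.smooth).const_mul 4
    · have h3 := KorE761.en_gr_le hY.smooth u v h
      have h4 : ∀ z, KorE761.row Y h z ≤ MW121.en Y h := by
        intro z
        by_cases hz : z ∈ I.Fr n
        · rw [← KorE761.sum_row hY.smooth h]
          exact single_le_sum (f := fun z => KorE761.row Y h z)
            (fun i _ => KorE761.row_nonneg Y h i) hz
        · rw [KorE761.row_notMem Y h hz]
          exact Finset.sum_nonneg fun _ _ => Finset.sum_nonneg fun _ _ => sq_nonneg _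
      have h5 := h4 u
      have h6 := h4 v
      have h7 : ∑ w, fderiv ℝ (gr Y u v) h (Pi.single w 1) ^ 2 = Kor620.en (gr Y u v) h := rfl
      simp only
      rw [h7]
      linarith
  have hc : (0 : ℝ) ≤ 2 * ((I.Fr n).card : ℝ) ^ 3 := by positivity
  calc 2 * ((I.Fr n).card : ℝ) ^ 3 * ∫ h, ∑ w, fderiv ℝ (gr Y u v) h (Pi.single w 1) ^ 2 ∂(I.P0 n)
      ≤ 2 * ((I.Fr n).card : ℝ) ^ 3 * (4 * EnI n Y) := by gcongr
    _ = _ := by ring

end Crest.Agent.R144.Uig714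
end

-- ▼ part R144/Uig8_714
section

/-!
# R144 (S0197), block UIG (helper714), part 8: UIG and the a-priori bounds at Inst level

* `PairsOff` : finite sets of ordered lattice edges off the marks, first end free;
* `korn_inst` : `∑ ∫ (12 ^ N)⁻¹ |∇Y|² ≤ 1200 ∫ en Y`;
* `gr_crude` : `∫ |∇Y|² ≤ K / δ ^ 6 ∫ en Y`;
* `uig` : uniform integrability;
* `l1_bound` : `δ ∑ ∫ |∇Y| ≤ S √(∫ en Y + 1)`.
-/

set_option autoImplicit false

namespace Crest.Agent.R144.Uig714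

open MeasureTheory Finset Filter Topology
open Crest.Agent.R144.Uia714 Crest.Agent.R144.Skel144
open Crest.Agent.R144.Ham560 (ext ham nbr mem_nbr Fresh tight hamP measurableSet_ham ext_mem
  ext_notMem triE mem_triE mem_nbr_triE triXi mem_freeVerts' abs_triXi_le Anch ham_neg)
open Crest.Agent.R144.Kor620 (P2 nrm FullE cnum measurable_cnum)
open Crest.Agent.R144.KorE761 (LatE LatFam latE_triE gr RigidW lawT)
open Crest.ProbabilityR.TriHeights Crest.ProbabilityR.HexHeights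
open scoped BigOperators ENNReal NNReal

variable (I : Inst)

/-- ordered lattice edges off the marks, first end free -/
def PairsOff (ε : ℝ) (n : ℕ) (P : Finset (P2 × P2)) : Prop :=
  ∀ p ∈ P, p.1 ∈ I.Fr n ∧ Adj p.1 p.2 ∧ Off I ε n p.1

variable {I}

lemma inv_pow_le (N : ℕ) : ((12 : ℝ) ^ N)⁻¹ ≤ (1 / 6) ^ N / (N + 1) := by
  have h1 : ((N : ℝ) + 1) ≤ 2 ^ N := by
    have : N + 1 ≤ 2 ^ N := Nat.lt_two_pow_self
    exact_mod_cast this
  have h2 : (0 : ℝ) < N + 1 := by positivity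
  rw [le_div_iff₀ h2, one_div, inv_pow]
  have e : (12 : ℝ) ^ N = 6 ^ N * 2 ^ N := by rw [← mul_pow]; norm_num
  rw [e, mul_inv, mul_assoc]
  have h3 : ((2 : ℝ) ^ N)⁻¹ * (N + 1) ≤ 1 := by
    rw [inv_mul_le_iff₀ (by positivity), mul_one]; exact h1
  have h4 : (0 : ℝ) ≤ (6 ^ N)⁻¹ := by positivity
  nlinarith

lemma NI_le (n : ℕ) (p : P2 × P2) (h : I.Fr n → ℝ) : NI I n p h ≤ (I.Fr n).card := by
  unfold NI cnum
  split_ifs
  · simpa using Finset.card_le_univ (Kor620.sset (I.Fr n) (xe I n) p.2 (Kor620.gam p.1) h)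
  · simpa using Finset.card_le_univ (Kor620.sset (I.Fr n) (-(xe I n)) p.2 (Kor620.gam p.1) (-h))

lemma measurable_pow_NI (n : ℕ) (p : P2 × P2) : Measurable fun h => (12 : ℝ) ^ NI I n p h :=
  (measurable_from_top (f := fun k : ℕ => (12 : ℝ) ^ k)).comp (measurable_NI I n p)

/-- Korn, in terms of `12 ^ N` -/
theorem korn_inst {ε : ℝ} (hε : 0 < ε) : ∀ᶠ n in atTop, ∀ P, PairsOff I ε n P →
    ∀ Y : (I.Fr n → ℝ) → (I.Fr n → ℝ), NiceF I n Y →
    ∑ p ∈ P, ∫ h, (12 ^ NI I n p h)⁻¹ * |gr Y p.1 p.2 h| ^ 2 ∂(I.P0 n) ≤ 1200 * EnI n Y := by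
  filter_upwards [latFam_inst I hε] with n hn P hP Y hY
  have h1 := KorE761.korn_lattice (I.anch n) (latE_inst I n) (fullE_inst I n) (abs_xe_le I n)
    (hn P hP) (l := 0) (ε := 0) (fun x => by simp) (by norm_num) 0 hY.smooth hY.rigid_xe
  rw [lawT_zero] at h1
  refine le_trans (sum_le_sum fun p _ => ?_) h1
  have hc : Continuous (gr Y p.1 p.2) := (KorE761.contDiff_gr hY.smooth p.1 p.2).continuous
  obtain ⟨C, hC⟩ := hY.bdd p.1 p.2
  have hm1 : Measurable fun h => ((12 : ℝ) ^ NI I n p h)⁻¹ := (measurable_pow_NI n p).inv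
  have hm2 : Measurable fun h => ((1 : ℝ) / 6) ^ NI I n p h / (NI I n p h + 1) :=
    (measurable_from_top (f := fun k : ℕ => ((1 : ℝ) / 6) ^ k / (k + 1))).comp (measurable_NI I n p)
  have hg2 : ∀ h, |gr Y p.1 p.2 h| ^ 2 ≤ C ^ 2 := fun h => pow_le_pow_left₀ (abs_nonneg _) (hC h) 2
  refine integral_mono ?_ ?_ fun h => ?_
  · refine int_of_bdd (hm1.mul ((hY.measurable_gr p.1 p.2).abs.pow_const 2)) (C := C ^ 2) fun h => ?_
    rw [abs_of_nonneg (by positivity)]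
    calc ((12 : ℝ) ^ NI I n p h)⁻¹ * |gr Y p.1 p.2 h| ^ 2 ≤ 1 * C ^ 2 := by
          have : ((12 : ℝ) ^ NI I n p h)⁻¹ ≤ 1 := inv_le_one_of_one_le₀ (one_le_pow₀ (by norm_num))
          exact mul_le_mul this (hg2 h) (by positivity) zero_le_one
      _ = C ^ 2 := one_mul _
  · refine int_of_bdd (hm2.mul ((hY.measurable_gr p.1 p.2).pow_const 2)) (C := C ^ 2) fun h => ?_
    rw [abs_of_nonneg (by positivity)]
    have h3 : ((1 : ℝ) / 6) ^ NI I n p h / (NI I n p h + 1) ≤ 1 := by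
      rw [div_le_one (by positivity)]
      have : ((1 : ℝ) / 6) ^ NI I n p h ≤ 1 := pow_le_one₀ (by norm_num) (by norm_num)
      have h4 : (0 : ℝ) ≤ NI I n p h := Nat.cast_nonneg _
      linarith
    have h5 := hg2 h
    rw [sq_abs] at h5
    calc ((1 : ℝ) / 6) ^ NI I n p h / (NI I n p h + 1) * gr Y p.1 p.2 h ^ 2 ≤ 1 * C ^ 2 :=
          mul_le_mul h3 h5 (by positivity) zero_le_one
      _ = C ^ 2 := one_mul _
  · simp only
    rw [sq_abs]
    exact mul_le_mul_of_nonneg_right (inv_pow_le _) (sq_nonneg _)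

/-- number of free sites -/
theorem card_bound : ∃ R : ℝ, 1 ≤ R ∧ ∀ᶠ n in atTop, ((I.Fr n).card : ℝ) ≤ R / I.δ n ^ 2 := by
  obtain ⟨R, hR, h⟩ := pos_bound I
  refine ⟨(3 * R) ^ 2, by nlinarith, ?_⟩
  filter_upwards [h, delta_small I one_pos] with n hn hδ1
  have hδ := I.hM.1 n
  set W : ℕ := ⌊R / I.δ n⌋₊ with hW
  have hWR : (W : ℝ) ≤ R / I.δ n := Nat.floor_le (by positivity)
  have hsub : I.Fr n ⊆ Icc (-(W : ℤ)) (W : ℤ) ×ˢ Icc (-(W : ℤ)) (W : ℤ) := by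
    intro u hu
    have h1 := Nat.le_floor (hn u hu).1
    have h2 := Nat.le_floor (hn u hu).2
    rw [← hW] at h1 h2
    rw [mem_product, mem_Icc, mem_Icc]
    omega
  have h1 := card_le_card hsub
  rw [card_grid] at h1
  have h2 : ((I.Fr n).card : ℝ) ≤ (2 * (W : ℝ) + 1) ^ 2 := by exact_mod_cast h1
  have h3 : (1 : ℝ) ≤ R / I.δ n := by rw [le_div_iff₀ hδ]; linarith
  have h4 : 2 * (W : ℝ) + 1 ≤ 3 * (R / I.δ n) := by linarith
  calc ((I.Fr n).card : ℝ) ≤ (2 * (W : ℝ) + 1) ^ 2 := h2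
    _ ≤ (3 * (R / I.δ n)) ^ 2 := by gcongr
    _ = (3 * R) ^ 2 / I.δ n ^ 2 := by field_simp

/-- number of pairs -/
theorem card_pairs_bound {ε : ℝ} : ∃ C₀ : ℝ, 1 ≤ C₀ ∧ ∀ᶠ n in atTop, ∀ P, PairsOff I ε n P →
    I.δ n ^ 2 * (P.card : ℝ) ≤ C₀ := by
  classical
  obtain ⟨R, hR, h⟩ := card_bound (I := I)
  refine ⟨6 * R, by linarith, ?_⟩
  filter_upwards [h] with n hn P hP
  have hδ := I.hM.1 n
  have h1 : P.card ≤ 6 * (P.image Prod.fst).card := by
    refine card_le_mul_card_image P 6 fun z _ => ?_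
    exact (KorE761.card_adj_le P (fun p hp => (hP p hp).2.1) z).1
  have h2 : (P.image Prod.fst).card ≤ (I.Fr n).card := by
    refine card_le_card fun z hz => ?_
    obtain ⟨p, hp, rfl⟩ := mem_image.mp hz
    exact (hP p hp).1
  have h3 : (P.card : ℝ) ≤ 6 * (R / I.δ n ^ 2) := by
    have : (P.card : ℝ) ≤ 6 * ((I.Fr n).card : ℝ) := by
      exact_mod_cast h1.trans (Nat.mul_le_mul_left _ h2)
    linarith
  calc I.δ n ^ 2 * (P.card : ℝ) ≤ I.δ n ^ 2 * (6 * (R / I.δ n ^ 2)) := by gcongr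
    _ = 6 * R := by field_simp

lemma twelve_pow_k2_le (n : ℕ) : (12 : ℝ) ^ k2 I n ≤ rh I n := by
  have : 12 ^ k2 I n ≤ rh I n := by
    calc 12 ^ k2 I n ≤ (2 * 12) ^ (k2 I n) := Nat.pow_le_pow_left (by norm_num) _
      _ ≤ (2 * 12) ^ (4 * k2 I n) := Nat.pow_le_pow_right (by norm_num) (by omega)
      _ ≤ rh I n := pow_k2_le I n
  exact_mod_cast this

/-- tail in real form -/
lemma tail_real {n : ℕ} {p : P2 × P2}
    (h : I.P0 n {h | k2 I n < NI I n p h} ≤ ENNReal.ofReal (I.δ n ^ 18)) :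
    (I.P0 n).real {h | k2 I n < NI I n p h} ≤ I.δ n ^ 18 := by
  have hδ := I.hM.1 n
  rw [measureReal_def]
  exact ENNReal.toReal_le_of_le_ofReal (by positivity) h

/-- **crude bound of the second moment of a gradient** -/
theorem gr_crude {ε : ℝ} (hε : 0 < ε) : ∃ K : ℝ, 0 ≤ K ∧ ∀ᶠ n in atTop, ∀ p : P2 × P2,
    p.1 ∈ I.Fr n → Adj p.1 p.2 → Off I ε n p.1 →
    ∀ Y : (I.Fr n → ℝ) → (I.Fr n → ℝ), NiceF I n Y →
    ∫ h, |gr Y p.1 p.2 h| ^ 2 ∂(I.P0 n) ≤ K / I.δ n ^ 6 * EnI n Y := by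
  obtain ⟨R, hR, hcard⟩ := card_bound (I := I)
  refine ⟨16 * R ^ 3 + 9600, by positivity, ?_⟩
  filter_upwards [hcard, korn_inst (I := I) hε, (cnum_bounds I hε).1,
    delta_small I (show (0 : ℝ) < 1 / 4 by norm_num)] with n hcn hkn htn hδ4 p hp1 hp2 hoff Y hY
  have hδ := I.hM.1 n
  have hE := EnI_nonneg n Y
  have hP : PairsOff I ε n {p} := fun q hq => by
    rw [mem_singleton] at hq; subst hq; exact ⟨hp1, hp2, hoff⟩
  have hk := hkn {p} hP Y hY
  rw [sum_singleton] at hk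
  have htail := tail_real (htn p hp1 hp2 hoff)
  set A : Set (I.Fr n → ℝ) := {h | NI I n p h ≤ k2 I n} with hA
  have hAm : MeasurableSet A := measurableSet_le (measurable_NI I n p) measurable_const
  have hAc : Aᶜ = {h | k2 I n < NI I n p h} := by
    ext h; simp [hA]
  obtain ⟨C, hC⟩ := hY.bdd p.1 p.2
  have hC2 : ∀ h, |gr Y p.1 p.2 h| ^ 2 ≤ C ^ 2 := fun h =>
    pow_le_pow_left₀ (abs_nonneg _) (hC h) 2
  have h1 := crude_abs (P := I.P0 n) (hY.measurable_gr p.1 p.2) ⟨C, hC⟩ hAm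
    (V := 8 * ((I.Fr n).card : ℝ) ^ 3 * EnI n Y) (K := rh I n * (1200 * EnI n Y))
    (by
      rw [hAc]
      refine htail.trans ?_
      calc I.δ n ^ 18 ≤ I.δ n ^ 1 := pow_le_pow_of_le_one hδ.le (by linarith) (by norm_num)
        _ ≤ 1 / 4 := by rw [pow_one]; exact hδ4.le)
    (gr_var hY p.1 p.2)
    (by
      have hi : Integrable (fun h => ((12 : ℝ) ^ NI I n p h)⁻¹ * |gr Y p.1 p.2 h| ^ 2) (I.P0 n) := by
        refine int_of_bdd ((measurable_pow_NI n p).inv.mul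
          ((hY.measurable_gr p.1 p.2).abs.pow_const 2)) (C := C ^ 2) fun h => ?_
        rw [abs_of_nonneg (by positivity)]
        calc ((12 : ℝ) ^ NI I n p h)⁻¹ * |gr Y p.1 p.2 h| ^ 2 ≤ 1 * C ^ 2 := by
              have : ((12 : ℝ) ^ NI I n p h)⁻¹ ≤ 1 :=
                inv_le_one_of_one_le₀ (one_le_pow₀ (by norm_num))
              exact mul_le_mul this (hC2 h) (by positivity) zero_le_one
          _ = C ^ 2 := one_mul _
      calc ∫ h, A.indicator (fun h => gr Y p.1 p.2 h ^ 2) h ∂(I.P0 n)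
          ≤ ∫ h, (rh I n : ℝ) * (((12 : ℝ) ^ NI I n p h)⁻¹ * |gr Y p.1 p.2 h| ^ 2) ∂(I.P0 n) := by
            refine integral_mono ?_ (hi.const_mul _) fun h => ?_
            · refine Integrable.indicator ?_ hAm
              exact int_of_bdd ((hY.measurable_gr p.1 p.2).pow_const 2) (C := C ^ 2) fun h => by
                rw [abs_pow]; exact hC2 h
            · by_cases hh : h ∈ A
              · rw [Set.indicator_of_mem hh]
                simp only
                have h2 : (12 : ℝ) ^ NI I n p h ≤ rh I n := by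
                  have h3 : (12 : ℝ) ^ NI I n p h ≤ 12 ^ k2 I n :=
                    pow_le_pow_right₀ (by norm_num) hh
                  exact h3.trans (twelve_pow_k2_le n)
                have h4 : 1 ≤ (rh I n : ℝ) * ((12 : ℝ) ^ NI I n p h)⁻¹ := by
                  rw [← div_eq_mul_inv, one_le_div (by positivity)]; exact h2
                rw [← mul_assoc, sq_abs]
                have := sq_nonneg (gr Y p.1 p.2 h)
                nlinarith
              · rw [Set.indicator_of_notMem hh]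
                positivity
        _ = rh I n * ∫ h, ((12 : ℝ) ^ NI I n p h)⁻¹ * |gr Y p.1 p.2 h| ^ 2 ∂(I.P0 n) :=
            integral_const_mul _ _
        _ ≤ _ := by gcongr)
  simp only [sq_abs]
  refine h1.trans ?_
  have hδ1 : I.δ n ≤ 1 := by linarith
  have h5 : ((I.Fr n).card : ℝ) ^ 3 ≤ R ^ 3 / I.δ n ^ 6 := by
    calc ((I.Fr n).card : ℝ) ^ 3 ≤ (R / I.δ n ^ 2) ^ 3 := by gcongr
      _ = R ^ 3 / I.δ n ^ 6 := by rw [div_pow, ← pow_mul]
  have h6 : (rh I n : ℝ) ≤ 2 / I.δ n ^ 6 := by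
    refine (rh_le I hδ1).trans ?_
    apply div_le_div_of_nonneg_left (by norm_num) (by positivity)
    calc I.δ n ^ 6 ≤ I.δ n ^ 1 := pow_le_pow_of_le_one hδ.le hδ1 (by norm_num)
      _ = Real.sqrt (I.δ n) * Real.sqrt (I.δ n) := by rw [pow_one, Real.mul_self_sqrt hδ.le]
      _ ≤ Real.sqrt (I.δ n) * 1 := by
          gcongr
          calc Real.sqrt (I.δ n) ≤ Real.sqrt 1 := Real.sqrt_le_sqrt hδ1
            _ = 1 := Real.sqrt_one
      _ = _ := mul_one _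
  calc 2 * (8 * ((I.Fr n).card : ℝ) ^ 3 * EnI n Y) + 4 * (rh I n * (1200 * EnI n Y))
      ≤ 2 * (8 * (R ^ 3 / I.δ n ^ 6) * EnI n Y) + 4 * ((2 / I.δ n ^ 6) * (1200 * EnI n Y)) := by
        gcongr
    _ = (16 * R ^ 3 + 9600) / I.δ n ^ 6 * EnI n Y := by ring

end Crest.Agent.R144.Uig714
end

-- ▼ part R144/Uig9_714
section

/-!
# R144 (S0197), block UIG (helper714), part 9: **UIG** and the `L¹` bound at Inst level

* `uig` : uniform integrability of the gradients of nice fields, off the marks;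
* `l1_bound` : `δ ∑ ∫ |∇Y| ≤ S √(∫ en Y + 1)`;
* `small_area` : small sets of edges carry little gradient.
-/

set_option autoImplicit false

namespace Crest.Agent.R144.Uig714

open MeasureTheory Finset Filter Topology
open Crest.Agent.R144.Uia714 Crest.Agent.R144.Skel144
open Crest.Agent.R144.Ham560 (ext ham nbr mem_nbr Fresh tight hamP measurableSet_ham ext_mem
  ext_notMem triE mem_triE mem_nbr_triE triXi mem_freeVerts' abs_triXi_le Anch ham_neg)
open Crest.Agent.R144.Kor620 (P2 nrm FullE cnum measurable_cnum)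
open Crest.Agent.R144.KorE761 (LatE LatFam latE_triE gr RigidW lawT)
open Crest.ProbabilityR.TriHeights Crest.ProbabilityR.HexHeights
open scoped BigOperators ENNReal NNReal

variable {I : Inst}

/-- the window moment, real form -/
theorem window_real {ε : ℝ} (hε : 0 < ε) {η : ℝ} (hη : 0 < η) : ∃ k₁ : ℕ, ∀ᶠ n in atTop,
    ∀ P, PairsOff I ε n P → I.δ n ^ 2 * ∑ p ∈ P, ∫ h, (if k₁ < NI I n p h ∧ NI I n p h ≤ k2 I n then
      (12 : ℝ) ^ NI I n p h else 0) ∂(I.P0 n) ≤ η := by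
  obtain ⟨k₁, _, h⟩ := (cnum_bounds I hε).2 η hη
  refine ⟨k₁, ?_⟩
  filter_upwards [h] with n hn P hP
  have hδ := I.hM.1 n
  have h1 := hn P hP
  have hm : ∀ p, Measurable fun h => (if k₁ < NI I n p h ∧ NI I n p h ≤ k2 I n then
      (12 : ℝ) ^ NI I n p h else 0) := fun p =>
    (measurable_from_top (f := fun k : ℕ => if k₁ < k ∧ k ≤ k2 I n then (12 : ℝ) ^ k else 0)).comp
      (measurable_NI I n p)
  have h0 : ∀ p h, 0 ≤ (if k₁ < NI I n p h ∧ NI I n p h ≤ k2 I n then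
      (12 : ℝ) ^ NI I n p h else 0) := fun p h => by split_ifs <;> positivity
  have h2 : ∀ p, ENNReal.ofReal (∫ h, (if k₁ < NI I n p h ∧ NI I n p h ≤ k2 I n then
      (12 : ℝ) ^ NI I n p h else 0) ∂(I.P0 n)) ≤
      ∫⁻ h, (if k₁ ≤ NI I n p h ∧ NI I n p h ≤ k2 I n then
        ((12 : ℕ) : ℝ≥0∞) ^ NI I n p h else 0) ∂(I.P0 n) := by
    intro p
    rw [ofReal_integral_eq_lintegral_ofReal]
    · refine lintegral_mono fun h => ?_
      by_cases hc : k₁ < NI I n p h ∧ NI I n p h ≤ k2 I n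
      · simp only [if_pos hc, if_pos (⟨hc.1.le, hc.2⟩ : k₁ ≤ NI I n p h ∧ NI I n p h ≤ k2 I n)]
        rw [ENNReal.ofReal_pow (by norm_num)]
        norm_num
      · simp only [if_neg hc, ENNReal.ofReal_zero]
        exact bot_le
    · refine int_of_bdd (hm p) (C := 12 ^ k2 I n) fun h => ?_
      rw [abs_of_nonneg (h0 p h)]
      split_ifs with hc
      · exact pow_le_pow_right₀ (by norm_num) hc.2
      · positivity
    · exact Eventually.of_forall (h0 p)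
  rw [← ENNReal.ofReal_le_ofReal_iff hη.le]
  refine le_trans (le_of_eq ?_) (le_trans (mul_le_mul' le_rfl (sum_le_sum fun p _ => h2 p)) h1)
  rw [ENNReal.ofReal_mul (by positivity), ENNReal.ofReal_sum_of_nonneg]
  exact fun p _ => integral_nonneg (h0 p)

/-- the common application of `ui_abs` -/
theorem ui_inst {ε : ℝ} (hε : 0 < ε) : ∃ K C₀ : ℝ, 0 ≤ K ∧ 1 ≤ C₀ ∧ ∀ η₁ : ℝ, 0 < η₁ →
    ∃ k₁ : ℕ, ∀ᶠ n in atTop, I.δ n < 1 ∧ ∀ P, PairsOff I ε n P → I.δ n ^ 2 * (P.card : ℝ) ≤ C₀ ∧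
      ∀ Y : (I.Fr n → ℝ) → (I.Fr n → ℝ), NiceF I n Y → ∀ (t Λ η₂ : ℝ), EnI n Y ≤ t → 0 < Λ →
      0 ≤ η₂ → K * t * I.δ n ^ 10 ≤ η₂ ^ 2 →
      I.δ n * ∑ p ∈ P, ∫ h, (if Λ * I.δ n < |gr Y p.1 p.2 h| then |gr Y p.1 p.2 h| else 0) ∂(I.P0 n) ≤
        12 ^ k₁ * (1200 * t) / Λ + Real.sqrt (1200 * t * η₁) + C₀ * η₂ := by
  obtain ⟨K, hK, hcr⟩ := gr_crude (I := I) hε
  obtain ⟨C₀, hC₀, hcard⟩ := card_pairs_bound (I := I) (ε := ε)
  refine ⟨K, C₀, hK, hC₀, fun η₁ hη₁ => ?_⟩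
  obtain ⟨k₁, hwin⟩ := window_real (I := I) hε hη₁
  refine ⟨k₁, ?_⟩
  filter_upwards [hcr, hcard, hwin, korn_inst (I := I) hε, (cnum_bounds I hε).1,
    delta_small I one_pos] with n hcr hcard hwin hkn htn hδ1
  refine ⟨hδ1, fun P hP => ⟨hcard P hP, fun Y hY t Λ η₂ ht hΛ hη₂ hsm => ?_⟩⟩
  have hδ := I.hM.1 n
  have hE := EnI_nonneg n Y
  have ht0 : 0 ≤ t := hE.trans ht
  refine ui_abs (P := I.P0 n) P (g := fun p h => |gr Y p.1 p.2 h|) (N := fun p => NI I n p)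
    (fun p => (hY.measurable_gr p.1 p.2).abs) (fun p h => abs_nonneg _)
    (fun p => hY.bdd p.1 p.2) (fun p => measurable_NI I n p)
    (Nmax := (I.Fr n).card) (fun p h => NI_le n p h) hδ (by norm_num) hΛ hη₂
    ((hkn P hP Y hY).trans (by gcongr)) (hwin P hP) (fun p hp => ?_) (hcard P hP)
  have h1 := hcr p (hP p hp).1 (hP p hp).2.1 (hP p hp).2.2 Y hY
  have h2 := tail_real (htn p (hP p hp).1 (hP p hp).2.1 (hP p hp).2.2)
  calc (∫ h, |gr Y p.1 p.2 h| ^ 2 ∂(I.P0 n)) * (I.P0 n).real {h | k2 I n < NI I n p h}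
      ≤ (K / I.δ n ^ 6 * EnI n Y) * I.δ n ^ 18 := by
        exact mul_le_mul h1 h2 measureReal_nonneg (by positivity)
    _ = K * EnI n Y * I.δ n ^ 10 * I.δ n ^ 2 := by field_simp
    _ ≤ K * t * I.δ n ^ 10 * I.δ n ^ 2 := by gcongr
    _ ≤ η₂ ^ 2 * I.δ n ^ 2 := by gcongr
    _ = (η₂ * I.δ n) ^ 2 := by ring

/-- **UIG**: uniform integrability of the gradients of nice fields, off the marks. -/
theorem uig {ε : ℝ} (hε : 0 < ε) (C : ℝ) {η : ℝ} (hη : 0 < η) : ∃ Λ : ℝ, 0 < Λ ∧ ∀ᶠ n in atTop,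
    ∀ P, PairsOff I ε n P → ∀ Y : (I.Fr n → ℝ) → (I.Fr n → ℝ), NiceF I n Y → EnI n Y ≤ C →
      I.δ n * ∑ p ∈ P, ∫ h, (if Λ * I.δ n < |gr Y p.1 p.2 h| then |gr Y p.1 p.2 h| else 0) ∂(I.P0 n) ≤
        η := by
  obtain ⟨K, C₀, hK, hC₀, H⟩ := ui_inst (I := I) hε
  set t : ℝ := max C 0 + 1 with ht
  have ht0 : 0 < t := by positivity
  have hCt : C ≤ t := (le_max_left _ _).trans (by linarith)
  set η₁ : ℝ := (η / 3) ^ 2 / (1200 * t) with hη₁
  obtain ⟨k₁, hk⟩ := H η₁ (by positivity)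
  set η₂ : ℝ := η / (3 * C₀) with hη₂
  have hη₂0 : 0 < η₂ := by positivity
  refine ⟨3 * (12 ^ k₁ * (1200 * t)) / η, by positivity, ?_⟩
  filter_upwards [hk, delta_small I (show 0 < min 1 (η₂ ^ 2 / (K * t + 1)) by positivity)]
    with n hn hδs P hP Y hY hE
  have hδ := I.hM.1 n
  have hδ1 : I.δ n < 1 := hδs.trans_le (min_le_left _ _)
  have hδ2 : I.δ n < η₂ ^ 2 / (K * t + 1) := hδs.trans_le (min_le_right _ _)
  have h1 := (hn.2 P hP).2 Y hY t (3 * (12 ^ k₁ * (1200 * t)) / η) η₂ (hE.trans hCt)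
    (by positivity) hη₂0.le (by
      rw [lt_div_iff₀ (by positivity)] at hδ2
      calc K * t * I.δ n ^ 10 ≤ K * t * I.δ n ^ 1 := by
            gcongr ?_ * ?_
            exact pow_le_pow_of_le_one hδ.le hδ1.le (by norm_num)
        _ ≤ η₂ ^ 2 := by
            rw [pow_one]
            nlinarith)
  refine h1.trans (le_of_eq ?_)
  have e1 : 12 ^ k₁ * (1200 * t) / (3 * (12 ^ k₁ * (1200 * t)) / η) = η / 3 := by
    field_simp
  have e2 : Real.sqrt (1200 * t * η₁) = η / 3 := by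
    rw [hη₁, mul_div_cancel₀ _ (by positivity)]
    exact Real.sqrt_sq (by positivity)
  have e3 : C₀ * η₂ = η / 3 := by rw [hη₂]; field_simp
  rw [e1, e2, e3]; ring

/-- pieces below the level -/
lemma sum_abs_split {n : ℕ} {P : Finset (P2 × P2)} {Y : (I.Fr n → ℝ) → (I.Fr n → ℝ)}
    (hY : NiceF I n Y) {Λ : ℝ} (hΛ : 0 ≤ Λ) :
    I.δ n * ∑ p ∈ P, ∫ h, |gr Y p.1 p.2 h| ∂(I.P0 n) ≤
      I.δ n * ∑ p ∈ P, ∫ h, (if Λ * I.δ n < |gr Y p.1 p.2 h| then |gr Y p.1 p.2 h| else 0) ∂(I.P0 n) +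
        Λ * (I.δ n ^ 2 * P.card) := by
  have hδ := I.hM.1 n
  have key : ∀ p : P2 × P2, ∫ h, |gr Y p.1 p.2 h| ∂(I.P0 n) ≤
      ∫ h, (if Λ * I.δ n < |gr Y p.1 p.2 h| then |gr Y p.1 p.2 h| else 0) ∂(I.P0 n) + Λ * I.δ n := by
    intro p
    obtain ⟨C, hC⟩ := hY.bdd p.1 p.2
    have hm := (hY.measurable_gr p.1 p.2).abs
    have i1 : Integrable (fun h => if Λ * I.δ n < |gr Y p.1 p.2 h| then |gr Y p.1 p.2 h| else 0)
        (I.P0 n) := by
      refine int_of_bdd (Measurable.ite (measurableSet_lt measurable_const hm) hm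
        measurable_const) (C := C) fun h => ?_
      split_ifs
      · rw [abs_abs]; exact hC h
      · rw [abs_zero]; exact (abs_nonneg _).trans (hC h)
    have i2 : Integrable (fun h => |gr Y p.1 p.2 h|) (I.P0 n) :=
      int_of_bdd hm (C := C) fun h => by rw [abs_abs]; exact hC h
    calc ∫ h, |gr Y p.1 p.2 h| ∂(I.P0 n)
        ≤ ∫ h, ((if Λ * I.δ n < |gr Y p.1 p.2 h| then |gr Y p.1 p.2 h| else 0) + Λ * I.δ n)
            ∂(I.P0 n) := by
          refine integral_mono i2 (i1.add (integrable_const _)) fun h => ?_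
          have h0 : 0 ≤ Λ * I.δ n := by positivity
          simp only
          split_ifs with hc
          · linarith
          · linarith
      _ = _ := by
          rw [integral_add i1 (integrable_const _), integral_const, probReal_univ, one_smul]
  calc I.δ n * ∑ p ∈ P, ∫ h, |gr Y p.1 p.2 h| ∂(I.P0 n)
      ≤ I.δ n * ∑ p ∈ P, (∫ h, (if Λ * I.δ n < |gr Y p.1 p.2 h| then |gr Y p.1 p.2 h| else 0)
          ∂(I.P0 n) + Λ * I.δ n) := by
        gcongr with p hp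
        exact key p
    _ = _ := by
        rw [sum_add_distrib, sum_const, nsmul_eq_mul]; ring

/-- **`L¹` bound of the gradients** -/
theorem l1_bound {ε : ℝ} (hε : 0 < ε) : ∃ S : ℝ, 0 < S ∧ ∀ᶠ n in atTop,
    ∀ P, PairsOff I ε n P → ∀ Y : (I.Fr n → ℝ) → (I.Fr n → ℝ), NiceF I n Y →
      I.δ n * ∑ p ∈ P, ∫ h, |gr Y p.1 p.2 h| ∂(I.P0 n) ≤ S * Real.sqrt (EnI n Y + 1) := by
  obtain ⟨K, C₀, hK, hC₀, H⟩ := ui_inst (I := I) hε
  obtain ⟨k₁, hk⟩ := H 1 one_pos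
  refine ⟨12 ^ k₁ * 1200 + Real.sqrt 1200 + C₀ * Real.sqrt K + C₀, by positivity, ?_⟩
  filter_upwards [hk] with n hn P hP Y hY
  have hδ := I.hM.1 n
  have hδ1 := hn.1
  have hE := EnI_nonneg n Y
  set s := Real.sqrt (EnI n Y + 1) with hs
  have hs0 : 0 < s := Real.sqrt_pos.mpr (by linarith)
  have hs2 : s ^ 2 = EnI n Y + 1 := Real.sq_sqrt (by linarith)
  have h1 := (hn.2 P hP).2 Y hY (EnI n Y + 1) s (Real.sqrt K * s) (by linarith) hs0
    (by positivity) (by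
      rw [mul_pow, Real.sq_sqrt hK, hs2]
      have : I.δ n ^ 10 ≤ 1 := pow_le_one₀ hδ.le hδ1.le
      have h2 : 0 ≤ K * (EnI n Y + 1) := by positivity
      nlinarith)
  refine (sum_abs_split hY hs0.le).trans ?_
  have h3 := (hn.2 P hP).1
  have e1 : 12 ^ k₁ * (1200 * (EnI n Y + 1)) / s = 12 ^ k₁ * 1200 * s := by
    rw [← hs2]; field_simp
  have e2 : Real.sqrt (1200 * (EnI n Y + 1) * 1) = Real.sqrt 1200 * s := by
    rw [mul_one, Real.sqrt_mul (by norm_num)]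
  rw [e1, e2] at h1
  have h4 : s * (I.δ n ^ 2 * P.card) ≤ s * C₀ := by gcongr
  calc _ ≤ (12 ^ k₁ * 1200 * s + Real.sqrt 1200 * s + C₀ * (Real.sqrt K * s)) + s * C₀ :=
        add_le_add h1 h4
    _ = _ := by ring

/-- **small sets of edges carry little gradient** -/
theorem small_area {ε : ℝ} (hε : 0 < ε) (C : ℝ) {η : ℝ} (hη : 0 < η) : ∃ τ : ℝ, 0 < τ ∧
    ∀ᶠ n in atTop, ∀ P, PairsOff I ε n P → I.δ n ^ 2 * P.card ≤ τ →
      ∀ Y : (I.Fr n → ℝ) → (I.Fr n → ℝ), NiceF I n Y → EnI n Y ≤ C →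
      I.δ n * ∑ p ∈ P, ∫ h, |gr Y p.1 p.2 h| ∂(I.P0 n) ≤ η := by
  obtain ⟨Λ, hΛ, h⟩ := uig (I := I) hε C (half_pos hη)
  refine ⟨η / (2 * Λ), by positivity, ?_⟩
  filter_upwards [h] with n hn P hP hPc Y hY hE
  refine (sum_abs_split hY hΛ.le).trans ?_
  have h1 := hn P hP Y hY hE
  have h2 : Λ * (I.δ n ^ 2 * P.card) ≤ η / 2 := by
    calc Λ * (I.δ n ^ 2 * P.card) ≤ Λ * (η / (2 * Λ)) := by gcongr
      _ = η / 2 := by field_simp
  linarith

end Crest.Agent.R144.Uig714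
end

-- ▼ part R144/Uig10_714
section

/-!
# R144 (S0197), block APR (helper714): a-priori bound at Inst level

* `sum_dir` : sums over edges of one direction, off the marks, as sums over two `PairsOff` families;
* `X_plain` : `X_n x = ∑ w_v x_v`;
* `apr_lin` : `|∫ ∑ w_v Y_v| ≤ K √(EnI + 1)` for nice fields;
* `apr_energy` : if `0 ≤ 2 ∫ ∑ w_v Y_v - EnI + 1` then `EnI ≤ C`, and `2 ∫ ∑ w_v Y_v ≤ C`.
-/

set_option autoImplicit false

namespace Crest.Agent.R144.Uig714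

open MeasureTheory Finset Filter Topology
open Crest.Agent.R144.Uia714 Crest.Agent.R144.Skel144
open Crest.Agent.R144.Ham560 (ext ham nbr mem_nbr Fresh tight hamP measurableSet_ham ext_mem
  ext_notMem triE mem_triE mem_nbr_triE triXi mem_freeVerts' abs_triXi_le Anch ham_neg)
open Crest.Agent.R144.Kor620 (P2 nrm FullE cnum measurable_cnum)
open Crest.Agent.R144.KorE761 (LatE LatFam latE_triE gr RigidW lawT lab)
open Crest.ProbabilityR.TriHeights Crest.ProbabilityR.HexHeights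
open Crest.Agent.R144.Geo268 (wA)
open scoped BigOperators ENNReal NNReal ContDiff

variable {I : Inst}


lemma Adj.nrm_le {u v : P2} (h : Adj u v) : nrm (v - u) ≤ 1 := by
  rw [KorE761.nrm_le_iff]
  obtain ⟨u1, u2⟩ := u
  obtain ⟨v1, v2⟩ := v
  unfold Adj at h
  simp only [Prod.mk_sub_mk] at h ⊢
  omega

/-- `Off` moves a little -/
lemma Off.mono_of_near {ε ε' : ℝ} {n : ℕ} {u v : P2} (h : Off I ε n u) {r : ℕ}
    (hr : nrm (u - v) ≤ r) (he : ε' + 2 * (I.δ n * r) ≤ ε) : Off I ε' n v := by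
  have h1 := dist_centre_nrm (I.hM.1 n).le hr
  obtain ⟨h2, h3⟩ := h
  constructor
  · have := dist_triangle (centre (I.δ n) u) (centre (I.δ n) v) (I.γ 0)
    linarith
  · have := dist_triangle (centre (I.δ n) u) (centre (I.δ n) v) (I.γ I.θ)
    linarith

/-- sums over the edges of one direction -/
theorem sum_dir {ε0 : ℝ} (hε : 0 < ε0) : ∀ᶠ n in atTop, ∀ z : P2, (∀ x : P2, Adj x (x + z)) →
    ∀ K : Finset P2, (∀ x ∈ K, Off I ε0 n x) → ∃ Q1 Q2 : Finset (P2 × P2),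
      PairsOff I (ε0 / 2) n Q1 ∧ PairsOff I (ε0 / 2) n Q2 ∧ Q1.card ≤ K.card ∧ Q2.card ≤ K.card ∧
      ∀ Ψ : P2 × P2 → ℝ, (∀ u v, Ψ (v, u) = Ψ (u, v)) →
        (∀ u v, u ∉ I.Fr n → v ∉ I.Fr n → Ψ (u, v) = 0) →
        ∑ x ∈ K, Ψ (x, x + z) = ∑ p ∈ Q1, Ψ p + ∑ p ∈ Q2, Ψ p := by
  classical
  filter_upwards [delta_small I (show 0 < ε0 / 4 by positivity)] with n hn z hz K hK
  have hδ := I.hM.1 n
  have hinj1 : Function.Injective fun x : P2 => (x, x + z) := fun x y h => (Prod.mk.inj h).1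
  have hinj2 : Function.Injective fun x : P2 => (x + z, x) := fun x y h => (Prod.mk.inj h).2
  set K1 := K.filter fun x => x ∈ I.Fr n with hK1
  set K2 := K.filter fun x => ¬ x ∈ I.Fr n with hK2
  set K3 := K2.filter fun x => x + z ∈ I.Fr n with hK3
  refine ⟨K1.image fun x => (x, x + z), K3.image fun x => (x + z, x), ?_, ?_, ?_, ?_, ?_⟩
  · intro p hp
    obtain ⟨x, hx, rfl⟩ := mem_image.mp hp
    have h1 := mem_filter.mp hx
    refine ⟨h1.2, hz x, (hK x h1.1).mono_of_near (r := 0) (by simp [nrm]) ?_⟩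
    push_cast; linarith
  · intro p hp
    obtain ⟨x, hx, rfl⟩ := mem_image.mp hp
    have h1 := mem_filter.mp hx
    have h2 := mem_filter.mp h1.1
    refine ⟨h1.2, Kor620.adj_symm (hz x), (hK x h2.1).mono_of_near (r := 1) ?_ ?_⟩
    · exact (Adj.nrm_le (Kor620.adj_symm (hz x)))
    · push_cast; linarith
  · exact card_image_le.trans (card_le_card (filter_subset _ _))
  · exact card_image_le.trans (card_le_card ((filter_subset _ _).trans (filter_subset _ _)))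
  · intro Ψ hs h0
    rw [sum_image (fun a _ b _ h => hinj1 h), sum_image (fun a _ b _ h => hinj2 h),
      ← sum_filter_add_sum_filter_not K (fun x => x ∈ I.Fr n)]
    congr 1
    rw [← sum_filter_add_sum_filter_not K2 (fun x => x + z ∈ I.Fr n)]
    rw [← hK3]
    have h1 : ∑ x ∈ K2.filter (fun x => ¬ x + z ∈ I.Fr n), Ψ (x, x + z) = 0 := by
      refine sum_eq_zero fun x hx => ?_
      have h2 := mem_filter.mp hx
      exact h0 _ _ (mem_filter.mp h2.1).2 h2.2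
    rw [h1, add_zero]
    exact sum_congr rfl fun x _ => hs _ _

lemma tst (I : Inst) : Geo268.Tst I.D I.f := ⟨I.hf.continuous, I.hfc, I.hfs⟩

/-- the weights -/
theorem X_plain (I : Inst) : ∀ᶠ n in atTop, (∀ v, wA (I.δ n) I.f v ≠ 0 → v ∈ I.Fr n) ∧
    ∀ x : I.Fr n → ℝ, I.X n x = ∑ v : I.Fr n, wA (I.δ n) I.f v * x v := by
  filter_upwards [Geo268.tri_eventually I.hD I.hM (tst I)] with n hn
  refine ⟨hn.1, fun x => ?_⟩
  show affinePairing _ _ _ _ = _
  rw [hn.2, ← sum_coe_sort (I.Fr n)]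
  refine sum_congr rfl fun v _ => ?_
  rw [ext_mem v.2, mul_comm]

lemma lab_notMem {n : ℕ} (Y : (I.Fr n → ℝ) → (I.Fr n → ℝ)) {z : P2} (hz : z ∉ I.Fr n)
    (h : I.Fr n → ℝ) : lab Y z h = 0 := by
  unfold lab
  rw [ext_notMem hz]; rfl

lemma adj_d (k : Fin 3) (x : P2) : Adj x (x + Lat549.d k) := by
  obtain ⟨a, b⟩ := x
  unfold Adj Lat549.d
  fin_cases k <;> simp

lemma abs_gr_comm {n : ℕ} (Y : (I.Fr n → ℝ) → (I.Fr n → ℝ)) (u v : P2) (h : I.Fr n → ℝ) :
    |gr Y u v h| = |gr Y v u h| := by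
  unfold gr
  exact abs_sub_comm _ _

lemma gr_zero {n : ℕ} (Y : (I.Fr n → ℝ) → (I.Fr n → ℝ)) {u v : P2} (hu : u ∉ I.Fr n)
    (hv : v ∉ I.Fr n) (h : I.Fr n → ℝ) : gr Y u v h = 0 := by
  unfold gr
  rw [lab_notMem Y hu, lab_notMem Y hv, sub_zero]

/-- **the linear functional is small against the energy** -/
theorem apr_lin (I : Inst) : ∃ K : ℝ, 0 < K ∧ ∀ᶠ n in atTop,
    ∀ Y : (I.Fr n → ℝ) → (I.Fr n → ℝ), NiceF I n Y →
      ∫ h, |∑ v : I.Fr n, wA (I.δ n) I.f v * Y h v| ∂(I.P0 n) ≤ K * Real.sqrt (EnI n Y + 1) := by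
  obtain ⟨N, J, C, ρ, -, -, -, -, -, -, -, hC, hρ, -, -, -, hF, -, hev⟩ :=
    Lat549.exists_lattice_flow I.hD I.hM I.hφ I.hbij (f := I.f)
      ⟨I.hf, I.hfc, I.hfs⟩ (ε := 1) one_pos
  obtain ⟨S, hS, hl1⟩ := l1_bound (I := I) (show 0 < ρ / 2 / 2 by positivity)
  refine ⟨6 * (C * S) + 1, by positivity, ?_⟩
  filter_upwards [hev, hl1, sum_dir (I := I) (show 0 < ρ / 2 by positivity), X_plain I]
    with n ⟨_, hdiv, hmark, _⟩ hl1 hsd hX Y hY
  have hδ := I.hM.1 n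
  set F : Fin 3 → P2 → ℝ := fun k v => Lat549.latF (I.δ n) J k v with hFd
  -- the flow form
  have e1 : ∀ h, ∑ v : I.Fr n, wA (I.δ n) I.f v * Y h v =
      ∑ k, ∑ v ∈ Lat549.edg (I.Fr n) k, F k v * gr Y v (v + Lat549.d k) h := by
    intro h
    have h1 : ∑ v : I.Fr n, wA (I.δ n) I.f v * Y h v =
        ∑ v ∈ I.Fr n, wA (I.δ n) I.f v * lab Y v h := by
      rw [← sum_coe_sort (I.Fr n)]
      refine sum_congr rfl fun v _ => ?_
      unfold lab
      rw [ext_mem v.2]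
    rw [h1, Lat549.sum_by_parts (F := F) (Y := fun v => lab Y v h)]
    · rfl
    · exact fun v hv => lab_notMem Y hv h
    · exact fun v hv => hdiv v (mem_freeVerts'.mp hv).1
  -- restriction to the sites off the marks
  classical
  set K : Fin 3 → Finset P2 := fun k => (Lat549.edg (I.Fr n) k).filter fun v =>
    Off I (ρ / 2) n v with hK
  have e2 : ∀ h, |∑ v : I.Fr n, wA (I.δ n) I.f v * Y h v| ≤
      ∑ k, ∑ v ∈ K k, C * I.δ n * |gr Y v (v + Lat549.d k) h| := by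
    intro h
    rw [e1 h]
    refine (abs_sum_le_sum_abs _ _).trans (sum_le_sum fun k _ => ?_)
    refine (abs_sum_le_sum_abs _ _).trans ?_
    have h1 : ∑ v ∈ Lat549.edg (I.Fr n) k, |F k v * gr Y v (v + Lat549.d k) h| =
        ∑ v ∈ K k, |F k v * gr Y v (v + Lat549.d k) h| := by
      symm
      refine sum_subset (filter_subset _ _) fun v hv hv' => ?_
      have h2 : ¬ Off I (ρ / 2) n v := fun h3 => hv' (mem_filter.mpr ⟨hv, h3⟩)
      have h3 : F k v = 0 := by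
        refine hmark k v ?_
        unfold Off at h2
        rw [not_and_or, not_le, not_le] at h2
        rcases h2 with h2 | h2
        · exact Or.inl h2
        · exact Or.inr h2
      rw [h3, zero_mul, abs_zero]
    rw [h1]
    refine sum_le_sum fun v _ => ?_
    rw [abs_mul]
    exact mul_le_mul_of_nonneg_right (hF n k v) (abs_nonneg _)
  have hgi : ∀ u v, Integrable (fun h => |gr Y u v h|) (I.P0 n) := fun u v => by
    obtain ⟨c, hc⟩ := hY.bdd u v
    exact int_of_bdd ((hY.measurable_gr u v).abs) (C := c) fun h => by rw [abs_abs]; exact hc h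
  have hsum : ∀ k, Integrable (fun h => ∑ v ∈ K k, C * I.δ n * |gr Y v (v + Lat549.d k) h|)
      (I.P0 n) := fun k => integrable_finsetSum _ fun v _ => (hgi _ _).const_mul _
  have hsq : 0 ≤ Real.sqrt (EnI n Y + 1) := Real.sqrt_nonneg _
  have e3 : ∀ k, ∫ h, ∑ v ∈ K k, C * I.δ n * |gr Y v (v + Lat549.d k) h| ∂(I.P0 n) ≤
      C * (2 * (S * Real.sqrt (EnI n Y + 1))) := by
    intro k
    rw [integral_finsetSum _ fun v _ => (hgi _ _).const_mul _]
    obtain ⟨Q1, Q2, h1, h2, -, -, h3⟩ := hsd (Lat549.d k) (adj_d k) (K k)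
      fun v hv => (mem_filter.mp hv).2
    have h4 := h3 (fun p => ∫ h, C * I.δ n * |gr Y p.1 p.2 h| ∂(I.P0 n))
      (fun u v => by simp only [abs_gr_comm Y v u]) (fun u v hu hv => by
        simp only [gr_zero Y hu hv, abs_zero, mul_zero, integral_zero])
    simp only at h4
    rw [h4]
    simp only [integral_const_mul]
    rw [← mul_sum, ← mul_sum, mul_assoc, mul_assoc, ← mul_add]
    have h5 := hl1 Q1 h1 Y hY
    have h6 := hl1 Q2 h2 Y hY
    refine mul_le_mul_of_nonneg_left ?_ hC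
    linarith
  calc ∫ h, |∑ v : I.Fr n, wA (I.δ n) I.f v * Y h v| ∂(I.P0 n)
      ≤ ∫ h, ∑ k, ∑ v ∈ K k, C * I.δ n * |gr Y v (v + Lat549.d k) h| ∂(I.P0 n) := by
        refine integral_mono_of_nonneg (Eventually.of_forall fun h => abs_nonneg _)
          (integrable_finsetSum _ fun k _ => hsum k) (Eventually.of_forall e2)
    _ = ∑ k, ∫ h, ∑ v ∈ K k, C * I.δ n * |gr Y v (v + Lat549.d k) h| ∂(I.P0 n) :=
        integral_finsetSum _ fun k _ => hsum k
    _ ≤ ∑ _k : Fin 3, C * (2 * (S * Real.sqrt (EnI n Y + 1))) := sum_le_sum fun k _ => e3 k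
    _ = 6 * (C * S) * Real.sqrt (EnI n Y + 1) := by
        rw [sum_const, card_univ, Fintype.card_fin, nsmul_eq_mul]; push_cast; ring
    _ ≤ (6 * (C * S) + 1) * Real.sqrt (EnI n Y + 1) := by gcongr; linarith

/-- **a-priori bound**: fields which are almost optimal have bounded energy -/
theorem apr_energy (I : Inst) : ∃ C : ℝ, 0 < C ∧ ∀ᶠ n in atTop,
    ∀ Y : (I.Fr n → ℝ) → (I.Fr n → ℝ), NiceF I n Y →
      0 ≤ 2 * (∫ h, ∑ v : I.Fr n, wA (I.δ n) I.f v * Y h v ∂(I.P0 n)) - EnI n Y + 1 →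
      EnI n Y ≤ C ∧ 2 * (∫ h, ∑ v : I.Fr n, wA (I.δ n) I.f v * Y h v ∂(I.P0 n)) ≤ C := by
  obtain ⟨K, hK, h⟩ := apr_lin I
  refine ⟨(2 * K + 2) ^ 2 + 2 * K * (2 * K + 3), by positivity, ?_⟩
  filter_upwards [h] with n hn Y hY h0
  have h1 : |∫ h, ∑ v : I.Fr n, wA (I.δ n) I.f v * Y h v ∂(I.P0 n)| ≤
      K * Real.sqrt (EnI n Y + 1) := abs_integral_le_integral_abs.trans (hn Y hY)
  have hE := EnI_nonneg n Y
  set s := Real.sqrt (EnI n Y + 1) with hs
  have hs2 : s ^ 2 = EnI n Y + 1 := Real.sq_sqrt (by linarith)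
  have hs0 : 0 ≤ s := Real.sqrt_nonneg _
  have h2 := (abs_le.mp h1).2
  -- s² - 2 ≤ 2 K s
  have h3 : s ^ 2 ≤ 2 * K * s + 2 := by nlinarith
  have h4 : s ≤ 2 * K + 2 := by nlinarith
  constructor
  · nlinarith
  · nlinarith

end Crest.Agent.R144.Uig714
end

-- ▼ part R144/Uig11_714

/-!
# R144 (S0197), helper714: the geometric sets `Kx`, `Kc` and the gradient fields of `UpHyp`

* `Kx I ε0 n` (= 296's `KX` with `ρ = ε0`), `Kc I ε0 k n`;
* `Kc_sub`, `Kc_marg`, `Kc_area`, `Kc_layer` : `UpHyp.{sub, marg, area}` and the area of the layer;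
* `ex_dd` : gradients of `uf (δ⁻¹ • Y)` in terms of `gr Y`;
* `up_grad`, `up_ui`, `up_layer` : `UpHyp.{grad, ui, layer}`.
-/

set_option autoImplicit false

namespace Crest.Agent.R144.Uig714

open MeasureTheory Finset Filter Topology
open Crest.Agent.R144.Uia714 Crest.Agent.R144.Skel144
open Crest.Agent.R144.Ham560 (ext ham nbr mem_nbr Fresh tight hamP measurableSet_ham ext_mem
  ext_notMem triE mem_triE mem_nbr_triE triXi mem_freeVerts' abs_triXi_le Anch ham_neg)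
open Crest.Agent.R144.Kor620 (P2 nrm FullE cnum measurable_cnum)
open Crest.Agent.R144.KorE761 (LatE LatFam latE_triE gr RigidW lawT lab)
open Crest.ProbabilityR.TriHeights Crest.ProbabilityR.HexHeights
open Crest.Agent.R144.Geo268 (wA)
open Crest.Agent.R144.Upp296 (Ex KX mem_KX card_KX Bd dir)
open Crest.Agent.R144.Flat296 (dd)
open Crest.Agent.R144.Cnt268 (vc vc_pos vc_nonneg Sites)
open Crest.Agent.R144.Fa812 (uf)
open scoped BigOperators ENNReal NNReal ContDiff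

variable {I : Inst}

/-- the sites carrying gradients, at distance `≥ ε0` from the marks -/
noncomputable abbrev Kx (I : Inst) (ε0 : ℝ) (n : ℕ) : Finset P2 :=
  KX I.γ I.θ ε0 (I.δ n) (I.T n) (I.c n)

lemma mem_Kx {ε0 : ℝ} {n : ℕ} {x : P2} : x ∈ Kx I ε0 n ↔
    (x ∈ I.Fr n ∨ x + (1, 0) ∈ I.Fr n ∨ x + (0, 1) ∈ I.Fr n) ∧ Off I ε0 n x := mem_KX

open scoped Classical in
/-- the compact exhaustion -/
noncomputable def Kc (I : Inst) (ε0 : ℝ) (k n : ℕ) : Finset P2 :=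
  (I.Fr n).filter fun x => 1 / ((k : ℝ) + 1) ≤ Metric.infDist (centre (I.δ n) x) I.Dᶜ ∧
    Off I (ε0 + 1 / ((k : ℝ) + 1)) n x

lemma mem_Kc {ε0 : ℝ} {k n : ℕ} {x : P2} : x ∈ Kc I ε0 k n ↔
    x ∈ I.Fr n ∧ 1 / ((k : ℝ) + 1) ≤ Metric.infDist (centre (I.δ n) x) I.Dᶜ ∧
      Off I (ε0 + 1 / ((k : ℝ) + 1)) n x := by
  unfold Kc
  exact @mem_filter _ _ (_) _ _

lemma Off.anti {ε ε' : ℝ} {n : ℕ} {u : P2} (h : Off I ε n u) (he : ε' ≤ ε) : Off I ε' n u :=
  ⟨he.trans h.1, he.trans h.2⟩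

theorem Kc_sub (ε0 : ℝ) (k n : ℕ) : Kc I ε0 k n ⊆ Kx I ε0 n := by
  intro x hx
  rw [mem_Kc] at hx
  rw [mem_Kx]
  refine ⟨Or.inl hx.1, hx.2.2.anti ?_⟩
  have : 0 < 1 / ((k : ℝ) + 1) := by positivity
  linarith

/-- the sites structure -/
lemma sites (I : Inst) : Sites I.D I.δ I.Fr := Cnt268.sites_tri I.hD I.hM

/-- the compact sets -/
lemma isCompact_deep (I : Inst) {κ : ℝ} (hκ : 0 < κ) :
    IsCompact {z : ℂ | κ ≤ Metric.infDist z I.Dᶜ} ∧ {z : ℂ | κ ≤ Metric.infDist z I.Dᶜ} ⊆ I.D := by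
  have h1 : {z : ℂ | κ ≤ Metric.infDist z I.Dᶜ} ⊆ I.D := by
    intro z hz
    by_contra h
    have h2 : Metric.infDist z I.Dᶜ = 0 := Metric.infDist_zero_of_mem h
    have h3 : κ ≤ Metric.infDist z I.Dᶜ := hz
    linarith
  refine ⟨Metric.isCompact_of_isClosed_isBounded
    (isClosed_le continuous_const (Metric.continuous_infDist_pt _)) ?_, h1⟩
  exact (sites I).bdd.subset h1

lemma dist_centre_add {δ : ℝ} (hδ : 0 ≤ δ) (a z : P2) {L : ℕ} (h1 : |z.1| ≤ L) (h2 : |z.2| ≤ L) :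
    dist (centre δ (a + z)) (centre δ a) ≤ 2 * L * δ := by
  have e : centre δ (a + z) = centre δ a + centre δ z := Lat549.centre_add δ a z
  rw [e, dist_eq_norm, add_sub_cancel_left]
  refine Upp296.norm_centre_le hδ z ?_ ?_
  · exact_mod_cast h1
  · exact_mod_cast h2

theorem Kc_marg (ε0 : ℝ) (k L : ℕ) : ∀ᶠ n in atTop, ∀ a ∈ Kc I ε0 k n, ∀ z : P2, |z.1| ≤ L →
    |z.2| ≤ L → a + z ∈ Kc I ε0 (k + 1) n := by
  have hk : (0 : ℝ) < (k : ℝ) + 1 := by positivity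
  set κ : ℝ := 1 / ((k : ℝ) + 1) - 1 / ((k : ℝ) + 1 + 1) with hκ
  have hκ0 : 0 < κ := by
    rw [hκ, sub_pos]
    apply one_div_lt_one_div_of_lt hk; linarith
  have hd := isCompact_deep I (κ := 1 / ((k : ℝ) + 1 + 1)) (by positivity)
  filter_upwards [(sites I).inn _ hd.1 hd.2,
    delta_small I (show 0 < κ / (2 * (L + 1)) by positivity)] with n hn hδκ a ha z hz1 hz2
  have hδ := I.hM.1 n
  have hdist := dist_centre_add hδ.le a z hz1 hz2
  have hsm : 2 * L * I.δ n ≤ κ := by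
    rw [lt_div_iff₀ (by positivity)] at hδκ
    nlinarith
  rw [mem_Kc] at ha ⊢
  obtain ⟨ha1, ha2, ha3⟩ := ha
  have h1 : 1 / ((k : ℝ) + 1 + 1) ≤ Metric.infDist (centre (I.δ n) (a + z)) I.Dᶜ := by
    have h2 := Metric.infDist_le_infDist_add_dist (s := I.Dᶜ) (x := centre (I.δ n) a)
      (y := centre (I.δ n) (a + z))
    rw [dist_comm] at h2
    linarith
  push_cast
  refine ⟨hn _ h1, h1, ?_, ?_⟩
  · have h2 := dist_triangle (centre (I.δ n) a) (centre (I.δ n) (a + z)) (I.γ 0)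
    rw [dist_comm (centre (I.δ n) a) (centre (I.δ n) (a + z))] at h2
    have := ha3.1
    linarith
  · have h2 := dist_triangle (centre (I.δ n) a) (centre (I.δ n) (a + z)) (I.γ I.θ)
    rw [dist_comm (centre (I.δ n) a) (centre (I.δ n) (a + z))] at h2
    have := ha3.2
    linarith

theorem Kc_area (I : Inst) (ε0 : ℝ) : ∃ Ca : ℝ, ∀ k, ∀ᶠ n in atTop,
    I.δ n ^ 2 * (Kc I ε0 k n).card ≤ Ca := by
  obtain ⟨R, hR, h⟩ := card_bound (I := I)
  refine ⟨R, fun k => ?_⟩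
  filter_upwards [h] with n hn
  have hδ := I.hM.1 n
  have h1 : ((Kc I ε0 k n).card : ℝ) ≤ (I.Fr n).card := by
    exact_mod_cast card_le_card (@filter_subset _ _ (_) _)
  calc I.δ n ^ 2 * ((Kc I ε0 k n).card : ℝ) ≤ I.δ n ^ 2 * (R / I.δ n ^ 2) := by gcongr; linarith
    _ = R := by field_simp


/-- number of sites in an annulus -/
lemma card_annulus {δ : ℝ} (hδ : 0 < δ) (p : ℂ) {r κ : ℝ} (hr : 2 * δ ≤ r) (hκ : 0 ≤ κ)
    {S : Finset P2} (hS : ∀ v ∈ S, r ≤ dist (centre δ v) p ∧ dist (centre δ v) p ≤ r + κ) :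
    (S.card : ℝ) * vc δ ≤ Real.pi * ((κ + 3 * δ) * (2 * r + κ)) := by
  have hr0 : 0 ≤ r - 2 * δ := by linarith
  have h1 : (S.card : ℝ) * vc δ ≤ volume.real (Metric.closedBall p (r + κ + δ) \
      Metric.closedBall p (r - 2 * δ)) := by
    refine Cnt268.card_mul_le hδ (Metric.isClosed_closedBall.measurableSet.diff
      Metric.isClosed_closedBall.measurableSet) ?_ fun v hv z hz => ?_
    · exact ne_top_of_le_ne_top (isCompact_closedBall p _).measure_lt_top.ne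
        (measure_mono Set.sdiff_subset)
    · have h2 := Metric.mem_closedBall.1 (Cnt268.cell_subset_ball hδ v hz)
      have h3 := dist_triangle z (centre δ v) p
      have h4 := dist_triangle (centre δ v) z p
      rw [dist_comm (centre δ v) z] at h4
      have h5 := hS v hv
      refine ⟨Metric.mem_closedBall.2 (by linarith), fun h6 => ?_⟩
      have := Metric.mem_closedBall.1 h6
      linarith
  refine h1.trans ?_
  rw [measureReal_sdiff (Metric.closedBall_subset_closedBall (by linarith))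
    Metric.isClosed_closedBall.measurableSet (isCompact_closedBall p _).measure_lt_top.ne,
    Cnt268.volume_real_closedBall p (by linarith), Cnt268.volume_real_closedBall p hr0, ← mul_sub]
  refine mul_le_mul_of_nonneg_left ?_ Real.pi_pos.le
  nlinarith

/-- **the layer is small in area** -/
theorem Kc_layer {ε0 : ℝ} (hε : 0 < ε0) {η : ℝ} (hη : 0 < η) : ∃ k : ℕ, ∀ᶠ n in atTop,
    I.δ n ^ 2 * ((Kx I ε0 n \ Kc I ε0 k n).card : ℝ) ≤ η := by
  classical
  have hpi := Real.pi_pos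
  set η1 : ℝ := η / 10 with hη1
  have hη10 : 0 < η1 := by positivity
  obtain ⟨K, hK, hKD, -, hlay⟩ := (sites I).layer hη10
  obtain ⟨r, hr, hrc, hrs⟩ := Cov353.exists_thick hK (sites I).opn hKD
  -- depth of `K`
  have hdeep : ∀ z ∈ K, r ≤ Metric.infDist z I.Dᶜ := by
    intro z hz
    by_contra h
    push Not at h
    have hne : (I.Dᶜ).Nonempty := by
      by_contra h0
      rw [Set.not_nonempty_iff_eq_empty] at h0
      have h1 : I.D = Set.univ := by rw [← compl_compl I.D, h0, Set.compl_empty]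
      have h2 := (sites I).volume_ne_top
      rw [h1] at h2
      exact h2 (by simp)
    obtain ⟨w, hw, hzw⟩ := (Metric.infDist_lt_iff hne).1 h
    refine hw (hrs (Metric.mem_cthickening_of_dist_le w z r K hz ?_))
    rw [dist_comm]; exact hzw.le
  -- choice of `k`
  obtain ⟨k, hk⟩ := exists_nat_one_div_lt (show 0 < min r (min 1 (η1 / (Real.pi * (2 * ε0 + 1) * 2)))
    by positivity)
  have hk1 : 1 / ((k : ℝ) + 1) < r := hk.trans_le (min_le_left _ _)
  have hk2 : 1 / ((k : ℝ) + 1) < 1 := hk.trans_le ((min_le_right _ _).trans (min_le_left _ _))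
  have hk3 : 1 / ((k : ℝ) + 1) < η1 / (Real.pi * (2 * ε0 + 1) * 2) :=
    hk.trans_le ((min_le_right _ _).trans (min_le_right _ _))
  have hk0 : 0 < 1 / ((k : ℝ) + 1) := by positivity
  refine ⟨k, ?_⟩
  filter_upwards [hlay, (sites I).near 1 hη10, delta_small I (show 0 < ε0 / 2 by positivity),
    delta_small I (show 0 < η1 / (Real.pi * (2 * ε0 + 1) * 6) by positivity)]
    with n hlay hnear hδ1 hδ2
  have hδ := I.hM.1 n
  set κ := 1 / ((k : ℝ) + 1) with hκ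
  set S := Kx I ε0 n \ Kc I ε0 k n with hS
  set A1 := (I.Fr n).filter fun x => centre (I.δ n) x ∉ K with hA1
  set Bn := (I.Fr n).filter fun v => ∃ w : P2, w ∉ I.Fr n ∧ |w.1 - v.1| ≤ (1 : ℕ) ∧
    |w.2 - v.2| ≤ (1 : ℕ) with hBn
  set A3 := S.filter fun x => ε0 ≤ dist (centre (I.δ n) x) (I.γ 0) ∧
    dist (centre (I.δ n) x) (I.γ 0) ≤ ε0 + κ with hA3
  set A4 := S.filter fun x => ε0 ≤ dist (centre (I.δ n) x) (I.γ I.θ) ∧
    dist (centre (I.δ n) x) (I.γ I.θ) ≤ ε0 + κ with hA4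
  have c1 : (A1.card : ℝ) * vc (I.δ n) ≤ η1 := hlay A1 (filter_subset _ _) fun v hv =>
    (mem_filter.mp hv).2
  have c2 : (Bn.card : ℝ) * vc (I.δ n) ≤ η1 := hnear Bn (filter_subset _ _) fun v hv =>
    (mem_filter.mp hv).2
  have hann : Real.pi * ((κ + 3 * I.δ n) * (2 * ε0 + κ)) ≤ η1 := by
    rw [lt_div_iff₀ (by positivity)] at hk3 hδ2
    have h1 : (κ + 3 * I.δ n) * (2 * ε0 + κ) ≤ (κ + 3 * I.δ n) * (2 * ε0 + 1) := by
      gcongr
    have h2 := mul_le_mul_of_nonneg_left h1 hpi.le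
    nlinarith
  have c3 : (A3.card : ℝ) * vc (I.δ n) ≤ η1 :=
    (card_annulus hδ (I.γ 0) (by linarith) hk0.le fun v hv => (mem_filter.mp hv).2).trans hann
  have c4 : (A4.card : ℝ) * vc (I.δ n) ≤ η1 :=
    (card_annulus hδ (I.γ I.θ) (by linarith) hk0.le fun v hv => (mem_filter.mp hv).2).trans hann
  have hcov : S ⊆ A1 ∪ (Bn.image (fun v => v - (1, 0)) ∪ Bn.image (fun v => v - (0, 1))) ∪
      (A3 ∪ A4) := by
    intro x hx
    have hxS := hx
    obtain ⟨hx1, h2⟩ := Finset.mem_sdiff.mp hx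
    obtain ⟨h1, hoff⟩ := mem_Kx.mp hx1
    rw [mem_Kc] at h2
    by_cases hxF : x ∈ I.Fr n
    · by_cases hxK : centre (I.δ n) x ∈ K
      · have h3 : ¬ Off I (ε0 + κ) n x := fun h4 => h2 ⟨hxF, hk1.le.trans (hdeep _ hxK), h4⟩
        unfold Off at h3
        rw [not_and_or, not_le, not_le] at h3
        refine mem_union_right _ ?_
        rcases h3 with h3 | h3
        · exact mem_union_left _ (mem_filter.mpr ⟨hxS, hoff.1, h3.le⟩)
        · exact mem_union_right _ (mem_filter.mpr ⟨hxS, hoff.2, h3.le⟩)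
      · exact mem_union_left _ (mem_union_left _ (mem_filter.mpr ⟨hxF, hxK⟩))
    · refine mem_union_left _ (mem_union_right _ ?_)
      rcases h1 with h1 | h1 | h1
      · exact absurd h1 hxF
      · refine mem_union_left _ (mem_image.mpr ⟨x + (1, 0), mem_filter.mpr ⟨h1, x, hxF, ?_, ?_⟩,
          add_sub_cancel_right _ _⟩)
        · simp
        · simp
      · refine mem_union_right _ (mem_image.mpr ⟨x + (0, 1), mem_filter.mpr ⟨h1, x, hxF, ?_, ?_⟩,
          add_sub_cancel_right _ _⟩)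
        · simp
        · simp
  have hcard : S.card ≤ A1.card + (Bn.card + Bn.card) + (A3.card + A4.card) := by
    refine (card_le_card hcov).trans ?_
    refine (card_union_le _ _).trans (add_le_add ((card_union_le _ _).trans
      (add_le_add le_rfl ((card_union_le _ _).trans (add_le_add card_image_le card_image_le))))
      (card_union_le _ _))
  have hcard' : (S.card : ℝ) ≤ A1.card + (Bn.card + Bn.card) + (A3.card + A4.card) := by
    exact_mod_cast hcard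
  have hvc : I.δ n ^ 2 ≤ 2 * vc (I.δ n) := by
    unfold vc
    have h3 : (1 : ℝ) ≤ Real.sqrt 3 := by
      apply Real.le_sqrt_of_sq_le; norm_num
    nlinarith [sq_nonneg (I.δ n)]
  have hv0 := vc_nonneg (I.δ n)
  calc I.δ n ^ 2 * (S.card : ℝ) ≤ 2 * vc (I.δ n) * S.card := by gcongr
    _ ≤ 2 * vc (I.δ n) * (A1.card + (Bn.card + Bn.card) + (A3.card + A4.card)) := by gcongr
    _ = 2 * (A1.card * vc (I.δ n) + 2 * (Bn.card * vc (I.δ n)) + A3.card * vc (I.δ n) +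
        A4.card * vc (I.δ n)) := by ring
    _ ≤ 2 * (η1 + 2 * η1 + η1 + η1) := by gcongr
    _ = η := by rw [hη1]; ring

end Crest.Agent.R144.Uig714
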