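import Crest.Agent.R144.Lc14_279
import Crest.Agent.R144.LCL_121
import Crest.Agent.R144.Cnt2_268
import Crest.Agent.R144.Upp5_296
import Crest.Agent.R144.Skel97_144

-- ▼ part R144/Lc15_279
section

/-!
R144 (S0197), helper279.  Block LC, file 15: sequences of lattice systems exhausting a domain: the law
of large numbers in expectation, with box averages and with continuous weights.
-/

set_option autoImplicit false
set_option linter.unusedSectionVars false
set_option linter.unusedVariables false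

open MeasureTheory Set Filter Topology Metric
open scoped ENNReal

noncomputable section

namespace Crest.Agent.R144.Lc279

open Crest.Agent.R144.Ham560
open Crest.Agent.R144.Lw425 (hd hd_comm hd_le_iff mem_hball hball mem_inn inn mem_sph sph hd_self
  hd_triangle hd_pos hd_adj LObs IsMu0 exists_mu0' bav)
open Crest.ProbabilityR.HexHeights (centre)
open Crest.Agent.R144.Cnt268 (Sites vc)

section pin

variable {U : Type*} [DecidableEq U] {F : Finset U} {E : Finset (U × U)} {ξ : U → ℝ}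

/-- Free sites adjacent to a site which is not free. -/
def bdr (F : Finset U) (E : Finset (U × U)) : Finset U := F.filter fun v => ∃ u ∈ nbr E v, u ∉ F

theorem mem_bdr {v : U} : v ∈ bdr F E ↔ v ∈ F ∧ ∃ u ∈ nbr E v, u ∉ F := by
  rw [bdr, Finset.mem_filter]

/-- Comparison of the partition functions. -/
theorem pin0 (hξ : ∀ u, |ξ u| ≤ 1 / 2) :
    volume (ham F E 0) ≤ 2 ^ (bdr F E).card * volume (ham F E ξ) := by
  have h1 := LcB460.ham_pin (F := F) (E := E) (B := bdr F E) (Finset.filter_subset _ _) (n := 1)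
    (e := 1 / 2) (by norm_num) (by norm_num) (by
      intro x hx y hy
      obtain ⟨_, u, hu, huF⟩ := mem_bdr.mp hy
      rw [mem_nbr] at hu
      have e1 : ext F 0 x (y : U) = x y := by rw [ext_mem y.2]
      have e2 : ext F 0 x u = 0 := by rw [ext_notMem huF]; rfl
      rcases hu.2 with h2 | h2
      · have := hx _ h2
        simp only [e1, e2, sub_zero] at this
        exact this
      · have := hx _ h2
        simp only [e1, e2, zero_sub, abs_neg] at this
        exact this)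
  have h2 : ham F E 0 ∩ LcB460.near F (bdr F E) 0 (1 / 2) ⊆ ham F E ξ := by
    rintro x ⟨hx, hx'⟩ p hp
    have key : ∀ a b : U, (a, b) ∈ E ∨ (b, a) ∈ E → a ∈ F → b ∉ F →
        |ext F ξ x a - ext F ξ x b| ≤ 1 := by
      intro a b hab ha hb
      have hne : b ≠ a := fun h => hb (h ▸ ha)
      have hbd : a ∈ bdr F E := mem_bdr.mpr ⟨ha, b, mem_nbr.mpr ⟨hne, hab⟩, hb⟩
      have h3 := hx' ⟨a, ha⟩ hbd
      rw [ext_mem ha, ext_notMem hb]
      simp only [Pi.zero_apply, sub_zero] at h3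
      have h4 := abs_sub (x ⟨a, ha⟩) (ξ b)
      linarith [hξ b]
    by_cases h1' : p.1 ∈ F
    · by_cases h2' : p.2 ∈ F
      · have h3 := hx p hp
        rw [ext_mem h1', ext_mem h2'] at h3 ⊢
        exact h3
      · exact key _ _ (Or.inl hp) h1' h2'
    · by_cases h2' : p.2 ∈ F
      · rw [abs_sub_comm]
        exact key _ _ (Or.inr hp) h2' h1'
      · rw [ext_notMem h1', ext_notMem h2']
        have h4 := abs_sub (ξ p.1) (ξ p.2)
        linarith [hξ p.1, hξ p.2]
  have h3 := h1.trans (measure_mono h2)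
  have e1 : ENNReal.ofReal (1 / 2 / 1) = 2⁻¹ := by
    rw [div_one, one_div, ENNReal.ofReal_inv_of_pos (by norm_num)]
    norm_num
  rw [e1] at h3
  have h4 := mul_le_mul' (le_refl ((2 : ℝ≥0∞) ^ (bdr F E).card)) h3
  rw [← mul_assoc, ← mul_pow, ENNReal.mul_inv_cancel (by norm_num) (by norm_num), one_pow,
    one_mul] at h4
  exact h4

end pin

/-! ### Sequences of systems -/

/-- Lattice systems exhausting the domain `D`. -/
structure Sq (D : Set ℂ) (δ : ℕ → ℝ) (F : ℕ → Finset P2) (E : ℕ → Finset (P2 × P2))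
    (ξ : ℕ → P2 → ℝ) : Prop where
  sites : Sites D δ F
  gch : ∀ n, GCh (F n) (E n) (F n) id univ
  anch : ∀ n, Anch (F n) (E n)
  data : ∀ n u, |ξ n u| ≤ 1 / 2
  ne : D.Nonempty

variable {D : Set ℂ} {δ : ℕ → ℝ} {F : ℕ → Finset P2} {E : ℕ → Finset (P2 × P2)} {ξ : ℕ → P2 → ℝ}

theorem Sq.area_pos (h : Sq D δ F E ξ) : 0 < volume.real D :=
  ENNReal.toReal_pos (h.sites.opn.measure_pos volume h.ne).ne' h.sites.volume_ne_top

/-- lower bound for the number of sites -/
theorem Sq.card_lower (h : Sq D δ F E ξ) :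
    ∃ c0 : ℝ, 0 < c0 ∧ ∀ᶠ n in atTop, c0 ≤ δ n ^ 2 * ((F n).card : ℝ) := by
  have h1 := h.sites.card'
  have h2 : 0 < 2 / Real.sqrt 3 * volume.real D := mul_pos (by positivity) h.area_pos
  refine ⟨2 / Real.sqrt 3 * volume.real D / 2, by positivity, ?_⟩
  exact (h1.eventually (lt_mem_nhds (half_lt_self h2))).mono fun n hn => hn.le

theorem Sq.card_large (h : Sq D δ F E ξ) (A : ℝ) : ∀ᶠ n in atTop, A ≤ ((F n).card : ℝ) := by
  obtain ⟨c0, hc0, h1⟩ := h.card_lower
  have h2 : ∀ᶠ n in atTop, δ n ^ 2 < c0 / (|A| + 1) := by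
    have h3 : Tendsto (fun n => δ n ^ 2) atTop (𝓝 0) := by
      have := h.sites.lim.pow 2
      simpa using this
    exact h3.eventually (gt_mem_nhds (by positivity))
  filter_upwards [h1, h2] with n h3 h4
  have h5 : 0 < δ n ^ 2 := by have := h.sites.pos n; positivity
  have h6 : 0 < |A| + 1 := by positivity
  rw [lt_div_iff₀ h6] at h4
  have h7 : δ n ^ 2 * (|A| + 1) ≤ δ n ^ 2 * ((F n).card : ℝ) := by linarith
  have h8 := le_of_mul_le_mul_left h7 h5
  have := le_abs_self A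
  linarith

theorem Sq.near (h : Sq D δ F E ξ) (M : ℕ) {θ : ℝ} (hθ : 0 < θ) :
    ∀ᶠ n in atTop, ((nr M (F n)).card : ℝ) ≤ θ * (F n).card := by
  obtain ⟨c0, hc0, h1⟩ := h.card_lower
  filter_upwards [h1, h.sites.near' M (show 0 < θ * c0 by positivity)] with n h2 h3
  have h4 := h3 (nr M (F n)) (nr_subset _ _) (by
    intro v hv
    obtain ⟨_, u, hu, hu'⟩ := mem_nr.mp hv
    refine ⟨v + u, hu', ?_, ?_⟩
    · rw [mem_BX] at hu
      simp only [Prod.fst_add, add_sub_cancel_left]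
      rw [abs_le]; exact hu.1
    · rw [mem_BX] at hu
      simp only [Prod.snd_add, add_sub_cancel_left]
      rw [abs_le]; exact hu.2)
  have h5 : 0 < δ n ^ 2 := by have := h.sites.pos n; positivity
  have h6 : θ * c0 ≤ θ * (δ n ^ 2 * (F n).card) := mul_le_mul_of_nonneg_left h2 hθ.le
  have h7 : δ n ^ 2 * ((nr M (F n)).card : ℝ) ≤ δ n ^ 2 * (θ * (F n).card) := by linarith
  exact le_of_mul_le_mul_left h7 h5

theorem Sq.bdr_sub (h : Sq D δ F E ξ) (n : ℕ) : bdr (F n) (E n) ⊆ nr 1 (F n) := by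
  intro v hv
  obtain ⟨hv1, u, hu, huF⟩ := mem_bdr.mp hv
  rw [mem_nr]
  refine ⟨hv1, u - v, ?_, by rw [add_sub_cancel]; exact huF⟩
  have key : ∀ p ∈ E n, (p.1 ∈ F n ∨ p.2 ∈ F n) → hd p.1 p.2 = 1 := by
    intro p hp hp'
    obtain ⟨a, b, hab, _, rfl⟩ := (h.gch n).ch.edge' p hp (by simpa using hp')
    exact hab
  have hhd : hd u v = 1 := by
    rw [mem_nbr] at hu
    rcases hu.2 with h1 | h1
    · have := key _ h1 (Or.inl hv1)
      rw [hd_comm] at this; exact this
    · exact key _ h1 (Or.inr hv1)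
  have := hd_le_iff.mp hhd.le
  rw [mem_BX]
  simp only [Prod.fst_sub, Prod.snd_sub]
  push_cast
  omega

theorem Sq.vr_pos (h : Sq D δ F E ξ) (n : ℕ) : 0 < vr (F n) (E n) (ξ n) :=
  ENNReal.toReal_pos (volume_ham_ne_zero fun u => h.data n u) (volume_ham_lt_top (h.anch n)).ne

/-- comparison of partition functions, real form -/
theorem Sq.kap (h : Sq D δ F E ξ) {c : ℝ} (hc : 0 < c) :
    ∀ᶠ n in atTop, volume (ham (F n) (E n) 0) ≤
      ENNReal.ofReal (Real.exp (c * (F n).card)) * volume (ham (F n) (E n) (ξ n)) := by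
  filter_upwards [h.near 1 hc] with n hn
  refine (pin0 (h.data n)).trans (mul_le_mul' ?_ le_rfl)
  have h1 : ((bdr (F n) (E n)).card : ℝ) ≤ c * (F n).card := by
    refine le_trans ?_ hn
    exact_mod_cast Finset.card_le_card (h.bdr_sub n)
  have h2 : ((2 : ℝ≥0∞)) ^ (bdr (F n) (E n)).card =
      ENNReal.ofReal (2 ^ (bdr (F n) (E n)).card) := by
    rw [ENNReal.ofReal_pow (by norm_num)]
    norm_num
  rw [h2]
  refine ENNReal.ofReal_le_ofReal ?_
  have h3 : (2 : ℝ) ^ (bdr (F n) (E n)).card ≤ Real.exp ((bdr (F n) (E n)).card : ℝ) := by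
    rw [← Real.exp_one_rpow, ← Real.rpow_natCast]
    exact Real.rpow_le_rpow (by norm_num) (by linarith [Real.exp_one_gt_d9]) (Nat.cast_nonneg _)
  exact h3.trans (Real.exp_le_exp.mpr h1)

/-- From tails to expectations. -/
theorem Sq.ev (h : Sq D δ F E ξ) {X : ℕ → (P2 → ℝ) → ℝ} {C a c : ℝ} (hC : 0 ≤ C) (ha : 0 < a)
    (hc : 0 < c) (hX : ∀ n, Measurable (X n)) (hXC : ∀ n z, |X n z| ≤ C)
    (htail : ∀ᶠ n in atTop, volume (ham (F n) (E n) (ξ n) ∩
      {x | a ≤ X n (ext (F n) (ξ n) x)}) ≤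
        ENNReal.ofReal (Real.exp (-(c * (F n).card))) * volume (ham (F n) (E n) 0)) :
    ∀ᶠ n in atTop, Ev (F n) (E n) (ξ n) (X n) ≤ 2 * a := by
  filter_upwards [htail, h.kap (show 0 < c / 2 by positivity),
    h.card_large (2 * C / (a * c))] with n h1 h2 h3
  have h4 := Ev_le_of_tail ⟨hX n, C, hXC n⟩ (h.anch n) hC (fun z => (le_abs_self _).trans (hXC n z))
    (Real.exp_pos _).le (Real.exp_pos _).le ha.le (h.vr_pos n) h2 h1
  refine h4.trans ?_
  rw [← Real.exp_add]
  have e1 : -(c * ((F n).card : ℝ)) + c / 2 * (F n).card = -(c / 2 * (F n).card) := by ring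
  rw [e1, Real.exp_neg]
  have h5 := Real.add_one_le_exp (c / 2 * ((F n).card : ℝ))
  have h6 : C / a ≤ c / 2 * (F n).card := by
    rw [div_le_iff₀ (by positivity)] at h3
    rw [div_le_iff₀ ha]
    linarith
  have h7 : C * (Real.exp (c / 2 * ((F n).card : ℝ)))⁻¹ ≤ a := by
    rw [← div_eq_mul_inv, div_le_iff₀ (Real.exp_pos _)]
    rw [div_le_iff₀ ha] at h6
    nlinarith
  linarith

/-! ### Box averages -/

theorem BA_zero_sub {R r : ℕ} (hR : 0 < R) (hr : 2 * r ≤ R) {f : (P2 → ℝ) → ℝ}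
    (hf : ∀ z, |f z| ≤ 1) (h : P2 → ℝ) : |BA R 0 f h - BA R r f h| ≤ 4 * r / R := by
  have hRr : (0 : ℝ) < R := by exact_mod_cast hR
  unfold BA
  rw [pos_zero, ← sub_div, abs_div, abs_of_pos (by positivity : (0 : ℝ) < (R : ℝ) ^ 2),
    div_le_div_iff₀ (by positivity) hRr]
  have h1 : ∑ x ∈ bx R, (f fun v => h (x + v)) - ∑ x ∈ pos R r, (f fun v => h (x + v)) =
      ∑ x ∈ bx R \ pos R r, f fun v => h (x + v) := by
    rw [← Finset.sum_sdiff (pos_subset R r)]; ring
  rw [h1]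
  have h2 : |∑ x ∈ bx R \ pos R r, f fun v => h (x + v)| ≤ 4 * r * R := by
    refine (Finset.abs_sum_le_sum_abs _ _).trans ?_
    refine (Finset.sum_le_card_nsmul _ _ 1 fun x _ => hf _).trans ?_
    rw [nsmul_eq_mul, mul_one]
    have h3 := Finset.card_sdiff_add_card_eq_card (pos_subset R r)
    rw [card_bx] at h3
    have h4 : ((bx R \ pos R r).card : ℝ) + (pos R r).card = (R : ℝ) ^ 2 := by exact_mod_cast h3
    have := card_pos' hr
    linarith
  calc _ ≤ 4 * (r : ℝ) * R * R := mul_le_mul_of_nonneg_right h2 hRr.le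
    _ = _ := by ring

/-- **Law of large numbers for box averages**, in expectation. -/
theorem Sq.box (h : Sq D δ F E ξ) {r : ℕ} {f : (P2 → ℝ) → ℝ} (hf : LObs r f) {ε : ℝ}
    (hε : 0 < ε) : ∃ R0 : ℕ, ∀ R : ℕ, R0 ≤ R → ∀ᶠ n in atTop,
      δ n ^ 2 * Ev (F n) (E n) (ξ n) (fun z =>
        ∑ v ∈ F n, |BA R 0 f (fun u => z (v + u)) - m0 f|) ≤ ε := by
  obtain ⟨Cc, hCc, hcard⟩ := h.sites.card_bdd
  obtain ⟨R0, hR0, hbox⟩ := box1 hf (a := min 1 (ε / (4 * Cc))) (by positivity) (min_le_left _ _)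
  set a := min 1 (ε / (4 * Cc)) with had
  have ha : 0 < a := by positivity
  have ha1 : a ≤ ε / (4 * Cc) := min_le_right _ _
  obtain ⟨q, hq⟩ := exists_nat_ge (4 * (r : ℝ) / a)
  refine ⟨max (max R0 q) (2 * r), fun R hR => ?_⟩
  have hR1 : R0 ≤ R := ((le_max_left _ _).trans (le_max_left _ _)).trans hR
  have hR2 : q ≤ R := ((le_max_right _ _).trans (le_max_left _ _)).trans hR
  have hR3 : 2 * r ≤ R := (le_max_right _ _).trans hR
  have hRp : 0 < R := by omega
  have hRr : (0 : ℝ) < R := by exact_mod_cast hRp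
  have hrR : 4 * (r : ℝ) / R ≤ a := by
    have h1 : 4 * (r : ℝ) / a ≤ R := hq.trans (by exact_mod_cast hR2)
    rw [div_le_iff₀ ha] at h1
    rw [div_le_iff₀ hRr]; linarith
  obtain ⟨c, hc, θ, hθ, N2, hsys⟩ := hbox R hR1
  set S : ℕ → (P2 → ℝ) → ℝ := fun n z => ∑ v ∈ F n, |BA R r f (fun u => z (v + u)) - m0 f| with hS
  set X : ℕ → (P2 → ℝ) → ℝ := fun n z => S n z / (F n).card with hX
  have hm0 := abs_m0_le hf
  have hXi : ∀ v (z : P2 → ℝ), |BA R r f (fun u => z (v + u)) - m0 f| ≤ 2 := by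
    intro v z
    have h2 := abs_BA_le (L := R) (r := r) hf.bd (fun u => z (v + u))
    have h3 := abs_sub (BA R r f (fun u => z (v + u))) (m0 f)
    linarith
  have hSm : ∀ n, Measurable (S n) := fun n => Finset.measurable_sum _ fun v _ =>
    (((measurable_BA hf.meas).comp (measurable_shift v)).sub_const (m0 f)).abs
  have hS0 : ∀ n z, 0 ≤ S n z := fun n z => Finset.sum_nonneg fun _ _ => abs_nonneg _
  have hS2 : ∀ n z, S n z ≤ (F n).card * 2 := by
    intro n z
    refine (Finset.sum_le_card_nsmul _ _ 2 fun v _ => hXi v z).trans ?_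
    rw [nsmul_eq_mul]
  have hX2 : ∀ n z, |X n z| ≤ 2 := by
    intro n z
    rw [hX]
    simp only
    rw [abs_of_nonneg (div_nonneg (hS0 n z) (Nat.cast_nonneg _))]
    rcases Nat.eq_zero_or_pos (F n).card with h0 | h0
    · rw [h0]; simp
    · rw [div_le_iff₀ (by exact_mod_cast h0)]
      linarith [hS2 n z]
  have h1 : ∀ᶠ n in atTop, Ev (F n) (E n) (ξ n) (X n) ≤ 2 * a := by
    refine h.ev (C := 2) (c := c) (by norm_num) ha hc (fun n => (hSm n).div_const _) hX2 ?_
    filter_upwards [h.card_large (max N2 1), h.near (2 * (R + 1)) hθ] with n g1 g2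
    have g3 : (1 : ℝ) ≤ (F n).card := (le_max_right _ _).trans g1
    have g4 : N2 ≤ (F n).card := by
      have := (le_max_left _ _).trans g1
      exact_mod_cast this
    refine (measure_mono ?_).trans (hsys P2 (F n) (E n) (F n) id univ (h.gch n) g4 g2 (by
      rw [Finset.image_id, Finset.sdiff_self, Finset.card_empty]
      push_cast; positivity) (ξ n))
    rintro x ⟨hx, hx'⟩
    refine ⟨hx, ?_⟩
    have hx'' : a ≤ X n (ext (F n) (ξ n) x) := hx'
    rw [hX] at hx''
    simp only at hx''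
    rw [le_div_iff₀ (by linarith)] at hx''
    simp only [mem_ofPred_eq, id_eq]
    exact hx''
  filter_upwards [h1, h.card_large 1] with n g1 g2
  have hA := h.anch n
  have hv := h.vr_pos n
  have hbd : ∀ (R' r' : ℕ) v, Bd (fun z : P2 → ℝ => |BA R' r' f (fun u => z (v + u)) - m0 f|) :=
    fun R' r' v => ⟨(((measurable_BA hf.meas).comp (measurable_shift v)).sub_const (m0 f)).abs, 2, by
      intro z
      rw [abs_abs]
      have h2 := abs_BA_le (L := R') (r := r') hf.bd (fun u => z (v + u))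
      have h3 := abs_sub (BA R' r' f (fun u => z (v + u))) (m0 f)
      linarith⟩
  have h2 : Ev (F n) (E n) (ξ n) (fun z => ∑ v ∈ F n, |BA R 0 f (fun u => z (v + u)) - m0 f|) ≤
      Ev (F n) (E n) (ξ n) (fun z => (F n).card * (X n z + a)) := by
    refine Ev_mono (Bd.sum fun v _ => hbd R 0 v) ?_ hA hv fun z => ?_
    · exact ((show Bd (X n) from ⟨(hSm n).div_const _, 2, hX2 n⟩).add (Bd.const a)).const_mul _
    · rw [hX]
      simp only
      rw [mul_add, mul_div_cancel₀ _ (by linarith : ((F n).card : ℝ) ≠ 0)]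
      have h3 : ∀ v ∈ F n, |BA R 0 f (fun u => z (v + u)) - m0 f| ≤
          |BA R r f (fun u => z (v + u)) - m0 f| + a := by
        intro v _
        have h4 := BA_zero_sub hRp hR3 hf.bd (fun u => z (v + u))
        have h5 := abs_sub_le (BA R 0 f (fun u => z (v + u))) (BA R r f (fun u => z (v + u))) (m0 f)
        linarith
      refine (Finset.sum_le_sum h3).trans (le_of_eq ?_)
      rw [Finset.sum_add_distrib, Finset.sum_const, nsmul_eq_mul]
  have hXB : Bd (X n) := ⟨(hSm n).div_const _, 2, hX2 n⟩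
  rw [Ev_const_mul, Ev_add hXB (Bd.const a) hA hv, Ev_const hA hv] at h2
  have h3 : δ n ^ 2 * Ev (F n) (E n) (ξ n)
      (fun z => ∑ v ∈ F n, |BA R 0 f (fun u => z (v + u)) - m0 f|) ≤
      δ n ^ 2 * ((F n).card * (3 * a)) := by
    refine mul_le_mul_of_nonneg_left (h2.trans ?_) (by positivity)
    refine mul_le_mul_of_nonneg_left ?_ (Nat.cast_nonneg _)
    linarith
  refine h3.trans ?_
  have h4 := mul_le_mul_of_nonneg_right (hcard n) (show 0 ≤ 3 * a by positivity)
  have h5 : Cc * (3 * a) ≤ ε := by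
    rw [le_div_iff₀ (by positivity)] at ha1
    linarith
  linarith

/-! ### Continuous weights -/

/-- **Law of large numbers with a continuous weight**, in expectation. -/
theorem Sq.weights (h : Sq D δ F E ξ) {r : ℕ} {f : (P2 → ℝ) → ℝ} (hf : LObs r f) {φ : ℂ → ℝ}
    (hφ : Continuous φ) {ε : ℝ} (hε : 0 < ε) : ∀ᶠ n in atTop,
      Ev (F n) (E n) (ξ n) (fun z => |δ n ^ 2 *
        ∑ v ∈ F n, φ (centre (δ n) v) * (f (fun u => z (v + u)) - m0 f)|) ≤ ε := by
  obtain ⟨Cc, hCc, hcard⟩ := h.sites.card_bdd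
  have hcomp := h.sites.compact_cth 1
  obtain ⟨M0, hM0⟩ := hcomp.exists_bound_of_continuousOn hφ.continuousOn
  obtain ⟨M, hM, hMb⟩ : ∃ M : ℝ, 0 < M ∧ ∀ z ∈ cthickening 1 D, |φ z| ≤ M :=
    ⟨max M0 0 + 1, by positivity, fun z hz => ((hM0 z hz).trans (le_max_left _ _)).trans (by linarith)⟩
  obtain ⟨R, hRp, c, hc, θ, hθ, N2, hsys⟩ := lln hf (a := min 1 (ε / (2 * Cc * M))) (by positivity)
    (min_le_left _ _)
  set a := min 1 (ε / (2 * Cc * M)) with had
  have ha : 0 < a := by positivity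
  have ha1 : a ≤ ε / (2 * Cc * M) := min_le_right _ _
  have hRr : (0 : ℝ) < R := by exact_mod_cast hRp
  -- uniform continuity
  have huc := hcomp.uniformContinuousOn_of_continuous hφ.continuousOn
  rw [Metric.uniformContinuousOn_iff] at huc
  obtain ⟨ρ, hρ, huc'⟩ := huc (θ * M) (by positivity)
  set Y : ℕ → (P2 → ℝ) → ℝ := fun n z =>
    |∑ v ∈ F n, φ (centre (δ n) v) / M * (f (fun u => z (v + u)) - m0 f)| with hY
  set X : ℕ → (P2 → ℝ) → ℝ := fun n z => min 2 (Y n z / (F n).card) with hX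
  have hm0 := abs_m0_le hf
  have hYm : ∀ n, Measurable (Y n) := fun n => by
    refine Measurable.abs (Finset.measurable_sum _ fun v _ => ?_)
    exact ((hf.meas.comp (measurable_shift v)).sub_const (m0 f)).const_mul _
  have hY0 : ∀ n z, 0 ≤ Y n z := fun n z => abs_nonneg _
  have hX0 : ∀ n z, 0 ≤ X n z := fun n z =>
    le_min (by norm_num) (div_nonneg (hY0 n z) (Nat.cast_nonneg _))
  have hX2 : ∀ n z, |X n z| ≤ 2 := fun n z => by
    rw [abs_of_nonneg (hX0 n z)]; exact min_le_left _ _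
  have hXm : ∀ n, Measurable (X n) := fun n => measurable_const.min ((hYm n).div_const _)
  have hout := h.sites.out 1 one_pos
  have h1 : ∀ᶠ n in atTop, Ev (F n) (E n) (ξ n) (X n) ≤ 2 * a := by
    refine h.ev (C := 2) (c := c) (by norm_num) ha hc hXm hX2 ?_
    filter_upwards [h.card_large (max N2 1), h.near (2 * (R + 1)) hθ, hout,
      h.sites.small (show 0 < ρ / (2 * R + 1) by positivity)] with n g1 g2 g5 g6
    have hδ := h.sites.pos n
    have g3 : (1 : ℝ) ≤ (F n).card := (le_max_right _ _).trans g1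
    have g4 : N2 ≤ (F n).card := by
      have := (le_max_left _ _).trans g1
      exact_mod_cast this
    refine (measure_mono ?_).trans (hsys P2 (F n) (E n) (F n) id univ (h.gch n) g4 g2 (by
      rw [Finset.image_id, Finset.sdiff_self, Finset.card_empty]
      push_cast; positivity) (fun v => φ (centre (δ n) v) / M) ?_ ?_ (ξ n))
    · rintro x ⟨hx, hx'⟩
      refine ⟨hx, ?_⟩
      have hx'' : a ≤ X n (ext (F n) (ξ n) x) := hx'
      have h3 : a ≤ Y n (ext (F n) (ξ n) x) / (F n).card := hx''.trans (min_le_right _ _)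
      rw [le_div_iff₀ (by linarith)] at h3
      simp only [mem_ofPred_eq, id_eq]
      exact h3
    · intro v hv
      rw [abs_div, abs_of_pos hM, div_le_one hM]
      exact hMb _ (g5 v hv)
    · intro x hx u hu hux
      rw [← sub_div, abs_div, abs_of_pos hM, div_le_iff₀ hM]
      have h3 : dist (centre (δ n) (u - x)) (centre (δ n) u) < ρ := by
        refine (LC121.dist_centre_le hδ.le _ _).trans_lt ?_
        rw [mem_bx] at hx
        have e1 : |(((u - x).1 : ℤ) : ℝ) - u.1| ≤ R := by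
          rw [Prod.fst_sub]; push_cast
          have h4 : (0 : ℝ) ≤ x.1 := by exact_mod_cast hx.1.1
          have h5 : (x.1 : ℝ) ≤ R := by exact_mod_cast hx.1.2.le
          rw [abs_le]; constructor <;> linarith
        have e2 : |(((u - x).2 : ℤ) : ℝ) - u.2| ≤ R := by
          rw [Prod.snd_sub]; push_cast
          have h4 : (0 : ℝ) ≤ x.2 := by exact_mod_cast hx.2.1
          have h5 : (x.2 : ℝ) ≤ R := by exact_mod_cast hx.2.2.le
          rw [abs_le]; constructor <;> linarith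
        rw [lt_div_iff₀ (by positivity)] at g6
        have h7 : δ n * (|(((u - x).1 : ℤ) : ℝ) - u.1| + |(((u - x).2 : ℤ) : ℝ) - u.2|) ≤
            δ n * (2 * R) := mul_le_mul_of_nonneg_left (by linarith) hδ.le
        have h8 : δ n * (2 * R) < δ n * (2 * R + 1) := by nlinarith
        linarith
      have h4 := huc' _ (g5 _ hux) _ (g5 _ hu) h3
      rw [Real.dist_eq] at h4
      exact h4.le
  filter_upwards [h1, h.card_large 1, hout] with n g1 g2 g3
  have hA := h.anch n
  have hv := h.vr_pos n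
  have hδ := h.sites.pos n
  have hterm : ∀ z, Y n z ≤ (F n).card * X n z := by
    intro z
    have h3 : Y n z ≤ (F n).card * 2 := by
      rw [hY]
      simp only
      refine (Finset.abs_sum_le_sum_abs _ _).trans ?_
      refine (Finset.sum_le_card_nsmul _ _ 2 fun v hv => ?_).trans ?_
      · rw [abs_mul]
        have h4 : |φ (centre (δ n) v) / M| ≤ 1 := by
          rw [abs_div, abs_of_pos hM, div_le_one hM]
          exact hMb _ (g3 v hv)
        have h5 : |f (fun u => z (v + u)) - m0 f| ≤ 2 := by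
          have := abs_sub (f (fun u => z (v + u))) (m0 f)
          linarith [hf.bd (fun u => z (v + u))]
        calc _ ≤ 1 * (2 : ℝ) := mul_le_mul h4 h5 (abs_nonneg _) zero_le_one
          _ = 2 := one_mul 2
      · rw [nsmul_eq_mul]
    rw [hX]
    simp only
    have hcp : (0 : ℝ) < (F n).card := by linarith
    rcases le_total 2 (Y n z / (F n).card) with h4 | h4
    · rw [min_eq_left h4]; exact h3
    · rw [min_eq_right h4, mul_div_cancel₀ _ hcp.ne']
  have hYB : Bd (Y n) := ⟨hYm n, (F n).card * 2, fun z => by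
    rw [abs_of_nonneg (hY0 n z)]
    refine (hterm z).trans (mul_le_mul_of_nonneg_left ?_ (Nat.cast_nonneg _))
    exact min_le_left _ _⟩
  have hXB : Bd (X n) := ⟨hXm n, 2, hX2 n⟩
  have e1 : (fun z : P2 → ℝ => |δ n ^ 2 *
      ∑ v ∈ F n, φ (centre (δ n) v) * (f (fun u => z (v + u)) - m0 f)|) =
      fun z => (δ n ^ 2 * M) * Y n z := by
    funext z
    rw [hY]
    simp only
    rw [abs_mul, abs_of_pos (by positivity : 0 < δ n ^ 2), mul_assoc]
    congr 1
    rw [← abs_of_pos hM, ← abs_mul, abs_of_pos hM, Finset.mul_sum]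
    congr 1
    refine Finset.sum_congr rfl fun v _ => ?_
    field_simp
  rw [e1, Ev_const_mul]
  have h2 : Ev (F n) (E n) (ξ n) (Y n) ≤ (F n).card * (2 * a) := by
    have h3 := Ev_mono hYB (hXB.const_mul ((F n).card : ℝ)) hA hv hterm
    rw [Ev_const_mul] at h3
    exact h3.trans (mul_le_mul_of_nonneg_left g1 (Nat.cast_nonneg _))
  have h3 : δ n ^ 2 * M * Ev (F n) (E n) (ξ n) (Y n) ≤ δ n ^ 2 * M * ((F n).card * (2 * a)) :=
    mul_le_mul_of_nonneg_left h2 (by positivity)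
  refine h3.trans ?_
  have h4 := mul_le_mul_of_nonneg_right (hcard n) (show 0 ≤ M * (2 * a) by positivity)
  have h5 : Cc * (M * (2 * a)) ≤ ε := by
    rw [le_div_iff₀ (by positivity)] at ha1
    linarith
  linarith

end Crest.Agent.R144.Lc279
end
end

-- ▼ part R144/Lc16_279

/-!
R144 (S0197), helper279.  Block LC, file 16: the law of large numbers in the forms used by the
consumers: `Sq.lln296` (296's `BlkHyp.lln`), `Sq.riem` (Riemann sums with a continuous weight), and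
the instances `sq_inst` of S0197.
-/

set_option autoImplicit false
set_option linter.unusedSectionVars false
set_option linter.unusedVariables false

open MeasureTheory Set Filter Topology Metric
open scoped ENNReal

noncomputable section

namespace Crest.Agent.R144.Lc279

open Crest.Agent.R144.Ham560
open Crest.Agent.R144.Lw425 (hd hd_comm hd_le_iff mem_hball hball mem_inn inn mem_sph sph hd_self
  hd_triangle hd_pos hd_adj LObs IsMu0 exists_mu0' bav)
open Crest.ProbabilityR.HexHeights (centre)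
open Crest.Agent.R144.Cnt268 (Sites vc)
open Crest.Agent.R144.Skel144 (Inst)

variable {D : Set ℂ} {δ : ℕ → ℝ} {F : ℕ → Finset P2} {E : ℕ → Finset (P2 × P2)} {ξ : ℕ → P2 → ℝ}

theorem integral_scale {r : ℕ} {C : ℝ} (hC : 0 < C) {G : (P2 → ℝ) → ℝ}
    (hG : LObs r fun h => C⁻¹ * G h) : ∫ h, G h ∂mu0 = C * m0 fun h => C⁻¹ * G h := by
  rw [← integral_mu0 hG, integral_const_mul, ← mul_assoc, mul_inv_cancel₀ hC.ne', one_mul]

/-- **Law of large numbers for box averages**, general bounded local observable, every subset. -/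
theorem Sq.box_int (h : Sq D δ F E ξ) {r : ℕ} {C : ℝ} (hC : 0 < C) {G : (P2 → ℝ) → ℝ}
    (hG : LObs r fun h => C⁻¹ * G h) {ε : ℝ} (hε : 0 < ε) :
    ∃ R0 : ℕ, ∀ R : ℕ, R0 ≤ R → ∀ᶠ n in atTop, ∀ K ⊆ F n,
      δ n ^ 2 * ∑ v ∈ K, ∫ x, |((R : ℝ) ^ 2)⁻¹ * ∑ p ∈ bx R,
        G (fun u => ext (F n) (ξ n) x (v + p + u)) - ∫ h, G h ∂mu0| ∂(hamP (F n) (E n) (ξ n)) ≤
        ε := by
  set f : (P2 → ℝ) → ℝ := fun h => C⁻¹ * G h with hf
  obtain ⟨R0, hR0⟩ := h.box hG (ε := ε / C) (by positivity)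
  refine ⟨R0, fun R hR => ?_⟩
  filter_upwards [hR0 R hR] with n hn K hK
  have hA := h.anch n
  have hv := h.vr_pos n
  have hδ := h.sites.pos n
  have e0 : ∀ v (z : P2 → ℝ), |((R : ℝ) ^ 2)⁻¹ * ∑ p ∈ bx R, G (fun u => z (v + p + u)) -
      ∫ h, G h ∂mu0| = C * |BA R 0 f (fun u => z (v + u)) - m0 f| := by
    intro v z
    rw [integral_scale hC hG, BA_shift, pos_zero, ← abs_of_pos hC, ← abs_mul, abs_of_pos hC,
      mul_sub]
    congr 2
    simp only [hf]
    rw [← Finset.mul_sum]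
    field_simp
  have e1 : ∀ v, ∫ x, |((R : ℝ) ^ 2)⁻¹ * ∑ p ∈ bx R,
      G (fun u => ext (F n) (ξ n) x (v + p + u)) - ∫ h, G h ∂mu0| ∂(hamP (F n) (E n) (ξ n)) =
      C * Ev (F n) (E n) (ξ n) fun z => |BA R 0 f (fun u => z (v + u)) - m0 f| := by
    intro v
    unfold Ev
    rw [← integral_const_mul]
    refine integral_congr_ae (Eventually.of_forall fun x => ?_)
    exact e0 v _
  have e2 : ∑ v ∈ K, ∫ x, |((R : ℝ) ^ 2)⁻¹ * ∑ p ∈ bx R,
      G (fun u => ext (F n) (ξ n) x (v + p + u)) - ∫ h, G h ∂mu0| ∂(hamP (F n) (E n) (ξ n)) =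
      C * ∑ v ∈ K, Ev (F n) (E n) (ξ n) fun z => |BA R 0 f (fun u => z (v + u)) - m0 f| := by
    rw [Finset.mul_sum]
    exact Finset.sum_congr rfl fun v _ => e1 v
  rw [e2]
  have hbd : ∀ v, Bd (fun z : P2 → ℝ => |BA R 0 f (fun u => z (v + u)) - m0 f|) :=
    fun v => ⟨(((measurable_BA hG.meas).comp (measurable_shift v)).sub_const (m0 f)).abs, 2, by
      intro z
      rw [abs_abs]
      have h2 := abs_BA_le (L := R) (r := 0) hG.bd (fun u => z (v + u))
      have h3 := abs_sub (BA R 0 f (fun u => z (v + u))) (m0 f)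
      have h4 := abs_m0_le hG
      linarith⟩
  rw [Ev_sum (fun v _ => hbd v) hA hv] at hn
  have h3 : ∑ v ∈ K, Ev (F n) (E n) (ξ n) (fun z => |BA R 0 f (fun u => z (v + u)) - m0 f|) ≤
      ∑ v ∈ F n, Ev (F n) (E n) (ξ n) fun z => |BA R 0 f (fun u => z (v + u)) - m0 f| :=
    Finset.sum_le_sum_of_subset_of_nonneg hK fun v _ _ => Ev_nonneg fun z => abs_nonneg _
  calc _ ≤ δ n ^ 2 * (C * ∑ v ∈ F n, Ev (F n) (E n) (ξ n) fun z =>
        |BA R 0 f (fun u => z (v + u)) - m0 f|) :=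
        mul_le_mul_of_nonneg_left (mul_le_mul_of_nonneg_left h3 hC.le) (by positivity)
    _ = C * (δ n ^ 2 * ∑ v ∈ F n, Ev (F n) (E n) (ξ n) fun z =>
        |BA R 0 f (fun u => z (v + u)) - m0 f|) := by ring
    _ ≤ C * (ε / C) := mul_le_mul_of_nonneg_left hn hC.le
    _ = ε := by field_simp

theorem sum_bx {R : ℕ} (g : P2 → ℝ) :
    ∑ p ∈ bx R, g p = ∑ p ∈ Flat296.sq R, g (Flat296.pt p) := by
  refine (Finset.sum_bij (fun p _ => Flat296.pt p) ?_ ?_ ?_ fun _ _ => rfl).symm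
  · intro p hp
    rw [Flat296.mem_sq] at hp
    rw [mem_bx]
    simp only [Flat296.pt]
    omega
  · intro p _ q _ hpq
    simp only [Flat296.pt, Prod.mk.injEq, Nat.cast_inj] at hpq
    exact Prod.ext hpq.1 hpq.2
  · intro v hv
    rw [mem_bx] at hv
    refine ⟨(v.1.toNat, v.2.toNat), ?_, ?_⟩
    · rw [Flat296.mem_sq]; omega
    · ext <;> simp [Flat296.pt, hv.1.1, hv.2.1]

/-- **296's law of large numbers** (one entry). -/
theorem Sq.lln296 (h : Sq D δ F E ξ) {r : ℕ} {C : ℝ} (hC : 0 < C) {G : (P2 → ℝ) → ℝ}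
    (hG : LObs r fun h => C⁻¹ * G h) {ε : ℝ} (hε : 0 < ε) :
    ∃ R0 : ℕ, ∀ R : ℕ, R0 ≤ R → ∀ᶠ n in atTop, ∀ K ⊆ F n,
      δ n ^ 2 * Upp296.Ex (hamP (F n) (E n) (ξ n)) K (fun a ω => |Flat296.bm R (fun a ω =>
        G (fun v => ext (F n) (ξ n) ω (a + v))) a ω - ∫ h, G h ∂mu0|) ≤ ε := by
  obtain ⟨R0, hR0⟩ := h.box_int hC hG hε
  refine ⟨R0, fun R hR => ?_⟩
  filter_upwards [hR0 R hR] with n hn K hK
  have := hn K hK
  unfold Upp296.Ex
  convert this using 6 with v _ x
  rw [Flat296.bm, Flat296.mn_apply, Flat296.card_sq, sum_bx, Nat.cast_mul, pow_two]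
  rfl

/-- 296's law of large numbers for a matrix of observables. -/
theorem Sq.lln296' (h : Sq D δ F E ξ) {r : ℕ} {C : ℝ} (hC : 0 < C)
    {G : Fin 2 → Fin 2 → (P2 → ℝ) → ℝ} (hG : ∀ i j, LObs r fun h => C⁻¹ * G i j h) {ε : ℝ}
    (hε : 0 < ε) :
    ∃ R0 : ℕ, ∀ R : ℕ, R0 ≤ R → ∀ᶠ n in atTop, ∀ K ⊆ F n,
      δ n ^ 2 * ∑ i, ∑ j, Upp296.Ex (hamP (F n) (E n) (ξ n)) K (fun a ω =>
        |Flat296.bm R (fun a ω => G i j (fun v => ext (F n) (ξ n) ω (a + v))) a ω -
          ∫ h, G i j h ∂mu0|) ≤ ε := by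
  choose R0 hR0 using fun i j => h.lln296 hC (hG i j) (ε := ε / 4) (by positivity)
  refine ⟨(R0 0 0 + R0 0 1) + (R0 1 0 + R0 1 1), fun R hR => ?_⟩
  filter_upwards [hR0 0 0 R (by omega), hR0 0 1 R (by omega), hR0 1 0 R (by omega),
    hR0 1 1 R (by omega)] with n h1 h2 h3 h4 K hK
  have g1 := h1 K hK
  have g2 := h2 K hK
  have g3 := h3 K hK
  have g4 := h4 K hK
  rw [Fin.sum_univ_two, Fin.sum_univ_two, Fin.sum_univ_two, mul_add, mul_add, mul_add]
  linarith

/-- **Riemann sums with a continuous weight**: `E |δ² ∑ φ(z_v) G(h_v) - (2/√3) ∫ G dmu0 ∫_D φ| → 0`. -/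
theorem Sq.riem (h : Sq D δ F E ξ) {r : ℕ} {C : ℝ} (hC : 0 < C) {G : (P2 → ℝ) → ℝ}
    (hG : LObs r fun h => C⁻¹ * G h) {φ : ℂ → ℝ} (hφ : Continuous φ) :
    Tendsto (fun n => ∫ x, |δ n ^ 2 * ∑ v ∈ F n, φ (centre (δ n) v) *
        G (fun u => ext (F n) (ξ n) x (v + u)) -
        2 / Real.sqrt 3 * (∫ z in D, φ z) * ∫ h, G h ∂mu0| ∂(hamP (F n) (E n) (ξ n)))
      atTop (𝓝 0) := by
  set f : (P2 → ℝ) → ℝ := fun h => C⁻¹ * G h with hf
  have hriem := h.sites.riemann' hφ
  have h1 : Tendsto (fun n => |(δ n ^ 2 * ∑ v ∈ F n, φ (centre (δ n) v)) * (C * m0 f) -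
      2 / Real.sqrt 3 * (∫ z in D, φ z) * (C * m0 f)|) atTop (𝓝 0) := by
    have h2 := (hriem.mul_const (C * m0 f)).sub_const (2 / Real.sqrt 3 * (∫ z in D, φ z) *
      (C * m0 f))
    rw [sub_self] at h2
    have h3 := h2.abs
    rwa [abs_zero] at h3
  rw [Metric.tendsto_atTop']
  intro ε hε
  have h2 := h.weights hG hφ (ε := ε / (4 * C)) (by positivity)
  have h3 := h1.eventually (gt_mem_nhds (show (0 : ℝ) < ε / 4 by positivity))
  obtain ⟨n0, hn0⟩ := eventually_atTop.mp (h2.and h3)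
  refine ⟨n0, fun n hn => ?_⟩
  obtain ⟨g1, g2⟩ := hn0 n hn.le
  have hA := h.anch n
  have hv := h.vr_pos n
  have hδ := h.sites.pos n
  have hp := isProb hA hv
  rw [Real.dist_eq, sub_zero, abs_of_nonneg (integral_nonneg fun _ => abs_nonneg _)]
  set S := |(δ n ^ 2 * ∑ v ∈ F n, φ (centre (δ n) v)) * (C * m0 f) -
      2 / Real.sqrt 3 * (∫ z in D, φ z) * (C * m0 f)| with hS
  set T : (P2 → ℝ) → ℝ := fun z =>
    |δ n ^ 2 * ∑ v ∈ F n, φ (centre (δ n) v) * (f (fun u => z (v + u)) - m0 f)| with hT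
  have hterm : ∀ z : P2 → ℝ, |δ n ^ 2 * ∑ v ∈ F n, φ (centre (δ n) v) *
        G (fun u => z (v + u)) - 2 / Real.sqrt 3 * (∫ z in D, φ z) * ∫ h, G h ∂mu0| ≤
        C * T z + S := by
    intro z
    rw [integral_scale hC hG]
    have e1 : δ n ^ 2 * ∑ v ∈ F n, φ (centre (δ n) v) * G (fun u => z (v + u)) -
        2 / Real.sqrt 3 * (∫ z in D, φ z) * (C * m0 f) =
        C * (δ n ^ 2 * ∑ v ∈ F n, φ (centre (δ n) v) * (f (fun u => z (v + u)) - m0 f)) +
        ((δ n ^ 2 * ∑ v ∈ F n, φ (centre (δ n) v)) * (C * m0 f) -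
          2 / Real.sqrt 3 * (∫ z in D, φ z) * (C * m0 f)) := by
      have e2 : C * (δ n ^ 2 * ∑ v ∈ F n, φ (centre (δ n) v) * (f (fun u => z (v + u)) - m0 f)) =
          δ n ^ 2 * ∑ v ∈ F n, φ (centre (δ n) v) * G (fun u => z (v + u)) -
          (δ n ^ 2 * ∑ v ∈ F n, φ (centre (δ n) v)) * (C * m0 f) := by
        rw [mul_left_comm, mul_assoc, Finset.sum_mul, ← mul_sub, ← Finset.sum_sub_distrib,
          Finset.mul_sum]
        congr 1
        refine Finset.sum_congr rfl fun v _ => ?_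
        simp only [hf]
        field_simp
      rw [e2]; ring
    rw [e1]
    refine (abs_add_le _ _).trans ?_
    rw [abs_mul, abs_of_pos hC]
  have hTm : Measurable T := by
    refine Measurable.abs ((Finset.measurable_sum _ fun v _ => ?_).const_mul _)
    exact ((hG.meas.comp (measurable_shift v)).sub_const (m0 f)).const_mul _
  have hTb : ∀ z, |T z| ≤ δ n ^ 2 * ∑ v ∈ F n, |φ (centre (δ n) v)| * 2 := by
    intro z
    rw [hT]
    simp only
    rw [abs_abs, abs_mul, abs_of_pos (by positivity : 0 < δ n ^ 2)]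
    refine mul_le_mul_of_nonneg_left ?_ (by positivity)
    refine (Finset.abs_sum_le_sum_abs _ _).trans (Finset.sum_le_sum fun v _ => ?_)
    rw [abs_mul]
    refine mul_le_mul_of_nonneg_left ?_ (abs_nonneg _)
    have h4 := abs_sub (f (fun u => z (v + u))) (m0 f)
    have h5 := hG.bd (fun u => z (v + u))
    have h6 := abs_m0_le hG
    linarith
  have hTB : Bd T := ⟨hTm, _, hTb⟩
  have hint : Integrable (fun x => T (ext (F n) (ξ n) x)) (hamP (F n) (E n) (ξ n)) :=
    hTB.integrable hA hv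
  have h4 : ∫ x, |δ n ^ 2 * ∑ v ∈ F n, φ (centre (δ n) v) *
        G (fun u => ext (F n) (ξ n) x (v + u)) -
        2 / Real.sqrt 3 * (∫ z in D, φ z) * ∫ h, G h ∂mu0| ∂(hamP (F n) (E n) (ξ n)) ≤
      ∫ x, (C * T (ext (F n) (ξ n) x) + S) ∂(hamP (F n) (E n) (ξ n)) := by
    refine integral_mono_of_nonneg (Eventually.of_forall fun _ => abs_nonneg _)
      ((hint.const_mul C).add (integrable_const S)) (Eventually.of_forall fun x => ?_)
    exact hterm _
  rw [integral_add (hint.const_mul C) (integrable_const S), integral_const_mul, integral_const] at h4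
  simp only [probReal_univ, smul_eq_mul, one_mul] at h4
  have h5 : C * ∫ x, T (ext (F n) (ξ n) x) ∂(hamP (F n) (E n) (ξ n)) ≤ C * (ε / (4 * C)) :=
    mul_le_mul_of_nonneg_left g1 hC.le
  have h6 : C * (ε / (4 * C)) = ε / 4 := by field_simp
  linarith

/-! ### The instances of S0197 -/

theorem gch_tri {T : Finset Crest.ProbabilityR.TriHeights.Tri} {F : Finset P2}
    (hF : ∀ v ∈ F, ∀ w, Crest.ProbabilityR.HexHeights.Adj v w →
      Crest.ProbabilityR.TriHeights.IsEdge T v w) : GCh F (triE T) F id univ where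
  ch := by
    refine ⟨subset_univ _, Function.injective_id.injOn, fun _ _ _ _ => mem_univ _, ?_, ?_⟩
    · intro v hv w hvw
      exact Or.inl (mem_triE.mpr (hF v hv w (hd_eq_one_iff_adj.mp hvw)))
    · intro p hp hp'
      refine ⟨p.1, p.2, hd_eq_one_iff_adj.mpr (LC121.adj_of_isEdge (mem_triE.mp hp)), ?_, rfl⟩
      simpa using hp'
  sub := by rw [Finset.image_id]
  deg := fun v _ => LC121.card_nbr_triE T v

theorem sq_inst (I : Inst) : Sq I.D I.δ I.Fr I.Ed I.xi where
  sites := Cnt268.sites_tri I.hD I.hM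
  gch := fun n => gch_tri fun v hv _ hw =>
    Geo268.isEdge_of_adj (I.hM.1 n) ((Geo268.mem_free_iff I.hM n v).1 hv) hw
  anch := fun n => I.anch n
  data := fun n u => I.abs_xi_le n u
  ne := I.hD.2.2.1.nonempty

end Crest.Agent.R144.Lc279
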