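import Mathlib
import Crest.Agent.R144.Uig11_714
import Crest.Agent.R144.Hs4_865
import Crest.Agent.R144.MW1_121
import Crest.Agent.R144.Hsu9_498
import Crest.Agent.R144.Ham5_560
import Crest.Agent.R144.Upp8_296
import Crest.Agent.R144.Fa5_812
import Crest.Agent.R144.Bl4_565
import Crest.Agent.R144.LoB9_95
import Crest.Agent.R144.Uid3_674
import Crest.Agent.R144.Upi2_540
import Crest.Agent.R144.Lmu10_425
import Crest.Agent.R144.Skel100_144

-- ▼ part R144/Uig12_714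
section

/-!
# R144 (S0197), helper714: the gradient fields of `UpHyp`

* `ex_dd` : gradients of `uf (δ⁻¹ • Y)` in terms of `gr Y`;
* `up_grad`, `up_ui`, `up_layer` : `UpHyp.{grad, ui, layer}`.
-/

set_option autoImplicit false

namespace Crest.Agent.R144.Uig714

open MeasureTheory Finset Filter Topology
open Crest.Agent.R144.Uia714 Crest.Agent.R144.Skel144
open Crest.Agent.R144.Ham560 (ext ham nbr mem_nbr Fresh tight hamP measurableSet_ham ext_mem
  ext_notMem triE mem_triE mem_nbr_triE triXi mem_freeVerts' abs_triXi_le Anch ham_neg)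
open Crest.Agent.R144.Kor620 (P2 nrm FullE cnum measurable_cnum)
open Crest.Agent.R144.KorE761 (LatE LatFam latE_triE gr RigidW lawT lab)
open Crest.ProbabilityR.TriHeights Crest.ProbabilityR.HexHeights
open Crest.Agent.R144.Geo268 (wA)
open Crest.Agent.R144.Upp296 (Ex KX mem_KX card_KX Bd dir)
open Crest.Agent.R144.Flat296 (dd)
open Crest.Agent.R144.Cnt268 (vc vc_pos vc_nonneg Sites)
open Crest.Agent.R144.Fa812 (uf)
open scoped BigOperators ENNReal NNReal

variable {I : Inst}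

lemma uf_smul {n : ℕ} (Y : (I.Fr n → ℝ) → (I.Fr n → ℝ)) (c : ℝ) (a : P2) (h : I.Fr n → ℝ) :
    uf (c • Y) a h = c * lab Y a h := by
  unfold uf lab
  by_cases ha : a ∈ I.Fr n
  · rw [ext_mem ha, ext_mem ha]; rfl
  · rw [ext_notMem ha, ext_notMem ha]; simp

lemma abs_dd_uf {n : ℕ} (Y : (I.Fr n → ℝ) → (I.Fr n → ℝ)) (z a : P2) (h : I.Fr n → ℝ) :
    |dd z (uf ((I.δ n)⁻¹ • Y)) a h| = (I.δ n)⁻¹ * |gr Y a (a + z) h| := by
  have hδ := I.hM.1 n
  have e : dd z (uf ((I.δ n)⁻¹ • Y)) a h = (I.δ n)⁻¹ * gr Y (a + z) a h := by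
    show uf ((I.δ n)⁻¹ • Y) (a + z) h - uf ((I.δ n)⁻¹ • Y) a h = _
    rw [uf_smul, uf_smul]
    unfold gr
    ring
  rw [e, abs_mul, abs_of_pos (inv_pos.2 hδ), abs_gr_comm]

lemma adj_dir (i : Fin 2) (x : P2) : Adj x (x + dir i) := by
  obtain ⟨a, b⟩ := x
  unfold Adj dir
  fin_cases i <;> simp

/-- **gradients of `uf (δ⁻¹ • Y)` in terms of `gr Y`** -/
theorem ex_dd {ε0 : ℝ} (hε : 0 < ε0) : ∀ᶠ n in atTop, ∀ K : Finset P2, (∀ x ∈ K, Off I ε0 n x) →
    ∃ Q : Fin 2 → Fin 2 → Finset (P2 × P2), (∀ i j, PairsOff I (ε0 / 2) n (Q i j)) ∧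
      (∀ i j, (Q i j).card ≤ K.card) ∧
      ∀ (Y : (I.Fr n → ℝ) → (I.Fr n → ℝ)) (φ : ℝ → ℝ), φ 0 = 0 →
        ∑ i, Ex (I.P0 n) K (fun x ω => φ |dd (dir i) (uf ((I.δ n)⁻¹ • Y)) x ω|) =
          ∑ i, ∑ j, ∑ p ∈ Q i j, ∫ ω, φ ((I.δ n)⁻¹ * |gr Y p.1 p.2 ω|) ∂(I.P0 n) := by
  filter_upwards [sum_dir (I := I) hε] with n hn K hK
  choose Q1 Q2 h1 h2 h3 h4 h5 using fun i : Fin 2 => hn (dir i) (adj_dir i) K hK
  refine ⟨fun i => ![Q1 i, Q2 i], ?_, ?_, ?_⟩
  · intro i j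
    fin_cases j
    · exact h1 i
    · exact h2 i
  · intro i j
    fin_cases j
    · exact h3 i
    · exact h4 i
  · intro Y φ hφ
    refine sum_congr rfl fun i _ => ?_
    have h6 := h5 i (fun p => ∫ ω, φ ((I.δ n)⁻¹ * |gr Y p.1 p.2 ω|) ∂(I.P0 n))
      (fun u v => by simp only [abs_gr_comm Y v u])
      (fun u v hu hv => by simp only [gr_zero Y hu hv, abs_zero, mul_zero, hφ, integral_zero])
    rw [Fin.sum_univ_two]
    simp only [Matrix.cons_val_zero, Matrix.cons_val_one]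
    rw [← h6]
    unfold Ex
    simp only [abs_dd_uf]

section fields

variable {ε0 : ℝ}

lemma off_of_mem_Kx {n : ℕ} {x : P2} (hx : x ∈ Kx I ε0 n) : Off I ε0 n x := (mem_Kx.mp hx).2

lemma integral_inv_mul {n : ℕ} (Y : (I.Fr n → ℝ) → (I.Fr n → ℝ)) (Q : Finset (P2 × P2)) :
    I.δ n ^ 2 * ∑ p ∈ Q, ∫ ω, (I.δ n)⁻¹ * |gr Y p.1 p.2 ω| ∂(I.P0 n) =
      I.δ n * ∑ p ∈ Q, ∫ ω, |gr Y p.1 p.2 ω| ∂(I.P0 n) := by
  have hδ := I.hM.1 n
  simp only [integral_const_mul]
  rw [← mul_sum]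
  field_simp

/-- `UpHyp.grad` -/
theorem up_grad (hε : 0 < ε0) {Y : ∀ n, (I.Fr n → ℝ) → (I.Fr n → ℝ)}
    (hY : ∀ᶠ n in atTop, NiceF I n (Y n)) {C : ℝ} (hC : ∀ᶠ n in atTop, EnI n (Y n) ≤ C) :
    ∃ S : ℝ, ∀ᶠ n in atTop, I.δ n ^ 2 * ∑ i, Ex (I.P0 n) (Kx I ε0 n)
      (fun x ω => |dd (dir i) (uf ((I.δ n)⁻¹ • Y n)) x ω|) ≤ S := by
  obtain ⟨S, hS, hl1⟩ := l1_bound (I := I) (half_pos hε)
  refine ⟨4 * (S * Real.sqrt (C + 1)), ?_⟩
  filter_upwards [ex_dd (I := I) hε, hl1, hY, hC] with n hex hl1 hY hC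
  obtain ⟨Q, hQ, -, h⟩ := hex (Kx I ε0 n) fun x hx => off_of_mem_Kx hx
  have h1 := h (Y n) id rfl
  simp only [id] at h1
  rw [h1, mul_sum]
  have h2 : ∀ i j, I.δ n ^ 2 * ∑ p ∈ Q i j, ∫ ω, (I.δ n)⁻¹ * |gr (Y n) p.1 p.2 ω| ∂(I.P0 n) ≤
      S * Real.sqrt (C + 1) := fun i j => by
    rw [integral_inv_mul]
    refine (hl1 _ (hQ i j) _ hY).trans ?_
    gcongr
  calc ∑ i, I.δ n ^ 2 * ∑ j, ∑ p ∈ Q i j, ∫ ω, (I.δ n)⁻¹ * |gr (Y n) p.1 p.2 ω| ∂(I.P0 n)
      = ∑ i, ∑ j, I.δ n ^ 2 * ∑ p ∈ Q i j, ∫ ω, (I.δ n)⁻¹ * |gr (Y n) p.1 p.2 ω| ∂(I.P0 n) :=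
        sum_congr rfl fun i _ => mul_sum _ _ _
    _ ≤ ∑ _i : Fin 2, ∑ _j : Fin 2, S * Real.sqrt (C + 1) :=
        sum_le_sum fun i _ => sum_le_sum fun j _ => h2 i j
    _ = 4 * (S * Real.sqrt (C + 1)) := by
        simp only [sum_const, card_univ, Fintype.card_fin, nsmul_eq_mul]; push_cast; ring

/-- `UpHyp.layer` -/
theorem up_layer (hε : 0 < ε0) {Y : ∀ n, (I.Fr n → ℝ) → (I.Fr n → ℝ)}
    (hY : ∀ᶠ n in atTop, NiceF I n (Y n)) {C : ℝ} (hC : ∀ᶠ n in atTop, EnI n (Y n) ≤ C) :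
    ∀ ε : ℝ, 0 < ε → ∃ k, ∀ᶠ n in atTop, I.δ n ^ 2 * ∑ i, Ex (I.P0 n) (Kx I ε0 n \ Kc I ε0 k n)
      (fun x ω => |dd (dir i) (uf ((I.δ n)⁻¹ • Y n)) x ω|) ≤ ε := by
  intro ε hε'
  obtain ⟨τ, hτ, hsm⟩ := small_area (I := I) (half_pos hε) C (η := ε / 4) (by positivity)
  obtain ⟨k, hk⟩ := Kc_layer (I := I) hε hτ
  refine ⟨k, ?_⟩
  filter_upwards [ex_dd (I := I) hε, hsm, hY, hC, hk] with n hex hsm hY hC hk
  have hδ := I.hM.1 n
  obtain ⟨Q, hQ, hQc, h⟩ := hex (Kx I ε0 n \ Kc I ε0 k n) fun x hx =>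
    off_of_mem_Kx (Finset.mem_sdiff.mp hx).1
  have h1 := h (Y n) id rfl
  simp only [id] at h1
  rw [h1, mul_sum]
  have h2 : ∀ i j, I.δ n ^ 2 * ∑ p ∈ Q i j, ∫ ω, (I.δ n)⁻¹ * |gr (Y n) p.1 p.2 ω| ∂(I.P0 n) ≤
      ε / 4 := fun i j => by
    rw [integral_inv_mul]
    refine hsm _ (hQ i j) ?_ _ hY hC
    refine le_trans ?_ hk
    have : ((Q i j).card : ℝ) ≤ ((Kx I ε0 n \ Kc I ε0 k n).card : ℝ) := by exact_mod_cast hQc i j
    gcongr
  calc ∑ i, I.δ n ^ 2 * ∑ j, ∑ p ∈ Q i j, ∫ ω, (I.δ n)⁻¹ * |gr (Y n) p.1 p.2 ω| ∂(I.P0 n)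
      = ∑ i, ∑ j, I.δ n ^ 2 * ∑ p ∈ Q i j, ∫ ω, (I.δ n)⁻¹ * |gr (Y n) p.1 p.2 ω| ∂(I.P0 n) :=
        sum_congr rfl fun i _ => mul_sum _ _ _
    _ ≤ ∑ _i : Fin 2, ∑ _j : Fin 2, ε / 4 :=
        sum_le_sum fun i _ => sum_le_sum fun j _ => h2 i j
    _ = ε := by
        simp only [sum_const, card_univ, Fintype.card_fin, nsmul_eq_mul]; push_cast; ring

/-- `UpHyp.ui` -/
theorem up_ui (hε : 0 < ε0) {Y : ∀ n, (I.Fr n → ℝ) → (I.Fr n → ℝ)}
    (hY : ∀ᶠ n in atTop, NiceF I n (Y n)) {C : ℝ} (hC : ∀ᶠ n in atTop, EnI n (Y n) ≤ C) :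
    ∀ ε : ℝ, 0 < ε → ∃ Λ0 : ℝ, ∀ᶠ n in atTop, I.δ n ^ 2 * ∑ i, Ex (I.P0 n) (Kx I ε0 n)
      (fun x ω => max 0 (|dd (dir i) (uf ((I.δ n)⁻¹ • Y n)) x ω| - Λ0)) ≤ ε := by
  intro ε hε'
  obtain ⟨Λ, hΛ, hui⟩ := uig (I := I) (half_pos hε) C (η := ε / 4) (by positivity)
  refine ⟨Λ, ?_⟩
  filter_upwards [ex_dd (I := I) hε, hui, hY, hC] with n hex hui hY hC
  have hδ := I.hM.1 n
  obtain ⟨Q, hQ, -, h⟩ := hex (Kx I ε0 n) fun x hx => off_of_mem_Kx hx
  have h1 := h (Y n) (fun t => max 0 (t - Λ)) (by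
    simp only [zero_sub]; exact max_eq_left (by linarith))
  rw [h1, mul_sum]
  have h2 : ∀ i j, I.δ n ^ 2 * ∑ p ∈ Q i j,
      ∫ ω, max 0 ((I.δ n)⁻¹ * |gr (Y n) p.1 p.2 ω| - Λ) ∂(I.P0 n) ≤ ε / 4 := fun i j => by
    refine le_trans ?_ (hui _ (hQ i j) _ hY hC)
    have e : ∀ x : ℝ, I.δ n ^ 2 * x = I.δ n * (I.δ n * x) := fun x => by ring
    rw [e]
    refine mul_le_mul_of_nonneg_left ?_ hδ.le
    rw [mul_sum]
    refine sum_le_sum fun p _ => ?_
    rw [← integral_const_mul]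
    obtain ⟨c, hc⟩ := hY.bdd p.1 p.2
    have hm := (hY.measurable_gr p.1 p.2).abs
    refine integral_mono_of_nonneg (Eventually.of_forall fun ω => by positivity) ?_
      (Eventually.of_forall fun ω => ?_)
    · refine int_of_bdd (Measurable.ite (measurableSet_lt measurable_const hm) hm
        measurable_const) (C := c) fun h => ?_
      split_ifs
      · rw [abs_abs]; exact hc h
      · rw [abs_zero]; exact (abs_nonneg _).trans (hc h)
    · simp only
      have hg0 := abs_nonneg (gr (Y n) p.1 p.2 ω)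
      split_ifs with hlt
      · rw [mul_max_of_nonneg _ _ hδ.le, mul_zero, mul_sub, ← mul_assoc,
          mul_inv_cancel₀ hδ.ne', one_mul]
        refine max_le hg0 ?_
        have := mul_pos hδ hΛ
        linarith
      · have h3 : (I.δ n)⁻¹ * |gr (Y n) p.1 p.2 ω| - Λ ≤ 0 := by
          push Not at hlt
          rw [sub_nonpos, inv_mul_le_iff₀ hδ]
          linarith
        rw [max_eq_left h3, mul_zero]
  calc ∑ i, I.δ n ^ 2 * ∑ j, ∑ p ∈ Q i j,
        ∫ ω, max 0 ((I.δ n)⁻¹ * |gr (Y n) p.1 p.2 ω| - Λ) ∂(I.P0 n)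
      = ∑ i, ∑ j, I.δ n ^ 2 * ∑ p ∈ Q i j,
        ∫ ω, max 0 ((I.δ n)⁻¹ * |gr (Y n) p.1 p.2 ω| - Λ) ∂(I.P0 n) :=
        sum_congr rfl fun i _ => mul_sum _ _ _
    _ ≤ ∑ _i : Fin 2, ∑ _j : Fin 2, ε / 4 :=
        sum_le_sum fun i _ => sum_le_sum fun j _ => h2 i j
    _ = ε := by
        simp only [sum_const, card_univ, Fintype.card_fin, nsmul_eq_mul]; push_cast; ring

end fields

end Crest.Agent.R144.Uig714
end

-- ▼ part R144/Hs5_865
section

/-!
# R144, static functional inequalities (helper865), file 8: density of the range of `L`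
-/

set_option autoImplicit false
set_option linter.unusedSectionVars false

open MeasureTheory Set Filter Topology
open scoped ENNReal NNReal ContDiff Convolution Pointwise RealInnerProductSpace

namespace Crest.Agent.R144.Hs865

noncomputable section

variable {ι : Type*} [Fintype ι] [DecidableEq ι]

variable {g ρ θ κ ψ χ H : (ι → ℝ) → ℝ}

/-- a sequence of continuous functions with vanishing variance on a compact set and an a.e. limit:
the limit is a.e. constant -/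
theorem const_of_var {B : Set (ι → ℝ)} (cB : IsCompact B) (hB0 : volume B ≠ 0)
    {f : ℕ → (ι → ℝ) → ℝ} (hf : ∀ n, Continuous (f n)) {F : (ι → ℝ) → ℝ}
    (hae : ∀ᵐ x ∂volume.restrict B, Tendsto (fun n => f n x) atTop (𝓝 (F x)))
    (hv : Tendsto (fun n => volume.real B * (∫ x in B, f n x ^ 2) - (∫ x in B, f n x) ^ 2)
      atTop (𝓝 0)) :
    ∃ c, ∀ᵐ x ∂volume.restrict B, F x = c := by
  have hBfin : volume B ≠ ⊤ := cB.measure_lt_top.ne
  have hV : 0 < volume.real B := ENNReal.toReal_pos hB0 hBfin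
  have : IsFiniteMeasure (volume.restrict B) := ⟨by
    rw [Measure.restrict_apply_univ]; exact cB.measure_lt_top⟩
  set V := volume.real B with hVdef
  set m : ℕ → ℝ := fun n => (∫ x in B, f n x) / V with hm
  have i1 : ∀ n, IntegrableOn (f n) B volume := fun n =>
    (hf n).continuousOn.integrableOn_compact cB
  have i2 : ∀ n, IntegrableOn (fun x => f n x ^ 2) B volume := fun n =>
    ((hf n).pow 2).continuousOn.integrableOn_compact cB
  have i3 : ∀ n, IntegrableOn (fun x => (f n x - m n) ^ 2) B volume := fun n =>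
    (((hf n).sub continuous_const).pow 2).continuousOn.integrableOn_compact cB
  have e1 : ∀ n, ∫ x in B, (f n x - m n) ^ 2 =
      (V * (∫ x in B, f n x ^ 2) - (∫ x in B, f n x) ^ 2) / V := by
    intro n
    have h1 : ∫ x in B, (f n x - m n) ^ 2 =
        (∫ x in B, f n x ^ 2) - 2 * m n * (∫ x in B, f n x) + m n ^ 2 * V := by
      have h2 : ∫ x in B, m n ^ 2 = m n ^ 2 * V := by
        rw [setIntegral_const, smul_eq_mul, mul_comm]
      rw [← h2, ← integral_const_mul]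
      have i4 : IntegrableOn (fun x => f n x ^ 2 - 2 * m n * f n x) B volume :=
        (i2 n).sub ((i1 n).const_mul _)
      rw [← integral_sub (i2 n) ((i1 n).const_mul _), ← integral_add i4
        (integrableOn_const hBfin)]
      refine integral_congr_ae (ae_of_all _ fun x => ?_)
      show (f n x - m n) ^ 2 = f n x ^ 2 - 2 * m n * f n x + m n ^ 2
      ring
    rw [h1, hm]
    show _ - 2 * ((∫ x in B, f n x) / V) * _ + ((∫ x in B, f n x) / V) ^ 2 * V = _
    field_simp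
    ring
  have l1 : Tendsto (fun n => ∫ x in B, (f n x - m n) ^ 2) atTop (𝓝 0) := by
    simp_rw [e1]
    simpa using hv.div_const V
  have hmem : ∀ n, MemLp (fun x => f n x - m n) 2 (volume.restrict B) := fun n =>
    (memLp_two_iff_integrable_sq ((hf n).sub continuous_const).aestronglyMeasurable).2 (i3 n)
  have l2 : Tendsto (fun n => eLpNorm ((fun n x => f n x - m n) n - 0) 2 (volume.restrict B))
      atTop (𝓝 0) := by
    have h1 : ∀ n, eLpNorm ((fun n x => f n x - m n) n - 0) 2 (volume.restrict B) =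
        ENNReal.ofReal ((∫ x in B, (f n x - m n) ^ 2) ^ (2 : ℝ)⁻¹) := by
      intro n
      rw [sub_zero, (hmem n).eLpNorm_eq_integral_rpow_norm two_ne_zero ENNReal.ofNat_ne_top]
      congr 2
      · refine integral_congr_ae (ae_of_all _ fun x => ?_)
        show ‖f n x - m n‖ ^ (2 : ℝ≥0∞).toReal = (f n x - m n) ^ 2
        rw [ENNReal.toReal_ofNat, Real.rpow_ofNat, Real.norm_eq_abs, sq_abs]
    simp_rw [h1]
    have h2 : Tendsto (fun n => (∫ x in B, (f n x - m n) ^ 2) ^ (2 : ℝ)⁻¹) atTop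
        (𝓝 ((0 : ℝ) ^ (2 : ℝ)⁻¹)) := l1.rpow_const (Or.inr (by norm_num))
    rw [Real.zero_rpow (by norm_num)] at h2
    simpa using ENNReal.tendsto_ofReal h2
  have l3 : TendstoInMeasure (volume.restrict B) (fun n x => f n x - m n) atTop
      (0 : (ι → ℝ) → ℝ) :=
    tendstoInMeasure_of_tendsto_eLpNorm two_ne_zero
      (fun n => ((hf n).sub continuous_const).aestronglyMeasurable)
      aestronglyMeasurable_zero l2
  obtain ⟨ns, hns, hns2⟩ := l3.exists_seq_tendsto_ae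
  have hall : ∀ᵐ x ∂volume.restrict B, Tendsto (fun k => m (ns k)) atTop (𝓝 (F x)) := by
    filter_upwards [hae, hns2] with x h1 h2
    have h3 := (h1.comp hns.tendsto_atTop).sub h2
    have h4 : (fun k => m (ns k)) = fun k => ((fun n => f n x) ∘ ns) k -
        (f (ns k) x - m (ns k)) := by
      funext k
      show m (ns k) = f (ns k) x - (f (ns k) x - m (ns k))
      ring
    rw [h4]
    simpa using h3
  have hne : (volume.restrict B) ≠ 0 := by
    intro h
    apply hB0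
    have := congrArg (fun μ => μ univ) h
    simpa using this
  have : NeBot (ae (volume.restrict B)) := ae_neBot.2 hne
  obtain ⟨x1, hx1⟩ := hall.exists
  refine ⟨F x1, ?_⟩
  filter_upwards [hall] with x hx
  exact tendsto_nhds_unique hx hx1

theorem liouville_ball (hH : ContDiff ℝ 1 H) (hg : LocallyIntegrable g)
    (hg2 : LocallyIntegrable fun t => g t ^ 2)
    (hg3 : Integrable fun t => g t ^ 2 * Real.exp (H t)) {C : ℝ} (hC : 0 ≤ C)
    (hL : ∀ i x y, |pd i H x - pd i H y| ≤ C * ‖x - y‖)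
    (hF : ∀ φ : (ι → ℝ) → ℝ, ContDiff ℝ ∞ φ → HasCompactSupport φ →
      ∫ x, g x * Lp H φ x = 0) {R0 : ℝ} (hR0 : 0 < R0) :
    ∃ c, ∀ᵐ x ∂volume.restrict (Metric.closedBall (0 : ι → ℝ) R0),
      g x * Real.exp (H x) = c := by
  set B : Set (ι → ℝ) := Metric.closedBall (0 : ι → ℝ) R0 with hB
  have cB : IsCompact B := isCompact_closedBall _ _
  have hB0 : volume B ≠ 0 := (Metric.measure_closedBall_pos volume _ hR0).ne'
  have hEp : ContDiff ℝ 1 fun x => Real.exp (H x) := Real.contDiff_exp.comp hH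
  have hFc : ∀ n, ContDiff ℝ 1 fun y => cv g (rho n) y * Real.exp (H y) := fun n =>
    (contDiff_cv (n := 1) hg ((contDiff_rho n).of_le (by exact_mod_cast le_top))
      (hcs_rho n)).mul hEp
  refine const_of_var cB hB0 (f := fun n y => cv g (rho n) y * Real.exp (H y))
    (fun n => (hFc n).continuous) ?_ ?_
  · refine ae_restrict_of_ae ?_
    filter_upwards [cv_rho_ae hg] with x hx
    exact hx.mul_const _
  · have hgt := grad_tendsto hH hg hg2 hg3 hC hL hF hR0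
    set d : ℝ := (Fintype.card ι + 1) * R0 with hd
    have hd0 : 0 < d := by positivity
    have hb : ∀ x ∈ B, ∑ v, (x v - (0 : ι → ℝ) v) ^ 2 ≤ d ^ 2 := by
      intro x hx
      have h1 : ∀ v, (x v - (0 : ι → ℝ) v) ^ 2 ≤ R0 ^ 2 := by
        intro v
        have h2 : |x v| ≤ R0 := (norm_le_pi_norm x v).trans (mem_closedBall_zero_iff.1 hx)
        rw [Pi.zero_apply, sub_zero, ← sq_abs]
        exact pow_le_pow_left₀ (abs_nonneg _) h2 2
      have h2 := Finset.sum_le_sum fun v (_ : v ∈ Finset.univ) => h1 v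
      rw [Finset.sum_const, Finset.card_univ, nsmul_eq_mul] at h2
      refine h2.trans ?_
      rw [hd, mul_pow]
      refine mul_le_mul_of_nonneg_right ?_ (sq_nonneg _)
      have h3 : (0 : ℝ) ≤ Fintype.card ι := Nat.cast_nonneg _
      nlinarith
    have hup : ∀ n, volume.real B * (∫ x in B, (cv g (rho n) x * Real.exp (H x)) ^ 2) -
        (∫ x in B, cv g (rho n) x * Real.exp (H x)) ^ 2 ≤
        2 * d ^ 2 * volume.real B * ∫ x in B,
          ∑ i, pd i (fun y => cv g (rho n) y * Real.exp (H y)) x ^ 2 := by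
      intro n
      have hlip : ∃ L : ℝ≥0, LipschitzOnWith L (fun y => cv g (rho n) y * Real.exp (H y)) B := by
        have hc1 : Continuous fun x => ‖fderiv ℝ (fun y => cv g (rho n) y * Real.exp (H y)) x‖ :=
          ((hFc n).continuous_fderiv one_ne_zero).norm
        obtain ⟨M, hM⟩ := (cB.image hc1).bddAbove
        refine ⟨M.toNNReal, ?_⟩
        refine (convex_closedBall (0 : ι → ℝ) R0).lipschitzOnWith_of_nnnorm_fderiv_le
          (fun x _ => (hFc n).differentiable (by norm_num) x) fun x hx => ?_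
        rw [← NNReal.coe_le_coe, coe_nnnorm, Real.coe_toNNReal']
        exact (hM ⟨x, hx, rfl⟩).trans (le_max_left _ _)
      obtain ⟨L, hL'⟩ := hlip
      exact Fi865.pw_pi (convex_closedBall (0 : ι → ℝ) R0) cB.measurableSet hd0 hb hL'
    have hlo : ∀ n, 0 ≤ volume.real B * (∫ x in B, (cv g (rho n) x * Real.exp (H x)) ^ 2) -
        (∫ x in B, cv g (rho n) x * Real.exp (H x)) ^ 2 := by
      intro n
      have hBfin : volume B ≠ ⊤ := cB.measure_lt_top.ne
      have hV : 0 < volume.real B := ENNReal.toReal_pos hB0 hBfin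
      set V := volume.real B with hVdef
      set f : (ι → ℝ) → ℝ := fun x => cv g (rho n) x * Real.exp (H x) with hf
      set m : ℝ := ∫ x in B, f x with hm
      have i1 : IntegrableOn f B volume := (hFc n).continuous.continuousOn.integrableOn_compact cB
      have i2 : IntegrableOn (fun x => f x ^ 2) B volume :=
        ((hFc n).continuous.pow 2).continuousOn.integrableOn_compact cB
      have h1 : 0 ≤ ∫ x in B, (V * f x - m) ^ 2 := integral_nonneg fun x => sq_nonneg _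
      have h2 : ∫ x in B, (V * f x - m) ^ 2 =
          V ^ 2 * (∫ x in B, f x ^ 2) - 2 * V * m * (∫ x in B, f x) + m ^ 2 * V := by
        have h2 : ∫ x in B, m ^ 2 = m ^ 2 * V := by
          rw [setIntegral_const, smul_eq_mul, mul_comm]
        rw [← h2, ← integral_const_mul, ← integral_const_mul]
        have i4 : IntegrableOn (fun x => V ^ 2 * f x ^ 2 - 2 * V * m * f x) B volume :=
          (i2.const_mul _).sub (i1.const_mul _)
        rw [← integral_sub (i2.const_mul _) (i1.const_mul _), ← integral_add i4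
          (integrableOn_const hBfin)]
        refine integral_congr_ae (ae_of_all _ fun x => ?_)
        show (V * f x - m) ^ 2 = V ^ 2 * f x ^ 2 - 2 * V * m * f x + m ^ 2
        ring
      have h3 : V ^ 2 * (∫ x in B, f x ^ 2) - 2 * V * m * (∫ x in B, f x) + m ^ 2 * V =
          V * (V * (∫ x in B, f x ^ 2) - m ^ 2) := by
        rw [← hm]; ring
      rw [h2, h3] at h1
      exact nonneg_of_mul_nonneg_right h1 hV
    refine tendsto_of_tendsto_of_tendsto_of_le_of_le tendsto_const_nhds ?_ hlo hup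
    simpa using hgt.const_mul (2 * d ^ 2 * volume.real B)

/-- **Liouville theorem** -/
theorem liouville (hH : ContDiff ℝ 1 H) (hg : LocallyIntegrable g)
    (hg2 : LocallyIntegrable fun t => g t ^ 2)
    (hg3 : Integrable fun t => g t ^ 2 * Real.exp (H t)) {C : ℝ} (hC : 0 ≤ C)
    (hL : ∀ i x y, |pd i H x - pd i H y| ≤ C * ‖x - y‖)
    (hF : ∀ φ : (ι → ℝ) → ℝ, ContDiff ℝ ∞ φ → HasCompactSupport φ →
      ∫ x, g x * Lp H φ x = 0) :
    ∃ c, ∀ᵐ x, g x * Real.exp (H x) = c := by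
  have h1 : ∀ n : ℕ, ∃ c, ∀ᵐ x ∂volume.restrict (Metric.closedBall (0 : ι → ℝ) (n + 1)),
      g x * Real.exp (H x) = c := fun n => liouville_ball hH hg hg2 hg3 hC hL hF (by positivity)
  choose c hc using h1
  have hc0 : ∀ n, c n = c 0 := by
    intro n
    have hsub : Metric.closedBall (0 : ι → ℝ) ((0 : ℕ) + 1) ⊆
        Metric.closedBall (0 : ι → ℝ) (n + 1) := Metric.closedBall_subset_closedBall (by
          have : (0 : ℝ) ≤ n := Nat.cast_nonneg n
          push_cast; linarith)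
    have h2 := ae_restrict_of_ae_restrict_of_subset hsub (hc n)
    have hne : (volume.restrict (Metric.closedBall (0 : ι → ℝ) ((0 : ℕ) + 1))) ≠ 0 := by
      intro h
      have h3 : volume (Metric.closedBall (0 : ι → ℝ) ((0 : ℕ) + 1)) ≠ 0 :=
        (Metric.measure_closedBall_pos volume _ (by norm_num)).ne'
      apply h3
      have := congrArg (fun μ => μ univ) h
      simp at this
    have : NeBot (ae (volume.restrict (Metric.closedBall (0 : ι → ℝ) ((0 : ℕ) + 1)))) :=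
      ae_neBot.2 hne
    obtain ⟨x, hx1, hx2⟩ := (h2.and (hc 0)).exists
    rw [← hx1, hx2]
  refine ⟨c 0, ?_⟩
  have h3 : ∀ n : ℕ, ∀ᵐ x, x ∈ Metric.closedBall (0 : ι → ℝ) (n + 1) →
      g x * Real.exp (H x) = c 0 := by
    intro n
    have := (ae_restrict_iff' (isCompact_closedBall (0 : ι → ℝ) (n + 1)).measurableSet).1 (hc n)
    rwa [hc0] at this
  filter_upwards [ae_all_iff.2 h3] with x hx
  obtain ⟨n, hn⟩ := exists_nat_ge ‖x‖
  exact hx n (mem_closedBall_zero_iff.2 (by linarith))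

end

end Crest.Agent.R144.Hs865
end

-- ▼ part R144/Hs6_865
section

/-!
# R144, static functional inequalities (helper865), file 9: the Helffer–Sjöstrand upper bound

`H : (ι → ℝ) → ℝ` of class `C²`, `∇H` Lipschitz, `exp (-H)` integrable.

* `density`   : the functions `Lφ = Δφ − ⟨∇H, ∇φ⟩`, `φ ∈ C_c^∞`, are dense in the centred part of
  `L²(e^{-H})` (only `H` of class `C¹` with Lipschitz gradient is used);
* `hs_upper`  : for `G` of class `C¹` in `L²(e^{-H})` and `ε > 0` there is `φ ∈ C_c^∞` with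
  `∫ (G-m)² e^{-H} ≤ 2 ∫ ⟨∇φ,∇G⟩ e^{-H} − ∫ (‖D²φ‖² + D²H(∇φ,∇φ)) e^{-H} + ε`;
* `hs_var_le` : the dual variance bound.
-/

set_option autoImplicit false
set_option linter.unusedSectionVars false

open MeasureTheory Set Filter Topology
open scoped ENNReal NNReal ContDiff Convolution Pointwise RealInnerProductSpace

namespace Crest.Agent.R144.Hs865

noncomputable section

variable {ι : Type*} [Fintype ι] [DecidableEq ι]

variable {g ρ θ κ φ ψ χ H G : (ι → ℝ) → ℝ}

/-- the measure `e^{-H} dx` -/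
def muH (H : (ι → ℝ) → ℝ) : Measure (ι → ℝ) :=
  volume.withDensity fun x => ENNReal.ofReal (Real.exp (-H x))

theorem meas_w (hH : Continuous H) : Measurable fun x => ENNReal.ofReal (Real.exp (-H x)) :=
  (Real.continuous_exp.comp hH.neg).measurable.ennreal_ofReal

theorem int_mu (hH : Continuous H) (f : (ι → ℝ) → ℝ) :
    ∫ x, f x ∂muH H = ∫ x, f x * Real.exp (-H x) := by
  unfold muH
  rw [integral_withDensity_eq_integral_toReal_smul (meas_w hH)
    (ae_of_all _ fun x => ENNReal.ofReal_lt_top)]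
  refine integral_congr_ae (ae_of_all _ fun x => ?_)
  show (ENNReal.ofReal (Real.exp (-H x))).toReal • f x = f x * Real.exp (-H x)
  rw [ENNReal.toReal_ofReal (Real.exp_pos _).le, smul_eq_mul, mul_comm]

theorem integrable_mu (hH : Continuous H) (f : (ι → ℝ) → ℝ) :
    Integrable f (muH H) ↔ Integrable fun x => f x * Real.exp (-H x) := by
  unfold muH
  rw [integrable_withDensity_iff_integrable_smul' (meas_w hH)
    (ae_of_all _ fun x => ENNReal.ofReal_lt_top)]
  refine integrable_congr (ae_of_all _ fun x => ?_)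
  show (ENNReal.ofReal (Real.exp (-H x))).toReal • f x = f x * Real.exp (-H x)
  rw [ENNReal.toReal_ofReal (Real.exp_pos _).le, smul_eq_mul, mul_comm]

theorem mu_ac : muH H ≪ (volume : Measure (ι → ℝ)) := withDensity_absolutelyContinuous _ _


theorem Lp_add (hφ : ContDiff ℝ 2 φ) (hψ : ContDiff ℝ 2 ψ) (x : ι → ℝ) :
    Lp H (fun y => φ y + ψ y) x = Lp H φ x + Lp H ψ x := by
  have h1 : ∀ i, pd i (fun y => φ y + ψ y) = fun y => pd i φ y + pd i ψ y := fun i =>
    funext fun y => pd_add (hφ.differentiable (by norm_num) y) (hψ.differentiable (by norm_num) y)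
  unfold Lp
  rw [← Finset.sum_add_distrib]
  refine Finset.sum_congr rfl fun i _ => ?_
  rw [h1, pd_add ((contDiff_pd (m := 1) hφ (by norm_num) i).differentiable (by norm_num) x)
    ((contDiff_pd (m := 1) hψ (by norm_num) i).differentiable (by norm_num) x)]
  ring

theorem pd_cmul {f : (ι → ℝ) → ℝ} (c : ℝ) {x : ι → ℝ} (i : ι) (hf : DifferentiableAt ℝ f x) :
    pd i (fun y => c * f y) x = c * pd i f x := by
  rw [pd_mul (differentiableAt_const c) hf, pd_const]; ring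

theorem Lp_smul (c : ℝ) (hφ : ContDiff ℝ 2 φ) (x : ι → ℝ) :
    Lp H (fun y => c * φ y) x = c * Lp H φ x := by
  have h1 : ∀ i, pd i (fun y => c * φ y) = fun y => c * pd i φ y := fun i =>
    funext fun y => pd_cmul c i (hφ.differentiable (by norm_num) y)
  unfold Lp
  rw [Finset.mul_sum]
  refine Finset.sum_congr rfl fun i _ => ?_
  rw [h1, pd_cmul c i ((contDiff_pd (m := 1) hφ (by norm_num) i).differentiable (by norm_num) x)]
  ring

theorem fin_mu (hi : Integrable fun x => Real.exp (-H x)) : IsFiniteMeasure (muH H) :=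
  isFiniteMeasure_withDensity_ofReal hi.2

theorem Lp_memLp (hH : ContDiff ℝ 1 H) (hi : Integrable fun x => Real.exp (-H x))
    (hφ : ContDiff ℝ 2 φ) (hc : HasCompactSupport φ) : MemLp (Lp H φ) 2 (muH H) := by
  have := fin_mu hi
  have h1 : MemLp (Lp H φ) ⊤ (muH H) :=
    (continuous_Lp hH hφ).memLp_top_of_hasCompactSupport (hcs_Lp hc) _
  exact h1.mono_exponent le_top

/-- the range of `L` on test functions as a subspace of `L²(e^{-H})` -/
def rangeL (H : (ι → ℝ) → ℝ) : Submodule ℝ (MeasureTheory.Lp ℝ 2 (muH H)) where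
  carrier := {f | ∃ φ : (ι → ℝ) → ℝ, ContDiff ℝ ∞ φ ∧ HasCompactSupport φ ∧
    (f : (ι → ℝ) → ℝ) =ᵐ[muH H] Lp H φ}
  zero_mem' := by
    refine ⟨fun _ => 0, contDiff_const, HasCompactSupport.zero, ?_⟩
    have h1 : Lp H (fun _ : ι → ℝ => (0 : ℝ)) = fun _ => 0 := by
      funext x
      unfold Lp
      refine Finset.sum_eq_zero fun i _ => ?_
      have h2 : pd i (fun _ : ι → ℝ => (0 : ℝ)) = fun _ => 0 := funext fun y => pd_const 0
      rw [h2, pd_const]; ring
    rw [h1]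
    exact Lp.coeFn_zero _ _ _
  add_mem' := by
    rintro f g ⟨φ, h1, h2, h3⟩ ⟨ψ, k1, k2, k3⟩
    refine ⟨fun x => φ x + ψ x, h1.add k1, h2.add k2, ?_⟩
    filter_upwards [MeasureTheory.Lp.coeFn_add f g, h3, k3] with x e1 e2 e3
    rw [e1, Pi.add_apply, e2, e3, Lp_add (contDiff_infty.1 h1 2)
      (contDiff_infty.1 k1 2)]
  smul_mem' := by
    rintro c f ⟨φ, h1, h2, h3⟩
    refine ⟨fun x => c * φ x, contDiff_const.mul h1, h2.mul_left, ?_⟩
    filter_upwards [MeasureTheory.Lp.coeFn_smul c f, h3] with x e1 e2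
    rw [e1, Pi.smul_apply, e2, Lp_smul c (contDiff_infty.1 h1 2), smul_eq_mul]

/-- a function orthogonal to the range of `L` is constant -/
theorem orth_const (hH : ContDiff ℝ 1 H) (hi : Integrable fun x => Real.exp (-H x)) {C : ℝ}
    (hC : 0 ≤ C) (hL : ∀ i x y, |pd i H x - pd i H y| ≤ C * ‖x - y‖)
    {F : (ι → ℝ) → ℝ} (hF : MemLp F 2 (muH H))
    (hFo : ∀ φ : (ι → ℝ) → ℝ, ContDiff ℝ ∞ φ → HasCompactSupport φ →
      ∫ x, F x * Lp H φ x ∂muH H = 0) :
    ∃ c, ∀ᵐ x ∂muH H, F x = c := by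
  have := fin_mu hi
  have cE : Continuous fun x => Real.exp (-H x) := (contDiff_expneg hH).continuous
  have hF1 : Integrable F (muH H) := hF.integrable (by norm_num)
  have hF2 : Integrable (fun x => F x ^ 2) (muH H) := hF.integrable_sq
  set g : (ι → ℝ) → ℝ := fun x => F x * Real.exp (-H x) with hgdef
  have hg1 : Integrable g := (integrable_mu hH.continuous F).1 hF1
  have hg2 : Integrable fun x => F x ^ 2 * Real.exp (-H x) :=
    (integrable_mu hH.continuous _).1 hF2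
  have hwe : ∀ x, Real.exp (-H x) * Real.exp (H x) = 1 := fun x => by
    rw [← Real.exp_add]; simp
  have e1 : (fun x => g x ^ 2) = fun x => (F x ^ 2 * Real.exp (-H x)) * Real.exp (-H x) := by
    funext x; rw [hgdef]; ring
  have e2 : (fun x => g x ^ 2 * Real.exp (H x)) = fun x => F x ^ 2 * Real.exp (-H x) := by
    funext x
    show (F x * Real.exp (-H x)) ^ 2 * Real.exp (H x) = _
    linear_combination (F x ^ 2 * Real.exp (-H x)) * hwe x
  obtain ⟨c, hc⟩ := liouville (g := g) hH hg1.locallyIntegrable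
    (by rw [e1]; exact hg2.locallyIntegrable.mul_continuous cE) (by rw [e2]; exact hg2) hC hL
    (by
      intro φ h1 h2
      have h3 := hFo φ h1 h2
      rw [int_mu hH.continuous] at h3
      rw [← h3]
      refine integral_congr_ae (ae_of_all _ fun x => ?_)
      show F x * Real.exp (-H x) * Lp H φ x = F x * Lp H φ x * Real.exp (-H x)
      ring)
  refine ⟨c, mu_ac.ae_le ?_⟩
  filter_upwards [hc] with x hx
  rw [← hx]
  show F x = F x * Real.exp (-H x) * Real.exp (H x)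
  rw [mul_assoc, hwe, mul_one]

/-- **density of the range of `L`** -/
theorem density (hH : ContDiff ℝ 1 H) (hi : Integrable fun x => Real.exp (-H x)) {C : ℝ}
    (hC : 0 ≤ C) (hL : ∀ i x y, |pd i H x - pd i H y| ≤ C * ‖x - y‖)
    {u : (ι → ℝ) → ℝ} (hu : AEStronglyMeasurable u)
    (hu2 : Integrable fun x => u x ^ 2 * Real.exp (-H x))
    (hu0 : ∫ x, u x * Real.exp (-H x) = 0) {ε : ℝ} (hε : 0 < ε) :
    ∃ φ : (ι → ℝ) → ℝ, ContDiff ℝ ∞ φ ∧ HasCompactSupport φ ∧
      ∫ x, (Lp H φ x - u x) ^ 2 * Real.exp (-H x) ≤ ε := by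
  have := fin_mu hi
  have hum : AEStronglyMeasurable u (muH H) := hu.mono_ac mu_ac
  have hu2' : Integrable (fun x => u x ^ 2) (muH H) := (integrable_mu hH.continuous _).2 hu2
  have huL : MemLp u 2 (muH H) := (memLp_two_iff_integrable_sq hum).2 hu2'
  set U := huL.toLp u with hU
  have hUc : U ∈ (rangeL H).topologicalClosure := by
    rw [← Submodule.orthogonal_orthogonal_eq_closure]
    rw [Submodule.mem_orthogonal]
    intro F hF
    rw [Submodule.mem_orthogonal] at hF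
    obtain ⟨c, hc⟩ := orth_const hH hi hC hL (F := F) (MeasureTheory.Lp.memLp F) (by
      intro φ h1 h2
      have hm := Lp_memLp hH hi (contDiff_infty.1 h1 2) h2
      have h3 := hF (hm.toLp _) ⟨φ, h1, h2, hm.coeFn_toLp⟩
      rw [L2.inner_def] at h3
      rw [← h3]
      refine integral_congr_ae ?_
      filter_upwards [hm.coeFn_toLp] with x hx
      rw [hx]
      simp)
    rw [L2.inner_def]
    have h1 : ∫ x, ⟪F x, U x⟫ ∂muH H = ∫ x, c * u x ∂muH H := by
      refine integral_congr_ae ?_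
      filter_upwards [hc, huL.coeFn_toLp] with x h1 h2
      rw [hU, h1, h2]
      simp [mul_comm]
    rw [h1, integral_const_mul, int_mu hH.continuous, hu0, mul_zero]
  rw [← SetLike.mem_coe, Submodule.topologicalClosure_coe, Metric.mem_closure_iff] at hUc
  obtain ⟨k, ⟨φ, h1, h2, h3⟩, hk⟩ := hUc (Real.sqrt ε) (Real.sqrt_pos.2 hε)
  refine ⟨φ, h1, h2, ?_⟩
  rw [dist_eq_norm] at hk
  have h4 : ‖U - k‖ ^ 2 ≤ ε := by
    have := pow_le_pow_left₀ (norm_nonneg _) hk.le 2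
    rwa [Real.sq_sqrt hε.le] at this
  have h5 : ‖U - k‖ ^ 2 = ∫ x, (Lp H φ x - u x) ^ 2 ∂muH H := by
    rw [← real_inner_self_eq_norm_sq, L2.inner_def]
    refine integral_congr_ae ?_
    filter_upwards [MeasureTheory.Lp.coeFn_sub U k, h3, huL.coeFn_toLp] with x e1 e2 e3
    rw [e1, Pi.sub_apply, e2, hU, e3, real_inner_self_eq_norm_sq, Real.norm_eq_abs, sq_abs]
    ring
  rw [h5, int_mu hH.continuous] at h4
  exact h4

/-- **the Helffer–Sjöstrand upper bound** -/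
theorem hs_upper (hH : ContDiff ℝ 2 H) (hi : Integrable fun x => Real.exp (-H x)) {C : ℝ}
    (hC : 0 ≤ C) (hL : ∀ i x y, |pd i H x - pd i H y| ≤ C * ‖x - y‖)
    (hG : ContDiff ℝ 1 G) (hG2 : Integrable fun x => G x ^ 2 * Real.exp (-H x))
    {m : ℝ} (hm : ∫ x, (G x - m) * Real.exp (-H x) = 0) {ε : ℝ} (hε : 0 < ε) :
    ∃ φ : (ι → ℝ) → ℝ, ContDiff ℝ ∞ φ ∧ HasCompactSupport φ ∧
      ∫ x, (Lp H φ x + (G x - m)) ^ 2 * Real.exp (-H x) ≤ ε ∧
      ∫ x, (G x - m) ^ 2 * Real.exp (-H x) ≤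
        2 * (∫ x, (∑ i, pd i φ x * pd i G x) * Real.exp (-H x)) -
        (∫ x, ((∑ i, ∑ j, pd i (pd j φ) x ^ 2) +
          ∑ i, ∑ j, pd i (pd j H) x * pd i φ x * pd j φ x) * Real.exp (-H x)) + ε := by
  have hH1 : ContDiff ℝ 1 H := hH.of_le (by norm_num)
  have hE : Continuous fun x => Real.exp (-H x) := (contDiff_expneg hH1).continuous
  have hGm : ContDiff ℝ 1 fun x => G x - m := hG.sub contDiff_const
  -- square integrability of `G - m`
  have hG1 : Integrable fun x => G x * Real.exp (-H x) := by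
    refine Integrable.mono' (g := fun x => (G x ^ 2 * Real.exp (-H x)) + Real.exp (-H x))
      (hG2.add hi) (hG.continuous.mul hE).aestronglyMeasurable (ae_of_all _ fun x => ?_)
    rw [Real.norm_eq_abs, abs_mul, abs_of_pos (Real.exp_pos _)]
    have h1 : |G x| ≤ G x ^ 2 + 1 := by
      rw [← sq_abs]; nlinarith [sq_nonneg (|G x| - 1), abs_nonneg (G x)]
    have h2 := mul_le_mul_of_nonneg_right h1 (Real.exp_pos (-H x)).le
    linarith
  have hGm2 : Integrable fun x => (G x - m) ^ 2 * Real.exp (-H x) := by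
    have h1 : Integrable fun x => G x ^ 2 * Real.exp (-H x) -
      2 * m * (G x * Real.exp (-H x)) + m ^ 2 * Real.exp (-H x) :=
      (hG2.sub (hG1.const_mul _)).add (hi.const_mul _)
    refine h1.congr (ae_of_all _ fun x => ?_)
    show G x ^ 2 * Real.exp (-H x) - 2 * m * (G x * Real.exp (-H x)) + m ^ 2 * Real.exp (-H x) =
      (G x - m) ^ 2 * Real.exp (-H x)
    ring
  obtain ⟨φ, h1, h2, h3⟩ := density hH1 hi hC hL (u := fun x => -(G x - m))
    hGm.continuous.neg.aestronglyMeasurable (by simp_rw [neg_sq]; exact hGm2) (by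
      have : ∀ x, -(G x - m) * Real.exp (-H x) = -((G x - m) * Real.exp (-H x)) := fun x => by ring
      simp_rw [this]
      rw [integral_neg, hm, neg_zero]) hε
  have h3' : ∫ x, (Lp H φ x + (G x - m)) ^ 2 * Real.exp (-H x) ≤ ε := by
    refine le_trans (le_of_eq ?_) h3
    refine integral_congr_ae (ae_of_all _ fun x => ?_)
    show (Lp H φ x + (G x - m)) ^ 2 * Real.exp (-H x) =
      (Lp H φ x - -(G x - m)) ^ 2 * Real.exp (-H x)
    ring
  refine ⟨φ, h1, h2, h3', ?_⟩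
  have hφ2 : ContDiff ℝ 2 φ := contDiff_infty.1 h1 2
  have hφ3 : ContDiff ℝ 3 φ := contDiff_infty.1 h1 3
  have hbo := bochner hH hφ3 h2
  have hib := ibp hH1 hφ2 h2 hGm
  have e0 : ∀ i x, pd i (fun y => G y - m) x = pd i G x := by
    intro i x
    rw [pd_sub (hG.differentiable (by norm_num) x) (differentiableAt_const m), pd_const, sub_zero]
  simp_rw [e0] at hib
  have cL : Continuous (Lp H φ) := continuous_Lp hH1 hφ2
  have iL2 : Integrable fun x => Lp H φ x ^ 2 * Real.exp (-H x) := by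
    have hcc : Continuous fun x => Lp H φ x * (Lp H φ x * Real.exp (-H x)) := cL.mul (cL.mul hE)
    have h4 : Integrable (fun x => Lp H φ x * (Lp H φ x * Real.exp (-H x))) volume :=
      hcc.integrable_of_hasCompactSupport (hcs_Lp h2).mul_right
    refine h4.congr (ae_of_all _ fun x => ?_)
    show Lp H φ x * (Lp H φ x * Real.exp (-H x)) = _
    ring
  have iLG : Integrable fun x => Lp H φ x * (G x - m) * Real.exp (-H x) := by
    have hcc : Continuous fun x => Lp H φ x * (G x - m) * Real.exp (-H x) :=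
      (cL.mul hGm.continuous).mul hE
    exact hcc.integrable_of_hasCompactSupport (hcs_Lp h2).mul_right.mul_right
  have hex : ∫ x, (Lp H φ x + (G x - m)) ^ 2 * Real.exp (-H x) =
      (∫ x, Lp H φ x ^ 2 * Real.exp (-H x)) + 2 * (∫ x, Lp H φ x * (G x - m) *
        Real.exp (-H x)) + ∫ x, (G x - m) ^ 2 * Real.exp (-H x) := by
    have i3 : Integrable fun x => Lp H φ x ^ 2 * Real.exp (-H x) +
      2 * (Lp H φ x * (G x - m) * Real.exp (-H x)) := iL2.add (iLG.const_mul 2)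
    rw [← integral_const_mul, ← integral_add iL2 (iLG.const_mul 2), ← integral_add i3 hGm2]
    refine integral_congr_ae (ae_of_all _ fun x => ?_)
    show (Lp H φ x + (G x - m)) ^ 2 * Real.exp (-H x) = Lp H φ x ^ 2 * Real.exp (-H x) +
      2 * (Lp H φ x * (G x - m) * Real.exp (-H x)) + (G x - m) ^ 2 * Real.exp (-H x)
    ring
  rw [hex, hbo, hib] at h3'
  linarith


end

end Crest.Agent.R144.Hs865
end

-- ▼ part R144/Hs7_865
section

/-!
# R144, static functional inequalities (helper865), file 10: the upper bound in field form and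
wall Hamiltonians

* `fi3`      : `hs_upper` for bounded Hessian, with the field `Y = ∇φ` and 121's energy `en`;
* `wall`     : a `C²` soft wall, `wall = 0` on `(-∞, 0]`, `wall'' t = min t₊ 1`;
* `HamW`     : `H x = ∑ p ∈ J, k p * W p (a p x - c p) + lam / 2 * ∑ x_i² + b x`, its gradient,
  Hessian form, integrability of `(1 + ‖x‖)^n e^{-H}`, and `fi3` for it.
-/

set_option autoImplicit false
set_option linter.unusedSectionVars false

open MeasureTheory Set Filter Topology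
open scoped ENNReal NNReal ContDiff

namespace Crest.Agent.R144.Hs865

noncomputable section

variable {ι : Type*} [Fintype ι] [DecidableEq ι]

variable {φ H G : (ι → ℝ) → ℝ}

/-! ### generalities -/

theorem fderiv_eq_sum (f : (ι → ℝ) → ℝ) (x v : ι → ℝ) :
    fderiv ℝ f x v = ∑ i, v i * pd i f x := by
  have h1 : v = ∑ i, v i • (Pi.single i (1 : ℝ) : ι → ℝ) := by
    funext j
    rw [Finset.sum_apply]
    simp [Pi.single_apply]
  conv_lhs => rw [h1]
  rw [map_sum]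
  refine Finset.sum_congr rfl fun i _ => ?_
  rw [map_smul, smul_eq_mul]; rfl

theorem norm_fderiv_le {f : (ι → ℝ) → ℝ} {x : ι → ℝ} {B : ℝ} (hB : ∀ i, |pd i f x| ≤ B) :
    ‖fderiv ℝ f x‖ ≤ Fintype.card ι * |B| := by
  refine ContinuousLinearMap.opNorm_le_bound _ (by positivity) fun v => ?_
  rw [fderiv_eq_sum, Real.norm_eq_abs]
  refine (Finset.abs_sum_le_sum_abs _ _).trans ?_
  have h1 : ∀ i, |v i * pd i f x| ≤ |B| * ‖v‖ := fun i => by
    rw [abs_mul, mul_comm]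
    exact mul_le_mul ((hB i).trans (le_abs_self _)) (norm_le_pi_norm v i) (abs_nonneg _)
      (abs_nonneg _)
  refine (Finset.sum_le_sum fun i _ => h1 i).trans ?_
  rw [Finset.sum_const, Finset.card_univ, nsmul_eq_mul, mul_assoc]

/-- bounded Hessian implies Lipschitz gradient -/
theorem lip_of_hess (hH : ContDiff ℝ 2 H) {B : ℝ} (hB : ∀ i j x, |pd i (pd j H) x| ≤ B)
    (i : ι) (x y : ι → ℝ) : |pd i H x - pd i H y| ≤ Fintype.card ι * |B| * ‖x - y‖ := by
  have hd : ContDiff ℝ 1 (pd i H) := contDiff_pd hH (by norm_num) i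
  have := Convex.norm_image_sub_le_of_norm_fderiv_le (𝕜 := ℝ) (f := pd i H) (s := univ)
    (fun z _ => hd.differentiable (by norm_num) z)
    (fun z _ => norm_fderiv_le fun j => hB j i z) convex_univ (mem_univ y) (mem_univ x)
  simpa using this

/-- **`hs_upper` in field form** -/
theorem fi3 (hH : ContDiff ℝ 2 H) (hi : Integrable fun x => Real.exp (-H x)) {B : ℝ}
    (hB : ∀ i j x, |pd i (pd j H) x| ≤ B)
    (hG : ContDiff ℝ 1 G) (hG2 : Integrable fun x => G x ^ 2 * Real.exp (-H x))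
    {m : ℝ} (hm : ∫ x, (G x - m) * Real.exp (-H x) = 0) {ε : ℝ} (hε : 0 < ε) :
    ∃ Y : (ι → ℝ) → (ι → ℝ), ContDiff ℝ ∞ Y ∧ HasCompactSupport Y ∧
      (∫ x, (G x - m) ^ 2 * Real.exp (-H x) ≤
        2 * (∫ x, fderiv ℝ G x (Y x) * Real.exp (-H x)) -
        (∫ x, (MW121.en Y x + ∑ i, ∑ j, pd i (pd j H) x * Y x i * Y x j) *
          Real.exp (-H x)) + ε) ∧
      (∫ x, (MW121.en Y x + ∑ i, ∑ j, pd i (pd j H) x * Y x i * Y x j) * Real.exp (-H x) ≤
        2 * (∫ x, (G x - m) ^ 2 * Real.exp (-H x)) + 2 * ε) := by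
  have hL := lip_of_hess hH hB
  have hC : 0 ≤ Fintype.card ι * |B| := by positivity
  obtain ⟨φ, h1, h2, h3, h4⟩ := hs_upper hH hi hC hL hG hG2 hm hε
  have hH1 : ContDiff ℝ 1 H := hH.of_le (by norm_num)
  have hφ2 : ContDiff ℝ 2 φ := contDiff_infty.1 h1 2
  have hφ3 : ContDiff ℝ 3 φ := contDiff_infty.1 h1 3
  have hYc : ContDiff ℝ ∞ fun x i => pd i φ x := by
    rw [contDiff_pi]
    exact fun i => contDiff_pd h1 (by norm_num) i
  have hYi : ∀ x v i, fderiv ℝ (fun x i => pd i φ x) x v i = fderiv ℝ (pd i φ) x v := by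
    intro x v i
    have hd : ∀ i, DifferentiableAt ℝ (fun x => pd i φ x) x := fun i =>
      (contDiff_pd (m := 1) hφ2 (by norm_num) i).differentiable (by norm_num) x
    rw [fderiv_pi hd]; rfl
  have hen : ∀ x, MW121.en (fun x i => pd i φ x) x = ∑ i, ∑ j, pd i (pd j φ) x ^ 2 := by
    intro x
    unfold MW121.en
    rw [Finset.sum_comm]
    refine Finset.sum_congr rfl fun i _ => Finset.sum_congr rfl fun j _ => ?_
    rw [MW121.jac_apply, hYi]; rfl
  have hYs : HasCompactSupport fun (x : ι → ℝ) (i : ι) => pd i φ x := by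
    have h5 : HasCompactSupport (fderiv ℝ φ) := h2.fderiv ℝ
    refine h5.mono fun x hx => ?_
    rw [Function.mem_support] at hx ⊢
    intro h6
    apply hx
    funext i
    show fderiv ℝ φ x (Pi.single i 1) = 0
    rw [h6]; rfl
  have e1 : ∀ x, MW121.en (fun x i => pd i φ x) x + ∑ i, ∑ j, pd i (pd j H) x * pd i φ x *
      pd j φ x = (∑ i, ∑ j, pd i (pd j φ) x ^ 2) +
          ∑ i, ∑ j, pd i (pd j H) x * pd i φ x * pd j φ x := fun x => by rw [hen]
  refine ⟨fun x i => pd i φ x, hYc, hYs, ?_, ?_⟩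
  · simp_rw [e1, fderiv_eq_sum G]
    exact h4
  · simp_rw [e1]
    rw [← bochner hH hφ3 h2]
    have hE : Continuous fun x => Real.exp (-H x) := (contDiff_expneg hH1).continuous
    have cL : Continuous (Lp H φ) := continuous_Lp hH1 hφ2
    have hGm : Continuous fun x => G x - m := hG.continuous.sub continuous_const
    have iL2 : Integrable fun x => Lp H φ x ^ 2 * Real.exp (-H x) := by
      have hcc : Continuous fun x => Lp H φ x * (Lp H φ x * Real.exp (-H x)) :=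
        cL.mul (cL.mul hE)
      have h4 : Integrable (fun x => Lp H φ x * (Lp H φ x * Real.exp (-H x))) volume :=
        hcc.integrable_of_hasCompactSupport (hcs_Lp h2).mul_right
      refine h4.congr (ae_of_all _ fun x => ?_)
      show Lp H φ x * (Lp H φ x * Real.exp (-H x)) = _
      ring
    have iLG : Integrable fun x => Lp H φ x * (G x - m) * Real.exp (-H x) := by
      have hcc : Continuous fun x => Lp H φ x * (G x - m) * Real.exp (-H x) :=
        (cL.mul hGm).mul hE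
      exact hcc.integrable_of_hasCompactSupport (hcs_Lp h2).mul_right.mul_right
    have hG1 : Integrable fun x => G x * Real.exp (-H x) := by
      refine Integrable.mono' (g := fun x => (G x ^ 2 * Real.exp (-H x)) + Real.exp (-H x))
        (hG2.add hi) (hG.continuous.mul hE).aestronglyMeasurable (ae_of_all _ fun x => ?_)
      rw [Real.norm_eq_abs, abs_mul, abs_of_pos (Real.exp_pos _)]
      have h1 : |G x| ≤ G x ^ 2 + 1 := by
        rw [← sq_abs]; nlinarith [sq_nonneg (|G x| - 1), abs_nonneg (G x)]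
      have h2 := mul_le_mul_of_nonneg_right h1 (Real.exp_pos (-H x)).le
      linarith
    have hGm2 : Integrable fun x => (G x - m) ^ 2 * Real.exp (-H x) := by
      have h1 : Integrable fun x => G x ^ 2 * Real.exp (-H x) -
        2 * m * (G x * Real.exp (-H x)) + m ^ 2 * Real.exp (-H x) :=
        (hG2.sub (hG1.const_mul _)).add (hi.const_mul _)
      refine h1.congr (ae_of_all _ fun x => ?_)
      show G x ^ 2 * Real.exp (-H x) - 2 * m * (G x * Real.exp (-H x)) +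
        m ^ 2 * Real.exp (-H x) = (G x - m) ^ 2 * Real.exp (-H x)
      ring
    have iS : Integrable fun x => (Lp H φ x + (G x - m)) ^ 2 * Real.exp (-H x) := by
      have h1 : Integrable fun x => Lp H φ x ^ 2 * Real.exp (-H x) +
        2 * (Lp H φ x * (G x - m) * Real.exp (-H x)) + (G x - m) ^ 2 * Real.exp (-H x) :=
        (iL2.add (iLG.const_mul 2)).add hGm2
      refine h1.congr (ae_of_all _ fun x => ?_)
      show Lp H φ x ^ 2 * Real.exp (-H x) + 2 * (Lp H φ x * (G x - m) * Real.exp (-H x)) +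
        (G x - m) ^ 2 * Real.exp (-H x) = (Lp H φ x + (G x - m)) ^ 2 * Real.exp (-H x)
      ring
    calc ∫ x, Lp H φ x ^ 2 * Real.exp (-H x) ≤
        ∫ x, (2 * ((Lp H φ x + (G x - m)) ^ 2 * Real.exp (-H x)) +
          2 * ((G x - m) ^ 2 * Real.exp (-H x))) := by
          refine integral_mono iL2 ((iS.const_mul 2).add (hGm2.const_mul 2)) fun x => ?_
          show Lp H φ x ^ 2 * Real.exp (-H x) ≤ 2 * ((Lp H φ x + (G x - m)) ^ 2 *
            Real.exp (-H x)) + 2 * ((G x - m) ^ 2 * Real.exp (-H x))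
          have h1 : Lp H φ x ^ 2 ≤ 2 * (Lp H φ x + (G x - m)) ^ 2 + 2 * (G x - m) ^ 2 := by
            nlinarith [sq_nonneg (Lp H φ x + 2 * (G x - m))]
          have h2 := mul_le_mul_of_nonneg_right h1 (Real.exp_pos (-H x)).le
          linarith
      _ = 2 * (∫ x, (Lp H φ x + (G x - m)) ^ 2 * Real.exp (-H x)) +
          2 * ∫ x, (G x - m) ^ 2 * Real.exp (-H x) := by
          rw [integral_add (iS.const_mul 2) (hGm2.const_mul 2), integral_const_mul,
            integral_const_mul]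
      _ ≤ _ := by linarith

end

end Crest.Agent.R144.Hs865
end

-- ▼ part R144/Hsu10_498
section

/-!
# R144 (S0197), block HSU (helper498), file 10: coordinates

* `fi3_std` : `Fi3` for the standard basis of `EuclideanSpace ℝ ι`, from 865's `fi3`.
-/

set_option autoImplicit false
set_option linter.unusedSectionVars false

open MeasureTheory Set Filter Topology
open scoped ENNReal NNReal RealInnerProductSpace

namespace Crest.Agent.R144.Hsu498

noncomputable section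

section std

variable {ι : Type*} [Fintype ι] [DecidableEq ι]

/-- coordinates -/
abbrev cE (ι : Type*) [Fintype ι] : EuclideanSpace ℝ ι ≃L[ℝ] (ι → ℝ) := EuclideanSpace.equiv ι ℝ

theorem mp_cE : MeasurePreserving (fun x : EuclideanSpace ℝ ι => cE ι x) volume volume :=
  PiLp.volume_preserving_ofLp ι

theorem me_cE : MeasurableEmbedding (fun x : EuclideanSpace ℝ ι => cE ι x) :=
  (cE ι).toHomeomorph.measurableEmbedding

theorem int_cE (f : (ι → ℝ) → ℝ) : ∫ x : EuclideanSpace ℝ ι, f (cE ι x) = ∫ x, f x :=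
  mp_cE.integral_comp me_cE f

theorem integrable_cE (f : (ι → ℝ) → ℝ) :
    Integrable (fun x : EuclideanSpace ℝ ι => f (cE ι x)) ↔ Integrable f :=
  mp_cE.integrable_comp_emb me_cE

theorem cE_basis (i : ι) : cE ι (EuclideanSpace.basisFun ι ℝ i) = Pi.single i 1 := by
  rw [EuclideanSpace.basisFun_apply]; rfl

theorem norm_cE_le (x : EuclideanSpace ℝ ι) : ‖cE ι x‖ ≤ ‖x‖ := by
  have h := (PiLp.lipschitzWith_ofLp 2 (fun _ : ι => ℝ)).dist_le_mul x 0
  have h2 : ‖x.ofLp‖ ≤ ‖x‖ := by simpa [dist_zero_right] using h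
  exact h2

theorem fderiv_comp_cE {G : (ι → ℝ) → ℝ} (hG : Differentiable ℝ G) (x z : EuclideanSpace ℝ ι) :
    fderiv ℝ (fun x => G (cE ι x)) x z = fderiv ℝ G (cE ι x) (cE ι z) := by
  have h : HasFDerivAt (fun x => G (cE ι x)) ((fderiv ℝ G (cE ι x)).comp
      (cE ι : EuclideanSpace ℝ ι →L[ℝ] (ι → ℝ))) x :=
    (hG (cE ι x)).hasFDerivAt.comp x (cE ι).hasFDerivAt
  rw [h.fderiv]; rfl

theorem fderiv_comp_symm {H : EuclideanSpace ℝ ι → ℝ} (hH : Differentiable ℝ H) (x z : ι → ℝ) :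
    fderiv ℝ (fun x => H ((cE ι).symm x)) x z = fderiv ℝ H ((cE ι).symm x) ((cE ι).symm z) := by
  have h : HasFDerivAt (fun x => H ((cE ι).symm x)) ((fderiv ℝ H ((cE ι).symm x)).comp
      ((cE ι).symm : (ι → ℝ) →L[ℝ] EuclideanSpace ℝ ι)) x :=
    (hH ((cE ι).symm x)).hasFDerivAt.comp x (cE ι).symm.hasFDerivAt
  rw [h.fderiv]; rfl

/-- second derivatives in coordinates -/
theorem pd_pd_symm {H : EuclideanSpace ℝ ι → ℝ} (hH : ContDiff ℝ 2 H) (i j : ι) (x : ι → ℝ) :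
    Hs865.pd i (Hs865.pd j fun x => H ((cE ι).symm x)) x =
      fderiv ℝ (fderiv ℝ H) ((cE ι).symm x) (EuclideanSpace.basisFun ι ℝ i)
        (EuclideanSpace.basisFun ι ℝ j) := by
  have hb : ∀ i, (cE ι).symm (Pi.single i 1) = EuclideanSpace.basisFun ι ℝ i := fun i => by
    rw [← cE_basis, ContinuousLinearEquiv.symm_apply_apply]
  have h1 : (Hs865.pd j fun x => H ((cE ι).symm x)) =
      fun x => fderiv ℝ H ((cE ι).symm x) (EuclideanSpace.basisFun ι ℝ j) := by
    funext y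
    unfold Hs865.pd
    rw [fderiv_comp_symm (hH.differentiable (by norm_num)), hb]
  rw [h1]
  unfold Hs865.pd
  have h2 : HasFDerivAt (fderiv ℝ H) (fderiv ℝ (fderiv ℝ H) ((cE ι).symm x)) ((cE ι).symm x) :=
    (((hH.fderiv_right (m := 1) (by norm_num)).differentiable (by norm_num)) _).hasFDerivAt
  have h3 : HasFDerivAt (fun x => fderiv ℝ H ((cE ι).symm x))
      ((fderiv ℝ (fderiv ℝ H) ((cE ι).symm x)).comp
        ((cE ι).symm : (ι → ℝ) →L[ℝ] EuclideanSpace ℝ ι)) x :=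
    h2.comp x (cE ι).symm.hasFDerivAt
  have h4 := h3.clm_apply (hasFDerivAt_const (EuclideanSpace.basisFun ι ℝ j) x)
  rw [h4.fderiv]
  simp only [ContinuousLinearMap.comp_zero, zero_add, ContinuousLinearMap.flip_apply,
    ContinuousLinearMap.comp_apply]
  rw [← hb i]
  rfl

/-- the field in Euclidean coordinates -/
def up (Y : (ι → ℝ) → (ι → ℝ)) (x : EuclideanSpace ℝ ι) : EuclideanSpace ℝ ι :=
  (cE ι).symm (Y (cE ι x))

theorem hs_up {Y : (ι → ℝ) → (ι → ℝ)} (hY : Differentiable ℝ Y) (x : EuclideanSpace ℝ ι) :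
    hs (EuclideanSpace.basisFun ι ℝ) (up Y) x = MW121.en Y (cE ι x) := by
  unfold hs MW121.en
  rw [Finset.sum_comm]
  refine Finset.sum_congr rfl fun i _ => ?_
  have h : HasFDerivAt (up Y) (((cE ι).symm : (ι → ℝ) →L[ℝ] EuclideanSpace ℝ ι).comp
      ((fderiv ℝ Y (cE ι x)).comp (cE ι : EuclideanSpace ℝ ι →L[ℝ] (ι → ℝ)))) x :=
    (cE ι).symm.hasFDerivAt.comp x ((hY (cE ι x)).hasFDerivAt.comp x (cE ι).hasFDerivAt)
  rw [h.fderiv, EuclideanSpace.norm_sq_eq]
  refine Finset.sum_congr rfl fun u _ => ?_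
  rw [MW121.jac_apply, Real.norm_eq_abs, sq_abs, ← cE_basis]
  rfl

theorem fi3_std : Fi3 (EuclideanSpace.basisFun ι ℝ) := by
  intro H G C ε hH hC hi hG hG2 hε
  set H' : (ι → ℝ) → ℝ := fun x => H ((cE ι).symm x) with hH'
  set G' : (ι → ℝ) → ℝ := fun x => G ((cE ι).symm x) with hG'
  have hH'c : ContDiff ℝ 2 H' := hH.comp (cE ι).symm.contDiff
  have hG'c : ContDiff ℝ 1 G' := hG.comp (cE ι).symm.contDiff
  have eH : ∀ x, H' (cE ι x) = H x := fun x => by
    rw [hH']; show H ((cE ι).symm (cE ι x)) = H x; rw [ContinuousLinearEquiv.symm_apply_apply]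
  have eG : ∀ x, G' (cE ι x) = G x := fun x => by
    rw [hG']; show G ((cE ι).symm (cE ι x)) = G x; rw [ContinuousLinearEquiv.symm_apply_apply]
  have hi' : Integrable fun x => Real.exp (-H' x) := by
    rw [← integrable_cE]; simpa only [eH] using hi
  have hG2' : Integrable fun x => G' x ^ 2 * Real.exp (-H' x) := by
    rw [← integrable_cE]; simpa only [eH, eG] using hG2
  have hB : ∀ i j x, |Hs865.pd i (Hs865.pd j H') x| ≤ C * 1 * 1 := by
    intro i j x
    rw [hH', pd_pd_symm hH]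
    have := hC ((cE ι).symm x) (EuclideanSpace.basisFun ι ℝ i) (EuclideanSpace.basisFun ι ℝ j)
    rwa [(EuclideanSpace.basisFun ι ℝ).norm_eq_one, (EuclideanSpace.basisFun ι ℝ).norm_eq_one]
      at this
  -- the mean
  have hG1 : Integrable fun x => G' x * Real.exp (-H' x) := by
    refine Integrable.mono' (g := fun x => (G' x ^ 2 * Real.exp (-H' x)) + Real.exp (-H' x))
      (hG2'.add hi') (hG'c.continuous.mul
        (Real.continuous_exp.comp hH'c.continuous.neg)).aestronglyMeasurable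
        (ae_of_all _ fun x => ?_)
    rw [Real.norm_eq_abs, abs_mul, abs_of_pos (Real.exp_pos _)]
    have h1 : |G' x| ≤ G' x ^ 2 + 1 := by
      rw [← sq_abs]; nlinarith [sq_nonneg (|G' x| - 1), abs_nonneg (G' x)]
    have h2 := mul_le_mul_of_nonneg_right h1 (Real.exp_pos (-H' x)).le
    linarith
  have hZ : 0 < ∫ x, Real.exp (-H' x) := integral_exp_pos hi'
  set m : ℝ := (∫ x, G' x * Real.exp (-H' x)) / ∫ x, Real.exp (-H' x) with hm
  have hm0 : ∫ x, (G' x - m) * Real.exp (-H' x) = 0 := by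
    have e : ∀ x, (G' x - m) * Real.exp (-H' x) =
        G' x * Real.exp (-H' x) - m * Real.exp (-H' x) := fun x => by ring
    simp only [e]
    rw [integral_sub hG1 (hi'.const_mul m), integral_const_mul, hm, div_mul_cancel₀ _ hZ.ne',
      sub_self]
  obtain ⟨Y, hYs, hYc, h1, _⟩ := Hs865.fi3 hH'c hi' hB hG'c hG2' hm0 hε
  refine ⟨up Y, m, ?_, ?_, ?_⟩
  · exact (cE ι).symm.contDiff.comp (hYs.comp (cE ι).contDiff)
  · have h2 : HasCompactSupport fun x : EuclideanSpace ℝ ι => Y (cE ι x) :=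
      hYc.comp_homeomorph (cE ι).toHomeomorph
    exact h2.comp_left (map_zero _)
  · have hYd : Differentiable ℝ Y := hYs.differentiable (by simp)
    have k1 : ∫ x, (G x - m) ^ 2 * Real.exp (-(H x)) =
        ∫ x, (G' x - m) ^ 2 * Real.exp (-H' x) := by
      rw [← int_cE]; simp only [eH, eG]
    have k2 : ∫ x, fderiv ℝ G x (up Y x) * Real.exp (-(H x)) =
        ∫ x, fderiv ℝ G' x (Y x) * Real.exp (-H' x) := by
      rw [← int_cE]
      refine integral_congr_ae (ae_of_all _ fun x => ?_)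
      show fderiv ℝ G x (up Y x) * Real.exp (-(H x)) =
        fderiv ℝ G' (cE ι x) (Y (cE ι x)) * Real.exp (-H' (cE ι x))
      rw [eH, hG', fderiv_comp_symm (hG.differentiable (by norm_num)),
        ContinuousLinearEquiv.symm_apply_apply]
      rfl
    have k3 : ∫ x, ed (EuclideanSpace.basisFun ι ℝ) H (up Y) x * Real.exp (-(H x)) =
        ∫ x, (MW121.en Y x + ∑ i, ∑ j, Hs865.pd i (Hs865.pd j H') x * Y x i * Y x j) *
          Real.exp (-H' x) := by
      rw [← int_cE]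
      refine integral_congr_ae (ae_of_all _ fun x => ?_)
      show (hs (EuclideanSpace.basisFun ι ℝ) (up Y) x +
        fderiv ℝ (fderiv ℝ H) x (up Y x) (up Y x)) * Real.exp (-(H x)) = _
      beta_reduce
      rw [hs_up hYd, eH]
      congr 2
      have e1 : up Y x = ∑ i, Y (cE ι x) i • EuclideanSpace.basisFun ι ℝ i := by
        conv_lhs => rw [← (EuclideanSpace.basisFun ι ℝ).sum_repr (up Y x)]
        rfl
      conv_lhs => rw [e1]
      simp only [map_sum, map_smul, sum_apply, smul_apply, smul_eq_mul]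
      rw [Finset.sum_comm]
      refine Finset.sum_congr rfl fun i _ => ?_
      rw [Finset.mul_sum]
      refine Finset.sum_congr rfl fun j _ => ?_
      rw [hH', pd_pd_symm hH, ContinuousLinearEquiv.symm_apply_apply]
      ring
    rw [k1, k2, k3]
    exact h1

end std

end

end Crest.Agent.R144.Hsu498
end

-- ▼ part R144/Hsu11_498
section

/-!
# R144 (S0197), block HSU (helper498), file 11: the hammock polytope

* `hsuV` : hard wall upper bound on `ham F E ξ` with a convex potential `V`;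
* `hsu`  : the same with a linear source.
-/

set_option autoImplicit false
set_option linter.unusedSectionVars false

open MeasureTheory Set Filter Topology
open scoped ENNReal NNReal RealInnerProductSpace

namespace Crest.Agent.R144.Hsu498

open Crest.Agent.R144.Ham560

noncomputable section

section ham

variable {T : Type*} [DecidableEq T] {F : Finset T} {Ed : Finset (T × T)} {ξ : T → ℝ}

/-- the vector of the evaluation at `u` -/
def av (F : Finset T) (u : T) : EuclideanSpace ℝ F :=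
  if h : u ∈ F then EuclideanSpace.single ⟨u, h⟩ 1 else 0

theorem inner_av (u : T) (x : EuclideanSpace ℝ F) : ⟪av F u, x⟫ = ext F 0 (cE F x) u := by
  unfold av Ham560.ext
  by_cases h : u ∈ F
  · rw [dif_pos h, dif_pos h, EuclideanSpace.inner_single_left]
    simp
  · rw [dif_neg h, dif_neg h, inner_zero_left]; rfl

/-- gradient of the edge -/
def aE (F : Finset T) (p : T × T) : EuclideanSpace ℝ F := av F p.1 - av F p.2

/-- constant of the edge -/
def kap (F : Finset T) (ξ : T → ℝ) (p : T × T) : ℝ := ext F ξ 0 p.1 - ext F ξ 0 p.2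

theorem ext_split (x : F → ℝ) (u : T) : ext F ξ x u = ext F 0 x u + ext F ξ 0 u := by
  by_cases h : u ∈ F <;> simp [Ham560.ext, h]

theorem grad_eq (p : T × T) (x : EuclideanSpace ℝ F) :
    ext F ξ (cE F x) p.1 - ext F ξ (cE F x) p.2 = ⟪aE F p, x⟫ + kap F ξ p := by
  unfold aE kap
  rw [inner_sub_left, inner_av, inner_av, ext_split (ξ := ξ) _ p.1, ext_split (ξ := ξ) _ p.2]
  ring

/-- upper wall of an edge -/
def wp (F : Finset T) (ξ : T → ℝ) (p : T × T) : EuclideanSpace ℝ F × ℝ :=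
  (‖aE F p‖⁻¹ • aE F p, ‖aE F p‖⁻¹ * (1 - kap F ξ p))

/-- lower wall of an edge -/
def wm (F : Finset T) (ξ : T → ℝ) (p : T × T) : EuclideanSpace ℝ F × ℝ :=
  (-(‖aE F p‖⁻¹ • aE F p), ‖aE F p‖⁻¹ * (1 + kap F ξ p))

theorem sl_wp (p : T × T) (x : EuclideanSpace ℝ F) : sl (wp F ξ p) x =
    ‖aE F p‖⁻¹ * (1 - (ext F ξ (cE F x) p.1 - ext F ξ (cE F x) p.2)) := by
  rw [grad_eq]
  unfold sl wp
  rw [inner_smul_left]
  simp
  ring

theorem sl_wm (p : T × T) (x : EuclideanSpace ℝ F) : sl (wm F ξ p) x =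
    ‖aE F p‖⁻¹ * (1 + (ext F ξ (cE F x) p.1 - ext F ξ (cE F x) p.2)) := by
  rw [grad_eq]
  unfold sl wm
  rw [inner_neg_left, inner_smul_left]
  simp
  ring

open Classical in
/-- the walls of the hammock polytope -/
def walls (F : Finset T) (Ed : Finset (T × T)) (ξ : T → ℝ) : Finset (EuclideanSpace ℝ F × ℝ) :=
  (Ed.filter fun p => aE F p ≠ 0).image (wp F ξ) ∪ (Ed.filter fun p => aE F p ≠ 0).image (wm F ξ)

theorem mem_walls {j : EuclideanSpace ℝ F × ℝ} : j ∈ walls F Ed ξ ↔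
    (∃ p ∈ Ed, aE F p ≠ 0 ∧ wp F ξ p = j) ∨ (∃ p ∈ Ed, aE F p ≠ 0 ∧ wm F ξ p = j) := by
  classical
  unfold walls
  simp only [Finset.mem_union, Finset.mem_image, Finset.mem_filter, and_assoc]

theorem norm_walls : ∀ j ∈ walls F Ed ξ, ‖j.1‖ = 1 := by
  intro j hj
  rcases mem_walls.1 hj with ⟨p, _, hp, rfl⟩ | ⟨p, _, hp, rfl⟩
  · unfold wp
    rw [norm_smul, norm_inv, norm_norm, inv_mul_cancel₀ (norm_ne_zero_iff.2 hp)]
  · unfold wm
    rw [norm_neg, norm_smul, norm_inv, norm_norm, inv_mul_cancel₀ (norm_ne_zero_iff.2 hp)]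

theorem poly_walls (hne : (ham F Ed ξ).Nonempty) :
    poly (walls F Ed ξ) = (fun x => cE F x) ⁻¹' ham F Ed ξ := by
  ext x
  constructor
  · intro hx p hp
    by_cases h : aE F p = 0
    · obtain ⟨y, hy⟩ := hne
      have h1 := hy p hp
      have e1 := grad_eq (ξ := ξ) p x
      have e2 := grad_eq (ξ := ξ) p ((cE F).symm y)
      rw [ContinuousLinearEquiv.apply_symm_apply] at e2
      rw [h, inner_zero_left] at e1 e2
      rw [e1, ← e2]; exact h1
    · have hn : 0 < ‖aE F p‖⁻¹ := inv_pos.2 (norm_pos_iff.2 h)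
      have h1 := hx _ (mem_walls.2 (Or.inl ⟨p, hp, h, rfl⟩))
      have h2 := hx _ (mem_walls.2 (Or.inr ⟨p, hp, h, rfl⟩))
      rw [sl_wp] at h1
      rw [sl_wm] at h2
      have h3 := nonneg_of_mul_nonneg_right h1 hn
      have h4 := nonneg_of_mul_nonneg_right h2 hn
      rw [abs_le]; constructor <;> linarith
  · intro hx j hj
    rcases mem_walls.1 hj with ⟨p, hp, h, rfl⟩ | ⟨p, hp, h, rfl⟩
    · have h1 := abs_le.1 (hx p hp)
      rw [sl_wp]
      exact mul_nonneg (inv_nonneg.2 (norm_nonneg _)) (by linarith [h1.2])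
    · have h1 := abs_le.1 (hx p hp)
      rw [sl_wm]
      exact mul_nonneg (inv_nonneg.2 (norm_nonneg _)) (by linarith [h1.1])

theorem exists_pos_le {α : Type*} (s : Finset α) (f : α → ℝ) (hf : ∀ a ∈ s, 0 < f a) :
    ∃ c : ℝ, 0 < c ∧ ∀ a ∈ s, c ≤ f a := by
  classical
  induction s using Finset.induction_on with
  | empty => exact ⟨1, one_pos, fun a ha => absurd ha (Finset.notMem_empty a)⟩
  | insert a s _ ih =>
    obtain ⟨c, hc, h⟩ := ih fun b hb => hf b (Finset.mem_insert_of_mem hb)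
    refine ⟨min c (f a), lt_min hc (hf a (Finset.mem_insert_self a s)), fun b hb => ?_⟩
    rcases Finset.mem_insert.1 hb with rfl | hb
    · exact min_le_right _ _
    · exact (min_le_left _ _).trans (h b hb)

theorem fderiv2_comp_cE {V : (F → ℝ) → ℝ} (hV : ContDiff ℝ 2 V) (x y z : EuclideanSpace ℝ F) :
    fderiv ℝ (fderiv ℝ fun x => V (cE F x)) x y z =
      fderiv ℝ (fderiv ℝ V) (cE F x) (cE F y) (cE F z) := by
  have h1 : (fun x => fderiv ℝ (fun x => V (cE F x)) x z) =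
      fun x => fderiv ℝ V (cE F x) (cE F z) := by
    funext x
    exact fderiv_comp_cE (hV.differentiable (by norm_num)) x z
  have hV' : ContDiff ℝ 2 fun x => V (cE F x) := hV.comp (cE F).contDiff
  have h2 : HasFDerivAt (fderiv ℝ fun x => V (cE F x))
      (fderiv ℝ (fderiv ℝ fun x => V (cE F x)) x) x :=
    (((hV'.fderiv_right (m := 1) (by norm_num)).differentiable (by norm_num)) _).hasFDerivAt
  have h3 := (h2.clm_apply (hasFDerivAt_const z x)).fderiv
  have h4 : HasFDerivAt (fderiv ℝ V) (fderiv ℝ (fderiv ℝ V) (cE F x)) (cE F x) :=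
    (((hV.fderiv_right (m := 1) (by norm_num)).differentiable (by norm_num)) _).hasFDerivAt
  have h5 : HasFDerivAt (fun x => fderiv ℝ V (cE F x)) ((fderiv ℝ (fderiv ℝ V) (cE F x)).comp
      (cE F : EuclideanSpace ℝ F →L[ℝ] (F → ℝ))) x := h4.comp x (cE F).hasFDerivAt
  have h6 := (h5.clm_apply (hasFDerivAt_const (cE F z) x)).fderiv
  rw [h1, h6] at h3
  have h7 := congrArg (fun A => A y) h3
  simp only [ContinuousLinearMap.comp_zero, zero_add, ContinuousLinearMap.flip_apply,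
    ContinuousLinearMap.comp_apply] at h7
  rw [← h7]
  rfl

/-- **HSU with a convex potential** -/
theorem hsuV (hb : Bornology.IsBounded (ham F Ed ξ)) (hv : volume (ham F Ed ξ) ≠ 0)
    {V : (F → ℝ) → ℝ} (hV : ContDiff ℝ 2 V) {C : ℝ} (hC0 : 0 ≤ C)
    (hC : ∀ x y z, |fderiv ℝ (fderiv ℝ V) x y z| ≤ C * ‖y‖ * ‖z‖)
    (hV0 : ∀ x y, 0 ≤ fderiv ℝ (fderiv ℝ V) x y y) {A : ℝ} (hA0 : 0 ≤ A)
    (hA : ∀ x, -(A * (1 + ‖x‖)) ≤ V x) {G : (F → ℝ) → ℝ} (hG : ContDiff ℝ 1 G) {L : ℝ≥0}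
    (hL : LipschitzWith L G) {ε : ℝ} (hε : 0 < ε) :
    ∃ (Y : (F → ℝ) → (F → ℝ)) (ρ m : ℝ), ContDiff ℝ ((⊤ : ℕ∞) : WithTop ℕ∞) Y ∧
      HasCompactSupport Y ∧ 0 < ρ ∧
      (∀ x ∈ ham F Ed ξ, ∀ p ∈ Ed, 1 - ρ ≤ |ext F ξ x p.1 - ext F ξ x p.2| →
        ext F 0 (Y x) p.1 = ext F 0 (Y x) p.2) ∧
      ∫ x in ham F Ed ξ, (G x - m) ^ 2 * Real.exp (-(V x)) ≤
        2 * (∫ x in ham F Ed ξ, fderiv ℝ G x (Y x) * Real.exp (-(V x))) -
        (∫ x in ham F Ed ξ, (MW121.en Y x + fderiv ℝ (fderiv ℝ V) x (Y x) (Y x)) *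
          Real.exp (-(V x))) + ε := by
  have hne : (ham F Ed ξ).Nonempty := by
    by_contra hcon
    rw [not_nonempty_iff_eq_empty] at hcon
    exact hv (by rw [hcon, measure_empty])
  have hp := poly_walls hne
  have hb' : Bornology.IsBounded (poly (walls F Ed ξ)) := by
    rw [hp]
    exact (cE F).antilipschitz.isBounded_preimage hb
  have hv' : volume (poly (walls F Ed ξ)) ≠ 0 := by
    rw [hp, mp_cE.measure_preimage (measurableSet_ham).nullMeasurableSet]; exact hv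
  have hnorm : ∀ x : EuclideanSpace ℝ F, ‖cE F x‖ ≤ ‖x‖ := norm_cE_le
  have hGd : Differentiable ℝ G := hG.differentiable (by norm_num)
  obtain ⟨W, ρ, m, hWs, hWc, hρ, hrig, hmain⟩ := thmB (J := walls F Ed ξ)
    (U := fun x => V (cE F x)) (G := fun x => G (cE F x)) (A := A) (L := L)
    (EuclideanSpace.basisFun F ℝ) fi3_std
    norm_walls hb' hv' (hV.comp (cE F).contDiff) hC0
    (fun x y z => by
      rw [fderiv2_comp_cE hV]
      refine (hC _ _ _).trans ?_
      have h1 := hnorm y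
      have h2 := hnorm z
      gcongr)
    (fun x y => by rw [fderiv2_comp_cE hV]; exact hV0 _ _)
    (fun x => by
      refine le_trans ?_ (hA (cE F x))
      have := hnorm x
      gcongr)
    (hG.comp (cE F).contDiff) L.2
    (fun x z => by
      rw [fderiv_comp_cE hGd]
      have h1 : ‖fderiv ℝ G (cE F x)‖ ≤ L := norm_fderiv_le_of_lipschitz ℝ hL
      have h2 := (fderiv ℝ G (cE F x)).le_opNorm (cE F z)
      rw [← Real.norm_eq_abs]
      refine h2.trans ?_
      have := hnorm z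
      gcongr) hε
  -- the field downstairs
  set Y : (F → ℝ) → (F → ℝ) := fun x => cE F (W ((cE F).symm x)) with hY
  have hYs : ContDiff ℝ ((⊤ : ℕ∞) : WithTop ℕ∞) Y :=
    (cE F).contDiff.comp (hWs.comp (cE F).symm.contDiff)
  have hYd : Differentiable ℝ Y := hYs.differentiable (by simp)
  have hup : up Y = W := by
    funext x
    unfold up
    rw [hY]
    show (cE F).symm (cE F (W ((cE F).symm (cE F x)))) = W x
    rw [ContinuousLinearEquiv.symm_apply_apply, ContinuousLinearEquiv.symm_apply_apply]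
  have hYc : HasCompactSupport Y := by
    have h2 : HasCompactSupport fun x : F → ℝ => W ((cE F).symm x) :=
      hWc.comp_homeomorph (cE F).symm.toHomeomorph
    exact h2.comp_left (map_zero _)
  have hYW : ∀ x, Y (cE F x) = cE F (W x) := fun x => by
    rw [hY]
    show cE F (W ((cE F).symm (cE F x))) = _
    rw [ContinuousLinearEquiv.symm_apply_apply]
  have hset : ∀ f : (F → ℝ) → ℝ, ∫ x in poly (walls F Ed ξ), f (cE F x) =
      ∫ x in ham F Ed ξ, f x := fun f => by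
    rw [hp]
    exact mp_cE.setIntegral_preimage_emb me_cE f _
  obtain ⟨c, hc0, hc⟩ := exists_pos_le (Ed.filter fun p => aE F p ≠ 0) (fun p => ‖aE F p‖)
    (fun p hp => norm_pos_iff.2 (Finset.mem_filter.1 hp).2)
  refine ⟨Y, ρ * c, m, hYs, hYc, by positivity, ?_, ?_⟩
  · intro x hx p hpE hρx
    by_cases h : aE F p = 0
    · have h1 := grad_eq (ξ := (0 : T → ℝ)) p ((cE F).symm (Y x))
      have h2 := grad_eq (ξ := (0 : T → ℝ)) p (0 : EuclideanSpace ℝ F)
      rw [h, inner_zero_left, ContinuousLinearEquiv.apply_symm_apply] at h1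
      rw [h, inner_zero_left, map_zero] at h2
      have h3 : ∀ u, ext F (0 : T → ℝ) (0 : F → ℝ) u = 0 := fun u => by
        unfold Ham560.ext; split_ifs <;> rfl
      rw [h3, h3] at h2
      linarith
    · have hcp : c ≤ ‖aE F p‖ := hc p (Finset.mem_filter.2 ⟨hpE, h⟩)
      have hnp : 0 < ‖aE F p‖ := norm_pos_iff.2 h
      set x' := (cE F).symm x with hx'
      have ex : cE F x' = x := ContinuousLinearEquiv.apply_symm_apply _ _
      have hx'' : x' ∈ poly (walls F Ed ξ) := by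
        rw [hp]; show cE F x' ∈ ham F Ed ξ; rw [ex]; exact hx
      have key : ⟪aE F p, W x'⟫ = 0 := by
        have habs := hρx
        rcases le_total 0 (ext F ξ x p.1 - ext F ξ x p.2) with h0 | h0
        · rw [abs_of_nonneg h0] at habs
          have h1 := hrig x' hx'' _ (mem_walls.2 (Or.inl ⟨p, hpE, h, rfl⟩)) (by
            rw [sl_wp, ex, inv_mul_le_iff₀ hnp]
            nlinarith)
          unfold wp at h1
          rw [inner_smul_left] at h1
          simpa [h] using h1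
        · rw [abs_of_nonpos h0] at habs
          have h1 := hrig x' hx'' _ (mem_walls.2 (Or.inr ⟨p, hpE, h, rfl⟩)) (by
            rw [sl_wm, ex, inv_mul_le_iff₀ hnp]
            nlinarith)
          unfold wm at h1
          rw [inner_neg_left, inner_smul_left] at h1
          simpa [h] using h1
      have h1 := grad_eq (ξ := (0 : T → ℝ)) p (W x')
      have h3 : kap F (0 : T → ℝ) p = 0 := by
        have h3 : ∀ u, ext F (0 : T → ℝ) (0 : F → ℝ) u = 0 := fun u => by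
          unfold Ham560.ext; split_ifs <;> rfl
        unfold kap; rw [h3, h3, sub_zero]
      rw [key, h3, add_zero, ← hYW, ex] at h1
      linarith
  · unfold TK at hmain
    have k1 : ∫ x in poly (walls F Ed ξ), (G (cE F x) - m) ^ 2 * Real.exp (-(V (cE F x))) =
        ∫ x in ham F Ed ξ, (G x - m) ^ 2 * Real.exp (-(V x)) :=
      hset fun x => (G x - m) ^ 2 * Real.exp (-(V x))
    have k2 : ∫ x in poly (walls F Ed ξ), fderiv ℝ (fun x => G (cE F x)) x (W x) *
        Real.exp (-(V (cE F x))) = ∫ x in ham F Ed ξ, fderiv ℝ G x (Y x) * Real.exp (-(V x)) := by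
      rw [← hset]
      refine integral_congr_ae (ae_of_all _ fun x => ?_)
      beta_reduce
      rw [fderiv_comp_cE hGd, hYW]
    have k3 : ∫ x in poly (walls F Ed ξ), ed (EuclideanSpace.basisFun F ℝ)
        (fun x => V (cE F x)) W x * Real.exp (-(V (cE F x))) =
        ∫ x in ham F Ed ξ, (MW121.en Y x + fderiv ℝ (fderiv ℝ V) x (Y x) (Y x)) *
          Real.exp (-(V x)) := by
      rw [← hset]
      refine integral_congr_ae (ae_of_all _ fun x => ?_)
      beta_reduce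
      unfold ed
      rw [fderiv2_comp_cE hV, hYW, ← hs_up hYd, hup]
    rw [k1, k2, k3] at hmain
    exact hmain

end ham

end

end Crest.Agent.R144.Hsu498
end

-- ▼ part R144/Hsu12_498
section

/-!
# R144 (S0197), block HSU (helper498), file 12: linear sources, probability laws, tangent fields

* `Nice F Ed ξ Y` : smooth, compact support, rigid near the walls of the hammock polytope;
* `Nice.tan` : nice fields are tangent fields (`MW121.Tan`);
* `hsu` : the upper bound with a linear source;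
* `hsu_tilted` : the same for the variance under `(hamP F Ed ξ).tilted`.
-/

set_option autoImplicit false
set_option linter.unusedSectionVars false

open MeasureTheory Set Filter Topology ProbabilityTheory
open scoped ENNReal NNReal

namespace Crest.Agent.R144.Hsu498

open Crest.Agent.R144.Ham560

noncomputable section

variable {T : Type*} [DecidableEq T] {F : Finset T} {Ed : Finset (T × T)} {ξ : T → ℝ}

/-- smooth fields with compact support, rigid near the walls -/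
structure Nice (F : Finset T) (Ed : Finset (T × T)) (ξ : T → ℝ)
    (Y : (F → ℝ) → (F → ℝ)) : Prop where
  smooth : ContDiff ℝ ((⊤ : ℕ∞) : WithTop ℕ∞) Y
  cpt : HasCompactSupport Y
  rigid : ∃ ρ : ℝ, 0 < ρ ∧ ∀ x ∈ ham F Ed ξ, ∀ p ∈ Ed,
    1 - ρ ≤ |ext F ξ x p.1 - ext F ξ x p.2| → ext F 0 (Y x) p.1 = ext F 0 (Y x) p.2



theorem Nice.lip {Y : (F → ℝ) → (F → ℝ)} (h : Nice F Ed ξ Y) : ∃ c : ℝ≥0, LipschitzWith c Y :=
  ContDiff.lipschitzWith_of_hasCompactSupport h.cpt h.smooth (by simp)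

theorem Nice.bdd {Y : (F → ℝ) → (F → ℝ)} (h : Nice F Ed ξ Y) :
    ∃ B : ℝ, 0 ≤ B ∧ ∀ x, ‖Y x‖ ≤ B := by
  obtain ⟨B, hB⟩ := h.cpt.exists_bound_of_continuous h.smooth.continuous
  exact ⟨max B 0, le_max_right _ _, fun x => (hB x).trans (le_max_left _ _)⟩


/-- **HSU with a linear source** -/
theorem hsu (hb : Bornology.IsBounded (ham F Ed ξ)) (hv : volume (ham F Ed ξ) ≠ 0) (l : F → ℝ)
    {G : (F → ℝ) → ℝ} (hG : ContDiff ℝ 1 G) {L : ℝ≥0} (hL : LipschitzWith L G) {ε : ℝ}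
    (hε : 0 < ε) : ∃ (Y : (F → ℝ) → (F → ℝ)) (m : ℝ), Nice F Ed ξ Y ∧
      ∫ x in ham F Ed ξ, (G x - m) ^ 2 * Real.exp (∑ v, l v * x v) ≤
        2 * (∫ x in ham F Ed ξ, fderiv ℝ G x (Y x) * Real.exp (∑ v, l v * x v)) -
        (∫ x in ham F Ed ξ, MW121.en Y x * Real.exp (∑ v, l v * x v)) + ε := by
  set ℓ : (F → ℝ) →L[ℝ] ℝ := -∑ v, l v • ContinuousLinearMap.proj (R := ℝ) v with hℓ
  have hℓa : ∀ x, ℓ x = -∑ v, l v * x v := fun x => by
    rw [hℓ]
    simp
  have h2 : fderiv ℝ (fderiv ℝ fun x => ℓ x) = 0 := by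
    have e : (fderiv ℝ fun x => ℓ x) = fun _ => ℓ := funext fun x => ℓ.hasFDerivAt.fderiv
    rw [e]; ext x; simp
  obtain ⟨Y, ρ, m, h3, h4, h5, h6, h7⟩ := hsuV hb hv (V := fun x => ℓ x) (C := 0)
    ℓ.contDiff le_rfl (fun x y z => by rw [h2]; simp) (fun x y => by rw [h2]; simp)
    (A := ‖ℓ‖) (norm_nonneg _) (fun x => by
      have := ℓ.le_opNorm x
      rw [Real.norm_eq_abs, abs_le] at this
      nlinarith [norm_nonneg ℓ, this.1]) hG hL hε
  refine ⟨Y, m, ⟨h3, h4, ρ, h5, h6⟩, ?_⟩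
  have e1 : ∀ x, Real.exp (-(ℓ x)) = Real.exp (∑ v, l v * x v) := fun x => by
    rw [hℓa, neg_neg]
  have e2 : ∀ x, fderiv ℝ (fderiv ℝ fun x => ℓ x) x (Y x) (Y x) = 0 := fun x => by
    rw [h2]; rfl
  simp only [e1, e2, add_zero] at h7
  exact h7

/-- integrals under the tilted law -/
theorem integral_tilted_hamP (l : F → ℝ) (c0 : ℝ) (g : (F → ℝ) → ℝ) :
    ∫ x, g x ∂((hamP F Ed ξ).tilted fun h => (∑ v, l v * h v) + c0) =
      (Real.exp c0 / ((∫ x, Real.exp ((∑ v, l v * x v) + c0) ∂(hamP F Ed ξ)) *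
        (volume (ham F Ed ξ)).toReal)) *
      ∫ x in ham F Ed ξ, g x * Real.exp (∑ v, l v * x v) := by
  rw [integral_tilted]
  simp only [smul_eq_mul]
  rw [integral_hamP_real]
  have e : ∀ x : F → ℝ, Real.exp ((∑ v, l v * x v) + c0) /
      (∫ x, Real.exp ((∑ v, l v * x v) + c0) ∂(hamP F Ed ξ)) * g x =
      (Real.exp c0 / ∫ x, Real.exp ((∑ v, l v * x v) + c0) ∂(hamP F Ed ξ)) *
        (g x * Real.exp (∑ v, l v * x v)) := fun x => by
    rw [Real.exp_add]; ring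
  simp only [e]
  rw [integral_const_mul]
  rw [div_mul_eq_div_div]
  ring

/-- **HSU for the variance** under the law tilted by a linear source -/
theorem hsu_tilted (hb : Bornology.IsBounded (ham F Ed ξ)) (hv : volume (ham F Ed ξ) ≠ 0)
    (l : F → ℝ) (c0 : ℝ) {G : (F → ℝ) → ℝ} (hG : ContDiff ℝ 1 G) {L : ℝ≥0}
    (hL : LipschitzWith L G) {ε : ℝ} (hε : 0 < ε) :
    ∃ Y : (F → ℝ) → (F → ℝ), Nice F Ed ξ Y ∧
      Var[G; (hamP F Ed ξ).tilted fun h => (∑ v, l v * h v) + c0] ≤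
        2 * (∫ x, fderiv ℝ G x (Y x) ∂((hamP F Ed ξ).tilted fun h => (∑ v, l v * h v) + c0)) -
        (∫ x, MW121.en Y x ∂((hamP F Ed ξ).tilted fun h => (∑ v, l v * h v) + c0)) + ε := by
  set μ := (hamP F Ed ξ).tilted fun h => (∑ v, l v * h v) + c0 with hμ
  have hfin : volume (ham F Ed ξ) ≠ ∞ := hb.measure_lt_top.ne
  have hvr : 0 < (volume (ham F Ed ξ)).toReal := ENNReal.toReal_pos hv hfin
  have hK : IsCompact (ham F Ed ξ) := Metric.isCompact_of_isClosed_isBounded isClosed_ham hb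
  have hP : IsProbabilityMeasure (hamP F Ed ξ) := by
    constructor
    rw [hamP, Measure.smul_apply, Measure.restrict_apply_univ, smul_eq_mul]
    exact ENNReal.inv_mul_cancel hv hfin
  have hcont : Continuous fun x : F → ℝ => Real.exp ((∑ v, l v * x v) + c0) := by fun_prop
  have hint : Integrable (fun x : F → ℝ => Real.exp ((∑ v, l v * x v) + c0)) (hamP F Ed ξ) := by
    unfold hamP
    refine Integrable.smul_measure ?_ (ENNReal.inv_ne_top.2 hv)
    exact hcont.continuousOn.integrableOn_compact hK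
  have hμP : IsProbabilityMeasure μ := isProbabilityMeasure_tilted hint
  have hZ : 0 < ∫ x, Real.exp ((∑ v, l v * x v) + c0) ∂(hamP F Ed ξ) := integral_exp_pos hint
  set κ : ℝ := Real.exp c0 / ((∫ x, Real.exp ((∑ v, l v * x v) + c0) ∂(hamP F Ed ξ)) *
        (volume (ham F Ed ξ)).toReal) with hκ
  have hκ0 : 0 < κ := by rw [hκ]; positivity
  obtain ⟨Y, m, hY, h1⟩ := hsu hb hv l hG hL (ε := ε / κ) (by positivity)
  refine ⟨Y, hY, ?_⟩
  have hvar : Var[G; μ] ≤ ∫ x, (G x - m) ^ 2 ∂μ := by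
    have h2 : Var[fun x => G x - m; μ] = Var[G; μ] :=
      variance_sub_const hG.continuous.aestronglyMeasurable m
    rw [← h2]
    have hc : Continuous fun x => G x - m := hG.continuous.sub continuous_const
    exact variance_le_expectation_sq hc.aestronglyMeasurable
  refine hvar.trans ?_
  rw [hμ, integral_tilted_hamP, integral_tilted_hamP, integral_tilted_hamP, ← hκ]
  have h3 := mul_le_mul_of_nonneg_left h1 hκ0.le
  refine h3.trans (le_of_eq ?_)
  field_simp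

/-- the same for a linear observable -/
theorem hsu_linear (hb : Bornology.IsBounded (ham F Ed ξ)) (hv : volume (ham F Ed ξ) ≠ 0)
    (l : F → ℝ) (c0 : ℝ) (w : F → ℝ) (c1 : ℝ) {ε : ℝ} (hε : 0 < ε) :
    ∃ Y : (F → ℝ) → (F → ℝ), Nice F Ed ξ Y ∧
      Var[fun x => (∑ v, w v * x v) + c1;
        (hamP F Ed ξ).tilted fun h => (∑ v, l v * h v) + c0] ≤
        2 * (∫ x, ∑ v, w v * Y x v ∂((hamP F Ed ξ).tilted fun h => (∑ v, l v * h v) + c0)) -
        (∫ x, MW121.en Y x ∂((hamP F Ed ξ).tilted fun h => (∑ v, l v * h v) + c0)) + ε := by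
  set ℓ : (F → ℝ) →L[ℝ] ℝ := ∑ v, w v • ContinuousLinearMap.proj (R := ℝ) v with hℓ
  have hℓa : ∀ x, ℓ x = ∑ v, w v * x v := fun x => by
    rw [hℓ]
    simp
  have hG : ContDiff ℝ 1 fun x => ℓ x + c1 := ℓ.contDiff.add contDiff_const
  have hL : LipschitzWith ‖ℓ‖₊ fun x => ℓ x + c1 := by
    refine LipschitzWith.of_dist_le_mul fun x y => ?_
    rw [dist_add_right]
    exact ℓ.lipschitz.dist_le_mul x y
  have hd : ∀ x, fderiv ℝ (fun x => ℓ x + c1) x = ℓ := fun x =>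
    (ℓ.hasFDerivAt.add_const c1).fderiv
  obtain ⟨Y, hY, h⟩ := hsu_tilted hb hv l c0 hG hL hε
  refine ⟨Y, hY, ?_⟩
  simp only [hd] at h
  simp only [hℓa] at h
  exact h

end

end Crest.Agent.R144.Hsu498
end

-- ▼ part R144/Uig13_714
section

/-!
# R144 (S0197), helper714: almost optimal fields at Inst level, a-priori bound `AprB`

* `niceF_of_nice`, `exists_field`;
* `exists_seq` : one sequence of nice fields with `Var X_n ≤ 2 ∫ ∑ w Y - EnI + 1 / (n + 1)` and
  `EnI` bounded;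
* `aprB`.
-/

set_option autoImplicit false

namespace Crest.Agent.R144.Uig714

open MeasureTheory Finset Filter Topology ProbabilityTheory
open Crest.Agent.R144.Uia714 Crest.Agent.R144.Skel144
open Crest.Agent.R144.Ham560 (ext ham hamP ext_mem ext_notMem)
open Crest.Agent.R144.KorE761 (gr RigidW lawT lab)
open Crest.Agent.R144.Geo268 (wA)
open scoped BigOperators

variable {I : Inst}

/-- 498's nice fields are nice -/
theorem niceF_of_nice {n : ℕ} {Y : (I.Fr n → ℝ) → (I.Fr n → ℝ)}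
    (h : Hsu498.Nice (I.Fr n) (I.Ed n) (I.xi n) Y) : NiceF I n Y := by
  refine ⟨h.smooth.of_le (by exact_mod_cast le_top), h.cpt, ?_⟩
  obtain ⟨ρ, hρ, hr⟩ := h.rigid
  intro x hx p hp hg
  exact hr x hx p hp (by rw [hg]; linarith)

/-- **almost optimal fields** -/
theorem exists_field (I : Inst) (n : ℕ) (w : I.Fr n → ℝ) (c1 : ℝ) {ε : ℝ} (hε : 0 < ε) :
    ∃ Y : (I.Fr n → ℝ) → (I.Fr n → ℝ), Hsu498.Nice (I.Fr n) (I.Ed n) (I.xi n) Y ∧
      Var[fun x => (∑ v, w v * x v) + c1; I.P0 n] ≤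
        2 * (∫ x, ∑ v, w v * Y x v ∂(I.P0 n)) - EnI n Y + ε := by
  obtain ⟨Y, hY, h⟩ := Hsu498.hsu_linear (F := I.Fr n) (Ed := I.Ed n) (ξ := I.xi n)
    (I.isCompact_ham n).isBounded
    (Ham560.volume_ham_ne_zero (I.abs_xi_le n)) 0 0 w c1 hε
  have e : (hamP (I.Fr n) (I.Ed n) (I.xi n)).tilted
      (fun h => (∑ v, (0 : I.Fr n → ℝ) v * h v) + 0) = I.P0 n := by
    have : (fun h : I.Fr n → ℝ => (∑ x, (0 : I.Fr n → ℝ) x * h x) + 0) = fun _ => (0 : ℝ) := by
      funext h; simp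
    rw [this, tilted_const', measure_univ, inv_one, one_smul]
  rw [e] at h
  exact ⟨Y, hY, h⟩

/-- **one sequence of nice, almost optimal fields with bounded energy** -/
theorem exists_seq (I : Inst) : ∃ Y : ∀ n, (I.Fr n → ℝ) → (I.Fr n → ℝ),
    (∀ n, Hsu498.Nice (I.Fr n) (I.Ed n) (I.xi n) (Y n)) ∧
    (∀ᶠ n in atTop, Var[I.X n; I.P0 n] ≤
      2 * (∫ x, ∑ v : I.Fr n, wA (I.δ n) I.f v * Y n x v ∂(I.P0 n)) - EnI n (Y n) +
        1 / ((n : ℝ) + 1)) ∧
    ∃ C : ℝ, 0 < C ∧ ∀ᶠ n in atTop, EnI n (Y n) ≤ C ∧ Var[I.X n; I.P0 n] ≤ C := by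
  choose Y hY h using fun n : ℕ => exists_field I n (fun v : I.Fr n => wA (I.δ n) I.f v) 0
    (show (0 : ℝ) < 1 / ((n : ℝ) + 1) by positivity)
  have hV : ∀ᶠ n in atTop, Var[I.X n; I.P0 n] ≤
      2 * (∫ x, ∑ v : I.Fr n, wA (I.δ n) I.f v * Y n x v ∂(I.P0 n)) - EnI n (Y n) +
        1 / ((n : ℝ) + 1) := by
    filter_upwards [X_plain I] with n hn
    have e : (fun x : I.Fr n → ℝ => (∑ v : I.Fr n, wA (I.δ n) I.f v * x v) + 0) = I.X n := by
      funext x
      rw [add_zero, hn.2]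
    have := h n
    rwa [e] at this
  refine ⟨Y, hY, hV, ?_⟩
  obtain ⟨C, hC, hap⟩ := apr_energy I
  refine ⟨C + 1, by positivity, ?_⟩
  filter_upwards [hV, hap] with n hV hap
  have h1 : (1 : ℝ) / ((n : ℝ) + 1) ≤ 1 := by
    rw [div_le_one (by positivity)]
    have : (0 : ℝ) ≤ n := Nat.cast_nonneg n
    linarith
  have h0 : 0 ≤ Var[I.X n; I.P0 n] := variance_nonneg _ _
  have h2 := hap (Y n) (niceF_of_nice (hY n)) (by linarith)
  have h3 := EnI_nonneg n (Y n)
  exact ⟨by linarith, by linarith⟩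


end Crest.Agent.R144.Uig714
end

-- ▼ part R144/Upp9_296
section

/-!
R144 / S0197, approach P, upper bound, part 9 (helper296): `UpHyp` at every instance.

* `upHyp_inst` : all fields of `UpHyp` with `u n = uf ((δ n)⁻¹ • Y n)`, `Kx I ρ`, `Kc I ρ`;
* `upperB0_of_blk` : `UpperB0 (√3 / 2 / b)` from `BlkHyp` alone.
-/

set_option autoImplicit false
set_option linter.unusedSectionVars false
set_option linter.unusedVariables false

open Filter Set Metric Topology MeasureTheory ProbabilityTheory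

namespace Crest.Agent.R144.Upp296

open Crest.Agent.R144.Flat296 Crest.ProbabilityR.HexHeights Crest.ProbabilityR.TriHeights
  Crest.Agent.R144.Lat549 Crest.Agent.R144.Geo268 Crest.Agent.R144.Skel144 Crest.Agent.R144.Ham560
  Crest.Agent.R144.Uig714
open Crest.Agent.R144.Fa812 (uf)

variable {I : Inst}

lemma bd_uf_nice {n : ℕ} {Y : (I.Fr n → ℝ) → (I.Fr n → ℝ)}
    (h : Hsu498.Nice (I.Fr n) (I.Ed n) (I.xi n) Y) : Bd (uf ((I.δ n)⁻¹ • Y)) := by
  obtain ⟨B, hB0, hB⟩ := h.bdd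
  refine Fa812.bd_uf (M := |(I.δ n)⁻¹| * B)
    ((h.smooth.continuous.measurable).const_smul ((I.δ n)⁻¹ : ℝ)) fun x v => ?_
  show |(I.δ n)⁻¹ * Y x v| ≤ _
  rw [abs_mul]
  refine mul_le_mul_of_nonneg_left ?_ (abs_nonneg _)
  exact (norm_le_pi_norm (Y x) v).trans (hB x)

/-- the linear response in terms of the flow -/
lemma lin_eq {n : ℕ} {Y : (I.Fr n → ℝ) → (I.Fr n → ℝ)}
    (h : Hsu498.Nice (I.Fr n) (I.Ed n) (I.xi n) Y) {ρ : ℝ} {j : Fin 2 → P2 → ℝ}
    (hs : ∀ Y : P2 → ℝ, (∀ v, v ∉ I.Fr n → Y v = 0) →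
      ∑ v ∈ I.Fr n, wA (I.δ n) I.f v * Y v =
        I.δ n * ∑ i, ∑ x ∈ Kx I ρ n, j i x * (Y (x + dir i) - Y x)) :
    ∫ x, ∑ v : I.Fr n, wA (I.δ n) I.f v * Y x v ∂(I.P0 n) =
      I.δ n ^ 2 * ∑ i, Ex (I.P0 n) (Kx I ρ n)
        (fun x ω => j i x * dd (dir i) (uf ((I.δ n)⁻¹ • Y)) x ω) := by
  have hδ := I.hM.1 n
  have hbd := bd_uf_nice h
  have e1 : ∀ x : I.Fr n → ℝ, ∑ v : I.Fr n, wA (I.δ n) I.f v * Y x v =
      I.δ n ^ 2 * ∑ i, ∑ a ∈ Kx I ρ n, j i a * dd (dir i) (uf ((I.δ n)⁻¹ • Y)) a x := by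
    intro x
    have e2 := hs (fun v => ext (I.Fr n) 0 (Y x) v) (fun v hv => by
      rw [ext_notMem hv]; rfl)
    have e3 : ∑ v ∈ I.Fr n, wA (I.δ n) I.f v * ext (I.Fr n) 0 (Y x) v =
        ∑ v : I.Fr n, wA (I.δ n) I.f v * Y x v := by
      rw [← Finset.sum_coe_sort (I.Fr n) (fun v => wA (I.δ n) I.f v * ext (I.Fr n) 0 (Y x) v)]
      refine Finset.sum_congr rfl fun v _ => ?_
      rw [ext_mem v.2]
    rw [← e3, e2, Finset.mul_sum, Finset.mul_sum]
    refine Finset.sum_congr rfl fun i _ => ?_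
    rw [Finset.mul_sum, Finset.mul_sum]
    refine Finset.sum_congr rfl fun a _ => ?_
    have e4 : dd (dir i) (uf ((I.δ n)⁻¹ • Y)) a x =
        (I.δ n)⁻¹ * (ext (I.Fr n) 0 (Y x) (a + dir i) - ext (I.Fr n) 0 (Y x) a) := by
      show uf ((I.δ n)⁻¹ • Y) (a + dir i) x - uf ((I.δ n)⁻¹ • Y) a x = _
      rw [Uig714.uf_smul, Uig714.uf_smul]
      unfold KorE761.lab
      ring
    rw [e4]
    field_simp
  simp only [e1]
  rw [integral_const_mul]
  congr 1
  rw [integral_finsetSum]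
  · refine Finset.sum_congr rfl fun i _ => ?_
    unfold Ex
    rw [integral_finsetSum]
    intro a _
    exact ((hbd.dd _).integrable _ a).const_mul _
  · intro i _
    exact integrable_finsetSum _ fun a _ => ((hbd.dd _).integrable _ a).const_mul _

/-- **`UpHyp` at every instance** -/
theorem upHyp_inst {ε ρ : ℝ} {j : ℕ → Fin 2 → P2 → ℝ} (hF : Flow I ε ρ j) :
    ∃ Y : ∀ n, (I.Fr n → ℝ) → (I.Fr n → ℝ),
      (∀ n, Hsu498.Nice (I.Fr n) (I.Ed n) (I.xi n) (Y n)) ∧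
      (∃ C : ℝ, 0 < C ∧ ∀ᶠ n in atTop, EnI n (Y n) ≤ C) ∧
      UpHyp I.P0 I.δ (fun n => uf ((I.δ n)⁻¹ • Y n)) (fun n => Var[I.X n; I.P0 n])
        (fun n => EnI n (Y n)) (Kx I ρ) (Kc I ρ) j := by
  obtain ⟨Y, hY, hV, C, hC, hE⟩ := exists_seq I
  have hYF : ∀ᶠ n in atTop, NiceF I n (Y n) := Eventually.of_forall fun n => niceF_of_nice (hY n)
  have hCe : ∀ᶠ n in atTop, EnI n (Y n) ≤ C := hE.mono fun n hn => hn.1
  refine ⟨Y, hY, ⟨C, hC, hCe⟩, ?_⟩
  refine
    { prob := fun n => inferInstance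
      bd := fun n => bd_uf_nice (hY n)
      marg := fun k L => Kc_marg ρ k L
      sub := fun k => Eventually.of_forall fun n => Kc_sub ρ k n
      area := Kc_area I ρ
      grad := up_grad hF.pos hYF hCe
      ui := up_ui hF.pos hYF hCe
      layer := up_layer hF.pos hYF hCe
      var := fun ε' hε' => ?_
      jb := hF.jb
      jc := hF.jc }
  have hlim : ∀ᶠ n : ℕ in atTop, 1 / ((n : ℝ) + 1) < ε' :=
    tendsto_one_div_add_atTop_nhds_zero_nat.eventually (gt_mem_nhds hε')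
  filter_upwards [hV, hF.sbp, hlim] with n h1 h2 h3
  rw [lin_eq (hY n) (ρ := ρ) (j := j n) h2] at h1
  linarith

/-- **`UP'` from `BlkHyp` alone.** -/
theorem upperB0_of_blk {b : ℝ} (hb : 0 < b) {O : Type} [Fintype O] [Nonempty O]
    {A : ℕ → O → Fin 2 → Fin 2 → ℝ} {r0 : ℕ}
    (hA : ∀ r, r0 ≤ r → ∀ y : Fin 2 → ℝ,
      b * iso y ≤ qf (fun i j => (Fintype.card O : ℝ)⁻¹ * ∑ o, A r o i j) y)
    (H : ∀ (I : Inst) (ρ : ℝ), 0 < ρ → ∀ Y : ∀ n, (I.Fr n → ℝ) → (I.Fr n → ℝ),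
      (∀ n, Hsu498.Nice (I.Fr n) (I.Ed n) (I.xi n) (Y n)) →
      ∀ C : ℝ, 0 < C → (∀ᶠ n in atTop, EnI n (Y n) ≤ C) →
      ∃ (B : ℕ → O → ∀ n, Fin 2 → Fin 2 → Fld (I.Fr n → ℝ)) (Lr : ℕ → ℝ),
        BlkHyp I.P0 I.δ (fun n => uf ((I.δ n)⁻¹ • Y n)) (fun n => EnI n (Y n)) (Kc I ρ) O r0 B A
          Lr) : UpperB0 (Real.sqrt 3 / 2 / b) := by
  refine upperB0_of hb hA fun I ε ρ j hε hF => ?_
  obtain ⟨Y, hY, ⟨C, hC, hE⟩, hU⟩ := upHyp_inst hF
  obtain ⟨B, Lr, hB⟩ := H I ρ hF.pos Y hY C hC hE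
  refine ⟨Kx I ρ, _, _, Kc I ρ, B, Lr, fun n => ⟨fun x hx => ?_, fun x hx h1 h2 => ?_⟩, hU, hB⟩
  · exact mem_KS.2 (mem_Kx.1 hx).1
  · exact mem_Kx.2 ⟨mem_KS.1 hx, h1, h2⟩

/-- the shared scalar is nonpositive at nonpositive truncation -/
theorem abT_nonpos {P : Bl565.Par} {μ : Measure (P2 → ℝ)} {r : ℕ} {L : ℝ} (hL : L ≤ 0) :
    Bl565.abT P μ r L ≤ 0 := by
  unfold Bl565.abT
  refine mul_nonpos_of_nonneg_of_nonpos (by norm_num) (Finset.sum_nonpos fun o _ => ?_)
  refine integral_nonpos fun h => ?_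
  show (if _ then _ else _) ≤ (0 : ℝ)
  split_ifs with hc
  · exact hc.trans hL
  · exact le_rfl

/-- `hUp` of `Fin97_144` from `BlkHyp` with 565's matrices -/
theorem hUp_of_blk {P : Bl565.Par} {μ : Measure (P2 → ℝ)} (hμ : Bl565.Inv μ) {r0 : ℕ}
    (H : ∀ L : ℕ → ℝ, (∀ r, 0 < L r) →
      ∀ (I : Inst) (ρ : ℝ), 0 < ρ → ∀ Y : ∀ n, (I.Fr n → ℝ) → (I.Fr n → ℝ),
      (∀ n, Hsu498.Nice (I.Fr n) (I.Ed n) (I.xi n) (Y n)) →
      ∀ C : ℝ, 0 < C → (∀ᶠ n in atTop, EnI n (Y n) ≤ C) →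
      ∃ (B : ℕ → Fin 3 → ∀ n, Fin 2 → Fin 2 → Fld (I.Fr n → ℝ)) (Lr : ℕ → ℝ),
        BlkHyp I.P0 I.δ (fun n => uf ((I.δ n)⁻¹ • Y n)) (fun n => EnI n (Y n)) (Kc I ρ) (Fin 3) r0
          B (fun r o => Bl565.Amat P μ r (L r) o) Lr) :
    ∀ b : ℝ, 0 < b → (∃ r1, ∀ r, r1 ≤ r → ∃ L, b ≤ Bl565.abT P μ r L) →
      UpperB0 (Real.sqrt 3 / 2 / b) := by
  intro b hb ⟨r1, hr1⟩
  classical
  set L : ℕ → ℝ := fun r => if h : r1 ≤ r then (hr1 r h).choose else 1 with hL
  have hL' : ∀ r, r1 ≤ r → b ≤ Bl565.abT P μ r (L r) := fun r hr => by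
    simp only [hL, dif_pos hr]
    exact (hr1 r hr).choose_spec
  have hL0 : ∀ r, 0 < L r := fun r => by
    by_cases hr : r1 ≤ r
    · by_contra hcon
      have h1 := hL' r hr
      have h2 := abT_nonpos (P := P) (μ := μ) (r := r) (not_lt.1 hcon)
      linarith
    · simp only [hL, dif_neg hr]; norm_num
  refine upperB0_of_blk hb (O := Fin 3) (A := fun r o => Bl565.Amat P μ r (L r) o)
    (r0 := max r0 r1) (fun r hr y => hA_of_abT hμ (hL' r ((le_max_right _ _).trans hr)) y)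
    fun I ρ hρ Y hY C hC hE => ?_
  obtain ⟨B, Lr, hB⟩ := H L hL0 I ρ hρ Y hY C hC hE
  have hle : ∀ {r}, max r0 r1 ≤ r → r0 ≤ r := fun h => (le_max_left _ _).trans h
  refine ⟨B, Lr, ?_⟩
  exact
    { bd := fun r hr => hB.bd r (hle hr)
      le := fun r hr => hB.le r (hle hr)
      psd := fun r hr => hB.psd r (hle hr)
      lln := fun r hr => hB.lln r (hle hr)
      fas := fun θ Λ ε1 hθ hΛ hε1 => by
        obtain ⟨C, hC, r2, h⟩ := hB.fas θ Λ ε1 hθ hΛ hε1
        exact ⟨C, hC, r2, fun r hr hr' => h r hr (hle hr')⟩ }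

end Crest.Agent.R144.Upp296
end

-- ▼ part R144/Fa6_812
section

/-!
R144 (S0197), helper812.  FA, part 6: the block hypotheses at the instances.

* `mcF P c0 F E ξ V w` : `LoB95.mc` of the window `V` on the free heights;
* `mc_mono` : it is monotone in the window;
* `refB_win` : `RefB` for the symmetric reference fields of helper565;
* `BfI`, `DI`, `dvI'`, `CoI`, `blkh_inst` : `BlkH` for `Skel144.Inst`.
-/

set_option autoImplicit false
set_option linter.unusedSectionVars false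

open MeasureTheory Set Filter Topology
open scoped ENNReal NNReal

namespace Crest.Agent.R144.Fa812

open Crest.Agent.R144.Ham560 Crest.Agent.R144.Fib674
open Crest.Agent.R144.Flat296 (P2 Fld pt cdev)
open Crest.Agent.R144.Upp296 (Bd qf)
open Crest.Agent.R144.BQ565 (llip bT refL RefF)
open Crest.Agent.R144.Lw425 (Proper hd)
open Crest.Agent.R144.Lc279 (lat mem_lat)
open Crest.Agent.R144.MW121 (jac en)
open Crest.Agent.R144.StB348 (Rig rf gR jac_eq)
open Crest.Agent.R144.Bl565 (Par ps L2 Lf Zk refF_L2 win cor cw bk shp bbL bbO qd)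
open Crest.Agent.R144.LoB95 (mc measurable_mc row_le disp_le' l3 l3_sq_le pd_l3 diff_l3)
open Crest.Agent.R144.Skel144 (Inst)

noncomputable section

/-! ### the cheap paths -/

section Mc

variable {U : Type*} [DecidableEq U] {κ : Type*} [Fintype κ]

theorem pt_mono {S S' : Finset U} {E : Finset (U × U)} (h : S ⊆ S') (u : U) :
    Zb560.pt S E u ⊆ Zb560.pt S' E u := by
  intro l hl
  rw [Zb560.mem_pt] at hl ⊢
  rcases hl with hl | ⟨h1, h2, h3⟩
  · exact Or.inl hl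
  · exact Or.inr ⟨h1, fun a ha => h (h2 a ha), h3⟩

theorem mc_mono {S S' : Finset U} (h : S ⊆ S') (E : Finset (U × U)) (ρ ε Λ c0 : ℝ)
    (φs : κ → U → ℝ) (g : U → ℝ) (w : U) : mc S E ρ ε Λ c0 φs g w ≤ mc S' E ρ ε Λ c0 φs g w := by
  classical
  unfold LoB95.mc
  exact Finset.sup_mono (Finset.filter_subset_filter _ (pt_mono h w))

theorem mc_le (S : Finset U) (E : Finset (U × U)) (ρ ε Λ c0 : ℝ)
    (φs : κ → U → ℝ) (g : U → ℝ) (w : U) : mc S E ρ ε Λ c0 φs g w ≤ S.card + 1 := by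
  classical
  unfold LoB95.mc
  refine Finset.sup_le fun l hl => ?_
  exact Zb560.length_pt (Finset.mem_filter.1 hl).1

end Mc

/-- the length of the longest cheap path, on the free heights -/
def mcF (P : Par) (c0 : ℝ) (F : Finset P2) (E : Finset (P2 × P2)) (ξ : P2 → ℝ) (V : Finset P2)
    (w : P2) (ω : F → ℝ) : ℝ :=
  (mc V E P.rho P.eps P.Lam c0 ps (ext F ξ ω) w : ℝ)

section Win

variable {P : Par} {c0 : ℝ} {F K V V' : Finset P2} {E : Finset (P2 × P2)} {ξ : P2 → ℝ}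

theorem mcF_nonneg (w : P2) (ω : F → ℝ) : 0 ≤ mcF P c0 F E ξ V w ω := Nat.cast_nonneg _

theorem mcF_mono (h : V ⊆ V') (w : P2) (ω : F → ℝ) :
    mcF P c0 F E ξ V w ω ≤ mcF P c0 F E ξ V' w ω := by
  unfold mcF
  exact_mod_cast mc_mono h E _ _ _ _ _ _ w

theorem mcF_le (w : P2) (ω : F → ℝ) : mcF P c0 F E ξ V w ω ≤ V.card + 1 := by
  unfold mcF
  exact_mod_cast mc_le V E _ _ _ _ _ _ w

theorem measurable_mcF (w : P2) : Measurable (mcF P c0 F E ξ V w) := by
  unfold mcF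
  exact (measurable_from_nat (f := fun k : ℕ => (k : ℝ))).comp
    ((measurable_mc V E w).comp (Lc279.measurable_ext F ξ))

theorem integrable_mcF {μ : Measure (F → ℝ)} [IsFiniteMeasure μ] (w : P2) :
    Integrable (mcF P c0 F E ξ V w) μ :=
  Integrable.of_bound (measurable_mcF w).aestronglyMeasurable ((V.card : ℝ) + 1)
    (Eventually.of_forall fun ω => by
      rw [Real.norm_eq_abs, abs_of_nonneg (mcF_nonneg w ω)]; exact mcF_le w ω)

theorem crd_eq_ps (i : Fin 2) (v : P2) : crd i v = ps i.castSucc v := by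
  fin_cases i <;> rfl

/-- the constant of the gradient bound -/
def cgr (P : Par) : ℝ := 6 * (2 * P.Lam / P.eps) ^ 2

theorem cgr_nonneg (P : Par) : 0 ≤ cgr P := by unfold cgr; positivity

/-- **the reference fields of a window satisfy `RefB`** -/
theorem refB_win (P : Par) (hI : K ⊆ F) (hKV : K ⊆ V) (hE1 : ∀ p ∈ E, hd p.1 p.2 = 1)
    (hc0 : 0 < c0) [IsFiniteMeasure (hamP F E ξ)] :
    RefB hI E ξ (fun z => refL (refF_L2 P K V E) (ext (F \ K) ξ z)) crd
      (fun w ω => cgr P * mcF P c0 F E ξ V w ω) (fun w ω => 4 / 3 * mcF P c0 F E ξ V w ω) where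
  rig z _ i := by
    refine ⟨P.rho, P.rho_pos, fun x _ a b hab hq => ?_⟩
    have hne : (b : P2) ≠ a := by
      intro h
      have := hE1 _ (mem_Ein.1 hab).1
      simp only [h, Lw425.hd_self] at this
      exact absurd this (by norm_num)
    have hn : (b : P2) ∈ nbr E a := mem_nbr.2 ⟨hne, Or.inl (mem_Ein.1 hab).1⟩
    refine Bl565.L2_rigid P hn (hKV a.2) (hKV b.2) ?_
    rw [ext_mem a.2, ext_mem b.2]
    exact hq
  grad z _ := by
    have hd : ∀ᵐ x : K → ℝ, ∀ (k : Fin 3) (u : K), DifferentiableAt ℝ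
        (Zb560.Zx V E P.rho P.eps P.Lam (ps k) K (ext (F \ K) ξ z) u) x := by
      rw [ae_all_iff]; intro k
      rw [ae_all_iff]; intro u
      exact (Zb560.lip_Zx P.eps_pos P.Lam_nonneg (u : P2)).ae_differentiableAt
    filter_upwards [hd] with x hd _ w
    have hR : ∀ i, DifferentiableAt ℝ (rf (refL (refF_L2 P K V E) (ext (F \ K) ξ z)) i) x := by
      intro i
      rw [differentiableAt_pi]
      intro u
      exact diff_l3 (a := fun k => Zb560.Zx V E P.rho P.eps P.Lam (ps k) K (ext (F \ K) ξ z) u)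
        (fun k => hd k u) i
    have hrow : ∀ i, ∑ v, jac (rf (refL (refF_L2 P K V E) (ext (F \ K) ξ z)) i) x w v ^ 2 ≤
        3 * ((2 * P.Lam / P.eps) ^ 2 * mcF P c0 F E ξ V w (glue F K z x)) := by
      intro i
      have h1 : ∀ v, jac (rf (refL (refF_L2 P K V E) (ext (F \ K) ξ z)) i) x w v ^ 2 ≤
          ∑ k, pd v (Zb560.Zx V E P.rho P.eps P.Lam (ps k) K (ext (F \ K) ξ z) w) x ^ 2 := by
        intro v
        rw [jac_eq (hR i)]
        have h2 := pd_l3 (a := fun k => Zb560.Zx V E P.rho P.eps P.Lam (ps k) K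
          (ext (F \ K) ξ z) w) (fun k => hd k w) i v
        have h3 : fderiv ℝ (fun y => rf (refL (refF_L2 P K V E) (ext (F \ K) ξ z)) i y w) x
            (StB348.dir K v) = pd v (fun y => l3 (fun k => Zb560.Zx V E P.rho P.eps P.Lam (ps k) K
              (ext (F \ K) ξ z) w y) i) x := rfl
        rw [h3, h2]
        exact l3_sq_le _ _
      calc _ ≤ ∑ v, ∑ k, pd v (Zb560.Zx V E P.rho P.eps P.Lam (ps k) K
            (ext (F \ K) ξ z) w) x ^ 2 := Finset.sum_le_sum fun v _ => h1 v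
        _ = ∑ k, ∑ v, pd v (Zb560.Zx V E P.rho P.eps P.Lam (ps k) K
            (ext (F \ K) ξ z) w) x ^ 2 := Finset.sum_comm
        _ ≤ ∑ _k : Fin 3, (2 * P.Lam / P.eps) ^ 2 * mcF P c0 F E ξ V w (glue F K z x) := by
            refine Finset.sum_le_sum fun k _ => ?_
            have := row_le (φs := ps) P.eps_pos P.Lam_nonneg hc0 (hd k w)
            unfold mcF
            rw [ext_glue hI]
            exact this
        _ = _ := by rw [Finset.sum_const, Finset.card_univ, Fintype.card_fin, nsmul_eq_mul]; norm_num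
    calc gR (rf (refL (refF_L2 P K V E) (ext (F \ K) ξ z))) w x
        = ∑ i, ∑ v, jac (rf (refL (refF_L2 P K V E) (ext (F \ K) ξ z)) i) x w v ^ 2 := rfl
      _ ≤ ∑ _i : Fin 2, 3 * ((2 * P.Lam / P.eps) ^ 2 * mcF P c0 F E ξ V w (glue F K z x)) :=
          Finset.sum_le_sum fun i _ => hrow i
      _ = _ := by
          rw [Finset.sum_const, Finset.card_univ, Fintype.card_fin, nsmul_eq_mul, cgr]
          push_cast; ring
  dev z x _ i w := by
    rw [crd_eq_ps]
    have h1 : ∀ k, |Zk P V E k (ext K (ext (F \ K) ξ z) x) w - ps k w| ≤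
        mcF P c0 F E ξ V w (glue F K z x) := by
      intro k
      have h2 := disp_le' (S := V) (E := E) (ρ := P.rho) (ε := P.eps) (F := K)
        (ξ := ext (F \ K) ξ z) (κ := Fin 3) (φs := ps) (i := k) (L := 1)
        P.Lam_nonneg hc0 zero_le_one (fun a _ b _ hab => by
          refine (Bl565.abs_ps_sub_le k a b).trans (le_of_eq ?_)
          rcases (mem_nbr.1 hab).2 with h | h
          · exact_mod_cast hE1 _ h
          · rw [Lw425.hd_comm]; exact_mod_cast hE1 _ h) x w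
      rw [one_mul] at h2
      unfold mcF
      rw [ext_glue hI]
      exact h2
    exact Bl565.abs_Lf_sub_le P h1
  mD w := (measurable_mcF _).const_mul _
  mdv w := (measurable_mcF _).const_mul _
  iD w := (integrable_mcF _).const_mul _
  idv w := (integrable_mcF _).const_mul _
  D0 w ω := mul_nonneg (cgr_nonneg P) (mcF_nonneg _ _)
  dv0 w ω := mul_nonneg (by norm_num) (mcF_nonneg _ _)

end Win

/-! ### the instances -/

theorem Anch_mono {U : Type*} [DecidableEq U] {F K : Finset U} {E : Finset (U × U)}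
    (h : K ⊆ F) (hA : Anch F E) : Anch K E := fun v hv => by
  obtain ⟨u, hu, h1⟩ := hA v (h hv)
  exact ⟨u, fun h2 => hu (h h2), h1⟩

section Ins

variable (P : Par) (c0 : ℝ) (I : Inst) (n : ℕ) (r : ℕ) (o : Fin 3)

/-- the window of the block at `a` -/
def Wb (r : ℕ) (o : Fin 3) (a : P2) : Finset P2 := win (cw r) (blk (shp r o) a)

/-- the core of the block at `a` -/
def CoI (r : ℕ) (o : Fin 3) (a : P2) : Finset P2 := cor (cw r) (blk (shp r o) a)

/-- the block matrices, as fields on the free heights -/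
def BfI (L : ℝ) (i j : Fin 2) : Fld (I.Fr n → ℝ) := fun a ω =>
  bbL P r o L (fun v => ext (I.Fr n) (I.xi n) ω (a + v)) i j

/-- the gradient observable -/
def DI (a w : P2) (ω : I.Fr n → ℝ) : ℝ :=
  cgr P * mcF P c0 (I.Fr n) (I.Ed n) (I.xi n) (Wb r o a) w ω

/-- the displacement observable -/
def vI (a w : P2) (ω : I.Fr n → ℝ) : ℝ :=
  4 / 3 * mcF P c0 (I.Fr n) (I.Ed n) (I.xi n) (Wb r o a) w ω

variable {P c0 I n r o}

theorem prob_inst : IsProbabilityMeasure (I.P0 n) :=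
  isProbabilityMeasure_hamP (I.anch n) (I.abs_xi_le n)

theorem blk_subset_Wb (r : ℕ) (o : Fin 3) (a : P2) : blk (shp r o) a ⊆ Wb r o a :=
  Bl565.subset_win _ _

/-- **the block hypotheses at the instances** -/
theorem blkh_inst (hc0 : 0 < c0) (hr : 2 ≤ r) {a : P2} (hW : Wb r o a ⊆ I.Fr n) (L : ℝ) :
    BlkH (I.Fr n) (I.Ed n) (I.xi n) (shp r o) a (CoI r o a) (DI P c0 I n r o a)
      (vI P c0 I n r o a) (BfI P I n r o L) := by
  have hp : IsProbabilityMeasure (I.P0 n) := prob_inst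
  have hKF : blk (shp r o) a ⊆ I.Fr n := (blk_subset_Wb r o a).trans hW
  have hloc : ∀ z x, bbO P r o (fun v => ext (I.Fr n) (I.xi n)
      (glue (I.Fr n) (blk (shp r o) a) z x) (a + v)) =
      bbO P r o (fun v => ext (I.Fr n \ blk (shp r o) a) (I.xi n) z (a + v)) := by
    intro z x
    refine Bl565.bbO_congr (by omega) fun v _ hv => ?_
    have hv' : a + v ∉ blk (shp r o) a := by
      rw [Bl565.blk_shp, Finset.mem_image]
      rintro ⟨u, hu, h⟩
      rw [add_right_inj] at h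
      exact hv (h ▸ hu)
    exact ext_glue_off hv' hKF _ z x
  refine ⟨hKF, Anch_mono hKF (I.anch n), ?_, fun z => refL (refF_L2 P (blk (shp r o) a)
    (Wb r o a) (I.Ed n)) (ext (I.Fr n \ blk (shp r o) a) (I.xi n) z), ?_, ?_, ?_, ?_⟩
  · intro p hp
    refine ⟨fun h => ?_, (mem_Ein.1 hp).2⟩
    have := Bl565.hd_of_mem_Ed I n (mem_Ein.1 hp).1
    rw [h, Lw425.hd_self] at this
    exact absurd this (by norm_num)
  · exact refB_win P hKF (blk_subset_Wb r o a) (fun p hp => Bl565.hd_of_mem_Ed I n hp) hc0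
  · intro i j z x x'
    simp only [BfI, bbL]
    rw [hloc, hloc]
  · intro ω y
    exact Bl565.qd_bbL_nonneg r o L _ y
  · intro z _ x y
    have h1 := Bl565.bT_inst I n P hr o a (K := blk (shp r o) a) (Bl565.blk_shp r o a)
      hW (Anch.ein (Anch_mono hKF (I.anch n)))
      (ext (I.Fr n \ blk (shp r o) a) (I.xi n) z) y
    have hs : (0 : ℝ) < ((r / 2 : ℕ) : ℝ) := by
      have : 0 < r / 2 := by omega
      exact_mod_cast this
    calc qf (fun i j => BfI P I n r o L i j a (glue (I.Fr n) (blk (shp r o) a) z x)) y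
        = qd (bbL P r o L (fun v => ext (I.Fr n) (I.xi n)
            (glue (I.Fr n) (blk (shp r o) a) z x) (a + v))) y := rfl
      _ ≤ qd (bbO P r o (fun v => ext (I.Fr n) (I.xi n)
            (glue (I.Fr n) (blk (shp r o) a) z x) (a + v))) y := Bl565.qd_bbL_le r o L _ y
      _ = qd (bbO P r o (fun v => ext (I.Fr n \ blk (shp r o) a) (I.xi n) z (a + v))) y := by
          rw [hloc]
      _ = ((shp r o).card : ℝ)⁻¹ * (((r / 2 : ℕ) : ℝ) ^ 2 *
            qd (bbO P r o (fun v => ext (I.Fr n \ blk (shp r o) a) (I.xi n) z (a + v))) y) := by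
          rw [Bl565.card_shp]
          push_cast
          field_simp
      _ = _ := by rw [← h1]; rfl

theorem bd_BfI {L : ℝ} (hL : 0 ≤ L) (i j : Fin 2) : Bd (BfI P I n r o L i j) where
  mb a := by
    unfold BfI
    refine (Bl565.measurable_bbL r o L i j).comp ?_
    refine measurable_pi_lambda _ fun v => ?_
    exact (measurable_pi_apply (a + v)).comp (Lc279.measurable_ext (I.Fr n) (I.xi n))
  bd := ⟨2 * L, fun a ω => Bl565.abs_bbL_le hL _ i j⟩

end Ins

end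

end Crest.Agent.R144.Fa812
end

-- ▼ part R144/Fa7_812
section

/-!
R144 (S0197), helper812.  FA, part 7: the collar of the blocks.

* `collar_card` : the collar has at most `4 k s` sites;
* `collar_inst` : the field `collar` of `FaHyp`.
-/

set_option autoImplicit false
set_option linter.unusedSectionVars false

open MeasureTheory Set Filter Topology
open scoped ENNReal NNReal

namespace Crest.Agent.R144.Fa812

open Crest.Agent.R144.Ham560 Crest.Agent.R144.Fib674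
open Crest.Agent.R144.Flat296 (P2 Fld pt)
open Crest.Agent.R144.Lw425 (hd hd_le_iff hd_triangle hd_comm)
open Crest.Agent.R144.Bl565 (cor cw bk shp rh mem_rh card_rh sg mem_bk exists_sym sym_add mem_cor)

noncomputable section

/-- the sites of the rhombus near its boundary -/
def rim (s k : ℕ) : Finset P2 :=
  (rh s).filter fun u => u.1 < k ∨ (s : ℤ) - k ≤ u.1 ∨ u.2 < k ∨ (s : ℤ) - k ≤ u.2

theorem card_rim_le (s k : ℕ) : (rim s k).card ≤ 4 * (k * s) := by
  have h : rim s k ⊆ ((Finset.Ico (0 : ℤ) k ×ˢ Finset.Ico (0 : ℤ) s) ∪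
      (Finset.Ico ((s : ℤ) - k) s ×ˢ Finset.Ico (0 : ℤ) s)) ∪
      ((Finset.Ico (0 : ℤ) s ×ˢ Finset.Ico (0 : ℤ) k) ∪
      (Finset.Ico (0 : ℤ) s ×ˢ Finset.Ico ((s : ℤ) - k) s)) := by
    intro u hu
    obtain ⟨h1, h2⟩ := Finset.mem_filter.1 hu
    rw [mem_rh] at h1
    simp only [Finset.mem_union, Finset.mem_product, Finset.mem_Ico]
    omega
  refine (Finset.card_le_card h).trans ?_
  refine (Finset.card_union_le _ _).trans ?_
  have a1 := Finset.card_union_le (Finset.Ico (0 : ℤ) k ×ˢ Finset.Ico (0 : ℤ) s)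
      (Finset.Ico ((s : ℤ) - k) s ×ˢ Finset.Ico (0 : ℤ) s)
  have a2 := Finset.card_union_le (Finset.Ico (0 : ℤ) s ×ˢ Finset.Ico (0 : ℤ) k)
      (Finset.Ico (0 : ℤ) s ×ˢ Finset.Ico ((s : ℤ) - k) s)
  simp only [Finset.card_product, Int.card_Ico, sub_zero, sub_sub_cancel, Int.toNat_natCast]
    at a1 a2
  have e : s * k = k * s := mul_comm _ _
  omega

/-- the collar of a block -/
theorem collar_card {r : ℕ} {o : Fin 3} {a : P2} {m : ℝ} {k : ℕ}
    (hk : 8 * m + 2 * cw r ≤ k) :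
    (colA (shp r o) a (CoI r o a) m).card ≤ 4 * (k * (r / 2)) := by
  classical
  obtain ⟨c, hc⟩ := exists_sym (r / 2) o
  obtain ⟨σ, hσ, π, c', hs⟩ : ∃ σ : P2 → P2, (∀ u, σ u = a + sg (r / 2) o u) ∧
      ∃ π c', Bl565.Sym σ π c' := ⟨_, fun _ => rfl, _, _, (sym_add a).comp hc⟩
  have hmem : ∀ u, σ u ∈ blk (shp r o) a ↔ u ∈ rh (r / 2) := by
    intro u
    rw [Bl565.blk_shp, Finset.mem_image]
    constructor
    · rintro ⟨v, hv, hvu⟩
      obtain ⟨u', hu', rfl⟩ := mem_bk.1 hv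
      have := hs.inj (a₁ := u') (a₂ := u) (by rw [hσ]; exact hvu)
      rwa [← this]
    · intro hu
      exact ⟨_, mem_bk.2 ⟨u, hu, rfl⟩, (hσ u).symm⟩
  have hsub : (colA (shp r o) a (CoI r o a) m).image
      (fun w : ↥(blk (shp r o) a) => (w : P2)) ⊆
      (rim (r / 2) k).image σ := by
    intro w hw
    obtain ⟨w', hw', rfl⟩ := Finset.mem_image.1 hw
    obtain ⟨v, hv, hvw⟩ := mem_colA.1 hw'
    obtain ⟨u, hu⟩ := hs.surj (w' : P2)
    have huK : u ∈ rh (r / 2) := (hmem u).1 (by rw [hu]; exact w'.2)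
    -- a site outside of the block near `v`
    have h1 : ∃ v', v' ∉ blk (shp r o) a ∧ hd v' v ≤ 2 * cw r := by
      by_contra hcon
      push Not at hcon
      apply hv
      rw [CoI, mem_cor]
      refine ⟨?_, fun v' hv' => ?_⟩
      · by_contra h
        have := hcon v h
        rw [Lw425.hd_self] at this
        omega
      · by_contra h
        have := hcon v' h
        omega
    obtain ⟨v', hv', h2⟩ := h1
    have h3 : hd v w' ≤ ⌊8 * m⌋ := by
      have g0 := abs_lt.1 (hvw 0)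
      have g1 := abs_lt.1 (hvw 1)
      simp only [crd, Matrix.cons_val_zero, Matrix.cons_val_one] at g0 g1
      have e0 : ((v.1 - (w' : P2).1 : ℤ) : ℝ) = (v.1 : ℝ) - (w' : P2).1 := by push_cast; ring
      have e1 : ((v.2 - (w' : P2).2 : ℤ) : ℝ) = (v.2 : ℝ) - (w' : P2).2 := by push_cast; ring
      have e2 : ((v.1 - (w' : P2).1 + (v.2 - (w' : P2).2) : ℤ) : ℝ) =
        (v.1 : ℝ) - (w' : P2).1 + ((v.2 : ℝ) - (w' : P2).2) := by push_cast; ring
      have hm0 : 0 < m := by linarith [g0.1, g0.2]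
      have up : ∀ z : ℤ, (z : ℝ) ≤ 8 * m → z ≤ ⌊8 * m⌋ := fun z hz => Int.le_floor.2 hz
      have dn : ∀ z : ℤ, -(8 * m) ≤ (z : ℝ) → -⌊8 * m⌋ ≤ z := fun z hz => by
        have := Int.le_floor.2 (show ((-z : ℤ) : ℝ) ≤ 8 * m by push_cast; linarith)
        omega
      rw [hd_le_iff]
      refine ⟨⟨dn _ ?_, up _ ?_⟩, ⟨dn _ ?_, up _ ?_⟩, dn _ ?_, up _ ?_⟩
      · rw [e0]; linarith [g0.1]
      · rw [e0]; linarith [g0.2]
      · rw [e1]; linarith [g1.1]
      · rw [e1]; linarith [g1.2]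
      · rw [e2]; linarith [g0.1, g1.1]
      · rw [e2]; linarith [g0.2, g1.2]
    have h4 : hd v' w' ≤ k := by
      have t := hd_triangle v' v w'
      have f : ⌊8 * m⌋ + 2 * (cw r : ℤ) ≤ k := by
        have h5 : ((⌊8 * m⌋ + 2 * (cw r : ℤ) : ℤ) : ℝ) ≤ k := by
          push_cast
          linarith [Int.floor_le (8 * m)]
        exact_mod_cast h5
      omega
    obtain ⟨u', hu'⟩ := hs.surj v'
    have h5 : hd u' u ≤ k := by
      rw [← hs.hd_eq, hu', hu]; exact h4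
    have h6 : u' ∉ rh (r / 2) := fun h => hv' (by rw [← hu']; exact (hmem u').2 h)
    rw [Finset.mem_image]
    refine ⟨u, ?_, hu⟩
    rw [rim, Finset.mem_filter]
    refine ⟨huK, ?_⟩
    rw [mem_rh] at huK h6
    obtain ⟨⟨k1, k2⟩, ⟨k3, k4⟩, _⟩ := hd_le_iff.1 h5
    omega
  calc (colA (shp r o) a (CoI r o a) m).card
      = ((colA (shp r o) a (CoI r o a) m).image
      (fun w : ↥(blk (shp r o) a) => (w : P2))).card :=
        (Finset.card_image_of_injective _ Subtype.val_injective).symm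
    _ ≤ ((rim (r / 2) k).image σ).card := Finset.card_le_card hsub
    _ ≤ (rim (r / 2) k).card := Finset.card_image_le
    _ ≤ 4 * (k * (r / 2)) := card_rim_le _ _

/-- **the collars are small** -/
theorem collar_inst : ∀ η : ℝ, 0 < η → ∃ κ : ℝ, 0 < κ ∧ κ ≤ 1 ∧ ∃ r1 : ℕ, ∀ r, r1 ≤ r →
    ∀ (o : Fin 3) (a : P2),
    ((colA (shp r o) a (CoI r o a) (κ * r)).card : ℝ) ≤ η * (shp r o).card := by
  intro η hη
  set κ : ℝ := min 1 (η / 256) with hκ
  have hκ0 : 0 < κ := lt_min one_pos (by positivity)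
  refine ⟨κ, hκ0, min_le_left _ _, max 3 ⌈(128 / η + 1) ^ 2⌉₊, fun r hr o a => ?_⟩
  have hr3 : 3 ≤ r := (le_max_left _ _).trans hr
  have hr2 : (128 / η + 1) ^ 2 ≤ r :=
    (Nat.le_ceil _).trans (by exact_mod_cast (le_max_right _ _).trans hr)
  have hr0 : (0 : ℝ) ≤ r := Nat.cast_nonneg r
  set k : ℕ := ⌈8 * (κ * r) + 2 * (cw r : ℝ)⌉₊ with hk
  have hk1 : 8 * (κ * r) + 2 * cw r ≤ k := Nat.le_ceil _
  have hcard := collar_card (o := o) (a := a) hk1
  have hk2 : (k : ℝ) < 8 * (κ * r) + 2 * cw r + 1 := Nat.ceil_lt_add_one (by positivity)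
  rw [Bl565.card_shp]
  have hs3 : (r : ℝ) / 3 ≤ ((r / 2 : ℕ) : ℝ) := by
    have : r ≤ 3 * (r / 2) := by omega
    have h1 : (r : ℝ) ≤ 3 * ((r / 2 : ℕ) : ℝ) := by exact_mod_cast this
    linarith
  set s : ℝ := ((r / 2 : ℕ) : ℝ) with hs
  have hs0 : 0 < s := by
    have : (3 : ℝ) ≤ r := by exact_mod_cast hr3
    linarith
  -- the square root
  have hcw : (cw r : ℝ) * cw r ≤ r := by
    have := Nat.sqrt_le r
    exact_mod_cast this
  set q : ℝ := Real.sqrt r with hq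
  have hqq : q * q = r := Real.mul_self_sqrt hr0
  have hcq : (cw r : ℝ) ≤ q := by
    rw [hq]
    exact Real.le_sqrt_of_sq_le (by rw [sq]; exact hcw)
  have hqb : 128 / η + 1 ≤ q := by
    rw [hq]
    exact Real.le_sqrt_of_sq_le hr2
  have hq1 : 1 ≤ q := by
    have : 0 < 128 / η := by positivity
    linarith
  have hkey : 4 * (k : ℝ) ≤ η * s := by
    have e1 : 32 * κ ≤ η / 8 := by
      have := min_le_right 1 (η / 256)
      linarith
    have e2 : 32 * (κ * r) ≤ η / 8 * r := by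
      calc 32 * (κ * r) = 32 * κ * r := by ring
        _ ≤ _ := mul_le_mul_of_nonneg_right e1 hr0
    have e3 : 12 * q ≤ η / 8 * r := by
      have f1 : 128 / η ≤ q := by linarith
      have f2 : 128 ≤ η * q := by
        rw [div_le_iff₀ hη] at f1; linarith
      have f3 : 128 * q ≤ η * q * q := mul_le_mul_of_nonneg_right f2 (by linarith)
      have f4 : η * q * q = η * r := by rw [mul_assoc, hqq]
      have f5 : 0 ≤ q := by linarith
      linarith
    have e4 : 4 * (k : ℝ) ≤ 32 * (κ * r) + 8 * q + 4 := by linarith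
    have e5 : η / 4 * r ≤ η * s := by
      have := mul_le_mul_of_nonneg_left hs3 hη.le
      have h0 : 0 ≤ η * r := by positivity
      linarith
    linarith
  have h1 : ((colA (shp r o) a (CoI r o a) (κ * r)).card : ℝ) ≤ 4 * (k * s) := by
    rw [hs]
    exact_mod_cast hcard
  calc ((colA (shp r o) a (CoI r o a) (κ * r)).card : ℝ) ≤ 4 * (k * s) := h1
    _ = 4 * (k : ℝ) * s := by ring
    _ ≤ η * s * s := mul_le_mul_of_nonneg_right hkey hs0.le
    _ = η * (((r / 2) ^ 2 : ℕ) : ℝ) := by push_cast; rw [hs]; ring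

end

end Crest.Agent.R144.Fa812
end

-- ▼ part R144/Fa8_812
section

/-!
R144 (S0197), helper812.  FA, part 8: the tails.

* `up c x` : `x` if `c < x`, else `0`;
* `TailH` : averaged tails of a dominating observable, with constants independent of the region;
* `TailH.t1`, `TailH.t2`, `TailH.t3` : the fields `t1`, `t2`, `t3` of `FaHyp`.
-/

set_option autoImplicit false
set_option linter.unusedSectionVars false

open MeasureTheory Set Filter Topology
open scoped ENNReal NNReal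

namespace Crest.Agent.R144.Fa812

open Crest.Agent.R144.Flat296 (P2 pt)

noncomputable section

/-- the part above the level `c` -/
def up (c x : ℝ) : ℝ := if c < x then x else 0

theorem up_nonneg {c x : ℝ} (hx : 0 ≤ x) : 0 ≤ up c x := by
  unfold up; split_ifs
  · exact hx
  · exact le_rfl

theorem up_mono {c x y : ℝ} (hx : 0 ≤ x) (h : x ≤ y) : up c x ≤ up c y := by
  unfold up
  by_cases h1 : c < x
  · rw [if_pos h1, if_pos (h1.trans_le h)]; exact h
  · rw [if_neg h1]; exact up_nonneg (hx.trans h)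

theorem up_anti {c c' x : ℝ} (hx : 0 ≤ x) (h : c ≤ c') : up c' x ≤ up c x := by
  by_cases h1 : c' < x
  · unfold up; rw [if_pos h1, if_pos (h.trans_lt h1)]
  · have : up c' x = 0 := if_neg h1
    rw [this]; exact up_nonneg hx

theorem up_le_self {c x : ℝ} (hx : 0 ≤ x) : up c x ≤ x := by
  unfold up; split_ifs
  · exact le_rfl
  · exact hx

theorem up_mul {C c x : ℝ} (hC : 0 < C) : up (C * c) (C * x) = C * up c x := by
  unfold up
  by_cases h : c < x
  · rw [if_pos h, if_pos (mul_lt_mul_of_pos_left h hC)]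
  · rw [if_neg h, if_neg (fun h' => h (lt_of_mul_lt_mul_left h' hC.le)), mul_zero]

theorem ind_le_up {c x y : ℝ} (hx : 0 ≤ x) (hy : 0 ≤ y) :
    (if c < y then x else 0) ≤ up c x + up c y := by
  by_cases h : c < y
  · rw [if_pos h]
    by_cases h1 : c < x
    · have e : up c x = x := if_pos h1
      rw [e]; linarith [up_nonneg (c := c) hy]
    · have e : up c y = y := if_pos h
      rw [e]; linarith [up_nonneg (c := c) hx]
  · rw [if_neg h]
    exact add_nonneg (up_nonneg hx) (up_nonneg hy)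

theorem measurable_up {Ω : Type*} [MeasurableSpace Ω] {c : ℝ} {f : Ω → ℝ} (hf : Measurable f) :
    Measurable fun ω => up c (f ω) :=
  Measurable.ite (measurableSet_lt measurable_const hf) hf measurable_const

theorem integrable_up {Ω : Type*} [MeasurableSpace Ω] {μ : Measure Ω} {c : ℝ} {f : Ω → ℝ}
    (hf : Measurable f) (hi : Integrable f μ) (h0 : ∀ ω, 0 ≤ f ω) :
    Integrable (fun ω => up c (f ω)) μ :=
  hi.mono' (measurable_up hf).aestronglyMeasurable (Eventually.of_forall fun ω => by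
    rw [Real.norm_eq_abs, abs_of_nonneg (up_nonneg (h0 ω))]
    exact up_le_self (h0 ω))

/-! ### one stage -/

section Stage

variable {Ω : Type*} [MeasurableSpace Ω] {μ : Measure Ω} {S : Finset (ℕ × ℕ)} {K R : Finset P2}
  {f : P2 → Ω → ℝ} {D dv : P2 → P2 → Ω → ℝ} {C C' : ℝ}

theorem stage_sum (hS : S.Nonempty) (hK : ∀ a ∈ K, blk S a ⊆ R) {g : P2 → P2 → ℝ} {h : P2 → ℝ}
    (h0 : ∀ w ∈ R, 0 ≤ h w) (hg : ∀ a ∈ K, ∀ w ∈ blk S a, g a w ≤ h w) :
    (S.card : ℝ)⁻¹ * ∑ a ∈ K, ∑ p ∈ S, g a (a + pt p) ≤ ∑ w ∈ R, h w := by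
  have hN : 0 < (S.card : ℝ) := by exact_mod_cast Finset.card_pos.2 hS
  have h1 : ∑ a ∈ K, ∑ p ∈ S, g a (a + pt p) ≤ S.card * ∑ w ∈ R, h w := by
    calc ∑ a ∈ K, ∑ p ∈ S, g a (a + pt p) ≤ ∑ a ∈ K, ∑ p ∈ S, h (a + pt p) :=
          Finset.sum_le_sum fun a ha => Finset.sum_le_sum fun p hp =>
            hg a ha _ (mem_blk.2 ⟨p, hp, rfl⟩)
      _ = ∑ a ∈ K, ∑ v ∈ blk S a, h v := Finset.sum_congr rfl fun a _ => (sum_blk S a h).symm
      _ ≤ _ := cover hK h0
  calc (S.card : ℝ)⁻¹ * ∑ a ∈ K, ∑ p ∈ S, g a (a + pt p)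
      ≤ (S.card : ℝ)⁻¹ * (S.card * ∑ w ∈ R, h w) := mul_le_mul_of_nonneg_left h1 (by positivity)
    _ = _ := by field_simp

theorem stage_t1 (hS : S.Nonempty) (hK : ∀ a ∈ K, blk S a ⊆ R) (hf : ∀ w, Measurable (f w))
    (hi : ∀ w, Integrable (f w) μ) (h0 : ∀ w ω, 0 ≤ f w ω) (hC : 0 < C)
    (hD0 : ∀ a ∈ K, ∀ w ω, 0 ≤ D a w ω)
    (hD : ∀ a ∈ K, ∀ w ∈ blk S a, ∀ ω, D a w ω ≤ C * f w ω) (c : ℝ) :
    (S.card : ℝ)⁻¹ * ∑ a ∈ K, ∑ p ∈ S, ∫ ω, (if C * c < D a (a + pt p) ω then D a (a + pt p) ω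
      else 0) ∂μ ≤ C * ∑ w ∈ R, ∫ ω, up c (f w ω) ∂μ := by
  refine (stage_sum hS hK (g := fun a w => ∫ ω, (if C * c < D a w ω then D a w ω else 0) ∂μ)
    (h := fun w => C * ∫ ω, up c (f w ω) ∂μ)
    (fun w _ => mul_nonneg hC.le (integral_nonneg fun ω => up_nonneg (h0 w ω)))
    fun a ha w hw => ?_).trans (le_of_eq (Finset.mul_sum _ _ _).symm)
  rw [← integral_const_mul]
  refine integral_mono_of_nonneg (Eventually.of_forall fun ω => up_nonneg (hD0 a ha w ω))
    ((integrable_up (hf w) (hi w) (h0 w)).const_mul C) (Eventually.of_forall fun ω => ?_)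
  change up (C * c) (D a w ω) ≤ C * up c (f w ω)
  rw [← up_mul hC]
  exact up_mono (hD0 a ha w ω) (hD a ha w hw ω)

theorem stage_t2 (hS : S.Nonempty) (hK : ∀ a ∈ K, blk S a ⊆ R)
    (hi : ∀ w, Integrable (f w) μ) (h0 : ∀ w ω, 0 ≤ f w ω) (hC : 0 < C)
    (hd0 : ∀ a ∈ K, ∀ w ω, 0 ≤ dv a w ω)
    (hd : ∀ a ∈ K, ∀ w ∈ blk S a, ∀ ω, dv a w ω ≤ C * f w ω) :
    (S.card : ℝ)⁻¹ * ∑ a ∈ K, ∑ p ∈ S, ∫ ω, dv a (a + pt p) ω ∂μ ≤
      C * ∑ w ∈ R, ∫ ω, f w ω ∂μ := by
  refine (stage_sum hS hK (g := fun a w => ∫ ω, dv a w ω ∂μ) (h := fun w => C * ∫ ω, f w ω ∂μ)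
    (fun w _ => mul_nonneg hC.le (integral_nonneg fun ω => h0 w ω))
    fun a ha w hw => ?_).trans (le_of_eq (Finset.mul_sum _ _ _).symm)
  rw [← integral_const_mul]
  exact integral_mono_of_nonneg (Eventually.of_forall fun ω => hd0 a ha w ω)
    ((hi w).const_mul C) (Eventually.of_forall fun ω => hd a ha w hw ω)

theorem stage_t3 (hS : S.Nonempty) (hK : ∀ a ∈ K, blk S a ⊆ R) (hf : ∀ w, Measurable (f w))
    (hi : ∀ w, Integrable (f w) μ) (h0 : ∀ w ω, 0 ≤ f w ω) (hC : 0 < C) (hC' : 0 < C')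
    (hD0 : ∀ a ∈ K, ∀ w ω, 0 ≤ D a w ω)
    (hD : ∀ a ∈ K, ∀ w ∈ blk S a, ∀ ω, D a w ω ≤ C * f w ω)
    (hd : ∀ a ∈ K, ∀ w ∈ blk S a, ∀ ω, dv a w ω ≤ C' * f w ω) (c : ℝ) :
    (S.card : ℝ)⁻¹ * ∑ a ∈ K, ∑ p ∈ S, ∫ ω, (if ∃ w' : ↥(blk S a), C' * c < dv a w' ω then
      D a (a + pt p) ω else 0) ∂μ ≤ 2 * C * S.card * ∑ w ∈ R, ∫ ω, up c (f w ω) ∂μ := by
  classical
  have hN : 0 < (S.card : ℝ) := by exact_mod_cast Finset.card_pos.2 hS
  set h : P2 → ℝ := fun w => ∫ ω, up c (f w ω) ∂μ with hh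
  have hh0 : ∀ w, 0 ≤ h w := fun w => integral_nonneg fun ω => up_nonneg (h0 w ω)
  have hup : ∀ w, Integrable (fun ω => up c (f w ω)) μ := fun w =>
    integrable_up (hf w) (hi w) (h0 w)
  -- one site
  have h1 : ∀ a ∈ K, ∀ w ∈ blk S a, ∫ ω, (if ∃ w' : ↥(blk S a), C' * c < dv a w' ω then
      D a w ω else 0) ∂μ ≤ ∑ w' ∈ blk S a, C * (h w + h w') := by
    intro a ha w hw
    have hint : ∀ w' ∈ blk S a,
        Integrable (fun ω => C * (up c (f w ω) + up c (f w' ω))) μ := fun w' _ =>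
      ((hup w).add (hup w')).const_mul C
    have e : ∑ w' ∈ blk S a, C * (h w + h w') =
        ∫ ω, ∑ w' ∈ blk S a, C * (up c (f w ω) + up c (f w' ω)) ∂μ := by
      rw [integral_finsetSum _ hint]
      refine Finset.sum_congr rfl fun w' _ => ?_
      rw [integral_const_mul, integral_add (hup w) (hup w')]
    rw [e]
    refine integral_mono_of_nonneg (Eventually.of_forall fun ω => ?_)
      (integrable_finsetSum _ hint)
      (Eventually.of_forall fun ω => ?_)
    · beta_reduce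
      split_ifs
      · exact hD0 a ha w ω
      · exact le_rfl
    · beta_reduce
      have hnn : ∀ w' ∈ blk S a, 0 ≤ C * (up c (f w ω) + up c (f w' ω)) := fun w' _ =>
        mul_nonneg hC.le (add_nonneg (up_nonneg (h0 w ω)) (up_nonneg (h0 w' ω)))
      split_ifs with hex
      · obtain ⟨w', hw'⟩ := hex
        have h2 : c < f w' ω :=
          lt_of_mul_lt_mul_left (hw'.trans_le (hd a ha w' w'.2 ω)) hC'.le
        have h3 := ind_le_up (c := c) (h0 w ω) (h0 w' ω)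
        rw [if_pos h2] at h3
        calc D a w ω ≤ C * f w ω := hD a ha w hw ω
          _ ≤ C * (up c (f w ω) + up c (f w' ω)) := mul_le_mul_of_nonneg_left h3 hC.le
          _ ≤ _ := Finset.single_le_sum hnn w'.2
      · exact Finset.sum_nonneg hnn
  -- one block
  have h2 : ∀ a ∈ K, ∑ p ∈ S, ∫ ω, (if ∃ w' : ↥(blk S a), C' * c < dv a w' ω then
      D a (a + pt p) ω else 0) ∂μ ≤ 2 * C * S.card * ∑ w ∈ blk S a, h w := by
    intro a ha
    calc _ = ∑ w ∈ blk S a, ∫ ω, (if ∃ w' : ↥(blk S a), C' * c < dv a w' ω then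
          D a w ω else 0) ∂μ := (sum_blk S a _).symm
      _ ≤ ∑ w ∈ blk S a, ∑ w' ∈ blk S a, C * (h w + h w') :=
          Finset.sum_le_sum fun w hw => h1 a ha w hw
      _ = _ := by
          simp only [mul_add, Finset.sum_add_distrib, Finset.sum_const, nsmul_eq_mul, card_blk,
            ← Finset.mul_sum]
          ring
  have h3 : ∑ a ∈ K, ∑ p ∈ S, ∫ ω, (if ∃ w' : ↥(blk S a), C' * c < dv a w' ω then
      D a (a + pt p) ω else 0) ∂μ ≤ 2 * C * S.card * (S.card * ∑ w ∈ R, h w) := by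
    refine (Finset.sum_le_sum h2).trans ?_
    rw [← Finset.mul_sum]
    exact mul_le_mul_of_nonneg_left (cover hK fun w _ => hh0 w) (by positivity)
  calc _ ≤ (S.card : ℝ)⁻¹ * (2 * C * S.card * (S.card * ∑ w ∈ R, h w)) :=
        mul_le_mul_of_nonneg_left h3 (by positivity)
    _ = _ := by field_simp

end Stage

/-! ### sequences -/

/-- averaged tails of a dominating observable; the constants do not depend on the region -/
structure TailH {Ω : ℕ → Type*} [∀ n, MeasurableSpace (Ω n)] (μ : ∀ n, Measure (Ω n))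
    (δ : ℕ → ℝ) (R : ℕ → ℕ → Finset P2) (f : ℕ → ∀ n, P2 → Ω n → ℝ) : Prop where
  m : ∀ k n w, Measurable (f k n w)
  i : ∀ k n w, Integrable (f k n w) (μ n)
  nn : ∀ k n w ω, 0 ≤ f k n w ω
  u1 : ∃ C : ℝ, ∀ k, ∀ᶠ n in atTop, δ n ^ 2 * ∑ w ∈ R k n, ∫ ω, f k n w ω ∂(μ n) ≤ C
  u2 : ∃ t : ℕ → ℝ, (∀ a : ℕ, Tendsto (fun j : ℕ => (j : ℝ) ^ a * t j) atTop (𝓝 0)) ∧
    ∀ j k : ℕ, ∀ᶠ n in atTop, δ n ^ 2 * ∑ w ∈ R k n,
      ∫ ω, (if (j : ℝ) < f k n w ω then f k n w ω else 0) ∂(μ n) ≤ t j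

section Seqs

variable {Ω : ℕ → Type*} [∀ n, MeasurableSpace (Ω n)] {μ : ∀ n, Measure (Ω n)}
  {δ : ℕ → ℝ} {R Kc : ℕ → ℕ → Finset P2} {f : ℕ → ∀ n, P2 → Ω n → ℝ} {O : Type}
  {S : ℕ → O → Finset (ℕ × ℕ)} {D dv : ℕ → O → ∀ n, P2 → P2 → Ω n → ℝ} {r0 : ℕ} {C C' : ℝ}

theorem TailH.t1 (H : TailH μ δ R f) (hC : 0 < C) (hS : ∀ r, r0 ≤ r → ∀ o, (S r o).Nonempty)
    (hK : ∀ r o k, ∀ᶠ n in atTop, ∀ a ∈ Kc k n, blk (S r o) a ⊆ R k n)
    (hD0 : ∀ r o n a w ω, 0 ≤ D r o n a w ω)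
    (hD : ∀ r, r0 ≤ r → ∀ o k, ∀ᶠ n in atTop, ∀ a ∈ Kc k n, ∀ w ∈ blk (S r o) a, ∀ ω,
      D r o n a w ω ≤ C * f k n w ω) :
    ∀ η : ℝ, 0 < η → ∃ M : ℝ, 0 ≤ M ∧ ∃ r1 : ℕ, ∀ r, r1 ≤ r → r0 ≤ r → ∀ o k,
    ∀ᶠ n in atTop, δ n ^ 2 * (((S r o).card : ℝ)⁻¹ * ∑ a ∈ Kc k n, ∑ p ∈ S r o,
      ∫ ω, (if M < D r o n a (a + pt p) ω then D r o n a (a + pt p) ω else 0) ∂(μ n)) ≤ η := by
  intro η hη
  obtain ⟨t, ht, h2⟩ := H.u2
  have ht0 : Tendsto t atTop (𝓝 0) := by simpa using ht 0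
  obtain ⟨j, hj⟩ := (ht0.eventually (ge_mem_nhds (show (0 : ℝ) < η / C by positivity))).exists
  refine ⟨C * j, by positivity, 0, fun r _ hr o k => ?_⟩
  filter_upwards [hK r o k, hD r hr o k, h2 j k] with n hn1 hn2 hn3
  have h3 := stage_t1 (μ := μ n) (D := D r o n) (hS r hr o) hn1 (H.m k n) (H.i k n) (H.nn k n) hC
    (fun a _ => hD0 r o n a) hn2 j
  calc _ ≤ δ n ^ 2 * (C * ∑ w ∈ R k n, ∫ ω, up j (f k n w ω) ∂(μ n)) :=
        mul_le_mul_of_nonneg_left h3 (sq_nonneg _)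
    _ = C * (δ n ^ 2 * ∑ w ∈ R k n, ∫ ω, up j (f k n w ω) ∂(μ n)) := by ring
    _ ≤ C * t j := mul_le_mul_of_nonneg_left hn3 hC.le
    _ ≤ η := by rw [le_div_iff₀ hC] at hj; linarith

theorem TailH.t2 (H : TailH μ δ R f) (hC : 0 < C) (hS : ∀ r, r0 ≤ r → ∀ o, (S r o).Nonempty)
    (hK : ∀ r o k, ∀ᶠ n in atTop, ∀ a ∈ Kc k n, blk (S r o) a ⊆ R k n)
    (hd0 : ∀ r o n a w ω, 0 ≤ dv r o n a w ω)
    (hd : ∀ r, r0 ≤ r → ∀ o k, ∀ᶠ n in atTop, ∀ a ∈ Kc k n, ∀ w ∈ blk (S r o) a, ∀ ω,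
      dv r o n a w ω ≤ C * f k n w ω) :
    ∃ C2 : ℝ, 0 ≤ C2 ∧ ∃ r1 : ℕ, ∀ r, r1 ≤ r → r0 ≤ r → ∀ o k,
    ∀ᶠ n in atTop, δ n ^ 2 * (((S r o).card : ℝ)⁻¹ * ∑ a ∈ Kc k n, ∑ p ∈ S r o,
      ∫ ω, dv r o n a (a + pt p) ω ∂(μ n)) ≤ C2 := by
  obtain ⟨C1, h1⟩ := H.u1
  refine ⟨max 0 (C * C1), le_max_left _ _, 0, fun r _ hr o k => ?_⟩
  filter_upwards [hK r o k, hd r hr o k, h1 k] with n hn1 hn2 hn3
  have h3 := stage_t2 (μ := μ n) (dv := dv r o n) (hS r hr o) hn1 (H.i k n) (H.nn k n) hC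
    (fun a _ => hd0 r o n a) hn2
  calc _ ≤ δ n ^ 2 * (C * ∑ w ∈ R k n, ∫ ω, f k n w ω ∂(μ n)) :=
        mul_le_mul_of_nonneg_left h3 (sq_nonneg _)
    _ = C * (δ n ^ 2 * ∑ w ∈ R k n, ∫ ω, f k n w ω ∂(μ n)) := by ring
    _ ≤ C * C1 := mul_le_mul_of_nonneg_left hn3 hC.le
    _ ≤ _ := le_max_right _ _

theorem TailH.t3 (H : TailH μ δ R f) (hC : 0 < C) (hC' : 0 < C')
    (hS : ∀ r, r0 ≤ r → ∀ o, (S r o).Nonempty) (hSr : ∀ r o, S r o ⊆ Flat296.sq r)
    (hK : ∀ r o k, ∀ᶠ n in atTop, ∀ a ∈ Kc k n, blk (S r o) a ⊆ R k n)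
    (hD0 : ∀ r o n a w ω, 0 ≤ D r o n a w ω)
    (hD : ∀ r, r0 ≤ r → ∀ o k, ∀ᶠ n in atTop, ∀ a ∈ Kc k n, ∀ w ∈ blk (S r o) a, ∀ ω,
      D r o n a w ω ≤ C * f k n w ω)
    (hd : ∀ r, r0 ≤ r → ∀ o k, ∀ᶠ n in atTop, ∀ a ∈ Kc k n, ∀ w ∈ blk (S r o) a, ∀ ω,
      dv r o n a w ω ≤ C' * f k n w ω) :
    ∀ κ : ℝ, 0 < κ → ∀ η : ℝ, 0 < η → ∃ r1 : ℕ, ∀ r, r1 ≤ r → r0 ≤ r → ∀ o k,
    ∀ᶠ n in atTop, (r : ℝ) ^ 2 * (δ n ^ 2 * (((S r o).card : ℝ)⁻¹ * ∑ a ∈ Kc k n, ∑ p ∈ S r o,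
      ∫ ω, (if ∃ w' : ↥(blk (S r o) a), κ * r < dv r o n a w' ω then D r o n a (a + pt p) ω
        else 0) ∂(μ n))) ≤ η := by
  intro κ hκ η hη
  obtain ⟨t, ht, h2⟩ := H.u2
  set A : ℝ := 2 * C * (2 * C' / κ) ^ 4 with hA
  have hA0 : 0 < A := by positivity
  obtain ⟨J, hJ⟩ := eventually_atTop.1
    ((ht 4).eventually (ge_mem_nhds (show (0 : ℝ) < η / A by positivity)))
  refine ⟨⌈C' * (J + 1) / κ⌉₊, fun r hr1 hr o k => ?_⟩
  have hr2 : C' * (J + 1) / κ ≤ r := (Nat.le_ceil _).trans (by exact_mod_cast hr1)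
  have hr3 : (J : ℝ) + 1 ≤ κ * r / C' := by
    rw [le_div_iff₀ hC']
    rw [div_le_iff₀ hκ] at hr2
    linarith
  set c : ℝ := κ * r / C' with hc
  set j : ℕ := ⌊c⌋₊ with hj
  have hc0 : 0 ≤ c := by positivity
  have hjc : (j : ℝ) ≤ c := Nat.floor_le hc0
  have hcj : c < j + 1 := Nat.lt_floor_add_one c
  have hJj : J + 1 ≤ j := Nat.le_floor (by push_cast; exact hr3)
  have hj1 : (1 : ℝ) ≤ j := by
    have : 1 ≤ j := by omega
    exact_mod_cast this
  have hrj : (r : ℝ) ≤ 2 * C' / κ * j := by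
    have h1 : κ * r ≤ C' * (2 * j) := by
      have : c ≤ 2 * j := by linarith
      rw [hc, div_le_iff₀ hC'] at this
      linarith
    calc (r : ℝ) = κ * r / κ := by field_simp
      _ ≤ C' * (2 * j) / κ := by gcongr
      _ = _ := by ring
  have hcc : C' * c = κ * r := by rw [hc]; field_simp
  filter_upwards [hK r o k, hD r hr o k, hd r hr o k, h2 j k] with n hn1 hn2 hn3 hn4
  have h3 := stage_t3 (μ := μ n) (D := D r o n) (dv := dv r o n) (hS r hr o) hn1 (H.m k n)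
    (H.i k n) (H.nn k n) hC hC' (fun a _ => hD0 r o n a) hn2 hn3 c
  rw [hcc] at h3
  have hcard : ((S r o).card : ℝ) ≤ (r : ℝ) ^ 2 := by
    have h4 := Finset.card_le_card (hSr r o)
    have h5 : (Flat296.sq r).card = r ^ 2 := by
      rw [Flat296.sq, Finset.card_product, Finset.card_range, sq]
    rw [h5] at h4
    exact_mod_cast h4
  have hs0 : 0 ≤ ∑ w ∈ R k n, ∫ ω, up j (f k n w ω) ∂(μ n) :=
    Finset.sum_nonneg fun w _ => integral_nonneg fun ω => up_nonneg (H.nn k n w ω)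
  have h6 : ∑ w ∈ R k n, ∫ ω, up c (f k n w ω) ∂(μ n) ≤
      ∑ w ∈ R k n, ∫ ω, up j (f k n w ω) ∂(μ n) :=
    Finset.sum_le_sum fun w _ => integral_mono (integrable_up (H.m k n w) (H.i k n w) (H.nn k n w))
      (integrable_up (H.m k n w) (H.i k n w) (H.nn k n w)) fun ω => up_anti (H.nn k n w ω) hjc
  have hs1 : 0 ≤ ∑ w ∈ R k n, ∫ ω, up c (f k n w ω) ∂(μ n) :=
    Finset.sum_nonneg fun w _ => integral_nonneg fun ω => up_nonneg (H.nn k n w ω)
  have ht0 : 0 ≤ t j := (mul_nonneg (sq_nonneg _) hs0).trans hn4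
  calc _ ≤ (r : ℝ) ^ 2 * (δ n ^ 2 * (2 * C * (S r o).card *
          ∑ w ∈ R k n, ∫ ω, up c (f k n w ω) ∂(μ n))) := by gcongr
    _ ≤ (r : ℝ) ^ 2 * (δ n ^ 2 * (2 * C * (r : ℝ) ^ 2 *
          ∑ w ∈ R k n, ∫ ω, up j (f k n w ω) ∂(μ n))) := by gcongr
    _ = 2 * C * (r : ℝ) ^ 4 * (δ n ^ 2 * ∑ w ∈ R k n, ∫ ω, up j (f k n w ω) ∂(μ n)) := by ring
    _ ≤ 2 * C * (r : ℝ) ^ 4 * t j := mul_le_mul_of_nonneg_left hn4 (by positivity)
    _ ≤ 2 * C * (2 * C' / κ * j) ^ 4 * t j := by gcongr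
    _ = A * ((j : ℝ) ^ 4 * t j) := by rw [hA]; ring
    _ ≤ A * (η / A) := mul_le_mul_of_nonneg_left (hJ j (by omega)) hA0.le
    _ = η := by field_simp

end Seqs

end

end Crest.Agent.R144.Fa812
end

-- ▼ part R144/Fa9_812
section

/-!
R144 (S0197), helper812.  FA, part 9: **the fibre assembly at every instance**.

* `SmallP P` : small parameters (674's universal `e0`);
* `tailH_inst` : `TailH` from 674's `uid_moment`;
* `faHyp_inst`, `fas_inst` : `FaHyp` and the field `fas` of `BlkHyp`.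
-/

set_option autoImplicit false
set_option linter.unusedSectionVars false

open MeasureTheory Set Filter Topology
open scoped ENNReal NNReal

namespace Crest.Agent.R144.Fa812

open Crest.Agent.R144.Ham560 Crest.Agent.R144.Fib674
open Crest.Agent.R144.Flat296 (P2 Fld pt)
open Crest.Agent.R144.Upp296 (Bd FasAt)
open Crest.Agent.R144.Lw425 (hd)
open Crest.Agent.R144.MW121 (jac jac_apply en)
open Crest.Agent.R144.Bl565 (Par ps win cw shp bbL bbL_of_neg)
open Crest.Agent.R144.Skel144 (Inst)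
open Crest.Agent.R144.Uig714 (Kc mem_Kc Kc_marg Kc_area Off EnI)
open Crest.Agent.R144.Uid674 (e0 e0_pos Prm MC uid_moment)
open Crest.ProbabilityR.HexHeights (Adj)

noncomputable section

/-- small parameters -/
structure SmallP (P : Par) : Prop where
  small : P.rho + P.eps ≤ e0
  big : 4 ≤ P.Lam


theorem prm_ps {P : Par} (hP : SmallP P) (c0 : ℝ) : Prm P.rho P.eps P.Lam c0 1 ps where
  hρ := P.rho_pos.le
  hε := P.eps_pos
  small := hP.small
  hΛ := by linarith [hP.big]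
  hL := by linarith [hP.big]
  hφ i a b hab := by
    refine (Bl565.abs_ps_sub_le i a b).trans (le_of_eq ?_)
    rw [Lc279.hd_eq_one_iff_adj.2 hab]
    norm_num

variable {P : Par} {c0 : ℝ} {I : Inst}

theorem Kc_sub_Fr (ρ0 : ℝ) (k n : ℕ) : Kc I ρ0 k n ⊆ I.Fr n := fun _ hx => (mem_Kc.1 hx).1

theorem Kc_off (ρ0 : ℝ) (k n : ℕ) : ∀ v ∈ Kc I ρ0 k n, Off I ρ0 n v := fun v hv => by
  have h := (mem_Kc.1 hv).2.2
  have h1 : 0 < 1 / ((k : ℝ) + 1) := by positivity
  exact h.anti (by linarith)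

/-- **the tails at the instances** -/
theorem tailH_inst (hP : SmallP P) {ρ0 : ℝ} (hρ : 0 < ρ0) :
    TailH (fun n => I.P0 n) I.δ (fun k n => Kc I ρ0 (k + 1) n)
      (fun k n w ω => mcF P c0 (I.Fr n) (I.Ed n) (I.xi n) (Kc I ρ0 (k + 1) n) w ω) where
  m k n w := measurable_mcF w
  i k n w := by
    have hp : IsProbabilityMeasure (I.P0 n) := prob_inst
    exact integrable_mcF w
  nn k n w ω := mcF_nonneg w ω
  u1 := by
    obtain ⟨C, hC, h⟩ := uid_moment I (prm_ps hP c0) hρ 1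
    refine ⟨C * (1 / 2) ^ 0, fun k => ?_⟩
    filter_upwards [h 0] with n hn
    refine (le_of_eq ?_).trans (hn (Kc I ρ0 (k + 1) n) (Kc_sub_Fr _ _ _) (Kc_off _ _ _))
    congr 1
    refine Finset.sum_congr rfl fun w _ => ?_
    congr 1
    funext ω
    unfold mcF
    rw [pow_one]
    split_ifs with h0
    · rfl
    · have : MC I n (Kc I ρ0 (k + 1) n) P.rho P.eps P.Lam c0 ps w ω = 0 := by omega
      exact_mod_cast this
  u2 := by
    obtain ⟨C, hC, h⟩ := uid_moment I (prm_ps hP c0) hρ 1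
    refine ⟨fun j => C * (1 / 2) ^ j, fun a => ?_, fun j k => ?_⟩
    · have h1 := tendsto_pow_const_mul_const_pow_of_abs_lt_one a (r := (1 / 2 : ℝ))
        (by rw [abs_of_pos (by norm_num)]; norm_num)
      have h2 := h1.const_mul C
      rw [mul_zero] at h2
      refine h2.congr fun j => ?_
      ring
    · filter_upwards [h j] with n hn
      refine (le_of_eq ?_).trans (hn (Kc I ρ0 (k + 1) n) (Kc_sub_Fr _ _ _) (Kc_off _ _ _))
      congr 1
      refine Finset.sum_congr rfl fun w _ => ?_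
      congr 1
      funext ω
      unfold mcF
      rw [pow_one]
      simp only [Nat.cast_lt]

theorem Wb_near {r : ℕ} {o : Fin 3} {a v : P2} (hv : v ∈ Wb r o a) :
    |(v - a).1| ≤ ((2 * r : ℕ) : ℤ) ∧ |(v - a).2| ≤ ((2 * r : ℕ) : ℤ) := by
  obtain ⟨b, hb, h⟩ := Bl565.mem_win.1 hv
  obtain ⟨p, hp, rfl⟩ := mem_blk.1 hb
  have hp' := Bl565.shp_subset r o hp
  rw [Flat296.sq, Finset.mem_product, Finset.mem_range, Finset.mem_range] at hp'
  have hc : cw r ≤ r := Nat.sqrt_le_self r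
  have h2 := Lw425.hd_le_iff.1 h
  simp only [pt, Prod.fst_add, Prod.snd_add] at h2
  rw [abs_le, abs_le]
  simp only [Prod.fst_sub, Prod.snd_sub]
  push_cast
  omega

theorem Wb_sub (I : Inst) (ρ0 : ℝ) (r : ℕ) (o : Fin 3) (k : ℕ) :
    ∀ᶠ n in atTop, ∀ a ∈ Kc I ρ0 k n, Wb r o a ⊆ Kc I ρ0 (k + 1) n := by
  filter_upwards [Kc_marg (I := I) ρ0 k (2 * r)] with n hn a ha v hv
  have h := Wb_near hv
  have := hn a ha (v - a) h.1 h.2
  rwa [add_sub_cancel] at this

theorem en_const_smul {F : Finset P2} {Y : (F → ℝ) → (F → ℝ)} (hY : Differentiable ℝ Y) (c : ℝ)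
    (x : F → ℝ) : en (c • Y) x = c ^ 2 * en Y x := by
  unfold MW121.en
  rw [Finset.mul_sum]
  refine Finset.sum_congr rfl fun u _ => ?_
  rw [Finset.mul_sum]
  refine Finset.sum_congr rfl fun v _ => ?_
  rw [jac_apply, jac_apply, fderiv_const_smul (hY x)]
  simp only [_root_.smul_apply, Pi.smul_apply, smul_eq_mul]
  ring

theorem ext_zero_smul {F : Finset P2} (c : ℝ) (y : F → ℝ) (u : P2) :
    ext F 0 (c • y) u = c * ext F 0 y u := by
  by_cases h : u ∈ F
  · rw [ext_mem h, ext_mem h]; rfl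
  · rw [ext_notMem h, ext_notMem h]; simp

theorem bd_BfI' (n r : ℕ) (o : Fin 3) (L : ℝ) (i j : Fin 2) : Bd (BfI P I n r o L i j) := by
  rcases lt_or_ge L 0 with hL | hL
  · have e : BfI P I n r o L i j = fun _ _ => 0 := by
      funext a ω
      unfold BfI
      rw [bbL_of_neg hL]; rfl
    rw [e]
    exact Bd.const 0
  · exact bd_BfI hL i j

/-- **the hypotheses of the fibre assembly hold at every instance** -/
theorem faHyp_inst (hc0 : 0 < c0) (hP : SmallP P) {ρ0 : ℝ} (hρ : 0 < ρ0)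
    {Y : ∀ n, (I.Fr n → ℝ) → (I.Fr n → ℝ)}
    (hY : ∀ n, Hsu498.Nice (I.Fr n) (I.Ed n) (I.xi n) (Y n)) {Ce : ℝ}
    (hE : ∀ᶠ n in atTop, EnI n (Y n) ≤ Ce) (L : ℕ → ℝ) {r0 : ℕ} (hr0 : 2 ≤ r0) :
    FaHyp (fun n => I.Fr n) (fun n => I.Ed n) (fun n => I.xi n) I.δ
      (fun n => (I.δ n)⁻¹ • Y n) (fun n => EnI n (Y n)) (Kc I ρ0) (Fin 3) r0 shp CoI
      (fun r o n => BfI P I n r o (L r)) (fun r o n => DI P c0 I n r o)
      (fun r o n => vI P c0 I n r o) := by
  have hdiff : ∀ n, Differentiable ℝ (Y n) := fun n =>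
    (hY n).smooth.differentiable (by simp)
  have T := tailH_inst (I := I) (P := P) (c0 := c0) hP hρ
  have hC : 0 < cgr P + 1 := by linarith [cgr_nonneg P]
  have hS0 : ∀ r, r0 ≤ r → ∀ o : Fin 3, (shp r o).Nonempty := by
    intro r hr o
    rw [← Finset.card_pos, Bl565.card_shp]
    have : 0 < r / 2 := by omega
    positivity
  have hblk : ∀ (r : ℕ) (o : Fin 3) (k : ℕ), ∀ᶠ n in atTop, ∀ a ∈ Kc I ρ0 k n,
      blk (shp r o) a ⊆ Kc I ρ0 (k + 1) n := by
    intro r o k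
    filter_upwards [Wb_sub I ρ0 r o k] with n hn a ha
    exact (blk_subset_Wb r o a).trans (hn a ha)
  have hD : ∀ r, r0 ≤ r → ∀ (o : Fin 3) (k : ℕ), ∀ᶠ n in atTop, ∀ a ∈ Kc I ρ0 k n,
      ∀ w ∈ blk (shp r o) a, ∀ ω, DI P c0 I n r o a w ω ≤ (cgr P + 1) *
        mcF P c0 (I.Fr n) (I.Ed n) (I.xi n) (Kc I ρ0 (k + 1) n) w ω := by
    intro r _ o k
    filter_upwards [Wb_sub I ρ0 r o k] with n hn a ha w _ ω
    unfold DI
    have h1 := mcF_mono (P := P) (c0 := c0) (E := I.Ed n) (ξ := I.xi n) (hn a ha) w ω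
    have h2 := mcF_nonneg (P := P) (c0 := c0) (E := I.Ed n) (ξ := I.xi n) (V := Wb r o a) w ω
    have h3 := cgr_nonneg P
    exact mul_le_mul (by linarith) h1 h2 (by linarith)
  have hd : ∀ r, r0 ≤ r → ∀ (o : Fin 3) (k : ℕ), ∀ᶠ n in atTop, ∀ a ∈ Kc I ρ0 k n,
      ∀ w ∈ blk (shp r o) a, ∀ ω, vI P c0 I n r o a w ω ≤ 4 / 3 *
        mcF P c0 (I.Fr n) (I.Ed n) (I.xi n) (Kc I ρ0 (k + 1) n) w ω := by
    intro r _ o k
    filter_upwards [Wb_sub I ρ0 r o k] with n hn a ha w _ ω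
    unfold vI
    exact mul_le_mul_of_nonneg_left (mcF_mono (hn a ha) w ω) (by norm_num)
  have hD0 : ∀ (r : ℕ) (o : Fin 3) (n : ℕ) (a w : P2) (ω : I.Fr n → ℝ),
      0 ≤ DI P c0 I n r o a w ω := fun r o n a w ω =>
    mul_nonneg (cgr_nonneg P) (mcF_nonneg _ _)
  have hd0 : ∀ (r : ℕ) (o : Fin 3) (n : ℕ) (a w : P2) (ω : I.Fr n → ℝ),
      0 ≤ vI P c0 I n r o a w ω := fun r o n a w ω =>
    mul_nonneg (by norm_num) (mcF_nonneg _ _)
  exact
    { anch := fun n => I.anch n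
      xi := fun n => I.abs_xi_le n
      lip := fun n => by
        obtain ⟨c, hc⟩ := (hY n).lip
        refine ⟨‖(I.δ n)⁻¹‖₊ * c, LipschitzWith.of_dist_le_mul fun x y => ?_⟩
        rw [Pi.smul_apply, Pi.smul_apply, dist_smul₀, NNReal.coe_mul, coe_nnnorm, mul_assoc]
        exact mul_le_mul_of_nonneg_left (hc.dist_le_mul x y) (norm_nonneg _)
      diff := fun n => (hdiff n).const_smul _
      rig := fun n => by
        obtain ⟨ρ, hρ, h⟩ := (hY n).rigid
        refine ⟨ρ, hρ, fun x hx p hp hq => ?_⟩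
        simp only [Pi.smul_apply]
        rw [ext_zero_smul, ext_zero_smul, h x hx p hp hq]
      bd := fun n => by
        obtain ⟨B, _, hB⟩ := (hY n).bdd
        refine bd_uf (M := |(I.δ n)⁻¹| * B) ?_ fun h v => ?_
        · exact ((hdiff n).continuous.const_smul (I.δ n)⁻¹).measurable
        · rw [Pi.smul_apply, Pi.smul_apply, smul_eq_mul, abs_mul]
          refine mul_le_mul_of_nonneg_left ?_ (abs_nonneg _)
          exact (norm_le_pi_norm (Y n h) v).trans (hB h)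
      e_eq := fun n => by
        have hδ := I.hM.1 n
        have e : (fun ω => en ((I.δ n)⁻¹ • Y n) ω) = fun ω => ((I.δ n)⁻¹) ^ 2 * en (Y n) ω :=
          funext fun ω => en_const_smul (hdiff n) _ ω
        change I.δ n ^ 2 * ∫ ω, en ((I.δ n)⁻¹ • Y n) ω ∂(I.P0 n) ≤ ∫ ω, en (Y n) ω ∂(I.P0 n)
        rw [e, integral_const_mul, ← mul_assoc, ← mul_pow, mul_inv_cancel₀ hδ.ne', one_pow,
          one_mul]
      e_le := ⟨Ce, hE⟩
      area := Kc_area I ρ0
      S0 := hS0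
      Sr := Bl565.shp_subset
      collar := collar_inst
      bB := fun r _ o n i j => bd_BfI' n r o (L r) i j
      blkh := fun r hr o k => by
        filter_upwards [Wb_sub I ρ0 r o k] with n hn a ha
        exact blkh_inst hc0 (hr0.trans hr) ((hn a ha).trans (Kc_sub_Fr _ _ _)) (L r)
      t1 := T.t1 hC hS0 hblk hD0 hD
      t2 := T.t2 (by norm_num) hS0 hblk hd0 hd
      t3 := T.t3 hC (by norm_num) hS0 Bl565.shp_subset hblk hD0 hD hd }

/-- **the field `fas` of `BlkHyp` at every instance** -/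
theorem fas_inst (hP : SmallP P) {ρ0 : ℝ} (hρ : 0 < ρ0)
    {Y : ∀ n, (I.Fr n → ℝ) → (I.Fr n → ℝ)}
    (hY : ∀ n, Hsu498.Nice (I.Fr n) (I.Ed n) (I.xi n) (Y n)) {Ce : ℝ}
    (hE : ∀ᶠ n in atTop, EnI n (Y n) ≤ Ce) (L : ℕ → ℝ) {r0 : ℕ} (hr0 : 2 ≤ r0) :
    ∀ θ Λ ε1 : ℝ, 0 < θ → 1 ≤ Λ → 0 < ε1 → ∃ C : ℝ, 0 ≤ C ∧ ∃ r1 : ℕ, ∀ r, r1 ≤ r → r0 ≤ r →
    ∀ (o : Fin 3) (k : ℕ), ∀ ε2 : ℝ, 0 < ε2 → ∃ R1 : ℕ, ∀ R, R1 ≤ R → ∀ᶠ n in atTop,
      FasAt (fun n => I.P0 n) I.δ (fun n => uf ((I.δ n)⁻¹ • Y n)) (fun n => EnI n (Y n))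
        (Kc I ρ0) (fun n i j a ω => bbL P r o (L r) (fun v => ext (I.Fr n) (I.xi n) ω (a + v)) i j)
        θ Λ ε1 C ε2 r R k n :=
  (faHyp_inst one_pos hP hρ hY hE L hr0).fas

end

end Crest.Agent.R144.Fa812
end

-- ▼ part R144/Upi3_540

/-!
R144 (S0197), helper540.  UPI-3: the upper block of S0197, complete.

* `blkHyp_inst`: `BlkHyp` at every instance, for helper565's truncated block matrices;
* `upD`: the row `UpD` of `Skel100_144`.
-/

set_option autoImplicit false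
set_option linter.unusedSectionVars false

open MeasureTheory Filter Topology ProbabilityTheory
open scoped ENNReal NNReal

noncomputable section

namespace Crest.Agent.R144.Upi540

open Crest.Agent.R144.Flat296 (P2 Fld bm)
open Crest.Agent.R144.Upp296
open Crest.Agent.R144.Bl565 (Par bbL bbO qd Amat abT)
open Crest.Agent.R144.Skel144 (Inst UpperB0 UpD)
open Crest.Agent.R144.Lc279 (mu0)
open Crest.Agent.R144.Uig714 (Kc Kx mem_Kc mem_Kx EnI)
open Crest.Agent.R144.Fa812 (uf)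

/-- **`BlkHyp` at every instance** -/
theorem blkHyp_inst {P : Par} (hP : Fa812.SmallP P) {L : ℕ → ℝ} (hL : ∀ r, 0 < L r) (I : Inst)
    {ρ : ℝ} (hρ : 0 < ρ) {Y : ∀ n, (I.Fr n → ℝ) → (I.Fr n → ℝ)}
    (hY : ∀ n, Hsu498.Nice (I.Fr n) (I.Ed n) (I.xi n) (Y n)) {C : ℝ}
    (hC : ∀ᶠ n in atTop, EnI n (Y n) ≤ C) :
    BlkHyp I.P0 I.δ (fun n => uf ((I.δ n)⁻¹ • Y n)) (fun n => EnI n (Y n)) (Kc I ρ) (Fin 3) 2
      (Bi P I L) (fun r o => Amat P mu0 r (L r) o) (fun r => 2 * L r) :=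
  blkHyp_of _ _ (by norm_num) (fun r _ => hL r) (Fa812.fas_inst hP hρ hY hC L le_rfl)

/-- **the upper block of S0197** -/
theorem upD {P : Par} (hP : Fa812.SmallP P) :
    UpD (fun r L => abT P mu0 r L) (Real.sqrt 3 / 2) :=
  hUp_of_blk (P := P) (μ := mu0) (r0 := 2) Lw425.inv_mu0 fun L hL I ρ hρ Y hY C _ hE =>
    ⟨Bi P I L, fun r => 2 * L r, blkHyp_inst hP hL I hρ hY hE⟩

end Crest.Agent.R144.Upi540
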