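import Mathlib
import Crest.Agent.R144.Par_144_Mg
import Crest.Agent.R144.Upi3_540
import Crest.Agent.R144.Lmu10_425
import Crest.Agent.R144.TorE_95
import Crest.Agent.R144.Cw10_643
import Crest.Agent.R144.Con3_549
import Crest.Agent.R144.Skel98_144
import Crest.Agent.R144.Lmu3_425
import Crest.Agent.R144.Bl2_565
import Crest.Agent.R144.Lc14_279
import Crest.Agent.R144.TorD_95
import Crest.Agent.R144.Lmu7_425
import Crest.Agent.R144.Bl7_565
import Crest.Agent.R144.LowL7_549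
import Crest.Agent.R144.LoC8_95
import Crest.Agent.R144.LowL10_549
import Crest.Agent.R144.LowL12_549
import Crest.Agent.R144.Skel100_144

-- ▼ part R144/Fin99_144
section

/-!
# R144 (S0197), helper144: the literal S0197 from the two last rows LoD and KapD
(POS = helper425, UP = helper540 are theorems and are plugged in here)
-/

set_option autoImplicit false

namespace Crest.Agent.R144.Skel144

open Filter Topology Metric MeasureTheory ProbabilityTheory
open Crest.Agent.R144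
open scoped NNReal ENNReal Real ContDiff

theorem smallP_of_pAll {P : Bl565.Par} (hP : Par144.PAll P) : Fa812.SmallP P :=
  ⟨hP.s674.tiny, hP.s674.big⟩

/-- **S0197 from LoD and KapD** -/
theorem s0197_of_two {P : Bl565.Par} (hP : Par144.PAll P)
    (hLo : LoD (fun r L => Bl565.abT P Lc279.mu0 r L) (Real.sqrt 3 / 2))
    (hKap : KapD (fun r L => Bl565.abT P Lc279.mu0 r L) (Real.sqrt 3 / 2)) :
    ∃ A σ lam : ℝ, 0 < A ∧ 0 < σ ∧ σ ^ 2 = 1 / ((2 / Real.sqrt 3) * A) ∧ 0 < lam ∧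
      lam ^ 2 = Real.pi / (8 * (2 / Real.sqrt 3) * A) ∧ lam ≤ 1 / 2 ∧
      ∀ a : ℝ, 0 < a → a ≤ 1 / 2 → ∀ (D : Set ℂ) (γ : ℝ → ℂ) (θ : ℝ) (φ : ℂ → ℂ),
      Crest.ProbabilityR.TriHeights.IsSmoothMarkedDomain D γ θ → DifferentiableOn ℂ φ D →
      Set.BijOn φ D (Metric.ball (0 : ℂ) 1) →
      ∀ (δ : ℕ → ℝ) (T : ℕ → Finset Crest.ProbabilityR.TriHeights.Tri) (ea eb : ℕ → (ℤ × ℤ) × (ℤ × ℤ)) (c : ℕ → ℝ → ℂ),
        Crest.ProbabilityR.TriHeights.IsMarkedApprox γ θ δ T ea eb c →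
      ∀ f : ℂ → ℝ, ContDiff ℝ ∞ f → HasCompactSupport f → tsupport f ⊆ D →
        ∀ t : ℝ, Filter.Tendsto (fun n : ℕ => Crest.ProbabilityR.TriHeights.realExpect (T n) (Crest.ProbabilityR.TriHeights.arcPlus (δ n) (T n) (c n) θ) (Crest.ProbabilityR.TriHeights.arcMinus (δ n) (T n) (c n) θ) a
            (fun h => Complex.exp (Complex.I *
              (t * (Crest.ProbabilityR.TriHeights.affinePairing (δ n) (T n) f h -
              (Crest.ProbabilityR.TriHeights.realExpect (T n) (Crest.ProbabilityR.TriHeights.arcPlus (δ n) (T n) (c n) θ) (Crest.ProbabilityR.TriHeights.arcMinus (δ n) (T n) (c n) θ) a (fun h' => (Crest.ProbabilityR.TriHeights.affinePairing (δ n) (T n) f h' : ℂ))).re) / σ : ℝ))))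
          Filter.atTop
          (nhds (Complex.exp (-(Crest.ProbabilityR.HexHeights.domainGreenForm φ f * t ^ 2 / 2 : ℝ)))) :=
  s0197_of_blocks1 _ (by positivity) 0 (fun r _ L => Lw425.pos hP.s565 r L)
    (Upi540.upD (smallP_of_pAll hP)) hLo hKap

end Crest.Agent.R144.Skel144
end

-- ▼ part R144/KapE1_761
section

/-!
# R144 (S0197), helper761, KAP-END: the constant of the lower bound is at most `2/π`

* `exists_psi`: a test function with positive Dirichlet energy;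
* `le_of_low`: `Two V`, `V (1,0) ≤ 1/3` and `CV V b_n b_n ≥ l ∫ |∇ψ|² - ε` (frequently, for every
  test function, some admissible family `b_n`) imply `l ≤ π/(3√3) < 2/π`;
* `FieldQ`, `FieldT`: Stein fields for the hammock law of a finite connected graph pinned at `o`,
  and for tori; `FieldQ.le_ex`, `FieldT.le_CV`: the variance lower bound;
* `kap_tori`: from the torus fields and local convergence of the torus variograms.
-/

set_option autoImplicit false
set_option linter.unusedSectionVars false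

open MeasureTheory Set Function Filter Topology
open scoped ENNReal NNReal Real ContDiff Laplacian

noncomputable section

namespace Crest.Agent.R144.KapE761

open Crest.Agent.R144.Tor95
open Crest.Agent.R144.Ham560 (ext ham hamP Anch)
open Crest.Agent.R144.Cw643 (CV Near Wt Lim2 lim2)
open Crest.Agent.R144.Con549 (IsTest energy_eq)
open Crest.Agent.R144.Tp952 (Two)
open Crest.Agent.R144.Skel144 (cramer_rao_trace integral_unif)

/-! ### the number -/

theorem const_lt : π / Real.sqrt 3 * (1 / 3) < 2 / π := by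
  have hπ := Real.pi_pos
  have h3 : (0 : ℝ) < Real.sqrt 3 := by positivity
  have h1 : π < 3.15 := Real.pi_lt_d2
  have h2 : (1.7 : ℝ) < Real.sqrt 3 := by
    rw [show (1.7 : ℝ) = Real.sqrt (1.7 ^ 2) by rw [Real.sqrt_sq]; norm_num]
    exact Real.sqrt_lt_sqrt (by norm_num) (by norm_num)
  rw [div_mul_div_comm, mul_one, div_lt_div_iff₀ (by positivity) hπ]
  nlinarith

/-! ### a test function -/

theorem exists_psi : ∃ ψ : ℂ → ℝ, ContDiff ℝ ∞ ψ ∧ HasCompactSupport ψ ∧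
    0 < ∫ z, ‖fderiv ℝ ψ z‖ ^ 2 := by
  let B : ContDiffBump (0 : ℂ) := ⟨1, 2, one_pos, one_lt_two⟩
  have hc : ContDiff ℝ ∞ (B : ℂ → ℝ) := B.contDiff
  have hs : HasCompactSupport (B : ℂ → ℝ) := B.hasCompactSupport
  refine ⟨B, hc, hs, ?_⟩
  have ht : IsTest univ (B : ℂ → ℝ) := ⟨hc, hs, subset_univ _⟩
  have hcont := Con549.continuous_fderiv_norm_sq ht
  have hint := Con549.integrable_energy ht
  have hnn : 0 ≤ ∫ z, ‖fderiv ℝ (B : ℂ → ℝ) z‖ ^ 2 := integral_nonneg fun z => by positivity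
  refine lt_of_le_of_ne hnn fun h0 => ?_
  -- the derivative vanishes everywhere
  have h1 : (fun z => ‖fderiv ℝ (B : ℂ → ℝ) z‖ ^ 2) =ᵐ[volume] 0 :=
    (integral_eq_zero_iff_of_nonneg (fun z => by positivity) hint).1 h0.symm
  have h2 : (fun z => ‖fderiv ℝ (B : ℂ → ℝ) z‖ ^ 2) = 0 :=
    hcont.ae_eq_iff_eq volume continuous_zero |>.1 h1
  have h3 : ∀ z, fderiv ℝ (B : ℂ → ℝ) z = 0 := by
    intro z
    have := congrFun h2 z
    simpa using this
  have h4 := is_const_of_fderiv_eq_zero (hc.differentiable (by simp)) h3 0 3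
  have h5 : (B : ℂ → ℝ) 0 = 1 := B.one_of_mem_closedBall (by simp [B])
  have h6 : (B : ℂ → ℝ) 3 = 0 := B.zero_of_le_dist (by
    simp only [dist_zero_right, B]
    norm_num)
  rw [h5, h6] at h4
  exact one_ne_zero h4

/-! ### the plane part -/

/-- the lower bound at the level of the variogram, for one test function -/
def LowV (V : ℤ × ℤ → ℝ) (l : ℝ) (ψ : ℂ → ℝ) : Prop :=
  ∃ (δ : ℕ → ℝ) (b : ℕ → ℤ × ℤ → ℝ) (s : ℕ → Finset (ℤ × ℤ)),
    (∀ n, 0 < δ n) ∧ Tendsto δ atTop (𝓝 0) ∧ Near δ b (fun z => -(Δ ψ) z) ∧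
    (∀ᶠ n in atTop, Wt (s n) (b n)) ∧ ∀ ε : ℝ, 0 < ε → ∃ᶠ n in atTop,
      l * (∫ z, ‖fderiv ℝ ψ z‖ ^ 2) - ε ≤ CV V (s n) (b n) (s n) (b n)

theorem LowV.le {V : ℤ × ℤ → ℝ} {κ l : ℝ} {ψ : ℂ → ℝ} (hκ : Lim2 V κ) (hψ : ContDiff ℝ ∞ ψ)
    (hc : HasCompactSupport ψ) (h : LowV V l ψ) :
    l * (∫ z, ‖fderiv ℝ ψ z‖ ^ 2) ≤ κ * ∫ z, ‖fderiv ℝ ψ z‖ ^ 2 := by
  obtain ⟨δ, b, s, hδ, hδ0, hb, hw, hl⟩ := h
  have ht : IsTest univ ψ := ⟨hψ, hc, subset_univ _⟩
  have h1 := hκ.lim δ ψ (fun z => -(Δ ψ) z) b b s s hδ hδ0 hψ hc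
    (Cw643.continuous_lap hψ).neg (Cw643.hasCompactSupport_lap hc).neg hb hb hw hw
  rw [energy_eq ht] at h1
  refine le_of_forall_pos_le_add fun ε hε => ?_
  refine le_of_forall_pos_le_add fun ε' hε' => ?_
  have h2 := (hl ε hε).and_eventually
    (h1.eventually (eventually_le_nhds (lt_add_of_pos_right _ hε')))
  obtain ⟨n, h3, h4⟩ := h2.exists
  linarith


/-! ### Stein fields on finite connected graphs -/

section graph

variable {Q : Type*} [Fintype Q] [DecidableEq Q]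













end graph

/-! ### tori -/

section torus

variable (Γ : AddSubgroup (ℤ × ℤ)) [Fintype ((ℤ × ℤ) ⧸ Γ)]




end torus

/-! ### the limit along tori -/






end Crest.Agent.R144.KapE761
end
end

-- ▼ part R144/KapE2_761
section

/-!
# R144 (S0197), helper761, KAP-END, part 2

* `LowN V v ε ψ`: the lower bound at a fixed accuracy; `LowN.le`; **`kapD`**: the asymptotic form of
  (KAP) of helper95's msg 9899;
* `vg0 μ x = ∫ (h x - h 0)² dμ`; `TLC Γ μ` (local convergence of the torus states);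
  `tendsto_Vt`, **`two_vg0`** : `Two (vg0 μ)` and `vg0_e1_le`.
-/

set_option autoImplicit false
set_option linter.unusedSectionVars false

open MeasureTheory Set Function Filter Topology
open scoped ENNReal NNReal Real ContDiff Laplacian

noncomputable section

namespace Crest.Agent.R144.KapE761

open Crest.Agent.R144.Tor95
open Crest.Agent.R144.Cw643 (CV Near Wt Lim2 lim2)
open Crest.Agent.R144.Con549 (IsTest energy_eq)
open Crest.Agent.R144.Tp952 (Two)
open Crest.Agent.R144.Lw425 (LObs hd hd_comm hd_self hd_nonneg hd_eq_zero exists_step adj_iff_hd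
  hball mem_hball)
open Crest.ProbabilityR.HexHeights (Adj)

/-! ### fixed accuracy -/

/-- the lower bound with value `v` up to `ε`, for one test function -/
def LowN (V : ℤ × ℤ → ℝ) (v ε : ℝ) (ψ : ℂ → ℝ) : Prop :=
  ∃ (δ : ℕ → ℝ) (b : ℕ → ℤ × ℤ → ℝ) (s : ℕ → Finset (ℤ × ℤ)),
    (∀ n, 0 < δ n) ∧ Tendsto δ atTop (𝓝 0) ∧ Near δ b (fun z => -(Δ ψ) z) ∧
    (∀ᶠ n in atTop, Wt (s n) (b n)) ∧ ∃ᶠ n in atTop, v - ε ≤ CV V (s n) (b n) (s n) (b n)

theorem LowN.le {V : ℤ × ℤ → ℝ} {κ v ε : ℝ} {ψ : ℂ → ℝ} (hκ : Lim2 V κ) (hψ : ContDiff ℝ ∞ ψ)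
    (hc : HasCompactSupport ψ) (h : LowN V v ε ψ) :
    v - ε ≤ κ * ∫ z, ‖fderiv ℝ ψ z‖ ^ 2 := by
  obtain ⟨δ, b, s, hδ, hδ0, hb, hw, hl⟩ := h
  have ht : IsTest univ ψ := ⟨hψ, hc, subset_univ _⟩
  have h1 := hκ.lim δ ψ (fun z => -(Δ ψ) z) b b s s hδ hδ0 hψ hc
    (Cw643.continuous_lap hψ).neg (Cw643.hasCompactSupport_lap hc).neg hb hb hw hw
  rw [energy_eq ht] at h1
  refine le_of_forall_pos_le_add fun ε' hε' => ?_
  have h2 := hl.and_eventually (h1.eventually (eventually_le_nhds (lt_add_of_pos_right _ hε')))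
  obtain ⟨n, h3, h4⟩ := h2.exists
  linarith

/-- **(KAP), asymptotic form** -/
theorem kapD {V : ℤ × ℤ → ℝ} (hV : Two V) (h13 : V (1, 0) ≤ 1 / 3) (ab : ℕ → ℝ → ℝ) {c0 : ℝ}
    (hc0 : 0 < c0)
    (hlow : ∀ ψ : ℂ → ℝ, ContDiff ℝ ∞ ψ → HasCompactSupport ψ → ∀ ε : ℝ, 0 < ε → ∀ b0 : ℝ,
      0 < b0 → ∃ r1, ∀ r, r1 ≤ r → ∀ b, b0 ≤ b → (∀ L, ab r L ≤ b) →
        LowN V (c0 / b * ∫ z, ‖fderiv ℝ ψ z‖ ^ 2) ε ψ) :
    ∀ ε : ℝ, 0 < ε → ∃ r1, ∀ r, r1 ≤ r → ∃ L, c0 * π / 2 - ε ≤ ab r L := by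
  intro ε hε
  have hπ := Real.pi_pos
  set η : ℝ := c0 * π / 2 with hη
  have hη0 : 0 < η := by positivity
  set ε1 : ℝ := min ε (η / 2) with hε1
  have h1 : 0 < ε1 := lt_min hε (by positivity)
  have h2 : ε1 ≤ ε := min_le_left _ _
  have h3 : ε1 ≤ η / 2 := min_le_right _ _
  obtain ⟨ψ, hψ, hc, hp⟩ := exists_psi
  obtain ⟨κ, hκ, h4, -⟩ := lim2 hV
  set D : ℝ := ∫ z, ‖fderiv ℝ ψ z‖ ^ 2 with hD
  set K : ℝ := π / Real.sqrt 3 * (1 / 3) with hK
  have hκK : κ ≤ K := h4.trans (by rw [hK]; gcongr)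
  have hK2 : K < 2 / π := const_lt
  set e : ℝ := (2 / π - K) * D / 2 with he
  have he0 : 0 < e := by
    have : 0 < 2 / π - K := by linarith
    positivity
  obtain ⟨r1, hr1⟩ := hlow ψ hψ hc e he0 (η / 2) (by positivity)
  refine ⟨r1, fun r hr => ?_⟩
  by_contra hcon
  push Not at hcon
  have h5 : ∀ L, ab r L ≤ η - ε1 := fun L => by linarith [hcon L]
  have h6 := (hr1 r hr (η - ε1) (by linarith) h5).le hκ hψ hc
  have h7 : 2 / π ≤ c0 / (η - ε1) := by
    rw [div_le_div_iff₀ hπ (by linarith)]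
    nlinarith
  have h8 : 2 / π * D ≤ c0 / (η - ε1) * D := mul_le_mul_of_nonneg_right h7 hp.le
  have h9 : κ * D ≤ K * D := mul_le_mul_of_nonneg_right hκK hp.le
  have h10 : 0 < (2 / π - K) * D := mul_pos (by linarith) hp
  have h11 : (2 / π - K) * D = 2 / π * D - K * D := by ring
  rw [he] at h6
  linarith

/-! ### the variogram of `μ₀` -/

/-- the variogram of a law of heights -/
def vg0 (μ : Measure (ℤ × ℤ → ℝ)) (x : ℤ × ℤ) : ℝ := ∫ h, (h x - h 0) ^ 2 ∂μ

/-- steps `≤ 1` along the edges imply `1`-Lipschitz -/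
theorem lip_of_step {g : ℤ × ℤ → ℝ} (h1 : ∀ v w, hd v w = 1 → |g v - g w| ≤ 1) (v w : ℤ × ℤ) :
    |g v - g w| ≤ (hd v w : ℝ) := by
  have key : ∀ (n : ℕ) (v w : ℤ × ℤ), hd v w ≤ n → |g v - g w| ≤ (hd v w : ℝ) := by
    intro n
    induction n with
    | zero =>
      intro v w h
      have h0 : hd v w = 0 := le_antisymm (by simpa using h) (hd_nonneg _ _)
      rw [hd_eq_zero h0, hd_self]; simp
    | succ n ih =>
      intro v w h
      by_cases hvw : v = w
      · subst hvw; rw [hd_self]; simp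
      obtain ⟨c, hc1, hc2, _⟩ := exists_step hvw
      have g1 := ih c w (by push_cast at h; omega)
      have g2 := h1 v c hc1
      have g3 := abs_sub_le (g v) (g c) (g w)
      have g4 : ((hd c w : ℤ) : ℝ) = hd v w - 1 := by rw [hc2]; push_cast; ring
      rw [g4] at g1
      linarith
  exact key (hd v w).toNat v w (Int.self_le_toNat _)

/-- the clipped normalised square of one height difference -/
def csq (x : ℤ × ℤ) (h : ℤ × ℤ → ℝ) : ℝ := min 1 ((h x - h 0) ^ 2 / ((hd x 0 : ℝ) + 1) ^ 2)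

theorem csq_LObs (x : ℤ × ℤ) : LObs (hd x 0).toNat (csq x) where
  meas := by
    refine measurable_const.min (Measurable.div_const ?_ _)
    exact ((measurable_pi_apply x).sub (measurable_pi_apply 0)).pow_const 2
  bd := by
    intro h
    have h1 : 0 ≤ (h x - h 0) ^ 2 / ((hd x 0 : ℝ) + 1) ^ 2 := by positivity
    rw [csq, abs_of_nonneg (le_min zero_le_one h1)]
    exact min_le_left _ _
  loc := by
    intro h h' hh
    have h1 : h x = h' x := hh x (mem_hball.mpr (Int.self_le_toNat _))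
    have h2 : h 0 = h' 0 := hh 0 (mem_hball.mpr (by rw [hd_self]; positivity))
    rw [csq, csq, h1, h2]
  shift := by
    intro h c
    rw [csq, csq, add_sub_add_right_eq_sub]

theorem csq_eq {x : ℤ × ℤ} {h : ℤ × ℤ → ℝ} (hh : |h x - h 0| ≤ (hd x 0 : ℝ)) :
    csq x h = (h x - h 0) ^ 2 / ((hd x 0 : ℝ) + 1) ^ 2 := by
  have h0 : (0 : ℝ) ≤ (hd x 0 : ℝ) := by exact_mod_cast hd_nonneg x 0
  refine min_eq_right ?_
  rw [div_le_one (by positivity)]
  have := abs_le.mp hh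
  nlinarith

theorem vg0_eq {μ : Measure (ℤ × ℤ → ℝ)} (hlip : ∀ᵐ h ∂μ, ∀ v w, |h v - h w| ≤ (hd v w : ℝ))
    (x : ℤ × ℤ) : vg0 μ x = ((hd x 0 : ℝ) + 1) ^ 2 * ∫ h, csq x h ∂μ := by
  have h0 : (0 : ℝ) ≤ (hd x 0 : ℝ) := by exact_mod_cast hd_nonneg x 0
  rw [vg0, ← integral_const_mul]
  refine integral_congr_ae ?_
  filter_upwards [hlip] with h hh
  rw [csq_eq (hh x 0)]
  field_simp

section torus

variable (Γ : AddSubgroup (ℤ × ℤ)) [Fintype ((ℤ × ℤ) ⧸ Γ)]

theorem lip_torus {h : ((ℤ × ℤ) ⧸ Γ) → ℝ} (hh : h ∈ lip (Rt Γ)) (v w : ℤ × ℤ) :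
    |h (v : (ℤ × ℤ) ⧸ Γ) - h (w : (ℤ × ℤ) ⧸ Γ)| ≤ (hd v w : ℝ) :=
  lip_of_step (g := fun z : ℤ × ℤ => h (z : (ℤ × ℤ) ⧸ Γ))
    (fun v w hvw => hh _ _ (Rt_mk ((adj_iff_hd v w).2 hvw))) v w

theorem Vt_eq_csq (x : ℤ × ℤ) : Vt Γ x = ((hd x 0 : ℝ) + 1) ^ 2 * exT Γ (csq x) := by
  have h0 : (0 : ℝ) ≤ (hd x 0 : ℝ) := by exact_mod_cast hd_nonneg x 0
  rw [Vt_eq_exT, exT, exT, ex, ex, ← mul_div_assoc, ← integral_const_mul]
  congr 1
  rw [nu]
  refine setIntegral_congr_fun ((isClosed_lip _).inter (isClosed_gauge _)).measurableSet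
    fun h hh => ?_
  simp only
  rw [csq_eq (lip_torus Γ hh.1 x 0)]
  field_simp

end torus

/-- local convergence of the states of a sequence of tori -/
def TLC (Γ : ℕ → AddSubgroup (ℤ × ℤ)) [∀ k, Fintype ((ℤ × ℤ) ⧸ Γ k)]
    (μ : Measure (ℤ × ℤ → ℝ)) : Prop :=
  ∀ r f, LObs r f → Tendsto (fun k => exT (Γ k) f) atTop (𝓝 (∫ h, f h ∂μ))

theorem tendsto_Vt {Γ : ℕ → AddSubgroup (ℤ × ℤ)} [∀ k, Fintype ((ℤ × ℤ) ⧸ Γ k)]
    {μ : Measure (ℤ × ℤ → ℝ)} (hlip : ∀ᵐ h ∂μ, ∀ v w, |h v - h w| ≤ (hd v w : ℝ))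
    (hT : TLC Γ μ) (x : ℤ × ℤ) : Tendsto (fun k => Vt (Γ k) x) atTop (𝓝 (vg0 μ x)) := by
  rw [vg0_eq hlip x]
  simp_rw [Vt_eq_csq]
  exact (hT _ _ (csq_LObs x)).const_mul _

section limit

variable {μ : Measure (ℤ × ℤ → ℝ)} {N m : ℕ → ℤ}
  [∀ k, Fintype ((ℤ × ℤ) ⧸ rect (N k) (m k))]
  [∀ k, Fintype ((ℤ × ℤ) ⧸ (rect (N k) (m k)).map swE.toAddMonoidHom)]

theorem two_vg0 (hlip : ∀ᵐ h ∂μ, ∀ v w, |h v - h w| ≤ (hd v w : ℝ))
    (hm : Tendsto m atTop atTop) (h1 : TLC (fun k => rect (N k) (m k)) μ)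
    (h2 : TLC (fun k => (rect (N k) (m k)).map swE.toAddMonoidHom) μ) : Two (vg0 μ) :=
  two_of_lim (vg0 μ) N m hm (tendsto_Vt hlip h1) (tendsto_Vt hlip h2)

theorem vg0_e1_le (hlip : ∀ᵐ h ∂μ, ∀ v w, |h v - h w| ≤ (hd v w : ℝ))
    (h1 : TLC (fun k => rect (N k) (m k)) μ) : vg0 μ (1, 0) ≤ 1 / 3 :=
  le_of_tendsto' (tendsto_Vt hlip h1 (1, 0)) fun n => Vt_e1_le _


end limit

end Crest.Agent.R144.KapE761
end
end

-- ▼ part R144/KapE3_761
section

/-!
# R144 (S0197), helper761, KAP-END, part 3: Cramér–Rao under `μ₀` through DLR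

* `cr_t`: trace form of Cramér–Rao with a free factor `t`;
* `LS`: a local bounded shift invariant Borel observable (any size), `Dlr μ`, `Dlr.ls`;
* `CV_vg0`: `CV (vg0 μ) s b s b = ∫ (∑ p ∈ s, b p h_p)² dμ`;
* **`cr_dlr`**: `2 t ∫ A dμ - t² ∫ B dμ ≤ CV (vg0 μ) s b s b` from tangent fields in the fibres of `I`.
-/

set_option autoImplicit false
set_option linter.unusedSectionVars false

open MeasureTheory Set Function Filter Topology
open scoped ENNReal NNReal Real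

noncomputable section

namespace Crest.Agent.R144.KapE761

open Crest.Agent.R144.Tor95
open Crest.Agent.R144.Ham560 (ext ham hamP Anch)
open Crest.Agent.R144.Cw643 (CV)
open Crest.Agent.R144.Lw425 (LObs hd hd_comm hd_self hd_nonneg hball mem_hball shft measurable_shft)
open Crest.Agent.R144.Lc279 (Ev lat mem_lat P2)
open Crest.Agent.R144.Bl565 (anch_lat)
open Crest.Agent.R144.BQ565 (measurable_mean_param continuous_ext_pi)
open Crest.Agent.R144.Skel144 (integral_unif)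

/-! ### Cramér–Rao with a factor -/

section abs

variable {V : Type*} [Fintype V] [DecidableEq V]

theorem cr_t {Y : (V → ℝ) → (V → ℝ)} {c : ℝ≥0} {K : Set (V → ℝ)} {t0 : ℝ}
    (hT : MW121.Tan K Y c t0) (hK : MeasurableSet K) (hKb : Bornology.IsBounded K)
    {G : (V → ℝ) → ℝ} {L : ℝ≥0} (hG : LipschitzWith L G) (t : ℝ) :
    2 * t * (∫ h in K, fderiv ℝ G h (Y h)) -
      t ^ 2 * (∫ h in K, (MW121.jac Y h * MW121.jac Y h).trace) ≤ ∫ h in K, (G h) ^ 2 := by
  have h1 := MW121.ibp hT hK hKb hG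
  have h2 := MW121.reilly hT hK hKb
  have hi1 : IntegrableOn (fun h => G h * (MW121.jac Y h).trace) K :=
    MW121.integrableOn_mul_trace hT.lip hK hKb hG
  obtain ⟨M, hM0, hM⟩ := MW121.exists_lip_bound hKb hG
  have hi2 : IntegrableOn (fun h => (G h) ^ 2) K := by
    refine MW121.integrableOn_of_bound hK hKb ?_ (M := M ^ 2) ?_
    · exact ((hG.continuous.measurable).pow_const 2).aestronglyMeasurable
    · intro h hh
      rw [abs_pow]
      exact pow_le_pow_left₀ (abs_nonneg _) (by simpa using hM h hh) 2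
  have hi3 : IntegrableOn (fun h => (MW121.jac Y h).trace ^ 2) K := by
    refine MW121.integrableOn_of_bound hK hKb
      ((MW121.measurable_trace Y).pow_const 2).aestronglyMeasurable
      (M := (Fintype.card V * (c : ℝ)) ^ 2) ?_
    intro h _
    rw [abs_pow]
    exact pow_le_pow_left₀ (abs_nonneg _) (MW121.abs_trace_le hT.lip h) 2
  have h3 : 0 ≤ ∫ h in K, (G h + t * (MW121.jac Y h).trace) ^ 2 :=
    integral_nonneg fun h => sq_nonneg _
  have h4 : ∫ h in K, (G h + t * (MW121.jac Y h).trace) ^ 2 =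
      (∫ h in K, (G h) ^ 2) + 2 * t * (∫ h in K, G h * (MW121.jac Y h).trace) +
        t ^ 2 * ∫ h in K, (MW121.jac Y h).trace ^ 2 := by
    have i4 : IntegrableOn (fun h => 2 * t * (G h * (MW121.jac Y h).trace)) K :=
      hi1.const_mul (2 * t)
    have i6 : IntegrableOn (fun h => t ^ 2 * (MW121.jac Y h).trace ^ 2) K := hi3.const_mul (t ^ 2)
    have i5 : IntegrableOn (fun h => (G h) ^ 2 + 2 * t * (G h * (MW121.jac Y h).trace)) K :=
      hi2.add i4
    rw [← integral_const_mul, ← integral_const_mul, ← integral_add hi2 i4, ← integral_add i5 i6]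
    refine integral_congr_ae (Eventually.of_forall fun h => ?_)
    simp only
    ring
  have h5 : t ^ 2 * ∫ h in K, (MW121.jac Y h).trace ^ 2 ≤
      t ^ 2 * ∫ h in K, (MW121.jac Y h * MW121.jac Y h).trace :=
    mul_le_mul_of_nonneg_left h2 (sq_nonneg t)
  rw [h4] at h3
  rw [h1]
  linarith

end abs

/-! ### local observables of any size, DLR -/

/-- a local shift invariant bounded Borel observable -/
def LS (F : (ℤ × ℤ → ℝ) → ℝ) : Prop := ∃ (r : ℕ) (C : ℝ), 0 < C ∧ LObs r fun h => C⁻¹ * F h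

theorem LS.measurable {F : (ℤ × ℤ → ℝ) → ℝ} (hF : LS F) : Measurable F := by
  obtain ⟨r, C, hC, h⟩ := hF
  have h1 := h.meas.const_mul C
  refine (congrArg Measurable ?_).mp h1
  funext z
  rw [← mul_assoc, mul_inv_cancel₀ hC.ne', one_mul]

theorem LS.bdd {F : (ℤ × ℤ → ℝ) → ℝ} (hF : LS F) : ∃ C : ℝ, 0 < C ∧ ∀ h, |F h| ≤ C := by
  obtain ⟨r, C, hC, h⟩ := hF
  refine ⟨C, hC, fun z => ?_⟩
  have h1 := h.bd z
  rw [abs_mul, abs_of_pos (inv_pos.mpr hC), inv_mul_le_iff₀ hC, mul_one] at h1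
  exact h1

theorem LS.mk' {F : (ℤ × ℤ → ℝ) → ℝ} (r : ℕ) (hm : Measurable F) {C : ℝ} (hC : ∀ h, |F h| ≤ C)
    (hl : ∀ h h', (∀ a ∈ hball r, h a = h' a) → F h = F h')
    (hs : ∀ h (c : ℝ), F (fun a => h a + c) = F h) : LS F := by
  have hC0 : 0 < |C| + 1 := by positivity
  refine ⟨r, |C| + 1, hC0, ?_, ?_, ?_, ?_⟩
  · exact hm.const_mul _
  · intro h
    rw [abs_mul, abs_of_pos (inv_pos.mpr hC0), inv_mul_le_iff₀ hC0, mul_one]
    exact (hC h).trans ((le_abs_self C).trans (by linarith))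
  · intro h h' hh
    rw [hl h h' hh]
  · intro h c
    simp only [hs h c]

theorem LS.local_shift {F : (ℤ × ℤ → ℝ) → ℝ} (hF : LS F) : ∃ r : ℕ,
    (∀ h h', (∀ a ∈ hball r, h a = h' a) → F h = F h') ∧
    (∀ h (c : ℝ), F (fun a => h a + c) = F h) := by
  obtain ⟨r, C, hC, h⟩ := hF
  refine ⟨r, fun z z' hz => ?_, fun z c => ?_⟩
  · have h1 := h.loc z z' hz
    exact mul_left_cancel₀ (inv_ne_zero hC.ne') h1
  · have h1 := h.shift z c
    exact mul_left_cancel₀ (inv_ne_zero hC.ne') h1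

/-- the DLR equation -/
def Dlr (μ : Measure (ℤ × ℤ → ℝ)) : Prop :=
  ∀ (I : Finset (ℤ × ℤ)) (r : ℕ) (F : (ℤ × ℤ → ℝ) → ℝ), LObs r F →
    ∫ h, F h ∂μ = ∫ h, Ev I (lat I) h F ∂μ

theorem Dlr.ls {μ : Measure (ℤ × ℤ → ℝ)} (hD : Dlr μ) (I : Finset (ℤ × ℤ))
    {F : (ℤ × ℤ → ℝ) → ℝ} (hF : LS F) : ∫ h, F h ∂μ = ∫ h, Ev I (lat I) h F ∂μ := by
  obtain ⟨r, C, hC, h⟩ := hF
  have h1 := hD I r _ h
  have h2 : ∀ z, Ev I (lat I) z (fun h => C⁻¹ * F h) = C⁻¹ * Ev I (lat I) z F :=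
    fun z => integral_const_mul _ _
  simp only [h2] at h1
  rw [integral_const_mul, integral_const_mul] at h1
  exact mul_left_cancel₀ (inv_ne_zero hC.ne') h1

theorem measurable_Ev {I : Finset (ℤ × ℤ)} {F : (ℤ × ℤ → ℝ) → ℝ} (hF : Measurable F) :
    Measurable fun ζ : ℤ × ℤ → ℝ => Ev I (lat I) ζ F := by
  refine measurable_mean_param (f := fun ζ x => F (ext I ζ x)) ?_
  exact hF.comp (continuous_ext_pi).measurable

theorem ham_null {I : Finset (ℤ × ℤ)} {E : Finset ((ℤ × ℤ) × (ℤ × ℤ))} {ζ : ℤ × ℤ → ℝ}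
    (h : volume (ham I E ζ) = 0) : hamP I E ζ = 0 := by
  rw [hamP, Measure.restrict_eq_zero.mpr h, smul_zero]

theorem isProb_of_ne {I : Finset (ℤ × ℤ)} {ζ : ℤ × ℤ → ℝ}
    (h : volume (ham I (lat I) ζ) ≠ 0) : IsProbabilityMeasure (hamP I (lat I) ζ) := by
  constructor
  rw [hamP, Measure.smul_apply, Measure.restrict_apply_univ, smul_eq_mul]
  exact ENNReal.inv_mul_cancel h (Ham560.volume_ham_lt_top (anch_lat I)).ne


theorem abs_Ev_le {I : Finset (ℤ × ℤ)} {F : (ℤ × ℤ → ℝ) → ℝ} {C : ℝ} (hC0 : 0 ≤ C)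
    (hC : ∀ h, |F h| ≤ C) (ζ : ℤ × ℤ → ℝ) : |Ev I (lat I) ζ F| ≤ C := by
  by_cases h : volume (ham I (lat I) ζ) = 0
  · rw [Ev, ham_null h]; simpa using hC0
  · have := isProb_of_ne h
    have h1 : ‖∫ x, F (ext I ζ x) ∂(hamP I (lat I) ζ)‖ ≤ C * (hamP I (lat I) ζ).real univ :=
      norm_integral_le_of_norm_le_const (Eventually.of_forall fun x => hC _)
    rw [probReal_univ, mul_one] at h1
    exact h1


theorem integrable_Ev {μ : Measure (ℤ × ℤ → ℝ)} [IsProbabilityMeasure μ] {I : Finset (ℤ × ℤ)}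
    {F : (ℤ × ℤ → ℝ) → ℝ} (hF : LS F) : Integrable (fun ζ => Ev I (lat I) ζ F) μ := by
  obtain ⟨C, hC, hb⟩ := hF.bdd
  exact Integrable.of_bound (C := C) (measurable_Ev hF.measurable).aestronglyMeasurable
    (Eventually.of_forall fun ζ => abs_Ev_le hC.le hb ζ)

/-! ### linear statistics under a translation invariant law -/

/-- the linear statistic -/
def XS (s : Finset (ℤ × ℤ)) (b : ℤ × ℤ → ℝ) (h : ℤ × ℤ → ℝ) : ℝ := ∑ p ∈ s, b p * h p

theorem XS_shift {s : Finset (ℤ × ℤ)} {b : ℤ × ℤ → ℝ} (hb : ∑ p ∈ s, b p = 0)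
    (h : ℤ × ℤ → ℝ) (c : ℝ) : XS s b (fun a => h a + c) = XS s b h := by
  simp only [XS, mul_add, Finset.sum_add_distrib, ← Finset.sum_mul, hb, zero_mul, add_zero]

theorem XS_sq {s : Finset (ℤ × ℤ)} {b : ℤ × ℤ → ℝ} (hb : ∑ p ∈ s, b p = 0) (h : ℤ × ℤ → ℝ) :
    XS s b h ^ 2 = -(1 / 2) * ∑ p ∈ s, ∑ q ∈ s, b p * b q * (h p - h q) ^ 2 := by
  have e1 : ∑ p ∈ s, ∑ q ∈ s, b p * b q * (h p - h q) ^ 2 =
      (∑ p ∈ s, b p * h p ^ 2) * (∑ q ∈ s, b q) + (∑ p ∈ s, b p) * (∑ q ∈ s, b q * h q ^ 2) -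
        2 * ((∑ p ∈ s, b p * h p) * (∑ q ∈ s, b q * h q)) := by
    rw [Finset.sum_mul_sum, Finset.sum_mul_sum, Finset.sum_mul_sum, Finset.mul_sum,
      ← Finset.sum_add_distrib, ← Finset.sum_sub_distrib]
    refine Finset.sum_congr rfl fun p _ => ?_
    rw [Finset.mul_sum, ← Finset.sum_add_distrib, ← Finset.sum_sub_distrib]
    refine Finset.sum_congr rfl fun q _ => ?_
    ring
  rw [e1, hb, XS]
  ring

/-- a bound of the statistic on Lipschitz heights -/
def XB (s : Finset (ℤ × ℤ)) (b : ℤ × ℤ → ℝ) : ℝ := ∑ p ∈ s, |b p| * (hd p 0 : ℝ)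

theorem abs_XS_le {s : Finset (ℤ × ℤ)} {b : ℤ × ℤ → ℝ} (hb : ∑ p ∈ s, b p = 0)
    {h : ℤ × ℤ → ℝ} (hl : ∀ v w, |h v - h w| ≤ (hd v w : ℝ)) : |XS s b h| ≤ XB s b := by
  have e : XS s b h = ∑ p ∈ s, b p * (h p - h 0) := by
    rw [XS]
    simp only [mul_sub, Finset.sum_sub_distrib, ← Finset.sum_mul, hb, zero_mul, sub_zero]
  rw [e]
  refine (Finset.abs_sum_le_sum_abs _ _).trans (Finset.sum_le_sum fun p _ => ?_)
  rw [abs_mul]
  exact mul_le_mul_of_nonneg_left (hl p 0) (abs_nonneg _)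

/-- the clipped square of the statistic -/
def XC (s : Finset (ℤ × ℤ)) (b : ℤ × ℤ → ℝ) (h : ℤ × ℤ → ℝ) : ℝ :=
  min ((XB s b) ^ 2) (XS s b h ^ 2)

theorem measurable_XS (s : Finset (ℤ × ℤ)) (b : ℤ × ℤ → ℝ) : Measurable (XS s b) :=
  Finset.measurable_sum _ fun p _ => (measurable_pi_apply p).const_mul _

theorem XC_LS {s : Finset (ℤ × ℤ)} {b : ℤ × ℤ → ℝ} (hb : ∑ p ∈ s, b p = 0) : LS (XC s b) := by
  obtain ⟨r, hr⟩ := Lw425.exists_hball s
  refine LS.mk' (C := (XB s b) ^ 2) r ?_ ?_ ?_ ?_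
  · exact measurable_const.min ((measurable_XS s b).pow_const 2)
  · intro h
    rw [XC, abs_of_nonneg (le_min (sq_nonneg _) (sq_nonneg _))]
    exact min_le_left _ _
  · intro h h' hh
    have e : XS s b h = XS s b h' := Finset.sum_congr rfl fun p hp => by rw [hh p (hr p hp)]
    rw [XC, XC, e]
  · intro h c
    rw [XC, XC, XS_shift hb]

theorem XC_eq {s : Finset (ℤ × ℤ)} {b : ℤ × ℤ → ℝ} (hb : ∑ p ∈ s, b p = 0)
    {h : ℤ × ℤ → ℝ} (hl : ∀ v w, |h v - h w| ≤ (hd v w : ℝ)) : XC s b h = XS s b h ^ 2 := by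
  refine min_eq_right ?_
  rw [← sq_abs]
  exact pow_le_pow_left₀ (abs_nonneg _) (abs_XS_le hb hl) 2

section mu

variable {μ : Measure (ℤ × ℤ → ℝ)} [IsProbabilityMeasure μ]

theorem integrable_sq (hlip : ∀ᵐ h ∂μ, ∀ v w, |h v - h w| ≤ (hd v w : ℝ)) (p q : ℤ × ℤ) :
    Integrable (fun h : ℤ × ℤ → ℝ => (h p - h q) ^ 2) μ := by
  refine Integrable.of_bound (C := (hd p q : ℝ) ^ 2) ?_ ?_
  · exact (((measurable_pi_apply p).sub (measurable_pi_apply q)).pow_const 2).aestronglyMeasurable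
  · filter_upwards [hlip] with h hh
    rw [Real.norm_eq_abs, abs_pow]
    exact pow_le_pow_left₀ (abs_nonneg _) (hh p q) 2

theorem vg0_sub (htr : ∀ x, μ.map (shft x) = μ) (p q : ℤ × ℤ) :
    vg0 μ (p - q) = ∫ h, (h p - h q) ^ 2 ∂μ := by
  rw [vg0]
  nth_rewrite 1 [← htr q]
  rw [integral_map (measurable_shft q).aemeasurable]
  · refine integral_congr_ae (Eventually.of_forall fun h => ?_)
    simp only [shft]
    rw [show q + (p - q) = p by abel, add_zero, sub_self, sub_zero]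
  · exact (((measurable_pi_apply (p - q)).sub (measurable_pi_apply 0)).pow_const
      2).aestronglyMeasurable

theorem CV_vg0 (hlip : ∀ᵐ h ∂μ, ∀ v w, |h v - h w| ≤ (hd v w : ℝ))
    (htr : ∀ x, μ.map (shft x) = μ) {s : Finset (ℤ × ℤ)} {b : ℤ × ℤ → ℝ}
    (hb : ∑ p ∈ s, b p = 0) : CV (vg0 μ) s b s b = ∫ h, XS s b h ^ 2 ∂μ := by
  simp only [XS_sq hb]
  rw [integral_const_mul, integral_finsetSum]
  · unfold CV
    congr 1
    refine Finset.sum_congr rfl fun p _ => ?_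
    rw [integral_finsetSum]
    · refine Finset.sum_congr rfl fun q _ => ?_
      rw [integral_const_mul, vg0_sub htr]
    · intro q _
      exact (integrable_sq hlip p q).const_mul _
  · intro p _
    exact integrable_finsetSum _ fun q _ => (integrable_sq hlip p q).const_mul _

end mu

/-! ### Cramér–Rao in a fibre -/

theorem lip_ext {I : Finset (ℤ × ℤ)} {ζ : ℤ × ℤ → ℝ} (hζ : ∀ v w, |ζ v - ζ w| ≤ (hd v w : ℝ))
    {x : I → ℝ} (hx : x ∈ ham I (lat I) ζ) (v w : ℤ × ℤ) :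
    |ext I ζ x v - ext I ζ x w| ≤ (hd v w : ℝ) := by
  refine lip_of_step (fun v w hvw => ?_) v w
  by_cases h : v ∈ I ∨ w ∈ I
  · exact hx (v, w) (mem_lat.mpr ⟨hvw, h⟩)
  · push Not at h
    rw [Ham560.ext_notMem h.1, Ham560.ext_notMem h.2]
    have := hζ v w
    rw [hvw] at this
    simpa using this

/-- the statistic on a fibre is affine -/
theorem XS_ext_fderiv (I s : Finset (ℤ × ℤ)) (b ζ : ℤ × ℤ → ℝ) :
    (∃ L : ℝ≥0, LipschitzWith L fun x : I → ℝ => XS s b (ext I ζ x)) ∧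
      ∀ x y : I → ℝ, fderiv ℝ (fun x : I → ℝ => XS s b (ext I ζ x)) x y = XS s b (ext I 0 y) := by
  let A : (I → ℝ) →ₗ[ℝ] ℝ :=
    { toFun := fun y => XS s b (ext I 0 y)
      map_add' := by
        intro x y
        simp only [XS, ← Finset.sum_add_distrib]
        refine Finset.sum_congr rfl fun p _ => ?_
        by_cases h : p ∈ I
        · rw [Ham560.ext_mem h, Ham560.ext_mem h, Ham560.ext_mem h, ← mul_add]; rfl
        · rw [Ham560.ext_notMem h, Ham560.ext_notMem h, Ham560.ext_notMem h]; simp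
      map_smul' := by
        intro r x
        simp only [XS, RingHom.id_apply, smul_eq_mul, Finset.mul_sum]
        refine Finset.sum_congr rfl fun p _ => ?_
        by_cases h : p ∈ I
        · rw [Ham560.ext_mem h, Ham560.ext_mem h]
          simp only [Pi.smul_apply, smul_eq_mul]; ring
        · rw [Ham560.ext_notMem h, Ham560.ext_notMem h]; simp }
  have hA : (fun x : I → ℝ => XS s b (ext I ζ x)) =
      fun x => LinearMap.toContinuousLinearMap A x + XS s b (ext I ζ 0) := by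
    funext x
    change XS s b (ext I ζ x) = XS s b (ext I 0 x) + XS s b (ext I ζ 0)
    simp only [XS, ← Finset.sum_add_distrib]
    refine Finset.sum_congr rfl fun p _ => ?_
    by_cases h : p ∈ I
    · rw [Ham560.ext_mem h, Ham560.ext_mem h, Ham560.ext_mem h]; simp
    · rw [Ham560.ext_notMem h, Ham560.ext_notMem h, Ham560.ext_notMem h]; simp
  rw [hA]
  refine ⟨⟨‖LinearMap.toContinuousLinearMap A‖₊, fun x y => ?_⟩, fun x y => ?_⟩
  · simpa using (LinearMap.toContinuousLinearMap A).lipschitz x y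
  · rw [fderiv_add_const, ContinuousLinearMap.fderiv]
    rfl

/-- a Stein field in the fibre over `ζ`, with explicit observables of the configuration -/
def FibF (I s : Finset (ℤ × ℤ)) (b : ℤ × ℤ → ℝ) (A B : (ℤ × ℤ → ℝ) → ℝ) (ζ : ℤ × ℤ → ℝ) : Prop :=
  ∃ (Y : (I → ℝ) → (I → ℝ)) (c : ℝ≥0) (t0 : ℝ), MW121.Tan (ham I (lat I) ζ) Y c t0 ∧
    (∀ᵐ x ∂(volume.restrict (ham I (lat I) ζ)), A (ext I ζ x) ≤ XS s b (ext I 0 (Y x))) ∧
    (∀ᵐ x ∂(volume.restrict (ham I (lat I) ζ)),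
      (MW121.jac Y x * MW121.jac Y x).trace ≤ B (ext I ζ x))

theorem fib_le {I s : Finset (ℤ × ℤ)} {b : ℤ × ℤ → ℝ} (hb : ∑ p ∈ s, b p = 0)
    {A B : (ℤ × ℤ → ℝ) → ℝ} (hA : LS A) (hB : LS B) {ζ : ℤ × ℤ → ℝ}
    (hζ : ∀ v w, |ζ v - ζ w| ≤ (hd v w : ℝ)) (h : FibF I s b A B ζ) {t : ℝ} (ht : 0 ≤ t) :
    2 * t * Ev I (lat I) ζ A - t ^ 2 * Ev I (lat I) ζ B ≤ Ev I (lat I) ζ (XC s b) := by
  set K := ham I (lat I) ζ with hKdef
  by_cases hv : volume K = 0
  · have h0 : hamP I (lat I) ζ = 0 := ham_null hv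
    simp only [Ev, h0, integral_zero_measure]; simp
  obtain ⟨Y, c, t0, hT, h1, h2⟩ := h
  have hP := isProb_of_ne hv
  obtain ⟨⟨L, hL⟩, hfd⟩ := XS_ext_fderiv I s b ζ
  have hK : MeasurableSet K := Ham560.isClosed_ham.measurableSet
  have hKb : Bornology.IsBounded K := (Ham560.isCompact_ham (anch_lat I)).isBounded
  have hvt : volume K ≠ ⊤ := (Ham560.volume_ham_lt_top (anch_lat I)).ne
  have hv0 : 0 < (volume K).toReal := ENNReal.toReal_pos hv hvt
  have key := cr_t hT hK hKb hL t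
  simp only [hfd] at key
  have e1 : Ev I (lat I) ζ (XC s b) = (volume K).toReal⁻¹ * ∫ x in K, XS s b (ext I ζ x) ^ 2 := by
    rw [Ev]
    refine (integral_unif (K := K) (fun x => XC s b (ext I ζ x))).trans ?_
    congr 1
    refine setIntegral_congr_fun hK fun x hx => ?_
    exact XC_eq hb (lip_ext hζ hx)
  have e2 : Ev I (lat I) ζ A = (volume K).toReal⁻¹ * ∫ x in K, A (ext I ζ x) :=
    integral_unif (K := K) (fun x => A (ext I ζ x))
  have e3 : Ev I (lat I) ζ B = (volume K).toReal⁻¹ * ∫ x in K, B (ext I ζ x) :=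
    integral_unif (K := K) (fun x => B (ext I ζ x))
  have meas : ∀ {F : (ℤ × ℤ → ℝ) → ℝ}, LS F → IntegrableOn (fun x => F (ext I ζ x)) K := by
    intro F hF
    obtain ⟨C, hC, hbd⟩ := hF.bdd
    refine MW121.integrableOn_of_bound hK hKb (M := C) ?_ (fun x _ => hbd _)
    refine (hF.measurable.comp ?_).aestronglyMeasurable
    exact (continuous_ext_pi.comp (Continuous.prodMk_right ζ)).measurable
  have hi : IntegrableOn (fun x => XS s b (ext I 0 (Y x))) K := by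
    have := MW121.integrableOn_fderiv_apply hT.lip hK hKb hL
    simpa only [hfd] using this
  have hi2 : IntegrableOn (fun x => (MW121.jac Y x * MW121.jac Y x).trace) K := by
    have e : ∀ x, (MW121.jac Y x * MW121.jac Y x).trace =
        ∑ u, ∑ v, MW121.jac Y x u v * MW121.jac Y x v u := by
      intro x
      simp only [Matrix.trace, Matrix.diag_apply, Matrix.mul_apply]
    simp only [e]
    refine integrable_finsetSum _ fun u _ => integrable_finsetSum _ fun v _ => ?_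
    refine MW121.integrableOn_of_bound hK hKb (M := (c : ℝ) * c) ?_ (fun x _ => ?_)
    · exact ((MW121.measurable_jac Y u v).mul (MW121.measurable_jac Y v u)).aestronglyMeasurable
    · rw [abs_mul]
      exact mul_le_mul (MW121.abs_jac_le hT.lip x u v) (MW121.abs_jac_le hT.lip x v u)
        (abs_nonneg _) c.2
  have g1 : ∫ x in K, A (ext I ζ x) ≤ ∫ x in K, XS s b (ext I 0 (Y x)) :=
    integral_mono_ae (meas hA) hi h1
  have g2 : ∫ x in K, (MW121.jac Y x * MW121.jac Y x).trace ≤ ∫ x in K, B (ext I ζ x) :=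
    integral_mono_ae hi2 (meas hB) h2
  rw [e1, e2, e3]
  have g3 : 2 * t * (∫ x in K, A (ext I ζ x)) - t ^ 2 * (∫ x in K, B (ext I ζ x)) ≤
      ∫ x in K, XS s b (ext I ζ x) ^ 2 := by
    have g4 := mul_le_mul_of_nonneg_left g1 (by positivity : 0 ≤ 2 * t)
    have g5 := mul_le_mul_of_nonneg_left g2 (sq_nonneg t)
    linarith
  have g6 := mul_le_mul_of_nonneg_left g3 (inv_nonneg.mpr hv0.le)
  refine le_trans (le_of_eq ?_) g6
  ring

/-- **Cramér–Rao under a DLR law.** -/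
theorem cr_dlr {μ : Measure (ℤ × ℤ → ℝ)} [IsProbabilityMeasure μ]
    (hlip : ∀ᵐ h ∂μ, ∀ v w, |h v - h w| ≤ (hd v w : ℝ)) (htr : ∀ x, μ.map (shft x) = μ)
    (hD : Dlr μ) {I s : Finset (ℤ × ℤ)} {b : ℤ × ℤ → ℝ} (hb : ∑ p ∈ s, b p = 0)
    {A B : (ℤ × ℤ → ℝ) → ℝ} (hA : LS A) (hB : LS B)
    (hF : ∀ ζ : ℤ × ℤ → ℝ, (∀ v w, |ζ v - ζ w| ≤ (hd v w : ℝ)) → FibF I s b A B ζ)
    {t : ℝ} (ht : 0 ≤ t) :
    2 * t * (∫ h, A h ∂μ) - t ^ 2 * (∫ h, B h ∂μ) ≤ CV (vg0 μ) s b s b := by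
  have h1 : ∫ h, XS s b h ^ 2 ∂μ = ∫ h, XC s b h ∂μ := by
    refine integral_congr_ae ?_
    filter_upwards [hlip] with h hh
    rw [XC_eq hb hh]
  rw [CV_vg0 hlip htr hb, h1, hD.ls I (XC_LS hb), hD.ls I hA, hD.ls I hB,
    ← integral_const_mul, ← integral_const_mul, ← integral_sub]
  · refine integral_mono_ae ?_ (integrable_Ev (XC_LS hb)) ?_
    · exact ((integrable_Ev hA).const_mul _).sub ((integrable_Ev hB).const_mul _)
    · filter_upwards [hlip] with ζ hζ
      exact fib_le hb hA hB hζ (hF ζ hζ) ht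
  · exact (integrable_Ev hA).const_mul _
  · exact (integrable_Ev hB).const_mul _

end Crest.Agent.R144.KapE761
end
end

-- ▼ part R144/Lc17_279
section

/-!
R144 (S0197), helper279.  Block LC, file 17: tori.  Translation invariance of the pinned torus law for
bounded Borel gradient observables; local convergence (I3) and the law of large numbers on tori.
-/

set_option autoImplicit false
set_option linter.unusedSectionVars false
set_option linter.unusedVariables false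

open MeasureTheory Set Filter Topology
open scoped ENNReal

noncomputable section

namespace Crest.Agent.R144.Lc279

open Crest.Agent.R144.Ham560
open Crest.Agent.R144.Lw425 (hd hd_comm hd_le_iff mem_hball hball mem_inn inn mem_sph sph hd_self
  hd_triangle hd_pos hd_adj LObs)
open Crest.Agent.R144.Tor95 (nu lip gauge isClosed_lip isClosed_gauge Rt edg mem_edg Rt_mk
  Rt_translate rect mem_rect mk_eq_mk_rect conn_Rt volume_shift lip_shift lintegral_nu_eq)
open Crest.ProbabilityR.HexHeights (Adj)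

section gauge

variable {Q : Type} [Fintype Q] [DecidableEq Q]

/-- Gauge change, Borel version. -/
theorem lgauge {R : Q → Q → Prop} (o o' : Q) {f : (Q → ℝ) → ℝ≥0∞} (hf : Measurable f)
    (hs : ∀ (h : Q → ℝ) (c : ℝ), f (fun q => h q + c) = f h) :
    ∫⁻ h, f h ∂(nu R o) = ∫⁻ h, f h ∂(nu R o') := by
  have hK : MeasurableSet (lip R) := (isClosed_lip R).measurableSet
  set g : (Q → ℝ) → ℝ≥0∞ := (lip R).indicator f with hg
  have hgm : Measurable g := hf.indicator hK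
  have hgs : ∀ (h : Q → ℝ) (c : ℝ), g (fun q => h q + c) = g h := by
    intro h c
    by_cases h1 : h ∈ lip R
    · rw [hg, Set.indicator_of_mem ((lip_shift R h c).mpr h1), Set.indicator_of_mem h1, hs]
    · rw [hg, Set.indicator_of_notMem (fun h2 => h1 ((lip_shift R h c).mp h2)),
        Set.indicator_of_notMem h1]
  set ρ : ℝ → ℝ≥0∞ := (Set.Icc (-(1/2) : ℝ) (1/2)).indicator 1 with hρ
  have hρm : Measurable ρ := measurable_one.indicator measurableSet_Icc
  have hone : ∀ a : ℝ, ∫⁻ c : ℝ, ρ (a + c) = 1 := by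
    intro a
    rw [lintegral_add_left_eq_self (fun c => ρ c) a, hρ, lintegral_indicator_one measurableSet_Icc,
      Real.volume_Icc]
    norm_num
  have hone' : ∀ a : ℝ, ∫⁻ c : ℝ, ρ (a - c) = 1 := by
    intro a
    rw [lintegral_sub_left_eq_self (fun c => ρ c) a]
    have := hone 0
    simpa using this
  have hform : ∀ p : Q, ∫⁻ h, f h ∂(nu R p) = ∫⁻ h, g h * ρ (h p) := by
    intro p
    rw [nu, ← lintegral_indicator (hK.inter (isClosed_gauge p).measurableSet)]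
    refine lintegral_congr fun h => ?_
    have hmem : h ∈ Tor95.gauge p ↔ h p ∈ Set.Icc (-(1/2) : ℝ) (1/2) := by
      show |h p| ≤ 1 / 2 ↔ _
      rw [Set.mem_Icc, abs_le]
    by_cases h1 : h ∈ lip R
    · by_cases h2 : h ∈ Tor95.gauge p
      · rw [Set.indicator_of_mem (show h ∈ lip R ∩ Tor95.gauge p from ⟨h1, h2⟩), hg, hρ,
          Set.indicator_of_mem h1, Set.indicator_of_mem (hmem.mp h2), Pi.one_apply, mul_one]
      · rw [Set.indicator_of_notMem (fun h3 => h2 h3.2), hg, hρ, Set.indicator_of_mem h1,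
          Set.indicator_of_notMem (fun h3 => h2 (hmem.mpr h3)), mul_zero]
    · rw [Set.indicator_of_notMem (fun h3 => h1 h3.1), hg, Set.indicator_of_notMem h1, zero_mul]
  rw [hform, hform]
  calc ∫⁻ h : Q → ℝ, g h * ρ (h o)
      = ∫⁻ h : Q → ℝ, ∫⁻ c : ℝ, g h * ρ (h o) * ρ (h o' + c) := by
        refine lintegral_congr fun h => ?_
        have hm1 : Measurable fun c : ℝ => ρ (h o' + c) :=
          hρm.comp (measurable_const.add measurable_id)
        rw [lintegral_const_mul _ hm1, hone, mul_one]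
    _ = ∫⁻ c : ℝ, ∫⁻ h : Q → ℝ, g h * ρ (h o) * ρ (h o' + c) := by
        refine lintegral_lintegral_swap (Measurable.aemeasurable ?_)
        refine Measurable.mul (Measurable.mul ?_ ?_) ?_
        · exact hgm.comp measurable_fst
        · exact hρm.comp ((measurable_pi_apply o).comp measurable_fst)
        · exact hρm.comp (((measurable_pi_apply o').comp measurable_fst).add measurable_snd)
    _ = ∫⁻ c : ℝ, ∫⁻ h : Q → ℝ, g h * ρ (h o - c) * ρ (h o') := by
        refine lintegral_congr fun c => ?_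
        rw [← (volume_shift (Q := Q) (-c)).lintegral_comp_emb
          (MeasurableEquiv.addRight (fun _ : Q => -c)).measurableEmbedding]
        refine lintegral_congr fun h => ?_
        have e1 : h o' + -c + c = h o' := by ring
        have e2 : h o + -c = h o - c := (sub_eq_add_neg _ _).symm
        show g (fun q => h q + -c) * ρ (h o + -c) * ρ (h o' + -c + c) = _
        rw [hgs h (-c), e1, e2]
    _ = ∫⁻ h : Q → ℝ, ∫⁻ c : ℝ, g h * ρ (h o - c) * ρ (h o') := by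
        refine (lintegral_lintegral_swap (Measurable.aemeasurable ?_)).symm
        refine Measurable.mul (Measurable.mul ?_ ?_) ?_
        · exact hgm.comp measurable_fst
        · exact hρm.comp (((measurable_pi_apply o).comp measurable_fst).sub measurable_snd)
        · exact hρm.comp ((measurable_pi_apply o').comp measurable_fst)
    _ = ∫⁻ h : Q → ℝ, g h * ρ (h o') := by
        refine lintegral_congr fun h => ?_
        have : (fun c : ℝ => g h * ρ (h o - c) * ρ (h o')) =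
            fun c => (g h * ρ (h o')) * ρ (h o - c) := by funext c; ring
        have hm1 : Measurable fun c : ℝ => ρ (h o - c) :=
          hρm.comp (measurable_const.sub measurable_id)
        rw [this, lintegral_const_mul _ hm1, hone', mul_one]

/-- Relabelling, Borel version. -/
theorem lrelabel {R : Q → Q → Prop} (σ : Q ≃ Q) (hR : ∀ p q, R p q ↔ R (σ p) (σ q)) (o : Q)
    (f : (Q → ℝ) → ℝ≥0∞) :
    ∫⁻ h, f (h ∘ σ) ∂(nu R (σ o)) = ∫⁻ h, f h ∂(nu R o) := by
  have hmp := volume_measurePreserving_piCongrLeft (fun _ : Q => ℝ) σ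
  set E := MeasurableEquiv.piCongrLeft (fun _ : Q => ℝ) σ with hE
  have hEa : ∀ (g : Q → ℝ) (q : Q), E g (σ q) = g q := by
    intro g q
    exact Equiv.piCongrLeft_apply_apply (fun _ : Q => ℝ) σ g q
  have hcomp : ∀ g : Q → ℝ, E g ∘ σ = g := fun g => funext fun q => hEa g q
  have hpre : E ⁻¹' (lip R ∩ gauge (σ o)) = lip R ∩ gauge o := by
    ext g
    simp only [Set.mem_preimage, Set.mem_inter_iff]
    refine and_congr ⟨fun h p q hpq => ?_, fun h p q hpq => ?_⟩ ?_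
    · have := h (σ p) (σ q) ((hR p q).1 hpq)
      rwa [hEa, hEa] at this
    · obtain ⟨p, rfl⟩ := σ.surjective p
      obtain ⟨q, rfl⟩ := σ.surjective q
      rw [hEa, hEa]
      exact h p q ((hR p q).2 hpq)
    · change |E g (σ o)| ≤ 1 / 2 ↔ |g o| ≤ 1 / 2
      rw [hEa]
  rw [nu, nu, ← hpre]
  have hm := (hmp.restrict_preimage_emb E.measurableEmbedding (lip R ∩ gauge (σ o)))
  rw [← hm.lintegral_comp_emb E.measurableEmbedding]
  refine lintegral_congr fun g => ?_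
  simp only [hcomp]

end gauge

/-! ### The pinned torus law -/

section torus

variable (Γ : AddSubgroup P2) [Fintype (P2 ⧸ Γ)] [DecidableEq (P2 ⧸ Γ)]

/-- Free sites of the torus. -/
abbrev tF : Finset (P2 ⧸ Γ) := Finset.univ.erase 0

/-- Edges of the torus. -/
abbrev tE : Finset ((P2 ⧸ Γ) × (P2 ⧸ Γ)) := edg (Rt Γ)

/-- The quotient map. -/
abbrev tq (v : P2) : P2 ⧸ Γ := (v : P2 ⧸ Γ)

/-- Translation invariance, Borel, nonnegative. -/
theorem tor_ltrans (t : P2 ⧸ Γ) {f : (P2 ⧸ Γ → ℝ) → ℝ≥0∞} (hf : Measurable f)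
    (hs : ∀ (h : P2 ⧸ Γ → ℝ) (c : ℝ), f (fun q => h q + c) = f h) :
    ∫⁻ x in ham (tF Γ) (tE Γ) 0, f (fun q => ext (tF Γ) 0 x (q + t)) =
      ∫⁻ x in ham (tF Γ) (tE Γ) 0, f (ext (tF Γ) 0 x) := by
  have hm : Measurable fun h : P2 ⧸ Γ → ℝ => f fun q => h (q + t) :=
    hf.comp (measurable_pi_iff.2 fun q => measurable_pi_apply _)
  rw [← lintegral_nu_eq (R := Rt Γ) 0 f hf hs,
    ← lintegral_nu_eq (R := Rt Γ) 0 (fun h => f fun q => h (q + t)) hm
      (fun h c => hs (fun q => h (q + t)) c)]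
  have h1 := lrelabel (R := Rt Γ) (Equiv.addRight t)
    (fun p q => by simpa using Rt_translate Γ t p q) 0 f
  simp only [Equiv.coe_addRight, zero_add] at h1
  rw [← h1]
  exact lgauge 0 t hm fun h c => hs (fun q => h (q + t)) c

theorem tor_anch : Anch (tF Γ) (tE Γ) := by
  intro v _
  refine ⟨0, by simp, ?_⟩
  have key : ∀ w, Relation.ReflTransGen (Rt Γ) v w →
      Relation.ReflTransGen (fun a b => b ∈ nbr (tE Γ) a) v w := by
    intro w h
    induction h with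
    | refl => exact Relation.ReflTransGen.refl
    | @tail b c _ hbc ih =>
      by_cases hbc' : c = b
      · rw [hbc']; exact ih
      · exact ih.tail (mem_nbr.mpr ⟨hbc', Or.inl (mem_edg.mpr hbc)⟩)
  exact key 0 (conn_Rt Γ v 0)

theorem tor_vr : 0 < vr (tF Γ) (tE Γ) 0 := vr_zero_pos (tor_anch Γ)

/-- Translation invariance, bounded Borel gradient observables. -/
theorem tor_trans (t : P2 ⧸ Γ) {f : (P2 ⧸ Γ → ℝ) → ℝ} (hf : Measurable f) {C : ℝ}
    (hC : ∀ h, |f h| ≤ C) (hs : ∀ (h : P2 ⧸ Γ → ℝ) (c : ℝ), f (fun q => h q + c) = f h) :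
    Ev (tF Γ) (tE Γ) 0 (fun h => f fun q => h (q + t)) = Ev (tF Γ) (tE Γ) 0 f := by
  have hA := tor_anch Γ
  have hv := tor_vr Γ
  have hm : Measurable fun h : P2 ⧸ Γ → ℝ => f fun q => h (q + t) :=
    hf.comp (measurable_pi_iff.2 fun q => measurable_pi_apply _)
  have key : ∀ g : (P2 ⧸ Γ → ℝ) → ℝ, Measurable g → (∀ h, 0 ≤ g h) →
      Ev (tF Γ) (tE Γ) 0 g = (∫⁻ x in ham (tF Γ) (tE Γ) 0,
        ENNReal.ofReal (g (ext (tF Γ) 0 x))).toReal / (volume (ham (tF Γ) (tE Γ) 0)).toReal := by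
    intro g hg hg0
    unfold Ev
    rw [integral_hamP_real, integral_eq_lintegral_of_nonneg_ae (Eventually.of_forall fun x => hg0 _)
      (hg.comp (measurable_ext _ _)).aestronglyMeasurable]
  have h1 : Ev (tF Γ) (tE Γ) 0 (fun h => f (fun q => h (q + t)) + C) =
      Ev (tF Γ) (tE Γ) 0 fun h => f h + C := by
    rw [key _ (hm.add_const C) (fun h => by linarith [(abs_le.mp (hC fun q => h (q + t))).1]),
      key _ (hf.add_const C) (fun h => by linarith [(abs_le.mp (hC h)).1])]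
    congr 2
    exact tor_ltrans Γ t (f := fun h => ENNReal.ofReal (f h + C))
      (hf.add_const C).ennreal_ofReal fun h c => by rw [hs h c]
  have hB : Bd f := ⟨hf, C, hC⟩
  have hB' : Bd fun h : P2 ⧸ Γ → ℝ => f fun q => h (q + t) := ⟨hm, C, fun h => hC _⟩
  rw [Ev_add hB' (Bd.const C) hA hv, Ev_add hB (Bd.const C) hA hv] at h1
  linarith

/-! ### Fundamental rectangles -/

/-- The rectangle `[0, A + 2) × [0, B + 2)` is a fundamental domain. -/
structure Rec (A B : ℕ) : Prop where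
  inj : ∀ v w : P2, (0 ≤ v.1 ∧ v.1 < A + 2) → (0 ≤ v.2 ∧ v.2 < B + 2) →
    (0 ≤ w.1 ∧ w.1 < A + 2) → (0 ≤ w.2 ∧ w.2 < B + 2) → tq Γ v = tq Γ w → v = w
  card : Fintype.card (P2 ⧸ Γ) ≤ (A + 2) * (B + 2)

/-- The inner rectangle. -/
def rW (A B : ℕ) : Finset P2 := Finset.Ico (1 : ℤ) (A + 1) ×ˢ Finset.Ico (1 : ℤ) (B + 1)

theorem mem_rW {A B : ℕ} {v : P2} :
    v ∈ rW A B ↔ (1 ≤ v.1 ∧ v.1 < A + 1) ∧ (1 ≤ v.2 ∧ v.2 < B + 1) := by
  rw [rW, Finset.mem_product, Finset.mem_Ico, Finset.mem_Ico]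

theorem card_rW (A B : ℕ) : (rW A B).card = A * B := by
  rw [rW, Finset.card_product, Int.card_Ico, Int.card_Ico]
  congr 1 <;> omega

/-- The outer rectangle. -/
def rD (A B : ℕ) : Set P2 := {v | (0 ≤ v.1 ∧ v.1 < A + 2) ∧ (0 ≤ v.2 ∧ v.2 < B + 2)}

theorem tq_add (v w : P2) : tq Γ (v + w) = tq Γ v + tq Γ w := rfl

theorem Rt_lift {v : P2} {q : P2 ⧸ Γ} (h : Rt Γ (tq Γ v) q) :
    ∃ w, hd v w = 1 ∧ q = tq Γ w := by
  obtain ⟨a, b, hab, ha, rfl⟩ := h
  refine ⟨b + (v - a), ?_, ?_⟩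
  · have h1 : hd a b = 1 := hd_eq_one_iff_adj.mpr hab
    have h2 := hd_add (v - a) a b
    rw [sub_add_cancel, h1, add_comm (v - a) b] at h2
    exact h2
  · show tq Γ b = tq Γ (b + (v - a))
    rw [tq_add]
    have : tq Γ (v - a) = 0 := by
      show ((v - a : P2) : P2 ⧸ Γ) = 0
      rw [QuotientAddGroup.mk_sub, ha, sub_self]
    rw [this, add_zero]

theorem Rt_symm {p q : P2 ⧸ Γ} (h : Rt Γ p q) : Rt Γ q p := by
  obtain ⟨a, b, hab, ha, hb⟩ := h
  exact ⟨b, a, Tor95.Adj_symm hab, hb, ha⟩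

theorem tor_deg (q : P2 ⧸ Γ) : (nbr (tE Γ) q).card ≤ 6 := by
  obtain ⟨v, rfl⟩ := QuotientAddGroup.mk_surjective q
  have hsub : nbr (tE Γ) (tq Γ v) ⊆ (nb6 v).image (tq Γ) := by
    intro q hq
    rw [mem_nbr, mem_edg, mem_edg] at hq
    have h1 : Rt Γ (tq Γ v) q := by
      rcases hq.2 with h2 | h2
      · exact h2
      · exact Rt_symm Γ h2
    obtain ⟨w, hw, rfl⟩ := Rt_lift Γ h1
    exact Finset.mem_image_of_mem _ (mem_nb6.mpr hw)
  exact (Finset.card_le_card hsub).trans (Finset.card_image_le.trans (card_nb6_le v))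

theorem Rec.gch {A B : ℕ} (h : Rec Γ A B) : GCh (tF Γ) (tE Γ) (rW A B) (tq Γ) (rD A B) where
  ch := by
    refine ⟨?_, ?_, ?_, ?_, ?_⟩
    · intro v hv
      rw [Finset.mem_coe, mem_rW] at hv
      show (0 ≤ v.1 ∧ v.1 < A + 2) ∧ (0 ≤ v.2 ∧ v.2 < B + 2)
      omega
    · intro v hv w hw hvw
      exact h.inj v w hv.1 hv.2 hw.1 hw.2 hvw
    · intro v hv w hvw
      rw [mem_rW] at hv
      have := hd_le_iff.mp hvw.le
      show (0 ≤ w.1 ∧ w.1 < A + 2) ∧ (0 ≤ w.2 ∧ w.2 < B + 2)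
      omega
    · intro v _ w hvw
      exact Or.inl (mem_edg.mpr (Rt_mk (hd_eq_one_iff_adj.mp hvw)))
    · intro p hp hp'
      have hp2 := mem_edg.mp hp
      rcases hp' with h1 | h1
      · obtain ⟨v, hv, hvp⟩ := Finset.mem_image.mp h1
        rw [← hvp] at hp2
        obtain ⟨w, hw, hwp⟩ := Rt_lift Γ hp2
        exact ⟨v, w, hw, Or.inl hv, Prod.ext hvp.symm hwp⟩
      · obtain ⟨v, hv, hvp⟩ := Finset.mem_image.mp h1
        have hp3 := Rt_symm Γ hp2
        rw [← hvp] at hp3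
        obtain ⟨w, hw, hwp⟩ := Rt_lift Γ hp3
        exact ⟨w, v, by rw [hd_comm]; exact hw, Or.inr hv, Prod.ext hwp hvp.symm⟩
  sub := by
    intro q hq
    obtain ⟨v, hv, rfl⟩ := Finset.mem_image.mp hq
    rw [Finset.mem_erase]
    refine ⟨fun h0 => ?_, Finset.mem_univ _⟩
    rw [mem_rW] at hv
    have h1 : tq Γ v = tq Γ 0 := h0
    have h2 := h.inj v 0 (by omega) (by omega) (by simp; omega) (by simp; omega) h1
    rw [h2] at hv
    simp at hv
  deg := fun q _ => tor_deg Γ q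

end torus

/-! ### Local convergence on tori -/

theorem card_nr_rW (M A B : ℕ) : ((nr M (rW A B)).card : ℝ) ≤ 2 * M * (A + B) := by
  have hsub : nr M (rW A B) ⊆
      ((Finset.Ico (1 : ℤ) (1 + M) ×ˢ Finset.Ico (1 : ℤ) (B + 1)) ∪
        (Finset.Ico ((A : ℤ) + 1 - M) (A + 1) ×ˢ Finset.Ico (1 : ℤ) (B + 1))) ∪
      ((Finset.Ico (1 : ℤ) (A + 1) ×ˢ Finset.Ico (1 : ℤ) (1 + M)) ∪
        (Finset.Ico (1 : ℤ) (A + 1) ×ˢ Finset.Ico ((B : ℤ) + 1 - M) (B + 1))) := by
    intro v hv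
    obtain ⟨h1, u, hu, h2⟩ := mem_nr.mp hv
    rw [mem_rW] at h1 h2
    rw [mem_BX] at hu
    simp only [Prod.fst_add, Prod.snd_add] at h2
    simp only [Finset.mem_union, Finset.mem_product, Finset.mem_Ico]
    omega
  have h1 := (Finset.card_le_card hsub).trans ((Finset.card_union_le _ _).trans
    (Nat.add_le_add (Finset.card_union_le _ _) (Finset.card_union_le _ _)))
  simp only [Finset.card_product, Int.card_Ico] at h1
  have e1 : ((1 : ℤ) + M - 1).toNat = M := by omega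
  have e2 : ((B : ℤ) + 1 - 1).toNat = B := by omega
  have e3 : ((A : ℤ) + 1 - ((A : ℤ) + 1 - M)).toNat = M := by omega
  have e4 : ((A : ℤ) + 1 - 1).toNat = A := by omega
  have e5 : ((B : ℤ) + 1 - ((B : ℤ) + 1 - M)).toNat = M := by omega
  rw [e1, e2, e3, e4, e5] at h1
  have h2 : ((nr M (rW A B)).card : ℝ) ≤ ((M * B + M * B + (A * M + A * M) : ℕ) : ℝ) := by
    exact_mod_cast h1
  push_cast at h2
  linarith

theorem sum_le_prod {A B T : ℕ} (hT : 0 < T) (hA : T ≤ A) (hB : T ≤ B) :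
    ((A : ℝ) + B) * T ≤ 2 * (A * B) := by
  have h1 : (T : ℝ) ≤ A := by exact_mod_cast hA
  have h2 : (T : ℝ) ≤ B := by exact_mod_cast hB
  have h3 : (0 : ℝ) < T := by exact_mod_cast hT
  nlinarith

/-- **Local convergence on tori**, box form. -/
theorem tor_box {r : ℕ} {f : (P2 → ℝ) → ℝ} (hf : LObs r f) {a : ℝ} (ha : 0 < a) (ha1 : a ≤ 1) :
    ∃ R0 : ℕ, 0 < R0 ∧ ∀ R : ℕ, R0 ≤ R → ∃ T : ℕ, ∀ (Γ : AddSubgroup P2) [Fintype (P2 ⧸ Γ)]
      [DecidableEq (P2 ⧸ Γ)] (A B : ℕ), T ≤ A → T ≤ B → Rec Γ A B →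
        Ev (tF Γ) (tE Γ) 0 (fun h => |BA R r f (fun u => h (tq Γ u)) - m0 f|) ≤ 2 * a := by
  obtain ⟨R0, hR0, hbox⟩ := box1 hf ha ha1
  refine ⟨R0, hR0, fun R hR => ?_⟩
  obtain ⟨c, hc, θ, hθ, N2, hsys⟩ := hbox R hR
  obtain ⟨T, hT⟩ := exists_nat_ge (max (max (8 * ((R : ℝ) + 1) / θ) (12 / θ))
    (max (2 / (c * a)) (max N2 1)))
  refine ⟨T, ?_⟩
  intro Γ _ _ A B hTA hTB hrec
  have b1 : 8 * ((R : ℝ) + 1) / θ ≤ T := ((le_max_left _ _).trans (le_max_left _ _)).trans hT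
  have b2 : 12 / θ ≤ T := ((le_max_right _ _).trans (le_max_left _ _)).trans hT
  have b3 : 2 / (c * a) ≤ T := ((le_max_left _ _).trans (le_max_right _ _)).trans hT
  have b4 : (N2 : ℝ) ≤ T := ((le_max_left _ _).trans ((le_max_right _ _).trans
    (le_max_right _ _))).trans hT
  have b5 : (1 : ℝ) ≤ T := ((le_max_right _ _).trans ((le_max_right _ _).trans
    (le_max_right _ _))).trans hT
  have hTp : 0 < T := by
    have : (0 : ℝ) < T := by linarith
    exact_mod_cast this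
  rw [div_le_iff₀ hθ] at b1 b2
  rw [div_le_iff₀ (by positivity)] at b3
  have hAB := sum_le_prod hTp hTA hTB
  have hAr : (T : ℝ) ≤ A := by exact_mod_cast hTA
  have hBr : (T : ℝ) ≤ B := by exact_mod_cast hTB
  have hABT : (T : ℝ) ≤ A * B := by nlinarith
  have hW : ((rW A B).card : ℝ) = A * B := by rw [card_rW]; push_cast; ring
  have hWp : (0 : ℝ) < (rW A B).card := by rw [hW]; linarith
  have h1 := hsys (P2 ⧸ Γ) (tF Γ) (tE Γ) (rW A B) (tq Γ) (rD A B) (hrec.gch Γ) (by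
      have : (N2 : ℝ) ≤ (rW A B).card := by rw [hW]; linarith
      exact_mod_cast this) (by
      refine (card_nr_rW _ _ _).trans ?_
      rw [hW]
      push_cast
      have h2 : 8 * ((R : ℝ) + 1) * (A + B) ≤ T * θ * (A + B) :=
        mul_le_mul_of_nonneg_right b1 (by positivity)
      have h3 : θ * (((A : ℝ) + B) * T) ≤ θ * (2 * (A * B)) := mul_le_mul_of_nonneg_left hAB hθ.le
      linarith) (by
      have h4 : (rW A B).image (tq Γ) ⊆ tF Γ := (hrec.gch Γ).sub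
      have h5 := Finset.card_sdiff_add_card_eq_card h4
      have h6 : ((rW A B).image (tq Γ)).card = A * B := by
        rw [Finset.card_image_of_injOn ((hrec.gch Γ).ch.inj.mono (hrec.gch Γ).ch.sub), card_rW]
      have h7 : (tF Γ).card ≤ (A + 2) * (B + 2) := (Finset.card_le_univ _).trans hrec.card
      have h8 : ((tF Γ \ (rW A B).image (tq Γ)).card : ℝ) ≤ 2 * (A + B) + 4 := by
        have : (tF Γ \ (rW A B).image (tq Γ)).card ≤ 2 * (A + B) + 4 := by
          have e : (A + 2) * (B + 2) = A * B + (2 * (A + B) + 4) := by ring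
          omega
        exact_mod_cast this
      refine h8.trans ?_
      rw [hW]
      have h9 : 12 * ((A : ℝ) + B) ≤ T * θ * (A + B) :=
        mul_le_mul_of_nonneg_right b2 (by positivity)
      have h10 : θ * (((A : ℝ) + B) * T) ≤ θ * (2 * (A * B)) :=
        mul_le_mul_of_nonneg_left hAB hθ.le
      linarith) 0
  have hA' := tor_anch Γ
  have hv := tor_vr Γ
  have hm0 := abs_m0_le hf
  set g : P2 → (P2 ⧸ Γ → ℝ) → ℝ := fun v h => |BA R r f (fun u => h (tq Γ (v + u))) - m0 f|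
    with hg
  have hgm : ∀ v, Measurable (g v) := fun v => by
    refine (((measurable_BA hf.meas).comp ?_).sub_const (m0 f)).abs
    exact measurable_pi_iff.2 fun u => measurable_pi_apply _
  have hg2 : ∀ v h, |g v h| ≤ 2 := by
    intro v h
    rw [hg]
    simp only
    rw [abs_abs]
    have h2 := abs_BA_le (L := R) (r := r) hf.bd (fun u => h (tq Γ (v + u)))
    have h3 := abs_sub (BA R r f (fun u => h (tq Γ (v + u)))) (m0 f)
    linarith
  have hgB : ∀ v, Bd (g v) := fun v => ⟨hgm v, 2, hg2 v⟩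
  have hgs : ∀ (h : P2 ⧸ Γ → ℝ) (c : ℝ), g 0 (fun q => h q + c) = g 0 h := by
    intro h c
    rw [hg]
    simp only
    congr 2
    unfold BA
    congr 1
    exact Finset.sum_congr rfl fun x _ => hf.shift (fun u => h (tq Γ (0 + (x + u)))) c
  have hgt : ∀ v, Ev (tF Γ) (tE Γ) 0 (g v) = Ev (tF Γ) (tE Γ) 0 (g 0) := by
    intro v
    rw [← tor_trans Γ (tq Γ v) (hgm 0) (hg2 0) hgs]
    congr 1
    funext h
    rw [hg]
    simp only
    congr 3
    funext u
    rw [zero_add, add_comm v u, tq_add]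
  set X : (P2 ⧸ Γ → ℝ) → ℝ := fun h => ((rW A B).card : ℝ)⁻¹ * ∑ v ∈ rW A B, g v h with hX
  have hXB : Bd X := (Bd.sum fun v _ => hgB v).const_mul _
  have hEX : Ev (tF Γ) (tE Γ) 0 X = Ev (tF Γ) (tE Γ) 0 (g 0) := by
    rw [hX, Ev_const_mul, Ev_sum (fun v _ => hgB v) hA' hv, Finset.sum_congr rfl fun v _ => hgt v,
      Finset.sum_const, nsmul_eq_mul, ← mul_assoc, inv_mul_cancel₀ hWp.ne', one_mul]
  have hg0 : (fun h : P2 ⧸ Γ → ℝ => |BA R r f (fun u => h (tq Γ u)) - m0 f|) = g 0 := by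
    funext h
    rw [hg]
    simp only [zero_add]
  rw [hg0, ← hEX]
  have h2 : Ev (tF Γ) (tE Γ) 0 X ≤ a + 2 * (Real.exp (-(c * (rW A B).card)) * 1) := by
    refine Ev_le_of_tail hXB hA' (by norm_num) (fun h => ?_) (Real.exp_pos _).le zero_le_one ha.le
      hv (by rw [ENNReal.ofReal_one, one_mul]) ((measure_mono ?_).trans h1)
    · rw [hX]
      simp only
      rw [inv_mul_le_iff₀ hWp]
      refine (Finset.sum_le_card_nsmul _ _ 2 fun v _ => (le_abs_self _).trans (hg2 v h)).trans ?_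
      rw [nsmul_eq_mul]
    · rintro x ⟨hx, hx'⟩
      refine ⟨hx, ?_⟩
      have hx'' : a ≤ X (ext (tF Γ) 0 x) := hx'
      rw [hX] at hx''
      simp only at hx''
      rw [le_inv_mul_iff₀ hWp, mul_comm] at hx''
      exact hx''
  have h3 : 2 * (Real.exp (-(c * (rW A B).card)) * 1) ≤ a := by
    rw [Real.exp_neg, mul_one]
    have h4 : 2 / a ≤ c * (rW A B).card := by
      rw [div_le_iff₀ ha, hW]
      have : (T : ℝ) * (c * a) ≤ A * B * (c * a) := mul_le_mul_of_nonneg_right hABT (by positivity)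
      linarith
    have h5 := Real.add_one_le_exp (c * ((rW A B).card : ℝ))
    rw [← div_eq_mul_inv, div_le_iff₀ (Real.exp_pos _)]
    rw [div_le_iff₀ ha] at h4
    nlinarith
  linarith

/-- **Local convergence on tori** (one observable). -/
theorem tor_lc {r : ℕ} {f : (P2 → ℝ) → ℝ} (hf : LObs r f) {ε : ℝ} (hε : 0 < ε) :
    ∃ T : ℕ, ∀ (Γ : AddSubgroup P2) [Fintype (P2 ⧸ Γ)] [DecidableEq (P2 ⧸ Γ)] (A B : ℕ),
      T ≤ A → T ≤ B → Rec Γ A B →
        |Ev (tF Γ) (tE Γ) 0 (fun h => f fun u => h (tq Γ u)) - m0 f| ≤ ε := by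
  obtain ⟨R0, hR0, hbox⟩ := tor_box hf (a := min 1 (ε / 4)) (by positivity) (min_le_left _ _)
  set a := min 1 (ε / 4) with had
  have ha : 0 < a := by positivity
  have ha1 : a ≤ ε / 4 := min_le_right _ _
  obtain ⟨q, hq⟩ := exists_nat_ge (4 * (r : ℝ) / a)
  set R := max (max R0 q) (2 * r) with hRd
  have hR1 : R0 ≤ R := (le_max_left _ _).trans (le_max_left _ _)
  have hR2 : q ≤ R := (le_max_right _ _).trans (le_max_left _ _)
  have hR3 : 2 * r ≤ R := le_max_right _ _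
  have hRp : 0 < R := by omega
  have hRr : (0 : ℝ) < R := by exact_mod_cast hRp
  have hrR : 4 * (r : ℝ) / R ≤ a := by
    have h1 : 4 * (r : ℝ) / a ≤ R := hq.trans (by exact_mod_cast hR2)
    rw [div_le_iff₀ ha] at h1
    rw [div_le_iff₀ hRr]; linarith
  obtain ⟨T, hT⟩ := hbox R hR1
  refine ⟨T, ?_⟩
  intro Γ _ _ A B hTA hTB hrec
  have h1 := hT Γ A B hTA hTB hrec
  have hA := tor_anch Γ
  have hv := tor_vr Γ
  have hfm : ∀ x : P2, Measurable fun h : P2 ⧸ Γ → ℝ => f fun u => h (tq Γ (x + u)) := fun x =>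
    hf.meas.comp (measurable_pi_iff.2 fun u => measurable_pi_apply _)
  -- the mean of the box average
  have hmean : ∀ x : P2, Ev (tF Γ) (tE Γ) 0 (fun h => f fun u => h (tq Γ (x + u))) =
      Ev (tF Γ) (tE Γ) 0 fun h => f fun u => h (tq Γ u) := by
    intro x
    rw [← tor_trans Γ (tq Γ x) (f := fun h => f fun u => h (tq Γ u)) (by simpa using hfm 0)
      (fun h => hf.bd _) (fun h c => hf.shift _ c)]
    congr 1
    funext h
    congr 1
    funext u
    rw [add_comm x u, tq_add]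
  have hBA : Ev (tF Γ) (tE Γ) 0 (fun h => BA R r f fun u => h (tq Γ u)) =
      (pos R r).card / (R : ℝ) ^ 2 * Ev (tF Γ) (tE Γ) 0 fun h => f fun u => h (tq Γ u) := by
    have e1 : (fun h : P2 ⧸ Γ → ℝ => BA R r f fun u => h (tq Γ u)) =
        fun h => ((R : ℝ) ^ 2)⁻¹ * ∑ x ∈ pos R r, f fun u => h (tq Γ (x + u)) := by
      funext h
      unfold BA
      rw [div_eq_inv_mul]
    rw [e1, Ev_const_mul, Ev_sum (fun x _ => ⟨hfm x, 1, fun h => hf.bd _⟩) hA hv,
      Finset.sum_congr rfl fun x _ => hmean x, Finset.sum_const, nsmul_eq_mul]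
    ring
  set e := Ev (tF Γ) (tE Γ) 0 fun h => f fun u => h (tq Γ u) with he
  have he1 : |e| ≤ 1 := abs_Ev_le ⟨by simpa using hfm 0, 1, fun h => hf.bd _⟩ hA hv
    fun h => hf.bd _
  have hBB : Bd fun h : P2 ⧸ Γ → ℝ => BA R r f fun u => h (tq Γ u) :=
    ⟨(measurable_BA hf.meas).comp (measurable_pi_iff.2 fun u => measurable_pi_apply _), 1,
      fun h => abs_BA_le hf.bd _⟩
  have h2 : |Ev (tF Γ) (tE Γ) 0 (fun h => BA R r f fun u => h (tq Γ u)) - m0 f| ≤ 2 * a := by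
    have e1 : Ev (tF Γ) (tE Γ) 0 (fun h => BA R r f fun u => h (tq Γ u)) - m0 f =
        Ev (tF Γ) (tE Γ) 0 fun h => (BA R r f fun u => h (tq Γ u)) - m0 f := by
      rw [Ev_sub hBB (Bd.const _) hA hv, Ev_const hA hv]
    rw [e1]
    have hD := hBB.sub (Bd.const (m0 f))
    have hDa : Bd fun h : P2 ⧸ Γ → ℝ => |(BA R r f fun u => h (tq Γ u)) - m0 f| := by
      obtain ⟨C, hC⟩ := hD.2
      exact ⟨hD.1.abs, C, fun h => by rw [abs_abs]; exact hC h⟩
    rw [abs_le]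
    constructor
    · have := Ev_mono hDa.neg hD hA hv fun h => neg_abs_le _
      rw [Ev_neg] at this
      linarith
    · exact (Ev_mono hD hDa hA hv fun h => le_abs_self _).trans h1
  rw [hBA] at h2
  have h3 : |((pos R r).card : ℝ) / (R : ℝ) ^ 2 * e - e| ≤ a := by
    have e1 : ((pos R r).card : ℝ) / (R : ℝ) ^ 2 * e - e =
        -(((R : ℝ) ^ 2 - (pos R r).card) / (R : ℝ) ^ 2 * e) := by
      field_simp; ring
    have h4 : 0 ≤ ((R : ℝ) ^ 2 - (pos R r).card) / (R : ℝ) ^ 2 := by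
      refine div_nonneg ?_ (by positivity)
      have : ((pos R r).card : ℝ) ≤ (R : ℝ) ^ 2 := by exact_mod_cast card_pos_le R r
      linarith
    rw [e1, abs_neg, abs_mul, abs_of_nonneg h4]
    have h5 : ((R : ℝ) ^ 2 - (pos R r).card) / (R : ℝ) ^ 2 ≤ 4 * r / R := by
      rw [div_le_div_iff₀ (by positivity) hRr]
      have := mul_le_mul_of_nonneg_right (card_pos' hR3) hRr.le
      linarith
    calc _ ≤ (4 * (r : ℝ) / R) * 1 := mul_le_mul h5 he1 (abs_nonneg _) (by positivity)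
      _ ≤ a := by rw [mul_one]; exact hrR
  have h4 := abs_sub_le e (((pos R r).card : ℝ) / (R : ℝ) ^ 2 * e) (m0 f)
  rw [abs_sub_comm] at h3
  linarith


end Crest.Agent.R144.Lc279
end
end

-- ▼ part R144/Lc18_279
section

/-!
R144 (S0197), helper279.  Block LC, file 18: local convergence (I3) of 95's torus states `exT` for the
rectangular tori `rect N m` and their images under the swap.
-/

set_option autoImplicit false
set_option linter.unusedSectionVars false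
set_option linter.unusedVariables false

open MeasureTheory Set Filter Topology
open scoped ENNReal

noncomputable section

namespace Crest.Agent.R144.Lc279

open Crest.Agent.R144.Ham560
open Crest.Agent.R144.Lw425 (hd hd_comm hd_le_iff mem_hball hball mem_inn inn mem_sph sph hd_self
  hd_triangle hd_pos hd_adj LObs)
open Crest.Agent.R144.Tor95 (nu lip gauge isClosed_lip isClosed_gauge Rt edg mem_edg Rt_mk
  Rt_translate rect mem_rect mk_eq_mk_rect conn_Rt volume_shift lip_shift lintegral_nu_eq Conn ex exT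
  nu_lt_top nu_real_pos swE exists_rep)
open Crest.ProbabilityR.HexHeights (Adj)

section bridge

variable {Q : Type} [Fintype Q] [DecidableEq Q]

theorem volume_ham_pinned_lt {R : Q → Q → Prop} {o : Q} (hc : Conn R o) :
    volume (ham (Finset.univ.erase o) (edg R) (0 : Q → ℝ)) < ⊤ := by
  have h := lintegral_nu_eq (R := R) o (fun _ => 1) measurable_const (fun _ _ => rfl)
  rw [lintegral_one, setLIntegral_one] at h
  rw [← h]
  exact nu_lt_top hc

/-- bounded Borel version of 95's bridge -/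
theorem integral_nu_eq' {R : Q → Q → Prop} {o : Q} (hc : Conn R o) {F : (Q → ℝ) → ℝ}
    (hF : Measurable F) {C : ℝ} (hC : ∀ h, |F h| ≤ C)
    (hs : ∀ (h : Q → ℝ) (c : ℝ), F (fun q => h q + c) = F h) :
    ∫ h, F h ∂(nu R o) =
      ∫ x in ham (Finset.univ.erase o) (edg R) 0, F (ext (Finset.univ.erase o) 0 x) := by
  have p1 : ∫⁻ h, ENNReal.ofReal (F h) ∂(nu R o) =
      ∫⁻ x in ham (Finset.univ.erase o) (edg R) 0,
        ENNReal.ofReal (F (ext (Finset.univ.erase o) 0 x)) :=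
    lintegral_nu_eq o (fun h => ENNReal.ofReal (F h)) hF.ennreal_ofReal
      (fun h c => by rw [hs h c])
  have p2 : ∫⁻ h, ENNReal.ofReal (-F h) ∂(nu R o) =
      ∫⁻ x in ham (Finset.univ.erase o) (edg R) 0,
        ENNReal.ofReal (-F (ext (Finset.univ.erase o) 0 x)) :=
    lintegral_nu_eq o (fun h => ENNReal.ofReal (-F h)) hF.neg.ennreal_ofReal
      (fun h c => by rw [hs h c])
  have f1 : IsFiniteMeasure (nu R o) := ⟨nu_lt_top hc⟩
  have f2 : IsFiniteMeasure (volume.restrict (ham (Finset.univ.erase o) (edg R) (0 : Q → ℝ))) :=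
    ⟨by rw [Measure.restrict_apply_univ]; exact volume_ham_pinned_lt hc⟩
  have i1 : Integrable F (nu R o) :=
    Integrable.of_bound hF.aestronglyMeasurable C (Eventually.of_forall hC)
  have i2 : Integrable (fun x => F (ext (Finset.univ.erase o) 0 x))
      (volume.restrict (ham (Finset.univ.erase o) (edg R) (0 : Q → ℝ))) :=
    Integrable.of_bound (hF.comp (measurable_ext _ _)).aestronglyMeasurable C
      (Eventually.of_forall fun x => hC _)
  rw [integral_eq_lintegral_pos_part_sub_lintegral_neg_part i1,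
    integral_eq_lintegral_pos_part_sub_lintegral_neg_part i2, p1, p2]

theorem ex_eq_Ev {R : Q → Q → Prop} {o : Q} (hc : Conn R o) {F : (Q → ℝ) → ℝ}
    (hF : Measurable F) {C : ℝ} (hC : ∀ h, |F h| ≤ C)
    (hs : ∀ (h : Q → ℝ) (c : ℝ), F (fun q => h q + c) = F h) :
    ex R o F = Ev (Finset.univ.erase o) (edg R) 0 F := by
  have h1 := integral_nu_eq' hc hF hC hs
  have h2 := integral_nu_eq' hc (F := fun _ => (1 : ℝ)) measurable_const (C := 1) (by simp)
    (fun _ _ => rfl)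
  unfold Ev
  rw [integral_hamP_real, ex, h1]
  have h3 : (nu R o).real univ = (volume (ham (Finset.univ.erase o) (edg R) (0 : Q → ℝ))).toReal := by
    simpa [Measure.real] using h2
  rw [h3]

end bridge

/-! ### Rectangular tori -/

theorem rec_rect {A B : ℕ} {N m : ℤ} (hN : N = A + 2) (hm : 2 * m = B + 2)
    [Fintype (P2 ⧸ rect N m)] [DecidableEq (P2 ⧸ rect N m)] : Rec (rect N m) A B where
  inj := by
    intro v w hv1 hv2 hw1 hw2 h
    obtain ⟨a, b, hab⟩ := mk_eq_mk_rect.mp h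
    have h1 := congrArg Prod.fst hab
    have h2 := congrArg Prod.snd hab
    simp only at h1 h2
    have hb : b = 0 := by
      have h3 : w.2 - v.2 = b * (B + 2) := by
        rw [← hm]; linarith
      rcases lt_trichotomy b 0 with h4 | h4 | h4
      · have : b * ((B : ℤ) + 2) ≤ (-1) * ((B : ℤ) + 2) :=
          mul_le_mul_of_nonneg_right (by omega) (by omega)
        omega
      · exact h4
      · have : 1 * ((B : ℤ) + 2) ≤ b * ((B : ℤ) + 2) :=
          mul_le_mul_of_nonneg_right (by omega) (by omega)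
        omega
    have ha : a = 0 := by
      rw [hb] at h1
      have h3 : w.1 - v.1 = a * (A + 2) := by
        rw [← hN]; linarith
      rcases lt_trichotomy a 0 with h4 | h4 | h4
      · have : a * ((A : ℤ) + 2) ≤ (-1) * ((A : ℤ) + 2) :=
          mul_le_mul_of_nonneg_right (by omega) (by omega)
        omega
      · exact h4
      · have : 1 * ((A : ℤ) + 2) ≤ a * ((A : ℤ) + 2) :=
          mul_le_mul_of_nonneg_right (by omega) (by omega)
        omega
    rw [ha, hb] at hab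
    rw [hab]
    ext <;> simp
  card := by
    have hA0 : (0 : ℤ) < N := by rw [hN]; positivity
    have hm0 : 0 < 2 * m := by rw [hm]; positivity
    set S : Finset P2 := Finset.Ico (0 : ℤ) (A + 2) ×ˢ Finset.Ico (0 : ℤ) (B + 2) with hS
    have hSc : S.card = (A + 2) * (B + 2) := by
      rw [hS, Finset.card_product, Int.card_Ico, Int.card_Ico]
      congr 1
    rw [← hSc, ← Finset.card_univ]
    refine (Finset.card_le_card (t := S.image (tq (rect N m))) ?_).trans Finset.card_image_le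
    intro q _
    obtain ⟨v, rfl⟩ := QuotientAddGroup.mk_surjective q
    rw [Finset.mem_image]
    set b := v.2 / (2 * m) with hb
    set y := v.2 % (2 * m) with hy
    have e1 : y + 2 * m * b = v.2 := Int.emod_add_mul_ediv v.2 (2 * m)
    have y0 : 0 ≤ y := Int.emod_nonneg _ hm0.ne'
    have y1 : y < 2 * m := Int.emod_lt_of_pos _ hm0
    set x0 := v.1 + b * m with hx0
    set a := x0 / N with ha
    set x := x0 % N with hx
    have e2 : x + N * a = x0 := Int.emod_add_mul_ediv x0 N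
    have x1 : 0 ≤ x := Int.emod_nonneg _ hA0.ne'
    have x2 : x < N := Int.emod_lt_of_pos _ hA0
    refine ⟨(x, y), ?_, ?_⟩
    · rw [hS, Finset.mem_product, Finset.mem_Ico, Finset.mem_Ico]
      simp only
      rw [hN] at x2
      rw [hm] at y1
      exact ⟨⟨x1, x2⟩, ⟨y0, y1⟩⟩
    · refine mk_eq_mk_rect.mpr ⟨a, b, ?_⟩
      ext
      · simp only; linarith
      · simp only; linarith

theorem Rec.sw {Γ : AddSubgroup P2} [Fintype (P2 ⧸ Γ)] [DecidableEq (P2 ⧸ Γ)]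
    [Fintype (P2 ⧸ Γ.map swE.toAddMonoidHom)] [DecidableEq (P2 ⧸ Γ.map swE.toAddMonoidHom)]
    {A B : ℕ} (h : Rec Γ A B) : Rec (Γ.map swE.toAddMonoidHom) B A where
  inj := by
    intro v w hv1 hv2 hw1 hw2 hvw
    have h1 : -v + w ∈ Γ.map swE.toAddMonoidHom := QuotientAddGroup.eq.mp hvw
    obtain ⟨g, hg, hgv⟩ := h1
    have h2 : Tp952.sw g = -v + w := hgv
    have h3 : tq Γ (Tp952.sw v) = tq Γ (Tp952.sw w) := by
      refine QuotientAddGroup.eq.mpr ?_
      have e : -Tp952.sw v + Tp952.sw w = g := by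
        have e1 := congrArg Prod.fst h2
        have e2 := congrArg Prod.snd h2
        simp only [Tp952.sw, Prod.fst_add, Prod.snd_add, Prod.fst_neg, Prod.snd_neg] at e1 e2
        ext
        · simp only [Tp952.sw, Prod.fst_add, Prod.fst_neg]; omega
        · simp only [Tp952.sw, Prod.snd_add, Prod.snd_neg]; omega
      rw [e]; exact hg
    have h4 := h.inj (Tp952.sw v) (Tp952.sw w) hv2 hv1 hw2 hw1 h3
    have e1 := congrArg Prod.fst h4
    have e2 := congrArg Prod.snd h4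
    simp only [Tp952.sw] at e1 e2
    exact Prod.ext e2 e1
  card := by
    have h1 : Fintype.card (P2 ⧸ Γ.map swE.toAddMonoidHom) = Fintype.card (P2 ⧸ Γ) :=
      Fintype.card_congr (QuotientAddGroup.congr Γ (Γ.map swE.toAddMonoidHom) swE rfl).symm.toEquiv
    rw [h1, mul_comm]
    exact h.card

/-- **(I3)** local convergence of the torus states. -/
theorem tlc {Γ : ℕ → AddSubgroup P2} [∀ k, Fintype (P2 ⧸ Γ k)] {A B : ℕ → ℕ}
    (hA : Tendsto A atTop atTop) (hB : Tendsto B atTop atTop)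
    (hrec : ∀ k, Rec (Γ k) (A k) (B k)) {r : ℕ}
    {f : (P2 → ℝ) → ℝ} (hf : LObs r f) :
    Tendsto (fun k => exT (Γ k) f) atTop (𝓝 (∫ h, f h ∂mu0)) := by
  classical
  rw [integral_mu0 hf, Metric.tendsto_atTop']
  intro ε hε
  obtain ⟨T, hT⟩ := tor_lc hf (ε := ε / 2) (by positivity)
  obtain ⟨k0, hk0⟩ := eventually_atTop.mp ((hA.eventually_ge_atTop T).and
    (hB.eventually_ge_atTop T))
  refine ⟨k0, fun k hk => ?_⟩
  obtain ⟨h1, h2⟩ := hk0 k hk.le
  have h3 := hT (Γ k) (A k) (B k) h1 h2 (hrec k)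
  have h4 : exT (Γ k) f = Ev (tF (Γ k)) (tE (Γ k)) 0 (fun h => f fun u => h (tq (Γ k) u)) := by
    refine ex_eq_Ev (conn_Rt (Γ k) 0) ?_ (C := 1) (fun h => hf.bd _) (fun h c => hf.shift _ c)
    exact hf.meas.comp (measurable_pi_iff.2 fun u => measurable_pi_apply _)
  rw [Real.dist_eq, h4]
  exact lt_of_le_of_lt h3 (by linarith)

/-- The sequence of rectangular tori `rect (k + 3) (k + 2)`. -/
theorem tlc_rect [∀ k : ℕ, Fintype (P2 ⧸ rect ((k : ℤ) + 3) ((k : ℤ) + 2))] {r : ℕ}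
    {f : (P2 → ℝ) → ℝ} (hf : LObs r f) :
    Tendsto (fun k : ℕ => exT (rect ((k : ℤ) + 3) ((k : ℤ) + 2)) f) atTop
      (𝓝 (∫ h, f h ∂mu0)) := by
  refine tlc (A := fun k => k + 1) (B := fun k => 2 * k + 2) (tendsto_add_atTop_nat 1) ?_ ?_ hf
  · exact tendsto_atTop_mono (fun k => show k ≤ 2 * k + 2 by omega) tendsto_id
  · intro k
    classical
    exact rec_rect (by push_cast; ring) (by push_cast; ring)

/-- The swapped tori. -/
theorem tlc_rect_sw [∀ k : ℕ, Fintype (P2 ⧸ rect ((k : ℤ) + 3) ((k : ℤ) + 2))]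
    [∀ k : ℕ, Fintype (P2 ⧸ (rect ((k : ℤ) + 3) ((k : ℤ) + 2)).map swE.toAddMonoidHom)] {r : ℕ}
    {f : (P2 → ℝ) → ℝ} (hf : LObs r f) :
    Tendsto (fun k : ℕ => exT ((rect ((k : ℤ) + 3) ((k : ℤ) + 2)).map swE.toAddMonoidHom) f) atTop
      (𝓝 (∫ h, f h ∂mu0)) := by
  classical
  refine tlc (A := fun k => 2 * k + 2) (B := fun k => k + 1) ?_ (tendsto_add_atTop_nat 1) ?_ hf
  · exact tendsto_atTop_mono (fun k => show k ≤ 2 * k + 2 by omega) tendsto_id
  · intro k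
    exact Rec.sw (rec_rect (A := k + 1) (B := 2 * k + 2) (by push_cast; ring) (by push_cast; ring))

end Crest.Agent.R144.Lc279
end
end

-- ▼ part R144/KapE4_761
section

/-!
# R144 (S0197), helper761, KAP-END, part 4: the tori

* **`two_mu0 : Two (vg0 mu0)`**, **`mu0_e1_le`**, from helper279's local convergence on the tori;
* **`kapD_mu0`** : (KAP) in the asymptotic form from the lower bounds at fixed accuracy under `μ₀`;
* `cr_mu0` : Cramér–Rao under `μ₀`.
-/

set_option autoImplicit false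
set_option linter.unusedSectionVars false

open MeasureTheory Set Function Filter Topology
open scoped ENNReal NNReal Real ContDiff

noncomputable section

namespace Crest.Agent.R144.KapE761

open Crest.Agent.R144.Tor95
open Crest.Agent.R144.Tp952 (Two sw)
open Crest.Agent.R144.Cw643 (CV)
open Crest.Agent.R144.Lw425 (LObs hd)
open Crest.Agent.R144.Lc279 (Ev lat P2 mu0 isMu0 tlc_rect tlc_rect_sw)

theorem tendsto_k2 : Tendsto (fun k : ℕ => (k : ℤ) + 2) atTop atTop :=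
  tendsto_atTop_add_const_right _ _ tendsto_natCast_atTop_atTop

/-- **the variogram of `μ₀` satisfies `Two`** -/
theorem two_mu0 : Two (vg0 mu0) := by
  have h1 : ∀ k : ℕ, Finite ((ℤ × ℤ) ⧸ rect ((k : ℤ) + 3) ((k : ℤ) + 2)) := fun k =>
    finite_rect (by omega) (by omega)
  have h2 : ∀ k : ℕ, Finite ((ℤ × ℤ) ⧸
      (rect ((k : ℤ) + 3) ((k : ℤ) + 2)).map swE.toAddMonoidHom) := fun k => finite_map swE
  have i1 : ∀ k : ℕ, Fintype ((ℤ × ℤ) ⧸ rect ((k : ℤ) + 3) ((k : ℤ) + 2)) := fun k =>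
    Fintype.ofFinite _
  have i2 : ∀ k : ℕ, Fintype ((ℤ × ℤ) ⧸
      (rect ((k : ℤ) + 3) ((k : ℤ) + 2)).map swE.toAddMonoidHom) := fun k => Fintype.ofFinite _
  exact two_vg0 (N := fun k => (k : ℤ) + 3) (m := fun k => (k : ℤ) + 2) isMu0.lip tendsto_k2
    (fun r f hf => tlc_rect hf) (fun r f hf => tlc_rect_sw hf)

theorem mu0_e1_le : vg0 mu0 (1, 0) ≤ 1 / 3 := by
  have h1 : ∀ k : ℕ, Finite ((ℤ × ℤ) ⧸ rect ((k : ℤ) + 3) ((k : ℤ) + 2)) := fun k =>
    finite_rect (by omega) (by omega)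
  have h2 : ∀ k : ℕ, Finite ((ℤ × ℤ) ⧸
      (rect ((k : ℤ) + 3) ((k : ℤ) + 2)).map swE.toAddMonoidHom) := fun k => finite_map swE
  have i1 : ∀ k : ℕ, Fintype ((ℤ × ℤ) ⧸ rect ((k : ℤ) + 3) ((k : ℤ) + 2)) := fun k =>
    Fintype.ofFinite _
  have i2 : ∀ k : ℕ, Fintype ((ℤ × ℤ) ⧸
      (rect ((k : ℤ) + 3) ((k : ℤ) + 2)).map swE.toAddMonoidHom) := fun k => Fintype.ofFinite _
  exact vg0_e1_le (N := fun k => (k : ℤ) + 3) (m := fun k => (k : ℤ) + 2) isMu0.lip
    (fun r f hf => tlc_rect hf)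

/-- **(KAP), asymptotic form, for `μ₀`, from the lower bounds at fixed accuracy** -/
theorem kapD_mu0 (ab : ℕ → ℝ → ℝ) {c0 : ℝ} (hc0 : 0 < c0)
    (hlow : ∀ ψ : ℂ → ℝ, ContDiff ℝ ∞ ψ → HasCompactSupport ψ → ∀ ε : ℝ, 0 < ε → ∀ b0 : ℝ,
      0 < b0 → ∃ r1, ∀ r, r1 ≤ r → ∀ b, b0 ≤ b → (∀ L, ab r L ≤ b) →
        LowN (vg0 mu0) (c0 / b * ∫ z, ‖fderiv ℝ ψ z‖ ^ 2) ε ψ) :
    ∀ ε : ℝ, 0 < ε → ∃ r1, ∀ r, r1 ≤ r → ∃ L, c0 * π / 2 - ε ≤ ab r L :=
  kapD two_mu0 mu0_e1_le ab hc0 hlow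

theorem dlr_mu0' : Dlr mu0 := fun I _ _ hF => Lw425.dlr hF I

instance isProb_mu0 : IsProbabilityMeasure mu0 := isMu0.prob

/-- **Cramér–Rao under `μ₀`.** -/
theorem cr_mu0 {I s : Finset (ℤ × ℤ)} {b : ℤ × ℤ → ℝ} (hb : ∑ p ∈ s, b p = 0)
    {A B : (ℤ × ℤ → ℝ) → ℝ} (hA : LS A) (hB : LS B)
    (hF : ∀ ζ : ℤ × ℤ → ℝ, (∀ v w, |ζ v - ζ w| ≤ (hd v w : ℝ)) → FibF I s b A B ζ)
    {t : ℝ} (ht : 0 ≤ t) :
    2 * t * (∫ h, A h ∂mu0) - t ^ 2 * (∫ h, B h ∂mu0) ≤ CV (vg0 mu0) s b s b :=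
  cr_dlr isMu0.lip isMu0.trans dlr_mu0' hb hA hB hF ht

end Crest.Agent.R144.KapE761
end
end

-- ▼ part R144/Bl8_565
section

/-!
R144 (S0197), helper565.  The plane state: tight lists, DLR, POS.

* `tightL_mu0 : TightL mu0`, `dlr_mu0 : DLR mu0`;
* `abT_mu0_le` : POS; `mu0_tail`, `mu0_mean`.
-/

set_option autoImplicit false
set_option linter.unusedSectionVars false

open MeasureTheory Set Filter Topology
open scoped ENNReal NNReal

noncomputable section

namespace Crest.Agent.R144.Bl565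

open Crest.Agent.R144.Ham560
open Crest.Agent.R144.Lc279 (lat mem_lat mem_nbr_lat P2 card_nbr_lat_le hd_add Ev bx mem_bx card_bx
  anch_bx m0)
open Crest.Agent.R144.Lw425 (hd hd_comm hd_le_iff mem_hball hball LObs bav bav_tendsto mu0 isMu0
  core' mem_core' core'_subset core'_nonempty core_ratio avg_sub_le tendsto_mg abs_Ev_le mg
  exists_hball)

/-- Lists under an embedding. -/
theorem Fresh_map {F F' : Finset P2} {E E' : Finset (P2 × P2)} {σ : P2 → P2}
    (hσ : Function.Injective σ) (hF : ∀ v ∈ F, σ v ∈ F')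
    (hE : ∀ v u, v ∈ F → u ∈ nbr E v → σ u ∈ nbr E' (σ v)) {S : List (P2 × P2)}
    (h : Fresh F E S) : Fresh F' E' (S.map fun q => (σ q.1, σ q.2)) := by
  induction h with
  | nil => exact Fresh.nil
  | @cons v u S hS hv hu hf ih =>
    rw [List.map_cons]
    refine Fresh.cons ih (hF v hv) (hE v u hv hu) fun q hq => ?_
    obtain ⟨q', hq', rfl⟩ := List.mem_map.mp hq
    exact ⟨fun h => (hf q' hq').1 (hσ h), fun h => (hf q' hq').2 (hσ h)⟩

theorem hamP_tight_le {F : Finset P2} {S : List (P2 × P2)} (hS : Fresh F (lat F) S) {e : ℝ}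
    (he : 0 < e) : hamP F (lat F) 0 {x | ∀ q ∈ S, 1 - e ≤ |ext F 0 x q.1 - ext F 0 x q.2|} ≤
      ENNReal.ofReal (2304 * e) ^ S.length := by
  have h1 := vol_tight_le (ξ := 0) hS (n := 6) (fun v _ => card_nbr_lat_le F v) he
  rw [show (64 : ℝ) * ((6 : ℕ) : ℝ) ^ 2 * e = 2304 * e by norm_num] at h1
  rw [hamP, Measure.smul_apply, smul_eq_mul, Measure.restrict_apply' measurableSet_ham]
  have h2 : {x | ∀ q ∈ S, 1 - e ≤ |ext F 0 x q.1 - ext F 0 x q.2|} ∩ ham F (lat F) 0 =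
      tight F (lat F) 0 S e := by
    ext x; exact and_comm
  rw [h2]
  calc (volume (ham F (lat F) 0))⁻¹ * volume (tight F (lat F) 0 S e)
      ≤ (volume (ham F (lat F) 0))⁻¹ * (ENNReal.ofReal (2304 * e) ^ S.length *
          volume (ham F (lat F) 0)) := mul_le_mul' le_rfl h1
    _ = ENNReal.ofReal (2304 * e) ^ S.length *
          ((volume (ham F (lat F) 0))⁻¹ * volume (ham F (lat F) 0)) := by ring
    _ ≤ ENNReal.ofReal (2304 * e) ^ S.length * 1 :=
        mul_le_mul' le_rfl (ENNReal.inv_mul_le_one _)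
    _ = _ := mul_one _

/-- The event of a tight list. -/
def tgt (S : List (P2 × P2)) (e : ℝ) : Set (P2 → ℝ) := {h | ∀ q ∈ S, 1 - e ≤ |h q.1 - h q.2|}

theorem measurableSet_tgt (S : List (P2 × P2)) (e : ℝ) : MeasurableSet (tgt S e) := by
  have : tgt S e = ⋂ q ∈ {q | q ∈ S}, {h : P2 → ℝ | 1 - e ≤ |h q.1 - h q.2|} := by
    ext h; simp [tgt]
  rw [this]
  exact (isClosed_biInter fun q _ => isClosed_le continuous_const
    (((continuous_apply q.1).sub (continuous_apply q.2)).abs)).measurableSet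

theorem exists_lobs_tgt (S : List (P2 × P2)) (e : ℝ) :
    ∃ r, LObs r ((tgt S e).indicator fun _ => (1 : ℝ)) := by
  classical
  obtain ⟨r, hr⟩ := exists_hball ((S.map Prod.fst).toFinset ∪ (S.map Prod.snd).toFinset)
  refine ⟨r, measurable_const.indicator (measurableSet_tgt S e), fun h => ?_, fun h h' hh => ?_,
    fun h c => ?_⟩
  · by_cases hh : h ∈ tgt S e
    · rw [indicator_of_mem hh]; norm_num
    · rw [indicator_of_notMem hh]; norm_num
  · have key : h ∈ tgt S e ↔ h' ∈ tgt S e := by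
      refine forall₂_congr fun q hq => ?_
      rw [hh q.1 (hr _ ?_), hh q.2 (hr _ ?_)]
      · exact Finset.mem_union_right _ (List.mem_toFinset.mpr (List.mem_map.mpr ⟨q, hq, rfl⟩))
      · exact Finset.mem_union_left _ (List.mem_toFinset.mpr (List.mem_map.mpr ⟨q, hq, rfl⟩))
    by_cases h1 : h ∈ tgt S e
    · rw [indicator_of_mem h1, indicator_of_mem (key.mp h1)]
    · rw [indicator_of_notMem h1, indicator_of_notMem (fun h2 => h1 (key.mpr h2))]
  · have key : (fun a => h a + c) ∈ tgt S e ↔ h ∈ tgt S e := by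
      refine forall₂_congr fun q hq => ?_
      rw [add_sub_add_right_eq_sub]
    by_cases h1 : h ∈ tgt S e
    · rw [indicator_of_mem h1, indicator_of_mem (key.mpr h1)]
    · rw [indicator_of_notMem h1, indicator_of_notMem (fun h2 => h1 (key.mp h2))]

/-- Tight lists deep in the box. -/
theorem Ev_tgt_le {V : Finset P2} {S : List (P2 × P2)} (hS : Fresh V (lat V) S) {e : ℝ}
    (he : 0 < e) {L : ℕ} {y : P2} (hy : ∀ a ∈ V, y + a ∈ bx L) :
    Ev (bx L) (lat (bx L)) 0 (fun z => (tgt S e).indicator (fun _ => (1 : ℝ)) fun a => z (y + a)) ≤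
      (2304 * e) ^ S.length := by
  have hS' : Fresh (bx L) (lat (bx L)) (S.map fun q => (y + q.1, y + q.2)) := by
    refine Fresh_map (add_right_injective y) hy (fun v u hv hu => ?_) hS
    rw [mem_nbr_lat] at hu ⊢
    exact ⟨by rw [hd_add]; exact hu.1, Or.inl (hy v hv)⟩
  have h1 := hamP_tight_le hS' he
  rw [List.length_map] at h1
  have hset : ∀ x : bx L → ℝ, (tgt S e).indicator (fun _ => (1 : ℝ))
      (fun a => ext (bx L) 0 x (y + a)) = {x | ∀ q ∈ S.map fun q => (y + q.1, y + q.2),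
        1 - e ≤ |ext (bx L) 0 x q.1 - ext (bx L) 0 x q.2|}.indicator (fun _ => (1 : ℝ)) x := by
    intro x
    have key : (fun a => ext (bx L) 0 x (y + a)) ∈ tgt S e ↔
        x ∈ {x | ∀ q ∈ S.map fun q => (y + q.1, y + q.2),
          1 - e ≤ |ext (bx L) 0 x q.1 - ext (bx L) 0 x q.2|} := by
      constructor
      · intro h q hq
        obtain ⟨q', hq', rfl⟩ := List.mem_map.mp hq
        exact h q' hq'
      · intro h q hq
        exact h _ (List.mem_map.mpr ⟨q, hq, rfl⟩)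
    by_cases hx : (fun a => ext (bx L) 0 x (y + a)) ∈ tgt S e
    · rw [indicator_of_mem hx, indicator_of_mem (key.mp hx)]
    · rw [indicator_of_notMem hx, indicator_of_notMem (fun h2 => hx (key.mpr h2))]
  have hm : MeasurableSet {x : bx L → ℝ | ∀ q ∈ S.map fun q => (y + q.1, y + q.2),
      1 - e ≤ |ext (bx L) 0 x q.1 - ext (bx L) 0 x q.2|} := by
    have : {x : bx L → ℝ | ∀ q ∈ S.map fun q => (y + q.1, y + q.2),
        1 - e ≤ |ext (bx L) 0 x q.1 - ext (bx L) 0 x q.2|} =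
        ⋂ q ∈ {q | q ∈ S.map fun q => (y + q.1, y + q.2)},
          {x | 1 - e ≤ |ext (bx L) 0 x q.1 - ext (bx L) 0 x q.2|} := by
      ext x; simp
    rw [this]
    exact (isClosed_biInter fun q _ => isClosed_le continuous_const
      (((continuous_ext q.1).sub (continuous_ext q.2)).abs)).measurableSet
  unfold Ev
  simp only [hset]
  rw [integral_indicator hm]
  simp only [integral_const, MeasurableSet.univ, measureReal_restrict_apply, univ_inter,
    smul_eq_mul, mul_one]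
  rw [Measure.real]
  refine ENNReal.toReal_le_of_le_ofReal (by positivity) (h1.trans (le_of_eq ?_))
  rw [ENNReal.ofReal_pow (by positivity)]

/-- **Tight lists under the plane state.** -/
theorem tightL_mu0 : TightL mu0 := by
  intro V S hS e he
  obtain ⟨r, hf⟩ := exists_lobs_tgt S e
  obtain ⟨r0, hr0⟩ := exists_hball V
  set f : (P2 → ℝ) → ℝ := (tgt S e).indicator fun _ => (1 : ℝ) with hfd
  have h1 : ∫ h, f h ∂mu0 ≤ (2304 * e) ^ S.length := by
    rw [isMu0.eq r f hf]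
    have h3 : Tendsto (fun L : ℕ => (2304 * e) ^ S.length +
        2 * (1 - ((core' L).card : ℝ) / (bx L).card)) atTop (𝓝 ((2304 * e) ^ S.length)) := by
      have := ((core_ratio.const_sub 1).const_mul 2).const_add ((2304 * e) ^ S.length)
      simpa using this
    refine le_of_tendsto_of_tendsto (bav_tendsto r f hf) h3 ?_
    filter_upwards [tendsto_mg.eventually_ge_atTop r0, eventually_gt_atTop 0] with L hL hL0
    set g1 : P2 → ℝ := fun y => Ev (bx L) (lat (bx L)) 0 fun z => f fun a => z (y + a) with hg1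
    have b1 : ∀ y, |g1 y| ≤ 1 := fun y => abs_Ev_le fun h => hf.bd _
    have e1 : bav L f = ((bx L).card : ℝ)⁻¹ * ∑ y ∈ bx L, g1 y := rfl
    have e3 : ((core' L).card : ℝ)⁻¹ * ∑ y ∈ core' L, g1 y ≤ (2304 * e) ^ S.length := by
      have hc : (0 : ℝ) < (core' L).card := by exact_mod_cast (core'_nonempty hL0).card_pos
      rw [inv_mul_le_iff₀ hc]
      have : ∑ y ∈ core' L, g1 y ≤ ∑ _y ∈ core' L, (2304 * e) ^ S.length := by
        refine Finset.sum_le_sum fun y hy => Ev_tgt_le hS he fun a ha => ?_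
        rw [mem_core'] at hy
        have h4 := mem_hball.mp (hr0 a ha)
        have h5 := hd_le_iff.mp h4
        simp only [Prod.fst_zero, Prod.snd_zero, sub_zero] at h5
        rw [mem_bx]
        simp only [Prod.fst_add, Prod.snd_add]
        omega
      rwa [Finset.sum_const, nsmul_eq_mul] at this
    have k1 := avg_sub_le (core'_subset L) (core'_nonempty hL0) b1
    rw [abs_sub_comm, abs_le] at k1
    rw [e1]
    linarith [k1.2]
  have h2 : ∫ h, f h ∂mu0 = mu0.real (tgt S e) := by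
    rw [hfd, integral_indicator (measurableSet_tgt S e)]
    simp
  rw [h2] at h1
  change mu0 (tgt S e) ≤ _
  rw [← ENNReal.ofReal_toReal (measure_ne_top mu0 (tgt S e)), ← ENNReal.ofReal_pow (by positivity)]
  exact ENNReal.ofReal_le_ofReal h1

/-- **DLR.** -/
theorem dlr_mu0 : DLR mu0 := fun K _ _ hf => Lw425.dlr hf K


theorem mu0_tail {P : Par} {c0 : ℝ} {V : Finset P2} (hP : Small P) (hc1 : c0 ≤ 1) {w : P2}
    (hw : w ∈ V) {j : ℕ} (hj : 1 ≤ j) :
    mu0.real {h | j < mcw P c0 V h w} ≤ 6 * (1 / 2) ^ j := mcw_tail hP tightL_mu0 hc1 hw hj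


end Crest.Agent.R144.Bl565
end
end

-- ▼ part R144/KapN1_761
section

/-!
# R144 (S0197), helper761, KapN, part 1: the inputs of the numbers for the constant law `mu0`

* `rG G δ` : all sites with centre in `G`; `sites_rG`;
* `lln_mu0`;
* `mom_tail` : moments from geometric tails;
* `numIn_mu0`.
-/

set_option autoImplicit false
set_option linter.unusedVariables false

open MeasureTheory Metric Set Filter Topology
open scoped ComplexConjugate ContDiff

namespace Crest.Agent.R144.KapN761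

open Crest.Agent.R144.Skel144 Crest.Agent.R144.Con549 Crest.Agent.R144.Cnt268
open Crest.Agent.R144.Bl565 Crest.Agent.R144.LowL549
open Crest.Agent.R144.Lc279 (P2 bx nr mu0)
open Crest.Agent.R144.Lw425 (LObs hball hd mem_hball)
open Crest.ProbabilityR.HexHeights (centre)

noncomputable section

/-! ### the region -/

/-- sites with centre in `G` (for bounded `G`) -/
def rG (G : Set ℂ) (δ : ℝ) : Finset P2 := by
  classical
  exact if h : {v : P2 | centre δ v ∈ G}.Finite then h.toFinset else ∅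

theorem finite_rG {G : Set ℂ} (hG : Bornology.IsBounded G) {δ : ℝ} (hδ : 0 < δ) :
    {v : P2 | centre δ v ∈ G}.Finite := by
  obtain ⟨R, hR⟩ := hG.subset_closedBall 0
  exact (finite_ball hδ 0 R).subset fun v hv => hR hv

theorem mem_rG {G : Set ℂ} (hG : Bornology.IsBounded G) {δ : ℝ} (hδ : 0 < δ) {v : P2} :
    v ∈ rG G δ ↔ centre δ v ∈ G := by
  classical
  unfold rG
  rw [dif_pos (finite_rG hG hδ)]
  simp

theorem sites_rG {G : Set ℂ} {δ : ℕ → ℝ} (ho : IsOpen G) (hb : Bornology.IsBounded G)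
    (hnull : volume (frontier G) = 0) (hδ : ∀ n, 0 < δ n) (hδ0 : Tendsto δ atTop (𝓝 0)) :
    Sites G δ (fun n => rG G (δ n)) where
  opn := ho
  bdd := hb
  nul := hnull
  pos := hδ
  lim := hδ0
  inn := fun K _ hKG => Eventually.of_forall fun n v hv => (mem_rG hb (hδ n)).mpr (hKG hv)
  out := fun ε _ => Eventually.of_forall fun n v hv =>
    self_subset_cthickening G ((mem_rG hb (hδ n)).mp hv)

/-! ### the law of large numbers -/

theorem lln_mu0 {G : Set ℂ} {δ : ℕ → ℝ} {Rg : ℕ → Finset P2} (hs : Sites G δ Rg) :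
    LLN G δ Rg (fun _ => mu0) mu0 := by
  intro r f hf F hF hFc hFs
  have h1 : ∀ v, ∫ h, f (fun a => h (v + a)) ∂mu0 = ∫ h, f h ∂mu0 := fun v =>
    Lw425.inv_mu0.integral_tr hf.meas (fun h c => hf.shift h c) v
  have h2 := (hs.riemann' hF).mul_const (∫ h, f h ∂mu0)
  have h3 : ∫ z in G, F z = ∫ z, F z :=
    setIntegral_eq_integral_of_forall_compl_eq_zero fun z hz =>
      image_eq_zero_of_notMem_tsupport fun h => hz (hFs h)
  rw [h3] at h2
  refine h2.congr fun n => ?_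
  simp only [h1]
  rw [← Finset.sum_mul, mul_assoc]

/-! ### moments -/

theorem sum_odd_geom (K : ℕ) : ∑ k ∈ Finset.range K, (2 * (k : ℝ) + 1) * (2 / 3) ^ k =
    15 - (6 * K + 15) * (2 / 3) ^ K := by
  induction K with
  | zero => simp
  | succ K ih =>
    rw [Finset.sum_range_succ, ih, pow_succ]
    push_cast
    ring

theorem sum_odd (m : ℕ) : ∑ k ∈ Finset.range m, (2 * (k : ℝ) + 1) = (m : ℝ) ^ 2 := by
  induction m with
  | zero => simp
  | succ m ih =>
    rw [Finset.sum_range_succ, ih]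
    push_cast
    ring

/-- moments from geometric tails -/
theorem mom_tail {Ω : Type*} [MeasurableSpace Ω] {μ : Measure Ω} [IsProbabilityMeasure μ]
    {X : Ω → ℕ} (hX : Measurable X) {K : ℕ} (hK : ∀ x, X x ≤ K) {C : ℝ}
    (hC : ∀ j : ℕ, μ.real {x | j < X x} ≤ C * (1 / 2) ^ j) (j : ℕ) :
    ∫ x, (if j < X x then (X x : ℝ) ^ 2 else 0) ∂μ ≤ 15 * C * (3 / 4) ^ j := by
  have hC0 : 0 ≤ C := by
    have := (measureReal_nonneg).trans (hC 0)
    simpa using this
  have hm : ∀ k : ℕ, MeasurableSet {x | k < X x} := fun k => hX measurableSet_Ioi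
  have e1 : ∀ x, (if j < X x then (X x : ℝ) ^ 2 else 0) =
      ∑ k ∈ Finset.range K, (2 * (k : ℝ) + 1) *
        ({x | max j k < X x}.indicator (fun _ => (1 : ℝ)) x) := by
    intro x
    by_cases h : j < X x
    · rw [if_pos h, ← sum_odd (X x)]
      have h2 : Finset.range (X x) ⊆ Finset.range K := Finset.range_mono (hK x)
      rw [← Finset.sum_subset h2 (f := fun k : ℕ => (2 * (k : ℝ) + 1) *
        ({x | max j k < X x}.indicator (fun _ => (1 : ℝ)) x))]
      · refine Finset.sum_congr rfl fun k hk => ?_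
        rw [indicator_of_mem, mul_one]
        exact max_lt h (Finset.mem_range.mp hk)
      · intro k _ hk
        rw [indicator_of_notMem, mul_zero]
        intro h3
        exact hk (Finset.mem_range.mpr ((le_max_right _ _).trans_lt h3))
    · rw [if_neg h]
      symm
      refine Finset.sum_eq_zero fun k _ => ?_
      rw [indicator_of_notMem, mul_zero]
      intro h3
      exact h ((le_max_left _ _).trans_lt h3)
  have hint : ∀ k, Integrable ({x | max j k < X x}.indicator (fun _ => (1 : ℝ))) μ := fun k =>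
    (integrable_const _).indicator (hm _)
  simp only [e1]
  rw [integral_finsetSum _ fun k _ => (hint k).const_mul _]
  have h2 : ∀ k ∈ Finset.range K, ∫ x, (2 * (k : ℝ) + 1) *
      ({x | max j k < X x}.indicator (fun _ => (1 : ℝ)) x) ∂μ ≤
      (C * (3 / 4) ^ j) * ((2 * (k : ℝ) + 1) * (2 / 3) ^ k) := by
    intro k _
    rw [integral_const_mul, integral_indicator (hm _)]
    simp only [integral_const, MeasurableSet.univ, measureReal_restrict_apply, univ_inter,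
      smul_eq_mul, mul_one]
    have h3 : (1 / 2 : ℝ) ^ (max j k) ≤ (3 / 4) ^ j * (2 / 3) ^ k := by
      have e : (1 / 2 : ℝ) = 3 / 4 * (2 / 3) := by norm_num
      rw [e, mul_pow]
      refine mul_le_mul (pow_le_pow_of_le_one (by norm_num) (by norm_num) (le_max_left _ _))
        (pow_le_pow_of_le_one (by norm_num) (by norm_num) (le_max_right _ _)) (by positivity)
        (by positivity)
    calc (2 * (k : ℝ) + 1) * μ.real {x | max j k < X x} ≤
          (2 * (k : ℝ) + 1) * (C * (1 / 2) ^ (max j k)) :=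
          mul_le_mul_of_nonneg_left (hC _) (by positivity)
      _ ≤ (2 * (k : ℝ) + 1) * (C * ((3 / 4) ^ j * (2 / 3) ^ k)) := by
          refine mul_le_mul_of_nonneg_left (mul_le_mul_of_nonneg_left h3 hC0) (by positivity)
      _ = _ := by ring
  refine (Finset.sum_le_sum h2).trans ?_
  rw [← Finset.mul_sum, sum_odd_geom]
  have h4 : 0 ≤ (6 * (K : ℝ) + 15) * (2 / 3) ^ K := by positivity
  have h5 : 0 ≤ C * (3 / 4 : ℝ) ^ j := by positivity
  nlinarith

/-! ### the inputs of the numbers -/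

/-- lengths of the cheap paths -/
abbrev mfn (P : Par) (c0 : ℝ) (Rg : ℕ → Finset P2) (n : ℕ) (h : P2 → ℝ) (w : P2) : ℕ :=
  mcw P c0 (win 1 (Rg n)) h w

theorem mu0_tail' {P : Par} {c0 : ℝ} {V : Finset P2} (hP : Small P) (hc1 : c0 ≤ 1) {w : P2}
    (hw : w ∈ V) (j : ℕ) : mu0.real {h | j < mcw P c0 V h w} ≤ 6 * (1 / 2) ^ j := by
  rcases Nat.eq_zero_or_pos j with rfl | hj
  · have := KapE761.isProb_mu0
    refine measureReal_le_one.trans (by norm_num)
  · exact mu0_tail hP hc1 hw hj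

theorem mu0_mom {P : Par} {c0 : ℝ} {V : Finset P2} (hP : Small P) (hc1 : c0 ≤ 1) {w : P2}
    (hw : w ∈ V) (j : ℕ) :
    ∫ h, (if j < mcw P c0 V h w then (mcw P c0 V h w : ℝ) ^ 2 else 0) ∂mu0 ≤
      90 * (3 / 4) ^ j := by
  have := KapE761.isProb_mu0
  have h1 := mom_tail (measurable_mcw (P := P) (c0 := c0) V w) (fun h => mcw_le V h w)
    (fun j => mu0_tail' hP hc1 hw j) j
  linarith

theorem pow_tail {c : ℝ} (hc : 0 < c) (a : ℕ) {δ : ℕ → ℝ} (hδ : ∀ n, 0 < δ n)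
    (hδ0 : Tendsto δ atTop (𝓝 0)) (C : ℝ) : ∀ᶠ n in atTop,
    C * (δ n ^ (a + 3))⁻¹ * (1 / 2 : ℝ) ^ (⌈c / δ n⌉₊ - 1) ≤ 1 := by
  have h1 : Tendsto (fun n => ⌈c / δ n⌉₊ - 1) atTop atTop := by
    have h2 : Tendsto (fun n => c / δ n) atTop atTop := by
      have h3 : Tendsto (fun n => (δ n)⁻¹) atTop atTop :=
        (tendsto_nhdsWithin_iff.mpr ⟨hδ0, Eventually.of_forall hδ⟩).inv_tendsto_nhdsGT_zero
      simpa [div_eq_mul_inv] using h3.const_mul_atTop hc
    exact (tendsto_sub_atTop_nat 1).comp (tendsto_nat_ceil_atTop.comp h2)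
  have h2 : Tendsto (fun m : ℕ => |C| * ((m : ℝ) + 1) ^ (a + 3) * (c⁻¹) ^ (a + 3) *
      (1 / 2 : ℝ) ^ m) atTop (𝓝 0) := by
    have h3 := tendsto_pow_const_mul_const_pow_of_abs_lt_one (a + 3)
      (show |(1 / 2 : ℝ)| < 1 by rw [abs_of_pos] <;> norm_num)
    have h4 := ((h3.comp (tendsto_add_atTop_nat 1)).const_mul (2 * |C| * (c⁻¹) ^ (a + 3)))
    rw [mul_zero] at h4
    refine h4.congr fun m => ?_
    simp only [Function.comp_apply]
    push_cast
    rw [pow_succ (1 / 2 : ℝ) m]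
    ring
  filter_upwards [(h2.comp h1).eventually (gt_mem_nhds one_pos),
    h1.eventually (eventually_ge_atTop 1)] with n h3 h4
  simp only [Function.comp_apply] at h3
  refine le_trans ?_ h3.le
  have hd := hδ n
  set m : ℕ := ⌈c / δ n⌉₊ - 1 with hm
  have h5 : c / δ n ≤ (m : ℝ) + 1 := by
    have h6 : ⌈c / δ n⌉₊ = m + 1 := by omega
    have h7 := Nat.le_ceil (c / δ n)
    rw [h6] at h7
    exact_mod_cast h7
  have h6 : (δ n)⁻¹ ≤ ((m : ℝ) + 1) * c⁻¹ := by
    rw [inv_le_iff_one_le_mul₀ hd]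
    rw [div_le_iff₀ hd] at h5
    rw [mul_assoc, mul_comm c⁻¹, ← mul_assoc, ← div_eq_mul_inv, one_le_div hc]
    exact h5
  have h7 : (δ n ^ (a + 3))⁻¹ ≤ ((m : ℝ) + 1) ^ (a + 3) * (c⁻¹) ^ (a + 3) := by
    rw [← inv_pow, ← mul_pow]
    exact pow_le_pow_left₀ (inv_nonneg.mpr hd.le) h6 _
  calc C * (δ n ^ (a + 3))⁻¹ * (1 / 2 : ℝ) ^ m ≤
        |C| * (((m : ℝ) + 1) ^ (a + 3) * (c⁻¹) ^ (a + 3)) * (1 / 2 : ℝ) ^ m := by
        gcongr
        exact le_abs_self C
    _ = _ := by ring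

/-- **the inputs of the numbers for the constant law `mu0`** -/
theorem numIn_mu0 {P : Par} {c0 : ℝ} (hP : Small P) (hc1 : c0 ≤ 1) {G : Set ℂ} {δ : ℕ → ℝ}
    {Rg : ℕ → Finset P2} (hs : Sites G δ Rg) :
    NumIn G δ Rg (fun _ => mu0) mu0 (mfn P c0 Rg) where
  hs := hs
  prob := fun _ => KapE761.isProb_mu0
  lln := lln_mu0 hs
  meas := fun n w => measurable_mcw _ w
  bdd := fun n => ⟨_, fun h w => mcw_le _ h w⟩
  mom1 := by
    have := KapE761.isProb_mu0
    obtain ⟨Cc, hCc, hcard⟩ := hs.card_bdd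
    refine ⟨Cc * 90, 3 / 4, by positivity, by norm_num, by norm_num, fun j =>
      Eventually.of_forall fun n => ?_⟩
    have h1 : ∀ w ∈ Rg n, ∫ h, (if j < mfn P c0 Rg n h w then (mfn P c0 Rg n h w : ℝ) else 0) ∂mu0
        ≤ 90 * (3 / 4) ^ j := by
      intro w hw
      refine le_trans ?_ (mu0_mom hP hc1 (subset_win 1 _ hw) j)
      obtain ⟨K, hK⟩ : ∃ K : ℕ, ∀ h, mcw P c0 (win 1 (Rg n)) h w ≤ K := ⟨_, fun h => mcw_le _ h w⟩
      have hi : ∀ f : ℕ → ℝ, Integrable (fun h => f (mcw P c0 (win 1 (Rg n)) h w)) mu0 := by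
        intro f
        have hm : Measurable fun h => f (mcw P c0 (win 1 (Rg n)) h w) :=
          (measurable_from_top (f := f)).comp (measurable_mcw _ w)
        refine Integrable.of_bound hm.aestronglyMeasurable (∑ k ∈ Finset.range (K + 1), |f k|)
          (ae_of_all _ fun h => ?_)
        rw [Real.norm_eq_abs]
        exact Finset.single_le_sum (f := fun k => |f k|) (fun k _ => abs_nonneg _)
          (Finset.mem_range.mpr (Nat.lt_succ_of_le (hK h)))
      refine integral_mono (hi fun k => if j < k then (k : ℝ) else 0)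
        (hi fun k => if j < k then (k : ℝ) ^ 2 else 0) fun h => ?_
      beta_reduce
      split_ifs with h2
      · have h3 : (1 : ℝ) ≤ mcw P c0 (win 1 (Rg n)) h w := by
          exact_mod_cast (Nat.succ_le_of_lt (Nat.zero_lt_of_lt h2))
        nlinarith
      · exact le_rfl
    calc δ n ^ 2 * ∑ w ∈ Rg n, ∫ h, (if j < mfn P c0 Rg n h w then (mfn P c0 Rg n h w : ℝ)
          else 0) ∂mu0 ≤ δ n ^ 2 * ∑ _w ∈ Rg n, 90 * (3 / 4 : ℝ) ^ j :=
          mul_le_mul_of_nonneg_left (Finset.sum_le_sum h1) (sq_nonneg _)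
      _ = (δ n ^ 2 * (Rg n).card) * (90 * (3 / 4 : ℝ) ^ j) := by
          rw [Finset.sum_const, nsmul_eq_mul]; ring
      _ ≤ Cc * (90 * (3 / 4 : ℝ) ^ j) := mul_le_mul_of_nonneg_right (hcard n) (by positivity)
      _ = _ := by ring
  mom2 := by
    have := KapE761.isProb_mu0
    obtain ⟨Cc, hCc, hcard⟩ := hs.card_bdd
    refine ⟨Cc * 90, by positivity, Eventually.of_forall fun n => ?_⟩
    have h1 : ∀ w ∈ Rg n, ∫ h, (mfn P c0 Rg n h w : ℝ) ^ 2 ∂mu0 ≤ 90 := by
      intro w hw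
      refine le_trans (le_of_eq ?_) ((mu0_mom hP hc1 (subset_win 1 _ hw) 0).trans_eq (by simp))
      refine integral_congr_ae (ae_of_all _ fun h => ?_)
      beta_reduce
      split_ifs with h2
      · rfl
      · have : mfn P c0 Rg n h w = 0 := by
          have : ¬ 0 < mcw P c0 (win 1 (Rg n)) h w := h2
          exact Nat.eq_zero_of_not_pos this
        rw [this]; simp
    calc δ n ^ 2 * ∑ w ∈ Rg n, ∫ h, (mfn P c0 Rg n h w : ℝ) ^ 2 ∂mu0 ≤
          δ n ^ 2 * ∑ _w ∈ Rg n, 90 :=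
          mul_le_mul_of_nonneg_left (Finset.sum_le_sum h1) (sq_nonneg _)
      _ = (δ n ^ 2 * (Rg n).card) * 90 := by
          rw [Finset.sum_const, nsmul_eq_mul]; ring
      _ ≤ Cc * 90 := mul_le_mul_of_nonneg_right (hcard n) (by norm_num)
  far := by
    have := KapE761.isProb_mu0
    intro c hc a
    obtain ⟨Cc, hCc, hcard⟩ := hs.card_bdd
    filter_upwards [pow_tail hc a hs.pos hs.lim (6 * Cc), hs.small one_pos] with n hn hn1
    have hd := hs.pos n
    set m : ℕ := ⌈c / δ n⌉₊ - 1 with hm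
    have h1 : {h : P2 → ℝ | ∃ w ∈ Rg n, c / δ n ≤ (mfn P c0 Rg n h w : ℝ)} ⊆
        ⋃ w ∈ Rg n, {h : P2 → ℝ | m < mcw P c0 (win 1 (Rg n)) h w} := by
      rintro h ⟨w, hw, hle⟩
      refine mem_iUnion₂.mpr ⟨w, hw, ?_⟩
      have h2 : ⌈c / δ n⌉₊ ≤ mcw P c0 (win 1 (Rg n)) h w := Nat.ceil_le.mpr hle
      have h3 : 0 < ⌈c / δ n⌉₊ := Nat.ceil_pos.mpr (div_pos hc hd)
      change m < _
      omega
    have h2 : mu0.real {h : P2 → ℝ | ∃ w ∈ Rg n, c / δ n ≤ (mfn P c0 Rg n h w : ℝ)} ≤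
        (Rg n).card * (6 * (1 / 2) ^ m) := by
      refine (measureReal_mono h1 (measure_ne_top _ _)).trans ?_
      refine (measureReal_biUnion_finset_le _ _).trans ?_
      refine (Finset.sum_le_sum fun w hw => mu0_tail' hP hc1 (subset_win 1 _ hw) m).trans ?_
      rw [Finset.sum_const, nsmul_eq_mul]
    refine h2.trans ?_
    have h3 : ((Rg n).card : ℝ) ≤ Cc * (δ n ^ 2)⁻¹ := by
      rw [← div_eq_mul_inv, le_div_iff₀ (by positivity), mul_comm]
      exact hcard n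
    calc ((Rg n).card : ℝ) * (6 * (1 / 2) ^ m) ≤ Cc * (δ n ^ 2)⁻¹ * (6 * (1 / 2) ^ m) := by
          gcongr
      _ = (6 * Cc * (δ n ^ (a + 3))⁻¹ * (1 / 2) ^ m) * δ n ^ (a + 1) := by
          rw [show a + 3 = 2 + (a + 1) by ring, pow_add]
          field_simp
      _ ≤ 1 * δ n ^ (a + 1) := mul_le_mul_of_nonneg_right hn (by positivity)
      _ = δ n ^ a * δ n := by rw [one_mul, pow_succ]
      _ ≤ δ n ^ a * 1 := mul_le_mul_of_nonneg_left hn1.le (by positivity)
      _ = δ n ^ a := mul_one _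

end

end Crest.Agent.R144.KapN761
end

-- ▼ part R144/KapN2_761
section

/-!
# R144 (S0197), helper761, KapN, part 2: the weights

`WD ψ G δ b s` : mass-zero weights `b n ≈ (√3/2) δ² (-Δψ)` supported in `G`; `exists_wd`.
-/

set_option autoImplicit false
set_option linter.unusedVariables false

open MeasureTheory Metric Set Filter Topology
open scoped ContDiff Laplacian

namespace Crest.Agent.R144.KapN761

open Crest.Agent.R144.Skel144 Crest.Agent.R144.Con549 Crest.Agent.R144.Cnt268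
open Crest.Agent.R144.Bl565 Crest.Agent.R144.LowL549
open Crest.Agent.R144.Cw643 (Near Wt CV Dop Sup7 sup7_of_norm sum_Dop Dop_zero near_Dop BX mm
  sum_tendsto)
open Crest.Agent.R144.Lc279 (P2 bx nr mu0)
open Crest.Agent.R144.Lw425 (LObs hball hd mem_hball)
open Crest.ProbabilityR.HexHeights (centre)

noncomputable section

/-- mass-zero weights close to `(√3/2) δ² (-Δψ)` -/
structure WD (ψ : ℂ → ℝ) (G : Set ℂ) (δ : ℕ → ℝ) (b : ℕ → P2 → ℝ) (s : ℕ → Finset P2) : Prop where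
  pos : ∀ n, 0 < δ n
  lim : Tendsto δ atTop (𝓝 0)
  near : Near δ b (fun z => -(Δ ψ) z)
  wt : ∀ᶠ n in atTop, Wt (s n) (b n)
  supp : ∀ᶠ n in atTop, ∀ v, b n v ≠ 0 → centre (δ n) v ∈ G
  bd : ∃ C : ℝ, 0 < C ∧ ∀ᶠ n in atTop, ∀ v, |b n v| ≤ C * δ n ^ 2
  sum : Tendsto (fun n => ∑ p ∈ s n, b n p * ψ (centre (δ n) p)) atTop
    (𝓝 (∫ z, ‖fderiv ℝ ψ z‖ ^ 2))

theorem exists_wd {ψ : ℂ → ℝ} (hψ : ContDiff ℝ ∞ ψ) (hc : HasCompactSupport ψ) :
    ∃ (G : Set ℂ) (δ : ℕ → ℝ) (b : ℕ → P2 → ℝ) (s : ℕ → Finset P2), IsOpen G ∧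
      IsCompact (closure G) ∧ volume (frontier G) = 0 ∧ tsupport ψ ⊆ G ∧ WD ψ G δ b s := by
  set δ : ℕ → ℝ := fun n => 1 / ((n : ℝ) + 1) with hδd
  have hδ : ∀ n, 0 < δ n := fun n => by rw [hδd]; positivity
  have hδ0 : Tendsto δ atTop (𝓝 0) := tendsto_one_div_add_atTop_nhds_zero_nat
  set b : ℕ → P2 → ℝ := fun n => Dop (fun v => ψ (centre (δ n) v)) with hb
  have hnear : Near δ b (fun z => -(Δ ψ) z) := near_Dop hδ hδ0 hψ hc
  obtain ⟨R1, hR1⟩ := hnear.supp
  obtain ⟨R2, hR2⟩ := hc.isBounded.exists_norm_le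
  set R : ℝ := max (max R1 R2) 0 with hR
  have hR0 : 0 ≤ R := le_max_right _ _
  have h1R : R1 ≤ R := (le_max_left _ _).trans (le_max_left _ _)
  have h2R : R2 ≤ R := (le_max_right _ _).trans (le_max_left _ _)
  have hRψ : ∀ z, ψ z ≠ 0 → ‖z‖ ≤ R := fun z hz => (hR2 z (subset_tsupport _ hz)).trans h2R
  have ht : IsTest univ ψ := ⟨hψ, hc, subset_univ _⟩
  refine ⟨ball 0 (R + 1), δ, b, fun n => BX (mm R (δ n)), isOpen_ball, ?_, ?_, ?_, hδ, hδ0, hnear,
    ?_, ?_, ?_, ?_⟩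
  · exact (isCompact_closedBall (0 : ℂ) (R + 1)).of_isClosed_subset isClosed_closure
      closure_ball_subset_closedBall
  · exact measure_mono_null frontier_ball_subset_sphere
      (Measure.addHaar_sphere_of_ne_zero volume 0 (by positivity))
  · intro z hz
    rw [mem_ball, dist_zero_right]
    have := hR2 z hz
    linarith
  · refine Eventually.of_forall fun n => ?_
    have h7 : Sup7 (BX (mm R (δ n))) (fun v => ψ (centre (δ n) v)) :=
      sup7_of_norm (hδ n) fun p hp => hRψ _ hp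
    exact ⟨fun p hp => Dop_zero h7 hp, sum_Dop h7⟩
  · filter_upwards [hR1] with n hn v hv
    rw [mem_ball, dist_zero_right]
    have := hn v hv
    linarith
  · have hcont : Continuous (fun z => -(Δ ψ) z) := (Cw643.continuous_lap hψ).neg
    have hcc : HasCompactSupport (fun z => -(Δ ψ) z) := (Cw643.hasCompactSupport_lap hc).neg
    obtain ⟨A, hA⟩ := hcont.bounded_above_of_compact_support hcc
    have hA0 : 0 ≤ A := (norm_nonneg _).trans (hA 0)
    refine ⟨A + 1, by positivity, ?_⟩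
    filter_upwards [hnear.near 1 one_pos] with n hn v
    have h1 := hn v
    have h2 := hA (centre (δ n) v)
    rw [Real.norm_eq_abs] at h2
    have h3 : Real.sqrt 3 / 2 ≤ 1 := by
      have h5 : Real.sqrt 3 ≤ 2 := by
        rw [show (2 : ℝ) = Real.sqrt 4 by rw [show (4 : ℝ) = 2 ^ 2 by norm_num]; simp]
        exact Real.sqrt_le_sqrt (by norm_num)
      linarith
    have h4 : |Real.sqrt 3 / 2 * δ n ^ 2 * -(Δ ψ) (centre (δ n) v)| ≤ A * δ n ^ 2 := by
      rw [abs_mul, abs_of_nonneg (by positivity : 0 ≤ Real.sqrt 3 / 2 * δ n ^ 2)]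
      calc Real.sqrt 3 / 2 * δ n ^ 2 * |(-(Δ ψ) (centre (δ n) v))| ≤ 1 * δ n ^ 2 * A := by
            gcongr
        _ = A * δ n ^ 2 := by ring
    have h5 : b n v = (b n v - Real.sqrt 3 / 2 * δ n ^ 2 * -(Δ ψ) (centre (δ n) v)) +
        Real.sqrt 3 / 2 * δ n ^ 2 * -(Δ ψ) (centre (δ n) v) := by ring
    rw [h5]
    refine (abs_add_le _ _).trans ?_
    linarith
  · have h1 := sum_tendsto hδ hδ0 hψ.continuous hc (Cw643.continuous_lap hψ).neg hnear hR0 hRψ
    have h2 : ∫ z, ψ z * (-(Δ ψ) z) = ∫ z, ‖fderiv ℝ ψ z‖ ^ 2 := energy_eq ht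
    rw [← h2]
    refine h1.congr fun n => ?_
    exact Finset.sum_congr rfl fun p _ => mul_comm _ _

end

end Crest.Agent.R144.KapN761
end

-- ▼ part R144/KapN3_761
section

/-!
# R144 (S0197), helper761, KapN, part 3: the trial field in the fibres of `mu0`

* `LS` closure lemmas;
* `AF`, `BF` : the observables of the Cramér–Rao bound; `ls_AF`, `ls_BF`;
* `fib_field` : the trial field of `exists_field` in every fibre.
-/

set_option autoImplicit false
set_option linter.unusedVariables false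

open MeasureTheory Metric Set Filter Topology
open scoped ContDiff NNReal

namespace Crest.Agent.R144.KapN761

open Crest.Agent.R144.Skel144 Crest.Agent.R144.Con549 Crest.Agent.R144.Cnt268
open Crest.Agent.R144.Bl565 Crest.Agent.R144.LowL549
open Crest.Agent.R144.Cw643 (Near Wt CV)
open Crest.Agent.R144.Ham560 (ext ham nbr ext_mem ext_notMem)
open Crest.Agent.R144.KapE761
open Crest.Agent.R144.LoC95 (Ph Gt Tpl MT NT LT ST Bad A1c A2c PsiH Sep ix Pos Loc tr exists_field)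
open Crest.Agent.R144.LoB95 (sl')
open Crest.Agent.R144.Lc279 (P2 bx nr mu0 lat mem_nbr_lat)
open Crest.Agent.R144.Lw425 (LObs hball hd mem_hball hd_triangle hd_comm)
open Crest.ProbabilityR.HexHeights (centre)

noncomputable section

/-! ### closure of `LS` -/


theorem hball_mono {r r' : ℕ} (h : r ≤ r') : hball r ⊆ hball r' := fun v hv => by
  rw [mem_hball] at hv ⊢
  exact hv.trans (by exact_mod_cast h)

theorem ls_const (c : ℝ) : LS fun _ => c :=
  LS.mk' 0 measurable_const (C := |c|) (fun _ => le_rfl) (fun _ _ _ => rfl) (fun _ _ => rfl)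

theorem ls_add {F F' : (P2 → ℝ) → ℝ} (h1 : LS F) (h2 : LS F') : LS fun h => F h + F' h := by
  obtain ⟨C, -, hC⟩ := h1.bdd
  obtain ⟨C', -, hC'⟩ := h2.bdd
  obtain ⟨r, hr, hs⟩ := h1.local_shift
  obtain ⟨r', hr', hs'⟩ := h2.local_shift
  refine LS.mk' (max r r') (h1.measurable.add h2.measurable) (C := C + C')
    (fun h => (abs_add_le _ _).trans (add_le_add (hC h) (hC' h))) (fun h h' hh => ?_)
    (fun h c => by rw [hs, hs'])
  rw [hr h h' fun a ha => hh a (hball_mono (le_max_left _ _) ha),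
    hr' h h' fun a ha => hh a (hball_mono (le_max_right _ _) ha)]

theorem ls_mul {F F' : (P2 → ℝ) → ℝ} (h1 : LS F) (h2 : LS F') : LS fun h => F h * F' h := by
  obtain ⟨C, hC0, hC⟩ := h1.bdd
  obtain ⟨C', -, hC'⟩ := h2.bdd
  obtain ⟨r, hr, hs⟩ := h1.local_shift
  obtain ⟨r', hr', hs'⟩ := h2.local_shift
  refine LS.mk' (max r r') (h1.measurable.mul h2.measurable) (C := C * C')
    (fun h => (abs_mul _ _).trans_le (mul_le_mul (hC h) (hC' h) (abs_nonneg _) hC0.le))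
    (fun h h' hh => ?_) (fun h c => by rw [hs, hs'])
  rw [hr h h' fun a ha => hh a (hball_mono (le_max_left _ _) ha),
    hr' h h' fun a ha => hh a (hball_mono (le_max_right _ _) ha)]

theorem ls_cmul {F : (P2 → ℝ) → ℝ} (c : ℝ) (h1 : LS F) : LS fun h => c * F h :=
  ls_mul (ls_const c) h1

theorem ls_sub {F F' : (P2 → ℝ) → ℝ} (h1 : LS F) (h2 : LS F') : LS fun h => F h - F' h := by
  have := ls_add h1 (ls_cmul (-1) h2)
  refine (congrArg LS (funext fun h => ?_)).mp this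
  ring

theorem ls_sum {ι : Type*} (s : Finset ι) {F : ι → (P2 → ℝ) → ℝ} (h1 : ∀ i ∈ s, LS (F i)) :
    LS fun h => ∑ i ∈ s, F i h := by
  classical
  induction s using Finset.induction_on with
  | empty => simpa using ls_const 0
  | @insert i s hi ih =>
    simp only [Finset.sum_insert hi]
    exact ls_add (h1 i (Finset.mem_insert_self _ _))
      (ih fun j hj => h1 j (Finset.mem_insert_of_mem hj))

theorem ls_prod {ι : Type*} (s : Finset ι) {F : ι → (P2 → ℝ) → ℝ} (h1 : ∀ i ∈ s, LS (F i)) :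
    LS fun h => ∏ i ∈ s, F i h := by
  classical
  induction s using Finset.induction_on with
  | empty => simpa using ls_const 1
  | @insert i s hi ih =>
    simp only [Finset.prod_insert hi]
    exact ls_mul (h1 i (Finset.mem_insert_self _ _))
      (ih fun j hj => h1 j (Finset.mem_insert_of_mem hj))

theorem ls_tr {F : (P2 → ℝ) → ℝ} (h1 : LS F) (q : P2) : LS fun h => F fun a => h (q + a) := by
  obtain ⟨C, hC0, hC⟩ := h1.bdd
  obtain ⟨r, hr, hs⟩ := h1.local_shift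
  refine LS.mk' (r + (hd q 0).toNat) (h1.measurable.comp (measurable_rt fun v => q + v))
    (fun h => hC _) (fun h h' hh => ?_) (fun h c => hs _ c)
  refine hr _ _ fun a ha => hh _ ?_
  rw [mem_hball] at ha ⊢
  have h2 := hd_triangle (q + a) q 0
  have h3 : hd (q + a) q = hd a 0 := by
    have := hd_add q a 0
    rw [add_zero] at this
    exact this
  have h4 : hd q 0 ≤ ((hd q 0).toNat : ℤ) := Int.self_le_toNat _
  push_cast
  linarith

theorem ls_mcw (P : Par) (c0 : ℝ) {V : Finset P2} {w : P2} (hw : w ∈ V) (f : ℕ → ℝ) :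
    LS fun h => f (mcw P c0 V h w) := by
  obtain ⟨r, hr⟩ := Lw425.exists_hball V
  refine LS.mk' r ((measurable_from_top (f := f)).comp (measurable_mcw V w))
    (C := ∑ k ∈ Finset.range (V.card + 2), |f k|) (fun h => ?_) (fun h h' hh => ?_)
    (fun h c => ?_)
  · exact Finset.single_le_sum (f := fun k => |f k|) (fun k _ => abs_nonneg _)
      (Finset.mem_range.mpr (by have := mcw_le (P := P) (c0 := c0) V h w; omega))
  · rw [mcw_congr (fun a ha => hh a (hr a ha)) hw]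
  · rw [mcw_shift]

theorem ls_of_sobs {r : ℕ} {F : (P2 → ℝ) → ℝ} (h : SObs r F) : LS F := by
  obtain ⟨C, hC, h1⟩ := h
  exact ⟨r, C, hC, h1⟩

/-! ### the observables -/

section defs

variable (P : Par) (c0 : ℝ) (m : ℕ) (I : Finset P2) (Tl : Fin 2 → (P2 → ℝ) → P2 → ℝ)
  (Rg Q : Finset P2) (Psi : (Fin 2 → ℝ) → ℝ) (M : ℕ) (B θ A3 A4 p0 p1 p2 : ℝ)

open Classical in
/-- indicator of macroscopic cheap paths -/
def badI (h : P2 → ℝ) : ℝ := if Bad P c0 Rg M h then 1 else 0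

/-- upper bound of the trace -/
def BF (N : ℕ) (h : P2 → ℝ) : ℝ :=
  (1 + θ) ^ 2 * MT P m I Tl Q Psi h +
  p1 ^ 2 * (A1c P * NT P c0 m I Rg Q h) +
  p1 ^ 2 * (A2c P c0 m I B θ * LT P c0 m Rg h) +
  p2 ^ 2 * (A3 * ST P c0 Rg h) +
  A4 * (1 + N : ℝ) ^ 8 * (1 + p0 + p1) ^ 6 * badI P c0 Rg M h

/-- lower bound of the pairing -/
def AF (s : Finset P2) (b : P2 → ℝ) (h : P2 → ℝ) : ℝ :=
  (∑ p ∈ s, b p * Psi (ix p)) -
  (∑ w ∈ Rg, |b w| * (2 * p1 * (2 * mcw P c0 (win 1 Rg) h w + B))) -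
  (∑ p ∈ s, |b p|) * (2 * p0) * badI P c0 Rg M h

end defs

section

variable {P : Par} {c0 : ℝ} {m : ℕ} {I : Finset P2} {Tl : Fin 2 → (P2 → ℝ) → P2 → ℝ}
  {Rg Q : Finset P2} {Psi : (Fin 2 → ℝ) → ℝ} {M : ℕ} {B C θ A3 A4 p0 p1 p2 : ℝ}

theorem badI_eq (h : P2 → ℝ) : badI P c0 Rg M h =
    1 - ∏ w ∈ Rg, (fun k : ℕ => if M ≤ k then (0 : ℝ) else 1) (mcw P c0 (win 1 Rg) h w) := by
  classical
  unfold badI
  by_cases hb : Bad P c0 Rg M h
  · rw [if_pos hb]
    obtain ⟨w, hw, hM⟩ := hb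
    rw [Finset.prod_eq_zero hw, sub_zero]
    simp only [if_pos hM]
  · rw [if_neg hb]
    unfold Bad at hb
    push Not at hb
    rw [Finset.prod_eq_one, sub_self]
    intro w hw
    simp only [if_neg (not_le.mpr (hb w hw))]

theorem ls_badI : LS (badI P c0 Rg M) := by
  have : badI P c0 Rg M = fun h => 1 - ∏ w ∈ Rg, (fun k : ℕ => if M ≤ k then (0 : ℝ) else 1)
      (mcw P c0 (win 1 Rg) h w) := funext fun h => badI_eq h
  rw [this]
  exact ls_sub (ls_const 1) (ls_prod Rg fun w hw => ls_mcw P c0 (subset_win 1 _ hw)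
    fun k : ℕ => if M ≤ k then (0 : ℝ) else 1)

theorem badI_nonneg (h : P2 → ℝ) : 0 ≤ badI P c0 Rg M h := by
  unfold badI; split_ifs <;> norm_num

theorem badI_of {h : P2 → ℝ} (hb : Bad P c0 Rg M h) : badI P c0 Rg M h = 1 := by
  unfold badI; rw [if_pos hb]

theorem badI_not {h : P2 → ℝ} (hb : ¬ Bad P c0 Rg M h) : badI P c0 Rg M h = 0 := by
  unfold badI; rw [if_neg hb]

theorem ls_AF (s : Finset P2) (b : P2 → ℝ) : LS (AF P c0 Rg Psi M B p0 p1 s b) := by
  unfold AF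
  refine ls_sub (ls_sub (ls_const _) (ls_sum Rg fun w hw => ?_)) (ls_cmul _ ls_badI)
  exact ls_mcw P c0 (subset_win 1 _ hw) fun k => |b w| * (2 * p1 * (2 * k + B))

theorem ls_BF (hΦ : ∀ i j, LS fun h => Ph I (Gt P m I Tl) h i j) (N : ℕ) :
    LS (BF P c0 m I Tl Rg Q Psi M B θ A3 A4 p0 p1 p2 N) := by
  unfold BF
  refine ls_add (ls_add (ls_add (ls_add (ls_cmul _ ?_) ?_) ?_) ?_) (ls_cmul _ ls_badI)
  · unfold MT
    refine ls_sum Q fun q _ => ?_
    unfold qd
    refine ls_sum _ fun i _ => ls_sum _ fun j _ => ?_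
    exact ls_mul (ls_mul (ls_tr (hΦ i j) q) (ls_const _)) (ls_const _)
  · refine ls_cmul _ (ls_cmul _ ?_)
    unfold NT
    refine ls_sum _ fun w hw => ?_
    exact ls_mcw P c0 (subset_win 1 _ (Finset.mem_filter.mp hw).1) fun k => (k : ℝ)
  · refine ls_cmul _ (ls_cmul _ ?_)
    unfold LoC95.LT
    refine ls_sum _ fun w hw => ?_
    exact ls_mcw P c0 (subset_win 1 _ hw) fun k => if m < k then (k : ℝ) else 0
  · refine ls_cmul _ (ls_cmul _ ?_)
    unfold LoC95.ST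
    refine ls_sum _ fun w hw => ?_
    exact ls_mcw P c0 (subset_win 1 _ hw) fun k => ((k : ℝ) + 1) ^ 2

theorem loc_lat (Rg : Finset P2) : Loc (win 1 Rg) (lat (win 1 Rg)) Rg where
  sub := subset_win 1 Rg
  nb := fun a ha b => by
    rw [mem_nbr_lat]
    exact ⟨fun h => h.1, fun h => ⟨h, Or.inl ha⟩⟩
  sh := fun a b h => by
    rw [mem_nbr_lat] at h
    exact h.1.le

/-- **the trial field in a fibre** -/
theorem fib_field (P : Par) {c0 : ℝ} (hc0 : 0 < c0) {m : ℕ} {I : Finset P2}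
    {Tl : Fin 2 → (P2 → ℝ) → P2 → ℝ} {B C : ℝ} (T : Tpl m I Tl B C) {θ : ℝ} (hθ : 0 < θ) :
    ∃ A3 A4 : ℝ, 0 ≤ A3 ∧ 0 ≤ A4 ∧ ∀ (Rg Q : Finset P2), Pos I m Rg Q →
      ∀ (Psi : (Fin 2 → ℝ) → ℝ) (p0 p1 p2 : ℝ), PsiH Psi p0 p1 p2 →
      ∀ M : ℕ, 2 ≤ M → Sep Rg Psi B M → ∀ (s : Finset P2) (b : P2 → ℝ), (∀ v, b v ≠ 0 → v ∈ Rg) →
      ∀ ζ, FibF (win 1 Rg) s b (AF P c0 Rg Psi M B p0 p1 s b)
        (BF P c0 m I Tl Rg Q Psi M B θ A3 A4 p0 p1 p2 (win 1 Rg).card) ζ := by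
  classical
  obtain ⟨A3, A4, hA3, hA4, H⟩ := exists_field P hc0 T hθ
  refine ⟨A3, A4, hA3, hA4, ?_⟩
  intro Rg Q hP Psi p0 p1 p2 hPsi M hM hsep s b hb ζ
  obtain ⟨Y, c, t0, hTan, h1, h2, h3, h4⟩ := H (win 1 Rg) (lat (win 1 Rg)) ζ Rg Q (loc_lat Rg) hP
    Psi p0 p1 p2 hPsi M hM hsep
  have hB := T.B_nonneg
  have hp0 := hPsi.n0
  have hp1 := hPsi.n1
  refine ⟨Y, c, t0, hTan, ?_, ?_⟩
  · refine ae_of_all _ fun x => ?_
    set h : P2 → ℝ := ext (win 1 Rg) ζ x with hh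
    set E1 : ℝ := ∑ w ∈ Rg, |b w| * (2 * p1 * (2 * mcw P c0 (win 1 Rg) h w + B)) with hE1
    have hE0 : 0 ≤ E1 := Finset.sum_nonneg fun w _ => by positivity
    have key : (∑ p ∈ s, b p * Psi (ix p)) - XS s b (ext (win 1 Rg) 0 (Y x)) ≤
        E1 + (∑ p ∈ s, |b p|) * (2 * p0) * badI P c0 Rg M h := by
      unfold XS
      rw [← Finset.sum_sub_distrib]
      have e1 : ∀ p ∈ s, b p * Psi (ix p) - b p * ext (win 1 Rg) 0 (Y x) p ≤
          |b p| * |ext (win 1 Rg) 0 (Y x) p - Psi (ix p)| := by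
        intro p _
        rw [← mul_sub]
        refine (le_abs_self _).trans ?_
        rw [abs_mul, abs_sub_comm]
      refine (Finset.sum_le_sum e1).trans ?_
      by_cases hbad : Bad P c0 Rg M h
      · rw [badI_of hbad, mul_one, Finset.sum_mul]
        have e2 : ∀ p ∈ s, |b p| * |ext (win 1 Rg) 0 (Y x) p - Psi (ix p)| ≤
            |b p| * (2 * p0) := by
          intro p _
          by_cases hp : b p = 0
          · rw [hp]; simp
          · have hpF : p ∈ win 1 Rg := subset_win 1 _ (hb p hp)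
            rw [ext_mem hpF]
            refine mul_le_mul_of_nonneg_left ?_ (abs_nonneg _)
            have a1 := h3 x ⟨p, hpF⟩
            have a2 := hPsi.b (ix p)
            calc |Y x ⟨p, hpF⟩ - Psi (ix p)| ≤ |Y x ⟨p, hpF⟩| + |Psi (ix p)| := abs_sub _ _
              _ ≤ 2 * p0 := by linarith
        have e3 := Finset.sum_le_sum e2
        linarith
      · rw [badI_not hbad, mul_zero, add_zero]
        have e2 : ∀ p ∈ s, |b p| * |ext (win 1 Rg) 0 (Y x) p - Psi (ix p)| ≤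
            if p ∈ Rg then |b p| * (2 * p1 * (2 * mcw P c0 (win 1 Rg) h p + B)) else 0 := by
          intro p _
          by_cases hp : b p = 0
          · rw [hp]
            split_ifs <;> simp
          · have hpR := hb p hp
            have hpF : p ∈ win 1 Rg := subset_win 1 _ hpR
            rw [ext_mem hpF, if_pos hpR]
            exact mul_le_mul_of_nonneg_left (h4 x hbad ⟨p, hpF⟩ hpR) (abs_nonneg _)
        refine (Finset.sum_le_sum e2).trans ?_
        rw [← Finset.sum_filter]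
        refine Finset.sum_le_sum_of_subset_of_nonneg (fun p hp => (Finset.mem_filter.mp hp).2)
          fun w _ _ => by positivity
    unfold AF
    linarith
  · refine ae_restrict_of_ae ?_
    filter_upwards [h1] with x hx
    refine hx.trans (le_of_eq ?_)
    unfold BF badI
    split_ifs <;> ring

end

end

end Crest.Agent.R144.KapN761
namespace Crest.Agent.R144.KapN761.LS
end Crest.Agent.R144.KapN761.LS
end

-- ▼ part R144/KapN4_761
section

/-!
# R144 (S0197), helper761, KapN, part 4: the mean of the pairing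

`AF_lower` : `∫ AF ≥ l ∫ |∇ψ|² - ε`.
-/

set_option autoImplicit false
set_option linter.unusedVariables false

open MeasureTheory Metric Set Filter Topology
open scoped ContDiff NNReal

namespace Crest.Agent.R144.KapN761

open Crest.Agent.R144.Skel144 Crest.Agent.R144.Con549 Crest.Agent.R144.Cnt268
open Crest.Agent.R144.Bl565 Crest.Agent.R144.LowL549
open Crest.Agent.R144.Cw643 (Near Wt CV)
open Crest.Agent.R144.KapE761
open Crest.Agent.R144.LoC95 (Bad ix)
open Crest.Agent.R144.Lc279 (P2 bx nr mu0)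
open Crest.Agent.R144.Lw425 (LObs hball hd)
open Crest.ProbabilityR.HexHeights (centre)

noncomputable section

variable {P : Par} {c0 : ℝ} {G : Set ℂ} {δ : ℕ → ℝ} {Rg : ℕ → Finset P2} {ψ : ℂ → ℝ}
  {b : ℕ → P2 → ℝ} {s : ℕ → Finset P2}

theorem LS.integrable {F : (P2 → ℝ) → ℝ} (hF : LS F) : Integrable F mu0 := by
  obtain ⟨C, hC0, hC⟩ := hF.bdd
  exact Integrable.of_bound hF.measurable.aestronglyMeasurable C
    (ae_of_all _ fun h => by rw [Real.norm_eq_abs]; exact hC h)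

theorem integral_badI_le (R : Finset P2) {M : ℕ} {x : ℝ} (hM : x ≤ M) :
    ∫ h, badI P c0 R M h ∂mu0 ≤
      mu0.real {h | ∃ w ∈ R, x ≤ (mcw P c0 (win 1 R) h w : ℝ)} := by
  have hm : MeasurableSet {h : P2 → ℝ | ∃ w ∈ R, x ≤ (mcw P c0 (win 1 R) h w : ℝ)} := by
    have e : {h : P2 → ℝ | ∃ w ∈ R, x ≤ (mcw P c0 (win 1 R) h w : ℝ)} =
        ⋃ w ∈ R, {h | x ≤ (mcw P c0 (win 1 R) h w : ℝ)} := by
      ext h; simp
    rw [e]
    exact Finset.measurableSet_biUnion _ fun w _ => measurableSet_le measurable_const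
      ((measurable_from_top (f := fun k : ℕ => (k : ℝ))).comp (measurable_mcw _ w))
  have e2 : mu0.real {h : P2 → ℝ | ∃ w ∈ R, x ≤ (mcw P c0 (win 1 R) h w : ℝ)} =
      ∫ h, ({h : P2 → ℝ | ∃ w ∈ R, x ≤ (mcw P c0 (win 1 R) h w : ℝ)}.indicator
        (fun _ => (1 : ℝ)) h) ∂mu0 := by
    rw [integral_indicator_const _ hm, smul_eq_mul, mul_one]
  rw [e2]
  refine integral_mono (LS.integrable ls_badI) ((integrable_const (1 : ℝ)).indicator hm)
    fun h => ?_
  by_cases hb : Bad P c0 R M h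
  · rw [badI_of hb, indicator_of_mem]
    obtain ⟨w, hw, hwM⟩ := hb
    exact ⟨w, hw, hM.trans (by exact_mod_cast hwM)⟩
  · rw [badI_not hb]
    exact indicator_nonneg (fun _ _ => zero_le_one) _

/-- **the mean of the pairing** -/
theorem AF_lower (hP : Small P) (hc1 : c0 ≤ 1) (hs : Sites G δ Rg) (hW : WD ψ G δ b s)
    (hRg : ∀ n v, centre (δ n) v ∈ G → v ∈ Rg n) {κ : ℝ} (hκ : 0 < κ) (l : ℝ) {B S0 S1 : ℝ}
    (hB : 0 ≤ B) (hS0 : 0 ≤ S0) (hS1 : 0 ≤ S1) {ε : ℝ} (hε : 0 < ε) : ∀ᶠ n in atTop, ∀ M : ℕ,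
      κ / δ n ≤ M → l * (∫ z, ‖fderiv ℝ ψ z‖ ^ 2) - ε ≤
        ∫ h, AF P c0 (Rg n) (psi ψ l (δ n)) M B (|l| * S0) (|l| * S1 * δ n) (s n) (b n) h ∂mu0 := by
  have N : NumIn G δ Rg (fun _ => mu0) mu0 (mfn P c0 Rg) := numIn_mu0 hP hc1 hs
  obtain ⟨C, hC, hbd⟩ := hW.bd
  obtain ⟨Cc, hCc, hcard⟩ := hs.card_bdd
  have h1 : ∀ᶠ n in atTop, l * (∫ z, ‖fderiv ℝ ψ z‖ ^ 2) - ε / 3 <
      l * ∑ p ∈ s n, b n p * ψ (centre (δ n) p) :=
    (hW.sum.const_mul l).eventually (lt_mem_nhds (by linarith))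
  filter_upwards [h1, hbd, hW.supp, N.disp_term (4 * |l| * S1 * C) (B / 2)
    (show 0 < ε / 3 by positivity), N.far_term (C * Cc * (2 * (|l| * S0))) hκ 0
    (show 0 < ε / 3 by positivity)] with n a1 a2 a3 a4 a5 M hM
  have hδ := hs.pos n
  have hb : ∀ v, b n v ≠ 0 → v ∈ Rg n := fun v hv => hRg n v (a3 v hv)
  set D1 : ℝ := ∑ p ∈ s n, b n p * psi ψ l (δ n) (ix p) with hD1
  have hD1' : l * (∫ z, ‖fderiv ℝ ψ z‖ ^ 2) - ε / 3 ≤ D1 := by
    refine a1.le.trans (le_of_eq ?_)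
    rw [hD1, Finset.mul_sum]
    refine Finset.sum_congr rfl fun p _ => ?_
    rw [psi_ix]; ring
  set X : (P2 → ℝ) → ℝ := fun h => δ n ^ 2 * ∑ w ∈ Rg n,
      ((mcw P c0 (win 1 (Rg n)) h w : ℝ) + B / 2) with hX
  have hXls : LS X := ls_cmul _ (ls_sum _ fun w hw =>
    ls_mcw P c0 (subset_win 1 _ hw) fun k => (k : ℝ) + B / 2)
  have hsum : ∑ p ∈ s n, |b n p| ≤ C * Cc := by
    classical
    have e1 : ∀ p ∈ s n, |b n p| ≤ if p ∈ Rg n then C * δ n ^ 2 else 0 := by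
      intro p _
      split_ifs with hp
      · exact a2 p
      · have : b n p = 0 := by
          by_contra h; exact hp (hb p h)
        rw [this, abs_zero]
    refine (Finset.sum_le_sum e1).trans ?_
    rw [← Finset.sum_filter, Finset.sum_const, nsmul_eq_mul]
    have e2 : (((s n).filter fun p => p ∈ Rg n).card : ℝ) ≤ (Rg n).card := by
      exact_mod_cast Finset.card_le_card fun p hp => (Finset.mem_filter.mp hp).2
    calc _ ≤ ((Rg n).card : ℝ) * (C * δ n ^ 2) := mul_le_mul_of_nonneg_right e2 (by positivity)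
      _ = C * (δ n ^ 2 * (Rg n).card) := by ring
      _ ≤ C * Cc := mul_le_mul_of_nonneg_left (hcard n) hC.le
  have hpt : ∀ h : P2 → ℝ, D1 - (4 * |l| * S1 * C * δ n) * X h -
      (C * Cc * (2 * (|l| * S0))) * badI P c0 (Rg n) M h ≤
      AF P c0 (Rg n) (psi ψ l (δ n)) M B (|l| * S0) (|l| * S1 * δ n) (s n) (b n) h := by
    intro h
    unfold AF
    have e1 : ∑ w ∈ Rg n, |b n w| * (2 * (|l| * S1 * δ n) *
        (2 * mcw P c0 (win 1 (Rg n)) h w + B)) ≤ (4 * |l| * S1 * C * δ n) * X h := by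
      rw [hX]
      simp only [Finset.mul_sum]
      refine Finset.sum_le_sum fun w _ => ?_
      calc |b n w| * (2 * (|l| * S1 * δ n) * (2 * mcw P c0 (win 1 (Rg n)) h w + B)) ≤
            (C * δ n ^ 2) * (2 * (|l| * S1 * δ n) * (2 * mcw P c0 (win 1 (Rg n)) h w + B)) :=
            mul_le_mul_of_nonneg_right (a2 w) (by positivity)
        _ = _ := by ring
    have e2 : (∑ p ∈ s n, |b n p|) * (2 * (|l| * S0)) * badI P c0 (Rg n) M h ≤
        (C * Cc * (2 * (|l| * S0))) * badI P c0 (Rg n) M h :=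
      mul_le_mul_of_nonneg_right (mul_le_mul_of_nonneg_right hsum (by positivity))
        (badI_nonneg h)
    linarith
  have hi1 : Integrable (fun h => D1 - (4 * |l| * S1 * C * δ n) * X h) mu0 :=
    (integrable_const _).sub ((LS.integrable hXls).const_mul _)
  have hi2 : Integrable (fun h => (C * Cc * (2 * (|l| * S0))) * badI P c0 (Rg n) M h) mu0 :=
    (LS.integrable ls_badI).const_mul _
  have key := integral_mono (hi1.sub hi2)
    (LS.integrable (ls_AF (P := P) (c0 := c0) (Rg := Rg n) (Psi := psi ψ l (δ n)) (M := M)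
      (B := B) (p0 := |l| * S0) (p1 := |l| * S1 * δ n) (s n) (b n))) hpt
  refine le_trans ?_ key
  have e3 : ∫ h, (D1 - (4 * |l| * S1 * C * δ n) * X h -
      (C * Cc * (2 * (|l| * S0))) * badI P c0 (Rg n) M h) ∂mu0 =
      D1 - (4 * |l| * S1 * C * δ n) * ∫ h, X h ∂mu0 -
      (C * Cc * (2 * (|l| * S0))) * ∫ h, badI P c0 (Rg n) M h ∂mu0 := by
    have q1 : ∫ h, (4 * |l| * S1 * C * δ n) * X h ∂mu0 =
        (4 * |l| * S1 * C * δ n) * ∫ h, X h ∂mu0 := integral_const_mul _ _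
    have q2 : ∫ h, (C * Cc * (2 * (|l| * S0))) * badI P c0 (Rg n) M h ∂mu0 =
        (C * Cc * (2 * (|l| * S0))) * ∫ h, badI P c0 (Rg n) M h ∂mu0 := integral_const_mul _ _
    rw [integral_sub hi1 hi2, integral_sub (integrable_const _)
      ((LS.integrable hXls).const_mul _), q1, q2]
    simp
  have e3' : ∫ h, ((fun h => D1 - (4 * |l| * S1 * C * δ n) * X h) - fun h =>
      (C * Cc * (2 * (|l| * S0))) * badI P c0 (Rg n) M h) h ∂mu0 =
      D1 - (4 * |l| * S1 * C * δ n) * ∫ h, X h ∂mu0 -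
      (C * Cc * (2 * (|l| * S0))) * ∫ h, badI P c0 (Rg n) M h ∂mu0 := e3
  rw [e3']
  have e4 : ∫ h, X h ∂mu0 = δ n ^ 2 * ∑ w ∈ Rg n,
      ∫ h, ((mfn P c0 Rg n h w : ℝ) + B / 2) ∂mu0 := by
    rw [hX, integral_const_mul, integral_finsetSum]
    exact fun w _ => N.integrable_of n w fun k => (k : ℝ) + B / 2
  have e5 : (4 * |l| * S1 * C * δ n) * ∫ h, X h ∂mu0 ≤ ε / 3 := by
    rw [e4]; exact a4
  have e6 : (C * Cc * (2 * (|l| * S0))) * ∫ h, badI P c0 (Rg n) M h ∂mu0 ≤ ε / 3 := by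
    refine le_trans ?_ a5
    rw [pow_zero, inv_one, mul_one]
    exact mul_le_mul_of_nonneg_left (integral_badI_le (Rg n) hM) (by positivity)
  linarith

end

end Crest.Agent.R144.KapN761
end

-- ▼ part R144/KapN5_761

/-!
# R144 (S0197), helper761, KapN, part 5: `KapD`

`kapD_fin` : `KapD (abT P mu0) (√3/2)`.
-/

set_option autoImplicit false
set_option linter.unusedVariables false

open MeasureTheory Metric Set Filter Topology
open scoped ContDiff NNReal

namespace Crest.Agent.R144.KapN761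

open Crest.Agent.R144.Skel144 Crest.Agent.R144.Con549 Crest.Agent.R144.Cnt268
open Crest.Agent.R144.Bl565 Crest.Agent.R144.LowL549
open Crest.Agent.R144.Cw643 (Near Wt CV)
open Crest.Agent.R144.KapE761
open Crest.Agent.R144.LoC95 (Ph Gt Tpl Bad ix Pos Sep PsiH A3c sz sz_nonneg A2c A1c)
open Crest.Agent.R144.Lc279 (P2 bx nr mu0)
open Crest.Agent.R144.Lw425 (LObs hball hd)
open Crest.ProbabilityR.HexHeights (centre)

noncomputable section

/-- the size of the window -/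
theorem card_win_bd {G : Set ℂ} {δ : ℕ → ℝ} {Rg : ℕ → Finset P2} (hs : Sites G δ Rg) :
    ∃ C : ℝ, 0 < C ∧ ∀ᶠ n in atTop, 1 + ((win 1 (Rg n)).card : ℝ) ≤ C * (δ n ^ 2)⁻¹ := by
  obtain ⟨Cc, hCc, hcard⟩ := hs.card_bdd
  refine ⟨1 + Cc * (hball 1).card, by positivity, ?_⟩
  filter_upwards [hs.small one_pos] with n hn
  have hδ := hs.pos n
  have h1 : ((win 1 (Rg n)).card : ℝ) ≤ (Rg n).card * (hball 1).card := by
    exact_mod_cast LoC95.card_win_one (Rg n)
  have h2 : δ n ^ 2 ≤ 1 := pow_le_one₀ hδ.le hn.le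
  have h3 : 0 < δ n ^ 2 := by positivity
  rw [← div_eq_mul_inv, le_div_iff₀ h3]
  have h4 := hcard n
  have h5 : (0 : ℝ) ≤ (hball 1).card := Nat.cast_nonneg _
  calc (1 + ((win 1 (Rg n)).card : ℝ)) * δ n ^ 2 ≤
        (1 + (Rg n).card * (hball 1).card) * δ n ^ 2 := by gcongr
    _ = δ n ^ 2 + (δ n ^ 2 * (Rg n).card) * (hball 1).card := by ring
    _ ≤ 1 + Cc * (hball 1).card := add_le_add h2 (mul_le_mul_of_nonneg_right h4 h5)

/-- the macroscopic length -/
theorem exists_M {δ : ℕ → ℝ} (hδ : ∀ n, 0 < δ n) (hδ0 : Tendsto δ atTop (𝓝 0)) {κ : ℝ}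
    (hκ : 0 < κ) : ∀ᶠ n in atTop, κ / δ n ≤ (⌈κ / δ n⌉₊ : ℝ) ∧
      ((⌈κ / δ n⌉₊ : ℕ) : ℝ) ≤ 2 * κ / δ n ∧ 2 ≤ ⌈κ / δ n⌉₊ := by
  have h2 : Tendsto (fun n => κ / δ n) atTop atTop := by
    have h3 : Tendsto (fun n => (δ n)⁻¹) atTop atTop :=
      (tendsto_nhdsWithin_iff.mpr ⟨hδ0, Eventually.of_forall hδ⟩).inv_tendsto_nhdsGT_zero
    simpa [div_eq_mul_inv] using h3.const_mul_atTop hκ
  filter_upwards [h2.eventually (eventually_ge_atTop 2)] with n hn
  have h4 : 0 ≤ κ / δ n := by linarith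
  refine ⟨Nat.le_ceil _, ?_, ?_⟩
  · have := (Nat.ceil_lt_add_one h4).le
    have e : 2 * κ / δ n = κ / δ n + κ / δ n := by ring
    rw [e]; linarith
  · have h5 : (2 : ℝ) ≤ (⌈κ / δ n⌉₊ : ℝ) := hn.trans (Nat.le_ceil _)
    exact_mod_cast h5

/-- comparison of the traces -/
theorem BF_le_tot {P : Par} {θ : ℝ} {r : ℕ} {o : Fin 3}
    {Tl : Fin 3 → Fin 2 → (P2 → ℝ) → P2 → ℝ} {R : Finset P2} {c : P2}
    {Psi : (Fin 2 → ℝ) → ℝ} {M N : ℕ} {A3 A4 p0 p1 p2 Kc : ℝ}
    (hK : A4 * (1 + N : ℝ) ^ 8 * (1 + p0 + p1) ^ 6 ≤ Kc) (h : P2 → ℝ) :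
    BF P 1 (cw r) (bk r o) (Tl o) R (Qs r o R c) Psi M (128 * r) θ A3 A4 p0 p1 p2 N h ≤
      tot P 1 θ r o Tl R c Psi p1 p2 A3 Kc M h := by
  unfold BF tot
  have h3 : badI P 1 R M h = {h | Bad P 1 R M h}.indicator (fun _ => (1 : ℝ)) h := by
    by_cases hb : Bad P 1 R M h
    · rw [badI_of hb, indicator_of_mem]
      exact hb
    · rw [badI_not hb, indicator_of_notMem]
      exact hb
  have h4 : A4 * (1 + N : ℝ) ^ 8 * (1 + p0 + p1) ^ 6 * badI P 1 R M h ≤
      Kc * {h | Bad P 1 R M h}.indicator (fun _ => (1 : ℝ)) h := by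
    rw [← h3]
    exact mul_le_mul_of_nonneg_right hK (badI_nonneg h)
  linarith

/-- **the lower bound for one test function, at fixed accuracy** -/
theorem low_mu0 {P : Par} (hP : Small P) {ψ : ℂ → ℝ} (hψ : ContDiff ℝ ∞ ψ)
    (hc : HasCompactSupport ψ) {ε : ℝ} (hε : 0 < ε) {b0 : ℝ} (hb0 : 0 < b0) :
    ∃ r1, ∀ r, r1 ≤ r → ∀ b, b0 ≤ b → (∀ L, abT P mu0 r L ≤ b) →
      LowN (vg0 mu0) (Real.sqrt 3 / 2 / b * ∫ z, ‖fderiv ℝ ψ z‖ ^ 2) ε ψ := by
  obtain ⟨G, δ, w, s, hGo, hGc, hGn, hψG, hW⟩ := exists_wd hψ hc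
  have hGb : Bornology.IsBounded G := hGc.isBounded.subset subset_closure
  set Rg : ℕ → Finset P2 := fun n => rG G (δ n) with hRgd
  have hs : Sites G δ Rg := sites_rG hGo hGb hGn hW.pos hW.lim
  have hRg : ∀ n v, centre (δ n) v ∈ G → v ∈ Rg n := fun n v hv => (mem_rG hGb (hW.pos n)).mpr hv
  have hu : IsTest G ψ := ⟨hψ, hc, hψG⟩
  have N : NumIn G δ Rg (fun _ => mu0) mu0 (fun n h v => mcw P 1 (win 1 (Rg n)) h v) :=
    numIn_mu0 hP le_rfl hs
  obtain ⟨S0, S1, S2, hS0, hS1, hS2, hb0', hb1', hb2'⟩ := exists_bd hu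
  obtain ⟨κ, hκ, hsep⟩ := sep_ev hs hu
  set D : ℝ := ∫ z, ‖fderiv ℝ ψ z‖ ^ 2 with hD
  have hD0 : 0 ≤ D := integral_nonneg fun z => sq_nonneg _
  set c1 : ℝ := Real.sqrt 3 / 2 with hc1
  have hc10 : 0 < c1 := by rw [hc1]; positivity
  have hc1t : c1 * (2 / Real.sqrt 3) = 1 := by
    rw [hc1]
    have : Real.sqrt 3 ≠ 0 := by positivity
    field_simp
  set Λ : ℝ := c1 / b0 + c1 ^ 2 / b0 + 1 with hΛ
  have hΛ0 : 0 < Λ := by positivity
  obtain ⟨θ, hθ, r1, hr1, H⟩ := numbers (S1 := S1) (S2 := S2) N Lw425.inv_mu0 dlr_mu0 hu hΛ0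
    (show 0 < ε / 3 by positivity)
  refine ⟨r1, fun r hr b hb hab => ?_⟩
  have hr2 : 2 ≤ r := hr1.trans hr
  have hb0p : 0 < b := hb0.trans_le hb
  obtain ⟨Tl, C, hC, hT, H2⟩ := H r hr b hb0p.le hab
  -- the fields
  have hfib := fun o : Fin 3 => fib_field P (c0 := 1) one_pos (hT o) hθ
  choose A3 A4 hA3 hA4 HF using hfib
  obtain ⟨Cw, hCw, hwin⟩ := card_win_bd hs
  set l : ℝ := c1 / b with hl
  have hl0 : 0 < l := by positivity
  have hlΛ : |l| ≤ Λ := by
    rw [abs_of_pos hl0]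
    have h1 : l ≤ c1 / b0 := div_le_div_of_nonneg_left hc10.le hb0 hb
    have h2 : 0 ≤ c1 ^ 2 / b0 := by positivity
    linarith
  have hlb : l ^ 2 * b ≤ Λ := by
    have h1 : l ^ 2 * b = c1 ^ 2 / b := by rw [hl]; field_simp
    rw [h1]
    have h2 : c1 ^ 2 / b ≤ c1 ^ 2 / b0 := div_le_div_of_nonneg_left (by positivity) hb0 hb
    have h3 : 0 ≤ c1 / b0 := by positivity
    linarith
  set A4s : ℝ := ∑ o, A4 o with hA4s
  have hA4s0 : 0 ≤ A4s := Finset.sum_nonneg fun o _ => hA4 o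
  have hA4le : ∀ o, A4 o ≤ A4s := fun o =>
    Finset.single_le_sum (f := A4) (fun o _ => hA4 o) (Finset.mem_univ o)
  set K : ℝ := A4s * Cw ^ 8 * (1 + Λ * S0 + Λ * S1) ^ 6 with hK
  have hK0 : 0 ≤ K := by positivity
  have hM := exists_M hW.pos hW.lim hκ
  have hnum := H2 A3 (fun _ n => K * (δ n ^ 16)⁻¹) K κ 16 (fun n => ⌈κ / δ n⌉₊) hA3
    (fun _ => Eventually.of_forall fun n => le_rfl) hκ (hM.mono fun n hn => hn.1) l hlΛ hlb
  have hAF := AF_lower hP le_rfl hs hW hRg hκ l (show (0 : ℝ) ≤ 128 * r by positivity) hS0 hS1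
    (show 0 < ε / 3 by positivity)
  refine ⟨δ, w, s, hW.pos, hW.lim, hW.near, hW.wt, Eventually.frequently ?_⟩
  filter_upwards [hnum, hAF, hM, hsep l (128 * r), hwin, hW.wt, hW.supp, hs.small one_pos]
    with n g1 g2 g3 g4 g5 g6 g7 g8
  obtain ⟨o, c, hcb, g1⟩ := g1
  have hδ := hW.pos n
  set M : ℕ := ⌈κ / δ n⌉₊ with hMd
  have hPsi : PsiH (psi ψ l (δ n)) (|l| * S0) (|l| * S1 * δ n) (2 * |l| * S2 * δ n ^ 2) :=
    psiH hu hS1 hS2 hb0' hb1' hb2' l hδ.le
  have hFib := HF o (Rg n) (Qs r o (Rg n) c) (pos_Qs hr2 o (Rg n) c) _ _ _ _ hPsi M g3.2.2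
    (g4 M g3.2.1) (s n) (w n) (fun v hv => hRg n v (g7 v hv))
  have hLM : LM3 (3 * r) (Phi3 P r Tl) := lm3_tpl P hC hT
  have hΦ : ∀ i j, LS fun h => Ph (bk r o) (Gt P (cw r) (bk r o) (Tl o)) h i j := fun i j =>
    ls_of_sobs (hLM.obs o i j)
  have hBls := ls_BF (P := P) (c0 := 1) (m := cw r) (I := bk r o) (Tl := Tl o) (Rg := Rg n)
    (Q := Qs r o (Rg n) c) (Psi := psi ψ l (δ n)) (M := M) (B := 128 * r) (θ := θ) (A3 := A3 o)
    (A4 := A4 o) (p0 := |l| * S0) (p1 := |l| * S1 * δ n) (p2 := 2 * |l| * S2 * δ n ^ 2) hΦ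
    (win 1 (Rg n)).card
  have hcr := cr_mu0 (I := win 1 (Rg n)) (s := s n) (b := w n) g6.2
    (ls_AF (P := P) (c0 := 1) (Rg := Rg n) (Psi := psi ψ l (δ n)) (M := M)
      (B := 128 * r) (p0 := |l| * S0) (p1 := |l| * S1 * δ n) (s n) (w n)) hBls
    (fun ζ _ => hFib ζ) zero_le_one
  -- the trace
  have hKc : A4 o * (1 + ((win 1 (Rg n)).card : ℝ)) ^ 8 * (1 + |l| * S0 + |l| * S1 * δ n) ^ 6 ≤
      K * (δ n ^ 16)⁻¹ := by
    have k1 : (1 + ((win 1 (Rg n)).card : ℝ)) ^ 8 ≤ (Cw * (δ n ^ 2)⁻¹) ^ 8 :=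
      pow_le_pow_left₀ (by positivity) g5 8
    have k2 : |l| * S1 * δ n ≤ Λ * S1 := by
      calc |l| * S1 * δ n ≤ |l| * S1 * 1 := mul_le_mul_of_nonneg_left g8.le (by positivity)
        _ ≤ Λ * S1 := by rw [mul_one]; exact mul_le_mul_of_nonneg_right hlΛ hS1
    have k3 : |l| * S0 ≤ Λ * S0 := mul_le_mul_of_nonneg_right hlΛ hS0
    have k4 : (1 + |l| * S0 + |l| * S1 * δ n) ^ 6 ≤ (1 + Λ * S0 + Λ * S1) ^ 6 :=
      pow_le_pow_left₀ (by positivity) (by linarith) 6
    calc _ ≤ A4s * (Cw * (δ n ^ 2)⁻¹) ^ 8 * (1 + Λ * S0 + Λ * S1) ^ 6 := by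
          refine mul_le_mul (mul_le_mul (hA4le o) k1 (by positivity) hA4s0) k4 (by positivity)
            (by positivity)
      _ = K * (δ n ^ 16)⁻¹ := by
          rw [hK]
          field_simp
  have htot := integral_tot N hu hC hT θ n o c l (|l| * S1 * δ n) (2 * |l| * S2 * δ n ^ 2)
    (A3 o) (K * (δ n ^ 16)⁻¹) M
  have hBt := integral_mono (LS.integrable hBls) htot.1 fun h =>
    BF_le_tot (Tl := Tl) (o := o) (R := Rg n) (c := c) hKc h
  have g2' := g2 M g3.1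
  have hBt2 := hBt.trans g1
  -- arithmetic
  have e1 : l ^ 2 * (2 / Real.sqrt 3 * b) * D = l * D := by
    have : l * b = c1 := by rw [hl]; field_simp
    calc l ^ 2 * (2 / Real.sqrt 3 * b) * D = l * (l * b * (2 / Real.sqrt 3)) * D := by ring
      _ = l * D := by rw [this, hc1t, mul_one]
  rw [e1] at hBt2
  rw [show (2 : ℝ) * 1 = 2 by norm_num, one_pow, one_mul] at hcr
  linarith

/-- **KapD for the plane state** -/
theorem kapD_fin {P : Par} (hP : Small P) :
    KapD (fun r L => abT P mu0 r L) (Real.sqrt 3 / 2) :=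
  kapD_mu0 (fun r L => abT P mu0 r L) (show (0 : ℝ) < Real.sqrt 3 / 2 by positivity)
    fun ψ hψ hc ε hε b0 hb0 => low_mu0 hP hψ hc hε hb0

end

end Crest.Agent.R144.KapN761
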