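import Crest.Agent.R144.Lc2_279
import Crest.Agent.R144.Lw5_425

-- ▼ part R144/Lc3_279
section

/-!
R144 (S0197), helper279.  Block LC, file 3: exponential inequality, comparison of means,
concentration for sums over blocks.
-/

set_option autoImplicit false
set_option linter.unusedSectionVars false
set_option linter.unusedVariables false

open MeasureTheory Set
open scoped ENNReal

noncomputable section

namespace Crest.Agent.R144.Lc279

open Crest.Agent.R144.Ham560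

variable {U : Type*} [DecidableEq U] {F : Finset U} {E : Finset (U × U)} {ξ η : U → ℝ}

/-! ### Expectations -/

theorem isProb (hA : Anch F E) (hv : 0 < vr F E ξ) : IsProbabilityMeasure (hamP F E ξ) := by
  constructor
  rw [hamP, Measure.smul_apply, Measure.restrict_apply_univ, smul_eq_mul]
  refine ENNReal.inv_mul_cancel ?_ (volume_ham_lt_top hA).ne
  intro h
  rw [vr, h] at hv
  simp at hv

/-- Bounded measurable functions. -/
structure Bd (f : (U → ℝ) → ℝ) : Prop where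
  meas : Measurable f
  bdd : ∃ M, ∀ z, |f z| ≤ M

theorem Bd.const (c : ℝ) : Bd (fun _ : U → ℝ => c) := ⟨measurable_const, |c|, fun _ => le_rfl⟩

theorem Bd.add {f g : (U → ℝ) → ℝ} (hf : Bd f) (hg : Bd g) : Bd fun z => f z + g z := by
  obtain ⟨a, ha⟩ := hf.bdd
  obtain ⟨b, hb⟩ := hg.bdd
  exact ⟨hf.meas.add hg.meas, a + b, fun z => (abs_add_le _ _).trans (add_le_add (ha z) (hb z))⟩

theorem Bd.const_mul {f : (U → ℝ) → ℝ} (hf : Bd f) (c : ℝ) : Bd fun z => c * f z := by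
  obtain ⟨a, ha⟩ := hf.bdd
  refine ⟨hf.meas.const_mul c, |c| * a, fun z => ?_⟩
  rw [abs_mul]; exact mul_le_mul_of_nonneg_left (ha z) (abs_nonneg c)

theorem Bd.neg {f : (U → ℝ) → ℝ} (hf : Bd f) : Bd fun z => -f z := by
  have := hf.const_mul (-1)
  simpa using this

theorem Bd.sub {f g : (U → ℝ) → ℝ} (hf : Bd f) (hg : Bd g) : Bd fun z => f z - g z := by
  have := hf.add hg.neg
  simpa [sub_eq_add_neg] using this

theorem Bd.mul {f g : (U → ℝ) → ℝ} (hf : Bd f) (hg : Bd g) : Bd fun z => f z * g z := by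
  obtain ⟨a, ha⟩ := hf.bdd
  obtain ⟨b, hb⟩ := hg.bdd
  refine ⟨hf.meas.mul hg.meas, a * b, fun z => ?_⟩
  rw [abs_mul]
  exact mul_le_mul (ha z) (hb z) (abs_nonneg _) ((abs_nonneg _).trans (ha z))

theorem Bd.exp {f : (U → ℝ) → ℝ} (hf : Bd f) : Bd fun z => Real.exp (f z) := by
  obtain ⟨a, ha⟩ := hf.bdd
  refine ⟨Real.measurable_exp.comp hf.meas, Real.exp a, fun z => ?_⟩
  rw [abs_of_pos (Real.exp_pos _)]
  exact Real.exp_le_exp.mpr ((le_abs_self _).trans (ha z))

theorem Bd.sum {ι : Type*} {s : Finset ι} {f : ι → (U → ℝ) → ℝ} (h : ∀ i ∈ s, Bd (f i)) :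
    Bd fun z => ∑ i ∈ s, f i z := by
  classical
  induction s using Finset.induction with
  | empty => simpa using Bd.const (U := U) 0
  | @insert a s ha ih =>
    have h1 := (h a (Finset.mem_insert_self _ _)).add
      (ih fun i hi => h i (Finset.mem_insert_of_mem hi))
    simpa [Finset.sum_insert ha] using h1

theorem Bd.ind {B : Set (U → ℝ)} (hB : MeasurableSet B) : Bd (B.indicator (1 : (U → ℝ) → ℝ)) := by
  refine ⟨measurable_one.indicator hB, 1, fun z => ?_⟩
  by_cases h : z ∈ B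
  · rw [indicator_of_mem h]; simp
  · rw [indicator_of_notMem h]; simp

theorem Bd.integrableOn {f : (U → ℝ) → ℝ} (hf : Bd f) (hA : Anch F E) :
    IntegrableOn (fun x : F → ℝ => f (ext F ξ x)) (ham F E ξ) := by
  obtain ⟨M, hM⟩ := hf.bdd
  exact integrableOn_ham hA hf.meas hM

theorem Bd.integrable {f : (U → ℝ) → ℝ} (hf : Bd f) (hA : Anch F E) (hv : 0 < vr F E ξ) :
    Integrable (fun x : F → ℝ => f (ext F ξ x)) (hamP F E ξ) := by
  refine (hf.integrableOn (ξ := ξ) hA).integrable.smul_measure ?_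
  intro h
  rw [ENNReal.inv_eq_top] at h
  rw [vr, h] at hv
  simp at hv

theorem Ev_mono {f g : (U → ℝ) → ℝ} (hf : Bd f) (hg : Bd g) (hA : Anch F E)
    (hv : 0 < vr F E ξ) (h : ∀ z, f z ≤ g z) : Ev F E ξ f ≤ Ev F E ξ g :=
  integral_mono (hf.integrable hA hv) (hg.integrable hA hv) fun x => h _

theorem Ev_add {f g : (U → ℝ) → ℝ} (hf : Bd f) (hg : Bd g) (hA : Anch F E)
    (hv : 0 < vr F E ξ) : Ev F E ξ (fun z => f z + g z) = Ev F E ξ f + Ev F E ξ g :=
  integral_add (hf.integrable hA hv) (hg.integrable hA hv)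

theorem Ev_sub {f g : (U → ℝ) → ℝ} (hf : Bd f) (hg : Bd g) (hA : Anch F E)
    (hv : 0 < vr F E ξ) : Ev F E ξ (fun z => f z - g z) = Ev F E ξ f - Ev F E ξ g :=
  integral_sub (hf.integrable hA hv) (hg.integrable hA hv)

theorem Ev_const_mul (c : ℝ) (f : (U → ℝ) → ℝ) :
    Ev F E ξ (fun z => c * f z) = c * Ev F E ξ f := integral_const_mul _ _

theorem Ev_mul_const (c : ℝ) (f : (U → ℝ) → ℝ) :
    Ev F E ξ (fun z => f z * c) = Ev F E ξ f * c := integral_mul_const _ _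

theorem Ev_neg (f : (U → ℝ) → ℝ) : Ev F E ξ (fun z => -f z) = -Ev F E ξ f := integral_neg _

theorem Ev_const (hA : Anch F E) (hv : 0 < vr F E ξ) (c : ℝ) : Ev F E ξ (fun _ => c) = c := by
  have := isProb (ξ := ξ) hA hv
  unfold Ev
  simp

theorem Ev_sum {ι : Type*} {s : Finset ι} {f : ι → (U → ℝ) → ℝ} (h : ∀ i ∈ s, Bd (f i))
    (hA : Anch F E) (hv : 0 < vr F E ξ) :
    Ev F E ξ (fun z => ∑ i ∈ s, f i z) = ∑ i ∈ s, Ev F E ξ (f i) :=
  integral_finsetSum _ fun i hi => (h i hi).integrable hA hv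

theorem Ev_nonneg {f : (U → ℝ) → ℝ} (h : ∀ z, 0 ≤ f z) : 0 ≤ Ev F E ξ f :=
  integral_nonneg fun x => h _

theorem Ev_le {f : (U → ℝ) → ℝ} (hf : Bd f) (hA : Anch F E) (hv : 0 < vr F E ξ) {c : ℝ}
    (h : ∀ z, f z ≤ c) : Ev F E ξ f ≤ c := by
  have := Ev_mono hf (Bd.const c) hA hv h
  rwa [Ev_const hA hv] at this

theorem abs_Ev_le {f : (U → ℝ) → ℝ} (hf : Bd f) (hA : Anch F E) (hv : 0 < vr F E ξ) {c : ℝ}
    (h : ∀ z, |f z| ≤ c) : |Ev F E ξ f| ≤ c := by
  rw [abs_le]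
  constructor
  · have := Ev_le hf.neg hA hv (c := c) fun z => (neg_le_abs _).trans (h z)
    rw [Ev_neg] at this
    linarith
  · exact Ev_le hf hA hv fun z => (le_abs_self _).trans (h z)

/-- Jensen. -/
theorem exp_Ev_le {f : (U → ℝ) → ℝ} (hf : Bd f) (hA : Anch F E) (hv : 0 < vr F E ξ) :
    Real.exp (Ev F E ξ f) ≤ Ev F E ξ fun z => Real.exp (f z) := by
  set c := Ev F E ξ f with hc
  have h1 := Ev_mono (ξ := ξ) (f := fun z => Real.exp c * (1 - c) + Real.exp c * f z)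
    (g := fun z => Real.exp (f z)) ((Bd.const _).add (hf.const_mul _)) hf.exp hA hv ?_
  · rw [Ev_add (Bd.const _) (hf.const_mul _) hA hv, Ev_const hA hv, Ev_const_mul, ← hc] at h1
    linarith
  · intro z
    have h2 := Real.add_one_le_exp (f z - c)
    rw [Real.exp_sub] at h2
    have h3 : Real.exp c * (f z - c + 1) ≤ Real.exp (f z) := by
      have := mul_le_mul_of_nonneg_left h2 (Real.exp_pos c).le
      rwa [mul_div_cancel₀ _ (Real.exp_pos c).ne'] at this
    linarith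

theorem vr_mul_Ev (hv : 0 < vr F E ξ) (f : (U → ℝ) → ℝ) :
    vr F E ξ * Ev F E ξ f = ∫ x in ham F E ξ, f (ext F ξ x) := by
  rw [Ev_eq]; field_simp

theorem lintegral_ham_ofReal {f : (U → ℝ) → ℝ} (hf : Bd f) (h0 : ∀ z, 0 ≤ f z) (hA : Anch F E)
    (hv : 0 < vr F E ξ) : ∫⁻ x in ham F E ξ, ENNReal.ofReal (f (ext F ξ x)) =
      ENNReal.ofReal (vr F E ξ * Ev F E ξ f) := by
  rw [vr_mul_Ev hv, ofReal_integral_eq_lintegral_ofReal (hf.integrableOn hA)
    (Filter.Eventually.of_forall fun x => h0 _)]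

/-! ### The exponential inequality -/

variable {ι : Type*} [DecidableEq ι]

/-- Weighted sum of the block observables. -/
def SX (s : Finset ι) (a : ι → ℝ) (f : ι → (U → ℝ) → ℝ) (z : U → ℝ) : ℝ := ∑ i ∈ s, a i * f i z

/-- Number of bad blocks. -/
def SN (s : Finset ι) (B : ι → Set (U → ℝ)) (z : U → ℝ) : ℝ :=
  ∑ i ∈ s, (B i).indicator (1 : (U → ℝ) → ℝ) z

theorem SN_nonneg (s : Finset ι) (B : ι → Set (U → ℝ)) (z : U → ℝ) : 0 ≤ SN s B z :=
  Finset.sum_nonneg fun i _ => indicator_nonneg (fun _ _ => zero_le_one) _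


/-- A family of windows. -/
structure Fam (F : Finset U) (E : Finset (U × U)) (s : Finset ι) (Q : ι → Finset U)
    (A : ι → Set U) (f : ι → (U → ℝ) → ℝ) (B : ι → Set (U → ℝ)) (ε C : ℝ) : Prop where
  sys : Sys F E s Q A
  win : ∀ i ∈ s, Win (Q i) (tch E (Q i)) (f i) (B i) ε C
  df : ∀ i ∈ s, DependsOn (f i) (A i)
  dB : ∀ i ∈ s, DependsOn (fun z => z ∈ B i) (A i)

variable {s : Finset ι} {Q : ι → Finset U} {A : ι → Set U} {f : ι → (U → ℝ) → ℝ}
  {B : ι → Set (U → ℝ)} {ε C : ℝ}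

theorem ind_dep {A : Set U} {B : Set (U → ℝ)} (h : DependsOn (fun z => z ∈ B) A) :
    DependsOn (B.indicator (1 : (U → ℝ) → ℝ)) A := by
  intro z z' hz
  have h1 : (z ∈ B) = (z' ∈ B) := h hz
  by_cases h2 : z ∈ B
  · rw [indicator_of_mem h2, indicator_of_mem (h1 ▸ h2)]; rfl
  · rw [indicator_of_notMem h2, indicator_of_notMem (fun h3 => h2 (h1 ▸ h3))]

theorem Fam.bdX (H : Fam F E s Q A f B ε C) (a : ι → ℝ) : Bd (SX s a f) :=
  Bd.sum fun i hi => (Bd.const_mul ⟨(H.win i hi).meas, 1, (H.win i hi).bdd⟩ _)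

theorem Fam.bdN (H : Fam F E s Q A f B ε C) : Bd (SN s B) :=
  Bd.sum fun i hi => Bd.ind (H.win i hi).mB

/-- The weight `e^{t X - 2 t N}` as a product over the windows. -/
def PW (s : Finset ι) (a : ι → ℝ) (f : ι → (U → ℝ) → ℝ) (B : ι → Set (U → ℝ)) (t : ℝ)
    (z : U → ℝ) : ℝ≥0∞ :=
  ∏ i ∈ s, ENNReal.ofReal (Real.exp (t * a i * f i z - 2 * t * (B i).indicator 1 z))

theorem PW_eq (a : ι → ℝ) (t : ℝ) (z : U → ℝ) :
    PW s a f B t z = ENNReal.ofReal (Real.exp (t * SX s a f z - 2 * t * SN s B z)) := by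
  unfold PW
  rw [← ENNReal.ofReal_prod_of_nonneg fun i _ => (Real.exp_pos _).le, ← Real.exp_sum]
  congr 2
  unfold SX SN
  rw [Finset.mul_sum, Finset.mul_sum, ← Finset.sum_sub_distrib]
  exact Finset.sum_congr rfl fun i _ => by ring

theorem Fam.bdE (H : Fam F E s Q A f B ε C) (a : ι → ℝ) (t : ℝ) :
    Bd fun z => Real.exp (t * SX s a f z - 2 * t * SN s B z) :=
  (((H.bdX a).const_mul t).sub (H.bdN.const_mul (2 * t))).exp

theorem Fam.measurable_PW (H : Fam F E s Q A f B ε C) (a : ι → ℝ) (t : ℝ) :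
    Measurable (PW s a f B t) := by
  have : PW s a f B t = fun z =>
      ENNReal.ofReal (Real.exp (t * SX s a f z - 2 * t * SN s B z)) := by
    funext z; exact PW_eq a t z
  rw [this]
  exact ENNReal.measurable_ofReal.comp (H.bdE a t).meas

theorem Fam.dep_PW (H : Fam F E s Q A f B ε C) (a : ι → ℝ) (t : ℝ) {D : Set U}
    (hD : ∀ i ∈ s, A i ⊆ D) : DependsOn (PW s a f B t) D := by
  refine dep_prod fun i hi => dep_mono (A := A i) ?_ (hD i hi)
  intro z z' hz
  show ENNReal.ofReal _ = ENNReal.ofReal _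
  rw [H.df i hi hz, ind_dep (H.dB i hi) hz]

theorem Fam.J_eq (H : Fam F E s Q A f B ε C) (hA : Anch F E) (hv : 0 < vr F E ξ) (a : ι → ℝ)
    (t : ℝ) :
    J F (fun z => hI E z * PW s a f B t z) ξ =
      ENNReal.ofReal (vr F E ξ * Ev F E ξ fun z => Real.exp (t * SX s a f z - 2 * t * SN s B z)) := by
  rw [J_hI_mul, ← lintegral_ham_ofReal (H.bdE a t) (fun z => (Real.exp_pos _).le) hA hv]
  exact lintegral_congr fun x => PW_eq a t _

/-- The exponential inequality, `ℝ≥0∞` form (no positivity assumption). -/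
theorem Fam.J_two (H : Fam F E s Q A f B ε C) {a : ι → ℝ} (ha : ∀ i ∈ s, |a i| ≤ 1) {t : ℝ}
    (ht0 : 0 ≤ t) (ht1 : t ≤ 1) (htC : t * C ≤ 2) (hε : 0 ≤ ε) (ξ η : U → ℝ) :
    J F (fun z => hI E z * PW s a f B t z) ξ *
      J F (fun z => hI E z * PW s (fun i => -a i) f B t z) η ≤
      ENNReal.ofReal (Real.exp (s.card * (t * ε + 2 * t ^ 2))) *
        volume (ham F E (mid ξ η)) ^ 2 := by
  have hm : ∀ (b : ι → ℝ), ∀ i ∈ s, Measurable fun z : U → ℝ =>
      ENNReal.ofReal (Real.exp (t * b i * f i z - 2 * t * (B i).indicator 1 z)) := by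
    intro b i hi
    refine ENNReal.measurable_ofReal.comp (Real.measurable_exp.comp ?_)
    exact ((H.win i hi).meas.const_mul _).sub
      ((measurable_one.indicator (H.win i hi).mB).const_mul _)
  have hd : ∀ (b : ι → ℝ), ∀ i ∈ s, DependsOn (fun z : U → ℝ =>
      ENNReal.ofReal (Real.exp (t * b i * f i z - 2 * t * (B i).indicator 1 z))) (A i) := by
    intro b i hi z z' hz
    show ENNReal.ofReal _ = ENNReal.ofReal _
    rw [H.df i hi hz, ind_dep (H.dB i hi) hz]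
  have key := H.sys.tens (p := fun i z => ENNReal.ofReal (Real.exp (t * a i * f i z -
      2 * t * (B i).indicator 1 z)))
    (q := fun i z => ENNReal.ofReal (Real.exp (t * (-a i) * f i z -
      2 * t * (B i).indicator 1 z))) (r := fun _ _ => 1) (hm a) (hm fun i => -a i)
    (fun _ _ => measurable_const) (hd a) (hd fun i => -a i) (fun _ _ => fun _ _ _ => rfl)
    (fun _ => ENNReal.ofReal (Real.exp (t * ε + 2 * t ^ 2))) ?_ ξ η
  · have e1 : J F (fun z => hI E z * ∏ i ∈ s, (fun (_ : ι) (_ : U → ℝ) => (1 : ℝ≥0∞)) i z)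
        (mid ξ η) = volume (ham F E (mid ξ η)) := by
      rw [volume_ham]
      refine J_congr' fun x => ?_
      simp
    rw [e1, Finset.prod_const, ← ENNReal.ofReal_pow (Real.exp_pos _).le,
      ← Real.exp_nat_mul] at key
    exact key
  · intro i hi z z'
    have h3 := (H.win i hi).two (a := a i) (ha i hi) ht0 ht1 htC hε z z'
    have e1 : J (Q i) (fun z => hI (tch E (Q i)) z *
        (fun (_ : ι) (_ : U → ℝ) => (1 : ℝ≥0∞)) i z) (mid z z') =
        volume (ham (Q i) (tch E (Q i)) (mid z z')) := by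
      rw [volume_ham]
      refine J_congr' fun x => ?_
      simp
    rw [e1]
    exact h3





end Crest.Agent.R144.Lc279
end
end

-- ▼ part R144/Lc4_279
section

/-!
R144 (S0197), helper279.  Block LC, file 4: boxes inside a domain, large deviation form.

* `J_half` : scaling of the heights;
* `vol_le_zero` : zero data maximise the volume;
* `Fam.box_le` : one box with windows: `∫ e^{tX-2tN}` over the box with data `z` is at most
  `exp (n (tε+2t²) + t X̄ + 2 t N̄) * vol (ham Λ (z/2))`, `X̄, N̄` = expectations for zero data;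
* `Lev` : two-level system (boxes, windows inside the boxes);
* `Lev.ld`, `Lev.tail` : large deviation estimate for a domain with arbitrary data.
-/

set_option autoImplicit false
set_option linter.unusedSectionVars false
set_option linter.unusedVariables false

open MeasureTheory Set
open scoped ENNReal

noncomputable section

namespace Crest.Agent.R144.Lc279

open Crest.Agent.R144.Ham560

variable {U : Type*} [DecidableEq U] {F : Finset U} {E : Finset (U × U)} {ξ η : U → ℝ}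

theorem ext_half (x : F → ℝ) : ext F ((1 / 2 : ℝ) • ξ) ((1 / 2 : ℝ) • x) =
    (1 / 2 : ℝ) • ext F ξ x := by
  funext u
  by_cases hu : u ∈ F
  · rw [ext_mem hu, Pi.smul_apply, Pi.smul_apply, ext_mem hu]
  · rw [ext_notMem hu, Pi.smul_apply, Pi.smul_apply, ext_notMem hu]

theorem lintegral_half {ι : Type*} [Fintype ι] {G : (ι → ℝ) → ℝ≥0∞} (hG : Measurable G) :
    ∫⁻ x : ι → ℝ, G ((1 / 2 : ℝ) • x) = 2 ^ Fintype.card ι * ∫⁻ x, G x := by
  have h1 := Measure.map_addHaar_smul (volume : Measure (ι → ℝ)) (r := (1 / 2 : ℝ)) (by norm_num)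
  have h2 : ∫⁻ x : ι → ℝ, G ((1 / 2 : ℝ) • x) =
      ∫⁻ y, G y ∂(Measure.map (fun x : ι → ℝ => (1 / 2 : ℝ) • x) volume) :=
    (lintegral_map hG (measurable_const_smul _)).symm
  rw [h2]
  have h3 : Measure.map (fun x : ι → ℝ => (1 / 2 : ℝ) • x) volume =
      ENNReal.ofReal |((1 / 2 : ℝ) ^ Module.finrank ℝ (ι → ℝ))⁻¹| • volume := h1
  rw [h3, lintegral_smul_measure, Module.finrank_fintype_fun_eq_card, smul_eq_mul]
  congr 1
  rw [abs_of_pos (by positivity), ← inv_pow]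
  have : ((1 / 2 : ℝ))⁻¹ = 2 := by norm_num
  rw [this, ENNReal.ofReal_pow (by norm_num)]
  norm_num

theorem J_half {g : (U → ℝ) → ℝ≥0∞} (hg : Measurable g) (ξ : U → ℝ) :
    J F (fun z => g ((1 / 2 : ℝ) • z)) ξ = 2 ^ F.card * J F g ((1 / 2 : ℝ) • ξ) := by
  unfold J
  have h := lintegral_half (ι := F) (G := fun x => g (ext F ((1 / 2 : ℝ) • ξ) x))
    (hg.comp (measurable_ext F _))
  rw [Fintype.card_coe] at h
  rw [← h]
  exact lintegral_congr fun x => by rw [ext_half]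

theorem vol_ham_neg : volume (ham F E (-ξ)) = volume (ham F E ξ) := by
  rw [← vol_neg (ham F E ξ)]
  congr 1
  ext x
  rw [Set.mem_neg]
  constructor
  · intro h
    have := ham_neg h
    rwa [neg_neg] at this
  · intro h
    have := ham_neg h
    rwa [neg_neg] at this

/-- Zero data maximise the volume. -/
theorem vol_le_zero (ξ : U → ℝ) : volume (ham F E ξ) ≤ volume (ham F E 0) := by
  have h := vol_mul_le_mid (F := F) (E := E) (ξ := ξ) (η := -ξ)
  have h0 : mid ξ (-ξ) = 0 := by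
    funext u; rw [mid_apply]; simp
  rw [h0, vol_ham_neg, ← sq] at h
  exact (ENNReal.pow_le_pow_left_iff (by norm_num)).mp h

theorem vr_zero_pos (hA : Anch F E) : 0 < vr F E 0 :=
  ENNReal.toReal_pos (volume_ham_ne_zero fun u => by simp) (volume_ham_lt_top hA).ne

theorem mid_zero (z : U → ℝ) : mid z 0 = (1 / 2 : ℝ) • z := by
  funext u; rw [mid_apply]; simp; ring

variable {ι : Type*} [DecidableEq ι] {s : Finset ι} {Q : ι → Finset U} {A : ι → Set U}
  {f : ι → (U → ℝ) → ℝ} {B : ι → Set (U → ℝ)} {ε C : ℝ}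

theorem SX_neg (a : ι → ℝ) (z : U → ℝ) : SX s (fun i => -a i) f z = -SX s a f z := by
  unfold SX
  rw [← Finset.sum_neg_distrib]
  exact Finset.sum_congr rfl fun i _ => by ring

/-- One box. -/
theorem Fam.box_le (H : Fam F E s Q A f B ε C) (hA : Anch F E) {a : ι → ℝ}
    (ha : ∀ i ∈ s, |a i| ≤ 1) {t : ℝ} (ht0 : 0 ≤ t) (ht1 : t ≤ 1) (htC : t * C ≤ 2) (hε : 0 ≤ ε)
    (z : U → ℝ) :
    J F (fun z => hI E z * PW s a f B t z) z ≤
      ENNReal.ofReal (Real.exp (s.card * (t * ε + 2 * t ^ 2) + t * Ev F E 0 (SX s a f) +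
        2 * t * Ev F E 0 (SN s B))) * volume (ham F E ((1 / 2 : ℝ) • z)) := by
  have h0 := vr_zero_pos hA
  have key := H.J_two ha ht0 ht1 htC hε z 0
  rw [mid_zero, H.J_eq hA h0 (fun i => -a i)] at key
  set I := J F (fun z => hI E z * PW s a f B t z) z with hI'
  set X0 := Ev F E 0 (SX s a f) with hX0
  set N0 := Ev F E 0 (SN s B) with hN0
  set c := s.card * (t * ε + 2 * t ^ 2) with hc
  have b2 : Bd fun z : U → ℝ => t * SX s (fun i => -a i) f z - 2 * t * SN s B z :=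
    ((H.bdX _).const_mul t).sub (H.bdN.const_mul (2 * t))
  have j2 := exp_Ev_le (ξ := 0) b2 hA h0
  have e1 : Ev F E 0 (fun z : U → ℝ => t * SX s (fun i => -a i) f z - 2 * t * SN s B z) =
      -(t * X0 + 2 * t * N0) := by
    rw [Ev_sub ((H.bdX _).const_mul t) (H.bdN.const_mul (2 * t)) hA h0, Ev_const_mul,
      Ev_const_mul]
    have : SX s (fun i => -a i) f = fun z => -SX s a f z := by funext z; exact SX_neg a z
    rw [this, Ev_neg]
    ring
  rw [e1] at j2
  have h1 : I * (ENNReal.ofReal (vr F E 0) * ENNReal.ofReal (Real.exp (-(t * X0 + 2 * t * N0)))) ≤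
      ENNReal.ofReal (Real.exp c) * (volume (ham F E ((1 / 2 : ℝ) • z)) *
        ENNReal.ofReal (vr F E 0)) := by
    calc _ ≤ I * ENNReal.ofReal (vr F E 0 * Ev F E 0 fun z =>
          Real.exp (t * SX s (fun i => -a i) f z - 2 * t * SN s B z)) := by
          gcongr
          rw [← ENNReal.ofReal_mul h0.le]
          exact ENNReal.ofReal_le_ofReal (mul_le_mul_of_nonneg_left j2 h0.le)
      _ ≤ _ := key
      _ ≤ _ := by
          rw [sq, ofReal_vr hA]
          exact mul_le_mul' le_rfl (mul_le_mul' le_rfl (vol_le_zero _))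
  have hv0 : ENNReal.ofReal (vr F E 0) ≠ 0 := by
    rw [ne_eq, ENNReal.ofReal_eq_zero, not_le]; exact h0
  have h2 : I * ENNReal.ofReal (Real.exp (-(t * X0 + 2 * t * N0))) ≤
      ENNReal.ofReal (Real.exp c) * volume (ham F E ((1 / 2 : ℝ) • z)) := by
    rw [← ENNReal.mul_le_mul_iff_left hv0 ENNReal.ofReal_ne_top]
    calc _ = I * (ENNReal.ofReal (vr F E 0) *
          ENNReal.ofReal (Real.exp (-(t * X0 + 2 * t * N0)))) := by ring
      _ ≤ _ := h1
      _ = _ := by ring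
  have e2 : ENNReal.ofReal (Real.exp (-(t * X0 + 2 * t * N0))) *
      ENNReal.ofReal (Real.exp (t * X0 + 2 * t * N0)) = 1 := by
    rw [← ENNReal.ofReal_mul (Real.exp_pos _).le, ← Real.exp_add]
    simp
  calc I = I * ENNReal.ofReal (Real.exp (-(t * X0 + 2 * t * N0))) *
        ENNReal.ofReal (Real.exp (t * X0 + 2 * t * N0)) := by rw [mul_assoc, e2, mul_one]
    _ ≤ ENNReal.ofReal (Real.exp c) * volume (ham F E ((1 / 2 : ℝ) • z)) *
        ENNReal.ofReal (Real.exp (t * X0 + 2 * t * N0)) := by gcongr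
    _ = ENNReal.ofReal (Real.exp c) * ENNReal.ofReal (Real.exp (t * X0 + 2 * t * N0)) *
        volume (ham F E ((1 / 2 : ℝ) • z)) := by ring
    _ = _ := by
        rw [← ENNReal.ofReal_mul (Real.exp_pos _).le, ← Real.exp_add]
        congr 3
        ring

/-! ### Two levels -/

variable {κ : Type*} [DecidableEq κ]

/-- Boxes `Λ j`, `j ∈ σ`, with windows `Q j i`, `i ∈ s j`, inside. -/
structure Lev (F : Finset U) (E : Finset (U × U)) (σ : Finset κ) (Λ : κ → Finset U)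
    (D : κ → Set U) (s : κ → Finset ι) (Q : κ → ι → Finset U) (A : κ → ι → Set U)
    (f : κ → ι → (U → ℝ) → ℝ) (B : κ → ι → Set (U → ℝ)) (ε C : ℝ) : Prop where
  out : Sys F E σ Λ D
  anch : ∀ j ∈ σ, Anch (Λ j) (tch E (Λ j))
  fam : ∀ j ∈ σ, Fam (Λ j) (tch E (Λ j)) (s j) (Q j) (A j) (f j) (B j) ε C
  sub : ∀ j ∈ σ, ∀ i ∈ s j, A j i ⊆ D j

variable {σ : Finset κ} {Λ : κ → Finset U} {D : κ → Set U} {s : κ → Finset ι}
  {Q : κ → ι → Finset U} {A : κ → ι → Set U} {f : κ → ι → (U → ℝ) → ℝ}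
  {B : κ → ι → Set (U → ℝ)}

/-- Total observable. -/
def TX (σ : Finset κ) (s : κ → Finset ι) (a : κ → ι → ℝ) (f : κ → ι → (U → ℝ) → ℝ)
    (z : U → ℝ) : ℝ := ∑ j ∈ σ, SX (s j) (a j) (f j) z

/-- Total number of bad windows. -/
def TN (σ : Finset κ) (s : κ → Finset ι) (B : κ → ι → Set (U → ℝ)) (z : U → ℝ) : ℝ :=
  ∑ j ∈ σ, SN (s j) (B j) z

/-- Number of windows. -/
def TC (σ : Finset κ) (s : κ → Finset ι) : ℝ := ∑ j ∈ σ, ((s j).card : ℝ)

/-- Reference value of the observable (zero data on the boxes). -/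
def RX (E : Finset (U × U)) (σ : Finset κ) (Λ : κ → Finset U) (s : κ → Finset ι)
    (a : κ → ι → ℝ) (f : κ → ι → (U → ℝ) → ℝ) : ℝ :=
  ∑ j ∈ σ, Ev (Λ j) (tch E (Λ j)) 0 (SX (s j) (a j) (f j))

/-- Reference value of the number of bad windows. -/
def RN (E : Finset (U × U)) (σ : Finset κ) (Λ : κ → Finset U) (s : κ → Finset ι)
    (B : κ → ι → Set (U → ℝ)) : ℝ :=
  ∑ j ∈ σ, Ev (Λ j) (tch E (Λ j)) 0 (SN (s j) (B j))

/-- **Large deviation form.** -/
theorem Lev.ld (H : Lev F E σ Λ D s Q A f B ε C) {a : κ → ι → ℝ}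
    (ha : ∀ j ∈ σ, ∀ i ∈ s j, |a j i| ≤ 1) {t : ℝ} (ht0 : 0 ≤ t) (ht1 : t ≤ 1)
    (htC : t * C ≤ 2) (hε : 0 ≤ ε) (ξ : U → ℝ) :
    ∫⁻ x in ham F E ξ, ENNReal.ofReal (Real.exp (t * TX σ s a f (ext F ξ x) -
        2 * t * TN σ s B (ext F ξ x))) ≤
      ENNReal.ofReal (Real.exp (TC σ s * (t * ε + 2 * t ^ 2) + t * RX E σ Λ s a f +
        2 * t * RN E σ Λ s B)) * (2 ^ (F \ σ.biUnion Λ).card * volume (ham F E 0)) := by
  set S := F \ σ.biUnion Λ with hS
  have e0 : ∫⁻ x in ham F E ξ, ENNReal.ofReal (Real.exp (t * TX σ s a f (ext F ξ x) -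
        2 * t * TN σ s B (ext F ξ x))) =
      J F (fun z => hI E z * ∏ j ∈ σ, PW (s j) (a j) (f j) (B j) t z) ξ := by
    rw [J_hI_mul]
    refine lintegral_congr fun x => ?_
    have : ∏ j ∈ σ, PW (s j) (a j) (f j) (B j) t (ext F ξ x) =
        ∏ j ∈ σ, ENNReal.ofReal (Real.exp (t * SX (s j) (a j) (f j) (ext F ξ x) -
          2 * t * SN (s j) (B j) (ext F ξ x))) :=
      Finset.prod_congr rfl fun j _ => PW_eq _ _ _
    rw [this, ← ENNReal.ofReal_prod_of_nonneg fun i _ => (Real.exp_pos _).le, ← Real.exp_sum]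
    congr 2
    unfold TX TN
    rw [Finset.mul_sum, Finset.mul_sum, ← Finset.sum_sub_distrib]
  rw [e0, H.out.J_eq _ (fun j hj => (H.fam j hj).measurable_PW _ _)
    (fun j hj => (H.fam j hj).dep_PW _ _ (H.sub j hj))]
  set cj : κ → ℝ := fun j => (s j).card * (t * ε + 2 * t ^ 2) +
    t * Ev (Λ j) (tch E (Λ j)) 0 (SX (s j) (a j) (f j)) +
    2 * t * Ev (Λ j) (tch E (Λ j)) 0 (SN (s j) (B j)) with hcj
  have hsum : ∑ j ∈ σ, cj j = TC σ s * (t * ε + 2 * t ^ 2) + t * RX E σ Λ s a f +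
      2 * t * RN E σ Λ s B := by
    simp only [hcj, Finset.sum_add_distrib, TC, RX, RN, Finset.mul_sum, Finset.sum_mul]
  set g : (U → ℝ) → ℝ≥0∞ := fun z => hI (far E (σ.biUnion Λ)) z *
    ∏ j ∈ σ, J (Λ j) (fun z => hI (tch E (Λ j)) z * 1) z with hg
  have hgm : Measurable g := (measurable_hI _).mul (Finset.measurable_prod _ fun j _ =>
    measurable_J ((measurable_hI _).mul measurable_const))
  have h1 : J S (fun z => hI (far E (σ.biUnion Λ)) z *
      ∏ j ∈ σ, J (Λ j) (fun z => hI (tch E (Λ j)) z * PW (s j) (a j) (f j) (B j) t z) z) ξ ≤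
      J S (fun z => ENNReal.ofReal (Real.exp (∑ j ∈ σ, cj j)) * g ((1 / 2 : ℝ) • z)) ξ := by
    refine J_mono fun x => ?_
    set z := ext S ξ x
    have h2 : ∏ j ∈ σ, J (Λ j) (fun z => hI (tch E (Λ j)) z * PW (s j) (a j) (f j) (B j) t z) z ≤
        ∏ j ∈ σ, (ENNReal.ofReal (Real.exp (cj j)) *
          J (Λ j) (fun z => hI (tch E (Λ j)) z * 1) ((1 / 2 : ℝ) • z)) := by
      refine Finset.prod_le_prod' fun j hj => ?_
      have h3 := (H.fam j hj).box_le (H.anch j hj) (ha j hj) ht0 ht1 htC hε z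
      have e3 : J (Λ j) (fun z => hI (tch E (Λ j)) z * 1) ((1 / 2 : ℝ) • z) =
          volume (ham (Λ j) (tch E (Λ j)) ((1 / 2 : ℝ) • z)) := by
        rw [volume_ham]; exact J_congr' fun x => mul_one _
      rw [e3]
      exact h3
    have h4 : hI (far E (σ.biUnion Λ)) z ≤ hI (far E (σ.biUnion Λ)) ((1 / 2 : ℝ) • z) := by
      by_cases hz : z ∈ HS (far E (σ.biUnion Λ))
      · have : (1 / 2 : ℝ) • z ∈ HS (far E (σ.biUnion Λ)) := by
          intro p hp
          have h5 := abs_le.mp (hz p hp)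
          simp only [Pi.smul_apply, smul_eq_mul]
          rw [abs_le]; constructor <;> linarith
        rw [hI_of_mem hz, hI_of_mem this]
      · rw [hI_of_notMem hz]; exact bot_le
    rw [Finset.prod_mul_distrib, ← ENNReal.ofReal_prod_of_nonneg fun i _ => (Real.exp_pos _).le,
      ← Real.exp_sum] at h2
    calc _ ≤ hI (far E (σ.biUnion Λ)) ((1 / 2 : ℝ) • z) *
          (ENNReal.ofReal (Real.exp (∑ j ∈ σ, cj j)) *
            ∏ j ∈ σ, J (Λ j) (fun z => hI (tch E (Λ j)) z * 1) ((1 / 2 : ℝ) • z)) :=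
          mul_le_mul' h4 h2
      _ = _ := by rw [hg]; ring
  refine h1.trans ?_
  have e4 : J S (fun z => ENNReal.ofReal (Real.exp (∑ j ∈ σ, cj j)) * g ((1 / 2 : ℝ) • z)) ξ =
      ENNReal.ofReal (Real.exp (∑ j ∈ σ, cj j)) * J S (fun z => g ((1 / 2 : ℝ) • z)) ξ := by
    unfold J
    exact lintegral_const_mul _ ((hgm.comp (measurable_const_smul _)).comp (measurable_ext _ _))
  rw [e4, J_half hgm, hsum]
  gcongr
  have e5 : J S g ((1 / 2 : ℝ) • ξ) = volume (ham F E ((1 / 2 : ℝ) • ξ)) := by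
    have h6 := H.out.J_eq (fun _ _ => 1) (fun _ _ => measurable_const)
      (fun _ _ => fun _ _ _ => rfl) ((1 / 2 : ℝ) • ξ)
    rw [← h6, volume_ham]
    refine J_congr' fun x => ?_
    simp
  rw [e5]
  exact vol_le_zero _

theorem Lev.bdX (H : Lev F E σ Λ D s Q A f B ε C) (a : κ → ι → ℝ) : Bd (TX σ s a f) :=
  Bd.sum fun j hj => (H.fam j hj).bdX _

theorem Lev.bdN (H : Lev F E σ Λ D s Q A f B ε C) : Bd (TN σ s B) :=
  Bd.sum fun j hj => (H.fam j hj).bdN

/-- Upper tail of the observable on the event of few bad windows. -/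
theorem Lev.tail (H : Lev F E σ Λ D s Q A f B ε C) {a : κ → ι → ℝ}
    (ha : ∀ j ∈ σ, ∀ i ∈ s j, |a j i| ≤ 1) {t : ℝ} (ht0 : 0 ≤ t) (ht1 : t ≤ 1)
    (htC : t * C ≤ 2) (hε : 0 ≤ ε) (ξ : U → ℝ) (u v : ℝ) :
    volume (ham F E ξ ∩ {x | u ≤ TX σ s a f (ext F ξ x) - RX E σ Λ s a f ∧
        TN σ s B (ext F ξ x) ≤ v}) ≤
      ENNReal.ofReal (Real.exp (-(t * u) + 2 * t * v + TC σ s * (t * ε + 2 * t ^ 2) +
        2 * t * RN E σ Λ s B)) * (2 ^ (F \ σ.biUnion Λ).card * volume (ham F E 0)) := by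
  have key := H.ld ha ht0 ht1 htC hε ξ
  set R := RX E σ Λ s a f with hR
  set c := TC σ s * (t * ε + 2 * t ^ 2) with hc
  set N := RN E σ Λ s B with hN
  set V : Set (F → ℝ) := {x | u ≤ TX σ s a f (ext F ξ x) - R ∧ TN σ s B (ext F ξ x) ≤ v} with hV
  have hVm : MeasurableSet V :=
    (measurableSet_le measurable_const (((H.bdX a).meas.comp (measurable_ext F ξ)).sub_const R)).inter
      (measurableSet_le ((H.bdN).meas.comp (measurable_ext F ξ)) measurable_const)
  have h1 : ENNReal.ofReal (Real.exp (t * (R + u) - 2 * t * v)) * volume (ham F E ξ ∩ V) ≤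
      ∫⁻ x in ham F E ξ, ENNReal.ofReal (Real.exp (t * TX σ s a f (ext F ξ x) -
        2 * t * TN σ s B (ext F ξ x))) := by
    rw [← setLIntegral_const]
    calc _ ≤ ∫⁻ x in ham F E ξ ∩ V, ENNReal.ofReal (Real.exp (t * TX σ s a f (ext F ξ x) -
        2 * t * TN σ s B (ext F ξ x))) := by
          refine setLIntegral_mono' (measurableSet_ham.inter hVm) fun x hx => ?_
          refine ENNReal.ofReal_le_ofReal (Real.exp_le_exp.mpr ?_)
          obtain ⟨_, h2, h3⟩ := hx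
          nlinarith
      _ ≤ _ := lintegral_mono_set inter_subset_left
  have h2 := h1.trans key
  set W : ℝ≥0∞ := 2 ^ (F \ σ.biUnion Λ).card * volume (ham F E 0) with hW
  have e1 : ENNReal.ofReal (Real.exp (-(t * (R + u) - 2 * t * v))) *
      ENNReal.ofReal (Real.exp (t * (R + u) - 2 * t * v)) = 1 := by
    rw [← ENNReal.ofReal_mul (Real.exp_pos _).le, ← Real.exp_add]
    simp
  calc volume (ham F E ξ ∩ V) = ENNReal.ofReal (Real.exp (-(t * (R + u) - 2 * t * v))) *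
        (ENNReal.ofReal (Real.exp (t * (R + u) - 2 * t * v)) * volume (ham F E ξ ∩ V)) := by
        rw [← mul_assoc, e1, one_mul]
    _ ≤ ENNReal.ofReal (Real.exp (-(t * (R + u) - 2 * t * v))) *
        (ENNReal.ofReal (Real.exp (c + t * R + 2 * t * N)) * W) := by gcongr
    _ = _ := by
        rw [← mul_assoc, ← ENNReal.ofReal_mul (Real.exp_pos _).le, ← Real.exp_add]
        congr 3
        ring

end Crest.Agent.R144.Lc279
end
end

-- ▼ part R144/Lc5_279
section

/-!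
R144 (S0197), helper279.  Block LC, file 5: mesoscopic large deviations (number of boxes in which the
box average of the observable deviates from its reference value).
-/

set_option autoImplicit false
set_option linter.unusedSectionVars false
set_option linter.unusedVariables false

open MeasureTheory Set
open scoped ENNReal

noncomputable section

namespace Crest.Agent.R144.Lc279

open Crest.Agent.R144.Ham560

variable {U : Type*} [DecidableEq U] {F : Finset U} {E : Finset (U × U)} {ξ η : U → ℝ}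
variable {ι : Type*} [DecidableEq ι] {κ : Type*} [DecidableEq κ] {ε C : ℝ}
variable {σ : Finset κ} {Λ : κ → Finset U} {D : κ → Set U} {s : κ → Finset ι}
  {Q : κ → ι → Finset U} {A : κ → ι → Set U} {f : κ → ι → (U → ℝ) → ℝ}
  {B : κ → ι → Set (U → ℝ)}

/-- Windows only in the boxes of `T`. -/
def sJ (T : Finset κ) (s : κ → Finset ι) (j : κ) : Finset ι := if j ∈ T then s j else ∅

theorem Lev.restrict (H : Lev F E σ Λ D s Q A f B ε C) (T : Finset κ) :
    Lev F E σ Λ D (sJ T s) Q A f B ε C := by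
  have hsub : ∀ j, sJ T s j ⊆ s j := by
    intro j; unfold sJ; split_ifs
    · exact subset_rfl
    · exact Finset.empty_subset _
  refine ⟨H.out, H.anch, fun j hj => ?_, fun j hj i hi => H.sub j hj i (hsub j hi)⟩
  have h := H.fam j hj
  exact ⟨⟨fun i hi => h.sys.sub i (hsub j hi), fun i hi => h.sys.QA i (hsub j hi),
    fun i hi k hk => h.sys.disj i (hsub j hi) k (hsub j hk),
    fun i hi => h.sys.edge i (hsub j hi)⟩, fun i hi => h.win i (hsub j hi),
    fun i hi => h.df i (hsub j hi), fun i hi => h.dB i (hsub j hi)⟩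

theorem sum_sJ {T : Finset κ} (hT : T ⊆ σ) (g : κ → Finset ι → ℝ) (h0 : ∀ j, g j ∅ = 0) :
    ∑ j ∈ σ, g j (sJ T s j) = ∑ j ∈ T, g j (s j) := by
  rw [← Finset.sum_subset hT]
  · exact Finset.sum_congr rfl fun j hj => by rw [sJ, if_pos hj]
  · intro j _ hj
    rw [sJ, if_neg hj, h0]

/-- Deviation in all boxes of `T`. -/
theorem Lev.joint (H : Lev F E σ Λ D s Q A f B ε C) {a : κ → ι → ℝ}
    (ha : ∀ j ∈ σ, ∀ i ∈ s j, |a j i| ≤ 1) {t : ℝ} (ht0 : 0 ≤ t) (ht1 : t ≤ 1)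
    (htC : t * C ≤ 2) (hε : 0 ≤ ε) (ξ : U → ℝ) {n : ℕ} (hn : ∀ j ∈ σ, (s j).card = n) {q0 : ℝ}
    (hq0 : ∀ j ∈ σ, Ev (Λ j) (tch E (Λ j)) 0 (SN (s j) (B j)) ≤ q0 * n) (u v : ℝ)
    {T : Finset κ} (hT : T ⊆ σ) :
    volume (ham F E ξ ∩ {x | ∀ j ∈ T, u * n ≤ SX (s j) (a j) (f j) (ext F ξ x) -
        Ev (Λ j) (tch E (Λ j)) 0 (SX (s j) (a j) (f j)) ∧ SN (s j) (B j) (ext F ξ x) ≤ v * n}) ≤
      ENNReal.ofReal (Real.exp (-(t * n * (u - 2 * v - ε - 2 * t - 2 * q0) * T.card))) *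
        (2 ^ (F \ σ.biUnion Λ).card * volume (ham F E 0)) := by
  have H' := H.restrict T
  have ha' : ∀ j ∈ σ, ∀ i ∈ sJ T s j, |a j i| ≤ 1 := by
    intro j hj i hi
    unfold sJ at hi
    split_ifs at hi with h
    · exact ha j hj i hi
    · simp at hi
  have key := H'.tail ha' ht0 ht1 htC hε ξ (u * n * T.card) (v * n * T.card)
  have eX : ∀ z, TX σ (sJ T s) a f z = ∑ j ∈ T, SX (s j) (a j) (f j) z := fun z =>
    sum_sJ hT (fun j w => SX w (a j) (f j) z) fun j => by simp [SX]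
  have eN : ∀ z, TN σ (sJ T s) B z = ∑ j ∈ T, SN (s j) (B j) z := fun z =>
    sum_sJ hT (fun j w => SN w (B j) z) fun j => by simp [SN]
  have eRX : RX E σ Λ (sJ T s) a f =
      ∑ j ∈ T, Ev (Λ j) (tch E (Λ j)) 0 (SX (s j) (a j) (f j)) :=
    sum_sJ hT (fun j w => Ev (Λ j) (tch E (Λ j)) 0 (SX w (a j) (f j))) fun j => by
      have : (SX ∅ (a j) (f j)) = fun _ : U → ℝ => (0 : ℝ) := by funext z; simp [SX]
      rw [this]
      simp [Ev]
  have eRN : RN E σ Λ (sJ T s) B = ∑ j ∈ T, Ev (Λ j) (tch E (Λ j)) 0 (SN (s j) (B j)) :=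
    sum_sJ hT (fun j w => Ev (Λ j) (tch E (Λ j)) 0 (SN w (B j))) fun j => by
      have : (SN ∅ (B j)) = fun _ : U → ℝ => (0 : ℝ) := by funext z; simp [SN]
      rw [this]
      simp [Ev]
  have eC : TC σ (sJ T s) = n * T.card := by
    unfold TC
    rw [sum_sJ hT (fun j w => (w.card : ℝ)) fun j => by simp]
    rw [Finset.sum_congr rfl fun j hj => by rw [hn j (hT hj)]]
    rw [Finset.sum_const, nsmul_eq_mul]; ring
  refine (measure_mono ?_).trans (key.trans ?_)
  · rintro x ⟨hx, hx'⟩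
    refine ⟨hx, ?_, ?_⟩
    · rw [eX, eRX, ← Finset.sum_sub_distrib]
      calc u * n * T.card = ∑ j ∈ T, u * n := by rw [Finset.sum_const, nsmul_eq_mul]; ring
        _ ≤ _ := Finset.sum_le_sum fun j hj => (hx' j hj).1
    · rw [eN]
      calc _ ≤ ∑ j ∈ T, v * n := Finset.sum_le_sum fun j hj => (hx' j hj).2
        _ = v * n * T.card := by rw [Finset.sum_const, nsmul_eq_mul]; ring
  · gcongr
    rw [eC, eRN]
    have h1 : ∑ j ∈ T, Ev (Λ j) (tch E (Λ j)) 0 (SN (s j) (B j)) ≤ q0 * n * T.card := by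
      calc _ ≤ ∑ j ∈ T, q0 * n := Finset.sum_le_sum fun j hj => hq0 j (hT hj)
        _ = _ := by rw [Finset.sum_const, nsmul_eq_mul]; ring
    nlinarith

/-- Number of boxes of `σ` in which `z` lies in `P j`. -/
def cnt (σ : Finset κ) (P : κ → Set (U → ℝ)) (z : U → ℝ) : ℕ := {j | j ∈ σ ∧ z ∈ P j}.ncard

theorem cnt_eq (σ : Finset κ) (P : κ → Set (U → ℝ)) (z : U → ℝ) [DecidablePred fun j => z ∈ P j] :
    cnt σ P z = (σ.filter fun j => z ∈ P j).card := by
  unfold cnt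
  rw [← Set.ncard_coe_finset]
  congr 1
  ext j
  simp

theorem cnt_mono {P P' : κ → Set (U → ℝ)} (h : ∀ j ∈ σ, P j ⊆ P' j) (z : U → ℝ) :
    cnt σ P z ≤ cnt σ P' z := by
  classical
  rw [cnt_eq, cnt_eq]
  refine Finset.card_le_card fun j hj => ?_
  rw [Finset.mem_filter] at hj ⊢
  exact ⟨hj.1, h j hj.1 hj.2⟩

theorem cnt_union_le {P P' : κ → Set (U → ℝ)} (z : U → ℝ) :
    cnt σ (fun j => P j ∪ P' j) z ≤ cnt σ P z + cnt σ P' z := by
  classical
  rw [cnt_eq, cnt_eq, cnt_eq]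
  refine (Finset.card_le_card ?_).trans (Finset.card_union_le _ _)
  intro j hj
  rw [Finset.mem_filter] at hj
  rw [Finset.mem_union, Finset.mem_filter, Finset.mem_filter]
  rcases hj.2 with h | h
  · exact Or.inl ⟨hj.1, h⟩
  · exact Or.inr ⟨hj.1, h⟩

theorem cnt_iUnion_le {γ : Type*} (c : Finset γ) {P : γ → κ → Set (U → ℝ)} (z : U → ℝ) :
    cnt σ (fun j => ⋃ g ∈ c, P g j) z ≤ ∑ g ∈ c, cnt σ (P g) z := by
  classical
  induction c using Finset.induction with
  | empty =>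
    rw [Finset.sum_empty, nonpos_iff_eq_zero, cnt_eq, Finset.card_eq_zero]
    simp
  | @insert g c hg ih =>
    rw [Finset.sum_insert hg]
    have e : (fun j => ⋃ g' ∈ insert g c, P g' j) = fun j => P g j ∪ ⋃ g' ∈ c, P g' j := by
      funext j; rw [Finset.set_biUnion_insert]
    rw [e]
    exact (cnt_union_le z).trans (Nat.add_le_add_left ih _)

/-- **Mesoscopic large deviations**, one-sided: number of boxes with a deviation and few bad
windows. -/
theorem Lev.meso (H : Lev F E σ Λ D s Q A f B ε C) {a : κ → ι → ℝ}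
    (ha : ∀ j ∈ σ, ∀ i ∈ s j, |a j i| ≤ 1) {t : ℝ} (ht0 : 0 ≤ t) (ht1 : t ≤ 1)
    (htC : t * C ≤ 2) (hε : 0 ≤ ε) (ξ : U → ℝ) {n : ℕ} (hn : ∀ j ∈ σ, (s j).card = n) {q0 : ℝ}
    (hq0 : ∀ j ∈ σ, Ev (Λ j) (tch E (Λ j)) 0 (SN (s j) (B j)) ≤ q0 * n)
    {u v : ℝ} (hr : 0 ≤ u - 2 * v - ε - 2 * t - 2 * q0) (k : ℕ) :
    volume (ham F E ξ ∩ {x | k ≤ cnt σ (fun j => {z | u * n ≤ SX (s j) (a j) (f j) z -
        Ev (Λ j) (tch E (Λ j)) 0 (SX (s j) (a j) (f j)) ∧ SN (s j) (B j) z ≤ v * n})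
          (ext F ξ x)}) ≤
      2 ^ σ.card * ENNReal.ofReal (Real.exp (-(t * n * (u - 2 * v - ε - 2 * t - 2 * q0) * k))) *
        2 ^ (F \ σ.biUnion Λ).card * volume (ham F E 0) := by
  classical
  set Cj : κ → Set (U → ℝ) := fun j => {z | u * n ≤ SX (s j) (a j) (f j) z -
    Ev (Λ j) (tch E (Λ j)) 0 (SX (s j) (a j) (f j)) ∧ SN (s j) (B j) z ≤ v * n} with hCj
  set ρ := u - 2 * v - ε - 2 * t - 2 * q0 with hρ
  have hsub : ham F E ξ ∩ {x | k ≤ cnt σ Cj (ext F ξ x)} ⊆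
      (⋃ T ∈ σ.powerset.filter (fun T => k ≤ T.card),
        (ham F E ξ ∩ {x | ∀ j ∈ T, u * n ≤ SX (s j) (a j) (f j) (ext F ξ x) -
        Ev (Λ j) (tch E (Λ j)) 0 (SX (s j) (a j) (f j)) ∧
          SN (s j) (B j) (ext F ξ x) ≤ v * n})) := by
    rintro x ⟨hx, h3⟩
    have h3' : k ≤ cnt σ Cj (ext F ξ x) := h3
    rw [cnt_eq] at h3'
    simp only [mem_iUnion]
    refine ⟨σ.filter fun j => ext F ξ x ∈ Cj j, Finset.mem_filter.mpr
      ⟨Finset.mem_powerset.mpr (Finset.filter_subset _ _), h3'⟩, hx, fun j hj => ?_⟩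
    exact (Finset.mem_filter.mp hj).2
  refine (measure_mono hsub).trans ?_
  refine (measure_biUnion_finset_le _ _).trans ?_
  have h1 : ∀ T ∈ σ.powerset.filter (fun T => k ≤ T.card),
      volume (ham F E ξ ∩ {x | ∀ j ∈ T, u * n ≤ SX (s j) (a j) (f j) (ext F ξ x) -
        Ev (Λ j) (tch E (Λ j)) 0 (SX (s j) (a j) (f j)) ∧
          SN (s j) (B j) (ext F ξ x) ≤ v * n}) ≤
      ENNReal.ofReal (Real.exp (-(t * n * ρ * k))) *
        (2 ^ (F \ σ.biUnion Λ).card * volume (ham F E 0)) := by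
    intro T hT
    rw [Finset.mem_filter, Finset.mem_powerset] at hT
    refine (H.joint ha ht0 ht1 htC hε ξ hn hq0 u v hT.1).trans ?_
    gcongr ENNReal.ofReal (Real.exp ?_) * _
    have h2 : (k : ℝ) ≤ T.card := by exact_mod_cast hT.2
    have h3 : 0 ≤ t * n * ρ := by positivity
    nlinarith
  refine (Finset.sum_le_card_nsmul _ _ _ h1).trans ?_
  rw [nsmul_eq_mul]
  have h2 : (((σ.powerset.filter fun T => k ≤ T.card).card : ℕ) : ℝ≥0∞) ≤ 2 ^ σ.card := by
    have : (σ.powerset.filter fun T => k ≤ T.card).card ≤ 2 ^ σ.card := by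
      rw [← Finset.card_powerset]; exact Finset.card_filter_le _ _
    exact_mod_cast this
  calc _ ≤ 2 ^ σ.card * (ENNReal.ofReal (Real.exp (-(t * n * ρ * k))) *
        (2 ^ (F \ σ.biUnion Λ).card * volume (ham F E 0))) := mul_le_mul' h2 le_rfl
    _ = _ := by ring

end Crest.Agent.R144.Lc279
end
end

-- ▼ part R144/Lc6_279

/-!
R144 (S0197), helper279.  Block LC, file 6: lattice edges and transport.

* `lat W` : the edges of the triangular lattice touching `W` (both orientations);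
* `Place` : a map `φ : V → U` injective on a set `D` which identifies the configurations of two systems;
* `Place.J_eq`, `Place.vr_eq`, `Place.Dl_eq`, `Place.Ev_eq`, `Place.win` : transport.
-/

set_option autoImplicit false
set_option linter.unusedSectionVars false
set_option linter.unusedVariables false

open MeasureTheory Set
open scoped ENNReal

noncomputable section

namespace Crest.Agent.R144.Lc279

open Crest.Agent.R144.Ham560
open Crest.Agent.R144.Lw425 (hd hd_comm hd_le_iff mem_hball hball mem_inn inn mem_sph sph hd_self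
  hd_triangle hd_pos hd_adj)

/-! ### Lattice edges -/

abbrev P2 := ℤ × ℤ

/-- The six neighbours. -/
def nb6 (v : P2) : Finset P2 :=
  {(v.1 + 1, v.2), (v.1 - 1, v.2), (v.1, v.2 + 1), (v.1, v.2 - 1), (v.1 + 1, v.2 - 1),
    (v.1 - 1, v.2 + 1)}

theorem mem_nb6 {v w : P2} : w ∈ nb6 v ↔ hd v w = 1 := by
  constructor
  · intro h
    simp only [nb6, Finset.mem_insert, Finset.mem_singleton] at h
    rcases h with h | h | h | h | h | h <;> rw [h]
    · exact hd_adj 1 0 rfl (by simp) (by omega)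
    · exact hd_adj (-1) 0 (by simp; ring) (by simp) (by omega)
    · exact hd_adj 0 1 (by simp) rfl (by omega)
    · exact hd_adj 0 (-1) (by simp) (by simp; ring) (by omega)
    · exact hd_adj 1 (-1) rfl (by simp; ring) (by omega)
    · exact hd_adj (-1) 1 (by simp; ring) rfl (by omega)
  · intro h
    have h1 := hd_le_iff.mp h.le
    have h2 : v ≠ w := by
      rintro rfl
      rw [hd_self] at h
      omega
    have h3 : ¬ (v.1 = w.1 ∧ v.2 = w.2) := fun hh => h2 (Prod.ext hh.1 hh.2)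
    simp only [nb6, Finset.mem_insert, Finset.mem_singleton, Prod.ext_iff]
    omega

theorem hd_eq_one_iff_adj {v w : P2} : hd v w = 1 ↔ Crest.ProbabilityR.HexHeights.Adj v w := by
  rw [← mem_nb6]
  simp only [nb6, Finset.mem_insert, Finset.mem_singleton, Prod.ext_iff,
    Crest.ProbabilityR.HexHeights.Adj]
  omega

/-- Lattice edges touching `W`. -/
def lat (W : Finset P2) : Finset (P2 × P2) :=
  W.biUnion fun v => (nb6 v).image (fun w => (v, w)) ∪ (nb6 v).image fun w => (w, v)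

theorem mem_lat {W : Finset P2} {p : P2 × P2} :
    p ∈ lat W ↔ hd p.1 p.2 = 1 ∧ (p.1 ∈ W ∨ p.2 ∈ W) := by
  simp only [lat, Finset.mem_biUnion, Finset.mem_union, Finset.mem_image, mem_nb6]
  constructor
  · rintro ⟨v, hv, ⟨w, hw, rfl⟩ | ⟨w, hw, rfl⟩⟩
    · exact ⟨hw, Or.inl hv⟩
    · exact ⟨by rw [hd_comm]; exact hw, Or.inr hv⟩
  · rintro ⟨h, h1 | h1⟩
    · exact ⟨p.1, h1, Or.inl ⟨p.2, h, rfl⟩⟩
    · exact ⟨p.2, h1, Or.inr ⟨p.1, by rw [hd_comm]; exact h, rfl⟩⟩

theorem mem_nbr_lat {W : Finset P2} {a b : P2} :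
    b ∈ nbr (lat W) a ↔ hd a b = 1 ∧ (a ∈ W ∨ b ∈ W) := by
  rw [mem_nbr, mem_lat, mem_lat]
  constructor
  · rintro ⟨h, h' | h'⟩
    · exact h'
    · exact ⟨by rw [hd_comm]; exact h'.1, h'.2.symm⟩
  · rintro ⟨h, h'⟩
    refine ⟨?_, Or.inl ⟨h, h'⟩⟩
    rintro rfl
    rw [hd_self] at h
    omega

theorem card_nb6_le (v : P2) : (nb6 v).card ≤ 6 := Finset.card_le_six

theorem card_nbr_lat_le (W : Finset P2) (a : P2) : (nbr (lat W) a).card ≤ 6 := by
  refine (Finset.card_le_card ?_).trans (card_nb6_le a)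
  intro b hb
  rw [mem_nb6]; exact (mem_nbr_lat.mp hb).1

/-! ### Transport -/

variable {V U : Type*} [DecidableEq V] [DecidableEq U]

/-- `φ` identifies the system `(W, E')` on `V` with the system `(W.image φ, E)` on `U`; everything
depends only on the sites of `D`, where `φ` is injective. -/
structure Place (W : Finset V) (E' : Finset (V × V)) (E : Finset (U × U)) (φ : V → U)
    (D : Set V) : Prop where
  sub : (W : Set V) ⊆ D
  inj : Set.InjOn φ D
  edge : ∀ p ∈ E', p.1 ∈ D ∧ p.2 ∈ D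
  lip : ∀ h : U → ℝ, h ∈ HS E ↔ h ∘ φ ∈ HS E'

variable {W : Finset V} {E' : Finset (V × V)} {E : Finset (U × U)} {φ : V → U} {D : Set V}

/-- The bijection `W ≃ W.image φ`. -/
def eqv (h : Place W E' E φ D) : W ≃ ↥(W.image φ) :=
  Equiv.ofBijective (fun w => ⟨φ w, Finset.mem_image_of_mem _ w.2⟩) (by
    constructor
    · intro a b hab
      have h1 : φ a = φ b := congrArg Subtype.val hab
      exact Subtype.ext (h.inj (h.sub a.2) (h.sub b.2) h1)
    · rintro ⟨u, hu⟩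
      obtain ⟨w, hw, rfl⟩ := Finset.mem_image.mp hu
      exact ⟨⟨w, hw⟩, rfl⟩)

/-- The measurable bijection of the configuration spaces. -/
def meqv (h : Place W E' E φ D) : (W → ℝ) ≃ᵐ (↥(W.image φ) → ℝ) :=
  MeasurableEquiv.piCongrLeft (fun _ => ℝ) (eqv h)

theorem meqv_apply (h : Place W E' E φ D) (y : W → ℝ) (w : W) :
    meqv h y ⟨φ w, Finset.mem_image_of_mem _ w.2⟩ = y w := by
  have := Equiv.piCongrLeft_apply_apply (P := fun _ : ↥(W.image φ) => ℝ) (eqv h) y w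
  exact this

theorem meqv_mp (h : Place W E' E φ D) :
    MeasurePreserving (meqv h) (volume : Measure (W → ℝ)) volume :=
  volume_measurePreserving_piCongrLeft (fun _ => ℝ) (eqv h)

theorem ext_meqv (h : Place W E' E φ D) (ζ : U → ℝ) (y : W → ℝ) {v : V} (hv : v ∈ D) :
    ext (W.image φ) ζ (meqv h y) (φ v) = ext W (ζ ∘ φ) y v := by
  by_cases hW : v ∈ W
  · rw [ext_mem (Finset.mem_image_of_mem φ hW), ext_mem hW]
    exact meqv_apply h y ⟨v, hW⟩
  · have : φ v ∉ W.image φ := by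
      intro h1
      obtain ⟨w, hw, hwv⟩ := Finset.mem_image.mp h1
      exact hW (h.inj (h.sub hw) hv hwv ▸ hw)
    rw [ext_notMem this, ext_notMem hW]; rfl

theorem Place.comp_eq (h : Place W E' E φ D) {β : Type*} {G : (V → ℝ) → β} (hG : DependsOn G D)
    (ζ : U → ℝ) (y : W → ℝ) :
    G (ext (W.image φ) ζ (meqv h y) ∘ φ) = G (ext W (ζ ∘ φ) y) :=
  hG fun v hv => ext_meqv h ζ y hv


theorem Place.mem_ham (h : Place W E' E φ D) (ζ : U → ℝ) (y : W → ℝ) :
    meqv h y ∈ ham (W.image φ) E ζ ↔ y ∈ ham W E' (ζ ∘ φ) := by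
  rw [← ext_mem_HS, ← ext_mem_HS, h.lip]
  have : DependsOn (fun z => z ∈ HS E') D := by
    intro z z' hz
    have h1 := dep_hI (A := D) h.edge hz
    by_cases h2 : z ∈ HS E'
    · rw [hI_of_mem h2] at h1
      by_cases h3 : z' ∈ HS E'
      · simp [h2, h3]
      · rw [hI_of_notMem h3] at h1; simp at h1
    · rw [hI_of_notMem h2] at h1
      by_cases h3 : z' ∈ HS E'
      · rw [hI_of_mem h3] at h1; simp at h1
      · simp [h2, h3]
  rw [← h.comp_eq this]

theorem Place.volume_eq (h : Place W E' E φ D) (ζ : U → ℝ) :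
    volume (ham (W.image φ) E ζ) = volume (ham W E' (ζ ∘ φ)) := by
  rw [← (meqv_mp h).measure_preimage measurableSet_ham.nullMeasurableSet]
  congr 1
  ext y
  exact h.mem_ham ζ y

theorem Place.vr_eq (h : Place W E' E φ D) (ζ : U → ℝ) :
    vr (W.image φ) E ζ = vr W E' (ζ ∘ φ) := by
  unfold vr; rw [h.volume_eq]

theorem Place.Dl_eq (h : Place W E' E φ D) (ζ ζ' : U → ℝ) :
    Dl (W.image φ) E ζ ζ' = Dl W E' (ζ ∘ φ) (ζ' ∘ φ) := by
  unfold Dl
  rw [h.vr_eq, h.vr_eq, h.vr_eq]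
  rfl

theorem Place.Ev_eq (h : Place W E' E φ D) {G : (V → ℝ) → ℝ} (hG : DependsOn G D)
    (ζ : U → ℝ) : Ev (W.image φ) E ζ (fun z => G (z ∘ φ)) = Ev W E' (ζ ∘ φ) G := by
  rw [Lc279.Ev_eq, Lc279.Ev_eq, h.vr_eq]
  congr 1
  rw [← (meqv_mp h).setIntegral_preimage_emb (meqv h).measurableEmbedding]
  have e : (meqv h) ⁻¹' ham (W.image φ) E ζ = ham W E' (ζ ∘ φ) := by
    ext y; exact h.mem_ham ζ y
  rw [e]
  exact setIntegral_congr_fun measurableSet_ham fun y _ => h.comp_eq hG ζ y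

theorem measurable_comp (φ : V → U) : Measurable fun z : U → ℝ => z ∘ φ :=
  measurable_pi_lambda _ fun v => measurable_pi_apply _

theorem Place.anch (h : Place W E' E φ D) (hA : Anch W E')
    (he : ∀ p ∈ E', (φ p.1, φ p.2) ∈ E ∨ (φ p.2, φ p.1) ∈ E) (hl : ∀ p ∈ E', p.1 ≠ p.2) :
    Anch (W.image φ) E := by
  intro u hu
  obtain ⟨v, hv, rfl⟩ := Finset.mem_image.mp hu
  obtain ⟨w, hw, hp⟩ := hA v hv
  clear hu
  revert hv
  refine Relation.ReflTransGen.head_induction_on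
    (motive := fun v _ => v ∈ W → ∃ u, u ∉ W.image φ ∧
      Relation.ReflTransGen (fun a b => b ∈ nbr E a) (φ v) u) hp ?_ ?_
  · intro hw'; exact absurd hw' hw
  · intro a b hab _ ih ha
    have hab' := mem_nbr.mp hab
    have hD : a ∈ D ∧ b ∈ D := by
      rcases hab'.2 with h1 | h1
      · exact h.edge _ h1
      · exact ⟨(h.edge _ h1).2, (h.edge _ h1).1⟩
    have hne : φ b ≠ φ a := fun h1 => hab'.1 (h.inj hD.2 hD.1 h1)
    have hnb : φ b ∈ nbr E (φ a) := by
      rw [mem_nbr]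
      refine ⟨hne, ?_⟩
      rcases hab'.2 with h1 | h1
      · exact he _ h1
      · exact (he _ h1).symm
    by_cases hb : b ∈ W
    · obtain ⟨u, hu, hpu⟩ := ih hb
      exact ⟨u, hu, Relation.ReflTransGen.head hnb hpu⟩
    · refine ⟨φ b, ?_, Relation.ReflTransGen.single hnb⟩
      intro h1
      obtain ⟨c, hc, hcb⟩ := Finset.mem_image.mp h1
      exact hb (h.inj (h.sub hc) hD.2 hcb ▸ hc)

/-- Transport of the window inequality. -/
theorem Place.win (h : Place W E' E φ D) {f : (V → ℝ) → ℝ} {B : Set (V → ℝ)} {ε C : ℝ}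
    (H : Win W E' f B ε C) (hA : Anch (W.image φ) E) (hf : DependsOn f D)
    (hB : DependsOn (fun z => z ∈ B) (D \ W)) :
    Win (W.image φ) E (fun z => f (z ∘ φ)) {z | z ∘ φ ∈ B} ε C where
  anch := hA
  meas := H.meas.comp (measurable_comp φ)
  bdd := fun z => H.bdd _
  mB := measurable_comp φ H.mB
  dB := by
    intro z z' hz
    refine hB fun v hv => hz _ fun h1 => ?_
    obtain ⟨c, hc, hcb⟩ := Finset.mem_image.mp (Finset.mem_coe.mp h1)
    exact hv.2 (h.inj (h.sub hc) hv.1 hcb ▸ hc)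
  ineq := by
    intro z z' h1 h2
    rw [h.vr_eq] at h1 h2
    have h3 := H.ineq (z ∘ φ) (z' ∘ φ) h1 h2
    rw [h.Ev_eq hf, h.Ev_eq hf, h.Dl_eq]
    have e : ∀ w : U → ℝ, ({z | z ∘ φ ∈ B} : Set (U → ℝ)).indicator (1 : (U → ℝ) → ℝ) w =
        B.indicator 1 (w ∘ φ) := by
      intro w
      by_cases hw : w ∘ φ ∈ B
      · rw [indicator_of_mem hw, indicator_of_mem (show w ∈ {z | z ∘ φ ∈ B} from hw)]; rfl
      · rw [indicator_of_notMem hw, indicator_of_notMem (show w ∉ {z | z ∘ φ ∈ B} from hw)]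
    rw [e, e]
    exact h3

end Crest.Agent.R144.Lc279
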