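import Mathlib
import Crest.Agent.R144.MW1_121
import Crest.Agent.R144.BQ8_565

-- ▼ part R144/LoA1_770
section

/-!
R144 (S0197), helper770, LOWER side (probabilistic half), file 1:
Lipschitz partitions replacing a measurable choice of near-minimisers.
-/

set_option autoImplicit false

open MeasureTheory Set Filter Topology Metric
open scoped ENNReal NNReal

noncomputable section

namespace Crest.Agent.R144.LoA770

variable {X : Type*} [MetricSpace X] [MeasurableSpace X] [BorelSpace X]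

/-- a radius at which the thickening of a compact set has almost no excess mass -/
theorem exists_thick_small (ν : Measure X) [IsFiniteMeasure ν] {K : Set X} (hK : IsCompact K)
    {η : ℝ} (hη : 0 < η) :
    ∃ δ > 0, ∀ δ', 0 < δ' → δ' ≤ δ → ν.real (thickening δ' K \ K) ≤ η := by
  have h1 : Tendsto (fun r => ν (thickening r K)) (𝓝[>] 0) (𝓝 (ν (closure K))) :=
    tendsto_measure_thickening ⟨1, one_pos, measure_ne_top _ _⟩
  rw [hK.isClosed.closure_eq] at h1
  have h2 := (ENNReal.tendsto_toReal (measure_ne_top ν K)).comp h1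
  have h3 : ∀ᶠ r in 𝓝[>] (0 : ℝ), ν.real (thickening r K) < ν.real K + η :=
    h2.eventually (gt_mem_nhds (show (ν K).toReal < ν.real K + η by rw [Measure.real]; linarith))
  rw [eventually_nhdsWithin_iff, Metric.eventually_nhds_iff] at h3
  obtain ⟨δ, hδ, h4⟩ := h3
  refine ⟨δ / 2, by positivity, fun δ' h0 h5 => ?_⟩
  have h6 := h4 (y := δ') (by rw [Real.dist_eq, sub_zero, abs_of_pos h0]; linarith) h0
  rw [measureReal_sdiff (self_subset_thickening h0 K) hK.measurableSet (measure_ne_top _ _)]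
  linarith

/-- finitely many pairwise disjoint compact sets have disjoint thickenings -/
theorem exists_thick_disjoint {N : ℕ} {K : ℕ → Set X} (hK : ∀ j, IsCompact (K j))
    (hd : Pairwise (Function.onFun Disjoint K)) :
    ∃ δ > 0, ∀ δ', 0 < δ' → δ' ≤ δ → ∀ i < N, ∀ j < N, i ≠ j →
      Disjoint (thickening δ' (K i)) (thickening δ' (K j)) := by
  have h1 : ∀ p : ℕ × ℕ, ∃ δ > 0, p.1 ≠ p.2 → Disjoint (thickening δ (K p.1)) (thickening δ (K p.2)) := by
    intro p
    by_cases h : p.1 = p.2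
    · exact ⟨1, one_pos, fun h' => absurd h h'⟩
    · obtain ⟨δ, hδ, h2⟩ := (hd h).exists_thickenings (hK p.1) (hK p.2).isClosed
      exact ⟨δ, hδ, fun _ => h2⟩
  choose d hd0 hd1 using h1
  have h2 : ∃ δ > 0, ∀ p ∈ Finset.range N ×ˢ Finset.range N, δ ≤ d p := by
    generalize Finset.range N ×ˢ Finset.range N = s
    induction s using Finset.induction_on with
    | empty => exact ⟨1, one_pos, by simp⟩
    | insert a s _ ih =>
      obtain ⟨δ, hδ, h3⟩ := ih
      refine ⟨min δ (d a), lt_min hδ (hd0 a), fun p hp => ?_⟩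
      rcases Finset.mem_insert.1 hp with rfl | hp
      · exact min_le_right _ _
      · exact (min_le_left _ _).trans (h3 p hp)
  obtain ⟨δ, hδ, h3⟩ := h2
  refine ⟨δ, hδ, fun δ' h0 h4 i hi j hj hij => ?_⟩
  have h5 := h3 (i, j) (by simp [hi, hj])
  exact (hd1 (i, j) hij).mono (thickening_mono (h4.trans h5) _) (thickening_mono (h4.trans h5) _)

/-- **Lipschitz selection**: a measurable choice among countably many bounded energies can be
replaced by a finite Lipschitz partition, up to a small error. -/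
theorem exists_lip_selection (ν : Measure X) [IsFiniteMeasure ν] [ν.InnerRegularCompactLTTop]
    {A : ℕ → Set X} (hA : ∀ j, MeasurableSet (A j)) (hd : Pairwise (Function.onFun Disjoint A))
    (hc : ⋃ j, A j = univ) {e : ℕ → X → ℝ} (hem : ∀ j, Measurable (e j))
    (he0 : ∀ j x, 0 ≤ e j x) (heM : ∀ j, ∃ M, ∀ x, e j x ≤ M) {e0 : X → ℝ} (h0m : Measurable e0)
    (h00 : ∀ x, 0 ≤ e0 x) {M0 : ℝ} (h0M : ∀ x, e0 x ≤ M0) {G : X → ℝ} (hG : Integrable G ν)
    (hG0 : ∀ x, 0 ≤ G x) (heG : ∀ j, ∀ x ∈ A j, e j x ≤ G x) {η : ℝ} (hη : 0 < η) :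
    ∃ (N : ℕ) (χ : ℕ → X → ℝ), (∀ j, ∃ K : ℝ≥0, LipschitzWith K (χ j)) ∧ (∀ j x, 0 ≤ χ j x) ∧
      (∀ x, ∑ j ∈ Finset.range N, χ j x ≤ 1) ∧
      ∫ x, (∑ j ∈ Finset.range N, χ j x * e j x + (1 - ∑ j ∈ Finset.range N, χ j x) * e0 x) ∂ν ≤
        ∫ x, G x ∂ν + η := by
  choose M hM using heM
  by_cases hX : Nonempty X
  swap
  · rw [not_nonempty_iff] at hX
    refine ⟨0, fun _ _ => 0, fun _ => ⟨0, LipschitzWith.const 0⟩, fun _ _ => le_rfl, fun x => by simp, ?_⟩
    have hz : ν = 0 := Measure.eq_zero_of_isEmpty ν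
    simp only [hz, integral_zero_measure]
    linarith
  obtain ⟨x0⟩ := hX
  have hM0 : 0 ≤ M0 := (h00 x0).trans (h0M x0)
  have hMj : ∀ j, 0 ≤ M j := fun j => (he0 j x0).trans (hM j x0)
  -- the number of templates
  set η1 : ℝ := η / (8 * (M0 + 1)) with hη1
  have hη1p : 0 < η1 := by positivity
  obtain ⟨N, hN⟩ : ∃ N : ℕ, ν.real (⋃ j ∈ {j | N ≤ j}, A j) ≤ η1 := by
    have h1 : Tendsto (fun n => ν (⋃ j ∈ {j | n ≤ j}, A j)) atTop (𝓝 (ν (⋂ n, ⋃ j ∈ {j | n ≤ j}, A j))) := by
      refine tendsto_measure_iInter_atTop (fun n => ?_) ?_ ⟨0, measure_ne_top _ _⟩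
      · exact (MeasurableSet.biUnion (to_countable _) fun j _ => hA j).nullMeasurableSet
      · intro a b hab
        refine biUnion_mono ?_ fun _ _ => subset_rfl
        exact fun j (hj : b ≤ j) => hab.trans hj
    have h2 : (⋂ n, ⋃ j ∈ {j | n ≤ j}, A j) = ∅ := by
      rw [eq_empty_iff_forall_notMem]
      intro x hx
      rw [mem_iInter] at hx
      have h3 := hx 0
      simp only [mem_iUnion, mem_setOf_eq, exists_prop] at h3
      obtain ⟨j, -, hj⟩ := h3
      have h4 := hx (j + 1)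
      simp only [mem_iUnion, mem_setOf_eq, exists_prop] at h4
      obtain ⟨k, hk, hk'⟩ := h4
      exact disjoint_left.1 (hd (show j ≠ k by omega)) hj hk'
    rw [h2, measure_empty] at h1
    have h3 := (ENNReal.tendsto_toReal ENNReal.zero_ne_top).comp h1
    have h4 : ∀ᶠ n in atTop, ν.real (⋃ j ∈ {j | n ≤ j}, A j) < η1 :=
      h3.eventually (gt_mem_nhds (by simpa using hη1p))
    obtain ⟨n, hn⟩ := h4.exists
    exact ⟨n, hn.le⟩
  -- compact subsets
  have hcmp : ∀ j, ∃ K ⊆ A j, IsCompact K ∧ ν.real (A j \ K) ≤ η1 / (N + 1) := by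
    intro j
    obtain ⟨K, hK, hKc, h1⟩ := (hA j).exists_isCompact_diff_lt (μ := ν) (measure_ne_top _ _)
      (ε := ENNReal.ofReal (η1 / (N + 1))) (by
        have : 0 < η1 / (N + 1) := by positivity
        exact (ENNReal.ofReal_pos.2 this).ne')
    refine ⟨K, hK, hKc, ?_⟩
    have h2 := ENNReal.toReal_mono ENNReal.ofReal_ne_top h1.le
    rwa [ENNReal.toReal_ofReal (by positivity)] at h2
  choose K hKA hKc hKm using hcmp
  have hKd : Pairwise (Function.onFun Disjoint K) := fun i j hij => (hd hij).mono (hKA i) (hKA j)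
  obtain ⟨δ1, hδ1, hdis⟩ := exists_thick_disjoint (N := N) hKc hKd
  have hrad : ∀ j, ∃ δ > 0, ∀ δ', 0 < δ' → δ' ≤ δ →
      ν.real (thickening δ' (K j) \ K j) ≤ η / (4 * (N + 1) * (M j + 1)) := by
    intro j
    have := hMj j
    exact exists_thick_small ν (hKc j) (by positivity)
  choose d hd0 hdm using hrad
  obtain ⟨δ, hδ, hδ', hδ''⟩ : ∃ δ > 0, δ ≤ δ1 ∧ ∀ j < N, δ ≤ d j := by
    have : ∀ n : ℕ, ∃ δ > 0, δ ≤ δ1 ∧ ∀ j < n, δ ≤ d j := by
      intro n
      induction n with
      | zero => exact ⟨δ1, hδ1, le_rfl, by simp⟩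
      | succ n ih =>
        obtain ⟨δ, h1, h2, h3⟩ := ih
        refine ⟨min δ (d n), lt_min h1 (hd0 n), (min_le_left _ _).trans h2, fun j hj => ?_⟩
        rcases Nat.lt_succ_iff_lt_or_eq.1 hj with h | rfl
        · exact (min_le_left _ _).trans (h3 j h)
        · exact min_le_right _ _
    exact this N
  set χ : ℕ → X → ℝ := fun j x => (thickenedIndicator hδ (K j) x : ℝ) with hχ
  have hχ0 : ∀ j x, 0 ≤ χ j x := fun j x => NNReal.coe_nonneg _
  have hχ1 : ∀ j x, χ j x ≤ 1 := fun j x => by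
    have := thickenedIndicator_le_one hδ (K j) x
    exact_mod_cast this
  have hχz : ∀ j x, x ∉ thickening δ (K j) → χ j x = 0 := fun j x hx => by
    have h1 := thickenedIndicator_zero hδ (K j) hx
    show ((thickenedIndicator hδ (K j) x : ℝ≥0) : ℝ) = 0
    rw [h1, NNReal.coe_zero]
  have hχo : ∀ j, ∀ x ∈ K j, χ j x = 1 := fun j x hx => by
    have h1 := thickenedIndicator_one hδ (K j) hx
    show ((thickenedIndicator hδ (K j) x : ℝ≥0) : ℝ) = 1
    rw [h1, NNReal.coe_one]
  have hχL : ∀ j, ∃ C : ℝ≥0, LipschitzWith C (χ j) := by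
    intro j
    have h1 := lipschitzWith_thickenedIndicator hδ (K j)
    exact ⟨δ.toNNReal⁻¹, LipschitzWith.of_dist_le_mul fun x y => h1.dist_le_mul x y⟩
  have hχm : ∀ j, Measurable (χ j) := fun j => by
    obtain ⟨C, hC⟩ := hχL j
    exact hC.continuous.measurable
  -- the partition property
  have hsum : ∀ x, ∑ j ∈ Finset.range N, χ j x ≤ 1 := by
    intro x
    by_cases h : ∃ i < N, x ∈ thickening δ (K i)
    · obtain ⟨i, hi, hx⟩ := h
      rw [Finset.sum_eq_single_of_mem i (Finset.mem_range.2 hi)]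
      · exact hχ1 i x
      · intro j hj hji
        refine hχz j x fun hx' => ?_
        exact disjoint_left.1 (hdis δ hδ hδ' i hi j (Finset.mem_range.1 hj) (Ne.symm hji)) hx hx'
    · push Not at h
      rw [Finset.sum_eq_zero fun j hj => hχz j x (h j (Finset.mem_range.1 hj))]
      exact zero_le_one
  refine ⟨N, χ, hχL, hχ0, hsum, ?_⟩
  have hint : ∀ j, Integrable (fun x => χ j x * e j x) ν := by
    intro j
    refine Integrable.of_bound ((hχm j).mul (hem j)).aestronglyMeasurable (M j) (ae_of_all _ fun x => ?_)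
    rw [Real.norm_eq_abs, abs_of_nonneg (mul_nonneg (hχ0 j x) (he0 j x))]
    calc χ j x * e j x ≤ 1 * M j := mul_le_mul (hχ1 j x) (hM j x) (he0 j x) zero_le_one
      _ = M j := one_mul _
  have hint0 : Integrable (fun x => (1 - ∑ j ∈ Finset.range N, χ j x) * e0 x) ν := by
    refine Integrable.of_bound (((measurable_const.sub (Finset.measurable_fun_sum _ fun j _ => hχm j)).mul
      h0m)).aestronglyMeasurable M0 (ae_of_all _ fun x => ?_)
    have h1 := hsum x
    have h2 : 0 ≤ ∑ j ∈ Finset.range N, χ j x := Finset.sum_nonneg fun j _ => hχ0 j x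
    rw [Real.norm_eq_abs, abs_of_nonneg (mul_nonneg (by linarith) (h00 x))]
    calc (1 - ∑ j ∈ Finset.range N, χ j x) * e0 x ≤ 1 * M0 :=
          mul_le_mul (by linarith) (h0M x) (h00 x) zero_le_one
      _ = M0 := one_mul _
  -- one template
  have h1 : ∀ j < N, ∫ x, χ j x * e j x ∂ν ≤ ∫ x in K j, G x ∂ν + η / (4 * (N + 1)) := by
    intro j hj
    have hsub : ∀ x, χ j x * e j x ≤ (K j).indicator G x +
        (thickening δ (K j) \ K j).indicator (fun _ => M j) x := by
      intro x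
      by_cases hx : x ∈ K j
      · rw [indicator_of_mem hx, indicator_of_notMem (fun h => h.2 hx), hχo j x hx, one_mul, add_zero]
        exact heG j x (hKA j hx)
      · rw [indicator_of_notMem hx, zero_add]
        by_cases hx' : x ∈ thickening δ (K j)
        · rw [indicator_of_mem (show x ∈ thickening δ (K j) \ K j from ⟨hx', hx⟩)]
          calc χ j x * e j x ≤ 1 * M j := mul_le_mul (hχ1 j x) (hM j x) (he0 j x) zero_le_one
            _ = M j := one_mul _
        · rw [hχz j x hx', zero_mul]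
          exact indicator_nonneg (fun _ _ => hMj j) x
    have hmD : MeasurableSet (thickening δ (K j) \ K j) :=
      isOpen_thickening.measurableSet.diff (hKc j).measurableSet
    have hI : Integrable ((thickening δ (K j) \ K j).indicator (fun _ => M j)) ν :=
      (integrable_indicator_iff hmD).2 (integrable_const _).integrableOn
    calc ∫ x, χ j x * e j x ∂ν ≤ ∫ x, ((K j).indicator G x +
          (thickening δ (K j) \ K j).indicator (fun _ => M j) x) ∂ν :=
          integral_mono (hint j) ((hG.indicator (hKc j).measurableSet).add hI) hsub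
      _ = ∫ x in K j, G x ∂ν + ν.real (thickening δ (K j) \ K j) * M j := by
          rw [integral_add (hG.indicator (hKc j).measurableSet) hI,
            integral_indicator (hKc j).measurableSet, integral_indicator_const _ hmD, smul_eq_mul]
      _ ≤ ∫ x in K j, G x ∂ν + η / (4 * (N + 1)) := by
          gcongr
          have h2 := hdm j δ hδ (hδ'' j hj)
          have h3 := hMj j
          calc ν.real (thickening δ (K j) \ K j) * M j
              ≤ η / (4 * (N + 1) * (M j + 1)) * (M j + 1) := by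
                refine mul_le_mul h2 (by linarith) h3 (by positivity)
            _ = η / (4 * (N + 1)) := by field_simp
  have hKun : ∑ j ∈ Finset.range N, ∫ x in K j, G x ∂ν ≤ ∫ x, G x ∂ν := by
    rw [← integral_biUnion_finset (Finset.range N) (fun j _ => (hKc j).measurableSet)
      (fun i _ j _ hij => hKd hij) (fun j _ => hG.integrableOn)]
    exact setIntegral_le_integral hG (ae_of_all _ hG0)
  -- the rest
  have h2 : ∫ x, (1 - ∑ j ∈ Finset.range N, χ j x) * e0 x ∂ν ≤ η / 4 := by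
    set B : Set X := (⋃ j ∈ Finset.range N, K j)ᶜ with hB
    have hBm : MeasurableSet B :=
      ((Finset.range N).measurableSet_biUnion fun j _ => (hKc j).measurableSet).compl
    have hsub : ∀ x, (1 - ∑ j ∈ Finset.range N, χ j x) * e0 x ≤ B.indicator (fun _ => M0) x := by
      intro x
      have h0 : 0 ≤ ∑ j ∈ Finset.range N, χ j x := Finset.sum_nonneg fun j _ => hχ0 j x
      by_cases hx : x ∈ B
      · rw [indicator_of_mem hx]
        calc (1 - ∑ j ∈ Finset.range N, χ j x) * e0 x ≤ 1 * M0 :=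
              mul_le_mul (by linarith) (h0M x) (h00 x) zero_le_one
          _ = M0 := one_mul _
      · rw [indicator_of_notMem hx]
        rw [hB, mem_compl_iff, not_not, mem_iUnion₂] at hx
        obtain ⟨j, hj, hx⟩ := hx
        have h3 : χ j x ≤ ∑ j ∈ Finset.range N, χ j x :=
          Finset.single_le_sum (f := fun j => χ j x) (fun j _ => hχ0 j x) hj
        rw [hχo j x hx] at h3
        have h4 : ∑ j ∈ Finset.range N, χ j x = 1 := le_antisymm (hsum x) h3
        rw [h4, sub_self, zero_mul]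
    have hI : Integrable (B.indicator (fun _ => M0)) ν :=
      (integrable_indicator_iff hBm).2 (integrable_const _).integrableOn
    have hBν : ν.real B ≤ 2 * η1 := by
      have h3 : B ⊆ (⋃ j ∈ {j | N ≤ j}, A j) ∪ ⋃ j ∈ Finset.range N, (A j \ K j) := by
        intro x hx
        have h4 : x ∈ ⋃ j, A j := hc ▸ mem_univ x
        obtain ⟨j, hj⟩ := mem_iUnion.1 h4
        by_cases hjN : j < N
        · right
          refine mem_iUnion₂.2 ⟨j, Finset.mem_range.2 hjN, hj, fun hx' => hx ?_⟩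
          exact mem_iUnion₂.2 ⟨j, Finset.mem_range.2 hjN, hx'⟩
        · left
          exact mem_iUnion₂.2 ⟨j, not_lt.1 hjN, hj⟩
      calc ν.real B ≤ ν.real ((⋃ j ∈ {j | N ≤ j}, A j) ∪ ⋃ j ∈ Finset.range N, (A j \ K j)) :=
            measureReal_mono h3 (measure_ne_top _ _)
        _ ≤ ν.real (⋃ j ∈ {j | N ≤ j}, A j) + ν.real (⋃ j ∈ Finset.range N, (A j \ K j)) :=
            measureReal_union_le _ _
        _ ≤ η1 + ∑ j ∈ Finset.range N, ν.real (A j \ K j) := by
            gcongr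
            exact measureReal_biUnion_finset_le _ _
        _ ≤ η1 + ∑ _j ∈ Finset.range N, η1 / (N + 1) := by
            gcongr with j hj
            exact hKm j
        _ ≤ 2 * η1 := by
            rw [Finset.sum_const, Finset.card_range, nsmul_eq_mul]
            have h5 : (N : ℝ) * (η1 / (N + 1)) ≤ η1 := by
              rw [mul_div_assoc', div_le_iff₀ (by positivity)]
              nlinarith
            linarith
    calc ∫ x, (1 - ∑ j ∈ Finset.range N, χ j x) * e0 x ∂ν ≤ ∫ x, B.indicator (fun _ => M0) x ∂ν :=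
          integral_mono hint0 hI hsub
      _ = ν.real B * M0 := by rw [integral_indicator_const _ hBm, smul_eq_mul]
      _ ≤ 2 * η1 * (M0 + 1) := by
          refine mul_le_mul hBν (by linarith) hM0 (by positivity)
      _ = η / 4 := by rw [hη1]; field_simp; norm_num
  rw [integral_add (integrable_finsetSum _ fun j _ => hint j) hint0,
    integral_finsetSum _ fun j _ => hint j]
  calc ∑ j ∈ Finset.range N, ∫ x, χ j x * e j x ∂ν +
        ∫ x, (1 - ∑ j ∈ Finset.range N, χ j x) * e0 x ∂ν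
      ≤ ∑ j ∈ Finset.range N, (∫ x in K j, G x ∂ν + η / (4 * (N + 1))) + η / 4 := by
        gcongr with j hj
        exact h1 j (Finset.mem_range.1 hj)
    _ = ∑ j ∈ Finset.range N, ∫ x in K j, G x ∂ν + N * (η / (4 * (N + 1))) + η / 4 := by
        rw [Finset.sum_add_distrib, Finset.sum_const, Finset.card_range, nsmul_eq_mul]
    _ ≤ ∫ x, G x ∂ν + η / 4 + η / 4 := by
        have h5 : (N : ℝ) * (η / (4 * (N + 1))) ≤ η / 4 := by
          rw [mul_div_assoc', div_le_div_iff₀ (by positivity) (by positivity)]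
          nlinarith
        linarith
    _ ≤ ∫ x, G x ∂ν + η := by linarith

end Crest.Agent.R144.LoA770
end
end

-- ▼ part R144/LoA3_770
section

/-!
R144 (S0197), helper770, LOWER side (probabilistic half), file 3:
the Euclidean retraction onto a disc in index coordinates, and its effect on the vector energy.

`N2 a b = a² + a b + b²` is the square of the Euclidean length of `a + b e^{iπ/3}`.
-/

set_option autoImplicit false

open MeasureTheory Set Filter Topology Metric
open scoped ENNReal NNReal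

noncomputable section

namespace Crest.Agent.R144.LoA770

open Crest.Agent.R144.MW121 (jac jac_apply en)

/-- squared Euclidean length in index coordinates -/
def N2 (a b : ℝ) : ℝ := a ^ 2 + a * b + b ^ 2

theorem N2_nonneg (a b : ℝ) : 0 ≤ N2 a b := by unfold N2; nlinarith [sq_nonneg (a + b)]

theorem N2_eq (a b : ℝ) : N2 a b = (a ^ 2 + b ^ 2 + (a + b) ^ 2) / 2 := by unfold N2; ring

theorem sq_le_N2 (a b : ℝ) : a ^ 2 ≤ 2 * N2 a b := by unfold N2; nlinarith [sq_nonneg (a + b)]

theorem sq_le_N2' (a b : ℝ) : b ^ 2 ≤ 2 * N2 a b := by unfold N2; nlinarith [sq_nonneg (a + b)]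

theorem N2_le (a b : ℝ) {M : ℝ} (ha : |a| ≤ M) (hb : |b| ≤ M) : N2 a b ≤ 3 * M ^ 2 := by
  have hM : 0 ≤ M := (abs_nonneg a).trans ha
  have h1 : a ^ 2 ≤ M ^ 2 := by rw [← sq_abs]; exact pow_le_pow_left₀ (abs_nonneg _) ha 2
  have h2 : b ^ 2 ≤ M ^ 2 := by rw [← sq_abs]; exact pow_le_pow_left₀ (abs_nonneg _) hb 2
  unfold N2
  nlinarith [sq_nonneg (a - b)]


/-- finite convex combinations, the rest of the weight being at the first vector -/
theorem N2_conv_sum {ι : Type*} (s : Finset ι) (χ : ι → ℝ) (h0 : ∀ j ∈ s, 0 ≤ χ j)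
    (h1 : ∑ j ∈ s, χ j ≤ 1) (a b : ℝ) (u v : ι → ℝ) :
    N2 (a + ∑ j ∈ s, χ j * u j) (b + ∑ j ∈ s, χ j * v j) ≤
      ∑ j ∈ s, χ j * N2 (a + u j) (b + v j) + (1 - ∑ j ∈ s, χ j) * N2 a b := by
  -- variance identity: the difference is nonnegative by Cauchy-Schwarz, in the sum of squares form
  have key : ∀ c : ι → ℝ, ∀ d : ℝ, (d + ∑ j ∈ s, χ j * c j) ^ 2 ≤
      ∑ j ∈ s, χ j * (d + c j) ^ 2 + (1 - ∑ j ∈ s, χ j) * d ^ 2 := by
    intro c d
    have hcs : (∑ j ∈ s, χ j * c j) ^ 2 ≤ ∑ j ∈ s, χ j * c j ^ 2 := by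
      have h2 : (∑ j ∈ s, χ j * c j) ^ 2 ≤ (∑ j ∈ s, χ j) * ∑ j ∈ s, χ j * c j ^ 2 := by
        refine Finset.sum_sq_le_sum_mul_sum_of_sq_eq_mul s (fun j hj => h0 j hj)
          (fun j hj => mul_nonneg (h0 j hj) (sq_nonneg _)) fun j _ => by ring
      have h3 : 0 ≤ ∑ j ∈ s, χ j * c j ^ 2 :=
        Finset.sum_nonneg fun j hj => mul_nonneg (h0 j hj) (sq_nonneg _)
      nlinarith
    have e : ∑ j ∈ s, χ j * (d + c j) ^ 2 = d ^ 2 * (∑ j ∈ s, χ j) + 2 * d * (∑ j ∈ s, χ j * c j) +
        ∑ j ∈ s, χ j * c j ^ 2 := by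
      rw [Finset.mul_sum, Finset.mul_sum, ← Finset.sum_add_distrib, ← Finset.sum_add_distrib]
      exact Finset.sum_congr rfl fun j _ => by ring
    rw [e]
    nlinarith
  simp only [N2_eq]
  have h1' := key u a
  have h2' := key v b
  have h3' := key (fun j => u j + v j) (a + b)
  have e3 : ∑ j ∈ s, χ j * (u j + v j) = ∑ j ∈ s, χ j * u j + ∑ j ∈ s, χ j * v j := by
    rw [← Finset.sum_add_distrib]; exact Finset.sum_congr rfl fun j _ => by ring
  rw [e3] at h3'
  have e4 : ∑ j ∈ s, χ j * (((a + u j) ^ 2 + (b + v j) ^ 2 + (a + u j + (b + v j)) ^ 2) / 2) =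
      (∑ j ∈ s, χ j * (a + u j) ^ 2 + ∑ j ∈ s, χ j * (b + v j) ^ 2 +
        ∑ j ∈ s, χ j * (a + b + (u j + v j)) ^ 2) / 2 := by
    rw [← Finset.sum_add_distrib, ← Finset.sum_add_distrib, Finset.sum_div]
    exact Finset.sum_congr rfl fun j _ => by ring
  rw [e4, show a + ∑ j ∈ s, χ j * u j + (b + ∑ j ∈ s, χ j * v j) =
    a + b + (∑ j ∈ s, χ j * u j + ∑ j ∈ s, χ j * v j) by ring]
  linarith

/-! ### the retraction -/

/-- the radial factor -/
def rfac (R : ℝ) (a b : ℝ) : ℝ := min 1 (R / Real.sqrt (N2 a b))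

theorem rfac_nonneg {R : ℝ} (hR : 0 ≤ R) (a b : ℝ) : 0 ≤ rfac R a b :=
  le_min zero_le_one (div_nonneg hR (Real.sqrt_nonneg _))

theorem rfac_le_one (R a b : ℝ) : rfac R a b ≤ 1 := min_le_left _ _

theorem rfac_mul {R : ℝ} (hR : 0 ≤ R) (a b : ℝ) :
    rfac R a b * Real.sqrt (N2 a b) = min (Real.sqrt (N2 a b)) R := by
  rcases (Real.sqrt_nonneg (N2 a b)).eq_or_lt with h | h
  · rw [← h, mul_zero, min_eq_left hR]
  · unfold rfac
    rw [min_mul_of_nonneg _ _ h.le, one_mul, div_mul_cancel₀ _ h.ne']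

/-- first component of the retraction onto the disc of radius `R` -/
def cl0 (R : ℝ) (a b : ℝ) : ℝ := rfac R a b * a

/-- second component -/
def cl1 (R : ℝ) (a b : ℝ) : ℝ := rfac R a b * b

/-- the retraction is a contraction -/
theorem N2_cl_le {R : ℝ} (hR : 0 ≤ R) (a b a' b' : ℝ) :
    N2 (cl0 R a b - cl0 R a' b') (cl1 R a b - cl1 R a' b') ≤ N2 (a - a') (b - b') := by
  set α := rfac R a b with hα
  set β := rfac R a' b' with hβ
  set p := Real.sqrt (N2 a b) with hp
  set q := Real.sqrt (N2 a' b') with hq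
  have hp2 : p ^ 2 = N2 a b := Real.sq_sqrt (N2_nonneg a b)
  have hq2 : q ^ 2 = N2 a' b' := Real.sq_sqrt (N2_nonneg a' b')
  have hp0 : 0 ≤ p := Real.sqrt_nonneg _
  have hq0 : 0 ≤ q := Real.sqrt_nonneg _
  have hα0 : 0 ≤ α := rfac_nonneg hR a b
  have hα1 : α ≤ 1 := rfac_le_one R a b
  have hβ0 : 0 ≤ β := rfac_nonneg hR a' b'
  have hβ1 : β ≤ 1 := rfac_le_one R a' b'
  have hαp : α * p = min p R := rfac_mul hR a b
  have hβq : β * q = min q R := rfac_mul hR a' b'
  set B := a * a' + (a * b' + a' * b) / 2 + b * b' with hB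
  have hCS : B ≤ p * q := by
    have h1 : B ^ 2 ≤ (p * q) ^ 2 := by
      rw [mul_pow, hp2, hq2, hB]
      unfold N2
      nlinarith [sq_nonneg (a * b' - a' * b)]
    exact (abs_le_of_sq_le_sq' h1 (mul_nonneg hp0 hq0)).2
  have hL : N2 (cl0 R a b - cl0 R a' b') (cl1 R a b - cl1 R a' b') =
      α ^ 2 * p ^ 2 + β ^ 2 * q ^ 2 - 2 * (α * β) * B := by
    rw [hp2, hq2, hB]; unfold N2 cl0 cl1; rw [← hα, ← hβ]; ring
  have hRr : N2 (a - a') (b - b') = p ^ 2 + q ^ 2 - 2 * B := by
    rw [hp2, hq2, hB]; unfold N2; ring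
  rw [hL, hRr]
  have hmin : (α * p - β * q) ^ 2 ≤ (p - q) ^ 2 := by
    rw [hαp, hβq, ← sq_abs (min p R - min q R), ← sq_abs (p - q)]
    refine pow_le_pow_left₀ (abs_nonneg _) ?_ 2
    have h := abs_min_sub_min_le_max p R q R
    simpa using h
  have hαβ : α * β ≤ 1 := by nlinarith
  nlinarith [mul_le_mul_of_nonneg_left hCS (sub_nonneg.2 hαβ)]

/-- inside the disc nothing happens -/
theorem cl_eq {R : ℝ} (hR : 0 ≤ R) {a b : ℝ} (h : N2 a b ≤ R ^ 2) :
    cl0 R a b = a ∧ cl1 R a b = b := by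
  rcases (Real.sqrt_nonneg (N2 a b)).eq_or_lt with h0 | h0
  · have h1 : N2 a b = 0 := by
      have := Real.sq_sqrt (N2_nonneg a b)
      rw [← h0] at this
      linarith
    have h2 : a = 0 := by
      have := sq_le_N2 a b
      rw [h1] at this
      exact pow_eq_zero_iff (two_ne_zero) |>.1 (le_antisymm (by linarith) (sq_nonneg a))
    have h3 : b = 0 := by
      have := sq_le_N2' a b
      rw [h1] at this
      exact pow_eq_zero_iff (two_ne_zero) |>.1 (le_antisymm (by linarith) (sq_nonneg b))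
    subst h2 h3
    simp [cl0, cl1]
  · have h1 : rfac R a b = 1 := by
      unfold rfac
      refine min_eq_left ?_
      rw [le_div_iff₀ h0, one_mul]
      calc Real.sqrt (N2 a b) ≤ Real.sqrt (R ^ 2) := Real.sqrt_le_sqrt h
        _ = R := Real.sqrt_sq hR
    simp [cl0, cl1, h1]

theorem N2_cl_le_sq {R : ℝ} (hR : 0 ≤ R) (a b : ℝ) : N2 (cl0 R a b) (cl1 R a b) ≤ R ^ 2 := by
  have h1 : N2 (cl0 R a b) (cl1 R a b) = (rfac R a b * Real.sqrt (N2 a b)) ^ 2 := by
    rw [mul_pow, Real.sq_sqrt (N2_nonneg a b)]; unfold N2 cl0 cl1; ring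
  rw [h1, rfac_mul hR]
  exact pow_le_pow_left₀ (le_min (Real.sqrt_nonneg _) hR) (min_le_right _ _) 2

theorem abs_le_of_N2 {a b M : ℝ} (hM : 0 ≤ M) (h : N2 a b ≤ M ^ 2) : |a| ≤ 2 * M ∧ |b| ≤ 2 * M := by
  have h1 := sq_le_N2 a b
  have h2 := sq_le_N2' a b
  constructor
  · refine abs_le_of_sq_le_sq ?_ (by linarith); nlinarith
  · refine abs_le_of_sq_le_sq ?_ (by linarith); nlinarith

theorem abs_cl_le {R : ℝ} (hR : 0 ≤ R) (a b : ℝ) : |cl0 R a b| ≤ 2 * R ∧ |cl1 R a b| ≤ 2 * R :=
  abs_le_of_N2 hR (N2_cl_le_sq hR a b)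

theorem abs_cl_sub_le {R : ℝ} (hR : 0 ≤ R) {a b a' b' M : ℝ} (h1 : |a - a'| ≤ M)
    (h2 : |b - b'| ≤ M) :
    |cl0 R a b - cl0 R a' b'| ≤ 4 * M ∧ |cl1 R a b - cl1 R a' b'| ≤ 4 * M := by
  have hM : 0 ≤ M := (abs_nonneg _).trans h1
  have h3 : N2 (cl0 R a b - cl0 R a' b') (cl1 R a b - cl1 R a' b') ≤ (2 * M) ^ 2 := by
    refine (N2_cl_le hR a b a' b').trans ((N2_le _ _ h1 h2).trans ?_)
    nlinarith [sq_nonneg M]
  have h4 := abs_le_of_N2 (by linarith : (0:ℝ) ≤ 2 * M) h3
  constructor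
  · linarith [h4.1]
  · linarith [h4.2]

/-! ### the vector energy -/

section

variable {V : Type*} [Fintype V] [DecidableEq V]

/-- vector energy of a pair of fields (Euclidean trace in index coordinates) -/
def enN (Y0 Y1 : (V → ℝ) → (V → ℝ)) (x : V → ℝ) : ℝ :=
  ∑ w, ∑ v, N2 (jac Y0 x w v) (jac Y1 x w v)

theorem enN_nonneg (Y0 Y1 : (V → ℝ) → (V → ℝ)) (x : V → ℝ) : 0 ≤ enN Y0 Y1 x :=
  Finset.sum_nonneg fun _ _ => Finset.sum_nonneg fun _ _ => N2_nonneg _ _

/-- derivative of a component along a coordinate direction -/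
theorem hasDerivAt_comp {Y : (V → ℝ) → (V → ℝ)} {x : V → ℝ} (h : DifferentiableAt ℝ Y x) (w v : V) :
    HasDerivAt (fun t : ℝ => Y (x + t • (Pi.single v 1 : V → ℝ)) w) (jac Y x w v) 0 := by
  have h1 : HasDerivAt (fun t : ℝ => x + t • (Pi.single v 1 : V → ℝ)) (Pi.single v 1 : V → ℝ) 0 := by
    have := ((hasDerivAt_id (0 : ℝ)).smul_const (Pi.single v 1 : V → ℝ)).const_add x
    simpa using this
  have h2 : HasFDerivAt Y (fderiv ℝ Y x) (x + (0 : ℝ) • (Pi.single v 1 : V → ℝ)) := by
    simpa using h.hasFDerivAt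
  have h3 := h2.comp_hasDerivAt (0 : ℝ) h1
  have h4 := (hasDerivAt_pi.1 h3) w
  rw [jac_apply]
  exact h4

/-- **clipping decreases the vector energy** -/
theorem N2_jac_le {Y0 Y1 Z0 Z1 : (V → ℝ) → (V → ℝ)} {x : V → ℝ}
    (h0 : DifferentiableAt ℝ Y0 x) (h1 : DifferentiableAt ℝ Y1 x)
    (g0 : DifferentiableAt ℝ Z0 x) (g1 : DifferentiableAt ℝ Z1 x)
    (hc : ∀ y w, N2 (Z0 y w - Z0 x w) (Z1 y w - Z1 x w) ≤ N2 (Y0 y w - Y0 x w) (Y1 y w - Y1 x w))
    (w v : V) : N2 (jac Z0 x w v) (jac Z1 x w v) ≤ N2 (jac Y0 x w v) (jac Y1 x w v) := by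
  have e : ∀ {Y : (V → ℝ) → (V → ℝ)}, DifferentiableAt ℝ Y x →
      Tendsto (fun t : ℝ => t⁻¹ * (Y (x + t • (Pi.single v 1 : V → ℝ)) w - Y x w)) (𝓝[≠] 0)
        (𝓝 (jac Y x w v)) := by
    intro Y hY
    have := (hasDerivAt_comp hY w v).tendsto_slope_zero
    simpa [smul_eq_mul] using this
  have hN : Continuous fun p : ℝ × ℝ => N2 p.1 p.2 := by unfold N2; fun_prop
  have t1 := (hN.tendsto _).comp ((e g0).prodMk_nhds (e g1))
  have t2 := (hN.tendsto _).comp ((e h0).prodMk_nhds (e h1))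
  refine le_of_tendsto_of_tendsto t1 t2 ?_
  filter_upwards with t
  simp only [Function.comp_apply]
  have e2 : ∀ c a b : ℝ, N2 (c * a) (c * b) = c ^ 2 * N2 a b := by
    intro c a b; unfold N2; ring
  rw [e2, e2]
  exact mul_le_mul_of_nonneg_left (hc _ w) (sq_nonneg _)

end

end Crest.Agent.R144.LoA770
end
end

-- ▼ part R144/LoA4_770

/-!
R144 (S0197), helper770, LOWER side (probabilistic half), file 4:
local templates for the trial field: clipped perturbations of the reference pair, and mixtures of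
them by a Lipschitz partition of the data.
-/

set_option autoImplicit false
set_option linter.unusedSectionVars false

open MeasureTheory Set Filter Topology Metric
open scoped ENNReal NNReal

noncomputable section

namespace Crest.Agent.R144.LoA770

open Crest.Agent.R144.Ham560 Crest.Agent.R144.BQ565
open Crest.Agent.R144.MW121 (jac jac_apply en measurable_jac measurable_en en_nonneg)

variable {U : Type*} [DecidableEq U] {I W C : Finset U} {E : Finset (U × U)} {o : U}
  {L : Fin 2 → (U → ℝ) → U → ℝ} {ctr : Fin 2 → ℝ} {cL R ρ : ℝ}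

/-- reference pair of fields seen on a window -/
structure RefP (I W : Finset U) (E : Finset (U × U)) (o : U) (L : Fin 2 → (U → ℝ) → U → ℝ)
    (ctr : Fin 2 → ℝ) (cL R ρ : ℝ) : Prop where
  IW : I ⊆ W
  oW : o ∈ W
  oI : o ∉ I
  ends : ∀ p ∈ E, p.1 ∈ W ∧ p.2 ∈ W
  cL0 : 0 ≤ cL
  R0 : 0 ≤ R
  ρ0 : 0 < ρ
  lip : ∀ i h h' (M : ℝ), (∀ w ∈ W, |h w - h' w| ≤ M) → ∀ u ∈ I, |L i h u - L i h' u| ≤ cL * M
  sh : ∀ i h (c : ℝ) u, L i (fun v => h v + c) u = L i h u
  rig : ∀ i h, ∀ p ∈ E, Inn I p → 1 - ρ ≤ |h p.1 - h p.2| → L i h p.1 = L i h p.2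
  near : ∀ h, ∀ u ∈ I, N2 (L 0 h u - ctr 0) (L 1 h u - ctr 1) ≤ R ^ 2

/-- local templates -/
structure Tmpl (I W C : Finset U) (E : Finset (U × U)) (T : Fin 2 → (U → ℝ) → I → ℝ) (K : ℝ) :
    Prop where
  lip : ∃ cT : ℝ, 0 ≤ cT ∧ ∀ i h h' (M : ℝ), (∀ w ∈ W, |h w - h' w| ≤ M) →
    ∀ w : I, |T i h w - T i h' w| ≤ cT * M
  bd : ∀ i h w, |T i h w| ≤ K
  core : ∀ i h (w : I), (w : U) ∉ C → T i h w = 0
  sh : ∀ i h (c : ℝ) w, T i (fun v => h v + c) w = T i h w
  rig : ∃ ρ > 0, ∀ i h, (∀ p ∈ E, Inn I p → |h p.1 - h p.2| ≤ 1) →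
    ∀ a b : I, ((a : U), (b : U)) ∈ E → 1 - ρ ≤ |h a - h b| → T i h a = T i h b

/-! ### clipping of a pair -/

/-- the retraction as a map of pairs -/
def clp (R : ℝ) (a : Fin 2 → ℝ) (i : Fin 2) : ℝ := rfac R (a 0) (a 1) * a i

theorem clp_zero (R : ℝ) (a : Fin 2 → ℝ) : clp R a 0 = cl0 R (a 0) (a 1) := rfl
theorem clp_one (R : ℝ) (a : Fin 2 → ℝ) : clp R a 1 = cl1 R (a 0) (a 1) := rfl

theorem abs_clp_le (hR : 0 ≤ R) (a : Fin 2 → ℝ) (i : Fin 2) : |clp R a i| ≤ 2 * R := by
  have h := abs_cl_le hR (a 0) (a 1)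
  fin_cases i
  · exact h.1
  · exact h.2

theorem clp_eq (hR : 0 ≤ R) {a : Fin 2 → ℝ} (h : N2 (a 0) (a 1) ≤ R ^ 2) (i : Fin 2) :
    clp R a i = a i := by
  have h := cl_eq hR h
  fin_cases i
  · exact h.1
  · exact h.2

theorem abs_clp_sub_le (hR : 0 ≤ R) {a b : Fin 2 → ℝ} {M : ℝ} (h : ∀ i, |a i - b i| ≤ M)
    (i : Fin 2) : |clp R a i - clp R b i| ≤ 4 * M := by
  have h := abs_cl_sub_le hR (h 0) (h 1)
  fin_cases i
  · exact h.1
  · exact h.2

/-! ### one template -/

/-- heights of the block seen from the reference site -/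
def res (o : U) (h : U → ℝ) : I → ℝ := fun u => h u - h o

/-- unclipped centred field -/
def raw (L : Fin 2 → (U → ℝ) → U → ℝ) (ctr : Fin 2 → ℝ) (o : U)
    (D : Fin 2 → (I → ℝ) → (I → ℝ)) (h : U → ℝ) (w : I) (i : Fin 2) : ℝ :=
  (L i h w - ctr i) + D i (res o h) w

/-- one template -/
def tpl (R : ℝ) (L : Fin 2 → (U → ℝ) → U → ℝ) (ctr : Fin 2 → ℝ) (o : U)
    (D : Fin 2 → (I → ℝ) → (I → ℝ)) (i : Fin 2) (h : U → ℝ) (w : I) : ℝ :=
  clp R (raw L ctr o D h w) i - (L i h w - ctr i)

theorem RefP.abs_le (H : RefP I W E o L ctr cL R ρ) (h : U → ℝ) {u : U} (hu : u ∈ I) (i : Fin 2) :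
    |L i h u - ctr i| ≤ 2 * R := by
  have h := abs_le_of_N2 H.R0 (H.near h u hu)
  fin_cases i
  · exact h.1
  · exact h.2

theorem tmpl_tpl (H : RefP I W E o L ctr cL R ρ) {D : Fin 2 → (I → ℝ) → (I → ℝ)}
    (hD : ∀ i, V0f I E C (D i)) : Tmpl I W C E (tpl R L ctr o D) (4 * R) where
  lip := by
    choose c hc using fun i => (hD i).lip
    set k : ℝ := cL + 2 * ((c 0 : ℝ) + c 1) with hk
    have hk0 : 0 ≤ k := by
      have h0 := (c 0).2
      have h1 := (c 1).2
      have := H.cL0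
      positivity
    refine ⟨4 * k + cL, by have := H.cL0; linarith, fun i h h' M hM w => ?_⟩
    have hM0 : 0 ≤ M := (abs_nonneg _).trans (hM o H.oW)
    have hL : ∀ i, |L i h w - L i h' w| ≤ cL * M := fun i => H.lip i h h' M hM w w.2
    have hraw : ∀ i, |raw L ctr o D h w i - raw L ctr o D h' w i| ≤ k * M := by
      intro i
      have h1 : dist (res o h : I → ℝ) (res o h') ≤ 2 * M := by
        rw [dist_pi_le_iff (by linarith)]
        intro u
        rw [Real.dist_eq]
        have e : res (I := I) o h u - res o h' u = (h u - h' u) - (h o - h' o) := by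
          simp only [res]; ring
        rw [e]
        refine (abs_sub _ _).trans ?_
        linarith [hM u (H.IW u.2), hM o H.oW]
      have h2 : |D i (res o h) w - D i (res o h') w| ≤ c i * (2 * M) := by
        rw [← Real.dist_eq]
        refine (dist_le_pi_dist _ _ w).trans (((hc i).dist_le_mul _ _).trans ?_)
        exact mul_le_mul_of_nonneg_left h1 (c i).2
      have h3 : (c i : ℝ) ≤ c 0 + c 1 := by
        have h0 := (c 0).2
        have h1 := (c 1).2
        fin_cases i
        · simp only [Fin.zero_eta]; exact le_add_of_nonneg_right h1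
        · simp only [Fin.mk_one]; exact le_add_of_nonneg_left h0
      have e : raw L ctr o D h w i - raw L ctr o D h' w i =
          (L i h w - L i h' w) + (D i (res o h) w - D i (res o h') w) := by
        simp only [raw]; ring
      rw [e]
      refine (abs_add_le _ _).trans ?_
      have h4 : (c i : ℝ) * (2 * M) ≤ (c 0 + c 1) * (2 * M) :=
        mul_le_mul_of_nonneg_right h3 (by linarith)
      rw [hk]
      linarith [hL i]
    have h5 := abs_clp_sub_le H.R0 hraw i
    have e : tpl R L ctr o D i h w - tpl R L ctr o D i h' w =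
        (clp R (raw L ctr o D h w) i - clp R (raw L ctr o D h' w) i) - (L i h w - L i h' w) := by
      simp only [tpl]; ring
    rw [e]
    refine (abs_sub _ _).trans ?_
    linarith [hL i]
  bd := fun i h w => by
    have h1 := abs_clp_le H.R0 (raw L ctr o D h w) i
    have h2 := H.abs_le h w.2 i
    refine (abs_sub _ _).trans ?_
    linarith
  core := fun i h w hw => by
    have e : ∀ i, raw L ctr o D h w i = L i h w - ctr i := fun i => by
      simp only [raw]; rw [(hD i).core _ w hw, add_zero]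
    have h1 : N2 (raw L ctr o D h w 0) (raw L ctr o D h w 1) ≤ R ^ 2 := by
      rw [e, e]; exact H.near h w w.2
    unfold tpl
    rw [clp_eq H.R0 h1, e, sub_self]
  sh := fun i h c w => by
    have e : res (I := I) o (fun v => h v + c) = res o h := by
      funext u; simp only [res]; ring
    unfold tpl raw
    simp only [H.sh, e]
  rig := by
    choose r hr0 hr using fun i => (hD i).rig
    refine ⟨min ρ (min (r 0) (r 1)), lt_min H.ρ0 (lt_min (hr0 0) (hr0 1)), ?_⟩
    intro i h hh a b hab hge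
    have hi : Inn I ((a : U), (b : U)) := ⟨a.2, b.2⟩
    have e1 : ∀ p : U × U, Inn I p →
        ext I 0 (res o h : I → ℝ) p.1 - ext I 0 (res o h) p.2 = h p.1 - h p.2 := by
      intro p hp
      rw [ext_mem hp.1, ext_mem hp.2]; simp only [res]; ring
    have m1 : min ρ (min (r 0) (r 1)) ≤ ρ := min_le_left _ _
    have hL : ∀ i, L i h a = L i h b := fun i => H.rig i h _ hab hi (by linarith)
    have hDe : ∀ i, D i (res o h) a = D i (res o h) b := by
      intro i
      have m2 : min ρ (min (r 0) (r 1)) ≤ r i := by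
        refine (min_le_right _ _).trans ?_
        fin_cases i
        · exact min_le_left _ _
        · exact min_le_right _ _
      have h1 := hr i (res o h) (fun p hp hpi => by rw [e1 p hpi]; exact hh p hp hpi) _ hab hi
        (by rw [e1 _ hi]; linarith)
      rw [ext_mem a.2, ext_mem b.2] at h1
      exact h1
    have hraw : raw L ctr o D h a = raw L ctr o D h b := by
      funext i; simp only [raw, hL i, hDe i]
    simp only [tpl, hraw, hL i]

/-! ### mixtures -/

/-- the data of the window seen from the reference site -/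
def zt (I W : Finset U) (o : U) (h : U → ℝ) : ↥(W \ I) → ℝ := fun b => h b - h o

/-- mixture of templates -/
def mix (o : U) (N : ℕ) (χ : ℕ → (↥(W \ I) → ℝ) → ℝ) (T : ℕ → Fin 2 → (U → ℝ) → I → ℝ)
    (i : Fin 2) (h : U → ℝ) (w : I) : ℝ :=
  ∑ j ∈ Finset.range N, χ j (zt I W o h) * T j i h w

theorem dist_zt_le (oW : o ∈ W) {h h' : U → ℝ} {M : ℝ} (hM : ∀ w ∈ W, |h w - h' w| ≤ M) :
    dist (zt I W o h) (zt I W o h') ≤ 2 * M := by
  have hM0 : 0 ≤ M := (abs_nonneg _).trans (hM o oW)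
  rw [dist_pi_le_iff (by linarith)]
  intro u
  rw [Real.dist_eq]
  have e : zt I W o h u - zt I W o h' u = (h u - h' u) - (h o - h' o) := by
    simp only [zt]; ring
  rw [e]
  refine (abs_sub _ _).trans ?_
  linarith [hM u (Finset.mem_sdiff.1 u.2).1, hM o oW]

theorem tmpl_mix (oW : o ∈ W) {K : ℝ} (hK : 0 ≤ K) {N : ℕ}
    {χ : ℕ → (↥(W \ I) → ℝ) → ℝ} {T : ℕ → Fin 2 → (U → ℝ) → I → ℝ}
    (hT : ∀ j, Tmpl I W C E (T j) K) (hχL : ∀ j, ∃ k : ℝ≥0, LipschitzWith k (χ j))
    (hχ0 : ∀ j x, 0 ≤ χ j x) (hχ1 : ∀ x, ∑ j ∈ Finset.range N, χ j x ≤ 1) :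
    Tmpl I W C E (mix o N χ T) K where
  lip := by
    choose k hk using hχL
    choose c hc0 hc using fun j => (hT j).lip
    refine ⟨∑ j ∈ Finset.range N, (k j * 2 * K + c j),
      Finset.sum_nonneg fun j _ => by have := hc0 j; positivity, fun i h h' M hM w => ?_⟩
    have hM0 : 0 ≤ M := (abs_nonneg _).trans (hM o oW)
    have h1 : ∀ j ∈ Finset.range N, |χ j (zt I W o h) * T j i h w - χ j (zt I W o h') * T j i h' w| ≤
        (k j * 2 * K + c j) * M := by
      intro j hj
      have h2 : |χ j (zt I W o h) - χ j (zt I W o h')| ≤ k j * (2 * M) := by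
        rw [← Real.dist_eq]
        exact ((hk j).dist_le_mul _ _).trans
          (mul_le_mul_of_nonneg_left (dist_zt_le oW hM) (k j).2)
      have h3 : |χ j (zt I W o h')| ≤ 1 := by
        rw [abs_of_nonneg (hχ0 j _)]
        exact (Finset.single_le_sum (f := fun j => χ j (zt I W o h')) (fun j _ => hχ0 j _) hj).trans
          (hχ1 _)
      have e : χ j (zt I W o h) * T j i h w - χ j (zt I W o h') * T j i h' w =
          (χ j (zt I W o h) - χ j (zt I W o h')) * T j i h w +
            χ j (zt I W o h') * (T j i h w - T j i h' w) := by ring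
      rw [e]
      refine (abs_add_le _ _).trans ?_
      rw [abs_mul, abs_mul]
      have h4 := mul_le_mul h2 ((hT j).bd i h w) (abs_nonneg _) (by positivity)
      have h5 := mul_le_mul h3 (hc j i h h' M hM w) (abs_nonneg _) zero_le_one
      calc _ ≤ k j * (2 * M) * K + 1 * (c j * M) := add_le_add h4 h5
        _ = (k j * 2 * K + c j) * M := by ring
    simp only [mix]
    rw [← Finset.sum_sub_distrib, Finset.sum_mul]
    exact (Finset.abs_sum_le_sum_abs _ _).trans (Finset.sum_le_sum h1)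
  bd := fun i h w => by
    refine (Finset.abs_sum_le_sum_abs _ _).trans ?_
    calc ∑ j ∈ Finset.range N, |χ j (zt I W o h) * T j i h w|
        ≤ ∑ j ∈ Finset.range N, χ j (zt I W o h) * K := by
          refine Finset.sum_le_sum fun j _ => ?_
          rw [abs_mul, abs_of_nonneg (hχ0 j _)]
          exact mul_le_mul_of_nonneg_left ((hT j).bd i h w) (hχ0 j _)
      _ = (∑ j ∈ Finset.range N, χ j (zt I W o h)) * K := by rw [Finset.sum_mul]
      _ ≤ 1 * K := mul_le_mul_of_nonneg_right (hχ1 _) hK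
      _ = K := one_mul K
  core := fun i h w hw => by
    simp only [mix]
    exact Finset.sum_eq_zero fun j _ => by rw [(hT j).core i h w hw, mul_zero]
  sh := fun i h c w => by
    have e : zt I W o (fun v => h v + c) = zt I W o h := by
      funext u; simp only [zt]; ring
    simp only [mix, e, (hT _).sh]
  rig := by
    choose r hr0 hr using fun j => (hT j).rig
    have h2 : ∃ δ > 0, ∀ p ∈ Finset.range N, δ ≤ r p := by
      generalize Finset.range N = s
      induction s using Finset.induction_on with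
      | empty => exact ⟨1, one_pos, by simp⟩
      | insert a s _ ih =>
        obtain ⟨δ, hδ, h3⟩ := ih
        refine ⟨min δ (r a), lt_min hδ (hr0 a), fun p hp => ?_⟩
        rcases Finset.mem_insert.1 hp with rfl | hp
        · exact min_le_right _ _
        · exact (min_le_left _ _).trans (h3 p hp)
    obtain ⟨δ, hδ, h3⟩ := h2
    refine ⟨δ, hδ, fun i h hh a b hab hge => ?_⟩
    simp only [mix]
    refine Finset.sum_congr rfl fun j hj => ?_
    rw [hr j i h hh a b hab (by linarith [h3 j hj])]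

end Crest.Agent.R144.LoA770
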