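import Crest.Agent.R144.LoB9_95
import Crest.Agent.R144.Bl3_565
import Crest.Agent.R144.LoC0_95

-- ▼ part R144/LoC1_95
section

/-!
# R144 (S0197), helper95, lower bound, instances, file 1: lattice windows in a graph

`Lch F E e Rg dd m` : the chart `e : P2 → U` identifies the neighbourhood of the region `Rg` of the
triangular lattice with a part of the graph `(U, E)`.  `Lch.gm` : the geometry of the blocks
`q + I`, `q ∈ Q`.  `Z_tr` : transport of 560's fields for charts injective on the window.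
-/

set_option autoImplicit false
set_option linter.unusedSectionVars false

open MeasureTheory Set Filter Topology
open scoped ENNReal NNReal

noncomputable section

namespace Crest.Agent.R144.LoC95

open Crest.Agent.R144.Ham560
open Crest.Agent.R144.Tri560
open Crest.Agent.R144.Zb560 (sr iv IsOpt pt cz Zx gx gq lp pt_spec pt_mem' op isOpt_op no_visit
  cz_nonneg mem_lp single_mem_pt Ei mem_nbr_Ei)
open Crest.Agent.R144.LoB95
open Crest.Agent.R144.Lc279 (lat mem_lat mem_nbr_lat P2)
open Crest.Agent.R144.Lw425 (hd hd_comm hd_le_iff mem_hball hball hd_self hd_triangle hd_pos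
  hd_nonneg)
open Crest.Agent.R144.Bl565 (Par ps L2 win cor mem_win mem_cor subset_win cor_subset hd_add
  abs_ps_sub_le)

variable {U : Type*} [DecidableEq U]

/-! ### transport of the fields -/


/-! ### charts -/

/-- The chart `e` identifies the neighbourhood of the region `Rg` with a part of the graph. -/
structure Lch (F : Finset U) (E : Finset (U × U)) (e : P2 → U) (Rg : Finset P2)
    (dd : U → U → ℕ) (m : ℕ) : Prop where
  inj : Set.InjOn e (win 2 Rg)
  sub : ∀ a ∈ Rg, e a ∈ F
  nb : ∀ a ∈ win 1 Rg, ∀ u, u ∈ nbr E (e a) ↔ ∃ b, hd a b = 1 ∧ e b = u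
  dd0 : ∀ a, dd a a = 0
  dds : ∀ a b, dd a b = dd b a
  ddt : ∀ a b d, dd a d ≤ dd a b + dd b d
  dd1 : ∀ a b, b ∈ nbr E a → dd a b ≤ 1
  ddl : ∀ a ∈ Rg, ∀ b ∈ Rg, (dd (e a) (e b) : ℤ) ≤ hd a b
  ddc : ∀ a ∈ Rg, ∀ z, dd (e a) z ≤ m → ∃ b, e b = z ∧ hd a b ≤ (dd (e a) z : ℤ)

/-- translates -/
def tr (q : P2) (A : Finset P2) : Finset P2 := A.image (q + ·)

theorem mem_tr {q : P2} {A : Finset P2} {v : P2} : v ∈ tr q A ↔ v - q ∈ A := by
  rw [tr, Finset.mem_image]
  constructor
  · rintro ⟨a, ha, rfl⟩; simpa using ha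
  · intro h; exact ⟨v - q, h, by abel⟩

theorem add_mem_tr {q : P2} {A : Finset P2} {v : P2} : q + v ∈ tr q A ↔ v ∈ A := by
  rw [mem_tr, add_sub_cancel_left]

theorem tr_subset {q : P2} {A B : Finset P2} (h : A ⊆ B) : tr q A ⊆ tr q B := fun v hv => by
  rw [mem_tr] at hv ⊢; exact h hv

theorem card_tr (q : P2) (A : Finset P2) : (tr q A).card = A.card := by
  rw [tr, Finset.card_image_of_injective]
  intro a b h
  simpa using h

/-- a family of positions of the block `I` -/
structure Pos (I : Finset P2) (m : ℕ) (Rg : Finset P2) (Q : Finset P2) : Prop where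
  m1 : 1 ≤ m
  dis : ∀ q ∈ Q, ∀ q' ∈ Q, ∀ v, v ∈ tr q I → v ∈ tr q' I → q = q'
  inn : ∀ q ∈ Q, tr q (win m I) ⊆ Rg

section

variable {F : Finset U} {E : Finset (U × U)} {e : P2 → U} {Rg : Finset P2} {dd : U → U → ℕ}
  {m : ℕ} {I Q : Finset P2}

theorem win_mono {m m' : ℕ} (h : m ≤ m') (A : Finset P2) : win m A ⊆ win m' A := fun v hv => by
  rw [mem_win] at hv ⊢
  obtain ⟨a, ha, h1⟩ := hv
  exact ⟨a, ha, h1.trans (by exact_mod_cast h)⟩

theorem mem_win_one {A : Finset P2} {a b : P2} (ha : a ∈ A) (h : hd a b = 1) : b ∈ win 1 A := by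
  rw [mem_win]
  exact ⟨a, ha, by rw [hd_comm, h]; simp⟩

theorem mem_win_succ {n : ℕ} {A : Finset P2} {a b : P2} (ha : a ∈ win n A) (h : hd a b = 1) :
    b ∈ win (n + 1) A := by
  rw [mem_win] at ha ⊢
  obtain ⟨c, hc, h1⟩ := ha
  refine ⟨c, hc, ?_⟩
  have := hd_triangle b a c
  rw [hd_comm b a, h] at this
  push_cast
  linarith

/-- the active sites -/
abbrev SS (e : P2 → U) (Rg : Finset P2) : Finset U := Rg.image e

/-- the block at `q`, in the graph -/
abbrev bI (e : P2 → U) (A : Finset P2) (q : P2) : Finset U := (tr q A).image e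

namespace Lch

variable (H : Lch F E e Rg dd m)
include H

theorem inj1 {a b : P2} (ha : a ∈ win 1 Rg) (hb : b ∈ win 1 Rg) (h : e a = e b) : a = b :=
  H.inj (win_mono one_le_two _ ha) (win_mono one_le_two _ hb) h

theorem inj0 {a b : P2} (ha : a ∈ Rg) (hb : b ∈ Rg) (h : e a = e b) : a = b :=
  H.inj1 (subset_win _ _ ha) (subset_win _ _ hb) h

theorem mem_image {A : Finset P2} (hA : A ⊆ Rg) {a : P2} (ha : a ∈ Rg) :
    e a ∈ A.image e ↔ a ∈ A := by
  constructor
  · intro h
    obtain ⟨b, hb, he⟩ := Finset.mem_image.mp h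
    rwa [← H.inj0 (hA hb) ha he]
  · exact Finset.mem_image_of_mem e

/-- adjacency inside the region -/
theorem nbr_iff {a b : P2} (ha : a ∈ win 1 Rg) (hb : b ∈ win 1 Rg) :
    e b ∈ nbr E (e a) ↔ hd a b = 1 := by
  rw [H.nb a ha]
  constructor
  · rintro ⟨c, hc, he⟩
    have hc' : c ∈ win 2 Rg := mem_win_succ ha hc
    rwa [← H.inj hc' (win_mono one_le_two _ hb) he]
  · intro h
    exact ⟨b, h, rfl⟩

/-- the geometry of the blocks -/
theorem gm (P : Pos I m Rg Q) :
    Gm F (SS e Rg) ((win 1 Rg).image e) E (fun q : Q => bI e I q) (fun q : Q => bI e (cor m I) q)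
      (fun q : Q => bI e (win m I) q) (fun q : Q => bI e (win m I) q) dd (m + 1) where
  SF := by
    intro u hu
    obtain ⟨a, ha, rfl⟩ := Finset.mem_image.mp hu
    exact H.sub a ha
  SS := Finset.image_subset_image (subset_win _ _)
  nS := by
    intro u hu v hv
    obtain ⟨a, ha, rfl⟩ := Finset.mem_image.mp hu
    obtain ⟨b, hb, rfl⟩ := (H.nb a (subset_win _ _ ha) v).mp hv
    exact Finset.mem_image_of_mem e (mem_win_one ha hb)
  IS := fun q => Finset.image_subset_image ((tr_subset (subset_win _ _)).trans (P.inn q q.2))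
  sub := fun q => Finset.image_subset_image (tr_subset (cor_subset _ _))
  disj := by
    intro q q' v hv hv'
    obtain ⟨a, ha, rfl⟩ := Finset.mem_image.mp hv
    have haR := P.inn q q.2 (tr_subset (subset_win _ _) ha)
    rw [H.mem_image ((tr_subset (subset_win _ _)).trans (P.inn q' q'.2)) haR] at hv'
    exact Subtype.ext (P.dis q q.2 q' q'.2 a ha hv')
  k1 := by have := P.m1; omega
  dd0 := H.dd0
  dds := H.dds
  ddt := H.ddt
  dd1 := H.dd1
  deep := by
    intro q w hw z hz
    by_contra hlt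
    obtain ⟨a, ha, rfl⟩ := Finset.mem_image.mp hw
    have ha' := (mem_tr.mp ha)
    rw [mem_cor] at ha'
    have haR := P.inn q q.2 (mem_tr.mpr (subset_win _ _ ha'.1))
    obtain ⟨b, rfl, hb⟩ := H.ddc a haR z (by rw [H.dds]; omega)
    refine hz (Finset.mem_image_of_mem e (mem_tr.mpr (ha'.2 _ ?_)))
    have h1 : hd (b - q) (a - q) = hd a b := by
      rw [hd_comm]
      have := hd_add (q : P2) (a - q) (b - q)
      simp only [add_sub_cancel] at this
      exact this.symm
    rw [h1]
    rw [H.dds] at hlt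
    have : ((dd (e a) (e b) : ℕ) : ℤ) ≤ m := by omega
    push_cast
    omega
  WS := fun q => Finset.image_subset_image (P.inn q q.2)
  Wc := by
    intro q v hv
    obtain ⟨a, ha, rfl⟩ := Finset.mem_image.mp hv
    obtain ⟨c, hc, h1⟩ := mem_win.mp (mem_tr.mp ha)
    refine ⟨e (q + c), Finset.mem_image_of_mem e (add_mem_tr.mpr hc), ?_⟩
    have hcR : (q : P2) + c ∈ Rg := P.inn q q.2 (add_mem_tr.mpr (subset_win _ _ hc))
    have h2 := H.ddl _ hcR a (P.inn q q.2 ha)
    have h3 : hd ((q : P2) + c) a = hd (a - q) c := by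
      have := hd_add (q : P2) c (a - q)
      simp only [add_sub_cancel] at this
      rw [this, hd_comm]
    rw [h3] at h2
    omega
  Ww := by
    intro q w hw z hz hlt
    obtain ⟨a, ha, rfl⟩ := Finset.mem_image.mp hw
    obtain ⟨b, hb, rfl⟩ := Finset.mem_image.mp hz
    have haR := P.inn q q.2 (tr_subset (subset_win _ _) ha)
    obtain ⟨b', he, hb'⟩ := H.ddc a haR (e b) (by omega)
    have hbw : b' ∈ tr q (win m I) := by
      rw [mem_tr, mem_win]
      refine ⟨a - q, mem_tr.mp ha, ?_⟩
      have h1 : hd (b' - q) (a - q) = hd a b' := by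
        rw [hd_comm]
        have := hd_add (q : P2) (a - q) (b' - q)
        simp only [add_sub_cancel] at this
        exact this.symm
      rw [h1]
      omega
    rw [← he]
    exact Finset.mem_image_of_mem e hbw
  NS := fun q => Finset.image_subset_image (P.inn q q.2)
  IN := fun q => Finset.image_subset_image (tr_subset (subset_win _ _))
  bN := by
    intro q z hz _ hz'
    obtain ⟨a, ha, rfl⟩ := Finset.mem_image.mp hz
    obtain ⟨z', hz1, hz2⟩ := hz'
    obtain ⟨c, hc, rfl⟩ := Finset.mem_image.mp hz1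
    have hcR := P.inn q q.2 (tr_subset (subset_win _ _) hc)
    rw [H.nbr_iff (subset_win _ _ ha) (subset_win _ _ hcR)] at hz2
    refine Finset.mem_image_of_mem e (mem_tr.mpr (mem_win.mpr ⟨c - q, mem_tr.mp hc, ?_⟩))
    have h1 : hd (a - q) (c - q) = hd a c := by
      have := hd_add (q : P2) (a - q) (c - q)
      simp only [add_sub_cancel] at this
      exact this.symm
    rw [h1, hz2]
    exact_mod_cast P.m1

end Lch

end

end Crest.Agent.R144.LoC95
end
end

-- ▼ part R144/LoC2_95

/-!
# R144 (S0197), helper95, lower bound, instances, file 2: placed templates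

`Loc F E Rg` : the graph is the lattice near `Rg`.  `Loc.gm` : geometry.  `Tp` : the placed
templates, `exists_tm` : they satisfy `Tm` with a constant independent of the graph.
`Qb_eq` : the block functional is the quadratic form of `Ph`.
-/

set_option autoImplicit false
set_option linter.unusedSectionVars false

open MeasureTheory Set Filter Topology
open scoped ENNReal NNReal

noncomputable section

namespace Crest.Agent.R144.LoC95

open Crest.Agent.R144.Ham560
open Crest.Agent.R144.Tri560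
open Crest.Agent.R144.Fib674 (pd)
open Crest.Agent.R144.LoB95
open Crest.Agent.R144.Lc279 (lat mem_lat mem_nbr_lat P2)
open Crest.Agent.R144.Lw425 (hd hd_comm hd_le_iff mem_hball hball hd_self hd_triangle hd_pos
  hd_nonneg)
open Crest.Agent.R144.Bl565 (Par ps L2 win cor mem_win mem_cor subset_win cor_subset hd_add
  abs_ps_sub_le sym_add qd ps_sum)

/-- the graph is the lattice near the region -/
structure Loc (F : Finset P2) (E : Finset (P2 × P2)) (Rg : Finset P2) : Prop where
  sub : Rg ⊆ F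
  nb : ∀ a ∈ win 1 Rg, ∀ b, b ∈ nbr E a ↔ hd a b = 1
  sh : ∀ a b, b ∈ nbr E a → hd a b ≤ 1

/-- hexagonal distance as a natural number -/
def hn (a b : P2) : ℕ := (hd a b).toNat

theorem coe_hn (a b : P2) : ((hn a b : ℕ) : ℤ) = hd a b := Int.toNat_of_nonneg (hd_nonneg a b)

variable {F : Finset P2} {E : Finset (P2 × P2)} {Rg : Finset P2} {m : ℕ} {I Q : Finset P2}

theorem Loc.lch (H : Loc F E Rg) (m : ℕ) : Lch F E (fun a => a) Rg hn m where
  inj := fun a _ b _ h => h
  sub := H.sub
  nb := by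
    intro a ha u
    rw [H.nb a ha]
    simp
  dd0 a := by simp [hn, hd_self]
  dds a b := by rw [hn, hn, hd_comm]
  ddt a b d := by
    have := hd_triangle a b d
    rw [← coe_hn, ← coe_hn, ← coe_hn] at this
    exact_mod_cast this
  dd1 a b h := by
    have := H.sh a b h
    rw [← coe_hn] at this
    exact_mod_cast this
  ddl a _ b _ := by rw [coe_hn]
  ddc a _ z _ := ⟨z, rfl, by rw [coe_hn]⟩

theorem image_id' (A : Finset P2) : A.image (fun a : P2 => a) = A := by
  ext a; simp

theorem Loc.gm (H : Loc F E Rg) (P : Pos I m Rg Q) :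
    Gm F Rg (win 1 Rg) E (fun q : Q => tr q I) (fun q : Q => tr q (cor m I))
      (fun q : Q => tr q (win m I)) (fun q : Q => tr q (win m I)) hn (m + 1) := by
  have h := (H.lch m).gm P
  simpa only [image_id'] using h

/-! ### placed templates -/

/-- the configuration seen from `q` -/
def hq (F : Finset P2) (ξ : P2 → ℝ) (x : F → ℝ) (q : P2) (a : P2) : ℝ := ext F ξ x (q + a)

open Classical in
/-- the placed templates -/
def Tp (F : Finset P2) (ξ : P2 → ℝ) (Q : Finset P2) (m : ℕ) (I : Finset P2)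
    (Tl : Fin 2 → (P2 → ℝ) → P2 → ℝ) (i : Fin 2) (x : F → ℝ) (w : F) : ℝ :=
  ∑ q ∈ Q, if (w : P2) ∈ tr q (cor m I) then Tl i (hq F ξ x q) (w - q) else 0

variable {ξ : P2 → ℝ} {Tl : Fin 2 → (P2 → ℝ) → P2 → ℝ} {B C : ℝ}

theorem Tp_eq (P : Pos I m Rg Q) (i : Fin 2) (x : F → ℝ) {w : F} {q : P2} (hqQ : q ∈ Q)
    (hw : (w : P2) ∈ tr q (cor m I)) : Tp F ξ Q m I Tl i x w = Tl i (hq F ξ x q) (w - q) := by
  classical
  rw [Tp, Finset.sum_eq_single q]
  · rw [if_pos hw]
  · intro q' hq' hne
    rw [if_neg]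
    intro h'
    exact hne (P.dis q' hq' q hqQ _ (tr_subset (cor_subset _ _) h') (tr_subset (cor_subset _ _) hw))
  · intro h; exact absurd hqQ h

theorem Tp_zero (i : Fin 2) (x : F → ℝ) {w : F} (hw : ∀ q ∈ Q, (w : P2) ∉ tr q (cor m I)) :
    Tp F ξ Q m I Tl i x w = 0 :=
  Finset.sum_eq_zero fun q hqQ => by rw [if_neg (hw q hqQ)]

theorem Tp_eq' (P : Pos I m Rg Q) (T : Tpl m I Tl B C) (i : Fin 2) (x : F → ℝ) {w : F} {q : P2}
    (hqQ : q ∈ Q) (hw : (w : P2) ∈ tr q I) :
    Tp F ξ Q m I Tl i x w = Tl i (hq F ξ x q) (w - q) := by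
  by_cases h : (w : P2) ∈ tr q (cor m I)
  · exact Tp_eq P i x hqQ h
  · rw [T.off i _ _ (fun h' => h (mem_tr.mpr h')), Tp_zero]
    intro q' hq' h'
    have := P.dis q' hq' q hqQ _ (tr_subset (cor_subset _ _) h') hw
    subst this
    exact h h'

theorem Tpl.C_nonneg (T : Tpl m I Tl B C) : 0 ≤ C := by
  have := T.lip 0 0 0 1 (fun _ _ => by simp) 0
  simp only [sub_self, abs_zero, mul_one] at this
  exact this

theorem Tpl.B_nonneg (T : Tpl m I Tl B C) : 0 ≤ B := (abs_nonneg _).trans (T.bdd 0 0 0)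

/-- the placed templates are admissible, with constants independent of the graph -/
theorem exists_tm (T : Tpl m I Tl B C) : ∃ CT : ℝ, 0 ≤ CT ∧ ∀ (F : Finset P2)
    (E : Finset (P2 × P2)) (ξ : P2 → ℝ) (Rg Q : Finset P2), Loc F E Rg → Pos I m Rg Q →
    Tm F E ξ Rg (fun q : Q => tr q (cor m I)) (fun q : Q => tr q (win m I))
      (Tp F ξ Q m I Tl) CT B := by
  obtain ⟨r0, hr0, hrig⟩ := T.rig
  have hC := T.C_nonneg
  have hB := T.B_nonneg
  refine ⟨C + 2 * B / r0, by positivity, fun F E ξ Rg Q H P => ?_⟩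
  have hCT : C ≤ C + 2 * B / r0 := by
    have : 0 ≤ 2 * B / r0 := by positivity
    linarith
  have hCT2 : 2 * B / r0 ≤ C + 2 * B / r0 := by linarith
  have bdd : ∀ i (x : F → ℝ) (w : F), |Tp F ξ Q m I Tl i x w| ≤ B := by
    intro i x w
    by_cases h : ∃ q ∈ Q, (w : P2) ∈ tr q (cor m I)
    · obtain ⟨q, hqQ, hw⟩ := h
      rw [Tp_eq P i x hqQ hw]
      exact T.bdd _ _ _
    · push Not at h
      rw [Tp_zero i x h, abs_zero]
      exact hB
  -- one side in the deep part
  have edge1 : ∀ i, ∀ x ∈ ham F E ξ, ∀ a b : F, (a : P2) ∈ Rg → (b : P2) ∈ nbr E a →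
      (∃ q ∈ Q, (a : P2) ∈ tr q (cor m I)) →
      |Tp F ξ Q m I Tl i x a - Tp F ξ Q m I Tl i x b| ≤ (C + 2 * B / r0) * slk F ξ x a b := by
    rintro i x hx a b haR hab ⟨q, hqQ, ha⟩
    have hab' : hd (a : P2) b = 1 := (H.nb _ (subset_win _ _ haR) _).mp hab
    have ha' := mem_tr.mp ha
    rw [mem_cor] at ha'
    have hb' : (b : P2) - q ∈ I := by
      refine ha'.2 _ ?_
      have h1 : hd ((b : P2) - q) (a - q) = 1 := by
        have := hd_add q ((b : P2) - q) (a - q)
        simp only [add_sub_cancel] at this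
        rw [← this, hd_comm, hab']
      rw [h1]
      have := P.m1
      push_cast
      omega
    have hbI : (b : P2) ∈ tr q I := mem_tr.mpr hb'
    rw [Tp_eq P i x hqQ ha, Tp_eq' P T i x hqQ hbI]
    have hint : ∀ u ∈ I, ∀ v ∈ I, hd u v = 1 → |hq F ξ x q u - hq F ξ x q v| ≤ 1 := by
      intro u hu v hv huv
      have h1 : q + u ∈ Rg := P.inn q hqQ (add_mem_tr.mpr (subset_win _ _ hu))
      have h2 : q + v ∈ nbr E (q + u) := by
        rw [H.nb _ (subset_win _ _ h1), hd_add]; exact huv
      exact abs_ext_sub_le hx h2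
    have hs := slk_nonneg (ξ := ξ) x (a : P2) b
    by_cases hr : 1 - r0 ≤ |hq F ξ x q (a - q) - hq F ξ x q (b - q)|
    · have h1 : hd ((a : P2) - q) (b - q) = 1 := by
        have := hd_add q ((a : P2) - q) (b - q)
        simp only [add_sub_cancel] at this
        rw [← this, hab']
      rw [hrig i _ hint _ ha'.1 _ hb' h1 hr, sub_self, abs_zero]
      positivity
    · push Not at hr
      have h2 : r0 ≤ slk F ξ x a b := by
        have e1 : hq F ξ x q (a - q) = ext F ξ x a := by simp [hq]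
        have e2 : hq F ξ x q (b - q) = ext F ξ x b := by simp [hq]
        rw [e1, e2] at hr
        have : 1 - |ext F ξ x a - ext F ξ x b| ≤ slk F ξ x a b := le_max_right _ _
        linarith
      calc |Tl i (hq F ξ x q) (a - q) - Tl i (hq F ξ x q) (b - q)| ≤ B + B :=
            (abs_sub _ _).trans (add_le_add (T.bdd _ _ _) (T.bdd _ _ _))
        _ = 2 * B / r0 * r0 := by field_simp; ring
        _ ≤ 2 * B / r0 * slk F ξ x a b := by gcongr
        _ ≤ _ := by gcongr
  exact
    { fT := fun i =>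
        { lip := by
            intro x y w
            by_cases h : ∃ q ∈ Q, (w : P2) ∈ tr q (cor m I)
            · obtain ⟨q, hqQ, hw⟩ := h
              rw [Tp_eq P i x hqQ hw, Tp_eq P i y hqQ hw]
              refine (T.lip i _ _ ‖x - y‖ (fun v _ => ext_lip x y _) _).trans ?_
              exact mul_le_mul_of_nonneg_right hCT (norm_nonneg _)
            · push Not at h
              rw [Tp_zero i x h, Tp_zero i y h, sub_self, abs_zero]
              positivity
          edge := by
            intro x hx a b ha hb hab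
            by_cases h : ∃ q ∈ Q, (a : P2) ∈ tr q (cor m I)
            · exact edge1 i x hx a b ha hab h
            · by_cases h' : ∃ q ∈ Q, (b : P2) ∈ tr q (cor m I)
              · have hba : (a : P2) ∈ nbr E b := by
                  rw [mem_nbr] at hab ⊢
                  exact ⟨hab.1.symm, hab.2.symm⟩
                have h1 := edge1 i x hx b a hb hba h'
                rw [abs_sub_comm]
                have e1 : slk F ξ x (b : P2) a = slk F ξ x a b := by
                  unfold slk; rw [abs_sub_comm]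
                rwa [e1] at h1
              · push Not at h h'
                rw [Tp_zero i x h, Tp_zero i x h', sub_self, abs_zero]
                have hs := slk_nonneg (ξ := ξ) x (a : P2) b
                positivity }
      T0 := by
        intro i x w hw
        exact Tp_zero i x fun q hqQ => hw ⟨q, hqQ⟩
      TB := bdd
      TW := by
        intro i x q w v t hw hv
        rw [Tp_eq P i _ q.2 hw, Tp_eq P i x q.2 hw]
        refine T.loc i _ _ (fun a ha => ?_) _
        unfold hq
        have hne : (q : P2) + a ≠ v := fun he => hv (he ▸ add_mem_tr.mpr ha)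
        by_cases hF : (q : P2) + a ∈ F
        · rw [ext_mem hF, ext_mem hF]
          have : (⟨(q : P2) + a, hF⟩ : F) ≠ v := fun he => hne (congrArg Subtype.val he)
          simp [Pi.single_eq_of_ne this]
        · rw [ext_notMem hF, ext_notMem hF] }

/-! ### derivatives -/

theorem hq_line (x : F → ℝ) (v : F) (t : ℝ) (q : P2) :
    hq F ξ (x + t • (Pi.single v 1 : F → ℝ)) q =
      hq F ξ x q + t • (Pi.single ((v : P2) - q) 1 : P2 → ℝ) := by
  funext a
  unfold hq
  simp only [Pi.add_apply, Pi.smul_apply, smul_eq_mul]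
  by_cases hF : q + a ∈ F
  · rw [ext_mem hF, ext_mem hF]
    simp only [Pi.add_apply, Pi.smul_apply, smul_eq_mul]
    congr 2
    by_cases he : q + a = v
    · have h1 : (⟨q + a, hF⟩ : F) = v := Subtype.ext he
      have h2 : a = (v : P2) - q := by rw [← he]; simp
      rw [h1, h2, Pi.single_eq_same, Pi.single_eq_same]
    · have h1 : (⟨q + a, hF⟩ : F) ≠ v := fun h => he (congrArg Subtype.val h)
      have h2 : a ≠ (v : P2) - q := fun h => he (by rw [h]; simp)
      rw [Pi.single_eq_of_ne h1, Pi.single_eq_of_ne h2]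
  · rw [ext_notMem hF, ext_notMem hF]
    have h2 : a ≠ (v : P2) - q := fun h => hF (by rw [h]; simp)
    rw [Pi.single_eq_of_ne h2]
    ring

theorem pd_eq_dv {f : (F → ℝ) → ℝ} {G : (P2 → ℝ) → ℝ} {q : P2} {c : ℝ}
    (hf : ∀ y, f y = G (hq F ξ y q) + c) {x : F → ℝ} (hd : DifferentiableAt ℝ f x) (v : F) :
    pd v f x = dv ((v : P2) - q) G (hq F ξ x q) := by
  unfold pd dv
  rw [← hd.lineDeriv_eq_fderiv]
  unfold lineDeriv
  simp only [hf, hq_line]
  exact deriv_add_const c

/-- translation of the reference field -/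
theorem Zl_tr (P : Par) (H : Loc F E Rg) (hP : Pos I m Rg Q) {q : P2} (hqQ : q ∈ Q) (i : Fin 2)
    (y : F → ℝ) (w : F) :
    Zl (tr q (win m I)) E P.rho P.eps P.Lam ps F ξ i y w =
      L2 P (win m I) (lat (win m I)) i (hq F ξ y q) ((w : P2) - q) + ps i.castSucc q := by
  have h1 := (sym_add q).Lf_eq P (V := win m I) (V' := tr q (win m I)) (E := lat (win m I))
    (E' := E) (by intro v; rw [tr, Finset.mem_image]) (by
      intro a ha b hb
      have haR : q + a ∈ Rg := hP.inn q hqQ (add_mem_tr.mpr ha)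
      rw [H.nb _ (subset_win _ _ haR), mem_nbr_lat, hd_add]
      constructor
      · intro h; exact ⟨h, Or.inl ha⟩
      · intro h; exact h.1) i.castSucc (ext F ξ y) ((w : P2) - q)
  simp only [add_sub_cancel, Equiv.refl_apply, ps_sum, zero_div, sub_zero] at h1
  exact h1

/-- **the block functional is the quadratic form of `Ph`** -/
theorem Qb_eq (P : Par) (H : Loc F E Rg) (hP : Pos I m Rg Q) (T : Tpl m I Tl B C) {q : P2}
    (hqQ : q ∈ Q) (s : Fin 2 → ℝ) {x : F → ℝ}
    (hz : ∀ i (w : F), DifferentiableAt ℝ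
      (fun y => Zl (tr q (win m I)) E P.rho P.eps P.Lam ps F ξ i y w) x)
    (ht : ∀ i (w : F), DifferentiableAt ℝ (fun y => Tp F ξ Q m I Tl i y w) x) :
    Qb (tr q I) s (Zl (tr q (win m I)) E P.rho P.eps P.Lam ps F ξ) (Tp F ξ Q m I Tl) x =
      qd (Ph I (Gt P m I Tl) (hq F ξ x q)) s := by
  have hIF : tr q I ⊆ F := (tr_subset (subset_win _ _)).trans ((hP.inn q hqQ).trans H.sub)
  have key : ∀ (i : Fin 2) (w v : F), (w : P2) ∈ tr q I →
      pd v (fun y => Zl (tr q (win m I)) E P.rho P.eps P.Lam ps F ξ i y w) x +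
        pd v (fun y => Tp F ξ Q m I Tl i y w) x =
      dv ((v : P2) - q) (fun h => Gt P m I Tl i h ((w : P2) - q)) (hq F ξ x q) := by
    intro i w v hw
    rw [← pd_add (hz i w) (ht i w) v]
    refine pd_eq_dv (c := ps i.castSucc q) (fun y => ?_) ((hz i w).add (ht i w)) v
    simp only [Pi.add_apply]
    rw [Zl_tr P H hP hqQ, Tp_eq' hP T i y hqQ hw]
    unfold Gt
    ring
  have e1 : Qb (tr q I) s (Zl (tr q (win m I)) E P.rho P.eps P.Lam ps F ξ)
      (Tp F ξ Q m I Tl) x = ∑ w ∈ inF F (tr q I), ∑ v ∈ inF F (tr q I),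
      (∑ i, s i * dv ((v : P2) - q) (fun h => Gt P m I Tl i h ((w : P2) - q))
        (hq F ξ x q)) ^ 2 := by
    unfold Qb
    refine Finset.sum_congr rfl fun w hw => Finset.sum_congr rfl fun v _ => ?_
    congr 1
    refine Finset.sum_congr rfl fun i _ => ?_
    rw [key i w v (mem_inF.mp hw)]
  have sumtr : ∀ f : P2 → ℝ, ∑ w ∈ inF F (tr q I), f ((w : P2) - q) = ∑ u ∈ I, f u := by
    intro f
    rw [sum_inF hIF fun u => f (u - q), tr, Finset.sum_image]
    · simp
    · intro a _ b _ h
      simpa using h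
  rw [e1]
  rw [sumtr fun w => ∑ v ∈ inF F (tr q I),
      (∑ i, s i * dv ((v : P2) - q) (fun h => Gt P m I Tl i h w) (hq F ξ x q)) ^ 2]
  have e2 : ∀ w : P2, ∑ v ∈ inF F (tr q I),
      (∑ i, s i * dv ((v : P2) - q) (fun h => Gt P m I Tl i h w) (hq F ξ x q)) ^ 2 =
      ∑ v ∈ I, (∑ i, s i * dv v (fun h => Gt P m I Tl i h w) (hq F ξ x q)) ^ 2 := fun w =>
    sumtr fun v => (∑ i, s i * dv v (fun h => Gt P m I Tl i h w) (hq F ξ x q)) ^ 2
  simp only [e2]
  rw [Finset.sum_comm]
  unfold qd
  simp only [Ph_apply, Fin.sum_univ_two, Finset.sum_mul, ← Finset.sum_add_distrib]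
  refine Finset.sum_congr rfl fun v _ => Finset.sum_congr rfl fun w _ => ?_
  ring

end Crest.Agent.R144.LoC95
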