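import Crest.Agent.R144.LowL7_549
import Crest.Agent.R144.Uid4_674
import Crest.Agent.R144.Lc16_279
import Crest.Agent.R144.LoC2_95
import Crest.Agent.R144.Bl4_565
import Crest.Agent.R144.LCL_121
import Crest.Agent.R144.Bl5_565
import Mathlib
import Crest.Agent.R144.LowL12_549
import Crest.Agent.R144.LoC8_95
import Crest.Agent.R144.Lmu10_425
import Crest.Agent.R144.Skel100_144

-- ▼ part R144/LowI_770
section

/-!
# R144 (S0197), helper770: the inputs of 549's numbers at the instances of S0197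

* `numIn_inst` : `LowL549.NumIn` for the untilted law of an instance, on the sites of a region;
* `numIn_mcw` : the same with the lattice edges (`Bl565.mcw`), the form of 95 and 549;
* `loc_inst` : the graph of an instance is the lattice near the region (`LoC95.Loc`).
-/

set_option autoImplicit false
set_option linter.unusedSectionVars false
set_option maxHeartbeats 400000

open MeasureTheory Metric Set Filter Topology

noncomputable section

namespace Crest.Agent.R144.LowI770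

open Crest.Agent.R144.Skel144 Crest.Agent.R144.Cnt268 Crest.Agent.R144.LowL549
open Crest.Agent.R144.Ham560 (ext ham nbr mem_nbr hamP)
open Crest.Agent.R144.LoB95 (mc measurable_mc)
open Crest.Agent.R144.Uig714 (Off)
open Crest.Agent.R144.Uid674 (MC Prm uid_moment uid_far uid1 off_of_compact sub_of_compact MC_le
  SmallU prm_ps)
open Crest.Agent.R144.Lc279 (P2 sq_inst)
open Crest.Agent.R144.Lw425 (LObs hd hd_comm hd_le_iff hball mem_hball hd_self)
open Crest.Agent.R144.Bl565 (Par ps win mem_win subset_win nbr_inst hd_of_mem_Ed)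
open Crest.ProbabilityR.HexHeights (centre)

variable (I : Inst) (n : ℕ)

/-- the untilted law as a law of configurations of the plane -/
def nuI (n : ℕ) : Measure (P2 → ℝ) := Measure.map (ext (I.Fr n) (I.xi n)) (I.P0 n)

theorem measurable_ext' : Measurable (ext (I.Fr n) (I.xi n)) :=
  measurable_pi_lambda _ fun u => (Ham560.continuous_ext (F := I.Fr n) (ξ := I.xi n) u).measurable

instance : IsProbabilityMeasure (nuI I n) :=
  Measure.isProbabilityMeasure_map (measurable_ext' I n).aemeasurable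

theorem integral_nuI {f : (P2 → ℝ) → ℝ} (hf : Measurable f) :
    ∫ h, f h ∂(nuI I n) = ∫ x, f (ext (I.Fr n) (I.xi n) x) ∂(I.P0 n) :=
  integral_map (measurable_ext' I n).aemeasurable hf.aestronglyMeasurable

/-- lengths of the cheap paths are bounded -/
theorem mc_le {κ U : Type*} [Fintype κ] [DecidableEq U] {ρ ε Λ c0 : ℝ} (S : Finset U)
    (E : Finset (U × U)) (φs : κ → U → ℝ) (h : U → ℝ) (w : U) :
    mc S E ρ ε Λ c0 φs h w ≤ S.card + 1 :=
  Finset.sup_le fun _ hl => Zb560.length_pt (Finset.mem_filter.mp hl).1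

/-- neighbouring sites have close centres -/
theorem dist_centre_hd {δ : ℝ} (hδ : 0 ≤ δ) {u v : P2} (h : hd u v ≤ 1) :
    dist (centre δ u) (centre δ v) ≤ 2 * δ := by
  refine (LC121.dist_centre_le hδ u v).trans ?_
  obtain ⟨⟨h1, h2⟩, ⟨h3, h4⟩, _⟩ := hd_le_iff.mp h
  have e1 : |(u.1 : ℝ) - v.1| ≤ 1 := by
    rw [abs_le]
    constructor
    · exact_mod_cast h1
    · exact_mod_cast h2
  have e2 : |(u.2 : ℝ) - v.2| ≤ 1 := by
    rw [abs_le]
    constructor
    · exact_mod_cast h3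
    · exact_mod_cast h4
  nlinarith

section Reg

variable {I} {G : Set ℂ}

/-- the window of the region is over a compact set of the domain -/
theorem win_region (hG : IsCompact (closure G)) (hGD : closure G ⊆ I.D) :
    ∃ ε₁ : ℝ, 0 < ε₁ ∧ ∀ᶠ n in atTop, win 1 (rg I G n) ⊆ I.Fr n ∧
      ∀ v ∈ win 1 (rg I G n), Off I ε₁ n v := by
  have hD : IsOpen I.D := (sites I).opn
  obtain ⟨ε0, hε0, hK⟩ := hG.exists_cthickening_subset_open hD hGD
  have hKc : IsCompact (cthickening ε0 (closure G)) := hG.cthickening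
  obtain ⟨ε₁, hε₁, hoff⟩ := off_of_compact I hKc hK
  refine ⟨ε₁, hε₁, ?_⟩
  have hsub := sub_of_compact I hKc hK
  have hsm : ∀ᶠ n in atTop, I.δ n < ε0 / 2 := (sites I).small (by positivity)
  filter_upwards [hsub, hsm] with n h1 h2
  have hδ : 0 < I.δ n := I.hM.1 n
  have key : ∀ v ∈ win 1 (rg I G n), centre (I.δ n) v ∈ cthickening ε0 (closure G) := by
    intro v hv
    obtain ⟨a, ha, hda⟩ := mem_win.mp hv
    have h3 := (mem_rg.mp ha).2
    refine mem_cthickening_of_dist_le _ _ _ _ (subset_closure h3) ?_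
    refine (dist_centre_hd hδ.le (by simpa using hda)).trans ?_
    linarith
  exact ⟨fun v hv => h1 v (key v hv), fun v hv => hoff n v (key v hv)⟩

theorem sub_win (n : ℕ) : rg I G n ⊆ win 1 (rg I G n) := subset_win 1 _

/-- **the graph of an instance is the lattice near the region** -/
theorem loc_inst (hG : IsCompact (closure G)) (hGD : closure G ⊆ I.D) :
    ∀ᶠ n in atTop, LoC95.Loc (I.Fr n) (I.Ed n) (rg I G n) := by
  obtain ⟨ε₁, _, h⟩ := win_region hG hGD
  filter_upwards [h] with n hn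
  refine ⟨rg_subset I G n, fun a ha b => nbr_inst I n (hn.1 ha), fun a b hb => ?_⟩
  obtain ⟨_, h1 | h1⟩ := mem_nbr.mp hb
  · exact (hd_of_mem_Ed I n h1).le
  · rw [hd_comm]; exact (hd_of_mem_Ed I n h1).le

/-- the law of large numbers on the region -/
theorem lln_inst (hGD : closure G ⊆ I.D) : LLN G I.δ (rg I G) (nuI I) Lc279.mu0 := by
  intro r f hf F hF hFc hFs
  have hz : ∀ z, z ∉ G → F z = 0 := fun z hz => by
    by_contra h
    exact hz (hFs (subset_tsupport F h))
  have hobs : LObs r fun h => (1 : ℝ)⁻¹ * f h := by simpa using hf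
  have h1 := (sq_inst I).riem one_pos hobs hF
  have hint : ∫ z in I.D, F z = ∫ z, F z :=
    setIntegral_eq_integral_of_forall_compl_eq_zero fun z hzD =>
      hz z fun h => hzD (hGD (subset_closure h))
  rw [hint] at h1
  rw [tendsto_iff_norm_sub_tendsto_zero]
  refine squeeze_zero (fun n => norm_nonneg _) (fun n => ?_) h1
  -- the expectation of the Riemann sum
  have hm : ∀ v : P2, Measurable fun h : P2 → ℝ => f fun a => h (v + a) := fun v =>
    hf.meas.comp (measurable_pi_lambda _ fun a => measurable_pi_apply _)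
  have hmx : ∀ v : P2, Measurable fun x : I.Fr n → ℝ =>
      f fun u => ext (I.Fr n) (I.xi n) x (v + u) := fun v =>
    (hm v).comp (measurable_ext' I n)
  have hix : ∀ v : P2, Integrable (fun x : I.Fr n → ℝ =>
      f fun u => ext (I.Fr n) (I.xi n) x (v + u)) (I.P0 n) := fun v =>
    Integrable.of_bound (hmx v).aestronglyMeasurable 1
      (Eventually.of_forall fun x => by rw [Real.norm_eq_abs]; exact hf.bd _)
  have hv : ∀ v : P2, ∫ h, f (fun a => h (v + a)) ∂(nuI I n) =
      ∫ x, f (fun u => ext (I.Fr n) (I.xi n) x (v + u)) ∂(I.P0 n) := fun v =>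
    integral_nuI I n (hm v)
  have e1 : I.δ n ^ 2 * ∑ v ∈ rg I G n, F (centre (I.δ n) v) *
      ∫ h, f (fun a => h (v + a)) ∂(nuI I n) =
      ∫ x, (I.δ n ^ 2 * ∑ v ∈ I.Fr n, F (centre (I.δ n) v) *
        f (fun u => ext (I.Fr n) (I.xi n) x (v + u))) ∂(I.P0 n) := by
    rw [integral_const_mul, integral_finsetSum _ fun v _ => (hix v).const_mul _]
    congr 1
    simp only [integral_const_mul, hv]
    refine Finset.sum_subset (rg_subset I G n) fun v hvF hvG => ?_
    have : centre (I.δ n) v ∉ G := fun h => hvG (mem_rg.mpr ⟨hvF, h⟩)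
    rw [hz _ this, zero_mul]
  have hi : Integrable (fun x : I.Fr n → ℝ => I.δ n ^ 2 * ∑ v ∈ I.Fr n, F (centre (I.δ n) v) *
      f (fun u => ext (I.Fr n) (I.xi n) x (v + u))) (I.P0 n) :=
    (integrable_finsetSum _ fun v _ => (hix v).const_mul _).const_mul _
  rw [e1]
  have e2 : (∫ x, (I.δ n ^ 2 * ∑ v ∈ I.Fr n, F (centre (I.δ n) v) *
        f (fun u => ext (I.Fr n) (I.xi n) x (v + u))) ∂(I.P0 n)) -
        2 / Real.sqrt 3 * (∫ z, F z) * ∫ h, f h ∂Lc279.mu0 =
      ∫ x, ((I.δ n ^ 2 * ∑ v ∈ I.Fr n, F (centre (I.δ n) v) *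
        f (fun u => ext (I.Fr n) (I.xi n) x (v + u))) -
        2 / Real.sqrt 3 * (∫ z, F z) * ∫ h, f h ∂Lc279.mu0) ∂(I.P0 n) := by
    rw [integral_sub hi (integrable_const _), integral_const]
    simp
  rw [e2]
  exact norm_integral_le_integral_norm _

variable {P : Par} {c0 : ℝ}

/-- the lengths of the cheap paths -/
def mfI (I : Inst) (G : Set ℂ) (P : Par) (c0 : ℝ) (n : ℕ) (h : P2 → ℝ) (w : P2) : ℕ :=
  mc (win 1 (rg I G n)) (I.Ed n) P.rho P.eps P.Lam c0 ps h w

theorem mfI_ext (n : ℕ) (x : I.Fr n → ℝ) (w : P2) :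
    mfI I G P c0 n (ext (I.Fr n) (I.xi n) x) w =
      MC I n (win 1 (rg I G n)) P.rho P.eps P.Lam c0 ps w x := rfl

theorem measurable_mfI (n : ℕ) (w : P2) : Measurable fun h => mfI I G P c0 n h w :=
  measurable_mc _ _ w

theorem mfI_le (n : ℕ) (h : P2 → ℝ) (w : P2) :
    mfI I G P c0 n h w ≤ (win 1 (rg I G n)).card + 1 :=
  mc_le _ _ _ _ _

/-- **The inputs of the numbers at an instance.** -/
theorem numIn_inst (hP : SmallU P) (c0 : ℝ) (ho : IsOpen G) (hG : IsCompact (closure G))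
    (hGD : closure G ⊆ I.D) (hnull : volume (frontier G) = 0) :
    NumIn G I.δ (rg I G) (nuI I) Lc279.mu0 (mfI I G P c0) := by
  have H := prm_ps hP c0
  obtain ⟨ε₁, hε₁, hwin⟩ := win_region hG hGD
  have hδ : ∀ n, 0 < I.δ n := I.hM.1
  refine ⟨sites_rg I ho hG hGD hnull, fun n => inferInstance, lln_inst hGD,
    fun n w => measurable_mfI n w, fun n => ⟨_, fun h w => mfI_le n h w⟩, ?_, ?_, ?_⟩
  · obtain ⟨C, hC, h⟩ := uid_moment I H hε₁ 1
    refine ⟨C, 1 / 2, hC, by norm_num, by norm_num, fun j => ?_⟩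
    filter_upwards [h j, hwin] with n hn hw
    refine le_trans ?_ (hn _ hw.1 hw.2)
    refine mul_le_mul_of_nonneg_left ?_ (sq_nonneg _)
    refine le_trans (le_of_eq ?_) (Finset.sum_le_sum_of_subset_of_nonneg (sub_win n)
      fun w _ _ => integral_nonneg fun x => ?_)
    · refine Finset.sum_congr rfl fun w _ => ?_
      have hmeas : Measurable fun h : P2 → ℝ =>
          (if j < mfI I G P c0 n h w then (mfI I G P c0 n h w : ℝ) else 0) := by
        refine Measurable.ite ?_ ?_ measurable_const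
        · exact measurable_mfI n w measurableSet_Ioi
        · exact measurable_from_nat.comp (measurable_mfI n w)
      rw [integral_nuI I n hmeas]
      simp only [mfI_ext, pow_one]
    · simp only
      split_ifs <;> positivity
  · obtain ⟨C, hC, h⟩ := uid1 I H hε₁ 1
    refine ⟨C, hC, ?_⟩
    filter_upwards [h, hwin] with n hn hw
    refine le_trans ?_ (hn _ hw.1 hw.2)
    refine mul_le_mul_of_nonneg_left ?_ (sq_nonneg _)
    refine le_trans (le_of_eq ?_) (Finset.sum_le_sum_of_subset_of_nonneg (sub_win n)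
      fun w _ _ => integral_nonneg fun x => ?_)
    · refine Finset.sum_congr rfl fun w _ => ?_
      have hmeas : Measurable fun h : P2 → ℝ => (mfI I G P c0 n h w : ℝ) ^ 2 :=
        (measurable_from_nat.comp (measurable_mfI n w)).pow_const 2
      rw [integral_nuI I n hmeas]
      simp only [mfI_ext]
    · positivity
  · intro c hc a
    filter_upwards [uid_far I H hε₁ hc a, hwin] with n hn hw
    refine le_trans ?_ (hn _ hw.1 hw.2)
    have hmeas : MeasurableSet {h : P2 → ℝ | ∃ w ∈ rg I G n,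
        c / I.δ n ≤ (mfI I G P c0 n h w : ℝ)} := by
      have e : {h : P2 → ℝ | ∃ w ∈ rg I G n, c / I.δ n ≤ (mfI I G P c0 n h w : ℝ)} =
          ⋃ w ∈ rg I G n, {h : P2 → ℝ | c / I.δ n ≤ (mfI I G P c0 n h w : ℝ)} := by
        ext h; simp
      rw [e]
      refine Finset.measurableSet_biUnion _ fun w _ => ?_
      exact measurableSet_le measurable_const (measurable_from_nat.comp (measurable_mfI n w))
    rw [nuI, map_measureReal_apply (measurable_ext' I n) hmeas]
    refine measureReal_mono ?_ (measure_ne_top _ _)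
    rintro x ⟨w, _, hw'⟩
    exact ⟨w, hw'⟩

end Reg

/-! ### monotonicity in the lengths -/

section Mono

variable {G : Set ℂ} {δ : ℕ → ℝ} {Rg : ℕ → Finset P2} {ν : ℕ → Measure (P2 → ℝ)}
  {μ : Measure (P2 → ℝ)} {mf mf' : ℕ → (P2 → ℝ) → P2 → ℕ}

/-- the inputs are monotone in the lengths -/
theorem NumIn.mono (H : NumIn G δ Rg ν μ mf) (hm : ∀ n w, Measurable fun h => mf' n h w)
    (hb : ∀ n, ∃ K : ℕ, ∀ h w, mf' n h w ≤ K)
    (hle : ∀ᶠ n in atTop, ∀ h w, mf' n h w ≤ mf n h w) : NumIn G δ Rg ν μ mf' := by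
  refine ⟨H.hs, H.prob, H.lln, hm, hb, ?_, ?_, ?_⟩
  · obtain ⟨C, q, hC, hq0, hq1, h⟩ := H.mom1
    refine ⟨C, q, hC, hq0, hq1, fun j => ?_⟩
    filter_upwards [h j, hle] with n hn hl
    refine le_trans ?_ hn
    have := H.prob n
    obtain ⟨K, hK⟩ := H.bdd n
    refine mul_le_mul_of_nonneg_left (Finset.sum_le_sum fun w _ => ?_) (sq_nonneg _)
    have hmeas : Measurable fun h : P2 → ℝ =>
        (if j < mf n h w then (mf n h w : ℝ) else 0) :=
      Measurable.ite (H.meas n w measurableSet_Ioi) (measurable_from_nat.comp (H.meas n w))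
        measurable_const
    refine integral_mono_of_nonneg (Eventually.of_forall fun h => ?_)
      (Integrable.of_bound hmeas.aestronglyMeasurable (K : ℝ) (Eventually.of_forall fun h => ?_))
      (Eventually.of_forall fun h => ?_)
    · simp only [Pi.zero_apply]; split_ifs <;> positivity
    · rw [Real.norm_eq_abs]
      have hKr : (mf n h w : ℝ) ≤ K := by exact_mod_cast hK h w
      split_ifs
      · rw [abs_of_nonneg (by positivity)]; exact hKr
      · rw [abs_zero]; positivity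
    · simp only
      have h1 : (mf' n h w : ℝ) ≤ mf n h w := by exact_mod_cast hl h w
      split_ifs with h2 h3
      · exact h1
      · exact absurd (h2.trans_le (hl h w)) h3
      · positivity
      · exact le_rfl
  · obtain ⟨C, hC, h⟩ := H.mom2
    refine ⟨C, hC, ?_⟩
    filter_upwards [h, hle] with n hn hl
    refine le_trans ?_ hn
    have := H.prob n
    obtain ⟨K, hK⟩ := H.bdd n
    refine mul_le_mul_of_nonneg_left (Finset.sum_le_sum fun w _ => ?_) (sq_nonneg _)
    have hmeas : Measurable fun h : P2 → ℝ => (mf n h w : ℝ) ^ 2 :=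
      (measurable_from_nat.comp (H.meas n w)).pow_const 2
    refine integral_mono_of_nonneg (Eventually.of_forall fun h => ?_)
      (Integrable.of_bound hmeas.aestronglyMeasurable ((K : ℝ) ^ 2)
        (Eventually.of_forall fun h => ?_))
      (Eventually.of_forall fun h => ?_)
    · simp only [Pi.zero_apply]; positivity
    · rw [Real.norm_eq_abs, abs_of_nonneg (by positivity)]
      have hKr : (mf n h w : ℝ) ≤ K := by exact_mod_cast hK h w
      exact pow_le_pow_left₀ (by positivity) hKr 2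
    · have h1 : (mf' n h w : ℝ) ≤ mf n h w := by exact_mod_cast hl h w
      exact pow_le_pow_left₀ (by positivity) h1 2
  · intro c hc a
    filter_upwards [H.far c hc a, hle] with n hn hl
    refine le_trans ?_ hn
    have := H.prob n
    refine measureReal_mono ?_ (measure_ne_top _ _)
    rintro h ⟨w, hw, hcw⟩
    have h1 : (mf' n h w : ℝ) ≤ mf n h w := by exact_mod_cast hl h w
    exact ⟨w, hw, hcw.trans h1⟩

end Mono

/-- **The inputs of the numbers at an instance**, lengths with the lattice edges. -/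
theorem numIn_mcw {I : Inst} {G : Set ℂ} {P : Par} (hP : SmallU P) (c0 : ℝ) (ho : IsOpen G)
    (hG : IsCompact (closure G)) (hGD : closure G ⊆ I.D) (hnull : volume (frontier G) = 0) :
    NumIn G I.δ (rg I G) (nuI I) Lc279.mu0
      (fun n h w => Bl565.mcw P c0 (win 1 (rg I G n)) h w) := by
  obtain ⟨ε₁, _, hwin⟩ := win_region hG hGD
  refine NumIn.mono (numIn_inst hP c0 ho hG hGD hnull) (fun n w => Bl565.measurable_mcw _ w)
    (fun n => ⟨_, fun h w => Bl565.mcw_le _ h w⟩) ?_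
  filter_upwards [hwin] with n hw h w
  exact Uid674.mc_mono_edges (Finset.Subset.refl _)
    (fun a ha b hb hab => (Bl565.nbr_win_inst I n hw.1 a ha b hb).mpr hab) ps h w

end Crest.Agent.R144.LowI770
end
end

-- ▼ part R144/LowL13_549
section

/-!
# R144 (S0197), LOW-LIM (helper549), part 13: the trial field at an instance

`trace_int`, `disp_int` : the two integrals of `FieldAt`; `loD` : the block LoD.
-/

set_option autoImplicit false

open MeasureTheory Metric Set Filter Topology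
open scoped ComplexConjugate ContDiff NNReal

namespace Crest.Agent.R144.LowL549

open Crest.Agent.R144.Skel144 Crest.Agent.R144.Con549 Crest.Agent.R144.Cnt268
open Crest.Agent.R144.Bl565 Crest.Agent.R144.HexTil353
open Crest.Agent.R144.Ham560 (ext ham ext_mem ext_notMem)
open Crest.Agent.R144.Geo268 (wA)
open Crest.Agent.R144.Lc279 (P2 bx nr mem_nr nr_subset card_bx)
open Crest.Agent.R144.Lw425 (LObs hball hd mem_hball hd_triangle hd_comm hd_le_iff hd_nonneg)
open Crest.Agent.R144.LoC95 (Ph Gt Tpl PsiH Sep ix Pos tr mem_tr MT NT LT ST Bad A1c A2c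
  exists_field)
open Crest.Agent.R144.LowI770 (nuI integral_nuI measurable_ext' numIn_mcw loc_inst)
open Crest.ProbabilityR.HexHeights (centre)

noncomputable section

variable {I : Inst} {n : ℕ}

/-- almost everywhere statements for the untilted law -/
theorem ae_P0 {p : (I.Fr n → ℝ) → Prop} (h : ∀ᵐ x, p x) : ∀ᵐ x ∂(I.P0 n), p x := by
  rw [P0_eq]
  exact Measure.ae_smul_measure (ae_restrict_of_ae h) _

theorem integrable_trace {Y : (I.Fr n → ℝ) → (I.Fr n → ℝ)} {c : ℝ≥0} (hY : LipschitzWith c Y) :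
    Integrable (fun x => (MW121.jac Y x * MW121.jac Y x).trace) (I.P0 n) := by
  have e : ∀ x, (MW121.jac Y x * MW121.jac Y x).trace =
      ∑ u, ∑ v, MW121.jac Y x u v * MW121.jac Y x v u := by
    intro x
    simp only [Matrix.trace, Matrix.diag_apply, Matrix.mul_apply]
  simp only [e]
  refine integrable_finsetSum _ fun u _ => integrable_finsetSum _ fun v _ => ?_
  refine Integrable.of_bound ((MW121.measurable_jac Y u v).mul
    (MW121.measurable_jac Y v u)).aestronglyMeasurable ((c : ℝ) * c) (ae_of_all _ fun x => ?_)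
  rw [Real.norm_eq_abs, abs_mul]
  exact mul_le_mul (MW121.abs_jac_le hY x u v) (MW121.abs_jac_le hY x v u) (abs_nonneg _) c.2

/-- the trace -/
theorem trace_int {Y : (I.Fr n → ℝ) → (I.Fr n → ℝ)} {c : ℝ≥0} (hY : LipschitzWith c Y)
    {f : (P2 → ℝ) → ℝ} (hf : Integrable f (nuI I n))
    (h : ∀ᵐ x, (MW121.jac Y x * MW121.jac Y x).trace ≤ f (ext (I.Fr n) (I.xi n) x)) :
    ∫ x, (MW121.jac Y x * MW121.jac Y x).trace ∂(I.P0 n) ≤ ∫ h, f h ∂(nuI I n) := by
  have h1 : ∫ h, f h ∂(nuI I n) = ∫ x, f (ext (I.Fr n) (I.xi n) x) ∂(I.P0 n) :=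
    integral_map (measurable_ext' I n).aemeasurable hf.aestronglyMeasurable
  rw [h1]
  exact integral_mono_ae (integrable_trace hY) (hf.comp_measurable (measurable_ext' I n)) (ae_P0 h)

/-- the linear statistic of the field -/
theorem disp_int {Y : (I.Fr n → ℝ) → (I.Fr n → ℝ)} {c : ℝ≥0} (hY : LipschitzWith c Y)
    {g : (P2 → ℝ) → ℝ} (hg : Integrable g (nuI I n)) {v : ℝ}
    (h : ∀ x, |fderiv ℝ (I.X n) x (Y x) - v| ≤ g (ext (I.Fr n) (I.xi n) x)) :
    ∫ x, |fderiv ℝ (I.X n) x (Y x) - v| ∂(I.P0 n) ≤ ∫ h, g h ∂(nuI I n) := by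
  have h1 : ∫ h, g h ∂(nuI I n) = ∫ x, g (ext (I.Fr n) (I.xi n) x) ∂(I.P0 n) :=
    integral_map (measurable_ext' I n).aemeasurable hg.aestronglyMeasurable
  rw [h1]
  obtain ⟨L, hL⟩ := lip_X I n
  have hi : Integrable (fun x => fderiv ℝ (I.X n) x (Y x)) (I.P0 n) := by
    have := MW121.integrableOn_fderiv_apply hY (ham_measurable I n) (ham_bounded I n) hL
    rw [P0_eq]
    exact this.smul_measure (ENNReal.inv_ne_top.mpr (vol_ne_zero I n))
  exact integral_mono (hi.sub (integrable_const v)).abs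
    (hg.comp_measurable (measurable_ext' I n)) h

/-- the pointwise bound of the linear statistic -/
theorem disp_pt (P : Par) {G : Set ℂ} {u : ℂ → ℝ} (hu : tsupport u ⊆ G)
    (hfd : ∀ x Y : I.Fr n → ℝ, fderiv ℝ (I.X n) x Y = ∑ v : I.Fr n, wA (I.δ n) I.f v * Y v)
    {W : ℝ} (hW : ∀ v, |wA (I.δ n) I.f v| ≤ W * I.δ n ^ 2) {l S0 p1 B v e : ℝ} {M : ℕ}
    (hS0 : ∀ z, |u z| ≤ S0) (hp1 : 0 ≤ p1) (hB : 0 ≤ B)
    (he : |(∑ w ∈ I.Fr n, wA (I.δ n) I.f w * (l * u (centre (I.δ n) w))) - v| ≤ e)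
    {x Yx : I.Fr n → ℝ} (hY0 : ∀ w : I.Fr n, (w : P2) ∉ rg I G n → Yx w = 0)
    (hYb : ∀ w : I.Fr n, |Yx w| ≤ |l| * S0)
    (hYd : ¬ Bad P 1 (rg I G n) M (ext (I.Fr n) (I.xi n) x) → ∀ w : I.Fr n, (w : P2) ∈ rg I G n →
      |Yx w - l * u (centre (I.δ n) w)| ≤
        2 * p1 * (2 * mcw P 1 (win 1 (rg I G n)) (ext (I.Fr n) (I.xi n) x) w + B)) :
    |fderiv ℝ (I.X n) x Yx - v| ≤
      4 * W * p1 * (I.δ n ^ 2 * ∑ w ∈ rg I G n,
        ((mcw P 1 (win 1 (rg I G n)) (ext (I.Fr n) (I.xi n) x) w : ℝ) + B / 2)) +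
      2 * W * (|l| * S0) * (I.δ n ^ 2 * (rg I G n).card) *
        {h | Bad P 1 (rg I G n) M h}.indicator (fun _ => (1 : ℝ)) (ext (I.Fr n) (I.xi n) x) + e := by
  set R := rg I G n with hR
  set h := ext (I.Fr n) (I.xi n) x with hh
  have hδ : 0 < I.δ n := I.hM.1 n
  have hW0 : 0 ≤ W := by
    have h1 := (abs_nonneg _).trans (hW 0)
    have h2 : 0 < I.δ n ^ 2 := by positivity
    by_contra h3
    push Not at h3
    nlinarith
  have hS00 : 0 ≤ S0 := (abs_nonneg _).trans (hS0 0)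
  rw [hfd]
  have hRF : R ⊆ I.Fr n := rg_subset I G n
  -- the difference is supported in the region
  set D : I.Fr n → ℝ := fun w => Yx w - l * u (centre (I.δ n) w) with hD
  have hD0 : ∀ w : I.Fr n, (w : P2) ∉ R → D w = 0 := by
    intro w hw
    have h1 : u (centre (I.δ n) w) = 0 := by
      by_contra h2
      exact hw (mem_rg.mpr ⟨w.2, hu (subset_tsupport u h2)⟩)
    simp only [hD, hY0 w hw, h1, mul_zero, sub_zero]
  have hsplit : (∑ w : I.Fr n, wA (I.δ n) I.f w * Yx w) - v =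
      (∑ w : I.Fr n, wA (I.δ n) I.f w * D w) +
        ((∑ w ∈ I.Fr n, wA (I.δ n) I.f w * (l * u (centre (I.δ n) w))) - v) := by
    rw [← Finset.sum_coe_sort (I.Fr n) fun w => wA (I.δ n) I.f w * (l * u (centre (I.δ n) w))]
    rw [← add_sub_assoc, ← Finset.sum_add_distrib]
    congr 1
    refine Finset.sum_congr rfl fun w _ => ?_
    simp only [hD]; ring
  rw [hsplit]
  refine (abs_add_le _ _).trans (add_le_add ?_ he)
  -- bound by a function on the plane
  have key : ∀ b : P2 → ℝ, (∀ w : I.Fr n, (w : P2) ∈ R → |D w| ≤ b w) →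
      |∑ w : I.Fr n, wA (I.δ n) I.f w * D w| ≤ W * I.δ n ^ 2 * ∑ w ∈ R, b w := by
    intro b hb
    refine (Finset.abs_sum_le_sum_abs _ _).trans ?_
    have h1 : ∀ w : I.Fr n, |wA (I.δ n) I.f w * D w| ≤
        W * I.δ n ^ 2 * (if (w : P2) ∈ R then b w else 0) := by
      intro w
      split_ifs with hw
      · rw [abs_mul]
        exact mul_le_mul (hW _) (hb w hw) (abs_nonneg _) (by positivity)
      · rw [hD0 w hw]; simp
    refine (Finset.sum_le_sum fun w _ => h1 w).trans (le_of_eq ?_)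
    rw [← Finset.mul_sum, Finset.sum_coe_sort (I.Fr n) fun w => if w ∈ R then b w else 0,
      ← Finset.sum_filter, Finset.filter_mem_eq_inter, Finset.inter_eq_right.mpr hRF]
  have hm0 : 0 ≤ 4 * W * p1 * (I.δ n ^ 2 * ∑ w ∈ R, ((mcw P 1 (win 1 R) h w : ℝ) + B / 2)) := by
    have : 0 ≤ ∑ w ∈ R, ((mcw P 1 (win 1 R) h w : ℝ) + B / 2) :=
      Finset.sum_nonneg fun w _ => by positivity
    positivity
  by_cases hbad : Bad P 1 R M h
  · have h2 := key (fun _ => 2 * (|l| * S0)) fun w _ => by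
      have h3 := hYb w
      have h4 : |l * u (centre (I.δ n) w)| ≤ |l| * S0 := by
        rw [abs_mul]
        exact mul_le_mul_of_nonneg_left (hS0 _) (abs_nonneg _)
      have h5 := abs_sub (Yx w) (l * u (centre (I.δ n) w))
      simp only [hD]
      linarith
    rw [Set.indicator_of_mem (show h ∈ {h | Bad P 1 R M h} from hbad)]
    rw [Finset.sum_const, nsmul_eq_mul] at h2
    nlinarith
  · have h2 := key (fun w => 2 * p1 * (2 * mcw P 1 (win 1 R) h w + B)) (hYd hbad)
    rw [Set.indicator_of_notMem (show h ∉ {h | Bad P 1 R M h} from hbad), mul_zero, add_zero]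
    refine h2.trans (le_of_eq ?_)
    rw [Finset.mul_sum, Finset.mul_sum, Finset.mul_sum]
    refine Finset.sum_congr rfl fun w _ => ?_
    ring

end

end Crest.Agent.R144.LowL549
end

-- ▼ part R144/LowL14_549

/-!
# R144 (S0197), LOW-LIM (helper549), part 14: the block LoD
-/

set_option autoImplicit false

open MeasureTheory Metric Set Filter Topology
open scoped ComplexConjugate ContDiff NNReal

namespace Crest.Agent.R144.LowL549

open Crest.Agent.R144.Skel144 Crest.Agent.R144.Con549 Crest.Agent.R144.Cnt268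
open Crest.Agent.R144.Bl565 Crest.Agent.R144.HexTil353
open Crest.Agent.R144.Ham560 (ext ham ext_mem ext_notMem)
open Crest.Agent.R144.Geo268 (wA)
open Crest.Agent.R144.Lc279 (P2 bx nr mem_nr nr_subset card_bx)
open Crest.Agent.R144.Lw425 (LObs hball hd mem_hball hd_triangle hd_comm hd_le_iff hd_nonneg
  inv_mu0 dlr_mu0)
open Crest.Agent.R144.LoC95 (Ph Gt Tpl PsiH Sep ix Pos tr mem_tr MT NT LT ST Bad A1c A2c
  exists_field)
open Crest.Agent.R144.LowI770 (nuI integral_nuI measurable_ext' numIn_mcw loc_inst)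
open Crest.ProbabilityR.HexHeights (centre)

noncomputable section

variable {I : Inst} {n : ℕ}

/-- the mean of the displacement bound -/
theorem integral_disp {G : Set ℂ} {μ : Measure (P2 → ℝ)} {P : Par}
    (N : NumIn G I.δ (rg I G) (nuI I) μ (fun n h w => mcw P 1 (win 1 (rg I G n)) h w))
    (a b e L : ℝ) (M : ℕ) :
    Integrable (fun h => a * (I.δ n ^ 2 * ∑ w ∈ rg I G n,
        ((mcw P 1 (win 1 (rg I G n)) h w : ℝ) + L)) +
      b * {h | Bad P 1 (rg I G n) M h}.indicator (fun _ => (1 : ℝ)) h + e) (nuI I n) ∧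
    ∫ h, (a * (I.δ n ^ 2 * ∑ w ∈ rg I G n,
        ((mcw P 1 (win 1 (rg I G n)) h w : ℝ) + L)) +
      b * {h | Bad P 1 (rg I G n) M h}.indicator (fun _ => (1 : ℝ)) h + e) ∂(nuI I n) =
      a * (I.δ n ^ 2 * ∑ w ∈ rg I G n, ∫ h,
        ((mcw P 1 (win 1 (rg I G n)) h w : ℝ) + L) ∂(nuI I n)) +
      b * (nuI I n).real {h | Bad P 1 (rg I G n) M h} + e := by
  have i1 : ∀ w, Integrable (fun h => (mcw P 1 (win 1 (rg I G n)) h w : ℝ) + L) (nuI I n) :=
    fun w => N.integrable_of n w fun k => (k : ℝ) + L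
  have i2 : Integrable (fun h => a * (I.δ n ^ 2 * ∑ w ∈ rg I G n,
      ((mcw P 1 (win 1 (rg I G n)) h w : ℝ) + L))) (nuI I n) :=
    ((integrable_finsetSum _ fun w _ => i1 w).const_mul _).const_mul _
  have i3 : Integrable (fun h => b * {h | Bad P 1 (rg I G n) M h}.indicator
      (fun _ => (1 : ℝ)) h) (nuI I n) :=
    ((integrable_const (1 : ℝ)).indicator (measurableSet_bad P 1 (rg I G n) M)).const_mul b
  have i4 : Integrable (fun h => a * (I.δ n ^ 2 * ∑ w ∈ rg I G n,
      ((mcw P 1 (win 1 (rg I G n)) h w : ℝ) + L)) +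
      b * {h | Bad P 1 (rg I G n) M h}.indicator (fun _ => (1 : ℝ)) h) (nuI I n) := i2.add i3
  refine ⟨i4.add (integrable_const e), ?_⟩
  rw [integral_add i4 (integrable_const e), integral_add i2 i3, integral_const_mul,
    integral_const_mul, integral_const_mul, integral_finsetSum _ fun w _ => i1 w,
    integral_indicator_const _ (measurableSet_bad P 1 (rg I G n) M), smul_eq_mul, mul_one]
  simp

/-- the crude constant -/
theorem crude_ev (I : Inst) {A p q : ℝ} (hA : 0 ≤ A) (hp : 0 ≤ p) (hq : 0 ≤ q) :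
    ∃ K : ℝ, ∀ᶠ n in atTop, A * (1 + ((I.Fr n).card : ℝ)) ^ 8 * (1 + p + q * I.δ n) ^ 6 ≤
      K * (I.δ n ^ 16)⁻¹ := by
  obtain ⟨C, hC, hcard⟩ := (sites I).card_bdd
  refine ⟨A * (1 + C) ^ 8 * (1 + p + q) ^ 6, ?_⟩
  filter_upwards [(sites I).small one_pos] with n hn
  have hδ : 0 < I.δ n := I.hM.1 n
  have h1 : I.δ n ^ 2 * (1 + ((I.Fr n).card : ℝ)) ≤ 1 + C := by
    have := hcard n
    have h2 : I.δ n ^ 2 ≤ 1 := pow_le_one₀ hδ.le hn.le
    linarith
  have h3 : 0 ≤ I.δ n ^ 2 * (1 + ((I.Fr n).card : ℝ)) := by positivity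
  have h4 : I.δ n ^ 16 * (1 + ((I.Fr n).card : ℝ)) ^ 8 ≤ (1 + C) ^ 8 := by
    have := pow_le_pow_left₀ h3 h1 8
    calc _ = (I.δ n ^ 2 * (1 + ((I.Fr n).card : ℝ))) ^ 8 := by ring
      _ ≤ _ := this
  have h5 : (1 + ((I.Fr n).card : ℝ)) ^ 8 ≤ (1 + C) ^ 8 * (I.δ n ^ 16)⁻¹ := by
    rw [← div_eq_mul_inv, le_div_iff₀ (by positivity)]
    linarith
  have h6 : (1 + p + q * I.δ n) ^ 6 ≤ (1 + p + q) ^ 6 := by
    refine pow_le_pow_left₀ (by positivity) ?_ 6
    have := mul_le_of_le_one_right hq hn.le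
    linarith
  calc A * (1 + ((I.Fr n).card : ℝ)) ^ 8 * (1 + p + q * I.δ n) ^ 6 ≤
        A * ((1 + C) ^ 8 * (I.δ n ^ 16)⁻¹) * (1 + p + q) ^ 6 := by gcongr
    _ = _ := by ring

/-- **LoD** -/
theorem loD {P : Par} (hP : Uid674.SmallU P) :
    LoD (fun r L => abT P Lc279.mu0 r L) (Real.sqrt 3 / 2) := by
  intro I ε hε b0 hb0
  obtain ⟨t0, t1, t2, t3, t4⟩ := two_div_sqrt
  have t5 : Real.sqrt 3 / 2 * (2 / Real.sqrt 3) = 1 := by
    have : Real.sqrt 3 ≠ 0 := by positivity
    field_simp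
  set s3 : ℝ := Real.sqrt 3 / 2 with hs3
  set Λ : ℝ := s3 / b0 + s3 ^ 2 / b0 with hΛd
  have hΛ : 0 < Λ := by positivity
  set ε' : ℝ := ε / (6 * (s3 / b0 + 1)) with hε'
  have hε'0 : 0 < ε' := by positivity
  have hε'1 : s3 / b0 * ε' ≤ ε / 6 := by
    rw [hε']
    have h1 : 0 < s3 / b0 := by positivity
    rw [show s3 / b0 * (ε / (6 * (s3 / b0 + 1))) = ε / 6 * (s3 / b0 / (s3 / b0 + 1)) by
      field_simp]
    exact mul_le_of_le_one_right (by positivity) ((div_le_one (by positivity)).mpr (by linarith))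
  obtain ⟨u, hu, hu1, hu2⟩ := exists_test I hε'0
  obtain ⟨S0, S1, S2, hS0, hS1, hS2, k0, k1, k2⟩ := exists_bd hu
  obtain ⟨G, hGo, hGc, hGD, huG, hGn⟩ := exists_region hu.comp.isCompact (sites I).opn hu.supp
  have hu' : IsTest G u := ⟨hu.smooth, hu.comp, huG⟩
  have N := numIn_mcw (P := P) hP 1 hGo hGc hGD hGn
  obtain ⟨θ, hθ, r1, hr1, hnum⟩ := numbers N inv_mu0 dlr_mu0 hu' (S1 := S1) (S2 := S2) hΛ
    (show 0 < ε / 3 by positivity)
  refine ⟨r1, fun r hr b hb hab => ?_⟩
  have hb' : 0 < b := hb0.trans_le hb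
  obtain ⟨Tl, C, hC, hT, H⟩ := hnum r hr b hb'.le hab
  choose A3 A4 hA3 hA4 hfield using fun o => exists_field P (c0 := 1) one_pos (hT o) hθ
  obtain ⟨κ, hκ, hsep⟩ := sep_ev N.hs hu'
  obtain ⟨W, hW0, hW⟩ := exists_wA_le I
  obtain ⟨Cc, hCc, hcard⟩ := N.hs.card_bdd
  set l : ℝ := s3 / b with hl
  have hl0 : 0 < l := by positivity
  have hlb0 : l ≤ s3 / b0 := div_le_div_of_nonneg_left t3.le hb0 hb
  have hlΛ : |l| ≤ Λ := by
    rw [abs_of_pos hl0, hΛd]
    have : 0 < s3 ^ 2 / b0 := by positivity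
    linarith
  have hlb : l ^ 2 * b ≤ Λ := by
    have h1 : l ^ 2 * b = s3 ^ 2 / b := by rw [hl]; field_simp
    rw [h1, hΛd]
    have h2 : s3 ^ 2 / b ≤ s3 ^ 2 / b0 := div_le_div_of_nonneg_left (by positivity) hb0 hb
    have : 0 < s3 / b0 := by positivity
    linarith
  set M : ℕ → ℕ := fun n => ⌈κ / I.δ n⌉₊ with hM
  set Kc : Fin 3 → ℕ → ℝ := fun o n => A4 o * (1 + ((I.Fr n).card : ℝ)) ^ 8 *
    (1 + |l| * S0 + |l| * S1 * I.δ n) ^ 6 with hKc
  -- one constant for the three orientations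
  have hKex : ∀ o, ∃ K : ℝ, ∀ᶠ n in atTop, Kc o n ≤ K * (I.δ n ^ 16)⁻¹ := fun o =>
    crude_ev I (hA4 o) (p := |l| * S0) (q := |l| * S1) (by positivity) (by positivity)
  choose Ko hKo using hKex
  have hKc' : ∀ o, ∀ᶠ n in atTop, Kc o n ≤ (∑ o, |Ko o|) * (I.δ n ^ 16)⁻¹ := by
    intro o
    filter_upwards [hKo o] with n hn
    have hδ : 0 < I.δ n := I.hM.1 n
    refine hn.trans (mul_le_mul_of_nonneg_right ?_ (by positivity))
    exact (le_abs_self _).trans (Finset.single_le_sum (f := fun o => |Ko o|)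
      (fun o _ => abs_nonneg _) (Finset.mem_univ o))
  have hMk : ∀ᶠ n in atTop, κ / I.δ n ≤ M n := Eventually.of_forall fun n => Nat.le_ceil _
  have e1 := H A3 Kc (∑ o, |Ko o|) κ 16 M hA3 hKc' hκ hMk l hlΛ hlb
  have e2 := loc_inst (I := I) hGc hGD
  have e3 := fderiv_X I
  have e4 := N.disp_term (4 * W * (|l| * S1)) (128 * r / 2) (show 0 < ε / 6 by positivity)
  have e5 := N.far_term (2 * W * (|l| * S0) * Cc) hκ 0 (show 0 < ε / 6 by positivity)
  have e6 := hsep l (128 * r)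
  have e7 := (sites I).small (show 0 < κ / 2 by positivity)
  have e8 : ∀ᶠ n in atTop, |(∑ v ∈ I.Fr n, wA (I.δ n) I.f v * u (centre (I.δ n) v)) -
      ∫ z, I.f z * u z| ≤ ε' := by
    have h1 := Metric.tendsto_nhds.mp (tendsto_weights I hu.smooth.continuous) ε' hε'0
    filter_upwards [h1] with n hn
    rw [Real.dist_eq] at hn
    exact hn.le
  filter_upwards [e1, e2, e3, e4, e5, e6, e7, e8] with n g1 g2 g3 g4 g5 g6 g7 g8
  have hδ : 0 < I.δ n := I.hM.1 n
  obtain ⟨o, c, hc, hint⟩ := g1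
  have hr2 : 2 ≤ r := hr1.trans hr
  -- the number `M`
  have hM1 : κ / I.δ n ≤ M n := Nat.le_ceil _
  have hM2 : 2 ≤ M n := by
    have h1 : (2 : ℝ) ≤ κ / I.δ n := by
      rw [le_div_iff₀ hδ]; linarith
    exact_mod_cast h1.trans hM1
  have hM3 : (M n : ℝ) ≤ 2 * κ / I.δ n := by
    have h1 : (M n : ℝ) < κ / I.δ n + 1 := Nat.ceil_lt_add_one (by positivity)
    have h2 : (1 : ℝ) ≤ κ / I.δ n := by
      rw [le_div_iff₀ hδ]; linarith
    rw [mul_div_assoc]
    linarith
  obtain ⟨Y, cY, tY, hTan, htr, hY0, hYb, hYd⟩ := hfield o (I.Fr n) (I.Ed n) (I.xi n) (rg I G n)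
    (Qs r o (rg I G n) c) g2 (pos_Qs hr2 o _ c) (psi u l (I.δ n)) _ _ _
    (psiH hu' hS1 hS2 k0 k1 k2 l hδ.le) (M n) hM2 (g6 (M n) hM3)
  refine ⟨Y, cY, tY, hTan, ?_, ?_⟩
  · -- the trace
    have h1 := trace_int hTan.lip (integral_tot N hu' hC hT θ n o c l (|l| * S1 * I.δ n)
      (2 * |l| * S2 * I.δ n ^ 2) (A3 o) (Kc o n) (M n)).1 (by
        filter_upwards [htr] with x hx
        refine hx.trans (le_of_eq ?_)
        unfold tot
        congr 1
        by_cases hbad : Bad P 1 (rg I G n) (M n) (ext (I.Fr n) (I.xi n) x)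
        · rw [if_pos hbad, Set.indicator_of_mem (show ext (I.Fr n) (I.xi n) x ∈
            {h | Bad P 1 (rg I G n) (M n) h} from hbad), mul_one]
        · rw [if_neg hbad, Set.indicator_of_notMem (show ext (I.Fr n) (I.xi n) x ∉
            {h | Bad P 1 (rg I G n) (M n) h} from hbad), mul_zero])
    refine h1.trans (hint.trans ?_)
    have h2 : l ^ 2 * (2 / Real.sqrt 3 * b) = l := by
      calc l ^ 2 * (2 / Real.sqrt 3 * b) = l * (l * b) * (2 / Real.sqrt 3) := by ring
        _ = l * (s3 * (2 / Real.sqrt 3)) := by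
            rw [hl, div_mul_cancel₀ _ hb'.ne']; ring
        _ = l := by rw [t5, mul_one]
    rw [h2]
    have h3 : ∫ z, ‖fderiv ℝ u z‖ ^ 2 ≤ I.g + ε' := by
      have := (abs_le.mp hu2).2
      linarith
    have h4 : l * ∫ z, ‖fderiv ℝ u z‖ ^ 2 ≤ l * I.g + ε / 6 := by
      calc l * ∫ z, ‖fderiv ℝ u z‖ ^ 2 ≤ l * (I.g + ε') := mul_le_mul_of_nonneg_left h3 hl0.le
        _ = l * I.g + l * ε' := by ring
        _ ≤ l * I.g + s3 / b0 * ε' := by gcongr
        _ ≤ _ := by linarith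
    linarith
  · -- the linear statistic
    have he : |(∑ w ∈ I.Fr n, wA (I.δ n) I.f w * (l * u (centre (I.δ n) w))) - l * I.g| ≤
        ε / 3 := by
      have h1 : (∑ w ∈ I.Fr n, wA (I.δ n) I.f w * (l * u (centre (I.δ n) w))) - l * I.g =
          l * (((∑ w ∈ I.Fr n, wA (I.δ n) I.f w * u (centre (I.δ n) w)) - ∫ z, I.f z * u z) +
            ((∫ z, I.f z * u z) - I.g)) := by
        have h2 : ∑ w ∈ I.Fr n, wA (I.δ n) I.f w * (l * u (centre (I.δ n) w)) =
            l * ∑ w ∈ I.Fr n, wA (I.δ n) I.f w * u (centre (I.δ n) w) := by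
          rw [Finset.mul_sum]
          exact Finset.sum_congr rfl fun w _ => by ring
        rw [h2]; ring
      rw [h1, abs_mul, abs_of_pos hl0]
      calc l * |((∑ w ∈ I.Fr n, wA (I.δ n) I.f w * u (centre (I.δ n) w)) - ∫ z, I.f z * u z) +
            ((∫ z, I.f z * u z) - I.g)| ≤ (s3 / b0) * (ε' + ε') := by
            refine mul_le_mul hlb0 ((abs_add_le _ _).trans (add_le_add g8 hu1)) (abs_nonneg _)
              (by positivity)
        _ ≤ ε / 3 := by linarith
    have h1 := disp_int (v := l * I.g) hTan.lip (integral_disp (n := n) N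
      (4 * W * (|l| * S1 * I.δ n)) (2 * W * (|l| * S0) * (I.δ n ^ 2 * (rg I G n).card)) (ε / 3)
      (128 * r / 2) (M n)).1 (fun x => disp_pt P huG g3 (hW n) k0
        (by positivity) (by positivity) he (hY0 x) (fun w => hYb x w) (fun hb w hw => by
          have := hYd x hb w hw
          rwa [psi_ix] at this))
    refine h1.trans ?_
    rw [(integral_disp (n := n) N _ _ _ _ _).2]
    have h2 : 4 * W * (|l| * S1 * I.δ n) * (I.δ n ^ 2 * ∑ w ∈ rg I G n, ∫ h,
        ((mcw P 1 (win 1 (rg I G n)) h w : ℝ) + 128 * r / 2) ∂(nuI I n)) ≤ ε / 6 := by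
      refine le_trans (le_of_eq ?_) g4
      ring
    have h3 : 2 * W * (|l| * S0) * (I.δ n ^ 2 * (rg I G n).card) *
        (nuI I n).real {h | Bad P 1 (rg I G n) (M n) h} ≤ ε / 6 := by
      refine le_trans ?_ g5
      rw [pow_zero, inv_one, mul_one]
      have h4 : (nuI I n).real {h | Bad P 1 (rg I G n) (M n) h} ≤
          (nuI I n).real {h | ∃ w ∈ rg I G n, κ / I.δ n ≤
            (mcw P 1 (win 1 (rg I G n)) h w : ℝ)} := by
        refine measureReal_mono ?_
        rintro h ⟨w, hw, hMw⟩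
        exact ⟨w, hw, hM1.trans (by exact_mod_cast hMw)⟩
      exact mul_le_mul (mul_le_mul_of_nonneg_left (hcard n) (by positivity)) h4
        measureReal_nonneg (by positivity)
    linarith

end

end Crest.Agent.R144.LowL549
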