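import Crest.Agent.R144.Hex1_585

-- ▼ part R144/Qa_277
section

/-!
# R144, R1 (doc 1941, section (3.2)): deterministic part (helper277)

Sites `P2 = ℤ × ℤ` with the adjacency `HexHeights.Adj`; `XX v = 2 * v.1 + v.2` is twice the abscissa,
`v.2` the row.  `Pth S u v`: `u ∈ S` and `u`, `v` are joined by a walk in `S`.
`X1`: a walk from far left to far right and a bottom-top walk in the same strip share a site.

* `order_meet` : two bottom-top walks whose ends are in reversed order share a site;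
* `arc_top`, `arc_bot` : an arc with two feet on the top (bottom) row meets every bottom-top walk with a
  foot between them;
* `chain` : interlacing pairs of bottom-top walks in reversed order make a long walk.
-/

set_option autoImplicit false

namespace Crest.Agent.R144.Qa277

open Crest.Agent.R144.It844 (P2 adj_iff adj_symm)
open Crest.Agent.R144.Zg349 (StepIn IsConn)
open Crest.Agent.R144.Pst967 (stepIn_symm path_symm path_h)
open Crest.ProbabilityR.HexHeights (Adj)

/-- twice the abscissa -/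
def XX (v : P2) : ℤ := 2 * v.1 + v.2


/-- `u ∈ S` is joined to `v` by a walk in `S` -/
def Pth (S : Set P2) (u v : P2) : Prop := u ∈ S ∧ Relation.ReflTransGen (StepIn S) u v

theorem Pth.refl {S : Set P2} {u : P2} (h : u ∈ S) : Pth S u u := ⟨h, Relation.ReflTransGen.refl⟩

theorem Pth.right {S : Set P2} {u v : P2} (h : Pth S u v) : v ∈ S := by
  obtain ⟨h1, h2⟩ := h
  induction h2 with
  | refl => exact h1
  | tail _ h3 _ => exact h3.2.1

theorem Pth.symm {S : Set P2} {u v : P2} (h : Pth S u v) : Pth S v u := ⟨h.right, path_symm h.2⟩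

theorem Pth.trans {S : Set P2} {u v w : P2} (h : Pth S u v) (h' : Pth S v w) : Pth S u w :=
  ⟨h.1, h.2.trans h'.2⟩

theorem Pth.mono {S T : Set P2} (hST : S ⊆ T) {u v : P2} (h : Pth S u v) : Pth T u v :=
  ⟨hST h.1, Relation.ReflTransGen.mono (fun _ _ hab => ⟨hST hab.1, hST hab.2.1, hab.2.2⟩) _ _ h.2⟩

theorem Pth.step {S : Set P2} {u v : P2} (hu : u ∈ S) (hv : v ∈ S) (h : Adj u v) : Pth S u v :=
  ⟨hu, Relation.ReflTransGen.single ⟨hu, hv, h⟩⟩

/-- the walk stays in the component -/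
theorem Pth.comp {S : Set P2} {u v : P2} (h : Pth S u v) : Pth {w | Pth S u w} u v := by
  obtain ⟨h1, h2⟩ := h
  induction h2 with
  | refl => exact Pth.refl (Pth.refl h1)
  | @tail b c h3 h4 ih =>
    exact ih.trans (Pth.step (⟨h1, h3⟩ : Pth S u b) (⟨h1, h3.tail h4⟩ : Pth S u c) h4.2.2)

/-- a horizontal walk -/
theorem Pth.hor {S : Set P2} (y a b : ℤ) (h : ∀ t : ℤ, min a b ≤ t → t ≤ max a b → (t, y) ∈ S) :
    Pth S (a, y) (b, y) := ⟨h a (min_le_left _ _) (le_max_left _ _), path_h y a b h⟩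

/-- (X1) of doc 1941 -/
def X1 : Prop := ∀ (j0 j1 L R : ℤ) (α β : Set P2),
  (∀ v ∈ α, j0 ≤ v.2 ∧ v.2 ≤ j1) → (∀ v ∈ β, (j0 ≤ v.2 ∧ v.2 ≤ j1) ∧ L < XX v ∧ XX v < R) →
  ∀ u v p q : P2, Pth α u v → XX u ≤ L → R ≤ XX v → Pth β p q → p.2 = j0 → q.2 = j1 →
  ∃ w ∈ α, w ∈ β

/-- `A` lies in the rows `j0, …, j1` and is bounded -/
def InStrip (A : Set P2) (j0 j1 M : ℤ) : Prop := ∀ v ∈ A, j0 ≤ v.2 ∧ v.2 ≤ j1 ∧ |XX v| ≤ M

variable {A : Set P2} {j0 j1 M : ℤ}

/-- two bottom-top walks with ends in reversed order are joined -/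
theorem order_meet_bdd (hX : X1) (hA : InStrip A j0 j1 M) {p q p' q' : P2}
    (h : Pth A p q) (h' : Pth A p' q') (hp : p.2 = j0) (hq : q.2 = j1) (hp' : p'.2 = j0)
    (hq' : q'.2 = j1) (h1 : XX p < XX p') (h2 : XX q' < XX q) : Pth A p p' := by
  have hM : 0 ≤ M := (abs_nonneg _).trans (hA p h.1).2.2
  set α : Set P2 := {w | Pth A p w} ∪ {w | w.2 = j0 - 1 ∧ XX w ≤ XX p - 1} ∪
    {w | w.2 = j1 + 1 ∧ XX q + 1 ≤ XX w} with hα
  set β : Set P2 := {w | Pth A p' w} ∪ {(p'.1 + 1, j0 - 1)} ∪ {(q'.1 - 1, j1 + 1)} with hβ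
  have bp := hA p h.1
  have bq := hA q h.right
  have bp' := hA p' h'.1
  have bq' := hA q' h'.right
  simp only [abs_le] at bp bq bp' bq'
  have exx : ∀ v : P2, XX v = 2 * v.1 + v.2 := fun v => rfl
  -- the left end
  have hαr : ∀ v ∈ α, j0 - 1 ≤ v.2 ∧ v.2 ≤ j1 + 1 := by
    rintro v ((hv | hv) | hv)
    · have := hA v (Pth.right hv); omega
    · have := hv.1; omega
    · have := hv.1; omega
  have hβr : ∀ v ∈ β, (j0 - 1 ≤ v.2 ∧ v.2 ≤ j1 + 1) ∧ -(M + 2) < XX v ∧ XX v < M + 2 := by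
    rintro v ((hv | hv) | hv)
    · have := hA v (Pth.right hv)
      rw [abs_le] at this
      omega
    · have hv : v = (p'.1 + 1, j0 - 1) := hv
      subst hv
      rw [exx] at bp' ⊢
      simp only
      omega
    · have hv : v = (q'.1 - 1, j1 + 1) := hv
      subst hv
      rw [exx] at bq' ⊢
      simp only
      omega
  -- walks
  have hl : Pth α (p.1 - (2 * M + 4), j0 - 1) (p.1, j0 - 1) := by
    refine Pth.hor _ _ _ fun t ht1 ht2 => Or.inl (Or.inr ⟨rfl, ?_⟩)
    rw [exx, exx]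
    simp only
    rw [max_eq_right (by omega)] at ht2
    omega
  have hr : Pth α (q.1, j1 + 1) (q.1 + (2 * M + 4), j1 + 1) := by
    refine Pth.hor _ _ _ fun t ht1 ht2 => Or.inr ⟨rfl, ?_⟩
    rw [exx, exx]
    simp only
    rw [min_eq_left (by omega)] at ht1
    omega
  have hmid : Pth α p q := (Pth.comp h).mono fun w hw => Or.inl (Or.inl hw)
  have hα1 : Pth α (p.1 - (2 * M + 4), j0 - 1) (q.1 + (2 * M + 4), j1 + 1) := by
    refine hl.trans ((Pth.step hl.right hmid.1 ?_).trans (hmid.trans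
      ((Pth.step hmid.right hr.1 ?_).trans hr)))
    · rw [adj_iff]
      right; right; left
      ext
      · rfl
      · simp [hp]
    · rw [adj_iff]
      right; right; left
      ext
      · rfl
      · simp [hq]
  have hmid' : Pth β p' q' := (Pth.comp h').mono fun w hw => Or.inl (Or.inl hw)
  have hb1 : ((p'.1 + 1, j0 - 1) : P2) ∈ β := Or.inl (Or.inr rfl)
  have hb2 : ((q'.1 - 1, j1 + 1) : P2) ∈ β := Or.inr rfl
  have hβ1 : Pth β (p'.1 + 1, j0 - 1) (q'.1 - 1, j1 + 1) := by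
    refine (Pth.step hb1 hmid'.1 ?_).trans (hmid'.trans (Pth.step hmid'.right hb2 ?_))
    · rw [adj_iff]
      right; right; right; right; right
      ext
      · simp
      · simp [hp']
    · rw [adj_iff]
      right; right; right; right; right
      ext
      · simp
      · simp [hq']
  obtain ⟨w, hw1, hw2⟩ := hX (j0 - 1) (j1 + 1) (-(M + 2)) (M + 2) α β hαr hβr _ _ _ _ hα1
    (by rw [exx] at *; simp only; omega) (by rw [exx] at *; simp only; omega) hβ1 rfl rfl
  rcases hw2 with (hw2 | hw2) | hw2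
  · rcases hw1 with (hw1 | hw1) | hw1
    · exact Pth.trans hw1 (Pth.symm hw2)
    · have := hA w (Pth.right hw2)
      have := hw1.1
      omega
    · have := hA w (Pth.right hw2)
      have := hw1.1
      omega
  · have hw2 : w = (p'.1 + 1, j0 - 1) := hw2
    subst hw2
    exfalso
    rcases hw1 with (hw1 | hw1) | hw1
    · have := hA _ (Pth.right hw1)
      simp only at this
      omega
    · have := hw1.2
      simp only [XX] at this h1
      omega
    · have := hw1.1
      simp only at this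
      omega
  · have hw2 : w = (q'.1 - 1, j1 + 1) := hw2
    subst hw2
    exfalso
    rcases hw1 with (hw1 | hw1) | hw1
    · have := hA _ (Pth.right hw1)
      simp only at this
      omega
    · have := hw1.1
      simp only at this
      omega
    · have := hw1.2
      simp only [XX] at this h2
      omega

/-- an arc with two feet on the bottom row meets every bottom-top walk with its foot between them -/
theorem arc_bot_bdd (hX : X1) (hA : InStrip A j0 j1 M) {p q u v : P2}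
    (h : Pth A p q) (h' : Pth A u v) (hp : p.2 = j0) (hq : q.2 = j0) (hu : u.2 = j0)
    (hv : v.2 = j1) (h1 : XX p < XX u) (h2 : XX u < XX q) : Pth A p u := by
  have hM : 0 ≤ M := (abs_nonneg _).trans (hA p h.1).2.2
  set α : Set P2 := {w | Pth A p w} ∪ {w | w.2 = j0 - 1 ∧ XX w ≤ XX p - 1} ∪
    {w | w.2 = j0 - 1 ∧ XX q + 1 ≤ XX w} with hα
  set β : Set P2 := {w | Pth A u w} ∪ {(u.1, j0 - 1)} ∪ {(v.1, j1 + 1)} with hβ
  have bp := hA p h.1
  have bq := hA q h.right
  have bp' := hA u h'.1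
  have bq' := hA v h'.right
  simp only [abs_le] at bp bq bp' bq'
  have exx : ∀ v : P2, XX v = 2 * v.1 + v.2 := fun v => rfl
  have hj : j0 ≤ j1 := by omega
  -- the left end
  have hαr : ∀ v ∈ α, j0 - 1 ≤ v.2 ∧ v.2 ≤ j1 + 1 := by
    rintro v ((hv | hv) | hv)
    · have := hA v (Pth.right hv); omega
    · have := hv.1; omega
    · have := hv.1; omega
  have hβr : ∀ v ∈ β, (j0 - 1 ≤ v.2 ∧ v.2 ≤ j1 + 1) ∧ -(M + 2) < XX v ∧ XX v < M + 2 := by
    rintro w ((hw | hw) | hw)
    · have := hA w (Pth.right hw)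
      rw [abs_le] at this
      omega
    · have hw : w = (u.1, j0 - 1) := hw
      subst hw
      rw [exx] at bp' ⊢
      simp only
      omega
    · have hw : w = (v.1, j1 + 1) := hw
      subst hw
      rw [exx] at bq' ⊢
      simp only
      omega
  -- walks
  have hl : Pth α (p.1 - (2 * M + 4), j0 - 1) (p.1, j0 - 1) := by
    refine Pth.hor _ _ _ fun t ht1 ht2 => Or.inl (Or.inr ⟨rfl, ?_⟩)
    rw [exx, exx]
    simp only
    rw [max_eq_right (by omega)] at ht2
    omega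
  have hr : Pth α (q.1 + 1, j0 - 1) (q.1 + 1 + (2 * M + 4), j0 - 1) := by
    refine Pth.hor _ _ _ fun t ht1 ht2 => Or.inr ⟨rfl, ?_⟩
    rw [exx, exx]
    simp only
    rw [min_eq_left (by omega)] at ht1
    omega
  have hmid : Pth α p q := (Pth.comp h).mono fun w hw => Or.inl (Or.inl hw)
  have hα1 : Pth α (p.1 - (2 * M + 4), j0 - 1) (q.1 + 1 + (2 * M + 4), j0 - 1) := by
    refine hl.trans ((Pth.step hl.right hmid.1 ?_).trans (hmid.trans
      ((Pth.step hmid.right hr.1 ?_).trans hr)))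
    · rw [adj_iff]
      right; right; left
      ext
      · rfl
      · simp [hp]
    · rw [adj_iff]
      right; right; right; right; left
      ext
      · rfl
      · simp [hq]
  have hmid' : Pth β u v := (Pth.comp h').mono fun w hw => Or.inl (Or.inl hw)
  have hb1 : ((u.1, j0 - 1) : P2) ∈ β := Or.inl (Or.inr rfl)
  have hb2 : ((v.1, j1 + 1) : P2) ∈ β := Or.inr rfl
  have hβ1 : Pth β (u.1, j0 - 1) (v.1, j1 + 1) := by
    refine (Pth.step hb1 hmid'.1 ?_).trans (hmid'.trans (Pth.step hmid'.right hb2 ?_))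
    · rw [adj_iff]
      right; right; left
      ext
      · rfl
      · simp [hu]
    · rw [adj_iff]
      right; right; left
      ext
      · rfl
      · simp [hv]
  obtain ⟨w, hw1, hw2⟩ := hX (j0 - 1) (j1 + 1) (-(M + 2)) (M + 2) α β hαr hβr _ _ _ _ hα1
    (by rw [exx] at *; simp only; omega) (by rw [exx] at *; simp only; omega) hβ1 rfl rfl
  rcases hw2 with (hw2 | hw2) | hw2
  · rcases hw1 with (hw1 | hw1) | hw1
    · exact Pth.trans hw1 (Pth.symm hw2)
    · have := hA w (Pth.right hw2)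
      have := hw1.1
      omega
    · have := hA w (Pth.right hw2)
      have := hw1.1
      omega
  · have hw2 : w = (u.1, j0 - 1) := hw2
    subst hw2
    exfalso
    rcases hw1 with (hw1 | hw1) | hw1
    · have := hA _ (Pth.right hw1)
      simp only at this
      omega
    · have := hw1.2
      simp only [XX] at this h1
      omega
    · have := hw1.2
      simp only [XX] at this h2
      omega
  · have hw2 : w = (v.1, j1 + 1) := hw2
    subst hw2
    exfalso
    rcases hw1 with (hw1 | hw1) | hw1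
    · have := hA _ (Pth.right hw1)
      simp only at this
      omega
    · have := hw1.1
      simp only at this
      omega
    · have := hw1.1
      simp only at this
      omega

/-- an arc with two feet on the top row meets every bottom-top walk with its foot between them -/
theorem arc_top_bdd (hX : X1) (hA : InStrip A j0 j1 M) {p q u v : P2}
    (h : Pth A p q) (h' : Pth A u v) (hp : p.2 = j1) (hq : q.2 = j1) (hu : u.2 = j0)
    (hv : v.2 = j1) (h1 : XX p < XX v) (h2 : XX v < XX q) : Pth A p v := by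
  have hM : 0 ≤ M := (abs_nonneg _).trans (hA p h.1).2.2
  set α : Set P2 := {w | Pth A p w} ∪ {w | w.2 = j1 + 1 ∧ XX w ≤ XX p - 1} ∪
    {w | w.2 = j1 + 1 ∧ XX q + 1 ≤ XX w} with hα
  set β : Set P2 := {w | Pth A u w} ∪ {(u.1, j0 - 1)} ∪ {(v.1, j1 + 1)} with hβ
  have bp := hA p h.1
  have bq := hA q h.right
  have bp' := hA u h'.1
  have bq' := hA v h'.right
  simp only [abs_le] at bp bq bp' bq'
  have exx : ∀ v : P2, XX v = 2 * v.1 + v.2 := fun v => rfl
  have hj : j0 ≤ j1 := by omega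
  -- the left end
  have hαr : ∀ v ∈ α, j0 - 1 ≤ v.2 ∧ v.2 ≤ j1 + 1 := by
    rintro v ((hv | hv) | hv)
    · have := hA v (Pth.right hv); omega
    · have := hv.1; omega
    · have := hv.1; omega
  have hβr : ∀ v ∈ β, (j0 - 1 ≤ v.2 ∧ v.2 ≤ j1 + 1) ∧ -(M + 2) < XX v ∧ XX v < M + 2 := by
    rintro w ((hw | hw) | hw)
    · have := hA w (Pth.right hw)
      rw [abs_le] at this
      omega
    · have hw : w = (u.1, j0 - 1) := hw
      subst hw
      rw [exx] at bp' ⊢
      simp only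
      omega
    · have hw : w = (v.1, j1 + 1) := hw
      subst hw
      rw [exx] at bq' ⊢
      simp only
      omega
  -- walks
  have hl : Pth α (p.1 - 1 - (2 * M + 4), j1 + 1) (p.1 - 1, j1 + 1) := by
    refine Pth.hor _ _ _ fun t ht1 ht2 => Or.inl (Or.inr ⟨rfl, ?_⟩)
    rw [exx, exx]
    simp only
    rw [max_eq_right (by omega)] at ht2
    omega
  have hr : Pth α (q.1, j1 + 1) (q.1 + (2 * M + 4), j1 + 1) := by
    refine Pth.hor _ _ _ fun t ht1 ht2 => Or.inr ⟨rfl, ?_⟩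
    rw [exx, exx]
    simp only
    rw [min_eq_left (by omega)] at ht1
    omega
  have hmid : Pth α p q := (Pth.comp h).mono fun w hw => Or.inl (Or.inl hw)
  have hα1 : Pth α (p.1 - 1 - (2 * M + 4), j1 + 1) (q.1 + (2 * M + 4), j1 + 1) := by
    refine hl.trans ((Pth.step hl.right hmid.1 ?_).trans (hmid.trans
      ((Pth.step hmid.right hr.1 ?_).trans hr)))
    · rw [adj_iff]
      right; right; right; right; left
      ext
      · simp
      · simp [hp]
    · rw [adj_iff]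
      right; right; left
      ext
      · rfl
      · simp [hq]
  have hmid' : Pth β u v := (Pth.comp h').mono fun w hw => Or.inl (Or.inl hw)
  have hb1 : ((u.1, j0 - 1) : P2) ∈ β := Or.inl (Or.inr rfl)
  have hb2 : ((v.1, j1 + 1) : P2) ∈ β := Or.inr rfl
  have hβ1 : Pth β (u.1, j0 - 1) (v.1, j1 + 1) := by
    refine (Pth.step hb1 hmid'.1 ?_).trans (hmid'.trans (Pth.step hmid'.right hb2 ?_))
    · rw [adj_iff]
      right; right; left
      ext
      · rfl
      · simp [hu]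
    · rw [adj_iff]
      right; right; left
      ext
      · rfl
      · simp [hv]
  obtain ⟨w, hw1, hw2⟩ := hX (j0 - 1) (j1 + 1) (-(M + 2)) (M + 2) α β hαr hβr _ _ _ _ hα1
    (by rw [exx] at *; simp only; omega) (by rw [exx] at *; simp only; omega) hβ1 rfl rfl
  rcases hw2 with (hw2 | hw2) | hw2
  · rcases hw1 with (hw1 | hw1) | hw1
    · exact (Pth.trans hw1 (Pth.symm hw2)).trans h'
    · have := hA w (Pth.right hw2)
      have := hw1.1
      omega
    · have := hA w (Pth.right hw2)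
      have := hw1.1
      omega
  · have hw2 : w = (u.1, j0 - 1) := hw2
    subst hw2
    exfalso
    rcases hw1 with (hw1 | hw1) | hw1
    · have := hA _ (Pth.right hw1)
      simp only at this
      omega
    · have := hw1.1
      simp only at this
      omega
    · have := hw1.1
      simp only at this
      omega
  · have hw2 : w = (v.1, j1 + 1) := hw2
    subst hw2
    exfalso
    rcases hw1 with (hw1 | hw1) | hw1
    · have := hA _ (Pth.right hw1)
      simp only at this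
      omega
    · have := hw1.2
      simp only [XX] at this h1
      omega
    · have := hw1.2
      simp only [XX] at this h2
      omega

theorem x1_holds : X1 := by
  intro j0 j1 L R α β hα hβ u v p q huv hu hv hpq hp hq
  obtain ⟨w, h1, h2⟩ := Crest.Agent.R144.Hex585.cross (W := α) (C := β) huv.1 huv.2 hpq.1 hpq.2
    (fun w hw => by rw [hp, hq]; exact hα w hw)
    (fun w hw => by
      have := hβ w hw
      simp only [XX, Crest.Agent.R144.Hex585.xx] at *
      omega)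
  exact ⟨w, h1, h2⟩

/-- `A` lies in the rows `j0, …, j1` -/
def InRows (A : Set P2) (j0 j1 : ℤ) : Prop := ∀ v ∈ A, j0 ≤ v.2 ∧ v.2 ≤ j1

theorem cut_mono {A : Set P2} {M M' : ℤ} (h : M ≤ M') :
    A ∩ {w | |XX w| ≤ M} ⊆ A ∩ {w | |XX w| ≤ M'} :=
  Set.inter_subset_inter_right A fun _ hw => le_trans (show _ ≤ M from hw) h

theorem Pth.bdd {A : Set P2} {u v : P2} (h : Pth A u v) :
    ∃ M : ℤ, Pth (A ∩ {w | |XX w| ≤ M}) u v := by
  obtain ⟨h1, h2⟩ := h
  induction h2 with
  | refl => exact ⟨|XX u|, Pth.refl ⟨h1, show |XX u| ≤ |XX u| from le_rfl⟩⟩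
  | @tail b c h3 h4 ih =>
    obtain ⟨M, hM⟩ := ih
    refine ⟨max M |XX c|, ?_⟩
    have h5 := hM.mono (cut_mono (A := A) (le_max_left M |XX c|))
    exact h5.trans (Pth.step h5.right ⟨h4.2.1, show |XX c| ≤ max M |XX c| from le_max_right M |XX c|⟩
      h4.2.2)

theorem Pth.bdd2 {A : Set P2} {u v u' v' : P2} (h : Pth A u v) (h' : Pth A u' v') :
    ∃ M : ℤ, Pth (A ∩ {w | |XX w| ≤ M}) u v ∧ Pth (A ∩ {w | |XX w| ≤ M}) u' v' := by
  obtain ⟨M, hM⟩ := h.bdd
  obtain ⟨M', hM'⟩ := h'.bdd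
  exact ⟨max M M', hM.mono (cut_mono (le_max_left _ _)), hM'.mono (cut_mono (le_max_right _ _))⟩

theorem InRows.inStrip {A : Set P2} {j0 j1 : ℤ} (hA : InRows A j0 j1) (M : ℤ) :
    InStrip (A ∩ {w | |XX w| ≤ M}) j0 j1 M := fun v hv => ⟨(hA v hv.1).1, (hA v hv.1).2, hv.2⟩

/-- two bottom-top walks with ends in reversed order are joined -/
theorem order_meet (hA : InRows A j0 j1) {p q p' q' : P2}
    (h : Pth A p q) (h' : Pth A p' q') (hp : p.2 = j0) (hq : q.2 = j1) (hp' : p'.2 = j0)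
    (hq' : q'.2 = j1) (h1 : XX p < XX p') (h2 : XX q' < XX q) : Pth A p p' := by
  obtain ⟨M, hM, hM'⟩ := h.bdd2 h'
  exact (order_meet_bdd x1_holds (hA.inStrip M) hM hM' hp hq hp' hq' h1 h2).mono Set.inter_subset_left

/-- an arc with two feet on the bottom row meets every bottom-top walk with its foot between them -/
theorem arc_bot (hA : InRows A j0 j1) {p q u v : P2}
    (h : Pth A p q) (h' : Pth A u v) (hp : p.2 = j0) (hq : q.2 = j0) (hu : u.2 = j0)
    (hv : v.2 = j1) (h1 : XX p < XX u) (h2 : XX u < XX q) : Pth A p u := by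
  obtain ⟨M, hM, hM'⟩ := h.bdd2 h'
  exact (arc_bot_bdd x1_holds (hA.inStrip M) hM hM' hp hq hu hv h1 h2).mono Set.inter_subset_left

/-- an arc with two feet on the top row meets every bottom-top walk with its foot between them -/
theorem arc_top (hA : InRows A j0 j1) {p q u v : P2}
    (h : Pth A p q) (h' : Pth A u v) (hp : p.2 = j1) (hq : q.2 = j1) (hu : u.2 = j0)
    (hv : v.2 = j1) (h1 : XX p < XX v) (h2 : XX v < XX q) : Pth A p v := by
  obtain ⟨M, hM, hM'⟩ := h.bdd2 h'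
  exact (arc_top_bdd x1_holds (hA.inStrip M) hM hM' hp hq hu hv h1 h2).mono Set.inter_subset_left

/-- chain of arcs made of pairs of walks in reversed order -/
theorem chain_top (hA : InRows A j0 j1) (N : ℕ) (p q p' q' : ℕ → P2)
    (h : ∀ k ≤ N, Pth A (p k) (q k)) (h' : ∀ k ≤ N, Pth A (p' k) (q' k))
    (hp : ∀ k ≤ N, (p k).2 = j0) (hq : ∀ k ≤ N, (q k).2 = j1)
    (hp' : ∀ k ≤ N, (p' k).2 = j0) (hq' : ∀ k ≤ N, (q' k).2 = j1)
    (h1 : ∀ k ≤ N, XX (p k) < XX (p' k)) (h2 : ∀ k ≤ N, XX (q' k) < XX (q k))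
    (h3 : ∀ k, k + 1 ≤ N → XX (q' k) < XX (q' (k + 1)) ∧ XX (q' (k + 1)) < XX (q k)) :
    Pth A (q' 0) (q N) := by
  have key : ∀ k ≤ N, Pth A (q' k) (q k) := fun k hk =>
    (h' k hk).symm.trans ((order_meet hA (h k hk) (h' k hk) (hp k hk) (hq k hk) (hp' k hk)
      (hq' k hk) (h1 k hk) (h2 k hk)).symm.trans (h k hk))
  induction N with
  | zero => exact key 0 le_rfl
  | succ N ih =>
    have ih' := ih (fun k hk => h k (by omega)) (fun k hk => h' k (by omega))
      (fun k hk => hp k (by omega)) (fun k hk => hq k (by omega)) (fun k hk => hp' k (by omega))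
      (fun k hk => hq' k (by omega)) (fun k hk => h1 k (by omega)) (fun k hk => h2 k (by omega))
      (fun k hk => h3 k (by omega)) (fun k hk => key k (by omega))
    have h4 := h3 N le_rfl
    have h5 : Pth A (q' N) (q' (N + 1)) :=
      arc_top hA (key N (by omega)) (h' (N + 1) le_rfl) (hq' N (by omega)) (hq N (by omega))
        (hp' (N + 1) le_rfl) (hq' (N + 1) le_rfl) h4.1 h4.2
    exact ih'.trans ((key N (by omega)).symm.trans (h5.trans (key (N + 1) le_rfl)))

/-- chain of arcs glued by bottom-top walks (bottom feet) -/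
theorem chain_arc_bot (hA : InRows A j0 j1) (N : ℕ) (p q u v : ℕ → P2)
    (h : ∀ k ≤ N, Pth A (p k) (q k)) (h' : ∀ k < N, Pth A (u k) (v k))
    (hp : ∀ k ≤ N, (p k).2 = j0) (hq : ∀ k ≤ N, (q k).2 = j0)
    (hu : ∀ k < N, (u k).2 = j0) (hv : ∀ k < N, (v k).2 = j1)
    (h1 : ∀ k < N, XX (p k) < XX (u k) ∧ XX (u k) < XX (q k))
    (h2 : ∀ k < N, XX (p (k + 1)) < XX (u k) ∧ XX (u k) < XX (q (k + 1))) :
    Pth A (p 0) (q N) := by
  induction N with
  | zero => exact h 0 le_rfl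
  | succ N ih =>
    have ih' := ih (fun k hk => h k (by omega)) (fun k hk => h' k (by omega))
      (fun k hk => hp k (by omega)) (fun k hk => hq k (by omega)) (fun k hk => hu k (by omega))
      (fun k hk => hv k (by omega)) (fun k hk => h1 k (by omega)) (fun k hk => h2 k (by omega))
    have h3 := arc_bot hA (h N (by omega)) (h' N (by omega)) (hp N (by omega)) (hq N (by omega))
      (hu N (by omega)) (hv N (by omega)) (h1 N (by omega)).1 (h1 N (by omega)).2
    have h4 := arc_bot hA (h (N + 1) le_rfl) (h' N (by omega)) (hp (N + 1) le_rfl)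
      (hq (N + 1) le_rfl) (hu N (by omega)) (hv N (by omega)) (h2 N (by omega)).1
      (h2 N (by omega)).2
    exact ih'.trans ((h N (by omega)).symm.trans (h3.trans (h4.symm.trans (h (N + 1) le_rfl))))

/-- chain of arcs glued by bottom-top walks (top feet) -/
theorem chain_arc_top (hA : InRows A j0 j1) (N : ℕ) (p q u v : ℕ → P2)
    (h : ∀ k ≤ N, Pth A (p k) (q k)) (h' : ∀ k < N, Pth A (u k) (v k))
    (hp : ∀ k ≤ N, (p k).2 = j1) (hq : ∀ k ≤ N, (q k).2 = j1)
    (hu : ∀ k < N, (u k).2 = j0) (hv : ∀ k < N, (v k).2 = j1)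
    (h1 : ∀ k < N, XX (p k) < XX (v k) ∧ XX (v k) < XX (q k))
    (h2 : ∀ k < N, XX (p (k + 1)) < XX (v k) ∧ XX (v k) < XX (q (k + 1))) :
    Pth A (p 0) (q N) := by
  induction N with
  | zero => exact h 0 le_rfl
  | succ N ih =>
    have ih' := ih (fun k hk => h k (by omega)) (fun k hk => h' k (by omega))
      (fun k hk => hp k (by omega)) (fun k hk => hq k (by omega)) (fun k hk => hu k (by omega))
      (fun k hk => hv k (by omega)) (fun k hk => h1 k (by omega)) (fun k hk => h2 k (by omega))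
    have h3 := arc_top hA (h N (by omega)) (h' N (by omega)) (hp N (by omega)) (hq N (by omega))
      (hu N (by omega)) (hv N (by omega)) (h1 N (by omega)).1 (h1 N (by omega)).2
    have h4 := arc_top hA (h (N + 1) le_rfl) (h' N (by omega)) (hp (N + 1) le_rfl)
      (hq (N + 1) le_rfl) (hu N (by omega)) (hv N (by omega)) (h2 N (by omega)).1
      (h2 N (by omega)).2
    exact ih'.trans ((h N (by omega)).symm.trans (h3.trans (h4.symm.trans (h (N + 1) le_rfl))))

end Crest.Agent.R144.Qa277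
end

-- ▼ part R144/Qb_277

/-!
# R144, R1 (doc 1941): finitely additive positively associated laws, square root trick (helper277)
-/

set_option autoImplicit false

namespace Crest.Agent.R144.Qa277

open Crest.Agent.R144.It844 (P2 adj_iff adj_symm)
open Crest.Agent.R144.Zg349 (StepIn IsConn)

/-- a finitely additive positively associated probability on the site colourings (`ω` = blue set) -/
structure IsLw (p : Set (Set P2) → ℝ) : Prop where
  nonneg : ∀ E, 0 ≤ p E
  univ : p Set.univ = 1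
  empty : p ∅ = 0
  mod : ∀ E F, p (E ∪ F) + p (E ∩ F) = p E + p F
  assoc : ∀ E F, IsUpperSet E → IsUpperSet F → p E * p F ≤ p (E ∩ F)

namespace IsLw

variable {p : Set (Set P2) → ℝ} (L : IsLw p)
include L

theorem mono {E F : Set (Set P2)} (h : E ⊆ F) : p E ≤ p F := by
  have h1 := L.mod E (F \ E)
  rw [Set.union_sdiff_cancel h, Set.inter_sdiff_self, L.empty] at h1
  have := L.nonneg (F \ E)
  linarith

theorem compl (E : Set (Set P2)) : p Eᶜ = 1 - p E := by
  have h1 := L.mod E Eᶜ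
  rw [Set.union_compl_self, Set.inter_compl_self, L.empty, L.univ] at h1
  linarith

theorem le_one (E : Set (Set P2)) : p E ≤ 1 := by
  rw [← L.univ]; exact L.mono (Set.subset_univ E)

theorem inter_ge (E F : Set (Set P2)) : p E + p F - 1 ≤ p (E ∩ F) := by
  have h1 := L.mod E F
  have := L.le_one (E ∪ F)
  linarith


/-- negative events are positively associated, too -/
theorem assoc_compl {E F : Set (Set P2)} (hE : IsUpperSet E) (hF : IsUpperSet F) :
    p Eᶜ * p Fᶜ ≤ p (Eᶜ ∩ Fᶜ) := by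
  rw [← Set.compl_union, L.compl, L.compl, L.compl]
  have h1 := L.mod E F
  have h2 := L.assoc E F hE hF
  nlinarith

/-- union bound -/
theorem biInter_ge {ι : Type*} (s : Finset ι) (E : ι → Set (Set P2)) :
    1 - ∑ i ∈ s, (1 - p (E i)) ≤ p (⋂ i ∈ s, E i) := by
  classical
  induction s using Finset.induction_on with
  | empty => simp [L.univ]
  | @insert a s ha ih =>
    rw [Finset.set_biInter_insert, Finset.sum_insert ha]
    have := L.inter_ge (E a) (⋂ i ∈ s, E i)
    linarith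

/-- square root trick -/
theorem sqrt_trick {ι : Type*} (s : Finset ι) (E : ι → Set (Set P2)) (hE : ∀ i ∈ s, IsUpperSet (E i))
    {x : ℝ} (hx : 0 ≤ x) (h : 1 - x ^ s.card ≤ p (⋃ i ∈ s, E i)) (hs : s.Nonempty) :
    ∃ i ∈ s, 1 - x ≤ p (E i) := by
  classical
  by_contra hcon
  push Not at hcon
  have key : ∀ t : Finset ι, t ⊆ s → t.Nonempty → p (⋃ i ∈ t, E i) < 1 - x ^ t.card := by
    intro t
    induction t using Finset.induction_on with
    | empty => intro _ h; exact absurd h (by simp)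
    | @insert a t ha ih =>
      intro hts _
      rw [Finset.set_biUnion_insert, Finset.card_insert_of_notMem ha]
      have h1 : p (E a) < 1 - x := hcon a (hts (Finset.mem_insert_self a t))
      have hts' : t ⊆ s := fun i hi => hts (Finset.mem_insert_of_mem hi)
      by_cases ht : t.Nonempty
      · have h2 := ih hts' ht
        have hup : IsUpperSet (⋃ i ∈ t, E i) := isUpperSet_iUnion₂ fun i hi => hE i (hts' hi)
        have h3 := L.assoc_compl (hE a (hts (Finset.mem_insert_self a t))) hup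
        rw [← Set.compl_union, L.compl, L.compl, L.compl] at h3
        have h4 : 0 ≤ x ^ t.card := pow_nonneg hx _
        rw [pow_succ]
        nlinarith
      · rw [Finset.not_nonempty_iff_eq_empty] at ht
        subst ht
        simpa using h1
  exact absurd (key s subset_rfl hs) (not_lt.2 h)

end IsLw

/-! ### connection events -/

/-- `S` and `T` are joined by a blue walk inside `B` -/
def Cn (B S T : Set P2) : Set (Set P2) := {ω | ∃ u ∈ S, ∃ v ∈ T, Pth (ω ∩ B) u v}

theorem cn_upper (B S T : Set P2) : IsUpperSet (Cn B S T) := by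
  rintro ω ω' h ⟨u, hu, v, hv, hp⟩
  exact ⟨u, hu, v, hv, hp.mono (Set.inter_subset_inter_left B h)⟩

theorem cn_mono {B B' S S' T T' : Set P2} (hB : B ⊆ B') (hS : S ⊆ S') (hT : T ⊆ T') :
    Cn B S T ⊆ Cn B' S' T' := by
  rintro ω ⟨u, hu, v, hv, hp⟩
  exact ⟨u, hS hu, v, hT hv, hp.mono (Set.inter_subset_inter_right ω hB)⟩

/-- rows `j0, …, j0 + h` -/
def Rw (j0 h : ℤ) : Set P2 := {v | j0 ≤ v.2 ∧ v.2 ≤ j0 + h}
/-- box: rows `j0, …, j0 + h`, `|XX - a| ≤ R` -/
def Bx (j0 h a R : ℤ) : Set P2 := {v | j0 ≤ v.2 ∧ v.2 ≤ j0 + h ∧ |XX v - a| ≤ R}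
/-- window on row `j` -/
def Win (j a w : ℤ) : Set P2 := {v | v.2 = j ∧ |XX v - a| ≤ w}

theorem bx_sub_rw (j0 h a R : ℤ) : Bx j0 h a R ⊆ Rw j0 h := fun _ hv => ⟨hv.1, hv.2.1⟩

theorem bx_mono {j0 h a R a' R' : ℤ} (h1 : |a' - a| + R ≤ R') : Bx j0 h a R ⊆ Bx j0 h a' R' := by
  rintro v ⟨h2, h3, h4⟩
  refine ⟨h2, h3, ?_⟩
  rw [abs_le] at *
  have h5 := abs_le.1 (le_refl |a' - a|)
  omega

theorem win_mono {j a w a' w' : ℤ} (h1 : |a' - a| + w ≤ w') : Win j a w ⊆ Win j a' w' := by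
  rintro v ⟨h2, h4⟩
  refine ⟨h2, ?_⟩
  rw [abs_le] at *
  have h5 := abs_le.1 (le_refl |a' - a|)
  omega

/-- translate of a set of sites -/
def tr (k : ℤ) (X : Set P2) : Set P2 := {v | (v.1 - k, v.2) ∈ X}
/-- reflection `XX ↦ -XX` of a set of sites -/
def rf (X : Set P2) : Set P2 := {v | (-v.1 - v.2, v.2) ∈ X}

theorem tr_bx (k j0 h a R : ℤ) : tr k (Bx j0 h a R) = Bx j0 h (a + 2 * k) R := by
  ext v
  show (j0 ≤ v.2 ∧ v.2 ≤ j0 + h ∧ |2 * (v.1 - k) + v.2 - a| ≤ R) ↔
    (j0 ≤ v.2 ∧ v.2 ≤ j0 + h ∧ |2 * v.1 + v.2 - (a + 2 * k)| ≤ R)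
  rw [show 2 * (v.1 - k) + v.2 - a = 2 * v.1 + v.2 - (a + 2 * k) by ring]


theorem tr_win (k j a w : ℤ) : tr k (Win j a w) = Win j (a + 2 * k) w := by
  ext v
  show (v.2 = j ∧ |2 * (v.1 - k) + v.2 - a| ≤ w) ↔ (v.2 = j ∧ |2 * v.1 + v.2 - (a + 2 * k)| ≤ w)
  rw [show 2 * (v.1 - k) + v.2 - a = 2 * v.1 + v.2 - (a + 2 * k) by ring]

theorem rf_bx (j0 h a R : ℤ) : rf (Bx j0 h a R) = Bx j0 h (-a) R := by
  ext v
  show (j0 ≤ v.2 ∧ v.2 ≤ j0 + h ∧ |2 * (-v.1 - v.2) + v.2 - a| ≤ R) ↔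
    (j0 ≤ v.2 ∧ v.2 ≤ j0 + h ∧ |2 * v.1 + v.2 - -a| ≤ R)
  rw [show 2 * (-v.1 - v.2) + v.2 - a = -(2 * v.1 + v.2 - -a) by ring, abs_neg]

theorem rf_win (j a w : ℤ) : rf (Win j a w) = Win j (-a) w := by
  ext v
  show (v.2 = j ∧ |2 * (-v.1 - v.2) + v.2 - a| ≤ w) ↔ (v.2 = j ∧ |2 * v.1 + v.2 - -a| ≤ w)
  rw [show 2 * (-v.1 - v.2) + v.2 - a = -(2 * v.1 + v.2 - -a) by ring, abs_neg]

/-- `B` lies in the box `|XX| ≤ M`, `|row| ≤ M` -/
def Bdd (M : ℤ) (B : Set P2) : Prop := ∀ v ∈ B, |XX v| ≤ M ∧ |v.2| ≤ M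

theorem bdd_bx {j0 h a R M : ℤ} (h1 : |a| + R ≤ M) (h2 : |j0| + |h| ≤ M) : Bdd M (Bx j0 h a R) := by
  rintro v ⟨hv1, hv2, hv3⟩
  have h3 := abs_le.1 (le_refl |a|)
  have h4 := abs_le.1 (le_refl |j0|)
  have h5 := abs_le.1 (le_refl |h|)
  rw [abs_le] at hv3
  constructor <;> rw [abs_le] <;> constructor <;> omega

/-- approximate invariance under horizontal translations by at most `T`, on connection events in
boxes -/
def InvT (p : Set (Set P2) → ℝ) (T : ℤ) (ρ : ℝ) : Prop := ∀ k : ℤ, |k| ≤ T → ∀ B S S' : Set P2,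
  Bdd T B → p (Cn B S S') - ρ ≤ p (Cn (tr k B) (tr k S) (tr k S'))

/-- approximate invariance under the reflection `XX ↦ -XX` -/
def InvR (p : Set (Set P2) → ℝ) (T : ℤ) (ρ : ℝ) : Prop := ∀ B S S' : Set P2,
  Bdd T B → p (Cn B S S') - ρ ≤ p (Cn (rf B) (rf S) (rf S'))

/-! ### (3.1) -/

/-- long blue crossing of the rows `j0, …, j0 + h` -/
def Hd (j0 h a l : ℤ) : Set (Set P2) := Cn (Rw j0 h) {v | XX v ≤ a - l} {v | a + l ≤ XX v}

theorem inRows_rw (ω : Set P2) (j0 h : ℤ) : InRows (ω ∩ Rw j0 h) j0 (j0 + h) := fun _ hv => hv.2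

/-- arcs on the bottom row glued by bottom-top walks -/
theorem hd_of_arcs_bot {j0 h a l y s d c w : ℤ} {N : ℕ} {ω : Set P2} (hs : 0 < s)
    (hc : s + 2 * w < c) (hcd : c < d - 2 * w) (h1 : y + w ≤ a - l) (h2 : a + l ≤ y + N * s + d - w)
    (hK : ∀ k ≤ N, ω ∈ Cn (Rw j0 h) (Win j0 (y + (k : ℤ) * s) w) (Win j0 (y + (k : ℤ) * s + d) w))
    (hV : ∀ k < N, ∃ S, ω ∈ Cn (Rw j0 h) (Win j0 (y + (k : ℤ) * s + c) w) (S ∩ {v | v.2 = j0 + h})) :
    ω ∈ Hd j0 h a l := by
  classical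
  have hK' : ∀ k : ℕ, ∃ u v : P2, k ≤ N → (u.2 = j0 ∧ |XX u - (y + (k : ℤ) * s)| ≤ w) ∧
      (v.2 = j0 ∧ |XX v - (y + (k : ℤ) * s + d)| ≤ w) ∧ Pth (ω ∩ Rw j0 h) u v := by
    intro k
    by_cases hk : k ≤ N
    · obtain ⟨u, hu, v, hv, hp⟩ := hK k hk
      exact ⟨u, v, fun _ => ⟨hu, hv, hp⟩⟩
    · exact ⟨0, 0, fun h => absurd h hk⟩
  have hV' : ∀ k : ℕ, ∃ u v : P2, k < N → (u.2 = j0 ∧ |XX u - (y + (k : ℤ) * s + c)| ≤ w) ∧
      v.2 = j0 + h ∧ Pth (ω ∩ Rw j0 h) u v := by
    intro k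
    by_cases hk : k < N
    · obtain ⟨S, u, hu, v, hv, hp⟩ := hV k hk
      exact ⟨u, v, fun _ => ⟨hu, hv.2, hp⟩⟩
    · exact ⟨0, 0, fun h => absurd h hk⟩
  choose P Q hPQ using hK'
  choose U V hUV using hV'
  have key := chain_arc_bot (inRows_rw ω j0 h) N P Q U V (fun k hk => (hPQ k hk).2.2)
    (fun k hk => (hUV k hk).2.2) (fun k hk => (hPQ k hk).1.1) (fun k hk => (hPQ k hk).2.1.1)
    (fun k hk => (hUV k hk).1.1) (fun k hk => (hUV k hk).2.1)
    (fun k hk => by
      have e1 := abs_le.1 (hPQ k hk.le).1.2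
      have e2 := abs_le.1 (hPQ k hk.le).2.1.2
      have e3 := abs_le.1 (hUV k hk).1.2
      constructor <;> omega)
    (fun k hk => by
      have e1 := abs_le.1 (hPQ (k + 1) hk).1.2
      have e2 := abs_le.1 (hPQ (k + 1) hk).2.1.2
      have e3 := abs_le.1 (hUV k hk).1.2
      push_cast at e1 e2
      rw [add_mul, one_mul] at e1 e2
      constructor <;> omega)
  have e1 := abs_le.1 (hPQ 0 (Nat.zero_le _)).1.2
  have e2 := abs_le.1 (hPQ N le_rfl).2.1.2
  refine ⟨P 0, ?_, Q N, ?_, key⟩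
  · show XX (P 0) ≤ a - l
    push_cast at e1
    rw [zero_mul] at e1
    omega
  · show a + l ≤ XX (Q N)
    omega

/-- arcs on the top row glued by bottom-top walks -/
theorem hd_of_arcs_top {j0 h a l y s d c w : ℤ} {N : ℕ} {ω : Set P2} (hs : 0 < s)
    (hc : s + 2 * w < c) (hcd : c < d - 2 * w) (h1 : y + w ≤ a - l) (h2 : a + l ≤ y + N * s + d - w)
    (hK : ∀ k ≤ N, ω ∈ Cn (Rw j0 h) (Win (j0 + h) (y + (k : ℤ) * s) w)
      (Win (j0 + h) (y + (k : ℤ) * s + d) w))
    (hV : ∀ k < N, ∃ S, ω ∈ Cn (Rw j0 h) (S ∩ {v | v.2 = j0}) (Win (j0 + h) (y + (k : ℤ) * s + c) w)) :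
    ω ∈ Hd j0 h a l := by
  classical
  have hK' : ∀ k : ℕ, ∃ u v : P2, k ≤ N → (u.2 = j0 + h ∧ |XX u - (y + (k : ℤ) * s)| ≤ w) ∧
      (v.2 = j0 + h ∧ |XX v - (y + (k : ℤ) * s + d)| ≤ w) ∧ Pth (ω ∩ Rw j0 h) u v := by
    intro k
    by_cases hk : k ≤ N
    · obtain ⟨u, hu, v, hv, hp⟩ := hK k hk
      exact ⟨u, v, fun _ => ⟨hu, hv, hp⟩⟩
    · exact ⟨0, 0, fun h => absurd h hk⟩
  have hV' : ∀ k : ℕ, ∃ u v : P2, k < N → u.2 = j0 ∧
      (v.2 = j0 + h ∧ |XX v - (y + (k : ℤ) * s + c)| ≤ w) ∧ Pth (ω ∩ Rw j0 h) u v := by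
    intro k
    by_cases hk : k < N
    · obtain ⟨S, u, hu, v, hv, hp⟩ := hV k hk
      exact ⟨u, v, fun _ => ⟨hu.2, hv, hp⟩⟩
    · exact ⟨0, 0, fun h => absurd h hk⟩
  choose P Q hPQ using hK'
  choose U V hUV using hV'
  have key := chain_arc_top (inRows_rw ω j0 h) N P Q U V (fun k hk => (hPQ k hk).2.2)
    (fun k hk => (hUV k hk).2.2) (fun k hk => (hPQ k hk).1.1) (fun k hk => (hPQ k hk).2.1.1)
    (fun k hk => (hUV k hk).1) (fun k hk => (hUV k hk).2.1.1)
    (fun k hk => by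
      have e1 := abs_le.1 (hPQ k hk.le).1.2
      have e2 := abs_le.1 (hPQ k hk.le).2.1.2
      have e3 := abs_le.1 (hUV k hk).2.1.2
      constructor <;> omega)
    (fun k hk => by
      have e1 := abs_le.1 (hPQ (k + 1) hk).1.2
      have e2 := abs_le.1 (hPQ (k + 1) hk).2.1.2
      have e3 := abs_le.1 (hUV k hk).2.1.2
      push_cast at e1 e2
      rw [add_mul, one_mul] at e1 e2
      constructor <;> omega)
  have e1 := abs_le.1 (hPQ 0 (Nat.zero_le _)).1.2
  have e2 := abs_le.1 (hPQ N le_rfl).2.1.2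
  refine ⟨P 0, ?_, Q N, ?_, key⟩
  · show XX (P 0) ≤ a - l
    push_cast at e1
    rw [zero_mul] at e1
    omega
  · show a + l ≤ XX (Q N)
    omega

end Crest.Agent.R144.Qa277
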