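import Crest.Agent.R144.Zg_349
import Crest.Agent.R161.Topo_374

-- ▼ part R144/Qr1_315
section

/-!
# R144, QRSW (single-scale RSW), file 1: planar topology (helper315)

* `X v = 2 i + j` doubled abscissa of the site `v = (i, j)`; rows `j`;
* `Cn S u v` : path inside `S`;
* `IsConn` : unions, insertion, images;
* `x1` : a connected set touching the lowest and the highest row of a strip meets every connected set of
  the strip which passes from its left to its right.
-/

set_option autoImplicit false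

noncomputable section

namespace Crest.Agent.R144.Qr315

open Crest.Agent.R144.It844 (P2 adj_iff adj_symm)
open Crest.Agent.R144.Zg349 (StepIn IsConn)
open Crest.ProbabilityR.HexHeights (Adj)
open Crest.Agent.R161.Topo374 (Nbr Walk)

/-- doubled abscissa -/
def X (v : P2) : ℤ := 2 * v.1 + v.2

theorem ext_X {u v : P2} (h1 : u.2 = v.2) (h2 : X u = X v) : u = v := by
  unfold X at h2
  exact Prod.ext (by omega) h1

/-- path inside `S` -/
abbrev Cn (S : Set P2) (u v : P2) : Prop := Relation.ReflTransGen (StepIn S) u v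

theorem stepIn_symm {S : Set P2} {u v : P2} (h : StepIn S u v) : StepIn S v u :=
  ⟨h.2.1, h.1, adj_symm h.2.2⟩


theorem Cn.mono' {S T : Set P2} (h : S ⊆ T) {u v : P2} (p : Cn S u v) : Cn T u v :=
  Relation.ReflTransGen.mono (fun _ _ hab => ⟨h hab.1, h hab.2.1, hab.2.2⟩) _ _ p


theorem Cn.step {S : Set P2} {u v : P2} (hu : u ∈ S) (hv : v ∈ S) (h : Adj u v) : Cn S u v :=
  .single ⟨hu, hv, h⟩






/-- travelling along a row -/
theorem row_travel {S : Set P2} {j i : ℤ} (n : ℕ) (h : ∀ m : ℤ, i ≤ m → m ≤ i + n → (m, j) ∈ S) :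
    Cn S (i, j) (i + n, j) := by
  induction n with
  | zero => simpa using Relation.ReflTransGen.refl
  | succ n ih =>
    have h1 := ih fun m h1 h2 => h m h1 (by push_cast; omega)
    refine h1.tail ⟨h _ (by omega) (by push_cast; omega), h _ (by push_cast; omega) le_rfl, ?_⟩
    left
    push_cast
    constructor <;> ring

/-! ### bricks -/

/-- site whose brick contains the vertex `p` -/
def brk (p : ℤ × ℤ) : P2 := ((p.1 - p.2) / 2, p.2)

/-- left vertex of the brick of `s` -/
def pt (s : P2) : ℤ × ℤ := (X s, s.2)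

theorem brk_pt (s : P2) : brk (pt s) = s := by
  unfold brk pt X
  apply Prod.ext <;> simp only
  omega

theorem brk_X (p : ℤ × ℤ) : X (brk p) ≤ p.1 ∧ p.1 ≤ X (brk p) + 1 := by
  unfold brk X
  simp only
  omega

theorem walk_step {S : Set P2} {s t : P2} (hs : s ∈ S) (ht : t ∈ S) (h : Adj s t) :
    Walk (brk ⁻¹' S) (pt s) (pt t) := by
  have key : ∀ s t : P2, s ∈ S → t ∈ S →
      (t = (s.1 + 1, s.2) ∨ t = (s.1, s.2 + 1) ∨ t = (s.1 - 1, s.2 + 1)) →
      Walk (brk ⁻¹' S) (pt s) (pt t) := by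
    intro s t hs ht h
    have hs' : pt s ∈ brk ⁻¹' S := by
      show brk (pt s) ∈ S
      rw [brk_pt]; exact hs
    have ht' : pt t ∈ brk ⁻¹' S := by
      show brk (pt t) ∈ S
      rw [brk_pt]; exact ht
    obtain ⟨i, j⟩ := s
    have hs2 : ((X (i, j) + 1, j) : ℤ × ℤ) ∈ brk ⁻¹' S := by
      have : brk (X (i, j) + 1, j) = (i, j) := by
        unfold brk X
        apply Prod.ext <;> simp only
        omega
      show brk _ ∈ S
      rw [this]; exact hs
    rcases h with rfl | rfl | rfl
    · refine (Walk.step hs' hs2 ?_).trans (Walk.step hs2 ht' ?_)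
      · left; exact ⟨rfl, Or.inl rfl⟩
      · left; refine ⟨rfl, Or.inl ?_⟩
        unfold pt X; simp only; ring
    · refine (Walk.step hs' hs2 ?_).trans (Walk.step hs2 ht' ?_)
      · left; exact ⟨rfl, Or.inl rfl⟩
      · right; refine ⟨?_, Or.inl rfl⟩
        unfold pt X; simp only; ring
    · have ht2 : ((X (i, j), j + 1) : ℤ × ℤ) ∈ brk ⁻¹' S := by
        have : brk (X (i, j), j + 1) = (i - 1, j + 1) := by
          unfold brk X
          apply Prod.ext <;> simp only
          omega
        show brk _ ∈ S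
        rw [this]; exact ht
      refine (Walk.step hs' ht2 ?_).trans (Walk.step ht2 ht' ?_)
      · right; exact ⟨rfl, Or.inl rfl⟩
      · left; refine ⟨rfl, Or.inr ?_⟩
        unfold pt X; simp only; ring
  rcases adj_iff.1 h with h | h | h | h | h | h
  · exact key s t hs ht (Or.inl h)
  · refine (key t s ht hs (Or.inl ?_)).symm
    subst h; simp
  · exact key s t hs ht (Or.inr (Or.inl h))
  · refine (key t s ht hs (Or.inr (Or.inl ?_))).symm
    subst h; simp
  · refine (key t s ht hs (Or.inr (Or.inr ?_))).symm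
    subst h; simp
  · exact key s t hs ht (Or.inr (Or.inr h))

theorem cn_walk {S : Set P2} {s t : P2} (h : Cn S s t) (hs : s ∈ S) :
    Walk (brk ⁻¹' S) (pt s) (pt t) := by
  induction h with
  | refl =>
    apply Walk.refl
    show brk (pt s) ∈ S
    rw [brk_pt]; exact hs
  | tail h1 h2 ih => exact ih.trans (walk_step h2.1 h2.2.1 h2.2.2)

/-- **(X1)** a connected set touching the lowest and the highest row of a strip meets every connected set
of the strip which passes from its left to its right. -/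
theorem x1 {C D : Set P2} {a b N : ℤ} (hC : IsConn C) (hD : IsConn D)
    (hDs : ∀ v ∈ D, a ≤ v.2 ∧ v.2 ≤ b)
    (hN : ∀ v ∈ C, -N ≤ X v ∧ X v ≤ N) {c1 c2 : P2} (h1 : c1 ∈ C) (h1' : c1.2 = a)
    (h2 : c2 ∈ C) (h2' : c2.2 = b) {u v : P2} (hu : u ∈ D) (hv : v ∈ D)
    (hL : ∀ w ∈ C, w.2 = u.2 → X u ≤ X w) (hR : ∀ w ∈ C, w.2 = v.2 → X w ≤ X v) :
    (C ∩ D).Nonempty := by
  by_contra hne
  have hdis : ∀ w ∈ C, w ∉ D := fun w hw hw' => hne ⟨w, hw, hw'⟩
  set D' : Set P2 := D ∪ {s | s.2 = u.2 ∧ X s ≤ X u} ∪ {s | s.2 = v.2 ∧ X v ≤ X s} with hD'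
  have hdis' : ∀ w ∈ C, w ∉ D' := by
    rintro w hw ((h | ⟨h3, h4⟩) | ⟨h3, h4⟩)
    · exact hdis w hw h
    · have h5 := hL w hw h3
      have : w = u := ext_X h3 (by omega)
      exact hdis w hw (this ▸ hu)
    · have h5 := hR w hw h3
      have : w = v := ext_X h3 (by omega)
      exact hdis w hw (this ▸ hv)
  have hNN : -N ≤ N := (hN c1 h1).1.trans (hN c1 h1).2
  -- far left and far right sites
  obtain ⟨i, j⟩ := u
  obtain ⟨i', j'⟩ := v
  set n : ℕ := (|X (i, j)| + |X (i', j')| + N + 5).toNat with hn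
  have hn' : (n : ℤ) = |X (i, j)| + |X (i', j')| + N + 5 := by
    rw [hn, Int.toNat_of_nonneg]
    have := abs_nonneg (X (i, j))
    have := abs_nonneg (X (i', j'))
    have : 0 ≤ N := by omega
    positivity
  have e1 := le_abs_self (X (i, j))
  have e2 := neg_abs_le (X (i, j))
  have e3 := le_abs_self (X (i', j'))
  have e4 := neg_abs_le (X (i', j'))
  have e5 := abs_nonneg (X (i, j))
  have e6 := abs_nonneg (X (i', j'))
  have hwl : Cn D' (i - n, j) (i, j) := by
    have := row_travel (S := D') (j := j) (i := i - n) n (by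
      intro m h3 h4
      left; right
      refine ⟨rfl, ?_⟩
      unfold X
      simp only
      omega)
    simpa using this
  have hwr : Cn D' (i', j') (i' + n, j') := by
    refine row_travel (S := D') (j := j') (i := i') n ?_
    intro m h3 h4
    right
    refine ⟨rfl, ?_⟩
    unfold X
    simp only
    omega
  have hmid : Cn D' (i, j) (i', j') := Cn.mono' (fun x hx => Or.inl (Or.inl hx)) (hD _ hu _ hv)
  have hDD : Cn D' (i - n, j) (i' + n, j') := (hwl.trans hmid).trans hwr
  have hstart : ((i - n, j) : P2) ∈ D' := by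
    left; right
    refine ⟨rfl, ?_⟩
    unfold X
    simp only
    omega
  have W1 := cn_walk hDD hstart
  have W2 := cn_walk (hC c1 h1 c2 h2) h1
  have hyu := hDs _ hu
  have hyv := hDs _ hv
  have hcr := Crest.Agent.R161.Topo374.cross W1 W2 (by
    intro w hw
    have hw' : brk w ∈ D' := hw
    have e : (brk w).2 = w.2 := rfl
    show (pt c1).2 ≤ w.2 ∧ w.2 ≤ (pt c2).2
    show c1.2 ≤ w.2 ∧ w.2 ≤ c2.2
    rw [h1', h2', ← e]
    rcases hw' with (h | ⟨h3, _⟩) | ⟨h3, _⟩
    · exact hDs _ h
    · rw [h3]; exact hyu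
    · rw [h3]; exact hyv) (by
    intro w hw
    have hw' : brk w ∈ C := hw
    have h3 := brk_X w
    have h4 := hN _ hw'
    show X (i - n, j) ≤ w.1 ∧ w.1 ≤ X (i' + n, j')
    unfold X at *
    simp only at *
    omega)
  obtain ⟨w, hw1, hw2⟩ := hcr
  exact hdis' _ hw2 hw1

end Crest.Agent.R144.Qr315
end
end

-- ▼ part R144/Qr0_315

/-!
# R144, QRSW (single-scale RSW), file 0: LITERAL INTERFACE (helper315)

`Law` = finitely additive, positively associated law of a random set of (blue) sites of the triangular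
lattice.  `Law.Inv W ρ` = `ρ`-approximate invariance, for increasing events determined in `bal 0 W`, under
translations by vectors of `bal 0 W`, the rotation by 120 degrees and one reflection.
`QRSW` = if there is no red layer in the annulus `A(n, 2 n)` w.h.p., then there is a blue layer w.h.p.
-/

set_option autoImplicit false

noncomputable section

namespace Crest.Agent.R144.Qr315

open Crest.Agent.R144.It844 (P2 adj_iff adj_symm)
open Crest.Agent.R144.Zg349 (StepIn IsConn)
open Crest.ProbabilityR.HexHeights (Adj)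

/-- hexagonal ball -/
def bal (z : P2) (r : ℤ) : Set P2 :=
  {v | |v.1 - z.1| ≤ r ∧ |v.2 - z.2| ≤ r ∧ |v.1 - z.1 + (v.2 - z.2)| ≤ r}

/-- a layer of sites of `S` separates `bal a m` from the outside of `bal a N`
(= `Rsw867.Sepr S a m N`) -/
def Layer (S : Set P2) (a : P2) (m N : ℤ) : Prop :=
  ∀ u v, u ∉ bal a N → v ∈ bal a m → ¬ Relation.ReflTransGen (StepIn Sᶜ) u v

/-- finitely additive, positively associated law of a random set of (blue) sites -/
structure Law where
  P : Set (Set P2) → ℝ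
  nonneg : ∀ A, 0 ≤ P A
  univ : P Set.univ = 1
  mono : ∀ A B, A ⊆ B → P A ≤ P B
  modular : ∀ A B, P (A ∪ B) + P (A ∩ B) = P A + P B
  fkg : ∀ A B, IsUpperSet A → IsUpperSet B → P A * P B ≤ P (A ∩ B)
  empty : P ∅ = 0

/-- the event `g E` -/
def pre (g : P2 → P2) (E : Set (Set P2)) : Set (Set P2) := {ω | g ⁻¹' ω ∈ E}

/-- `E` is determined by the sites of `W` -/
def Loc (W : Set P2) (E : Set (Set P2)) : Prop := ∀ ω : Set P2, ω ∈ E ↔ ω ∩ W ∈ E

/-- translation -/
def tr (a : P2) (v : P2) : P2 := v + a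
/-- rotation by 120 degrees -/
def rot (v : P2) : P2 := (-v.1 - v.2, v.1)
/-- reflection in the vertical line through `0` -/
def rfx (v : P2) : P2 := (-v.1 - v.2, v.2)

/-- `ρ`-approximate invariance in the window `bal 0 W` -/
structure Law.Inv (L : Law) (W : ℕ) (ρ : ℝ) : Prop where
  tr : ∀ E : Set (Set P2), IsUpperSet E → Loc (bal 0 W) E → ∀ a ∈ bal 0 W, L.P E ≤ L.P (pre (tr a) E) + ρ
  rot : ∀ E : Set (Set P2), IsUpperSet E → Loc (bal 0 W) E → L.P E ≤ L.P (pre rot E) + ρ
  rfx : ∀ E : Set (Set P2), IsUpperSet E → Loc (bal 0 W) E → L.P E ≤ L.P (pre rfx E) + ρ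

/-- **SINGLE-SCALE RSW.**  If w.h.p. there is no red layer in `A(n, 2 n)`, then w.h.p. there is a blue
layer in `A(n, 2 n)`. -/
def QRSW : Prop := ∀ c0 : ℝ, 0 < c0 → ∃ (η : ℝ) (C n0 : ℕ), 0 < η ∧ ∀ n : ℕ, n0 ≤ n → ∀ L : Law,
  L.Inv (C * n) η → 1 - η ≤ L.P {ω | ¬ Layer ωᶜ 0 n (2 * n)} → 1 - c0 ≤ L.P {ω | Layer ω 0 n (2 * n)}

end Crest.Agent.R144.Qr315
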