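import Crest.Agent.R144.Rsw0_867
import Crest.Agent.R161.Topo_374

-- ▼ part R144/Qs1_356
section

/-!
# R144, R1 (QRSW, doc 1941 of helper315): STEP II GEOMETRY (helper356)

* `crossX` : planar crossing lemma on the triangular lattice in strip form (coordinate `2 i + j`);
* `Hrow A r0 r1 s s'` : a path of `A` in the rows `r0 .. r1` from `{2i+j ≤ s}` to `{2i+j ≥ s'}`;
* `circuit` : three such paths in three slabs rotated by 120 degrees contain a connected set which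
  meets every connected set (of any colour) joining the inner ball to the outside.
* `slab_blocks`, `slab_joins` : the red circuit blocks, the blue circuit joins.
-/

set_option autoImplicit false

namespace Crest.Agent.R144.Qs356

open Crest.Agent.R144.It844 (P2 adj_iff)
open Crest.Agent.R144.Zg349 (StepIn IsConn)
open Crest.Agent.R144.Rsw867 (path_mono trim first_hit ball mem_ball)
open Crest.Agent.R144.Pst967 (stepIn_symm path_symm)
open Crest.ProbabilityR.HexHeights (Adj)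
open Crest.Agent.R161.Topo374 (Walk Nbr)

/-- paths inside a set of sites -/
abbrev Pth (S : Set P2) : P2 → P2 → Prop := Relation.ReflTransGen (StepIn S)

/-! ### crossing lemma -/

/-- the cells of `ℤ²` representing the sites of `S` -/
def brick (S : Set P2) : Set (ℤ × ℤ) :=
  {c | ∃ v ∈ S, c = (2 * v.1 + v.2, v.2) ∨ c = (2 * v.1 + v.2 + 1, v.2)}

theorem brick_l {S : Set P2} {v : P2} (h : v ∈ S) {c : ℤ × ℤ} (hc : c = (2 * v.1 + v.2, v.2)) :
    c ∈ brick S := ⟨v, h, Or.inl hc⟩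

theorem brick_r {S : Set P2} {v : P2} (h : v ∈ S) {c : ℤ × ℤ} (hc : c = (2 * v.1 + v.2 + 1, v.2)) :
    c ∈ brick S := ⟨v, h, Or.inr hc⟩

theorem nbr_h {a b c : ℤ} (h : c = a + 1 ∨ a = c + 1) : Nbr (a, b) (c, b) := Or.inl ⟨rfl, h⟩

theorem nbr_v {a b c : ℤ} (h : c = b + 1 ∨ b = c + 1) : Nbr (a, b) (a, c) := Or.inr ⟨rfl, h⟩

theorem walk_step {S : Set P2} {b d : P2} (h : StepIn S b d) :
    Walk (brick S) (2 * b.1 + b.2, b.2) (2 * d.1 + d.2, d.2) := by
  obtain ⟨hb, hd, ha⟩ := h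
  obtain ⟨i, j⟩ := b
  have hl : (2 * i + j, j) ∈ brick S := brick_l hb rfl
  have hr : (2 * i + j + 1, j) ∈ brick S := brick_r hb rfl
  obtain ⟨i', j'⟩ := d
  have hl' : (2 * i' + j', j') ∈ brick S := brick_l hd rfl
  have hr' : (2 * i' + j' + 1, j') ∈ brick S := brick_r hd rfl
  show Walk (brick S) (2 * i + j, j) (2 * i' + j', j')
  rcases adj_iff.1 ha with h | h | h | h | h | h <;> simp only [Prod.mk.injEq] at h <;>
    obtain ⟨h1, h2⟩ := h
  · subst h1 h2
    exact (Walk.step hl hr (nbr_h (Or.inl rfl))).trans (Walk.step hr hl' (nbr_h (by omega)))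
  · subst h1 h2
    exact (Walk.step hl hr' (nbr_h (by omega))).trans (Walk.step hr' hl' (nbr_h (by omega)))
  · have e : 2 * i' + j' = 2 * i + j + 1 := by omega
    rw [e] at hl' ⊢
    exact (Walk.step hl hr (nbr_h (by omega))).trans (Walk.step hr hl' (nbr_v (by omega)))
  · have e : 2 * i' + j' + 1 = 2 * i + j := by omega
    rw [e] at hr'
    exact (Walk.step hl hr' (nbr_v (by omega))).trans (Walk.step hr' hl' (nbr_h (by omega)))
  · have e : 2 * i' + j' = 2 * i + j + 1 := by omega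
    rw [e] at hl' ⊢
    exact (Walk.step hl hr (nbr_h (by omega))).trans (Walk.step hr hl' (nbr_v (by omega)))
  · have e : 2 * i' + j' + 1 = 2 * i + j := by omega
    rw [e] at hr'
    exact (Walk.step hl hr' (nbr_v (by omega))).trans (Walk.step hr' hl' (nbr_h (by omega)))

theorem walk_path {S : Set P2} {u v : P2} (hu : u ∈ S) (h : Pth S u v) :
    v ∈ S ∧ Walk (brick S) (2 * u.1 + u.2, u.2) (2 * v.1 + v.2, v.2) := by
  induction h with
  | refl => exact ⟨hu, Walk.refl (brick_l hu rfl)⟩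
  | tail _ h ih => exact ⟨h.2.1, ih.2.trans (walk_step h)⟩

/-- **crossing lemma** on the triangular lattice, strip form -/
theorem crossX {S1 S2 : Set P2} {u v p q : P2} {s s' : ℤ} (hu : u ∈ S1) (hp : p ∈ S2)
    (h1 : Pth S1 u v) (h2 : Pth S2 p q) (hy : ∀ w ∈ S1, p.2 ≤ w.2 ∧ w.2 ≤ q.2)
    (hx : ∀ w ∈ S2, s ≤ 2 * w.1 + w.2 ∧ 2 * w.1 + w.2 ≤ s')
    (hus : 2 * u.1 + u.2 ≤ s) (hvs : s' ≤ 2 * v.1 + v.2) : ∃ w ∈ S1, w ∈ S2 := by
  obtain ⟨hv, w1⟩ := walk_path hu h1
  obtain ⟨hq, w2⟩ := walk_path hp h2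
  have w1' : Walk (brick S1) (2 * u.1 + u.2, u.2) (2 * v.1 + v.2 + 1, v.2) :=
    w1.trans (Walk.step (brick_l hv rfl) (brick_r hv rfl) (nbr_h (by omega)))
  obtain ⟨c, ⟨a, ha, hca⟩, ⟨b, hb, hcb⟩⟩ := Crest.Agent.R161.Topo374.cross w1' w2
    (by
      rintro c ⟨a, ha, hc⟩
      have := hy a ha
      rcases hc with hc | hc <;> subst hc <;> simpa using this)
    (by
      rintro c ⟨a, ha, hc⟩
      have := hx a ha
      rcases hc with hc | hc <;> subst hc <;> simp only <;> omega)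
  have hab : a = b := by
    obtain ⟨a1, a2⟩ := a
    obtain ⟨b1, b2⟩ := b
    rcases hca with hca | hca <;> rcases hcb with hcb | hcb <;> rw [hca] at hcb <;>
      simp only [Prod.mk.injEq] at hcb ⊢ <;> omega
  exact ⟨a, ha, hab ▸ hb⟩

/-! ### components -/

/-- the component of `u` in `T` -/
def comp (T : Set P2) (u : P2) : Set P2 := {w | Pth T u w}

theorem comp_sub {T : Set P2} {u : P2} (hu : u ∈ T) : comp T u ⊆ T := by
  intro w hw
  have hw' : Pth T u w := hw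
  rcases Relation.ReflTransGen.cases_tail hw' with h | ⟨c, _, h⟩
  · rw [h]; exact hu
  · exact h.2.1

theorem comp_path {T : Set P2} {u w : P2} (h : Pth T u w) : Pth (comp T u) u w := by
  induction h with
  | refl => exact .refl
  | tail h1 h2 ih => exact ih.tail ⟨h1, h1.tail h2, h2.2.2⟩

theorem comp_self (T : Set P2) (u : P2) : u ∈ comp T u := Relation.ReflTransGen.refl

theorem comp_conn (T : Set P2) (u : P2) : IsConn (comp T u) := fun _ hv _ hw =>
  (path_symm (comp_path hv)).trans (comp_path hw)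

theorem path_left {S : Set P2} {u v : P2} (h : Pth S u v) (hne : u ≠ v) : u ∈ S := by
  rcases Relation.ReflTransGen.cases_head h with h | ⟨c, h, _⟩
  · exact absurd h hne
  · exact h.1

theorem path_right {S : Set P2} {u v : P2} (h : Pth S u v) (hne : u ≠ v) : v ∈ S := by
  rcases Relation.ReflTransGen.cases_tail h with h | ⟨c, _, h⟩
  · exact absurd h.symm hne
  · exact h.2.1

/-- union of two connected sets with a common site -/
theorem conn_union {S T : Set P2} (hS : IsConn S) (hT : IsConn T) {w : P2} (h1 : w ∈ S)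
    (h2 : w ∈ T) : IsConn (S ∪ T) := by
  have hs : ∀ u ∈ S ∪ T, Pth (S ∪ T) u w := by
    rintro u (hu | hu)
    · exact path_mono Set.subset_union_left (hS u hu w h1)
    · exact path_mono Set.subset_union_right (hT u hu w h2)
  exact fun u hu v hv => (hs u hu).trans (path_symm (hs v hv))

/-! ### rotation by 120 degrees -/

/-- rotation by 120 degrees around `0` -/
def rot (v : P2) : P2 := (-v.1 - v.2, v.1)

theorem rot3 (v : P2) : rot (rot (rot v)) = v := by
  unfold rot; ext <;> simp only <;> ring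

theorem adj_rot {u v : P2} : Adj (rot u) (rot v) ↔ Adj u v := by
  unfold rot
  simp only [adj_iff, Prod.ext_iff]
  omega

theorem pth_rot {S : Set P2} {u v : P2} (h : Pth S (rot u) (rot v)) : Pth (rot ⁻¹' S) u v := by
  have key : ∀ x y : P2, Pth S x y → Pth (rot ⁻¹' S) (rot (rot x)) (rot (rot y)) := by
    intro x y hxy
    induction hxy with
    | refl => exact .refl
    | @tail b c _ h ih =>
      refine ih.tail ⟨?_, ?_, ?_⟩
      · show rot (rot (rot b)) ∈ S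
        rw [rot3]; exact h.1
      · show rot (rot (rot c)) ∈ S
        rw [rot3]; exact h.2.1
      · exact adj_rot.2 (adj_rot.2 h.2.2)
  have := key _ _ h
  rwa [rot3, rot3] at this

/-! ### horizontal crossings of slabs -/

/-- a path of `A` in the rows `r0 .. r1` from `{2i+j ≤ s}` to `{2i+j ≥ s'}` -/
def Hrow (A : Set P2) (r0 r1 s s' : ℤ) : Prop :=
  ∃ u v : P2, 2 * u.1 + u.2 ≤ s ∧ s' ≤ 2 * v.1 + v.2 ∧
    Pth (A ∩ {w | r0 ≤ w.2 ∧ w.2 ≤ r1}) u v

/-- connected crossing set of a slab -/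
structure Cr (K : Set P2) (r0 r1 s s' : ℤ) (u v : P2) : Prop where
  hu : u ∈ K
  hv : v ∈ K
  su : 2 * u.1 + u.2 ≤ s
  sv : s' ≤ 2 * v.1 + v.2
  conn : IsConn K
  row : ∀ w ∈ K, r0 ≤ w.2 ∧ w.2 ≤ r1
  col : ∀ w ∈ K, s - 1 ≤ 2 * w.1 + w.2 ∧ 2 * w.1 + w.2 ≤ s' + 1

theorem Cr.path {K : Set P2} {r0 r1 s s' : ℤ} {u v : P2} (h : Cr K r0 r1 s s' u v) : Pth K u v :=
  h.conn u h.hu v h.hv

theorem adj_col {u v : P2} (h : Adj u v) :
    2 * u.1 + u.2 ≤ 2 * v.1 + v.2 + 2 ∧ 2 * v.1 + v.2 ≤ 2 * u.1 + u.2 + 2 := by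
  rcases adj_iff.1 h with h | h | h | h | h | h <;> subst h <;> simp only <;> omega

theorem adj_row {u v : P2} (h : Adj u v) : u.2 ≤ v.2 + 1 ∧ v.2 ≤ u.2 + 1 := by
  rcases adj_iff.1 h with h | h | h | h | h | h <;> subst h <;> simp only <;> omega

theorem adj_fst {u v : P2} (h : Adj u v) : u.1 ≤ v.1 + 1 ∧ v.1 ≤ u.1 + 1 := by
  rcases adj_iff.1 h with h | h | h | h | h | h <;> subst h <;> simp only <;> omega

theorem adj_thd {u v : P2} (h : Adj u v) : u.1 + u.2 ≤ v.1 + v.2 + 1 ∧ v.1 + v.2 ≤ u.1 + u.2 + 1 := by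
  rcases adj_iff.1 h with h | h | h | h | h | h <;> subst h <;> simp only <;> omega

/-- extraction of a crossing set -/
theorem Hrow.cr {A : Set P2} {r0 r1 s s' : ℤ} (hs : s < s') (h : Hrow A r0 r1 s s') :
    ∃ K u v, K ⊆ A ∧ Cr K r0 r1 s s' u v := by
  obtain ⟨u, v, hu, hv, p⟩ := h
  obtain ⟨u', v', hu', hv', q⟩ := trim (X := {w : P2 | s' ≤ 2 * w.1 + w.2})
    (Y := {w : P2 | s < 2 * w.1 + w.2}) (fun w hw => lt_of_lt_of_le hs hw)
    (fun hh => absurd (show s < 2 * u.1 + u.2 from hh) (not_lt.2 hu)) hv p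
  have hu2 : 2 * u'.1 + u'.2 ≤ s := not_lt.1 hu'
  have hv2 : s' ≤ 2 * v'.1 + v'.2 := hv'
  have hne : u' ≠ v' := by rintro rfl; omega
  have hT := path_left q hne
  refine ⟨comp _ u', u', v', fun w hw => (comp_sub hT hw).1.1, ⟨comp_self _ _, q, hu2, hv2,
    comp_conn _ _, fun w hw => (comp_sub hT hw).1.2, ?_⟩⟩
  intro w hw
  obtain ⟨_, h1, h2⟩ := comp_sub hT hw
  constructor
  · rcases h1 with h1 | ⟨t, h1, h3⟩
    · have : s < 2 * w.1 + w.2 := h1
      omega
    · have h4 : s < 2 * t.1 + t.2 := h1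
      have := adj_col h3
      omega
  · rcases h2 with h2 | ⟨t, h2, h3⟩
    · have : ¬ s' ≤ 2 * w.1 + w.2 := h2
      omega
    · have h4 : ¬ s' ≤ 2 * t.1 + t.2 := h2
      have := adj_col h3
      omega

/-- bottom-top portion of a path -/
theorem vert {S : Set P2} {r0 r1 : ℤ} (hr : r0 < r1) {u v : P2} (hu : u.2 ≤ r0) (hv : r1 ≤ v.2)
    (p : Pth S u v) : ∃ u' v', u'.2 = r0 ∧ v'.2 = r1 ∧ u' ∈ S ∩ {w | r0 ≤ w.2 ∧ w.2 ≤ r1} ∧
      Pth (S ∩ {w | r0 ≤ w.2 ∧ w.2 ≤ r1}) u' v' := by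
  obtain ⟨u', v', hu', hv', q⟩ := trim (X := {w : P2 | r1 ≤ w.2})
    (Y := {w : P2 | r0 < w.2}) (fun w hw => lt_of_lt_of_le hr hw)
    (fun hh => absurd (show r0 < u.2 from hh) (not_lt.2 hu)) hv p
  have hu2 : u'.2 ≤ r0 := not_lt.1 hu'
  have hv2 : r1 ≤ v'.2 := hv'
  have hne : u' ≠ v' := by rintro rfl; omega
  have q' : Pth (S ∩ {w | r0 ≤ w.2 ∧ w.2 ≤ r1}) u' v' := by
    refine path_mono ?_ q
    rintro w ⟨h0, h1, h2⟩
    refine ⟨h0, ?_, ?_⟩
    · rcases h1 with h1 | ⟨t, h1, h3⟩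
      · exact le_of_lt h1
      · have h4 : r0 < t.2 := h1
        have := adj_row h3
        show r0 ≤ w.2
        omega
    · rcases h2 with h2 | ⟨t, h2, h3⟩
      · have h4 : ¬ r1 ≤ w.2 := h2
        omega
      · have h4 : ¬ r1 ≤ t.2 := h2
        have := adj_row h3
        omega
  have hl := path_left q' hne
  have hr' := path_right q' hne
  exact ⟨u', v', le_antisymm hu2 hl.2.1, le_antisymm hr'.2.2 hv2, hl, q'⟩

/-- two consecutive slabs meet in the corner -/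
theorem corner {K K' : Set P2} {m N : ℤ} {u v u' v' : P2} (hm : 0 ≤ m) (hN : m < N)
    (h : Cr K (-N) (-m) (-(3 * N + 2)) (3 * N + 2) u v)
    (h' : Cr K' (-N) (-m) (-(3 * N + 2)) (3 * N + 2) u' v') : ∃ w ∈ K', rot w ∈ K := by
  -- rotate `K'`
  have hrot : Pth (rot ⁻¹' (rot ⁻¹' K')) (rot u') (rot v') := by
    have := h'.path
    rw [← rot3 u', ← rot3 v'] at this
    exact pth_rot (pth_rot this)
  have hu1 := h'.row u' h'.hu
  have hv1 := h'.row v' h'.hv
  have hu2 := h'.su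
  have hv2 := h'.sv
  obtain ⟨p, q, hp, hq, hpS, hpq⟩ := vert (r0 := -N) (r1 := -m) (by omega)
    (show (rot u').2 ≤ -N by unfold rot; simp only; omega)
    (show -m ≤ (rot v').2 by unfold rot; simp only; omega) hrot
  obtain ⟨w, hw1, hw2⟩ := crossX (s := 3 * m) (s' := 3 * N) h.hu hpS h.path hpq
    (by rw [hp, hq]; exact h.row)
    (by
      rintro w ⟨hw, hw3⟩
      have h3 := h'.row _ (show rot (rot w) ∈ K' from hw)
      have h4 : -N ≤ w.2 ∧ w.2 ≤ -m := hw3
      unfold rot at h3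
      simp only at h3
      omega)
    (by have := h.su; omega) (by have := h.sv; omega)
  exact ⟨rot (rot w), hw2.1, by rw [rot3]; exact hw1⟩

/-- a slab blocks every path leaving through its side -/
theorem blk0 {K C : Set P2} {m N : ℤ} {u v x y : P2} (hN : m < N)
    (h : Cr K (-N) (-m) (-(3 * N + 2)) (3 * N + 2) u v) (hp : Pth C x y)
    (hx : -m < x.2) (hy : y.2 < -N) (hC : ∀ w ∈ C, -(N + 1) ≤ w.1 ∧ w.1 + w.2 ≤ N + 1) :
    ∃ w ∈ K, w ∈ C := by
  obtain ⟨p, q, hp', hq', hpS, hpq⟩ := vert (r0 := -N) (r1 := -m) (by omega) (le_of_lt hy)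
    (le_of_lt hx) (path_symm hp)
  obtain ⟨w, hw1, hw2⟩ := crossX (s := -(3 * N + 2)) (s' := 3 * N + 2) h.hu hpS h.path hpq
    (by rw [hp', hq']; exact h.row)
    (by
      rintro w ⟨hw, hw3⟩
      have h3 := hC w hw
      have h4 : -N ≤ w.2 ∧ w.2 ≤ -m := hw3
      omega)
    h.su h.sv
  exact ⟨w, hw1, hw2.1⟩

/-- **circuit around the origin** -/
theorem circuit0 {A : Set P2} {m N : ℤ} (hm : 0 ≤ m) (hN : m < N)
    (h0 : Hrow A (-N) (-m) (-(3 * N + 2)) (3 * N + 2))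
    (h1 : Hrow (rot ⁻¹' A) (-N) (-m) (-(3 * N + 2)) (3 * N + 2))
    (h2 : Hrow (rot ⁻¹' (rot ⁻¹' A)) (-N) (-m) (-(3 * N + 2)) (3 * N + 2)) :
    ∃ L ⊆ A, IsConn L ∧ (∀ w ∈ L, |w.1| ≤ 2 * N + 1 ∧ |w.2| ≤ 2 * N + 1 ∧ |w.1 + w.2| ≤ 2 * N + 1) ∧
      ∀ (C : Set P2) (x y : P2), Pth C x y → (-m < x.1 ∧ -m < x.2 ∧ x.1 + x.2 < m) →
        (y.1 < -N ∨ y.2 < -N ∨ N < y.1 + y.2) → ∃ w ∈ L, w ∈ C := by
  obtain ⟨K0, u0, v0, hA0, c0⟩ := h0.cr (by omega)
  obtain ⟨K1, u1, v1, hA1, c1⟩ := h1.cr (by omega)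
  obtain ⟨K2, u2, v2, hA2, c2⟩ := h2.cr (by omega)
  -- sets in the original frame
  have r1 : rot ⁻¹' (rot ⁻¹' (rot ⁻¹' A)) = A := by
    ext w
    show rot (rot (rot w)) ∈ A ↔ w ∈ A
    rw [rot3]
  have hconn1 : IsConn (rot ⁻¹' (rot ⁻¹' K1)) := by
    intro x hx y hy
    refine pth_rot (pth_rot ?_)
    exact c1.conn _ hx _ hy
  have hconn2 : IsConn (rot ⁻¹' K2) := by
    intro x hx y hy
    exact pth_rot (c2.conn _ hx _ hy)
  set L0 := K0 with hL0
  set L1 := rot ⁻¹' (rot ⁻¹' K1) with hL1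
  set L2 := rot ⁻¹' K2 with hL2
  obtain ⟨a, ha1, ha2⟩ := corner hm hN c0 c1
  obtain ⟨b, hb1, hb2⟩ := corner hm hN c1 c2
  have ha3 : rot a ∈ L1 := by
    show rot (rot (rot a)) ∈ K1
    rw [rot3]; exact ha1
  have hb3 : rot (rot b) ∈ L1 := by
    show rot (rot (rot (rot b))) ∈ K1
    rw [rot3]; exact hb2
  have hb4 : rot (rot b) ∈ L2 := by
    show rot (rot (rot b)) ∈ K2
    rw [rot3]; exact hb1
  refine ⟨L0 ∪ L1 ∪ L2, ?_, ?_, ?_, ?_⟩
  · rintro w ((hw | hw) | hw)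
    · exact hA0 hw
    · have := hA1 (show rot (rot w) ∈ K1 from hw)
      have h3 : rot (rot (rot w)) ∈ A := this
      rwa [rot3] at h3
    · have := hA2 (show rot w ∈ K2 from hw)
      have h3 : rot (rot (rot w)) ∈ A := this
      rwa [rot3] at h3
  · exact conn_union (conn_union c0.conn hconn1 ha2 ha3) hconn2 (Or.inr hb3) hb4
  · rintro w ((hw | hw) | hw)
    · have h3 := c0.row _ hw
      have h4 := c0.col _ hw
      simp only [abs_le]
      omega
    · have h3 := c1.row _ (show rot (rot w) ∈ K1 from hw)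
      have h4 := c1.col _ (show rot (rot w) ∈ K1 from hw)
      unfold rot at h3 h4
      simp only [abs_le] at h3 h4 ⊢
      omega
    · have h3 := c2.row _ (show rot w ∈ K2 from hw)
      have h4 := c2.col _ (show rot w ∈ K2 from hw)
      unfold rot at h3 h4
      simp only [abs_le] at h3 h4 ⊢
      omega
  · intro C x y hp hx hy
    have hxX : x ∉ {w : P2 | w.1 < -N ∨ w.2 < -N ∨ N < w.1 + w.2} := by
      show ¬ (x.1 < -N ∨ x.2 < -N ∨ N < x.1 + x.2)
      omega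
    rcases first_hit _ hxX hp with ⟨h, _⟩ | ⟨w, hw, hq⟩
    · exact absurd hy h
    · have hS : ∀ t ∈ C ∩ {t | t ∉ {w : P2 | w.1 < -N ∨ w.2 < -N ∨ N < w.1 + w.2} ∨
          ∃ t', t' ∉ {w : P2 | w.1 < -N ∨ w.2 < -N ∨ N < w.1 + w.2} ∧ Adj t' t},
          -(N + 1) ≤ t.1 ∧ -(N + 1) ≤ t.2 ∧ t.1 + t.2 ≤ N + 1 := by
        rintro t ⟨_, ht | ⟨t', ht, ha⟩⟩
        · have h3 : ¬ (t.1 < -N ∨ t.2 < -N ∨ N < t.1 + t.2) := ht
          omega
        · have h3 : ¬ (t'.1 < -N ∨ t'.2 < -N ∨ N < t'.1 + t'.2) := ht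
          have h4 := adj_fst ha
          have h5 := adj_row ha
          have h6 := adj_thd ha
          omega
      rcases (show w.1 < -N ∨ w.2 < -N ∨ N < w.1 + w.2 from hw) with hw | hw | hw
      · -- side `a`: frame 2
        have hq2 : Pth (rot ⁻¹' (rot ⁻¹' (C ∩ {t | t ∉ {w : P2 | w.1 < -N ∨ w.2 < -N ∨ N < w.1 + w.2} ∨
          ∃ t', t' ∉ {w : P2 | w.1 < -N ∨ w.2 < -N ∨ N < w.1 + w.2} ∧ Adj t' t}))) (rot x) (rot w) := by
          have := hq
          rw [← rot3 x, ← rot3 w] at this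
          exact pth_rot (pth_rot this)
        obtain ⟨z, hz1, hz2⟩ := blk0 hN c2 hq2
          (by unfold rot; simp only; omega) (by unfold rot; simp only; omega)
          (by
            intro t ht
            have := hS _ (show rot (rot t) ∈ _ from ht)
            unfold rot at this
            simp only at this
            omega)
        refine ⟨rot (rot z), Or.inr ?_, hz2.1⟩
        show rot (rot (rot z)) ∈ K2
        rw [rot3]; exact hz1
      · obtain ⟨z, hz1, hz2⟩ := blk0 hN c0 hq hx.2.1 hw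
          (fun t ht => by have := hS t ht; omega)
        exact ⟨z, Or.inl (Or.inl hz1), hz2.1⟩
      · -- side `c`: frame 1
        have hq2 : Pth (rot ⁻¹' (C ∩ {t | t ∉ {w : P2 | w.1 < -N ∨ w.2 < -N ∨ N < w.1 + w.2} ∨
          ∃ t', t' ∉ {w : P2 | w.1 < -N ∨ w.2 < -N ∨ N < w.1 + w.2} ∧ Adj t' t}))
            (rot (rot x)) (rot (rot w)) := by
          have := hq
          rw [← rot3 x, ← rot3 w] at this
          exact pth_rot this
        obtain ⟨z, hz1, hz2⟩ := blk0 hN c1 hq2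
          (by unfold rot; simp only; omega) (by unfold rot; simp only; omega)
          (by
            intro t ht
            have := hS _ (show rot t ∈ _ from ht)
            unfold rot at this
            simp only at this
            omega)
        refine ⟨rot z, Or.inl (Or.inr ?_), hz2.1⟩
        show rot (rot (rot z)) ∈ K1
        rw [rot3]; exact hz1

end Crest.Agent.R144.Qs356
end

-- ▼ part R144/Qs2_356

/-!
# R144, R1 (QRSW, doc 1941): STEP II GEOMETRY, centred form (helper356)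

`slabs` : three long crossings (rows `0 .. t`, `|2i+j|` up to `6 t`) placed around `ball z n`
(`n + 2 ≤ t`) by `w ↦ rot^k (w + off n t) + z` contain a connected set `L` inside
`ball z (2 (n + 1 + t) + 1)` meeting every connected set from `ball z n` to outside
`ball z (2 (n + 1 + t))`.
`slabs_block` : red slabs block blue sets; `slabs_join` : blue slabs join blue sets.
-/

set_option autoImplicit false

namespace Crest.Agent.R144.Qs356

open Crest.Agent.R144.It844 (P2 adj_iff)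
open Crest.Agent.R144.Zg349 (StepIn IsConn)
open Crest.Agent.R144.Rsw867 (path_mono trim first_hit ball mem_ball)
open Crest.Agent.R144.Pst967 (stepIn_symm path_symm)
open Crest.ProbabilityR.HexHeights (Adj)

theorem adj_add {u v : P2} (d : P2) : Adj (u + d) (v + d) ↔ Adj u v := by
  simp only [adj_iff, Prod.ext_iff, Prod.fst_add, Prod.snd_add]
  omega

theorem pth_add {S : Set P2} (d : P2) {u v : P2} (h : Pth {w | w + d ∈ S} u v) :
    Pth S (u + d) (v + d) := by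
  induction h with
  | refl => exact .refl
  | tail _ h ih => exact ih.tail ⟨h.1, h.2.1, (adj_add d).2 h.2.2⟩

theorem pth_sub {S : Set P2} (d : P2) {u v : P2} (h : Pth S u v) :
    Pth {w | w + d ∈ S} (u - d) (v - d) := by
  induction h with
  | refl => exact .refl
  | @tail b c _ h ih =>
    refine ih.tail ⟨?_, ?_, ?_⟩
    · show b - d + d ∈ S
      rw [sub_add_cancel]; exact h.1
    · show c - d + d ∈ S
      rw [sub_add_cancel]; exact h.2.1
    · rw [← adj_add d, sub_add_cancel, sub_add_cancel]; exact h.2.2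

theorem hrow_mono {A B : Set P2} {r0 r1 s s' t t' : ℤ} (h : Hrow A r0 r1 s s') (hAB : A ⊆ B)
    (h1 : s ≤ t) (h2 : t' ≤ s') : Hrow B r0 r1 t t' := by
  obtain ⟨u, v, hu, hv, p⟩ := h
  exact ⟨u, v, hu.trans h1, h2.trans hv, path_mono (Set.inter_subset_inter_left _ hAB) p⟩

theorem Hrow.shift {A : Set P2} (d : P2) {r0 r1 s s' : ℤ} (h : Hrow {w | w + d ∈ A} r0 r1 s s') :
    Hrow A (r0 + d.2) (r1 + d.2) (s + (2 * d.1 + d.2)) (s' + (2 * d.1 + d.2)) := by
  obtain ⟨u, v, hu, hv, p⟩ := h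
  refine ⟨u + d, v + d, ?_, ?_, pth_add d (path_mono ?_ p)⟩
  · simp only [Prod.fst_add, Prod.snd_add]; omega
  · simp only [Prod.fst_add, Prod.snd_add]; omega
  · rintro w ⟨h1, h2⟩
    refine ⟨h1, ?_⟩
    have h3 : r0 ≤ w.2 ∧ w.2 ≤ r1 := h2
    show r0 + d.2 ≤ (w + d).2 ∧ (w + d).2 ≤ r1 + d.2
    simp only [Prod.snd_add]; omega

/-- the offset of the slab of rows `0 .. t` placed below a ball of radius `n` -/
def off (n t : ℕ) : P2 := (((n + 1 + t) / 2 : ℕ), -((n + 1 + t : ℕ) : ℤ))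

/-- three placed long crossings -/
def Slabs (z : P2) (n t : ℕ) (A : Set P2) : Prop :=
  Hrow {w | w + off n t + z ∈ A} 0 t (-(6 * t)) (6 * t) ∧
  Hrow {w | rot (w + off n t) + z ∈ A} 0 t (-(6 * t)) (6 * t) ∧
  Hrow {w | rot (rot (w + off n t)) + z ∈ A} 0 t (-(6 * t)) (6 * t)

theorem hrow_off {B : Set P2} {n t : ℕ} (ht : n + 2 ≤ t)
    (h : Hrow {w | w + off n t ∈ B} 0 t (-(6 * t)) (6 * t)) :
    Hrow B (-((n + 1 + t : ℕ) : ℤ)) (-((n + 1 : ℕ) : ℤ)) (-(3 * ((n + 1 + t : ℕ) : ℤ) + 2))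
      (3 * ((n + 1 + t : ℕ) : ℤ) + 2) := by
  have h1 := h.shift
  have e1 : (0 : ℤ) + (off n t).2 = -((n + 1 + t : ℕ) : ℤ) := by unfold off; simp
  have e2 : (t : ℤ) + (off n t).2 = -((n + 1 : ℕ) : ℤ) := by unfold off; push_cast; ring
  rw [e1, e2] at h1
  refine hrow_mono h1 subset_rfl ?_ ?_
  · unfold off; simp only; push_cast; omega
  · unfold off; simp only; push_cast; omega

/-- **circuit around a ball** -/
theorem slabs {A : Set P2} {z : P2} {n t : ℕ} (ht : n + 2 ≤ t) (h : Slabs z n t A) :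
    ∃ L ⊆ A, IsConn L ∧ (∀ w ∈ L, w ∈ ball z (2 * (n + 1 + t) + 1)) ∧
      ∀ (C : Set P2) (x y : P2), Pth C x y → x ∈ ball z n → y ∉ ball z (2 * (n + 1 + t)) →
        ∃ w ∈ L, w ∈ C := by
  obtain ⟨h0, h1, h2⟩ := h
  obtain ⟨L, hLA, hLc, hLb, hL⟩ := circuit0 (A := {w | w + z ∈ A}) (m := ((n + 1 : ℕ) : ℤ))
    (N := ((n + 1 + t : ℕ) : ℤ)) (by positivity) (by push_cast; omega)
    (hrow_off ht h0) (hrow_off ht h1) (hrow_off ht h2)
  refine ⟨{w | w - z ∈ L}, ?_, ?_, ?_, ?_⟩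
  · intro w hw
    have := hLA hw
    have h3 : w - z + z ∈ A := this
    rwa [sub_add_cancel] at h3
  · intro x hx y hy
    have := hLc _ hx _ hy
    have h3 := pth_sub (-z) this
    have e : {w : P2 | w + -z ∈ L} = {w | w - z ∈ L} := by
      ext w
      show w + -z ∈ L ↔ w - z ∈ L
      rw [sub_eq_add_neg]
    rw [e] at h3
    simpa using h3
  · intro w hw
    have := hLb _ hw
    rw [mem_ball]
    simp only [Prod.fst_sub, Prod.snd_sub] at this
    push_cast at this ⊢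
    refine ⟨this.1, this.2.1, ?_⟩
    have h3 := this.2.2
    exact h3
  · intro C x y hp hx hy
    rw [mem_ball] at hx hy
    simp only [abs_le] at hx
    have h3 := pth_sub z hp
    obtain ⟨w, hw1, hw2⟩ := hL _ _ _ h3
      (by simp only [Prod.fst_sub, Prod.snd_sub]; push_cast; omega)
      (by
        by_contra hcon
        apply hy
        simp only [Prod.fst_sub, Prod.snd_sub, abs_le] at hcon ⊢
        push_cast at hcon ⊢
        omega)
    refine ⟨w + z, ?_, hw2⟩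
    show w + z - z ∈ L
    rw [add_sub_cancel_right]; exact hw1

/-- red slabs block blue paths -/
theorem slabs_block {A : Set P2} {z : P2} {n t : ℕ} (ht : n + 2 ≤ t) (h : Slabs z n t Aᶜ)
    {C : Set P2} (hC : C ⊆ A) {x y : P2} (p : Pth C x y) (hx : x ∈ ball z n) :
    y ∈ ball z (2 * (n + 1 + t)) := by
  by_contra hy
  obtain ⟨L, hLA, _, _, hL⟩ := slabs ht h
  obtain ⟨w, hw1, hw2⟩ := hL C x y p hx hy
  exact hLA hw1 (hC hw2)

/-- blue slabs join blue sets -/
theorem slabs_join {A : Set P2} {z : P2} {n t : ℕ} (ht : n + 2 ≤ t) (h : Slabs z n t A)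
    {C C' : Set P2} (hC : IsConn C) (hC' : IsConn C') {x y x' y' : P2}
    (hx : x ∈ C) (hy : y ∈ C) (hx' : x' ∈ C') (hy' : y' ∈ C')
    (bx : x ∈ ball z n) (b_y : y ∉ ball z (2 * (n + 1 + t)))
    (bx' : x' ∈ ball z n) (b_y' : y' ∉ ball z (2 * (n + 1 + t))) :
    ∃ L ⊆ A, (∀ w ∈ L, w ∈ ball z (2 * (n + 1 + t) + 1)) ∧ IsConn (C ∪ L ∪ C') := by
  obtain ⟨L, hLA, hLc, hLb, hL⟩ := slabs ht h
  obtain ⟨w, hw1, hw2⟩ := hL C x y (hC _ hx _ hy) bx b_y
  obtain ⟨w', hw1', hw2'⟩ := hL C' x' y' (hC' _ hx' _ hy') bx' b_y'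
  exact ⟨L, hLA, hLb, conn_union (conn_union hC hLc hw2 hw1) hC' (Or.inr hw1') hw2'⟩

/-- the events are increasing -/
theorem Slabs.mono {A B : Set P2} (hAB : A ⊆ B) {z : P2} {n t : ℕ} (h : Slabs z n t A) :
    Slabs z n t B :=
  ⟨hrow_mono h.1 (fun _ hw => hAB hw) le_rfl le_rfl,
    hrow_mono h.2.1 (fun _ hw => hAB hw) le_rfl le_rfl,
    hrow_mono h.2.2 (fun _ hw => hAB hw) le_rfl le_rfl⟩

end Crest.Agent.R144.Qs356
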