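import Crest.Agent.R144.Qgp_216

-- ▼ part R144/Qst_216
section

/-!
# R144, QRSW (doc 1941): GP lemma and Step I (helper216)
-/

set_option autoImplicit false

noncomputable section

namespace Crest.Agent.R144.Qst216

open Crest.Agent.R144.It844 (P2 adj_iff)
open Crest.Agent.R144.Zg349 (StepIn IsConn)
open Crest.Agent.R144.Rsw867 (ball mem_ball path_mono)
open Crest.Agent.R144.Qlw216
open Crest.Agent.R144.Qgp216
open Crest.ProbabilityR.HexHeights (Adj)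

theorem XX_zero : XX (0 : P2) = 0 := rfl

theorem XX_tr (t v : P2) : XX (tr t v) = XX v + XX t := by
  unfold XX tr
  simp only [Prod.fst_add, Prod.snd_add]
  ring

/-- inner passing (right) -/
theorem inner {L : Lw} {N h : ℕ} {ρ a ε : ℝ} (G : Geo) (hI : Inv L N ρ) (hρ : 0 ≤ ρ)
    (hR : Rig L h a ε) (hh : 9000 ≤ h) (hN : 100 * h ≤ N) (ha : 24 * ρ ≤ a) (ha0 : 0 < a)
    (ha1 : a ≤ 1) {B : P2 × ℕ} (hB : InStrip 0 h B) (h1 : D h ≤ 2 * XX B.1)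
    (h2 : XX B.1 ≤ 20 * h) : a / 3 ≤ L.p (ER 0 h B)ᶜ := by
  set c : ℤ := XX B.1 with hc
  have hc0 : 0 ≤ c := by
    have : (0 : ℤ) ≤ D h := by unfold D; positivity
    omega
  have hrz : rf c (0 : P2) = (c, 0) := by
    unfold rf
    exact Prod.ext (by simp) rfl
  have hrB : rf c B.1 = B.1 := by
    unfold rf
    refine Prod.ext ?_ rfl
    simp only
    rw [hc]
    unfold XX
    ring
  have hX : XX (c, (0 : ℤ)) = 2 * c := by
    unfold XX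
    ring
  have hb := G.b_ 0 (c, 0) h B rfl hB hh (by rw [hX, XX_zero]; linarith)
  rw [hX, XX_zero] at hb
  have hk : L.p (K 0 (2 * c) 0 h) ≤ 1 - a := by
    refine hR.kb 0 (2 * c) ?_ ?_ (by linarith)
    · simp
    · rw [abs_of_nonneg (by omega)]
      omega
  have hpl : IsPl N (rf c) := isPl_rf (by
    rw [abs_of_nonneg hc0]
    have : (100 * h : ℤ) ≤ N := by exact_mod_cast hN
    omega)
  have h3 := (abs_le.1 (pl_near hI hρ hpl (ER_upper 0 h B) (loc_ER (by omega) B))).1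
  have h4 : L.p (act (rf c) (ER 0 h B)) ≤ L.p (EL (c, 0) h B) := by
    have h5 := ER_rf c 0 h B
    rw [hrz, hrB] at h5
    exact p_mono L h5
  have h6 : L.p (ER 0 h B) * L.p (EL (c, 0) h B) ≤ 1 - a :=
    (L.assoc _ _ (ER_upper _ _ _) (EL_upper _ _ _)).trans ((p_mono L hb).trans hk)
  rw [p_compl]
  by_contra hcon
  push Not at hcon
  have h7 := p_le_one L (ER 0 h B)
  set x := L.p (ER 0 h B)
  set y := L.p (EL (c, 0) h B)
  have h8 : 1 - a / 3 < x := by linarith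
  have h9 : 1 - a / 2 ≤ y := by linarith
  nlinarith [mul_le_mul h8.le h9 (by linarith) (by linarith : (0 : ℝ) ≤ x)]

/-- inner passing (left) -/
theorem inner' {L : Lw} {N h : ℕ} {ρ a ε : ℝ} (G : Geo) (hI : Inv L N ρ) (hρ : 0 ≤ ρ)
    (hR : Rig L h a ε) (hh : 9000 ≤ h) (hN : 100 * h ≤ N) (ha : 24 * ρ ≤ a) (ha0 : 0 < a)
    (ha1 : a ≤ 1) {B : P2 × ℕ} (hB : InStrip 0 h B) (h1 : D h ≤ - (2 * XX B.1))
    (h2 : -(20 * h) ≤ XX B.1) : a / 6 ≤ L.p (EL 0 h B)ᶜ := by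
  have hr0 : rf 0 (0 : P2) = 0 := rfl
  have hX : XX (rf 0 B.1) = - XX B.1 := by
    rw [XX_rf]
    ring
  have h3 := inner G hI hρ hR hh hN ha ha0 ha1 (B := (rf 0 B.1, B.2)) hB
    (by simp only [hX]; linarith) (by simp only [hX]; linarith)
  have hpl : IsPl N (rf 0) := isPl_rf (by simp)
  have h4 := (abs_le.1 (pl_near hI hρ hpl (EL_upper 0 h B) (loc_EL (by omega) B))).1
  have h5 : L.p (act (rf 0) (EL 0 h B)) ≤ L.p (ER 0 h (rf 0 B.1, B.2)) := by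
    have h6 := EL_rf 0 0 h B
    rw [hr0] at h6
    exact p_mono L h6
  rw [p_compl] at *
  linarith

/-- outer passing, bottom aligned -/
theorem outer_b {L : Lw} {h h' : ℕ} {a ε : ℝ} (G : Geo) (hR : Rig L h a ε) (hh : 9000 ≤ h)
    (ha0 : 0 < a) (ha1 : a ≤ 1) {B : P2 × ℕ} (hB : InStrip 0 h B) {s : P2} (hs : s.2 = 0)
    (hh' : h' ≤ h) (h1 : XX s + D h ≤ 0) (h2 : -(40 * h) ≤ XX s)
    (hw : L.p (A s h' [B])ᶜ ≤ a / 2) : a / 2 ≤ L.p (EL 0 h B)ᶜ := by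
  have hD : (0 : ℤ) ≤ D h := by unfold D; positivity
  have hb := G.cb_ 0 s h h' B hs hh' hB hh (by rw [XX_zero]; exact h1)
  rw [XX_zero] at hb
  have hk : L.p (K (XX s) 0 0 h) ≤ 1 - a := by
    refine hR.kb _ 0 ?_ ?_ h1
    · rw [abs_le]
      constructor <;> omega
    · simp
  have h6 : L.p (EL 0 h B) * L.p (A s h' [B]) ≤ 1 - a :=
    (L.assoc _ _ (EL_upper _ _ _) (A_upper _ _ _)).trans ((p_mono L hb).trans hk)
  rw [p_compl] at *
  by_contra hcon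
  push Not at hcon
  set x := L.p (EL 0 h B)
  set y := L.p (A s h' [B])
  nlinarith [mul_le_mul (by linarith : 1 - a / 2 ≤ x) (by linarith : 1 - a / 2 ≤ y) (by linarith)
    (by linarith : (0 : ℝ) ≤ x)]

/-- outer passing, top aligned -/
theorem outer_t {L : Lw} {h h' : ℕ} {a ε : ℝ} (G : Geo) (hR : Rig L h a ε) (hh : 9000 ≤ h)
    (ha0 : 0 < a) (ha1 : a ≤ 1) {B : P2 × ℕ} (hB : InStrip 0 h B) {s : P2} (hs : s.2 + h' = h)
    (hh' : h' ≤ h) (h1 : XX s + D h ≤ 0) (h2 : -(40 * h) ≤ XX s)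
    (hw : L.p (A s h' [B])ᶜ ≤ a / 2) : a / 2 ≤ L.p (EL 0 h B)ᶜ := by
  have hD : (0 : ℤ) ≤ D h := by unfold D; positivity
  have hb := G.ct_ 0 s h h' B (by rw [hs]; simp) hh' hB hh (by rw [XX_zero]; exact h1)
  rw [XX_zero] at hb
  have hk : L.p (Kt (XX s) 0 0 h) ≤ 1 - a := by
    refine hR.kt _ 0 ?_ ?_ h1
    · rw [abs_le]
      constructor <;> omega
    · simp
  have h6 : L.p (EL 0 h B) * L.p (A s h' [B]) ≤ 1 - a :=
    (L.assoc _ _ (EL_upper _ _ _) (A_upper _ _ _)).trans ((p_mono L hb).trans hk)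
  rw [p_compl] at *
  by_contra hcon
  push Not at hcon
  set x := L.p (EL 0 h B)
  set y := L.p (A s h' [B])
  nlinarith [mul_le_mul (by linarith : 1 - a / 2 ≤ x) (by linarith : 1 - a / 2 ≤ y) (by linarith)
    (by linarith : (0 : ℝ) ≤ x)]

/-- GP lemma, core -/
theorem gp_core {L : Lw} {h : ℕ} {a : ℝ} (G : Geo) (ha0 : 0 < a) {B : P2 × ℕ}
    (hB : InStrip 0 h B) (BB : List (P2 × ℕ)) (h1 : a / 3 ≤ L.p (ER 0 h B)ᶜ)
    (h2 : a / 2 ≤ L.p (EL 0 h B)ᶜ) :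
    L.p (A 0 h (B :: BB))ᶜ ≤ 6 / a ^ 2 * L.p (A 0 h BB)ᶜ := by
  have hs : (A 0 h (B :: BB))ᶜ ∩ ((EL 0 h B)ᶜ ∩ (ER 0 h B)ᶜ) ⊆ (A 0 h BB)ᶜ := by
    rintro ω ⟨h3, h4, h5⟩ h6
    rcases G.a_ 0 h B BB hB h6 with h7 | h7 | h7
    · exact h3 h7
    · exact h4 h7
    · exact h5 h7
  have h3 := assoc_lower L (A_upper 0 h (B :: BB)).compl
    ((EL_upper 0 h B).compl.inter (ER_upper 0 h B).compl)
  have h4 := assoc_compl L (EL_upper 0 h B) (ER_upper 0 h B)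
  have h5 : a / 2 * (a / 3) ≤ L.p ((EL 0 h B)ᶜ ∩ (ER 0 h B)ᶜ) :=
    (mul_le_mul h2 h1 (by positivity) (L.nonneg _)).trans h4
  have h6 : L.p (A 0 h (B :: BB))ᶜ * (a / 2 * (a / 3)) ≤ L.p (A 0 h BB)ᶜ :=
    (mul_le_mul_of_nonneg_left h5 (L.nonneg _)).trans (h3.trans (p_mono L hs))
  have h7 : L.p (A 0 h (B :: BB))ᶜ = 6 / a ^ 2 * (L.p (A 0 h (B :: BB))ᶜ * (a / 2 * (a / 3))) := by
    field_simp
    ring
  rw [h7]
  exact mul_le_mul_of_nonneg_left h6 (by positivity)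

/-- GP lemma, the small box is bottom aligned -/
theorem gp_b {L : Lw} {N h h' : ℕ} {ρ a ε : ℝ} (G : Geo) (hI : Inv L N ρ) (hρ : 0 ≤ ρ)
    (hR : Rig L h a ε) (hh : 9000 ≤ h) (hN : 100 * h ≤ N) (ha : 24 * ρ ≤ a) (ha0 : 0 < a)
    (ha1 : a ≤ 1) {B : P2 × ℕ} (hB : InStrip 0 h B) (hX1 : D h ≤ 2 * XX B.1)
    (hX2 : XX B.1 ≤ 20 * h) {s : P2} (hs : s.2 = 0) (hh' : h' ≤ h) (h1 : XX s + D h ≤ 0)
    (h2 : -(40 * h) ≤ XX s) (hw : L.p (A s h' [B])ᶜ ≤ a / 2) (BB : List (P2 × ℕ)) :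
    L.p (A 0 h (B :: BB))ᶜ ≤ 6 / a ^ 2 * L.p (A 0 h BB)ᶜ :=
  gp_core G ha0 hB BB (inner G hI hρ hR hh hN ha ha0 ha1 hB hX1 hX2)
    (outer_b G hR hh ha0 ha1 hB hs hh' h1 h2 hw)

/-- GP lemma, the small box is top aligned -/
theorem gp_t {L : Lw} {N h h' : ℕ} {ρ a ε : ℝ} (G : Geo) (hI : Inv L N ρ) (hρ : 0 ≤ ρ)
    (hR : Rig L h a ε) (hh : 9000 ≤ h) (hN : 100 * h ≤ N) (ha : 24 * ρ ≤ a) (ha0 : 0 < a)
    (ha1 : a ≤ 1) {B : P2 × ℕ} (hB : InStrip 0 h B) (hX1 : D h ≤ 2 * XX B.1)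
    (hX2 : XX B.1 ≤ 20 * h) {s : P2} (hs : s.2 + h' = h) (hh' : h' ≤ h) (h1 : XX s + D h ≤ 0)
    (h2 : -(40 * h) ≤ XX s) (hw : L.p (A s h' [B])ᶜ ≤ a / 2) (BB : List (P2 × ℕ)) :
    L.p (A 0 h (B :: BB))ᶜ ≤ 6 / a ^ 2 * L.p (A 0 h BB)ᶜ :=
  gp_core G ha0 hB BB (inner G hI hρ hR hh hN ha ha0 ha1 hB hX1 hX2)
    (outer_t G hR hh ha0 ha1 hB hs hh' h1 h2 hw)

/-- translated hit -/
theorem hit_tr {L : Lw} {N : ℕ} {ρ : ℝ} (hI : Inv L N ρ) (hρ : 0 ≤ ρ) {t : P2} (h1 : |t.1| ≤ N)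
    (h2 : |t.2| ≤ N) {h : ℕ} (hN : 100 * h ≤ N) (B : P2 × ℕ) :
    L.p (A (tr t 0) h [(tr t B.1, B.2)])ᶜ ≤ L.p (A 0 h [B])ᶜ + 4 * ρ := by
  have h3 := (abs_le.1 (pl_near hI hρ (isPl_tr h1 h2) (A_upper 0 h [B]) (loc_A (by omega) _))).1
  have h4 := p_mono L (A_tr t 0 h [B])
  have e : ([B].map fun B : P2 × ℕ => (tr t B.1, B.2)) = [(tr t B.1, B.2)] := rfl
  rw [e] at h4
  rw [p_compl, p_compl]
  linarith

/-- reflected hit -/
theorem hit_rf {L : Lw} {N : ℕ} {ρ : ℝ} (hI : Inv L N ρ) (hρ : 0 ≤ ρ) {h : ℕ} (hN : 100 * h ≤ N)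
    (B : P2 × ℕ) :
    L.p (A 0 h [(rf 0 B.1, B.2)])ᶜ ≤ L.p (A 0 h [B])ᶜ + 4 * ρ := by
  have h3 := (abs_le.1 (pl_near hI hρ (isPl_rf (c := 0) (by simp)) (A_upper 0 h [B])
    (loc_A (by omega) _))).1
  have h4 := p_mono L (A_rf 0 0 h [B])
  have e : ([B].map fun B : P2 × ℕ => (rf 0 B.1, B.2)) = [(rf 0 B.1, B.2)] := rfl
  have e0 : rf 0 (0 : P2) = 0 := rfl
  rw [e, e0] at h4
  rw [p_compl, p_compl]
  linarith

/-- weak hit by the box itself ⟹ strong hit by the shifted box -/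
theorem self_hit {L : Lw} {N h : ℕ} {ρ a ε : ℝ} (G : Geo) (hI : Inv L N ρ) (hρ : 0 ≤ ρ)
    (hR : Rig L h a ε) (hh : 9000 ≤ h) (hN : 100 * h ≤ N) (ha : 24 * ρ ≤ a) (ha0 : 0 < a)
    (ha1 : a ≤ 1) {B : P2 × ℕ} (hB : InStrip 0 h B) {k : ℤ} (hk : D h ≤ 2 * k) (hk2 : k ≤ 2 * h)
    (hX1 : D h + 4 * k ≤ 2 * XX B.1) (hX2 : XX B.1 ≤ 20 * h)
    (hw : L.p (A 0 h [B])ᶜ + 4 * ρ ≤ a / 2) (BB : List (P2 × ℕ)) :
    L.p (A 0 h ((tr (-k, 0) B.1, B.2) :: BB))ᶜ ≤ 6 / a ^ 2 * L.p (A 0 h BB)ᶜ := by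
  have hD : (0 : ℤ) ≤ D h := by unfold D; positivity
  have hNz : (100 * h : ℤ) ≤ N := by exact_mod_cast hN
  have h3 := hit_tr hI hρ (t := (-k, 0)) (by simp only [abs_neg]; rw [abs_of_nonneg (by omega)]; omega)
    (by simp) hN B
  have e : tr (-k, 0) (0 : P2) = (-k, 0) := by
    unfold tr
    simp
  have eX : XX ((-k, 0) : P2) = -(2 * k) := by
    unfold XX
    ring
  rw [e] at h3
  have hB' : InStrip 0 h (tr (-k, 0) B.1, B.2) := by
    unfold InStrip tr at *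
    simpa using hB
  refine gp_b G hI hρ hR hh hN ha ha0 ha1 hB' ?_ ?_ (s := (-k, 0)) rfl le_rfl ?_ ?_
    (h3.trans hw) BB
  · show D h ≤ 2 * XX (tr (-k, 0) B.1)
    rw [XX_tr, eX]
    omega
  · show XX (tr (-k, 0) B.1) ≤ 20 * h
    rw [XX_tr, eX]
    omega
  · rw [eX]
    omega
  · rw [eX]
    omega

/-! ### Step I -/

/-- the box of size `h` hits a ball of radius `r`, to the right, in the middle rows -/
def Hit (L : Lw) (r h : ℕ) (u : ℝ) : Prop :=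
  ∃ z : P2, (h : ℤ) ≤ 4 * z.2 ∧ 4 * z.2 ≤ 3 * h ∧ (h : ℤ) ≤ 30 * XX z ∧ XX z ≤ 2 * h ∧
    L.p (A 0 h [(z, r)])ᶜ ≤ u

theorem Hit.mono {L : Lw} {r h : ℕ} {u v : ℝ} (hu : Hit L r h u) (huv : u ≤ v) : Hit L r h v := by
  obtain ⟨z, h1, h2, h3, h4, h5⟩ := hu
  exact ⟨z, h1, h2, h3, h4, h5.trans huv⟩

/-- base of the recursion -/
theorem hit_base {L : Lw} {r h : ℕ} {a ε : ℝ} (hR : Rig L h a ε) (hh : 9000 ≤ h)
    (hr : 20 * h ≤ r) : Hit L r h ε := by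
  have hh' : (9000 : ℤ) ≤ h := by exact_mod_cast hh
  have hr' : (20 * h : ℤ) ≤ r := by exact_mod_cast hr
  refine ⟨((h : ℤ) / 4, (h : ℤ) / 2), by simp only; omega, by simp only; omega,
    by unfold XX; simp only; omega, by unfold XX; simp only; omega, ?_⟩
  refine (p_mono L (Set.compl_subset_compl.2 ?_)).trans hR.v
  rintro ω ⟨C, h1, h2, ⟨x, hx, hx'⟩, h4, -⟩
  refine ⟨C, h1, h2, ⟨x, hx, hx'⟩, h4, ?_⟩
  intro B hB
  rw [List.mem_singleton] at hB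
  subst hB
  refine ⟨x, hx, ?_⟩
  obtain ⟨⟨h5, h6⟩, h7⟩ := (h1 hx).2
  unfold bl
  rw [Finset.mem_coe, mem_ball]
  unfold XX at h7
  simp only [abs_le, Prod.fst_zero, Prod.snd_zero] at *
  refine ⟨⟨?_, ?_⟩, ⟨?_, ?_⟩, ⟨?_, ?_⟩⟩ <;> omega

/-- two rows -/
theorem dev_img {g : P2 → P2} (hg : ∀ u v, Adj u v → Adj (g u) (g v))
    (hB : ∀ (B : P2 × ℕ) (v : P2), v ∈ bl B → g v ∈ bl (g B.1, B.2)) {s : P2} {h : ℕ} {R : Set P2}
    (hR : ∀ v ∈ Om s h, g v ∈ R) (B B' : P2 × ℕ) :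
    act g (A s h [B', B]) ⊆ Dev R (g B.1, B.2) (g B'.1, B'.2) := by
  rintro ω ⟨C, h1, h2, -, -, h5⟩
  refine ⟨g '' C, ?_, conn_img hg h2, ?_, ?_⟩
  · rintro _ ⟨v, hv, rfl⟩
    exact ⟨(h1 hv).1, hR v (h1 hv).2⟩
  · obtain ⟨w, hw, hw'⟩ := h5 B (by simp)
    exact ⟨g w, ⟨w, hw, rfl⟩, hB B w hw'⟩
  · obtain ⟨w, hw, hw'⟩ := h5 B' (by simp)
    exact ⟨g w, ⟨w, hw, rfl⟩, hB B' w hw'⟩

end Crest.Agent.R144.Qst216
end
end

-- ▼ part R144/Qsp_216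

/-!
# R144, QRSW (doc 1941): Step I, the recursion `m → 10 m → 180 m` (helper216)
-/

set_option autoImplicit false

noncomputable section

namespace Crest.Agent.R144.Qsp216

open Crest.Agent.R144.It844 (P2 adj_iff)
open Crest.Agent.R144.Zg349 (StepIn IsConn)
open Crest.Agent.R144.Rsw867 (ball mem_ball path_mono)
open Crest.Agent.R144.Qlw216
open Crest.Agent.R144.Qgp216
open Crest.Agent.R144.Qst216
open Crest.ProbabilityR.HexHeights (Adj)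

/-- weak hit by the box ⟹ `Hit` with the strong constant -/
theorem finish {L : Lw} {N H r : ℕ} {ρ a ε : ℝ} (G : Geo) (hI : Inv L N ρ) (hρ : 0 ≤ ρ)
    (hR : Rig L H a ε) {q : ℕ} (hH : H = 720 * q) (hq : 100 ≤ q) (hN : 100 * H ≤ N)
    (ha : 24 * ρ ≤ a) (ha0 : 0 < a) (ha1 : a ≤ 1) {b : P2} (h1 : 27 * (q : ℤ) - 1 ≤ XX b)
    (h2 : XX b ≤ 27 * (q : ℤ) + 1) (h3 : 330 * (q : ℤ) ≤ b.2) (h4 : b.2 ≤ 361 * (q : ℤ))
    (hw : L.p (A 0 H [(b, r)])ᶜ + 4 * ρ ≤ a / 2) : Hit L r H (6 / a ^ 2 * ε) := by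
  have hD : D H = ((720 * q / 900 : ℕ) : ℤ) := by rw [hH]; rfl
  have hD1 : 5 * D H ≤ 4 * q := by rw [hD]; omega
  have hD0 : 0 ≤ D H := by rw [hD]; positivity
  have hHz : (H : ℤ) = 720 * q := by rw [hH]; push_cast; ring
  have hqz : (100 : ℤ) ≤ q := by exact_mod_cast hq
  have h5 := self_hit G hI hρ hR (by omega) hN ha ha0 ha1 (B := (b, r))
    (by unfold InStrip; simp only [Prod.snd_zero]; constructor <;> omega) (k := D H) (by omega)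
    (by omega) (by simp only; omega) (by simp only; omega) hw []
  refine ⟨tr (-D H, 0) b, ?_, ?_, ?_, ?_, h5.trans ?_⟩
  · show (H : ℤ) ≤ 4 * (b.2 + 0)
    omega
  · show 4 * (b.2 + 0) ≤ 3 * (H : ℤ)
    omega
  · rw [XX_tr]
    have : XX ((-D H, 0) : P2) = -(2 * D H) := by unfold XX; ring
    rw [this]
    omega
  · rw [XX_tr]
    have : XX ((-D H, 0) : P2) = -(2 * D H) := by unfold XX; ring
    rw [this]
    omega
  · exact mul_le_mul_of_nonneg_left hR.v (by positivity)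

set_option maxHeartbeats 4000000 in
/-- **Step I**: a weak hit at size `m` gives a strong hit at size `180 m` -/
theorem step {L : Lw} {N m r : ℕ} {ρ a ε a' ε' u : ℝ} (G : Geo) (hI : Inv L N ρ) (hρ : 0 ≤ ρ)
    {q : ℕ} (hm : m = 4 * q) (hq : 2250 ≤ q) (hN : 100 * (180 * m) ≤ N)
    (hR : Rig L (10 * m) a ε) (hR' : Rig L (180 * m) a' ε')
    (ha : 24 * ρ ≤ a) (ha0 : 0 < a) (ha1 : a ≤ 1)
    (ha' : 24 * ρ ≤ a') (ha0' : 0 < a') (ha1' : a' ≤ 1)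
    (hH : Hit L r m u) (hu : u + 4 * ρ ≤ a / 2)
    (hε : 18 / a' ^ 2 * (ε' + (6 / a ^ 2) ^ 2 * ε + 4 * ρ) ≤ (a' / 6) ^ 2) :
    Hit L r (180 * m) (6 / a' ^ 2 * ε') := by
  obtain ⟨z, hz1, hz2, hz3, hz4, hz5⟩ := hH
  have hmz : (m : ℤ) = 4 * q := by rw [hm]; push_cast; ring
  have hqz : (2250 : ℤ) ≤ q := by exact_mod_cast hq
  set k : ℤ := D (10 * m) with hk
  have hk' : k = ((10 * (4 * q) / 900 : ℕ) : ℤ) := by rw [hk, hm]; rfl
  have hk1 : 45 * k ≤ 2 * q := by rw [hk']; omega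
  have hk0 : 0 ≤ k := by rw [hk']; positivity
  set x : ℤ := XX z with hx
  have hNz : (72000 * q : ℤ) ≤ N := by
    have : (100 * (180 * m) : ℤ) ≤ N := by exact_mod_cast hN
    omega
  -- the bottom aligned small box
  have hs : XX ((-k, 0) : P2) = -(2 * k) := by unfold XX; ring
  have e0 : tr (-k, 0) (0 : P2) = (-k, 0) := by unfold tr; simp
  set B : P2 × ℕ := (tr (-k, 0) z, r) with hB
  have hw1 : L.p (A (-k, 0) m [B])ᶜ ≤ a / 2 := by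
    have h := hit_tr hI hρ (t := (-k, 0)) (by simp only [abs_neg]; rw [abs_of_nonneg hk0]; omega)
      (by simp) (h := m) (by omega) (z, r)
    rw [e0] at h
    linarith
  have hXB : XX B.1 = x - 2 * k := by
    show XX (tr (-k, 0) z) = _
    rw [XX_tr, hs]
    ring
  have hBs : InStrip 0 (10 * m) B := by
    show (0 : ℤ) ≤ z.2 + 0 ∧ z.2 + 0 ≤ 0 + ((10 * m : ℕ) : ℤ)
    constructor
    · omega
    · push_cast; omega
  have g1 := gp_b G hI hρ hR (by omega) (by omega) ha ha0 ha1 hBs (by rw [hXB, ← hk]; omega)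
    (by rw [hXB]; push_cast; omega) (s := (-k, 0)) rfl (h' := m) (by omega) (by rw [hs]; omega)
    (by rw [hs]; push_cast; omega) hw1 []
  -- the top aligned small box
  set t : P2 := (-k - 18 * q, 36 * q) with ht
  have hst : XX t = -(2 * k) := by rw [ht]; unfold XX; ring
  have e1 : tr t (0 : P2) = t := by unfold tr; simp
  set B' : P2 × ℕ := (tr t z, r) with hB'
  have hw2 : L.p (A t m [B'])ᶜ ≤ a / 2 := by
    have h := hit_tr hI hρ (t := t)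
      (by rw [ht]; simp only; rw [abs_le]; constructor <;> omega)
      (by rw [ht]; simp only; rw [abs_le]; constructor <;> omega) (h := m) (by omega) (z, r)
    rw [e1] at h
    linarith
  have hXB' : XX B'.1 = x - 2 * k := by
    show XX (tr t z) = _
    rw [XX_tr, hst]
    ring
  have hBs' : InStrip 0 (10 * m) B' := by
    show (0 : ℤ) ≤ z.2 + 36 * q ∧ z.2 + 36 * q ≤ 0 + ((10 * m : ℕ) : ℤ)
    constructor
    · omega
    · push_cast; omega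
  have g2 := gp_t G hI hρ hR (by omega) (by omega) ha ha0 ha1 hBs' (by rw [hXB', ← hk]; omega)
    (by rw [hXB']; push_cast; omega) (s := t) (h' := m)
    (by show (36 * q : ℤ) + m = ((10 * m : ℕ) : ℤ); push_cast; omega) (by omega)
    (by rw [hst]; omega) (by rw [hst]; push_cast; omega) hw2 [B]
  have g3 : L.p (A 0 (10 * m) [B', B])ᶜ ≤ (6 / a ^ 2) ^ 2 * ε := by
    have h6 : (0 : ℝ) ≤ 6 / a ^ 2 := by positivity
    calc L.p (A 0 (10 * m) [B', B])ᶜ ≤ 6 / a ^ 2 * L.p (A 0 (10 * m) [B])ᶜ := g2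
      _ ≤ 6 / a ^ 2 * (6 / a ^ 2 * L.p (A 0 (10 * m) [])ᶜ) := mul_le_mul_of_nonneg_left g1 h6
      _ ≤ 6 / a ^ 2 * (6 / a ^ 2 * ε) :=
        mul_le_mul_of_nonneg_left (mul_le_mul_of_nonneg_left hR.v h6) h6
      _ = (6 / a ^ 2) ^ 2 * ε := by ring
  -- the placement
  set H : ℕ := 180 * m with hHdef
  have hHz : (H : ℤ) = 720 * q := by rw [hHdef]; push_cast; omega
  set β : ℤ := B.1.2 - B.1.1 with hβ
  set c1 : ℤ := (-(27 * q) - 360 * q - β) / 2 with hc1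
  set g : P2 → P2 := fun v => ro (ro v) + (c1, 360 * (q : ℤ)) with hg
  have hgv : ∀ v, g v = (v.2 + c1, -v.1 - v.2 + 360 * (q : ℤ)) := by
    intro v
    rw [hg]
    unfold ro
    refine Prod.ext ?_ ?_
    · show -(-v.1 - v.2) - v.1 + c1 = v.2 + c1
      ring
    · show -v.1 - v.2 + 360 * (q : ℤ) = -v.1 - v.2 + 360 * (q : ℤ)
      rfl
  have hB1 : B.1 = (z.1 - k, z.2) := by
    show tr (-k, 0) z = _
    unfold tr
    exact Prod.ext (by simp only [Prod.fst_add]; ring) (by simp)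
  have hB1' : B'.1 = (z.1 - k - 18 * q, z.2 + 36 * q) := by
    show tr t z = _
    unfold tr
    rw [ht]
    exact Prod.ext (by simp only [Prod.fst_add]; ring) (by simp)
  have hβ' : β = z.2 - z.1 + k := by rw [hβ, hB1]; ring
  have hxz : x = 2 * z.1 + z.2 := rfl
  have hpl : IsPl N g := by
    refine ⟨2, by norm_num, 0, by norm_num, (c1, 360 * (q : ℤ)), ?_, ?_, fun v => rfl⟩
    · simp only
      rw [abs_le]
      constructor <;> omega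
    · simp only
      rw [abs_le]
      constructor <;> omega
  have hadj : ∀ u v, Adj u v → Adj (g u) (g v) := fun u v h =>
    adj_tr _ _ _ (adj_ro _ _ (adj_ro _ _ h))
  have hbl : ∀ (B : P2 × ℕ) (v : P2), v ∈ bl B → g v ∈ bl (g B.1, B.2) := fun B v h =>
    bl_tr (t := (c1, 360 * (q : ℤ))) (bl_ro (bl_ro h))
  have hOm : ∀ v ∈ Om (0 : P2) (10 * m), g v ∈ Om (0 : P2) H := by
    rintro v ⟨⟨h1, h2⟩, h3⟩
    rw [hgv]
    have h1' : (0 : ℤ) ≤ v.2 := h1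
    have h2' : v.2 ≤ 40 * q := by
      have : v.2 ≤ 0 + ((10 * m : ℕ) : ℤ) := h2
      push_cast at this
      omega
    rw [XX_zero, sub_zero] at h3
    push_cast at h3
    unfold XX at h3
    rw [abs_le] at h3
    refine ⟨⟨?_, ?_⟩, ?_⟩
    · show (0 : ℤ) ≤ -v.1 - v.2 + 360 * (q : ℤ)
      omega
    · show -v.1 - v.2 + 360 * (q : ℤ) ≤ 0 + (H : ℤ)
      omega
    · rw [XX_zero, sub_zero]
      unfold XX
      simp only
      rw [abs_le]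
      constructor <;> omega
  set b1 : P2 := g B.1 with hb1
  set b2 : P2 := g B'.1 with hb2
  have hb1' : b1 = (z.2 + c1, -(z.1 - k) - z.2 + 360 * (q : ℤ)) := by rw [hb1, hgv, hB1]
  have hb2' : b2 = (z.2 + 36 * q + c1,
      -(z.1 - k - 18 * q) - (z.2 + 36 * q) + 360 * (q : ℤ)) := by rw [hb2, hgv, hB1']
  have hX1 : XX b1 = β + 2 * c1 + 360 * q := by rw [hb1', hβ']; unfold XX; ring
  have hX2 : XX b2 = β + 2 * c1 + 360 * q + 54 * q := by rw [hb2', hβ']; unfold XX; ring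
  have hX1a : -(27 * (q : ℤ)) - 1 ≤ XX b1 := by rw [hX1]; omega
  have hX1b : XX b1 ≤ -(27 * (q : ℤ)) := by rw [hX1]; omega
  have hX2a : 27 * (q : ℤ) - 1 ≤ XX b2 := by rw [hX2]; omega
  have hX2b : XX b2 ≤ 27 * (q : ℤ) := by rw [hX2]; omega
  have hr1 : 330 * (q : ℤ) ≤ b1.2 ∧ b1.2 ≤ 361 * (q : ℤ) := by
    rw [hb1']
    simp only
    constructor <;> omega
  have hr2 : 330 * (q : ℤ) ≤ b2.2 ∧ b2.2 ≤ 361 * (q : ℤ) := by
    rw [hb2']
    simp only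
    constructor <;> omega
  -- the four events
  have hd := G.d_ 0 H (Om 0 H) (b1, r) (b2, r)
    (by unfold InStrip; simp only [Prod.snd_zero]; constructor <;> omega)
    (by unfold InStrip; simp only [Prod.snd_zero]; constructor <;> omega) subset_rfl
  have hDev : L.p (Dev (Om 0 H) (b1, r) (b2, r))ᶜ ≤ (6 / a ^ 2) ^ 2 * ε + 4 * ρ := by
    have h1 := dev_img hadj hbl hOm B B'
    have h2 := (abs_le.1 (pl_near hI hρ hpl (A_upper 0 (10 * m) [B', B])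
      (loc_A (by omega) _))).1
    have h3 := p_mono L h1
    rw [p_compl] at g3 ⊢
    have e3 : (g B.1, B.2) = (b1, r) := rfl
    have e4 : (g B'.1, B'.2) = (b2, r) := rfl
    rw [e3, e4] at h3
    linarith
  have hDH : D H = ((180 * m / 900 : ℕ) : ℤ) := rfl
  have hDH1 : 5 * D H ≤ 4 * q := by rw [hDH]; omega
  have hF1 := inner' G hI hρ hR' (by omega) (by omega) ha' ha0' ha1' (B := (b1, r))
    (by unfold InStrip; simp only [Prod.snd_zero]; constructor <;> omega)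
    (by simp only; omega) (by simp only; omega)
  have hF2 := inner G hI hρ hR' (by omega) (by omega) ha' ha0' ha1' (B := (b2, r))
    (by unfold InStrip; simp only [Prod.snd_zero]; constructor <;> omega)
    (by simp only; omega) (by simp only; omega)
  have hsub : ((A 0 H [(b1, r)])ᶜ ∩ (A 0 H [(b2, r)])ᶜ) ∩ ((EL 0 H (b1, r))ᶜ ∩ (ER 0 H (b2, r))ᶜ) ⊆
      (A 0 H [])ᶜ ∪ (Dev (Om 0 H) (b1, r) (b2, r))ᶜ := by
    rintro ω ⟨⟨h1, h2⟩, h3, h4⟩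
    by_contra hcon
    rw [Set.mem_union, not_or, Set.mem_compl_iff, Set.mem_compl_iff, not_not, not_not] at hcon
    rcases hd hcon with (h5 | h5) | h5 | h5
    · exact h1 h5
    · exact h2 h5
    · exact h3 h5
    · exact h4 h5
  have hp1 := assoc_compl L (A_upper 0 H [(b1, r)]) (A_upper 0 H [(b2, r)])
  have hp2 := assoc_compl L (EL_upper 0 H (b1, r)) (ER_upper 0 H (b2, r))
  have hp3 := assoc_lower L
    ((A_upper 0 H [(b1, r)]).compl.inter (A_upper 0 H [(b2, r)]).compl)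
    ((EL_upper 0 H (b1, r)).compl.inter (ER_upper 0 H (b2, r)).compl)
  have hp4 := (p_mono L hsub).trans (p_union_le L _ _)
  have hp5 : a' / 6 * (a' / 3) ≤ L.p ((EL 0 H (b1, r))ᶜ ∩ (ER 0 H (b2, r))ᶜ) :=
    (mul_le_mul hF1 hF2 (by positivity) (L.nonneg _)).trans hp2
  have hp6 : L.p (A 0 H [(b1, r)])ᶜ * L.p (A 0 H [(b2, r)])ᶜ * (a' / 6 * (a' / 3)) ≤
      ε' + ((6 / a ^ 2) ^ 2 * ε + 4 * ρ) :=
    (mul_le_mul hp1 hp5 (by positivity) (L.nonneg _)).trans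
      (hp3.trans (hp4.trans (add_le_add hR'.v hDev)))
  have hp7 : L.p (A 0 H [(b1, r)])ᶜ * L.p (A 0 H [(b2, r)])ᶜ ≤ (a' / 6) ^ 2 := by
    have h1 : L.p (A 0 H [(b1, r)])ᶜ * L.p (A 0 H [(b2, r)])ᶜ = 18 / a' ^ 2 *
        (L.p (A 0 H [(b1, r)])ᶜ * L.p (A 0 H [(b2, r)])ᶜ * (a' / 6 * (a' / 3))) := by
      field_simp
      ring
    rw [h1]
    refine (mul_le_mul_of_nonneg_left hp6 (by positivity)).trans ?_
    rw [← add_assoc]
    exact hε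
  have hq' : 100 ≤ q := by omega
  have hHq : H = 720 * q := by omega
  rcases le_or_gt (L.p (A 0 H [(b2, r)])ᶜ) (a' / 6) with h7 | h7
  · exact finish G hI hρ hR' hHq hq' hN ha' ha0' ha1' hX2a (by omega) hr2.1 hr2.2 (by linarith)
  · have h8 : L.p (A 0 H [(b1, r)])ᶜ ≤ a' / 6 := by
      by_contra hcon
      push Not at hcon
      nlinarith [mul_lt_mul'' hcon h7 (by positivity) (by positivity)]
    have h9 := hit_rf hI hρ (h := H) hN (b1, r)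
    simp only at h9
    have hXr : XX (rf 0 b1) = - XX b1 := by rw [XX_rf]; ring
    exact finish G hI hρ hR' hHq hq' hN ha' ha0' ha1' (b := rf 0 b1) (by rw [hXr]; omega)
      (by rw [hXr]; omega) hr1.1 hr1.2 (by linarith)

end Crest.Agent.R144.Qsp216
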