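import Crest.Agent.R144.Qgp_216
import Crest.Agent.R144.Qsp_216
import Crest.Agent.R144.Cov_356
import Crest.Agent.R144.Qb_277
import Crest.Agent.R144.Qs2_356
import Crest.Agent.R144.Qlw_216
import Crest.Agent.R144.Hex1_585
import Crest.Agent.R144.Qg1_356
import Crest.Agent.R144.Lay7_356
import Crest.Agent.R144.Rw2_146
import Crest.Agent.R144.Qr0_315

-- ▼ part R144/Qfd_216
section

/-!
# R144, QRSW (doc 1941): statement of the final theorem over `Lw` (helper216)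
-/

set_option autoImplicit false

noncomputable section

namespace Crest.Agent.R144.Qfd216

open Crest.Agent.R144.Qlw216
open Crest.Agent.R144.Qgp216

/-- final theorem at the sizes `180 ^ J` -/
def QF : Prop := ∀ c0 : ℝ, 0 < c0 → ∃ η : ℝ, 0 < η ∧ ∃ k J0 : ℕ, ∀ J : ℕ, J0 ≤ J →
  ∀ (L : Lw) (N : ℕ), Inv L N η → 1000 * 180 ^ J ≤ N →
    (∀ t : ℕ, 180 ^ J ≤ k * t → t ≤ 180 ^ J → L.p (rhard t) ≤ η) → 1 - c0 ≤ L.p (hard (180 ^ J))

end Crest.Agent.R144.Qfd216
end
end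

-- ▼ part R144/Qca_216
section

/-!
# R144, QRSW (doc 1941): Step II (probability) and the single-site end (helper216)
-/

set_option autoImplicit false

noncomputable section

namespace Crest.Agent.R144.Qca216

open Crest.Agent.R144.It844 (P2 adj_iff)
open Crest.Agent.R144.Zg349 (StepIn IsConn)
open Crest.Agent.R144.Rsw867 (ball mem_ball path_mono)
open Crest.Agent.R144.Qlw216
open Crest.Agent.R144.Qgp216
open Crest.Agent.R144.Qst216
open Crest.Agent.R144.Qsp216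
open Crest.ProbabilityR.HexHeights (Adj)

/-! ### finite families -/

theorem p_inter_ge (L : Lw) {ι : Type*} (s : Finset ι) (E : ι → Set (Set P2)) :
    1 - ∑ i ∈ s, L.p (E i)ᶜ ≤ L.p (⋂ i ∈ s, E i) := by
  classical
  induction s using Finset.induction_on with
  | empty => simp [L.univ]
  | @insert i s hi ih =>
    rw [Finset.sum_insert hi, Finset.set_biInter_insert]
    have h1 := L.add (E i) (⋂ j ∈ s, E j)
    have h2 := p_le_one L (E i ∪ ⋂ j ∈ s, E j)
    have h3 := p_compl L (E i)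
    linarith

theorem p_inter_lower (L : Lw) {ι : Type*} (s : Finset ι) (E : ι → Set (Set P2))
    (hE : ∀ i ∈ s, IsLowerSet (E i)) {x : ℝ} (hx : 0 ≤ x) (h : ∀ i ∈ s, x ≤ L.p (E i)) :
    x ^ s.card ≤ L.p (⋂ i ∈ s, E i) := by
  classical
  induction s using Finset.induction_on with
  | empty => simp [L.univ]
  | @insert i s hi ih =>
    rw [Finset.card_insert_of_notMem hi, Finset.set_biInter_insert, pow_succ]
    have h1 := ih (fun j hj => hE j (Finset.mem_insert_of_mem hj))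
      (fun j hj => h j (Finset.mem_insert_of_mem hj))
    have h2 : IsLowerSet (⋂ j ∈ s, E j) :=
      isLowerSet_iInter₂ fun j hj => hE j (Finset.mem_insert_of_mem hj)
    have h3 := assoc_lower L (hE i (Finset.mem_insert_self i s)) h2
    calc x ^ s.card * x = x * x ^ s.card := by ring
      _ ≤ L.p (E i) * L.p (⋂ j ∈ s, E j) :=
        mul_le_mul (h i (Finset.mem_insert_self i s)) h1 (by positivity) (L.nonneg _)
      _ ≤ _ := h3

/-- square root trick -/
theorem sqrt_trick (L : Lw) {ι : Type*} (s : Finset ι) (E : ι → Set (Set P2)) (U : Set (Set P2))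
    (hE : ∀ i ∈ s, IsUpperSet (E i)) (hU : U ⊆ ⋃ i ∈ s, E i) {x : ℝ} (hx : 0 ≤ x)
    (h : L.p Uᶜ < x ^ s.card) : ∃ i ∈ s, L.p (E i)ᶜ ≤ x := by
  by_contra hcon
  push Not at hcon
  have h1 := p_inter_lower L s (fun i => (E i)ᶜ) (fun i hi => (hE i hi).compl) hx
    (fun i hi => (hcon i hi).le)
  have h2 : (⋂ i ∈ s, (E i)ᶜ) ⊆ Uᶜ := by
    intro ω hω hU'
    obtain ⟨i, hi, hi'⟩ := Set.mem_iUnion₂.1 (hU hU')
    exact Set.mem_iInter₂.1 hω i hi hi'
  linarith [p_mono L h2]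

/-! ### locality of the long crossings -/

theorem XX_adj {u v : P2} (h : Adj u v) : |XX v - XX u| ≤ 2 := by
  rw [adj_iff] at h
  unfold XX
  rw [abs_le]
  rcases h with h | h | h | h | h | h <;> subst h <;> simp only <;> constructor <;> omega

theorem trim' {S : Set P2} {t : ℕ} (ht : 1 ≤ t)
    (h : ∃ u v, XX u ≤ -(6 * t) ∧ 6 * t ≤ XX v ∧ Pth (S ∩ Rows 0 t) u v) :
    ∃ u v, XX u ≤ -(6 * t) ∧ 6 * t ≤ XX v ∧ Pth (S ∩ Bb (5 * t + 5) ∩ Rows 0 t) u v := by
  obtain ⟨u, v, h1, h2, h3, h4⟩ := h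
  obtain ⟨u', v', h5, h6, h7⟩ := Crest.Agent.R144.Rsw867.trim (S := S ∩ Rows 0 t)
    (X := {w | 6 * (t : ℤ) ≤ XX w}) (Y := {w | -(6 * (t : ℤ)) < XX w}) (by
      intro w hw
      simp only [Set.mem_ofPred_eq] at *
      omega) (u := u) (v := v) (by simp only [Set.mem_ofPred_eq]; omega) h2 h4
  have h5' : XX u' ≤ -(6 * (t : ℤ)) := not_lt.1 h5
  have h6' : 6 * (t : ℤ) ≤ XX v' := h6
  have hsub : (S ∩ Rows 0 t) ∩ {w | (w ∈ {w | -(6 * (t : ℤ)) < XX w} ∨
      ∃ t', t' ∈ {w | -(6 * (t : ℤ)) < XX w} ∧ Adj t' w) ∧ (w ∉ {w | 6 * (t : ℤ) ≤ XX w} ∨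
      ∃ t', t' ∉ {w | 6 * (t : ℤ) ≤ XX w} ∧ Adj t' w)} ⊆ S ∩ Bb (5 * t + 5) ∩ Rows 0 t := by
    rintro w ⟨⟨hw1, hw2⟩, hw3, hw4⟩
    refine ⟨⟨hw1, ?_⟩, hw2⟩
    have a1 : -(6 * (t : ℤ)) - 2 ≤ XX w := by
      rcases hw3 with hw3 | ⟨t', ht', ha⟩
      · have : -(6 * (t : ℤ)) < XX w := hw3
        omega
      · have b1 : -(6 * (t : ℤ)) < XX t' := ht'
        have b2 := abs_le.1 (XX_adj ha)
        omega
    have a2 : XX w ≤ 6 * (t : ℤ) + 2 := by
      rcases hw4 with hw4 | ⟨t', ht', ha⟩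
      · have : ¬ 6 * (t : ℤ) ≤ XX w := hw4
        omega
      · have b1 : ¬ 6 * (t : ℤ) ≤ XX t' := ht'
        have b2 := abs_le.1 (XX_adj ha)
        omega
    obtain ⟨h8, h9⟩ := hw2
    unfold Bb
    unfold XX at a1 a2
    simp only [Set.mem_ofPred_eq, abs_le]
    push_cast
    refine ⟨⟨?_, ?_⟩, ⟨?_, ?_⟩, ⟨?_, ?_⟩⟩ <;> omega
  refine ⟨u', v', h5', h6', ?_, path_mono hsub h7⟩
  rcases Relation.ReflTransGen.cases_head h7 with h8 | ⟨c, h8, -⟩
  · exfalso
    rw [h8] at h5'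
    omega
  · exact hsub h8.1

theorem loc_hard {t N : ℕ} (ht : 1 ≤ t) (hN : 5 * t + 5 ≤ N) : Loc (Bb N) (hard t) := by
  refine loc_mono (R := Bb (5 * t + 5)) ?_ ?_
  · intro ω
    constructor
    · intro h
      obtain ⟨u, v, h1, h2, h3⟩ := trim' ht h
      exact ⟨u, v, h1, h2, h3⟩
    · rintro ⟨u, v, h1, h2, h3, h4⟩
      have hs : ω ∩ Bb (5 * t + 5) ∩ Rows 0 t ⊆ ω ∩ Rows 0 t := fun w hw => ⟨hw.1.1, hw.2⟩
      exact ⟨u, v, h1, h2, hs h3, path_mono hs h4⟩
  · intro v hv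
    unfold Bb at *
    simp only [Set.mem_ofPred_eq, abs_le] at *
    push_cast at *
    have : (5 * t + 5 : ℤ) ≤ N := by exact_mod_cast hN
    omega

theorem loc_rhard {t N : ℕ} (ht : 1 ≤ t) (hN : 5 * t + 5 ≤ N) : Loc (Bb N) (rhard t) := by
  refine loc_mono (R := Bb (5 * t + 5)) ?_ ?_
  · intro ω
    constructor
    · rintro ⟨u, v, h1, h2, h3, h4⟩
      have hs : ωᶜ ∩ Rows 0 t ⊆ (ω ∩ Bb (5 * t + 5))ᶜ ∩ Rows 0 t :=
        fun w hw => ⟨fun hh => hw.1 hh.1, hw.2⟩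
      exact ⟨u, v, h1, h2, hs h3, path_mono hs h4⟩
    · intro h
      obtain ⟨u, v, h1, h2, h3, h4⟩ := trim' ht h
      have hs : (ω ∩ Bb (5 * t + 5))ᶜ ∩ Bb (5 * t + 5) ∩ Rows 0 t ⊆ ωᶜ ∩ Rows 0 t :=
        fun w hw => ⟨fun hh => hw.1.1 ⟨hh, hw.1.2⟩, hw.2⟩
      exact ⟨u, v, h1, h2, hs h3, path_mono hs h4⟩
  · intro v hv
    unfold Bb at *
    simp only [Set.mem_ofPred_eq, abs_le] at *
    push_cast at *
    have : (5 * t + 5 : ℤ) ≤ N := by exact_mod_cast hN
    omega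

theorem pl_hard {L : Lw} {N t : ℕ} {ρ : ℝ} (hI : Inv L N ρ) (hρ : 0 ≤ ρ) (ht : 1 ≤ t)
    (hN : 5 * t + 5 ≤ N) {g : P2 → P2} (hg : IsPl N g) :
    |L.p (act g (hard t)) - L.p (hard t)| ≤ 4 * ρ :=
  pl_near hI hρ hg (hard_upper t) (loc_hard ht hN)

theorem pl_rhard {L : Lw} {N t : ℕ} {ρ : ℝ} (hI : Inv L N ρ) (hρ : 0 ≤ ρ) (ht : 1 ≤ t)
    (hN : 5 * t + 5 ≤ N) {g : P2 → P2} (hg : IsPl N g) :
    |L.p (act g (rhard t)) - L.p (rhard t)| ≤ 4 * ρ := by
  have h := pl_near hI hρ hg (rhard_lower t).compl (loc_compl (loc_rhard ht hN))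
  rw [act_compl, p_compl, p_compl] at h
  rw [abs_sub_comm] at h
  convert h using 2
  ring

/-! ### Step II -/

/-- from a strong hit at size `n` by a ball of radius `r`: weak and strong hits of one small ball -/
theorem small_ball {L : Lw} {N n r : ℕ} {ρ a ε u x : ℝ} (G : Geo) (hI : Inv L N ρ) (hρ : 0 ≤ ρ)
    (hR : Rig L n a ε) (hn : 9000 ≤ n) (hN : 100 * n ≤ N) (ha : 24 * ρ ≤ a) (ha0 : 0 < a)
    (ha1 : a ≤ 1) (hH : Hit L r n u) (hr : 180 * r ≤ n) {r' : ℕ} (hr' : 4 * r' ≤ r)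
    {Z : P2 → Finset P2} {M : ℕ}
    (hZc : ∀ z, (Z z).card ≤ M)
    (hZd : ∀ z, ∀ z' ∈ Z z, |z'.1 - z.1| ≤ r + r' ∧ |z'.2 - z.2| ≤ r + r')
    (hZ : ∀ z, ball z r ⊆ (Z z).biUnion fun z' => ball z' r') (hx0 : 0 < x) (hx1 : x ≤ 1)
    (hu : u < x ^ M) (hx : x + 4 * ρ ≤ a / 2) :
    ∃ (b : P2) (k : ℤ), D n ≤ 2 * k ∧ 2 * k ≤ n ∧ 0 ≤ k ∧ (n : ℤ) ≤ 5 * b.2 ∧ 5 * b.2 ≤ 4 * n ∧
      |XX b| ≤ 4 * n ∧
      L.p (A (-k, 0) n [(b, r')])ᶜ ≤ x + 4 * ρ ∧ L.p (A 0 n [(b, r')])ᶜ ≤ 6 / a ^ 2 * ε := by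
  obtain ⟨z, hz1, hz2, hz3, hz4, hz5⟩ := hH
  have hnz : (9000 : ℤ) ≤ n := by exact_mod_cast hn
  have hrz : (180 * r : ℤ) ≤ n := by exact_mod_cast hr
  have hrz' : (4 * r' : ℤ) ≤ r := by exact_mod_cast hr'
  have hNz : (100 * n : ℤ) ≤ N := by exact_mod_cast hN
  obtain ⟨z', hz', hw⟩ := sqrt_trick L (Z z) (fun z' => A 0 n [(z', r')]) (A 0 n [(z, r)])
    (fun _ _ => A_upper _ _ _) (by
      rintro ω ⟨C, h1, h2, h3, h4, h5⟩
      obtain ⟨w, hw, hw'⟩ := h5 (z, r) (by simp)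
      have h6 : w ∈ ball z r := hw'
      obtain ⟨z', hz', hz''⟩ := Finset.mem_biUnion.1 (hZ z h6)
      refine Set.mem_iUnion₂.2 ⟨z', hz', C, h1, h2, h3, h4, ?_⟩
      intro B hB
      rw [List.mem_singleton] at hB
      subst hB
      exact ⟨w, hw, hz''⟩) hx0.le
    (lt_of_le_of_lt hz5 (hu.trans_le (pow_le_pow_of_le_one hx0.le hx1 (hZc z))))
  obtain ⟨hd1, hd2⟩ := hZd z z' hz'
  rw [abs_le] at hd1 hd2
  have hD : D n = ((n / 900 : ℕ) : ℤ) := rfl
  have hD1 : 900 * D n ≤ n := by rw [hD]; omega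
  have hD0 : 0 ≤ D n := by rw [hD]; positivity
  unfold XX at hz3 hz4
  have hXb : XX (tr (-D n, 0) z') = 2 * z'.1 + z'.2 - 2 * D n := by
    unfold XX tr
    simp only [Prod.fst_add, Prod.snd_add]
    ring
  have hb2 : (tr (-D n, 0) z').2 = z'.2 := by unfold tr; simp
  refine ⟨tr (-D n, 0) z', D n, by omega, by omega, hD0, by rw [hb2]; omega, by rw [hb2]; omega,
    ?_, ?_, ?_⟩
  · rw [hXb, abs_le]
    constructor <;> omega
  · have h := hit_tr hI hρ (t := (-D n, 0)) (by simp only [abs_neg]; rw [abs_of_nonneg hD0]; omega)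
      (by simp) hN (z', r')
    have e0 : tr (-D n, 0) (0 : P2) = (-D n, 0) := by unfold tr; simp
    rw [e0] at h
    linarith
  · have h := self_hit G hI hρ hR hn hN ha ha0 ha1 (B := (z', r'))
      (by unfold InStrip; simp only [Prod.snd_zero]; constructor <;> omega) (k := D n) (by omega)
      (by omega) (by simp only; unfold XX; omega) (by simp only; unfold XX; omega)
      (by linarith) []
    exact h.trans (mul_le_mul_of_nonneg_left hR.v (by positivity))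

/-- **Step II** -/
theorem stepII {L : Lw} {N n r t r' : ℕ} {ρ a ε u x e : ℝ} (G : Geo) (hP : PS2) (hI : Inv L N ρ)
    (hρ : 0 ≤ ρ) (hR : Rig L n a ε) (hn : 9000 ≤ n) (hN : 100 * n ≤ N) (ha : 24 * ρ ≤ a)
    (ha0 : 0 < a) (ha1 : a ≤ 1) (hH : Hit L r n u) (hr : 180 * r ≤ n) (hr' : 4 * r' ≤ r)
    (ht1 : 4 * r' ≤ t) (ht2 : 9 ≤ t) (ht3 : 200 * t ≤ n)
    {Z : P2 → Finset P2} {M : ℕ} (hZc : ∀ z, (Z z).card ≤ M)
    (hZd : ∀ z, ∀ z' ∈ Z z, |z'.1 - z.1| ≤ r + r' ∧ |z'.2 - z.2| ≤ r + r')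
    (hZ : ∀ z, ball z r ⊆ (Z z).biUnion fun z' => ball z' r') (hx0 : 0 < x) (hx1 : x ≤ 1)
    (hu : u < x ^ M) (hx : x + 4 * ρ ≤ a / 2) (he : 0 < e) (he1 : 8 * ρ ≤ e)
    (he2 : x + 4 * ρ < (e / 2) ^ 3) (hs : x + 6 / a ^ 2 * ε + 16 * ρ ≤ a / 4) :
    L.p (hard t) ≤ 1 - a / 4 ∧ L.p (rhard t) ≤ e := by
  obtain ⟨b, k, h1, h2, h3, h4, h5, h6, h7, h8⟩ := small_ball G hI hρ hR hn hN ha ha0 ha1 hH hr hr'
    hZc hZd hZ hx0 hx1 hu hx
  obtain ⟨g, g1, g2, g3⟩ := hP n t r' b ht1 ht2 ht3 h4 h5 h6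
  have hX : XX ((-k, 0) : P2) = -(2 * k) := by unfold XX; ring
  have hnz : (9000 : ℤ) ≤ n := by exact_mod_cast hn
  have hg : ∀ i, IsPl N (g i) := fun i => isPl_mono (by omega) (g1 i)
  have hb1 : ∀ i, |L.p (act (g i) (hard t)) - L.p (hard t)| ≤ 4 * ρ := fun i =>
    pl_hard hI hρ (by omega) (by omega) (hg i)
  have hb2 : ∀ i, |L.p (act (g i) (rhard t)) - L.p (rhard t)| ≤ 4 * ρ := fun i =>
    pl_rhard hI hρ (by omega) (by omega) (hg i)
  have hkX : |XX ((-k, 0) : P2)| ≤ n := by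
    rw [hX, abs_le]
    constructor <;> omega
  constructor
  · -- blue
    have e1 := g3 (-k, 0) 0 rfl rfl hkX (by rw [XX_zero]; simp)
    rw [XX_zero, hX] at e1
    have e2 : L.p (K (-(2 * k)) 0 0 n) ≤ 1 - a := by
      refine hR.kb _ 0 ?_ (by simp) (by omega)
      rw [abs_le]
      constructor <;> omega
    have e3 := p_inter_ge L (Finset.univ : Finset (Fin 3)) (fun i => act (g i) (hard t))
    have e4 : (⋂ i ∈ (Finset.univ : Finset (Fin 3)), act (g i) (hard t)) =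
        ⋂ i, act (g i) (hard t) := by simp
    rw [e4] at e3
    have e5 : ∑ i : Fin 3, L.p (act (g i) (hard t))ᶜ ≤ 3 * (1 - L.p (hard t) + 4 * ρ) := by
      have h9 : ∀ i ∈ (Finset.univ : Finset (Fin 3)), L.p (act (g i) (hard t))ᶜ ≤
          1 - L.p (hard t) + 4 * ρ := by
        intro i _
        rw [p_compl]
        linarith [(abs_le.1 (hb1 i)).1]
      have h10 := Finset.sum_le_sum h9
      rw [Finset.sum_const, Finset.card_univ, Fintype.card_fin, nsmul_eq_mul] at h10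
      push_cast at h10
      exact h10
    have e6 : (⋂ i, act (g i) (hard t)) ⊆ K (-(2 * k)) 0 0 n ∪ ((A (-k, 0) n [(b, r')])ᶜ ∪
        (A 0 n [(b, r')])ᶜ) := by
      intro ω hω
      by_cases c1 : ω ∈ A (-k, 0) n [(b, r')]
      · by_cases c2 : ω ∈ A 0 n [(b, r')]
        · exact Or.inl (e1 ⟨⟨hω, c1⟩, c2⟩)
        · exact Or.inr (Or.inr c2)
      · exact Or.inr (Or.inl c1)
    have e7 := p_mono L e6
    have e8 := p_union_le L (K (-(2 * k)) 0 0 n) ((A (-k, 0) n [(b, r')])ᶜ ∪ (A 0 n [(b, r')])ᶜ)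
    have e9 := p_union_le L (A (-k, 0) n [(b, r')])ᶜ (A 0 n [(b, r')])ᶜ
    linarith
  · -- red
    by_contra hcon
    push Not at hcon
    have e1 := g2 (-k, 0) rfl hkX
    have e3 := p_inter_lower L (Finset.univ : Finset (Fin 3)) (fun i => act (g i) (rhard t))
      (fun i _ => act_lower (rhard_lower t)) (x := e / 2) (by positivity)
      (fun i _ => by linarith [(abs_le.1 (hb2 i)).1])
    have e4 : (⋂ i ∈ (Finset.univ : Finset (Fin 3)), act (g i) (rhard t)) =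
        ⋂ i, act (g i) (rhard t) := by simp
    rw [e4, Finset.card_univ, Fintype.card_fin] at e3
    have e5 : (⋂ i, act (g i) (rhard t)) ⊆ (A (-k, 0) n [(b, r')])ᶜ := by
      intro ω hω h9
      have : ω ∈ (⋂ k, act (g k) (rhard t)) ∩ A (-k, 0) n [(b, r')] := ⟨hω, h9⟩
      rw [e1] at this
      exact this
    linarith [p_mono L e5]

/-- the single-site end: contradiction -/
theorem end_ {L : Lw} {N n r : ℕ} {ρ a ε u x : ℝ} (G : Geo) (hI : Inv L N ρ)
    (hρ : 0 ≤ ρ) (hR : Rig L n a ε) (hn : 9000 ≤ n) (hN : 100 * n ≤ N) (ha : 24 * ρ ≤ a)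
    (ha0 : 0 < a) (ha1 : a ≤ 1) (hH : Hit L r n u) (hr : 180 * r ≤ n)
    (hx0 : 0 < x) (hx1 : x ≤ 1) (hu : u < x ^ ((2 * r + 1) ^ 2)) (hx : x + 4 * ρ ≤ a / 2)
    (hs : x + 6 / a ^ 2 * ε + 16 * ρ ≤ a / 4) : False := by
  have hc := fun z => Crest.Agent.R144.Cov356.cov0 z r
  choose Z hZ1 hZ2 hZ3 using hc
  obtain ⟨b, k, h1, h2, h3, h4, h5, h6, h7, h8⟩ := small_ball G hI hρ hR hn hN ha ha0 ha1 hH hr
    (r' := 0) (by omega) hZ1 (fun z z' hz' => by simpa using hZ2 z z' hz') hZ3 hx0 hx1 hu hx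
  have hX : XX ((-k, 0) : P2) = -(2 * k) := by unfold XX; ring
  have e2 : L.p (K (-(2 * k)) 0 0 n) ≤ 1 - a := by
    refine hR.kb _ 0 ?_ (by simp) (by omega)
    rw [abs_le]
    constructor <;> omega
  have e6 : (Set.univ : Set (Set P2)) ⊆ K (-(2 * k)) 0 0 n ∪ ((A (-k, 0) n [(b, 0)])ᶜ ∪
      (A 0 n [(b, 0)])ᶜ) := by
    intro ω _
    by_cases c1 : ω ∈ A (-k, 0) n [(b, 0)]
    · by_cases c2 : ω ∈ A 0 n [(b, 0)]
      · left
        obtain ⟨C, d1, d2, ⟨p, d3, d4⟩, -, d5⟩ := c1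
        obtain ⟨C', d1', d2', ⟨p', d3', d4'⟩, -, d5'⟩ := c2
        obtain ⟨w, hw, hw'⟩ := d5 (b, 0) (by simp)
        obtain ⟨w2, hw2, hw2'⟩ := d5' (b, 0) (by simp)
        have hb : ∀ w, w ∈ bl (b, 0) → w = b := by
          intro w hw
          unfold bl at hw
          rw [Finset.mem_coe, mem_ball] at hw
          simp only [abs_le] at hw
          exact Prod.ext (by push_cast at hw; omega) (by push_cast at hw; omega)
        have e1 := hb w hw'
        have e2 := hb w2 hw2'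
        subst e1
        rw [e2] at hw2
        have hCs : C ⊆ ω ∩ KR (-(2 * k)) 0 0 n := by
          intro v hv
          obtain ⟨f1, ⟨f2, f3⟩, f4⟩ := d1 hv
          rw [hX] at f4
          rw [abs_le] at f4
          exact ⟨f1, ⟨f2, f3⟩, by omega, by omega⟩
        have hCs' : C' ⊆ ω ∩ KR (-(2 * k)) 0 0 n := by
          intro v hv
          obtain ⟨f1, ⟨f2, f3⟩, f4⟩ := d1' hv
          rw [XX_zero, abs_le] at f4
          exact ⟨f1, ⟨f2, f3⟩, by omega, by omega⟩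
        obtain ⟨d6, d7⟩ := d4
        obtain ⟨d6', d7'⟩ := d4'
        rw [hX] at d7
        rw [XX_zero] at d7'
        refine ⟨p, p', d6, d7, d6', d7', hCs d3, ?_⟩
        exact (path_mono hCs (d2 p d3 w hw)).trans (path_mono hCs' (d2' w hw2 p' d3'))
      · exact Or.inr (Or.inr c2)
    · exact Or.inr (Or.inl c1)
  have e7 := p_mono L e6
  have e8 := p_union_le L (K (-(2 * k)) 0 0 n) ((A (-k, 0) n [(b, 0)])ᶜ ∪ (A 0 n [(b, 0)])ᶜ)
  have e9 := p_union_le L (A (-k, 0) n [(b, 0)])ᶜ (A 0 n [(b, 0)])ᶜ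
  rw [L.univ] at e7
  linarith

end Crest.Agent.R144.Qca216
end
end

-- ▼ part R144/Qs3_356
section

/-!
# R144, QRSW (doc 1941): Step II geometry in the form `PS2` of helper216 (helper356)
-/

set_option autoImplicit false

namespace Crest.Agent.R144.Qs356

open Crest.Agent.R144.It844 (P2 adj_iff)
open Crest.Agent.R144.Zg349 (StepIn IsConn)
open Crest.Agent.R144.Rsw867 (path_mono ball mem_ball)
open Crest.Agent.R144.Pst967 (stepIn_symm path_symm)
open Crest.Agent.R144.Qlw216 (XX Rows KR act ro sg IsPl hard rhard Om Bw Tw bl PS2)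

theorem rot_add (u v : P2) : rot (u + v) = rot u + rot v := by
  unfold rot; ext <;> simp only [Prod.fst_add, Prod.snd_add] <;> ring

/-- the three placements -/
def plc (z : P2) (n t : ℕ) (k : Fin 3) (v : P2) : P2 := rot^[(k : ℕ)] (v + off n t) + z

theorem hrow_of {B : Set P2} {t : ℕ} (h : ∃ u v, XX u ≤ -(6 * t) ∧ 6 * t ≤ XX v ∧
    Qlw216.Pth (B ∩ Rows 0 t) u v) : Hrow B 0 t (-(6 * t)) (6 * t) := by
  obtain ⟨u, v, h1, h2, _, h4⟩ := h
  refine ⟨u, v, h1, h2, path_mono ?_ h4⟩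
  rintro w ⟨hw, hw1, hw2⟩
  exact ⟨hw, hw1, by simpa using hw2⟩

theorem slabs_of_hard {ω : Set P2} {z : P2} {n t : ℕ} (h : ∀ k, ω ∈ act (plc z n t k) (hard t)) :
    Slabs z n t ω := by
  refine ⟨?_, ?_, ?_⟩
  · exact hrow_of (h 0)
  · exact hrow_of (h 1)
  · exact hrow_of (h 2)

theorem slabs_of_rhard {ω : Set P2} {z : P2} {n t : ℕ} (h : ∀ k, ω ∈ act (plc z n t k) (rhard t)) :
    Slabs z n t ωᶜ := by
  refine ⟨?_, ?_, ?_⟩
  · exact hrow_of (h 0)
  · exact hrow_of (h 1)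
  · exact hrow_of (h 2)

theorem isPl_plc {z : P2} {n t N : ℕ} (h1 : |z.1| + |z.2| + 4 * (n + 1 + t) ≤ (N : ℤ)) (k : Fin 3) :
    IsPl N (plc z n t k) := by
  have hz1 := abs_nonneg z.1
  have hz2 := abs_nonneg z.2
  have a1 := neg_abs_le z.1
  have a2 := le_abs_self z.1
  have a3 := neg_abs_le z.2
  have a4 := le_abs_self z.2
  have o1 : 0 ≤ (off n t).1 ∧ (off n t).1 ≤ n + 1 + t := by unfold off; simp only; omega
  have o2 : (off n t).2 = -((n : ℤ) + 1 + t) := by unfold off; push_cast; ring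
  have hro : ro = rot := rfl
  refine ⟨k, k.2, 0, by norm_num, rot^[(k : ℕ)] (off n t) + z, ?_, ?_, ?_⟩
  · rw [abs_le]
    fin_cases k
    · show _ ≤ (off n t + z).1 ∧ (off n t + z).1 ≤ _
      simp only [Prod.fst_add]; omega
    · show _ ≤ (rot (off n t) + z).1 ∧ (rot (off n t) + z).1 ≤ _
      unfold rot; simp only [Prod.fst_add]; omega
    · show _ ≤ (rot (rot (off n t)) + z).1 ∧ (rot (rot (off n t)) + z).1 ≤ _
      unfold rot; simp only [Prod.fst_add]; omega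
  · rw [abs_le]
    fin_cases k
    · show _ ≤ (off n t + z).2 ∧ (off n t + z).2 ≤ _
      simp only [Prod.snd_add]; omega
    · show _ ≤ (rot (off n t) + z).2 ∧ (rot (off n t) + z).2 ≤ _
      unfold rot; simp only [Prod.snd_add]; omega
    · show _ ≤ (rot (rot (off n t)) + z).2 ∧ (rot (rot (off n t)) + z).2 ≤ _
      unfold rot; simp only [Prod.snd_add]; omega
  · intro v
    rw [hro]
    unfold plc
    fin_cases k
    · show v + off n t + z = v + (off n t + z)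
      rw [add_assoc]
    · show rot (v + off n t) + z = rot v + (rot (off n t) + z)
      rw [rot_add, add_assoc]
    · show rot (rot (v + off n t)) + z = rot (rot v) + (rot (rot (off n t)) + z)
      rw [rot_add, rot_add, add_assoc]

/-- **Step II geometry in the form consumed by helper216** -/
theorem ps2 : PS2 := by
  intro n t r z hr ht hn hz1 hz2 hx
  have hXX : XX z = 2 * z.1 + z.2 := rfl
  rw [hXX, abs_le] at hx
  have hrt : r + 2 ≤ t := by omega
  refine ⟨plc z r t, fun k => isPl_plc ?_ k, ?_, ?_⟩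
  · rcases abs_cases z.1 with h | h <;> rcases abs_cases z.2 with h' | h' <;> push_cast <;> omega
  · rintro s hs _
    rw [Set.eq_empty_iff_forall_notMem]
    rintro ω ⟨h1, C, hC, hconn, ⟨p, hp, hp'⟩, _, hB⟩
    obtain ⟨x, hx1, hx2⟩ := hB (z, r) (by simp)
    rw [Set.mem_iInter] at h1
    have h2 := slabs_block hrt (slabs_of_rhard h1) (fun w hw => (hC hw).1) (hconn x hx1 p hp)
      (by simpa [bl] using hx2)
    have h3 : p.2 = s.2 ∧ |XX p - XX s| ≤ _ := hp'
    rw [mem_ball] at h2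
    simp only [abs_le] at h2
    push_cast at h2
    omega
  · rintro s s' hs hs' hsx hsx' ω ⟨⟨h1, C, hC, hconn, ⟨p, hp, hp'⟩, _, hB⟩,
      C', hC', hconn', ⟨p', hp1, hp1'⟩, _, hB'⟩
    obtain ⟨x, hx1, hx2⟩ := hB (z, r) (by simp)
    obtain ⟨x', hx1', hx2'⟩ := hB' (z, r) (by simp)
    rw [Set.mem_iInter] at h1
    have h3 : p.2 = s.2 ∧ |XX p - XX s| ≤ _ := hp'
    have h3' : p'.2 = s'.2 ∧ |XX p' - XX s'| ≤ _ := hp1'
    have hout : ∀ q : P2, q.2 = 0 → q ∉ ball z (2 * (r + 1 + t)) := by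
      intro q hq hq'
      rw [mem_ball] at hq'
      simp only [abs_le] at hq'
      push_cast at hq'
      omega
    obtain ⟨L, hL, hLb, hLc⟩ := slabs_join hrt (slabs_of_hard h1) hconn hconn' hx1 hp hx1' hp1
      (by simpa [bl] using hx2) (hout p (by omega)) (by simpa [bl] using hx2') (hout p' (by omega))
    rw [abs_le] at hsx hsx'
    have hsub : C ∪ L ∪ C' ⊆ ω ∩ KR (XX s) (XX s') 0 n := by
      rintro w ((hw | hw) | hw)
      · obtain ⟨h4, h5, h6⟩ := hC hw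
        rw [hs] at h5
        rw [abs_le] at h6
        exact ⟨h4, h5, by omega, by omega⟩
      · have h4 := hLb w hw
        rw [mem_ball] at h4
        simp only [abs_le] at h4
        push_cast at h4
        refine ⟨hL hw, ?_, ?_, ?_⟩
        · show (0 : ℤ) ≤ w.2 ∧ w.2 ≤ 0 + n
          omega
        · unfold XX at *; omega
        · unfold XX at *; omega
      · obtain ⟨h4, h5, h6⟩ := hC' hw
        rw [hs'] at h5
        rw [abs_le] at h6
        exact ⟨h4, h5, by omega, by omega⟩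
    refine ⟨p, p', by omega, h3.2, by omega, h3'.2, hsub (Or.inl (Or.inl hp)), ?_⟩
    exact path_mono hsub (hLc p (Or.inl (Or.inl hp)) p' (Or.inr hp1))

end Crest.Agent.R144.Qs356
end

-- ▼ part R144/Hex2_585
section

/-!
# R144, planar input X2 (Hex) on the triangular lattice (helper585)

* `hex` : in every two-colouring of the parallelogram `Rect x0 x1 y0 y1` there is a left-right walk of
  the first colour or a bottom-top walk of the second colour.
-/

set_option autoImplicit false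

noncomputable section

namespace Crest.Agent.R144.Hex585

open Finset
open Crest.Agent.R144.It844 (P2 adj_iff)
open Crest.Agent.R144.Zg349 (StepIn)
open Crest.Agent.R144.Pst967 (path_symm stepIn_symm)
open Crest.ProbabilityR.HexHeights (Adj)
open Crest.Agent.R161.Topo374 (ind ind_true ind_false zmod2_add_self zmod2_eq_of_add)

/-- parallelogram -/
def Rect (x0 x1 y0 y1 : ℤ) : Set P2 := {w | (x0 ≤ w.1 ∧ w.1 ≤ x1) ∧ y0 ≤ w.2 ∧ w.2 ≤ y1}

/-- mod 2 count of `S`-`T` contacts on the edge `u v` -/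
def ec (s t : P2 → ZMod 2) (u v : P2) : ZMod 2 := s u * t v + t u * s v

theorem tri_zero (s t : P2 → ZMod 2) (u v w : P2) (h0 : ∀ x, s x * t x = 0)
    (h : ∀ x y z : P2, (x = u ∨ x = v ∨ x = w) → (y = u ∨ y = v ∨ y = w) → (z = u ∨ z = v ∨ z = w) →
      s x = 1 → t y = 1 → s z = 1 ∨ t z = 1) :
    ec s t u v + ec s t v w + ec s t u w = 0 := by
  have hu := h0 u
  have hv := h0 v
  have hw := h0 w
  have h1 := h u v w (Or.inl rfl) (Or.inr (Or.inl rfl)) (Or.inr (Or.inr rfl))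
  have h2 := h v u w (Or.inr (Or.inl rfl)) (Or.inl rfl) (Or.inr (Or.inr rfl))
  have h3 := h u w v (Or.inl rfl) (Or.inr (Or.inr rfl)) (Or.inr (Or.inl rfl))
  have h4 := h w u v (Or.inr (Or.inr rfl)) (Or.inl rfl) (Or.inr (Or.inl rfl))
  have h5 := h v w u (Or.inr (Or.inl rfl)) (Or.inr (Or.inr rfl)) (Or.inl rfl)
  have h6 := h w v u (Or.inr (Or.inr rfl)) (Or.inr (Or.inl rfl)) (Or.inl rfl)
  unfold ec
  generalize s u = a at *
  generalize s v = b at *
  generalize s w = c at *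
  generalize t u = d at *
  generalize t v = e at *
  generalize t w = f at *
  clear h h0
  have z2 : ∀ x : ZMod 2, x = 0 ∨ x = 1 := by decide
  rcases z2 a with rfl | rfl <;> rcases z2 b with rfl | rfl <;> rcases z2 c with rfl | rfl <;>
    rcases z2 d with rfl | rfl <;> rcases z2 e with rfl | rfl <;> rcases z2 f with rfl | rfl <;>
    first
    | rfl
    | (exfalso; simp_all)

theorem ind_eq_one {p : Prop} : ind p = 1 ↔ p := by
  constructor
  · intro h
    by_contra hp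
    rw [ind_false hp] at h
    exact absurd h (by decide)
  · exact ind_true

/-- **X2** (Hex). -/
theorem hex (A : Set P2) {x0 x1 y0 y1 : ℤ} (hx : x0 ≤ x1) (hy : y0 ≤ y1) :
    (∃ a b : P2, a.1 = x0 ∧ b.1 = x1 ∧ a ∈ A ∩ Rect x0 x1 y0 y1 ∧ b ∈ A ∩ Rect x0 x1 y0 y1 ∧
      Path (A ∩ Rect x0 x1 y0 y1) a b) ∨
    (∃ p q : P2, p.2 = y0 ∧ q.2 = y1 ∧ p ∈ Aᶜ ∩ Rect x0 x1 y0 y1 ∧ q ∈ Aᶜ ∩ Rect x0 x1 y0 y1 ∧
      Path (Aᶜ ∩ Rect x0 x1 y0 y1) p q) := by
  by_contra hcon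
  rw [not_or] at hcon
  obtain ⟨hL, hB⟩ := hcon
  set R := Rect x0 x1 y0 y1 with hR
  -- reached from the left in `A`
  set S : P2 → Prop := fun v => v ∈ A ∩ R ∧ ∃ a : P2, a.1 = x0 ∧ a ∈ A ∩ R ∧ Path (A ∩ R) a v with hS
  set T : P2 → Prop := fun v => v ∈ Aᶜ ∩ R ∧ ∃ a : P2, a.2 = y0 ∧ a ∈ Aᶜ ∩ R ∧ Path (Aᶜ ∩ R) a v
    with hT
  have hSr : ∀ v, S v → v.1 < x1 := by
    rintro v ⟨h1, a, h2, h3, h4⟩
    rcases lt_or_eq_of_le h1.2.1.2 with h | h
    · exact h
    · exact absurd ⟨a, v, h2, h, h3, h1, h4⟩ hL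
  have hTt : ∀ v, T v → v.2 < y1 := by
    rintro v ⟨h1, a, h2, h3, h4⟩
    rcases lt_or_eq_of_le h1.2.2.2 with h | h
    · exact h
    · exact absurd ⟨a, v, h2, h, h3, h1, h4⟩ hB
  have hSn : ∀ u v, S u → v ∈ A ∩ R → Adj u v → S v := by
    rintro u v ⟨h1, a, h2, h3, h4⟩ hv hadj
    exact ⟨hv, a, h2, h3, h4.tail ⟨h1, hv, hadj⟩⟩
  have hTn : ∀ u v, T u → v ∈ Aᶜ ∩ R → Adj u v → T v := by
    rintro u v ⟨h1, a, h2, h3, h4⟩ hv hadj
    exact ⟨hv, a, h2, h3, h4.tail ⟨h1, hv, hadj⟩⟩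
  have hSl : ∀ v : P2, v ∈ A ∩ R → v.1 = x0 → S v := fun v hv h => ⟨hv, v, h, hv, .refl⟩
  have hTb : ∀ v : P2, v ∈ Aᶜ ∩ R → v.2 = y0 → T v := fun v hv h => ⟨hv, v, h, hv, .refl⟩
  -- labels
  set Ls : P2 → Prop := fun v => v.1 = x0 - 1 ∨ S v with hLs
  set Lt : P2 → Prop := fun v => (v.2 = y0 - 1 ∧ x0 ≤ v.1 ∧ v.1 ≤ x1) ∨ T v with hLt
  set s : P2 → ZMod 2 := fun v => ind (Ls v) with hs
  set t : P2 → ZMod 2 := fun v => ind (Lt v) with ht
  have hdis : ∀ v, ¬ (Ls v ∧ Lt v) := by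
    rintro v ⟨h1 | h1, h2 | h2⟩
    · omega
    · have := h2.1.2.1.1; omega
    · have := h1.1.2.2.1; omega
    · exact h2.1.1 h1.1.1
  have h0 : ∀ v, s v * t v = 0 := by
    intro v
    by_cases h1 : Ls v
    · have h2 : ¬ Lt v := fun h => hdis v ⟨h1, h⟩
      simp only [hs, ht, ind_false h2, mul_zero]
    · simp only [hs, ht, ind_false h1, zero_mul]
  -- the key relation for mutually adjacent sites in the enlarged parallelogram
  have key : ∀ u v w : P2, (x0 - 1 ≤ w.1 ∧ w.1 ≤ x1 + 1) → (y0 - 1 ≤ w.2 ∧ w.2 ≤ y1 + 1) →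
      (u = w ∨ Adj u w) → (v = w ∨ Adj v w) → Ls u → Lt v → Ls w ∨ Lt w := by
    intro u v w h1 h2 hu hv hsu htv
    rcases hu with rfl | hu
    · exact Or.inl hsu
    rcases hv with rfl | hv
    · exact Or.inr htv
    by_cases hwR : w ∈ R
    · by_cases hwA : w ∈ A
      · left
        right
        rcases hsu with h | h
        · refine hSl w ⟨hwA, hwR⟩ ?_
          have h3 := hwR.1.1
          have h4 := adj_iff.1 hu
          rcases h4 with h4 | h4 | h4 | h4 | h4 | h4 <;> rw [h4] at h3 ⊢ <;> simp only at h3 ⊢ <;> omega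
        · exact hSn u w h ⟨hwA, hwR⟩ hu
      · right
        right
        rcases htv with h | h
        · refine hTb w ⟨hwA, hwR⟩ ?_
          have h3 := hwR.2.1
          have h4 := adj_iff.1 hv
          rcases h4 with h4 | h4 | h4 | h4 | h4 | h4 <;> rw [h4] at h3 ⊢ <;> simp only at h3 ⊢ <;> omega
        · exact hTn v w h ⟨hwA, hwR⟩ hv
    · -- `w` is in the extra frame
      have h3 : ¬ ((x0 ≤ w.1 ∧ w.1 ≤ x1) ∧ y0 ≤ w.2 ∧ w.2 ≤ y1) := hwR
      by_cases hl : w.1 = x0 - 1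
      · exact Or.inl (Or.inl hl)
      by_cases hr : w.1 = x1 + 1
      · exfalso
        have h4 : u.1 ≤ x1 - 1 := by
          rcases hsu with h | h
          · omega
          · have := hSr u h; omega
        rcases adj_iff.1 hu with h5 | h5 | h5 | h5 | h5 | h5 <;> rw [h5] at hr <;> simp only at hr <;>
          omega
      by_cases hb : w.2 = y0 - 1
      · exact Or.inr (Or.inl ⟨hb, by omega, by omega⟩)
      · exfalso
        have hw : w.2 = y1 + 1 := by omega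
        have h4 : v.2 ≤ y1 - 1 := by
          rcases htv with h | h
          · omega
          · have := hTt v h; omega
        rcases adj_iff.1 hv with h5 | h5 | h5 | h5 | h5 | h5 <;> rw [h5] at hw <;> simp only at hw <;>
          omega
  -- the two triangles of a lozenge
  have htri : ∀ i j : ℤ, x0 - 1 ≤ i → i ≤ x1 → y0 - 1 ≤ j → j ≤ y1 →
      ec s t (i, j) (i + 1, j) + ec s t (i, j) (i, j + 1) + ec s t (i, j + 1) (i + 1, j + 1) +
        ec s t (i + 1, j) (i + 1, j + 1) = 0 := by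
    intro i j h1 h2 h3 h4
    have a1 : Adj (i, j) (i + 1, j) := adj_iff.2 (by simp)
    have a2 : Adj (i, j) (i, j + 1) := adj_iff.2 (by simp)
    have a3 : Adj (i + 1, j) (i, j + 1) := adj_iff.2 (by simp)
    have a4 : Adj (i, j + 1) (i + 1, j + 1) := adj_iff.2 (by simp)
    have a5 : Adj (i + 1, j) (i + 1, j + 1) := adj_iff.2 (by simp)
    have sy : ∀ {u v : P2}, Adj u v → Adj v u := fun {u v} h =>
      (stepIn_symm (S := Set.univ) ⟨trivial, trivial, h⟩).2.2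
    have up := tri_zero s t (i, j) (i + 1, j) (i, j + 1) h0 (by
      intro x y z hx hy hz hsx hty
      have e1 : Ls x := ind_eq_one.1 hsx
      have e2 : Lt y := ind_eq_one.1 hty
      have hz1 : (x0 - 1 ≤ z.1 ∧ z.1 ≤ x1 + 1) ∧ (y0 - 1 ≤ z.2 ∧ z.2 ≤ y1 + 1) := by
        rcases hz with rfl | rfl | rfl <;> simp only <;> omega
      have hxz : x = z ∨ Adj x z := by
        rcases hx with rfl | rfl | rfl <;> rcases hz with rfl | rfl | rfl <;>
          first
          | exact Or.inl rfl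
          | exact Or.inr a1
          | exact Or.inr a2
          | exact Or.inr a3
          | exact Or.inr (sy a1)
          | exact Or.inr (sy a2)
          | exact Or.inr (sy a3)
      have hyz : y = z ∨ Adj y z := by
        rcases hy with rfl | rfl | rfl <;> rcases hz with rfl | rfl | rfl <;>
          first
          | exact Or.inl rfl
          | exact Or.inr a1
          | exact Or.inr a2
          | exact Or.inr a3
          | exact Or.inr (sy a1)
          | exact Or.inr (sy a2)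
          | exact Or.inr (sy a3)
      rcases key x y z hz1.1 hz1.2 hxz hyz e1 e2 with h | h
      · exact Or.inl (ind_true h)
      · exact Or.inr (ind_true h))
    have dn := tri_zero s t (i + 1, j) (i, j + 1) (i + 1, j + 1) h0 (by
      intro x y z hx hy hz hsx hty
      have e1 : Ls x := ind_eq_one.1 hsx
      have e2 : Lt y := ind_eq_one.1 hty
      have hz1 : (x0 - 1 ≤ z.1 ∧ z.1 ≤ x1 + 1) ∧ (y0 - 1 ≤ z.2 ∧ z.2 ≤ y1 + 1) := by
        rcases hz with rfl | rfl | rfl <;> simp only <;> omega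
      have hxz : x = z ∨ Adj x z := by
        rcases hx with rfl | rfl | rfl <;> rcases hz with rfl | rfl | rfl <;>
          first
          | exact Or.inl rfl
          | exact Or.inr a3
          | exact Or.inr a4
          | exact Or.inr a5
          | exact Or.inr (sy a3)
          | exact Or.inr (sy a4)
          | exact Or.inr (sy a5)
      have hyz : y = z ∨ Adj y z := by
        rcases hy with rfl | rfl | rfl <;> rcases hz with rfl | rfl | rfl <;>
          first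
          | exact Or.inl rfl
          | exact Or.inr a3
          | exact Or.inr a4
          | exact Or.inr a5
          | exact Or.inr (sy a3)
          | exact Or.inr (sy a4)
          | exact Or.inr (sy a5)
      rcases key x y z hz1.1 hz1.2 hxz hyz e1 e2 with h | h
      · exact Or.inl (ind_true h)
      · exact Or.inr (ind_true h))
    have h5 := zmod2_add_self (ec s t (i + 1, j) (i, j + 1))
    generalize ec s t (i, j) (i + 1, j) = e1 at *
    generalize ec s t (i + 1, j) (i, j + 1) = e2 at *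
    generalize ec s t (i, j) (i, j + 1) = e3 at *
    generalize ec s t (i, j + 1) (i + 1, j + 1) = e4 at *
    generalize ec s t (i + 1, j) (i + 1, j + 1) = e5 at *
    clear h5
    revert up dn
    revert e1 e2 e3 e4 e5
    decide
  -- vertical contacts on the left and on the right vanish
  have hvl : ∀ j, ec s t (x0 - 1, j) (x0 - 1, j + 1) = 0 := by
    intro j
    have h1 : ∀ j, t (x0 - 1, j) = 0 := by
      intro j
      apply ind_false
      rintro (h | h)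
      · simp only at h; omega
      · have := h.1.2.1.1; simp only at this; omega
    simp only [ec, h1, mul_zero, zero_mul, add_zero]
  have hvr : ∀ j, ec s t (x1 + 1, j) (x1 + 1, j + 1) = 0 := by
    intro j
    have h1 : ∀ j, t (x1 + 1, j) = 0 := by
      intro j
      apply ind_false
      rintro (h | h)
      · simp only at h; omega
      · have := h.1.2.1.2; simp only at this; omega
    simp only [ec, h1, mul_zero, zero_mul, add_zero]
  set H : ℤ → ZMod 2 := fun j => ∑ i ∈ Icc (x0 - 1) x1, ec s t (i, j) (i + 1, j) with hH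
  have hstep : ∀ j, y0 - 1 ≤ j → j ≤ y1 → H j = H (j + 1) := by
    intro j h1 h2
    apply zmod2_eq_of_add
    simp only [hH]
    rw [← Finset.sum_add_distrib]
    have h3 : ∀ i ∈ Icc (x0 - 1) x1, ec s t (i, j) (i + 1, j) + ec s t (i, j + 1) (i + 1, j + 1) =
        (fun i => ec s t (i, j) (i, j + 1)) i + (fun i => ec s t (i, j) (i, j + 1)) (i + 1) := by
      intro i hi
      rw [mem_Icc] at hi
      have h4 := htri i j hi.1 hi.2 h1 h2
      simp only
      generalize ec s t (i, j) (i + 1, j) = e1 at *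
      generalize ec s t (i, j) (i, j + 1) = e3 at *
      generalize ec s t (i, j + 1) (i + 1, j + 1) = e4 at *
      generalize ec s t (i + 1, j) (i + 1, j + 1) = e5 at *
      revert h4
      revert e1 e3 e4 e5
      decide
    rw [Finset.sum_congr rfl h3]
    have h5 : ∀ (f : ℤ → ZMod 2) (a : ℤ) (n : ℕ), ∑ i ∈ Icc a (a + n), (f i + f (i + 1)) =
        f a + f (a + n + 1) := by
      intro f a n
      induction n with
      | zero => simp
      | succ n ih =>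
        have : Icc a (a + ((n + 1 : ℕ) : ℤ)) = insert (a + n + 1) (Icc a (a + n)) := by
          ext x
          simp only [mem_Icc, mem_insert]
          push_cast
          omega
        rw [this, Finset.sum_insert (by simp), ih]
        push_cast
        have e := zmod2_add_self (f (a + n + 1))
        rw [show a + ((n : ℤ) + 1) + 1 = a + n + 1 + 1 by ring]
        calc f (a + n + 1) + f (a + n + 1 + 1) + (f a + f (a + n + 1))
            = f a + f (a + n + 1 + 1) + (f (a + n + 1) + f (a + n + 1)) := by ring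
          _ = _ := by rw [e, add_zero]
    obtain ⟨n, hn⟩ : ∃ n : ℕ, x1 = x0 - 1 + n := ⟨(x1 - (x0 - 1)).toNat, by omega⟩
    have h6 := h5 (fun i => ec s t (i, j) (i, j + 1)) (x0 - 1) n
    rw [← hn] at h6
    rw [h6]
    show ec s t (x0 - 1, j) (x0 - 1, j + 1) + ec s t (x1 + 1, j) (x1 + 1, j + 1) = 0
    rw [hvl j, hvr j, add_zero]
  have hconst : ∀ n : ℕ, y0 - 1 + n ≤ y1 + 1 → H (y0 - 1) = H (y0 - 1 + n) := by
    intro n
    induction n with
    | zero => intro _; simp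
    | succ n ih =>
      intro h
      push_cast at h ⊢
      rw [ih (by omega), hstep (y0 - 1 + n) (by omega) (by omega)]
      congr 1
      ring
  -- the top row
  have htop : H (y1 + 1) = 0 := by
    simp only [hH]
    apply Finset.sum_eq_zero
    intro i _
    have h1 : ∀ i, t (i, y1 + 1) = 0 := by
      intro i
      apply ind_false
      rintro (h | h)
      · simp only at h; omega
      · have := hTt _ h; simp only at this; omega
    simp only [ec, h1, mul_zero, zero_mul, add_zero]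
  -- the bottom row
  have hbot : H (y0 - 1) = 1 := by
    simp only [hH]
    have h1 : ∀ i, x0 ≤ i → s (i, y0 - 1) = 0 := by
      intro i hi
      apply ind_false
      rintro (h | h)
      · simp only at h; omega
      · have := h.1.2.2.1; simp only at this; omega
    have h2 : s (x0 - 1, y0 - 1) = 1 := ind_true (Or.inl rfl)
    have h3 : t (x0, y0 - 1) = 1 := ind_true (Or.inl ⟨rfl, le_rfl, hx⟩)
    have h4 : t (x0 - 1, y0 - 1) = 0 := by
      apply ind_false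
      rintro (h | h)
      · simp only at h; omega
      · have := h.1.2.1.1; simp only at this; omega
    rw [Finset.sum_eq_single_of_mem (x0 - 1) (by rw [mem_Icc]; omega)]
    · have : x0 - 1 + 1 = x0 := by ring
      rw [this]
      simp only [ec, h2, h3, h4, one_mul, zero_mul, add_zero]
    · intro i hi hne
      rw [mem_Icc] at hi
      have e1 := h1 i (by omega)
      have e2 := h1 (i + 1) (by omega)
      simp only [ec, e1, e2, mul_zero, zero_mul, add_zero]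
  have h1 := hconst (y1 + 1 - (y0 - 1)).toNat (by omega)
  have h2 : y0 - 1 + ((y1 + 1 - (y0 - 1)).toNat : ℤ) = y1 + 1 := by omega
  rw [h2, hbot, htop] at h1
  exact absurd h1 (by decide)

/-- Hex with the colours exchanged. -/
theorem hex' (A : Set P2) {x0 x1 y0 y1 : ℤ} (hx : x0 ≤ x1) (hy : y0 ≤ y1) :
    (∃ p q : P2, p.2 = y0 ∧ q.2 = y1 ∧ p ∈ A ∩ Rect x0 x1 y0 y1 ∧ q ∈ A ∩ Rect x0 x1 y0 y1 ∧
      Path (A ∩ Rect x0 x1 y0 y1) p q) ∨
    (∃ a b : P2, a.1 = x0 ∧ b.1 = x1 ∧ a ∈ Aᶜ ∩ Rect x0 x1 y0 y1 ∧ b ∈ Aᶜ ∩ Rect x0 x1 y0 y1 ∧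
      Path (Aᶜ ∩ Rect x0 x1 y0 y1) a b) := by
  have h := hex Aᶜ hx hy
  rw [compl_compl] at h
  exact h.symm


end Crest.Agent.R144.Hex585
end
end

-- ▼ part R144/Qc_277
section

/-!
# R144, R1 (doc 1941): (3.2), a bottom-top crossing between two windows (helper277)

* `crossing_pair` : if red long crossings have probability `≤ x ^ n` then some pair of windows (bottom,
  top) is joined with probability `≥ 1 - x`;
* `hd_of_tilted` : tilted crossings in both directions build a long crossing;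
* `aligned` : (3.2).
-/

set_option autoImplicit false

noncomputable section

namespace Crest.Agent.R144.Qa277

open Crest.Agent.R144.It844 (P2 adj_iff adj_symm)
open Crest.Agent.R144.Zg349 (StepIn IsConn)
open Crest.Agent.R144.Hex585 (Rect)

/-- red long crossing -/
def Rh (j0 h a l : ℤ) : Set (Set P2) :=
  {ω | ∃ u v : P2, XX u ≤ a - l ∧ a + l ≤ XX v ∧ Pth (ωᶜ ∩ Rw j0 h) u v}

/-- bottom windows -/
def cb (h w : ℕ) (k : ℕ) : ℤ := -8 * h + w + 2 * w * k
/-- top windows -/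
def ct (h w : ℕ) (k : ℕ) : ℤ := -7 * h + w + 2 * w * k

theorem window_index {h w : ℕ} (hw : 1 ≤ w) {z : ℤ} (h0 : 0 ≤ z) (h1 : z ≤ 14 * h) :
    ∃ k : ℕ, k < 7 * h / w + 1 ∧ |z - (w + 2 * w * k)| ≤ w := by
  obtain ⟨m, rfl⟩ := Int.eq_ofNat_of_zero_le h0
  have h1' : m ≤ 14 * h := by exact_mod_cast h1
  refine ⟨m / (2 * w), ?_, ?_⟩
  · have h2 : m / (2 * w) ≤ (14 * h) / (2 * w) := Nat.div_le_div_right h1'
    have h3 : (14 * h) / (2 * w) = 7 * h / w := by
      rw [show 14 * h = 2 * (7 * h) by ring]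
      exact Nat.mul_div_mul_left _ _ (by norm_num)
    omega
  · have h2 := Nat.div_add_mod m (2 * w)
    have h3 : m % (2 * w) < 2 * w := Nat.mod_lt _ (by omega)
    set d := m / (2 * w)
    set r := m % (2 * w)
    have h4 : (m : ℤ) = 2 * w * d + r := by exact_mod_cast h2.symm
    rw [h4, abs_le]
    constructor <;> omega

theorem crossing_pair {p : Set (Set P2) → ℝ} (L : IsLw p) {h w : ℕ} (hw : 1 ≤ w) (hwh : w ≤ h)
    {x : ℝ} (hx0 : 0 ≤ x) (hx1 : x ≤ 1) {n : ℕ}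
    (hn : (7 * h / w + 1) * (7 * h / w + 1) ≤ n) (hr : p (Rh 0 h 0 (6 * h)) ≤ x ^ n) :
    ∃ b t : ℤ, |b| + 1 ≤ 8 * h ∧ |t| ≤ 8 * h ∧
      1 - x ≤ p (Cn (Bx 0 h 0 (8 * h)) (Win 0 b w) (Win h t w)) := by
  classical
  set n1 := 7 * h / w + 1 with hn1
  set s : Finset (ℕ × ℕ) := Finset.range n1 ×ˢ Finset.range n1 with hs
  set E : ℕ × ℕ → Set (Set P2) := fun i =>
    Cn (Bx 0 h 0 (8 * h)) (Win 0 (cb h w i.1) w) (Win h (ct h w i.2) w) with hE
  have hcard : s.card = n1 * n1 := by rw [hs, Finset.card_product, Finset.card_range]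
  have hcov : (⋃ i ∈ s, E i)ᶜ ⊆ Rh 0 h 0 (6 * h) := by
    intro ω hω
    rcases Crest.Agent.R144.Hex585.hex' ω (x0 := -4 * (h : ℤ)) (x1 := 3 * (h : ℤ)) (y0 := 0)
      (y1 := (h : ℤ)) (by omega) (by omega) with ⟨u, v, hu, hv, hu', hv', hp⟩ |
      ⟨u, v, hu, hv, hu', hv', hp⟩
    · exfalso
      apply hω
      obtain ⟨⟨hu1, hu2⟩, hu3⟩ := hu'.2
      obtain ⟨⟨hv1, hv2⟩, hv3⟩ := hv'.2
      obtain ⟨k, hk, hk'⟩ := window_index (h := h) hw (z := XX u + 8 * h) (by simp only [XX]; omega)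
        (by simp only [XX]; omega)
      obtain ⟨l, hl, hl'⟩ := window_index (h := h) hw (z := XX v + 7 * h) (by simp only [XX]; omega)
        (by simp only [XX]; omega)
      simp only [Set.mem_iUnion]
      refine ⟨(k, l), by rw [hs]; simp [hk, hl, hn1], u, ⟨hu, ?_⟩, v, ⟨hv, ?_⟩, ?_⟩
      · rw [show XX u - cb h w k = XX u + 8 * h - (w + 2 * w * k) by simp only [cb]; ring]
        exact hk'
      · rw [show XX v - ct h w l = XX v + 7 * h - (w + 2 * w * l) by simp only [ct]; ring]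
        exact hl'
      · refine Pth.mono (S := ω ∩ Rect (-4 * h) (3 * h) 0 h) ?_ ⟨hu', hp⟩
        rintro z ⟨hz, ⟨h1, h2⟩, h3, h4⟩
        refine ⟨hz, h3, by omega, ?_⟩
        rw [abs_le]
        simp only [XX]
        constructor <;> omega
    · refine ⟨u, v, ?_, ?_, ?_⟩
      · obtain ⟨⟨hu1, hu2⟩, hu3⟩ := hu'.2
        simp only [XX]
        omega
      · obtain ⟨⟨hu1, hu2⟩, hu3⟩ := hv'.2
        simp only [XX]
        omega
      · refine Pth.mono (S := ωᶜ ∩ Rect (-4 * h) (3 * h) 0 h) ?_ ⟨hu', hp⟩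
        rintro z ⟨hz, ⟨h1, h2⟩, h3, h4⟩
        exact ⟨hz, h3, by omega⟩
  have h1 : 1 - x ^ s.card ≤ p (⋃ i ∈ s, E i) := by
    have h2 := L.mono hcov
    rw [L.compl] at h2
    have h3 : x ^ n ≤ x ^ s.card := pow_le_pow_of_le_one hx0 hx1 (by rw [hcard]; exact hn)
    linarith
  have hne : s.Nonempty := ⟨(0, 0), by rw [hs]; simp [hn1]⟩
  obtain ⟨i, hi, h2⟩ := L.sqrt_trick s E (fun i _ => cn_upper _ _ _) hx0 h1 hne
  have hi' : i.1 < n1 ∧ i.2 < n1 := by
    rw [hs] at hi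
    simpa using hi
  have hb : ∀ k < n1, 2 * (w : ℤ) * k ≤ 14 * h := by
    intro k hk
    have h3 : k ≤ 7 * h / w := by omega
    have h4 : w * k ≤ 7 * h := by
      calc w * k ≤ w * (7 * h / w) := Nat.mul_le_mul_left _ h3
        _ ≤ 7 * h := Nat.mul_div_le _ _
    have h5 : (w : ℤ) * k ≤ 7 * h := by exact_mod_cast h4
    nlinarith
  have hb0 : ∀ k : ℕ, 0 ≤ 2 * (w : ℤ) * k := fun k => by positivity
  refine ⟨cb h w i.1, ct h w i.2, ?_, ?_, h2⟩
  · have h3 := hb _ hi'.1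
    have h4 := hb0 i.1
    have h5 : (w : ℤ) ≤ h := by exact_mod_cast hwh
    have h6 : (1 : ℤ) ≤ w := by exact_mod_cast hw
    simp only [cb]
    have h7 : |(-8 * h + w + 2 * w * i.1 : ℤ)| ≤ 8 * h - 1 := by
      rw [abs_le]
      constructor <;> omega
    omega
  · have h3 := hb _ hi'.2
    have h4 := hb0 i.2
    have h5 : (w : ℤ) ≤ h := by exact_mod_cast hwh
    simp only [ct]
    rw [abs_le]
    constructor <;> omega

/-- tilted crossings in both directions build a long crossing -/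
theorem hd_of_tilted {h a l x0 s δ w : ℤ} {N : ℕ} {ω : Set P2} (hs : 2 * w < s)
    (hδ : s + w < δ) (h1 : x0 + s - δ + w ≤ a - l) (h2 : a + l ≤ x0 + N * s + δ - w)
    (hP : ∀ k ≤ N, ω ∈ Cn (Rw 0 h) (Win 0 (x0 + (k : ℤ) * s) w) (Win h (x0 + (k : ℤ) * s + δ) w))
    (hQ : ∀ k ≤ N, ω ∈ Cn (Rw 0 h) (Win 0 (x0 + (k : ℤ) * s + s) w)
      (Win h (x0 + (k : ℤ) * s + s - δ) w)) :
    ω ∈ Hd 0 h a l := by
  classical
  have hP' : ∀ k : ℕ, ∃ u v : P2, k ≤ N → (u.2 = 0 ∧ |XX u - (x0 + (k : ℤ) * s)| ≤ w) ∧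
      (v.2 = h ∧ |XX v - (x0 + (k : ℤ) * s + δ)| ≤ w) ∧ Pth (ω ∩ Rw 0 h) u v := by
    intro k
    by_cases hk : k ≤ N
    · obtain ⟨u, hu, v, hv, hp⟩ := hP k hk
      exact ⟨u, v, fun _ => ⟨hu, hv, hp⟩⟩
    · exact ⟨0, 0, fun h => absurd h hk⟩
  have hQ' : ∀ k : ℕ, ∃ u v : P2, k ≤ N → (u.2 = 0 ∧ |XX u - (x0 + (k : ℤ) * s + s)| ≤ w) ∧
      (v.2 = h ∧ |XX v - (x0 + (k : ℤ) * s + s - δ)| ≤ w) ∧ Pth (ω ∩ Rw 0 h) u v := by
    intro k
    by_cases hk : k ≤ N
    · obtain ⟨u, hu, v, hv, hp⟩ := hQ k hk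
      exact ⟨u, v, fun _ => ⟨hu, hv, hp⟩⟩
    · exact ⟨0, 0, fun h => absurd h hk⟩
  choose P Q hPQ using hP'
  choose P' Q' hPQ' using hQ'
  have hin : InRows (ω ∩ Rw 0 h) 0 h := by
    intro v hv
    have h3 : 0 ≤ v.2 ∧ v.2 ≤ 0 + h := hv.2
    rw [zero_add] at h3
    exact h3
  have key := chain_top hin N P Q P' Q' (fun k hk => (hPQ k hk).2.2)
    (fun k hk => (hPQ' k hk).2.2) (fun k hk => (hPQ k hk).1.1) (fun k hk => (hPQ k hk).2.1.1)
    (fun k hk => (hPQ' k hk).1.1) (fun k hk => (hPQ' k hk).2.1.1)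
    (fun k hk => by
      have e1 := abs_le.1 (hPQ k hk).1.2
      have e2 := abs_le.1 (hPQ' k hk).1.2
      omega)
    (fun k hk => by
      have e1 := abs_le.1 (hPQ k hk).2.1.2
      have e2 := abs_le.1 (hPQ' k hk).2.1.2
      omega)
    (fun k hk => by
      have e1 := abs_le.1 (hPQ k (by omega)).2.1.2
      have e2 := abs_le.1 (hPQ' k (by omega)).2.1.2
      have e3 := abs_le.1 (hPQ' (k + 1) hk).2.1.2
      push_cast at e3
      rw [add_mul, one_mul] at e3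
      constructor <;> omega)
  have e1 := abs_le.1 (hPQ' 0 (Nat.zero_le _)).2.1.2
  have e2 := abs_le.1 (hPQ N le_rfl).2.1.2
  refine ⟨Q' 0, ?_, Q N, ?_, key⟩
  · show XX (Q' 0) ≤ a - l
    push_cast at e1
    rw [zero_mul] at e1
    omega
  · show a + l ≤ XX (Q N)
    omega

/-- an integer of given parity just below `y` -/
theorem exists_parity (y b : ℤ) : ∃ z, y - 1 ≤ z ∧ z ≤ y ∧ (z - b) % 2 = 0 := by
  rcases Int.emod_two_eq_zero_or_one (y - b) with h | h
  · exact ⟨y, by omega, le_rfl, h⟩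
  · exact ⟨y - 1, le_rfl, by omega, by omega⟩

theorem tilted_prob {p : Set (Set P2) → ℝ} (L : IsLw p) {h w N : ℕ} {δ b Z : ℤ} {x' : ℝ}
    (hw : 1 ≤ w) (hδ : 5 * (w : ℤ) < δ) (hN : 12 * h + (2 * w + 2) ≤ N * (2 * w + 2))
    (hZ : ((N : ℤ) + 1) * (2 * w + 2) ≤ Z) (hZ' : 6 * (h : ℤ) + 3 * w + 3 ≤ Z)
    (hA : ∀ z : ℤ, (z - b) % 2 = 0 → |z| ≤ Z →
      1 - x' ≤ p (Cn (Rw 0 h) (Win 0 z w) (Win h (z + δ) w)))
    (hB : ∀ z : ℤ, (z - b) % 2 = 0 → |z| ≤ Z →
      1 - x' ≤ p (Cn (Rw 0 h) (Win 0 z w) (Win h (z - δ) w))) :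
    1 - 2 * (N + 1) * x' ≤ p (Hd 0 h 0 (6 * h)) := by
  classical
  obtain ⟨x0, hx1, hx2, hx3⟩ := exists_parity (-(6 * (h : ℤ)) - (2 * w + 2) - w) b
  set s : ℤ := 2 * w + 2 with hs
  have hN' : 12 * (h : ℤ) + s ≤ N * s := by rw [hs]; exact_mod_cast hN
  have hks : ∀ k : ℕ, k ≤ N → (k : ℤ) * s ≤ N * s := fun k hk =>
    mul_le_mul_of_nonneg_right (by exact_mod_cast hk) (by omega)
  have hks0 : ∀ k : ℕ, 0 ≤ (k : ℤ) * s := fun k => mul_nonneg (by positivity) (by omega)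
  rw [add_mul, one_mul] at hZ
  have hpar : ∀ k : ℕ, (x0 + (k : ℤ) * s - b) % 2 = 0 := by
    intro k
    have : (k : ℤ) * s = 2 * (k * (w + 1)) := by rw [hs]; ring
    rw [this]
    omega
  have hpar' : ∀ k : ℕ, (x0 + (k : ℤ) * s + s - b) % 2 = 0 := by
    intro k
    have := hpar k
    omega
  set EP : ℕ → Set (Set P2) := fun k =>
    Cn (Rw 0 h) (Win 0 (x0 + (k : ℤ) * s) w) (Win h (x0 + (k : ℤ) * s + δ) w) with hEP
  set EQ : ℕ → Set (Set P2) := fun k =>
    Cn (Rw 0 h) (Win 0 (x0 + (k : ℤ) * s + s) w) (Win h (x0 + (k : ℤ) * s + s - δ) w) with hEQ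
  have hP : ∀ k ≤ N, 1 - p (EP k) ≤ x' := by
    intro k hk
    have h1 := hks k hk
    have h2 := hks0 k
    have := hA (x0 + (k : ℤ) * s) (hpar k) (by rw [abs_le]; constructor <;> omega)
    linarith
  have hQ : ∀ k ≤ N, 1 - p (EQ k) ≤ x' := by
    intro k hk
    have h1 := hks k hk
    have h2 := hks0 k
    have := hB (x0 + (k : ℤ) * s + s) (hpar' k) (by rw [abs_le]; constructor <;> omega)
    linarith
  have h1 := L.biInter_ge (Finset.range (N + 1)) EP
  have h2 := L.biInter_ge (Finset.range (N + 1)) EQ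
  have h3 : ∑ i ∈ Finset.range (N + 1), (1 - p (EP i)) ≤ (N + 1) * x' := by
    calc ∑ i ∈ Finset.range (N + 1), (1 - p (EP i)) ≤ ∑ i ∈ Finset.range (N + 1), x' :=
          Finset.sum_le_sum fun i hi => hP i (by simpa [Nat.lt_succ_iff] using hi)
      _ = (N + 1) * x' := by rw [Finset.sum_const, Finset.card_range, nsmul_eq_mul]; push_cast; ring
  have h4 : ∑ i ∈ Finset.range (N + 1), (1 - p (EQ i)) ≤ (N + 1) * x' := by
    calc ∑ i ∈ Finset.range (N + 1), (1 - p (EQ i)) ≤ ∑ i ∈ Finset.range (N + 1), x' :=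
          Finset.sum_le_sum fun i hi => hQ i (by simpa [Nat.lt_succ_iff] using hi)
      _ = (N + 1) * x' := by rw [Finset.sum_const, Finset.card_range, nsmul_eq_mul]; push_cast; ring
  have h5 := L.inter_ge (⋂ i ∈ Finset.range (N + 1), EP i) (⋂ i ∈ Finset.range (N + 1), EQ i)
  have h6 : (⋂ i ∈ Finset.range (N + 1), EP i) ∩ (⋂ i ∈ Finset.range (N + 1), EQ i) ⊆
      Hd 0 h 0 (6 * h) := by
    rintro ω ⟨hω1, hω2⟩
    simp only [Set.mem_iInter, Finset.mem_range, Nat.lt_succ_iff] at hω1 hω2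
    exact hd_of_tilted (x0 := x0) (s := s) (δ := δ) (w := w) (N := N) (by omega) (by omega)
      (by omega) (by omega) hω1 hω2
  have h7 := L.mono h6
  linarith

/-- translates of a window crossing -/
theorem translate {p : Set (Set P2) → ℝ} {T : ℤ} {ρ : ℝ} (hT : InvT p T ρ)
    {j0 h a R b j t w z : ℤ} {x : ℝ} (hB : Bdd T (Bx j0 h a R)) (h1 : 1 - x ≤ p (Cn (Bx j0 h a R) (Win j0 b w) (Win j t w)))
    (hz : (z - b) % 2 = 0) (hz' : |z - b| ≤ 2 * T) :
    1 - (x + ρ) ≤ p (Cn (Bx j0 h (a + (z - b)) R) (Win j0 z w) (Win j (z + (t - b)) w)) := by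
  have h2 := hT ((z - b) / 2) (by
    rw [abs_le] at *
    constructor <;> omega) (Bx j0 h a R) (Win j0 b w) (Win j t w) hB
  rw [tr_bx, tr_win, tr_win] at h2
  have e : 2 * ((z - b) / 2) = z - b := by omega
  rw [e, show b + (z - b) = z by ring, show t + (z - b) = z + (t - b) by ring] at h2
  linarith

theorem aligned {p : Set (Set P2) → ℝ} (L : IsLw p) {T : ℤ} {ρ : ℝ} (hT : InvT p T ρ)
    (hR : InvR p T ρ) (hρ : 0 ≤ ρ) {h w N : ℕ} (hw : 1 ≤ w) {b t : ℤ} {x c1 : ℝ}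
    (hb : |b| ≤ 8 * h) (hN : 12 * h + (2 * w + 2) ≤ N * (2 * w + 2))
    (hT' : T ≥ (((N : ℤ) + 1) * (2 * w + 2) + 6 * h + 3 * w + 3) + 8 * h)
    (hc : 2 * (N + 1) * (x + 2 * ρ) < c1) (hh : p (Hd 0 h 0 (6 * h)) ≤ 1 - c1)
    (h1 : 1 - x ≤ p (Cn (Bx 0 h 0 (8 * h)) (Win 0 b w) (Win h t w))) : |t - b| ≤ 5 * w := by
  by_contra hcon
  rw [abs_le, not_and_or, not_le, not_le] at hcon
  set Z : ℤ := ((N : ℤ) + 1) * (2 * w + 2) + 6 * h + 3 * w + 3 with hZ
  have hZ0 : 0 ≤ ((N : ℤ) + 1) * (2 * w + 2) := by positivity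
  have hBd : Bdd T (Bx 0 h 0 (8 * h)) := bdd_bx (by rw [abs_zero]; omega)
    (by rw [abs_zero, abs_of_nonneg (by positivity)]; omega)
  have h2 := hR (Bx 0 h 0 (8 * h)) (Win 0 b w) (Win h t w) hBd
  rw [rf_bx, rf_win, rf_win, neg_zero] at h2
  have h2' : 1 - (x + ρ) ≤ p (Cn (Bx 0 h 0 (8 * h)) (Win 0 (-b) w) (Win h (-t) w)) := by linarith
  have hA : ∀ z : ℤ, (z - b) % 2 = 0 → |z| ≤ Z →
      1 - (x + 2 * ρ) ≤ p (Cn (Rw 0 h) (Win 0 z w) (Win h (z + (t - b)) w)) := by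
    intro z hz hz'
    have h3 := translate hT hBd h1 hz (by rw [abs_le] at *; constructor <;> omega)
    have h4 := L.mono (cn_mono (bx_sub_rw 0 h (0 + (z - b)) (8 * h)) (subset_refl (Win 0 z w))
      (subset_refl (Win h (z + (t - b)) w)))
    linarith
  have hB : ∀ z : ℤ, (z - b) % 2 = 0 → |z| ≤ Z →
      1 - (x + 2 * ρ) ≤ p (Cn (Rw 0 h) (Win 0 z w) (Win h (z - (t - b)) w)) := by
    intro z hz hz'
    have h3 := translate hT hBd h2' (z := z) (by omega) (by rw [abs_le] at *; constructor <;> omega)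
    have h4 := L.mono (cn_mono (bx_sub_rw 0 h (0 + (z - -b)) (8 * h)) (subset_refl (Win 0 z w))
      (subset_refl (Win h (z + (-t - -b)) w)))
    rw [show z + (-t - -b) = z - (t - b) by ring] at h3 h4
    linarith
  rcases hcon with hcon | hcon
  · have h5 := tilted_prob L (δ := -(t - b)) (b := b) (Z := Z) hw (by omega) hN (by omega) (by omega)
      (fun z hz hz' => by
        have := hB z hz hz'
        rwa [sub_eq_add_neg z (t - b)] at this)
      (fun z hz hz' => by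
        have := hA z hz hz'
        rwa [show z + (t - b) = z - -(t - b) by ring] at this)
    linarith
  · have h5 := tilted_prob L (δ := t - b) (b := b) (Z := Z) hw hcon hN (by omega) (by omega) hA hB
    linarith

end Crest.Agent.R144.Qa277
end
end

-- ▼ part R144/Qd_277
section

/-!
# R144, R1 (doc 1941): (3.1) + (3.2) on helper216's law (helper277)

* `p32 : Qlw216.P32`.
-/

set_option autoImplicit false

noncomputable section

namespace Crest.Agent.R144.Qa277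

open Crest.Agent.R144.It844 (P2 adj_iff adj_symm)
open Crest.Agent.R144.Zg349 (StepIn IsConn)
open Crest.Agent.R144.Qlw216 (Lw Inv act hard rhard Om Bw Tw K Kt KR Rig Rows W D Loc Bb)
open Crest.ProbabilityR.HexHeights (Adj)

theorem isLw (L : Lw) : IsLw L.p := ⟨L.nonneg, L.univ, L.empty, L.add, L.assoc⟩

/-- walks are carried by automorphisms -/
theorem Pth.map {S T : Set P2} {u v : P2} (g : P2 → P2) (hg : ∀ a b, Adj a b → Adj (g a) (g b))
    (hST : ∀ w ∈ S, g w ∈ T) (h : Pth S u v) : Pth T (g u) (g v) :=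
  ⟨hST _ h.1, Crest.Agent.R144.Hex585.path_map g hg hST h.2⟩

theorem adj_tr (t a b : P2) (h : Adj a b) : Adj (Qlw216.tr t a) (Qlw216.tr t b) := by
  obtain ⟨a1, a2⟩ := a
  obtain ⟨b1, b2⟩ := b
  obtain ⟨t1, t2⟩ := t
  rw [adj_iff] at *
  simp only [Qlw216.tr, Prod.mk_add_mk, Prod.mk.injEq] at *
  omega

theorem adj_sg (a b : P2) (h : Adj a b) : Adj (Qlw216.sg a) (Qlw216.sg b) := by
  obtain ⟨a1, a2⟩ := a
  obtain ⟨b1, b2⟩ := b
  rw [adj_iff] at *
  simp only [Qlw216.sg, Prod.mk.injEq] at *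
  omega

theorem act_tr (k : ℤ) (B S S' : Set P2) :
    act (Qlw216.tr (k, 0)) (Cn B S S') ⊆ Cn (tr k B) (tr k S) (tr k S') := by
  rintro ω ⟨u, hu, v, hv, hp⟩
  have e : ∀ w : P2, ((Qlw216.tr (k, 0) w).1 - k, (Qlw216.tr (k, 0) w).2) = w := by
    intro w
    unfold Qlw216.tr
    ext
    · simp
    · simp
  refine ⟨Qlw216.tr (k, 0) u, ?_, Qlw216.tr (k, 0) v, ?_, hp.map _ (adj_tr _) ?_⟩
  · show ((Qlw216.tr (k, 0) u).1 - k, (Qlw216.tr (k, 0) u).2) ∈ S
    rw [e]; exact hu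
  · show ((Qlw216.tr (k, 0) v).1 - k, (Qlw216.tr (k, 0) v).2) ∈ S'
    rw [e]; exact hv
  · intro w hw
    refine ⟨hw.1, ?_⟩
    show ((Qlw216.tr (k, 0) w).1 - k, (Qlw216.tr (k, 0) w).2) ∈ B
    rw [e]; exact hw.2

theorem act_sg (B S S' : Set P2) :
    act Qlw216.sg (Cn B S S') ⊆ Cn (rf B) (rf S) (rf S') := by
  rintro ω ⟨u, hu, v, hv, hp⟩
  have e : ∀ w : P2, (-(Qlw216.sg w).1 - (Qlw216.sg w).2, (Qlw216.sg w).2) = w := by
    intro w
    unfold Qlw216.sg
    ext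
    · simp
    · simp
  refine ⟨Qlw216.sg u, ?_, Qlw216.sg v, ?_, hp.map _ adj_sg ?_⟩
  · show (-(Qlw216.sg u).1 - (Qlw216.sg u).2, (Qlw216.sg u).2) ∈ S
    rw [e]; exact hu
  · show (-(Qlw216.sg v).1 - (Qlw216.sg v).2, (Qlw216.sg v).2) ∈ S'
    rw [e]; exact hv
  · intro w hw
    refine ⟨hw.1, ?_⟩
    show (-(Qlw216.sg w).1 - (Qlw216.sg w).2, (Qlw216.sg w).2) ∈ B
    rw [e]; exact hw.2

theorem cn_loc (B S S' : Set P2) {R : Set P2} (h : B ⊆ R) : Loc R (Cn B S S') := by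
  intro ω
  have e : ω ∩ R ∩ B = ω ∩ B := by
    rw [Set.inter_assoc, Set.inter_eq_right.2 h]
  unfold Cn
  simp only [Set.mem_ofPred_eq, e]

theorem bdd_bb {N : ℕ} {B : Set P2} {M : ℤ} (h : Bdd M B) (hM : M ≤ N) : B ⊆ Bb N := by
  intro v hv
  obtain ⟨h1, h2⟩ := h v hv
  simp only [XX] at h1
  rw [abs_le] at h1 h2
  refine ⟨?_, ?_, ?_⟩ <;> rw [abs_le] <;> constructor <;> omega

theorem invT_of {L : Lw} {N : ℕ} {ρ : ℝ} (h : Inv L N ρ) {T : ℤ} (hTN : T ≤ N) :
    InvT L.p T ρ := by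
  intro k hk B S S' hB
  have h1 := h.tr (k, 0) (hk.trans hTN) (by simp) (Cn B S S') (cn_upper B S S')
    (cn_loc B S S' (bdd_bb hB hTN))
  have h2 := (isLw L).mono (act_tr k B S S')
  have h3 := (abs_le.1 h1).1
  linarith

theorem invR_of {L : Lw} {N : ℕ} {ρ : ℝ} (h : Inv L N ρ) {T : ℤ} (hTN : T ≤ N) :
    InvR L.p T ρ := by
  intro B S S' hB
  have h1 := h.sg (Cn B S S') (cn_upper B S S') (cn_loc B S S' (bdd_bb hB hTN))
  have h2 := (isLw L).mono (act_sg B S S')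
  have h3 := (abs_le.1 h1).1
  linarith

theorem hard_eq (h : ℕ) : hard h = Hd 0 h 0 (6 * h) := by
  ext ω
  constructor
  · rintro ⟨u, v, h1, h2, h3⟩
    refine ⟨u, ?_, v, ?_, h3⟩
    · show XX u ≤ 0 - 6 * h
      have : Qlw216.XX u = XX u := rfl
      omega
    · show 0 + 6 * h ≤ XX v
      have : Qlw216.XX v = XX v := rfl
      omega
  · rintro ⟨u, h1, v, h2, h3⟩
    have h1' : XX u ≤ 0 - 6 * h := h1
    have h2' : 0 + 6 * h ≤ XX v := h2
    refine ⟨u, v, ?_, ?_, h3⟩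
    · have : Qlw216.XX u = XX u := rfl
      omega
    · have : Qlw216.XX v = XX v := rfl
      omega

theorem rhard_eq (h : ℕ) : rhard h = Rh 0 h 0 (6 * h) := by
  ext ω
  constructor
  · rintro ⟨u, v, h1, h2, h3⟩
    refine ⟨u, v, ?_, ?_, h3⟩
    · have : Qlw216.XX u = XX u := rfl
      omega
    · have : Qlw216.XX v = XX v := rfl
      omega
  · rintro ⟨u, v, h1, h2, h3⟩
    refine ⟨u, v, ?_, ?_, h3⟩
    · have : Qlw216.XX u = XX u := rfl
      omega
    · have : Qlw216.XX v = XX v := rfl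
      omega

/-- the region of `K` -/
def Kr (a a' : ℤ) (h : ℕ) : Set P2 := {v | (0 ≤ v.2 ∧ v.2 ≤ 0 + (h : ℤ)) ∧ a - 20 * h ≤ XX v ∧
  XX v ≤ a' + 20 * h}

theorem K_eq (a a' : ℤ) (h : ℕ) : K a a' 0 h = Cn (Kr a a' h) (Win 0 a (W h)) (Win 0 a' (W h)) := by
  ext ω
  constructor
  · rintro ⟨u, v, h1, h2, h3, h4, h5⟩
    exact ⟨u, ⟨h1, h2⟩, v, ⟨h3, h4⟩, h5⟩
  · rintro ⟨u, ⟨h1, h2⟩, v, ⟨h3, h4⟩, h5⟩
    exact ⟨u, v, h1, h2, h3, h4, h5⟩

theorem Kt_eq (a a' : ℤ) (h : ℕ) :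
    Kt a a' 0 h = Cn (Kr a a' h) (Win (0 + h) a (W h)) (Win (0 + h) a' (W h)) := by
  ext ω
  constructor
  · rintro ⟨u, v, h1, h2, h3, h4, h5⟩
    exact ⟨u, ⟨h1, h2⟩, v, ⟨h3, h4⟩, h5⟩
  · rintro ⟨u, ⟨h1, h2⟩, v, ⟨h3, h4⟩, h5⟩
    exact ⟨u, v, h1, h2, h3, h4, h5⟩


theorem tr_kr (k a a' : ℤ) (h : ℕ) : tr k (Kr a a' h) ⊆ Rw 0 h := fun _ hv => hv.1

theorem bdd_kr {a a' : ℤ} {h : ℕ} (h1 : |a| ≤ 40 * h) (h2 : |a'| ≤ 40 * h) :
    Bdd (100 * h : ℕ) (Kr a a' h) := by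
  rintro v ⟨⟨hv1, hv2⟩, hv3, hv4⟩
  rw [abs_le] at h1 h2
  push_cast
  constructor <;> rw [abs_le] <;> constructor <;> omega

theorem A_nil (h : ℕ) : Cn (Bx 0 h 0 (16 * h)) (Win 0 0 (W h)) (Win h 0 (W h)) ⊆
    Qlw216.A 0 h [] := by
  rintro ω ⟨u, ⟨hu1, hu2⟩, v, ⟨hv1, hv2⟩, hp⟩
  have e0 : ∀ w : P2, Qlw216.XX w - Qlw216.XX 0 = XX w - 0 := fun w => by
    simp [Qlw216.XX, XX]
  refine ⟨{w | Pth (ω ∩ Bx 0 h 0 (16 * h)) u w}, ?_, ?_, ⟨u, ?_, ?_⟩, ⟨v, hp, ?_⟩, ?_⟩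
  · intro w hw
    have h1 := Pth.right hw
    refine ⟨h1.1, ⟨h1.2.1, h1.2.2.1⟩, ?_⟩
    rw [e0]
    exact h1.2.2.2
  · intro a ha b hb
    have h1 := (Pth.comp ha).symm.trans (Pth.comp hb)
    exact h1.2
  · exact Pth.refl hp.1
  · refine ⟨hu1, ?_⟩
    rw [e0]; exact hu2
  · refine ⟨?_, ?_⟩
    · rw [hv1]; simp
    · rw [e0]; exact hv2
  · intro B hB
    exact absurd hB (by simp)

/-- union bound for two families -/
theorem fam_prob {p : Set (Set P2) → ℝ} (L : IsLw p) {N : ℕ} (EK EV : ℕ → Set (Set P2))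
    {H : Set (Set P2)} {κ v : ℝ} (hK : ∀ k ≤ N, 1 - κ ≤ p (EK k)) (hV : ∀ k < N, 1 - v ≤ p (EV k))
    (hsub : ∀ ω, (∀ k ≤ N, ω ∈ EK k) → (∀ k < N, ω ∈ EV k) → ω ∈ H) :
    1 - (N + 1) * κ - N * v ≤ p H := by
  classical
  have h1 := L.biInter_ge (Finset.range (N + 1)) EK
  have h2 := L.biInter_ge (Finset.range N) EV
  have h3 : ∑ i ∈ Finset.range (N + 1), (1 - p (EK i)) ≤ (N + 1) * κ := by
    calc ∑ i ∈ Finset.range (N + 1), (1 - p (EK i)) ≤ ∑ i ∈ Finset.range (N + 1), κ :=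
          Finset.sum_le_sum fun i hi => by
            have := hK i (by simpa [Nat.lt_succ_iff] using hi)
            linarith
      _ = (N + 1) * κ := by rw [Finset.sum_const, Finset.card_range, nsmul_eq_mul]; push_cast; ring
  have h4 : ∑ i ∈ Finset.range N, (1 - p (EV i)) ≤ N * v := by
    calc ∑ i ∈ Finset.range N, (1 - p (EV i)) ≤ ∑ i ∈ Finset.range N, v :=
          Finset.sum_le_sum fun i hi => by
            have := hV i (by simpa using hi)
            linarith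
      _ = N * v := by rw [Finset.sum_const, Finset.card_range, nsmul_eq_mul]
  have h5 := L.inter_ge (⋂ i ∈ Finset.range (N + 1), EK i) (⋂ i ∈ Finset.range N, EV i)
  have h6 : (⋂ i ∈ Finset.range (N + 1), EK i) ∩ (⋂ i ∈ Finset.range N, EV i) ⊆ H := by
    rintro ω ⟨hω1, hω2⟩
    simp only [Set.mem_iInter, Finset.mem_range, Nat.lt_succ_iff] at hω1 hω2
    exact hsub ω hω1 hω2
  have h7 := L.mono h6
  linarith

/-- **(3.1) + (3.2)** -/
theorem p32 : Qlw216.P32 := by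
  intro c1 hc1
  refine ⟨c1 / 216004, by positivity, ?_⟩
  intro ε hε
  set x : ℝ := min (min (ε / 2) (c1 / 10000000)) 1 with hx
  have hx0 : 0 < x := lt_min (lt_min (by positivity) (by positivity)) one_pos
  have hx1 : x ≤ 1 := min_le_right _ _
  have hxε : x ≤ ε / 2 := (min_le_left _ _).trans (min_le_left _ _)
  have hxc : x ≤ c1 / 10000000 := (min_le_left _ _).trans (min_le_right _ _)
  set n2 : ℕ := 1400001 * 1400001 with hn2
  obtain ⟨e, he0, he1, he2⟩ : ∃ e : ℝ, 0 < e ∧ e ≤ x ^ n2 ∧ e ≤ x := by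
    refine ⟨x ^ n2, pow_pos hx0 _, le_rfl, ?_⟩
    exact pow_le_of_le_one hx0.le hx1 (by rw [hn2]; norm_num)
  refine ⟨e, he0, ?_⟩
  intro L N h hInv hh hN hhard hrhard
  have hL := isLw L
  have hT : InvT L.p (100 * h : ℕ) e := invT_of hInv (by exact_mod_cast hN)
  have hR : InvR L.p (100 * h : ℕ) e := invR_of hInv (by exact_mod_cast hN)
  have hBd : Bdd (100 * h : ℕ) (Bx 0 h 0 (8 * h)) := bdd_bx (by rw [abs_zero]; push_cast; omega)
    (by rw [abs_zero, abs_of_nonneg (by positivity)]; push_cast; omega)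
  set w : ℕ := h / 100000 with hw
  have hw1 : 1 ≤ w := by omega
  have hwh : w ≤ h := by omega
  rw [rhard_eq] at hrhard
  rw [hard_eq] at hhard
  have hq : 7 * h / w + 1 ≤ 1400001 := by
    have h1 : 7 * h / w ≤ 7 * (200000 * w) / w := Nat.div_le_div_right (by omega)
    have h2 : 7 * (200000 * w) / w = 1400000 := by
      rw [show 7 * (200000 * w) = 1400000 * w by ring]
      exact Nat.mul_div_cancel _ (by omega)
    omega
  obtain ⟨b, t, hb, ht, h1⟩ := crossing_pair hL (h := h) (w := w) hw1 hwh hx0.le hx1 (n := n2)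
    (Nat.mul_le_mul hq hq) (hrhard.trans he1)
  have hal := aligned (N := 600001) (c1 := c1) (x := x) hL hT hR he0.le hw1 (b := b) (t := t) (by omega) (by omega)
    (by push_cast; omega) (by norm_num; nlinarith) hhard h1
  -- the aligned crossing at any centre
  have hWdef : W h = ((h / 9000 : ℕ) : ℤ) := rfl
  have hDdef : D h = ((h / 900 : ℕ) : ℤ) := rfl
  have hwW : 6 * (w : ℤ) + 1 ≤ W h := by rw [hWdef]; omega
  have hW1 : 1 ≤ W h := by omega
  have hD10 : 10 * W h ≤ D h := by rw [hWdef, hDdef]; omega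
  have hWh : 9000 * W h ≤ h := by rw [hWdef]; omega
  have hWh' : (h : ℤ) ≤ 18000 * W h := by rw [hWdef]; omega
  clear_value w
  have h2 : 1 - x ≤ L.p (Cn (Bx 0 h 0 (8 * h)) (Win 0 b (6 * w)) (Win h b (6 * w))) := by
    refine h1.trans (hL.mono (cn_mono subset_rfl (win_mono ?_) (win_mono ?_)))
    · rw [sub_self, abs_zero]; omega
    · rw [abs_le] at hal
      have : |b - t| ≤ 5 * w := by rw [abs_le]; omega
      omega
  have hV : ∀ z : ℤ, |z| ≤ 100 * h → ∃ z' : ℤ, |z' - z| ≤ 1 ∧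
      1 - (x + e) ≤ L.p (Cn (Bx 0 h (z' - b) (8 * h)) (Win 0 z (W h)) (Win h z (W h))) := by
    intro z hz
    obtain ⟨z', hz1, hz2, hz3⟩ := exists_parity z b
    have hzz : |z' - z| ≤ 1 := by rw [abs_le]; omega
    have h3 := translate hT hBd h2 (z := z') hz3 (by rw [abs_le] at *; push_cast; omega)
    rw [sub_self, add_zero, zero_add] at h3
    refine ⟨z', hzz, h3.trans (hL.mono (cn_mono subset_rfl (win_mono ?_) (win_mono ?_)))⟩
    · rw [abs_sub_comm]; omega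
    · rw [abs_sub_comm]; omega
  -- arcs
  have hρ : x + e ≤ 2 * x := by linarith
  have hfin : ¬ (1 - ((54000 : ℕ) + 1 : ℝ) * (c1 / 216004 + e) - (54000 : ℕ) * (x + e) ≤ 1 - c1) := by
    rw [not_le]
    push_cast
    linarith
  refine ⟨?_, ?_, ?_⟩
  · intro X Y hX hY hXY
    by_contra hcon
    rw [not_le] at hcon
    rw [K_eq] at hcon
    apply hfin
    refine le_trans ?_ hhard
    obtain ⟨y0, hy1, hy2, hy3⟩ := exists_parity (-(6 * (h : ℤ)) - W h) X
    have hks : ∀ k : ℕ, k ≤ 54000 → (k : ℤ) * (4 * W h) ≤ 54000 * (4 * W h) := fun k hk =>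
      mul_le_mul_of_nonneg_right (by exact_mod_cast hk) (by omega)
    have hks0 : ∀ k : ℕ, 0 ≤ (k : ℤ) * (4 * W h) := fun k => mul_nonneg (by positivity) (by omega)
    refine fam_prob hL
      (fun k => Cn (Rw 0 h) (Win 0 (y0 + (k : ℤ) * (4 * W h)) (W h))
        (Win 0 (y0 + (k : ℤ) * (4 * W h) + (Y - X)) (W h)))
      (fun k => Cn (Rw 0 h) (Win 0 (y0 + (k : ℤ) * (4 * W h) + (6 * W h + 1)) (W h))
        (Win h (y0 + (k : ℤ) * (4 * W h) + (6 * W h + 1)) (W h))) ?_ ?_ ?_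
    · intro k hk
      have e1 := hks k hk
      have e2 := hks0 k
      have h4 := hT ((y0 + (k : ℤ) * (4 * W h) - X) / 2)
        (by rw [abs_le] at *; push_cast; constructor <;> omega) (Kr X Y h)
        (Win 0 X (W h)) (Win 0 Y (W h)) (bdd_kr hX hY)
      replace h4 := h4.trans (hL.mono (cn_mono (tr_kr _ X Y h) subset_rfl subset_rfl))
      rw [tr_win, tr_win] at h4
      have e3 : (y0 + (k : ℤ) * (4 * W h) - X) % 2 = 0 := by
        have : (k : ℤ) * (4 * W h) = 2 * (k * (2 * W h)) := by ring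
        omega
      have e4 : 2 * ((y0 + (k : ℤ) * (4 * W h) - X) / 2) = y0 + (k : ℤ) * (4 * W h) - X := by omega
      rw [e4, show X + (y0 + (k : ℤ) * (4 * W h) - X) = y0 + (k : ℤ) * (4 * W h) by ring,
        show Y + (y0 + (k : ℤ) * (4 * W h) - X) = y0 + (k : ℤ) * (4 * W h) + (Y - X) by ring] at h4
      linarith
    · intro k hk
      have e1 := hks k hk.le
      have e2 := hks0 k
      obtain ⟨z', _, h5⟩ := hV (y0 + (k : ℤ) * (4 * W h) + (6 * W h + 1))
        (by rw [abs_le] at *; constructor <;> omega)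
      exact h5.trans (hL.mono (cn_mono (bx_sub_rw _ _ _ _) subset_rfl subset_rfl))
    · intro ω hω1 hω2
      refine hd_of_arcs_bot (j0 := 0) (h := h) (a := 0) (l := 6 * h) (y := y0) (s := 4 * W h)
        (d := Y - X) (c := 6 * W h + 1) (w := W h) (N := 54000) (by omega) (by omega) (by omega)
        (by omega) (by push_cast; omega) hω1 ?_
      intro k hk
      refine ⟨Win h (y0 + (k : ℤ) * (4 * W h) + (6 * W h + 1)) (W h), ?_⟩
      refine cn_mono subset_rfl subset_rfl ?_ (hω2 k hk)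
      intro v hv
      refine ⟨hv, ?_⟩
      show v.2 = 0 + h
      rw [hv.1, zero_add]
  · intro X Y hX hY hXY
    by_contra hcon
    rw [not_le] at hcon
    rw [Kt_eq] at hcon
    apply hfin
    refine le_trans ?_ hhard
    obtain ⟨y0, hy1, hy2, hy3⟩ := exists_parity (-(6 * (h : ℤ)) - W h) X
    have hks : ∀ k : ℕ, k ≤ 54000 → (k : ℤ) * (4 * W h) ≤ 54000 * (4 * W h) := fun k hk =>
      mul_le_mul_of_nonneg_right (by exact_mod_cast hk) (by omega)
    have hks0 : ∀ k : ℕ, 0 ≤ (k : ℤ) * (4 * W h) := fun k => mul_nonneg (by positivity) (by omega)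
    refine fam_prob hL
      (fun k => Cn (Rw 0 h) (Win (0 + h) (y0 + (k : ℤ) * (4 * W h)) (W h))
        (Win (0 + h) (y0 + (k : ℤ) * (4 * W h) + (Y - X)) (W h)))
      (fun k => Cn (Rw 0 h) (Win 0 (y0 + (k : ℤ) * (4 * W h) + (6 * W h + 1)) (W h))
        (Win h (y0 + (k : ℤ) * (4 * W h) + (6 * W h + 1)) (W h))) ?_ ?_ ?_
    · intro k hk
      have e1 := hks k hk
      have e2 := hks0 k
      have h4 := hT ((y0 + (k : ℤ) * (4 * W h) - X) / 2)
        (by rw [abs_le] at *; push_cast; constructor <;> omega) (Kr X Y h)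
        (Win (0 + h) X (W h)) (Win (0 + h) Y (W h)) (bdd_kr hX hY)
      replace h4 := h4.trans (hL.mono (cn_mono (tr_kr _ X Y h) subset_rfl subset_rfl))
      rw [tr_win, tr_win] at h4
      have e3 : (y0 + (k : ℤ) * (4 * W h) - X) % 2 = 0 := by
        have : (k : ℤ) * (4 * W h) = 2 * (k * (2 * W h)) := by ring
        omega
      have e4 : 2 * ((y0 + (k : ℤ) * (4 * W h) - X) / 2) = y0 + (k : ℤ) * (4 * W h) - X := by omega
      rw [e4, show X + (y0 + (k : ℤ) * (4 * W h) - X) = y0 + (k : ℤ) * (4 * W h) by ring,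
        show Y + (y0 + (k : ℤ) * (4 * W h) - X) = y0 + (k : ℤ) * (4 * W h) + (Y - X) by ring] at h4
      linarith
    · intro k hk
      have e1 := hks k hk.le
      have e2 := hks0 k
      obtain ⟨z', _, h5⟩ := hV (y0 + (k : ℤ) * (4 * W h) + (6 * W h + 1))
        (by rw [abs_le] at *; constructor <;> omega)
      exact h5.trans (hL.mono (cn_mono (bx_sub_rw _ _ _ _) subset_rfl subset_rfl))
    · intro ω hω1 hω2
      refine hd_of_arcs_top (j0 := 0) (h := h) (a := 0) (l := 6 * h) (y := y0) (s := 4 * W h)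
        (d := Y - X) (c := 6 * W h + 1) (w := W h) (N := 54000) (by omega) (by omega) (by omega)
        (by omega) (by push_cast; omega) hω1 ?_
      intro k hk
      refine ⟨Win 0 (y0 + (k : ℤ) * (4 * W h) + (6 * W h + 1)) (W h), ?_⟩
      have h6 := hω2 k hk
      rw [← zero_add (h : ℤ)] at h6
      refine cn_mono (by simp) ?_ (by simp) (hω2 k hk)
      intro v hv
      exact ⟨hv, hv.1⟩
  · obtain ⟨z', hz1, hz2⟩ := hV 0 (by rw [abs_zero]; positivity)
    have h7 : L.p (Cn (Bx 0 h (z' - b) (8 * h)) (Win 0 0 (W h)) (Win h 0 (W h))) ≤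
        L.p (Qlw216.A 0 h []) := by
      refine (hL.mono (cn_mono (bx_mono ?_) subset_rfl subset_rfl)).trans (hL.mono (A_nil h))
      rw [abs_le] at *
      have : |0 - (z' - b)| ≤ 8 * h := by
        have hb' : |b| ≤ 8 * h - 1 := by omega
        rw [abs_le] at *
        constructor <;> omega
      omega
    rw [hL.compl]
    linarith

end Crest.Agent.R144.Qa277
end
end

-- ▼ part R144/Qm1_674
section

/-!
# R144, R1 (doc 1941): macroscopic gluing, `PHd` of `Qlw_216` (helper674)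

The deterministic part (`trim`, `meet`, `glue`) is copied from `Qp2_756` (helper756).
* **`phd : PHd`**.
-/

set_option autoImplicit false

noncomputable section

namespace Crest.Agent.R144.Qm674

open Crest.Agent.R144.It844 (P2 adj_iff adj_symm)
open Crest.Agent.R144.Zg349 (StepIn IsConn)
open Crest.Agent.R144.Qlw216
open Crest.ProbabilityR.HexHeights (Adj)

/-! ### walks -/

theorem pth_refl {S : Set P2} {u : P2} (h : u ∈ S) : Pth S u u := Qa277.Pth.refl h
theorem pth_right {S : Set P2} {u v : P2} (h : Pth S u v) : v ∈ S := Qa277.Pth.right h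
theorem pth_symm {S : Set P2} {u v : P2} (h : Pth S u v) : Pth S v u := Qa277.Pth.symm h
theorem pth_trans {S : Set P2} {u v w : P2} (h : Pth S u v) (h' : Pth S v w) : Pth S u w :=
  Qa277.Pth.trans h h'
theorem pth_mono {S T : Set P2} (hST : S ⊆ T) {u v : P2} (h : Pth S u v) : Pth T u v :=
  Qa277.Pth.mono hST h
theorem pth_step {S : Set P2} {u v : P2} (hu : u ∈ S) (hv : v ∈ S) (h : Adj u v) : Pth S u v :=
  Qa277.Pth.step hu hv h
theorem pth_comp {S : Set P2} {u v : P2} (h : Pth S u v) : Pth {w | Pth S u w} u v :=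
  Qa277.Pth.comp h

theorem pth_map {S T : Set P2} (g : P2 → P2) (hg : ∀ u v, Adj u v → Adj (g u) (g v))
    (hS : ∀ w ∈ S, g w ∈ T) {u v : P2} (p : Pth S u v) : Pth T (g u) (g v) :=
  ⟨hS _ p.1, Hex585.path_map g hg hS p.2⟩

/-- up to the first point of the level `hi` -/
theorem trim_hi {S : Set P2} {f : P2 → ℤ} (hf : ∀ a b, Adj a b → f b ≤ f a + 1) {hi : ℤ} {u v : P2}
    (hp : Pth S u v) (hu : f u ≤ hi) (hv : hi ≤ f v) :
    ∃ q, f q = hi ∧ Pth (S ∩ {w | f w ≤ hi}) u q := by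
  obtain ⟨h1, h2⟩ := hp
  induction h2 using Relation.ReflTransGen.head_induction_on with
  | refl => exact ⟨v, le_antisymm hu hv, pth_refl ⟨h1, hu⟩⟩
  | @head a c hac _ ih =>
    rcases eq_or_lt_of_le hu with he | hl
    · exact ⟨a, he, pth_refl ⟨h1, hu⟩⟩
    · have hc : f c ≤ hi := by have := hf a c hac.2.2; omega
      obtain ⟨q, hq, hpq⟩ := ih hc hac.2.1
      exact ⟨q, hq, pth_trans (pth_step ⟨h1, hu⟩ hpq.1 hac.2.2) hpq⟩

/-- the part of a walk between two levels -/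
theorem trim {S : Set P2} {f : P2 → ℤ} (hf : ∀ a b, Adj a b → |f b - f a| ≤ 1) {lo hi : ℤ}
    (hlh : lo ≤ hi) {u v : P2} (hp : Pth S u v) (hu : f u ≤ lo) (hv : hi ≤ f v) :
    ∃ p q, f p = lo ∧ f q = hi ∧ Pth (S ∩ {w | lo ≤ f w ∧ f w ≤ hi}) p q := by
  obtain ⟨q, hq, h1⟩ := trim_hi (fun a b h => by have := hf a b h; rw [abs_le] at this; omega) hp
    (hu.trans hlh) hv
  obtain ⟨p, hp', h2⟩ := trim_hi (f := fun w => - f w) (hi := -lo)
    (fun a b h => by have := hf a b h; rw [abs_le] at this; omega) (pth_symm h1)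
    (by omega) (by omega)
  refine ⟨p, q, by omega, hq, pth_mono ?_ (pth_symm h2)⟩
  rintro w ⟨⟨h3, h4⟩, h5⟩
  simp only [Set.mem_ofPred_eq] at h4 h5
  exact ⟨h3, by omega, h4⟩

theorem adj_row {a b : P2} (h : Adj a b) : |b.2 - a.2| ≤ 1 := by
  rw [adj_iff] at h
  rw [abs_le]
  rcases h with h | h | h | h | h | h <;> subst h <;> simp only <;> omega

/-- **X1 in component form** -/
theorem meet {S C : Set P2} {t L R : ℤ} (hS : ∀ w ∈ S, 0 ≤ w.2 ∧ w.2 ≤ t) (hCS : C ⊆ S)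
    (hC : ∀ w ∈ C, L ≤ XX w ∧ XX w ≤ R) {u v p q : P2} (h1 : Pth S u v) (hu : XX u ≤ L)
    (hv : R ≤ XX v) (h2 : Pth C p q) (hp : p.2 = 0) (hq : q.2 = t) : Pth S u p := by
  obtain ⟨w, hw1, hw2⟩ := Hex585.cross (W := {w | Pth S u w}) (C := {w | Pth C p w}) (a := u)
    (b := v) (p := p) (q := q) (pth_refl h1.1) (pth_comp h1).2 (pth_refl h2.1) (pth_comp h2).2
    (by
      intro w hw
      have := hS w (pth_right hw)
      omega)
    (by
      intro w hw
      have := hC w (pth_right hw)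
      exact ⟨hu.trans this.1, this.2.trans hv⟩)
  exact pth_trans hw1 (pth_symm (pth_mono hCS hw2))

/-! ### the two kinds of pieces -/

/-- the centre of the `k`-th piece -/
def ce (t M k : ℕ) : ℤ := 2 * (t : ℤ) * ((k : ℤ) - M)

/-- horizontal pieces -/
def Hp (t M k : ℕ) : Set (Set P2) := act (tr (ce t M k, 0)) (hard t)
/-- rotated pieces -/
def Rq (t M k : ℕ) : Set (Set P2) := act (tr (ce t M k + t, 0)) (act ro (hard t))

theorem adj_tr {a u v : P2} (h : Adj u v) : Adj (tr a u) (tr a v) := by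
  obtain ⟨u1, u2⟩ := u
  obtain ⟨v1, v2⟩ := v
  obtain ⟨a1, a2⟩ := a
  rw [adj_iff] at h ⊢
  simp only [tr, Prod.mk_add_mk, Prod.mk.injEq] at h ⊢
  omega

theorem adj_ro {u v : P2} (h : Adj u v) : Adj (ro u) (ro v) := by
  obtain ⟨u1, u2⟩ := u
  obtain ⟨v1, v2⟩ := v
  rw [adj_iff] at h ⊢
  simp only [ro, Prod.mk.injEq] at h ⊢
  omega


theorem of_Hp {t M k : ℕ} {ω : Set P2} (h : ω ∈ Hp t M k) :
    ∃ u v, XX u ≤ 2 * ce t M k - 6 * t ∧ 2 * ce t M k + 6 * t ≤ XX v ∧ Pth (ω ∩ Rows 0 t) u v := by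
  obtain ⟨u, v, h1, h2, h3⟩ := h
  refine ⟨tr (ce t M k, 0) u, tr (ce t M k, 0) v, ?_, ?_, pth_map _ (fun _ _ => adj_tr) ?_ h3⟩
  · simp only [XX, tr, Prod.fst_add, Prod.snd_add] at h1 ⊢; omega
  · simp only [XX, tr, Prod.fst_add, Prod.snd_add] at h2 ⊢; omega
  · rintro w ⟨hw1, hw2⟩
    refine ⟨hw1, ?_⟩
    simpa [Rows, tr] using hw2

theorem of_Rq {t M k : ℕ} {ω : Set P2} (h : ω ∈ Rq t M k) :
    ∃ p q, p.2 = 0 ∧ q.2 = (t : ℤ) ∧ Pth (ω ∩ Rows 0 t ∩
      {w | 2 * ce t M k - t ≤ XX w ∧ XX w ≤ 2 * ce t M k + 2 * t}) p q := by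
  obtain ⟨u, v, h1, h2, h3⟩ := h
  set g : P2 → P2 := fun w => tr (ce t M k + t, 0) (ro w) with hg
  have e2 : ∀ w, (g w).2 = w.1 := fun w => by simp [hg, tr, ro]
  have eX : ∀ w, XX (g w) = - w.1 - 2 * w.2 + 2 * ce t M k + 2 * t := fun w => by
    simp only [hg, tr, ro, XX, Prod.fst_add, Prod.snd_add]; ring
  have hr1 := (h3.1).2
  have hr2 := (pth_right h3).2
  simp only [Rows, Set.mem_ofPred_eq, zero_add] at hr1 hr2
  have h4 : Pth (ω ∩ {w | 2 * ce t M k ≤ XX w + w.2 ∧ XX w + w.2 ≤ 2 * ce t M k + 2 * t}) (g u) (g v) := by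
    refine pth_map g (fun _ _ h => adj_tr (adj_ro h)) ?_ h3
    rintro w ⟨hw1, hw2⟩
    refine ⟨hw1, ?_⟩
    simp only [Rows, Set.mem_ofPred_eq, zero_add] at hw2
    simp only [Set.mem_ofPred_eq, eX, e2]
    omega
  obtain ⟨p, q, hp, hq, h5⟩ := trim (f := fun w => w.2) (fun a b h => adj_row h)
    (show (0 : ℤ) ≤ t by omega) h4
    (by simp only [e2]; simp only [XX] at h1; omega)
    (by simp only [e2]; simp only [XX] at h2; omega)
  refine ⟨p, q, hp, hq, pth_mono ?_ h5⟩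
  rintro w ⟨⟨hw1, hw2⟩, hw3⟩
  simp only [Set.mem_ofPred_eq] at hw2 hw3
  refine ⟨⟨hw1, ?_⟩, ?_⟩
  · simp only [Rows, Set.mem_ofPred_eq]; omega
  · simp only [Set.mem_ofPred_eq]; omega

/-- **the gluing** -/
theorem glue {t M n : ℕ} (htn : t ≤ n) (h6 : 6 * n ≤ 4 * t * M + 6 * t) {ω : Set P2}
    (hH : ∀ k ∈ Finset.range (2 * M + 1), ω ∈ Hp t M k)
    (hR : ∀ k ∈ Finset.range (2 * M + 1), ω ∈ Rq t M k) : ω ∈ hard n := by
  have key : ∀ k, k ≤ 2 * M → ∃ u v, XX u ≤ 2 * ce t M 0 - 6 * t ∧ 2 * ce t M k + 6 * t ≤ XX v ∧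
      Pth (ω ∩ Rows 0 t) u v := by
    intro k
    induction k with
    | zero => exact fun _ => of_Hp (hH 0 (Finset.mem_range.2 (by omega)))
    | succ k ih =>
      intro hk
      obtain ⟨u, v, h1, h2, h3⟩ := ih (by omega)
      obtain ⟨p, q, hp, hq, h4⟩ := of_Rq (hR k (Finset.mem_range.2 (by omega)))
      obtain ⟨u', v', h1', h2', h3'⟩ := of_Hp (hH (k + 1) (Finset.mem_range.2 (by omega)))
      have ek : ce t M (k + 1) = ce t M k + 2 * t := by
        unfold ce; push_cast; ring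
      have e0 : ce t M 0 ≤ ce t M k := by
        unfold ce
        have : (0 : ℤ) ≤ 2 * (t : ℤ) * k := by positivity
        push_cast
        nlinarith
      have hS : ∀ w ∈ ω ∩ Rows 0 t, 0 ≤ w.2 ∧ w.2 ≤ (t : ℤ) := by
        rintro w ⟨_, hw⟩
        simpa [Rows] using hw
      have m1 : Pth (ω ∩ Rows 0 t) u p := by
        refine meet (L := 2 * ce t M k - t) (R := 2 * ce t M k + 2 * t) hS
          (fun w hw => hw.1) (fun w hw => hw.2) h3 ?_ ?_ h4 hp hq
        · omega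
        · omega
      have m2 : Pth (ω ∩ Rows 0 t) u' p := by
        refine meet (L := 2 * ce t M k - t) (R := 2 * ce t M k + 2 * t) hS
          (fun w hw => hw.1) (fun w hw => hw.2) h3' ?_ ?_ h4 hp hq
        · rw [ek] at h1'; omega
        · rw [ek] at h2'; omega
      exact ⟨u, v', h1, h2', pth_trans m1 (pth_trans (pth_symm m2) h3')⟩
  obtain ⟨u, v, h1, h2, h3⟩ := key (2 * M) le_rfl
  have e1 : ce t M 0 = -(2 * (t : ℤ) * M) := by unfold ce; push_cast; ring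
  have e2 : ce t M (2 * M) = 2 * (t : ℤ) * M := by unfold ce; push_cast; ring
  have h6' : 6 * (n : ℤ) ≤ 4 * (t : ℤ) * M + 6 * t := by exact_mod_cast h6
  refine ⟨u, v, ?_, ?_, pth_mono ?_ h3⟩
  · rw [e1] at h1; linarith
  · rw [e2] at h2; linarith
  · rintro w ⟨hw1, hw2⟩
    refine ⟨hw1, ?_⟩
    simp only [Rows, Set.mem_ofPred_eq] at hw2 ⊢
    omega

/-! ### the placements -/

/-- the placement number `i` (first `4 k + 1` indices: horizontal pieces, the others: rotated) -/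
def gg (t M k i : ℕ) : P2 → P2 :=
  if i < 4 * k + 1 then tr (ce t M (min i (2 * M)), 0)
  else fun v => tr (ce t M (min (i - (4 * k + 1)) (2 * M)) + t, 0) (ro v)

/-- **macroscopic gluing** -/
theorem phd : PHd := by
  intro k
  refine ⟨2 * (4 * k + 1), ?_⟩
  intro n t ht hn hnk
  set M : ℕ := 2 * (n / t) with hM
  have ht0 : 0 < t := by omega
  have hdiv1 : t * (n / t) ≤ n := Nat.mul_div_le n t
  have hdiv2 : n < t * (n / t + 1) := Nat.lt_mul_div_succ n ht0
  have hMk : n / t ≤ k := by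
    rw [Nat.div_le_iff_le_mul_add_pred ht0]
    nlinarith [Nat.mul_comm k t]
  have hM1 : M ≤ 2 * k := by omega
  have h6 : 6 * n ≤ 4 * t * M + 6 * t := by
    rw [hM]
    nlinarith
  have hce : ∀ j, j ≤ 2 * M → |ce t M j| ≤ 4 * n := by
    intro j hj
    have e3 : (2 * (t : ℤ)) * M ≤ 4 * n := by
      rw [hM]
      have : (t : ℤ) * (n / t : ℕ) ≤ n := by exact_mod_cast hdiv1
      push_cast
      push_cast at this
      nlinarith
    have e4 : |(j : ℤ) - M| ≤ M := by rw [abs_le]; omega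
    unfold ce
    rw [abs_mul, abs_of_nonneg (by positivity : (0 : ℤ) ≤ 2 * (t : ℤ))]
    exact (mul_le_mul_of_nonneg_left e4 (by positivity)).trans e3
  refine ⟨fun i => gg t M k i, ?_, ?_⟩
  · rintro ⟨i, hi⟩
    by_cases h : i < 4 * k + 1
    · have := hce (min i (2 * M)) (min_le_right _ _)
      refine ⟨0, by norm_num, 0, by norm_num, (ce t M (min i (2 * M)), 0), ?_, by simp, ?_⟩
      · push_cast
        omega
      · intro v
        simp only [gg, h, if_true]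
        rfl
    · have := hce (min (i - (4 * k + 1)) (2 * M)) (min_le_right _ _)
      refine ⟨1, by norm_num, 0, by norm_num, (ce t M (min (i - (4 * k + 1)) (2 * M)) + t, 0), ?_,
        by simp, ?_⟩
      · push_cast
        rw [abs_le] at this ⊢
        omega
      · intro v
        simp only [gg, h, if_false]
        rfl
  · intro S hS
    refine glue (t := t) (M := M) (by omega) h6 ?_ ?_
    · intro j hj
      rw [Finset.mem_range] at hj
      have h1 := hS ⟨j, by omega⟩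
      have h2 : j < 4 * k + 1 := by omega
      simp only [gg, h2, if_true, min_eq_left (by omega : j ≤ 2 * M)] at h1
      exact h1
    · intro j hj
      rw [Finset.mem_range] at hj
      have h1 := hS ⟨j + (4 * k + 1), by omega⟩
      have h2 : ¬ (j + (4 * k + 1) < 4 * k + 1) := by omega
      simp only [gg, h2, if_false, Nat.add_sub_cancel, min_eq_left (by omega : j ≤ 2 * M)] at h1
      exact h1

end Crest.Agent.R144.Qm674
end
end

-- ▼ part R144/Qcb_216
section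

/-!
# R144, QRSW (doc 1941): the cascade and the final theorem `QF` (helper216)
-/

set_option autoImplicit false

noncomputable section

namespace Crest.Agent.R144.Qcb216

open Crest.Agent.R144.It844 (P2 adj_iff)
open Crest.Agent.R144.Rsw867 (ball mem_ball path_mono)
open Crest.Agent.R144.Qlw216
open Crest.Agent.R144.Qgp216
open Crest.Agent.R144.Qst216
open Crest.Agent.R144.Qsp216
open Crest.Agent.R144.Qca216
open Crest.Agent.R144.Qfd216

theorem inv_mono {L : Lw} {N : ℕ} {ρ ρ' : ℝ} (h : Inv L N ρ) (hρ : ρ ≤ ρ') : Inv L N ρ' :=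
  ⟨fun t h1 h2 E hE hl => (h.tr t h1 h2 E hE hl).trans hρ, fun E hE hl => (h.ro E hE hl).trans hρ,
    fun E hE hl => (h.sg E hE hl).trans hρ⟩

theorem rig_mono {L : Lw} {n : ℕ} {a a' ε ε' : ℝ} (h : Rig L n a ε) (ha : a' ≤ a) (hε : ε ≤ ε') :
    Rig L n a' ε' :=
  ⟨fun x y h1 h2 h3 => (h.kb x y h1 h2 h3).trans (by linarith),
    fun x y h1 h2 h3 => (h.kt x y h1 h2 h3).trans (by linarith), h.v.trans hε⟩

/-- macroscopic gluing, probability -/
theorem macro_hard (hP : PHd) (k : ℕ) {c0 : ℝ} (hc0 : 0 < c0) : ∃ c1 : ℝ, 0 < c1 ∧ c1 ≤ c0 ∧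
    ∀ (L : Lw) (N n t : ℕ) (ρ : ℝ), Inv L N ρ → 0 ≤ ρ → ρ ≤ c1 → 100 * n ≤ N → 9 ≤ t →
      18 * t ≤ n → n ≤ k * t → L.p (hard n) ≤ 1 - c0 → L.p (hard t) ≤ 1 - c1 := by
  obtain ⟨M, hM⟩ := hP k
  refine ⟨c0 / (5 * (M + 1)), by positivity, ?_, ?_⟩
  · rw [div_le_iff₀ (by positivity)]
    have : (0 : ℝ) ≤ M := Nat.cast_nonneg M
    nlinarith
  · intro L N n t ρ hI hρ hρ1 hN ht h1 h2 h3
    obtain ⟨g, g1, g2⟩ := hM n t ht h1 h2
    have e1 := p_inter_ge L (Finset.univ : Finset (Fin M)) (fun i => act (g i) (hard t))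
    have e2 : (⋂ i ∈ (Finset.univ : Finset (Fin M)), act (g i) (hard t)) ⊆ hard n := by
      intro ω hω
      refine g2 ω fun i => ?_
      exact Set.mem_iInter₂.1 hω i (Finset.mem_univ i)
    have e3 := p_mono L e2
    have e4 : ∑ i : Fin M, L.p (act (g i) (hard t))ᶜ ≤ M * (1 - L.p (hard t) + 4 * ρ) := by
      have h9 : ∀ i ∈ (Finset.univ : Finset (Fin M)), L.p (act (g i) (hard t))ᶜ ≤
          1 - L.p (hard t) + 4 * ρ := by
        intro i _
        rw [p_compl]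
        have h10 := pl_hard hI hρ (t := t) (by omega) (by omega) (isPl_mono (by omega) (g1 i))
        linarith [(abs_le.1 h10).1]
      have h10 := Finset.sum_le_sum h9
      rw [Finset.sum_const, Finset.card_univ, Fintype.card_fin, nsmul_eq_mul] at h10
      exact h10
    have e5 := p_le_one L (hard t)
    have e6 : c0 / (5 * (M + 1)) = c0 / (M + 1) / 5 := by field_simp
    have e7 : c0 / (M + 1) ≤ 1 - L.p (hard t) + 4 * ρ := by
      rw [div_le_iff₀ (by positivity)]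
      nlinarith
    rw [e6] at hρ1 ⊢
    linarith

/-- one step upwards with the uniform constants -/
theorem up {L : Lw} {N i r : ℕ} {ρ a ε a' ε' : ℝ} (hI : Inv L N ρ) (hρ : 0 ≤ ρ) (hi : 3 ≤ i)
    (hN : 100 * 180 ^ (i + 1) ≤ N) (R1 : Rig L (10 * 180 ^ i) a ε) (R2 : Rig L (180 ^ (i + 1)) a' ε')
    (ha : 24 * ρ ≤ a) (ha0 : 0 < a) (haa : a ≤ a') (ha1 : a' ≤ 1) (hεε : ε' ≤ ε)
    (h3 : 18 / a ^ 2 * (ε + (6 / a ^ 2) ^ 2 * ε + 4 * ρ) ≤ (a / 6) ^ 2) (hε : 0 ≤ ε)
    (hH : Hit L r (180 ^ i) (a / 4)) : Hit L r (180 ^ (i + 1)) (6 / a' ^ 2 * ε') := by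
  have e1 : (180 : ℕ) ^ (i + 1) = 180 * 180 ^ i := by rw [pow_succ]; ring
  rw [e1] at hN R2 ⊢
  obtain ⟨j, rfl⟩ : ∃ j, i = j + 3 := ⟨i - 3, by omega⟩
  have hj : (180 : ℕ) ^ (j + 3) = 4 * (45 * 180 ^ 2 * 180 ^ j) := by
    rw [pow_add]
    ring
  have hj1 : 1 ≤ 180 ^ j := Nat.one_le_pow _ _ (by norm_num)
  refine step Crest.Agent.R144.Qg356.geo hI hρ hj (by omega) hN R1 R2 ha ha0 (by linarith)
    (by linarith) (by linarith) ha1 hH (by linarith) ?_
  have h4 : 18 / a' ^ 2 ≤ 18 / a ^ 2 := by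
    apply div_le_div_of_nonneg_left (by norm_num) (by positivity)
    exact pow_le_pow_left₀ ha0.le haa 2
  have h5 : (a / 6) ^ 2 ≤ (a' / 6) ^ 2 := pow_le_pow_left₀ (by positivity) (by linarith) 2
  refine le_trans ?_ (h3.trans h5)
  have h6 : 0 ≤ ε' + (6 / a ^ 2) ^ 2 * ε + 4 * ρ := by
    have := R2.v
    have h7 := L.nonneg (A 0 (180 * 180 ^ (j + 3)) [])ᶜ
    have h8 : 0 ≤ (6 / a ^ 2) ^ 2 * ε := by positivity
    linarith
  calc 18 / a' ^ 2 * (ε' + (6 / a ^ 2) ^ 2 * ε + 4 * ρ)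
      ≤ 18 / a ^ 2 * (ε' + (6 / a ^ 2) ^ 2 * ε + 4 * ρ) := mul_le_mul_of_nonneg_right h4 h6
    _ ≤ 18 / a ^ 2 * (ε + (6 / a ^ 2) ^ 2 * ε + 4 * ρ) :=
        mul_le_mul_of_nonneg_left (by linarith) (by positivity)

/-- from the base size `180 ^ i` up to `180 ^ J` -/
theorem chain {L : Lw} {N i J : ℕ} {ρ a ε a0 ε0 : ℝ} (hI : Inv L N ρ) (hρ : 0 ≤ ρ) (hi : 3 ≤ i)
    (hiJ : i < J) (hN : 100 * 180 ^ J ≤ N)
    (hC : ∀ i', i ≤ i' → i' < J → Rig L (180 ^ i') a ε ∧ Rig L (10 * 180 ^ i') a ε)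
    (hT : Rig L (180 ^ J) a0 ε0)
    (ha : 24 * ρ ≤ a) (ha0 : 0 < a) (haa : a ≤ a0) (ha1 : a0 ≤ 1) (hεε : ε0 ≤ ε) (hε : 0 ≤ ε)
    (h3 : 18 / a ^ 2 * (ε + (6 / a ^ 2) ^ 2 * ε + 4 * ρ) ≤ (a / 6) ^ 2)
    (h4 : 6 / a ^ 2 * ε ≤ a / 4) :
    Hit L (180 ^ (i + 1)) (180 ^ J) (6 / a0 ^ 2 * ε0) := by
  have hpos : ∀ j : ℕ, 3 ≤ j → 9000 ≤ 180 ^ j := fun j hj =>
    le_trans (by norm_num) (Nat.pow_le_pow_right (by norm_num) hj : 180 ^ 3 ≤ 180 ^ j)
  have hεa : ε ≤ a / 4 := by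
    have h5 : 1 ≤ 6 / a ^ 2 := by
      rw [le_div_iff₀ (by positivity)]
      nlinarith
    nlinarith
  have hw : ∀ m, i + m < J → Hit L (180 ^ (i + 1)) (180 ^ (i + m)) (a / 4) := by
    intro m
    induction m with
    | zero =>
      intro _
      refine (hit_base (hC i le_rfl hiJ).1 (hpos i hi) ?_).mono hεa
      rw [pow_succ]
      have : 1 ≤ 180 ^ i := Nat.one_le_pow _ _ (by norm_num)
      omega
    | succ m ih =>
      intro hm
      have h5 := ih (by omega)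
      have h6 := hC (i + m) (by omega) (by omega)
      have h7 := hC (i + (m + 1)) (by omega) hm
      refine (up hI hρ (by omega) ?_ h6.2 h7.1 ha ha0 le_rfl (by linarith) le_rfl h3 hε h5).mono h4
      refine le_trans (Nat.mul_le_mul_left 100 ?_) hN
      exact Nat.pow_le_pow_right (by norm_num) (by omega)
  obtain ⟨j, rfl⟩ : ∃ j, J = j + 1 := ⟨J - 1, by omega⟩
  obtain ⟨m, rfl⟩ : ∃ m, j = i + m := ⟨j - i, by omega⟩
  exact up hI hρ (by omega) hN (hC (i + m) (by omega) (by omega)).2 hT ha ha0 haa ha1 hεε h3 hε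
    (hw m (by omega))

/-- downward step of the cascade -/
theorem down {L : Lw} {N i J : ℕ} {ρ a ε a0 ε0 x e : ℝ} {M : ℕ} (hI : Inv L N ρ) (hρ : 0 ≤ ρ)
    (hi : 3 ≤ i) (hiJ : i + 3 ≤ J) (hN : 100 * 180 ^ J ≤ N)
    (hC : ∀ i', i + 1 ≤ i' → i' < J → Rig L (180 ^ i') a ε ∧ Rig L (10 * 180 ^ i') a ε)
    (hT : Rig L (180 ^ J) a0 ε0)
    (ha : 24 * ρ ≤ a) (ha0 : 0 < a) (haa : a ≤ a0) (ha1 : a0 ≤ 1) (hεε : ε0 ≤ ε) (hε : 0 ≤ ε)
    (h3 : 18 / a ^ 2 * (ε + (6 / a ^ 2) ^ 2 * ε + 4 * ρ) ≤ (a / 6) ^ 2)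
    (h4 : 6 / a ^ 2 * ε ≤ a / 4) (hM : (2 * 129600 + 3) ^ 2 ≤ M)
    (hx0 : 0 < x) (hx1 : x ≤ 1) (hu : 6 / a0 ^ 2 * ε0 < x ^ M) (he : 0 < e) (he1 : 8 * ρ ≤ e)
    (he2 : x + 4 * ρ < (e / 2) ^ 3) (hs : x + 6 / a0 ^ 2 * ε0 + 16 * ρ ≤ a0 / 4)
    (hx : x + 4 * ρ ≤ a0 / 2) {q : ℕ} (hq : q = 1 ∨ q = 10) :
    L.p (hard (q * 180 ^ i)) ≤ 1 - a0 / 4 ∧ L.p (rhard (q * 180 ^ i)) ≤ e := by
  have hH := chain (i := i + 1) hI hρ (by omega) (by omega) hN hC hT ha ha0 haa ha1 hεε hε h3 h4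
  obtain ⟨j, rfl⟩ : ∃ j, i = j + 3 := ⟨i - 3, by omega⟩
  have hj : (180 : ℕ) ^ (j + 3) = 4 * (45 * 180 ^ 2 * 180 ^ j) := by
    rw [pow_add]
    ring
  have hj2 : (180 : ℕ) ^ (j + 3 + 1 + 1) = 180 ^ 2 * 180 ^ (j + 3) := by
    rw [pow_succ, pow_succ]
    ring
  have hj3 : 180 ^ 3 * 180 ^ (j + 3) ≤ 180 ^ J := by
    rw [← pow_add]
    exact Nat.pow_le_pow_right (by norm_num) (by omega)
  have hj1 : 1 ≤ 180 ^ j := Nat.one_le_pow _ _ (by norm_num)
  set T : ℕ := 180 ^ (j + 3) with hTdef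
  set y : ℕ := 45 * 180 ^ 2 * 180 ^ j with hy
  have hy1 : 1 ≤ y := by
    rw [hy]
    exact Nat.one_le_iff_ne_zero.2 (by positivity)
  have hq1 : 1 ≤ q := by omega
  have hc : ∀ z, ∃ Z : Finset P2, Z.card ≤ (2 * (180 ^ (j + 3 + 1 + 1) / (q * y)) + 3) ^ 2 ∧
      (∀ z' ∈ Z, |z'.1 - z.1| ≤ ((180 ^ (j + 3 + 1 + 1) : ℕ) : ℤ) + ((q * y : ℕ) : ℤ) ∧
        |z'.2 - z.2| ≤ ((180 ^ (j + 3 + 1 + 1) : ℕ) : ℤ) + ((q * y : ℕ) : ℤ)) ∧
      ball z (180 ^ (j + 3 + 1 + 1)) ⊆ Z.biUnion fun z' => ball z' (q * y) := fun z =>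
    Crest.Agent.R144.Cov356.cov1 z _ _ (Nat.mul_pos hq1 hy1)
  choose Z hZ1 hZ2 hZ3 using hc
  have hy2 : y ≤ q * y := Nat.le_mul_of_pos_left y hq1
  have hdiv : 180 ^ (j + 3 + 1 + 1) / (q * y) ≤ 129600 := by
    apply Nat.div_le_of_le_mul
    rw [hj2, hj]
    calc 180 ^ 2 * (4 * y) = y * 129600 := by ring
      _ ≤ q * y * 129600 := Nat.mul_le_mul_right _ hy2
  have hZc : ∀ z, (Z z).card ≤ M := fun z =>
    (hZ1 z).trans (le_trans (Nat.pow_le_pow_left (by omega) 2) hM)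
  have hqT : q * T ≤ 10 * T := Nat.mul_le_mul_right _ (by omega)
  have hqy : q * y ≤ 10 * y := Nat.mul_le_mul_right _ (by omega)
  have hqTy : q * T = 4 * (q * y) := by rw [hj]; ring
  have hN3 : 9000 ≤ 180 ^ J := by omega
  refine stepII Crest.Agent.R144.Qg356.geo Crest.Agent.R144.Qs356.ps2 hI hρ hT hN3 hN (by linarith)
    (by linarith) ha1 hH ?_ (r' := q * y) ?_ (by omega) ?_ ?_ hZc hZ2 hZ3 hx0 hx1 hu hx he he1 he2 hs
  · rw [hj2]
    calc 180 * (180 ^ 2 * T) = 180 ^ 3 * T := by ring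
      _ ≤ _ := hj3
  · rw [hj2, hj]
    omega
  · omega
  · omega

end Crest.Agent.R144.Qcb216
end
end

-- ▼ part R144/Qcc_216
section

/-!
# R144, QRSW (doc 1941): the final theorem `qf : QF` (helper216)
-/

set_option autoImplicit false

noncomputable section

namespace Crest.Agent.R144.Qcc216

open Crest.Agent.R144.It844 (P2 adj_iff)
open Crest.Agent.R144.Qlw216
open Crest.Agent.R144.Qgp216
open Crest.Agent.R144.Qst216
open Crest.Agent.R144.Qsp216
open Crest.Agent.R144.Qca216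
open Crest.Agent.R144.Qcb216
open Crest.Agent.R144.Qfd216

/-- the whole cascade, constants given -/
theorem cascade {L : Lw} {N J : ℕ} {ρ a ε a0 ε0 x e : ℝ} {M : ℕ} (hI : Inv L N ρ) (hρ : 0 ≤ ρ)
    (hJ : 6 ≤ J) (hN : 100 * 180 ^ J ≤ N)
    (hC : ∀ i', J ≤ i' + 2 → i' < J → Rig L (180 ^ i') a ε ∧ Rig L (10 * 180 ^ i') a ε)
    (hT : Rig L (180 ^ J) a0 ε0)
    (hS : ∀ t : ℕ, 100000 ≤ t → t ≤ 180 ^ J → L.p (hard t) ≤ 1 - a0 / 4 → L.p (rhard t) ≤ e →
      Rig L t a ε)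
    (ha : 24 * ρ ≤ a) (ha0 : 0 < a) (haa : a ≤ a0) (ha1 : a0 ≤ 1) (hεε : ε0 ≤ ε) (hε : 0 ≤ ε)
    (h3 : 18 / a ^ 2 * (ε + (6 / a ^ 2) ^ 2 * ε + 4 * ρ) ≤ (a / 6) ^ 2)
    (h4 : 6 / a ^ 2 * ε ≤ a / 4) (hM : (2 * 129600 + 3) ^ 2 ≤ M)
    (hM' : (2 * 180 ^ 4 + 1) ^ 2 ≤ M)
    (hx0 : 0 < x) (hx1 : x ≤ 1) (hu : 6 / a0 ^ 2 * ε0 < x ^ M) (he : 0 < e) (he1 : 8 * ρ ≤ e)
    (he2 : x + 4 * ρ < (e / 2) ^ 3) (hs : x + 6 / a0 ^ 2 * ε0 + 16 * ρ ≤ a0 / 4)
    (hx : x + 4 * ρ ≤ a0 / 2) : False := by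
  -- the cascade
  have hall : ∀ m, m + 5 ≤ J → ∀ i', J ≤ i' + 2 + m → i' < J →
      Rig L (180 ^ i') a ε ∧ Rig L (10 * 180 ^ i') a ε := by
    intro m
    induction m with
    | zero =>
      intro _ i' h1 h2
      exact hC i' (by omega) h2
    | succ m ih =>
      intro hm i' h1 h2
      rcases Nat.lt_or_ge J (i' + 3 + m) with h5 | h5
      · exact ih (by omega) i' (by omega) h2
      · have hC' : ∀ i'', i' + 1 ≤ i'' → i'' < J →
            Rig L (180 ^ i'') a ε ∧ Rig L (10 * 180 ^ i'') a ε := fun i'' h6 h7 =>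
          ih (by omega) i'' (by omega) h7
        have hd := fun (q : ℕ) (hq : q = 1 ∨ q = 10) => down (i := i') hI hρ (by omega) (by omega) hN
          hC' hT ha ha0 haa ha1 hεε hε h3 h4 hM hx0 hx1 hu he he1 he2 hs hx hq
        have hb : (180 : ℕ) ^ 3 ≤ 180 ^ i' := Nat.pow_le_pow_right (by norm_num) (by omega)
        have hb3 : (180 : ℕ) ^ i' * 180 ≤ 180 ^ J := by
          rw [← pow_succ]
          exact Nat.pow_le_pow_right (by norm_num) (by omega)
        have hb2 : (180 : ℕ) ^ 3 = 5832000 := by norm_num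
        constructor
        · obtain ⟨h8, h9⟩ := hd 1 (Or.inl rfl)
          rw [one_mul] at h8 h9
          exact hS _ (by omega) (by omega) h8 h9
        · obtain ⟨h8, h9⟩ := hd 10 (Or.inr rfl)
          exact hS _ (by omega) (by omega) h8 h9
  obtain ⟨m, rfl⟩ : ∃ m, J = m + 5 := ⟨J - 5, by omega⟩
  have hC3 : ∀ i', 3 ≤ i' → i' < m + 5 → Rig L (180 ^ i') a ε ∧ Rig L (10 * 180 ^ i') a ε :=
    fun i' h1 h2 => hall m le_rfl i' (by omega) h2
  have hH := chain (i := 3) hI hρ le_rfl (by omega) hN hC3 hT ha ha0 haa ha1 hεε hε h3 h4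
  have h5 : (180 : ℕ) ^ (m + 5) = 180 ^ m * 180 ^ 5 := pow_add _ _ _
  have h6 : 1 ≤ 180 ^ m := Nat.one_le_pow _ _ (by norm_num)
  have h7 : 180 * (180 : ℕ) ^ (3 + 1) ≤ 180 ^ (m + 5) := by
    rw [h5]
    calc 180 * (180 : ℕ) ^ (3 + 1) = 1 * 180 ^ 5 := by norm_num
      _ ≤ _ := Nat.mul_le_mul_right _ h6
  have h8 : 9000 ≤ 180 ^ (m + 5) := by
    rw [h5]
    calc 9000 ≤ 1 * 180 ^ 5 := by norm_num
      _ ≤ _ := Nat.mul_le_mul_right _ h6
  generalize hr : (180 : ℕ) ^ (3 + 1) = r at hH h7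
  have hM'' : (2 * r + 1) ^ 2 ≤ M := by rw [← hr]; exact hM'
  exact end_ Crest.Agent.R144.Qg356.geo hI hρ hT h8 hN (by linarith) (by linarith) ha1 hH h7 hx0 hx1
    (hu.trans_le (pow_le_pow_of_le_one hx0.le hx1 hM'')) hx hs

/-- **the single-scale RSW theorem over `Lw`** -/
theorem qf : QF := by
  intro c0 hc0
  obtain ⟨c1, hc1, hc10, hmac⟩ := macro_hard Crest.Agent.R144.Qm674.phd (180 ^ 2) hc0
  obtain ⟨am, ham, hP1⟩ := Crest.Agent.R144.Qa277.p32 c1 hc1
  set a0 : ℝ := min am 1 with ha0def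
  have ha0 : 0 < a0 := lt_min ham one_pos
  have ha01 : a0 ≤ 1 := min_le_right _ _
  obtain ⟨as, has, hP2⟩ := Crest.Agent.R144.Qa277.p32 (a0 / 4) (by positivity)
  set a : ℝ := min a0 as with hadef
  have ha : 0 < a := lt_min ha0 has
  have haa : a ≤ a0 := min_le_left _ _
  have ha1 : a ≤ 1 := haa.trans ha01
  set ε : ℝ := a ^ 8 / 50000 with hεdef
  have hε : 0 < ε := by positivity
  obtain ⟨e1, he1, hP2'⟩ := hP2 ε hε
  set x : ℝ := min (a0 / 32) ((e1 / 2) ^ 3 / 4) with hxdef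
  have hx0 : 0 < x := lt_min (by positivity) (by positivity)
  have hxa : x ≤ a0 / 32 := min_le_left _ _
  have hxe : x ≤ (e1 / 2) ^ 3 / 4 := min_le_right _ _
  have hx1 : x ≤ 1 := by linarith
  obtain ⟨M, hM, hM'⟩ : ∃ M : ℕ, (2 * 129600 + 3) ^ 2 ≤ M ∧ (2 * 180 ^ 4 + 1) ^ 2 ≤ M :=
    ⟨_, le_max_left _ _, le_max_right _ _⟩
  have hM1 : 1 ≤ M := le_trans (by norm_num) hM
  have hxM : 0 < x ^ M := pow_pos hx0 M
  have hxM1 : x ^ M ≤ x := by
    calc x ^ M ≤ x ^ 1 := pow_le_pow_of_le_one hx0.le hx1 hM1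
      _ = x := pow_one x
  set ε0 : ℝ := min ε (a0 ^ 2 * x ^ M / 12) with hε0def
  have hε0 : 0 < ε0 := lt_min hε (by positivity)
  have hεε : ε0 ≤ ε := min_le_left _ _
  have hε0x : 6 / a0 ^ 2 * ε0 ≤ x ^ M / 2 := by
    have h1 : ε0 ≤ a0 ^ 2 * x ^ M / 12 := min_le_right _ _
    calc 6 / a0 ^ 2 * ε0 ≤ 6 / a0 ^ 2 * (a0 ^ 2 * x ^ M / 12) :=
          mul_le_mul_of_nonneg_left h1 (by positivity)
      _ = x ^ M / 2 := by field_simp; ring
  obtain ⟨e0, he0, hP1'⟩ := hP1 ε0 hε0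
  set η : ℝ := min (min (min e0 e1) (min c1 (a / 24))) (min (min (a ^ 4 / 5184) ((e1 / 2) ^ 3 / 16))
    (min (a0 / 128) (e1 / 8))) with hηdef
  have hη1 : η ≤ e0 := (min_le_left _ _).trans ((min_le_left _ _).trans (min_le_left _ _))
  have hη2 : η ≤ e1 := (min_le_left _ _).trans ((min_le_left _ _).trans (min_le_right _ _))
  have hη3 : η ≤ c1 := (min_le_left _ _).trans ((min_le_right _ _).trans (min_le_left _ _))
  have hη4 : η ≤ a / 24 := (min_le_left _ _).trans ((min_le_right _ _).trans (min_le_right _ _))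
  have hη5 : η ≤ a ^ 4 / 5184 := (min_le_right _ _).trans ((min_le_left _ _).trans (min_le_left _ _))
  have hη6 : η ≤ (e1 / 2) ^ 3 / 16 :=
    (min_le_right _ _).trans ((min_le_left _ _).trans (min_le_right _ _))
  have hη7 : η ≤ a0 / 128 := (min_le_right _ _).trans ((min_le_right _ _).trans (min_le_left _ _))
  have hη8 : η ≤ e1 / 8 := (min_le_right _ _).trans ((min_le_right _ _).trans (min_le_right _ _))
  have hη : 0 < η := by
    refine lt_min (lt_min (lt_min he0 he1) (lt_min hc1 (by positivity)))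
      (lt_min (lt_min (by positivity) (by positivity)) (lt_min (by positivity) (by positivity)))
  refine ⟨η, hη, 180 ^ 2, 6, ?_⟩
  intro J hJ L N hI hN hrh
  by_contra hcon
  push Not at hcon
  set n : ℕ := 180 ^ J with hn
  have hN' : 100 * n ≤ N := by omega
  have hpow : ∀ i, 3 ≤ i → 100000 ≤ 180 ^ i := fun i hi =>
    le_trans (by norm_num) (Nat.pow_le_pow_right (by norm_num) hi : 180 ^ 3 ≤ 180 ^ i)
  have hT' : Rig L n am ε0 :=
    hP1' L N n (inv_mono hI hη1) (hpow J (by omega)) hN' (by linarith) ((hrh n (by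
      exact Nat.le_mul_of_pos_left _ (by norm_num)) le_rfl).trans hη1)
  have hmacR : ∀ t, 100000 ≤ t → 18 * t ≤ n → n ≤ 180 ^ 2 * t → Rig L t am ε0 := by
    intro t h1 h2 h3
    refine hP1' L N t (inv_mono hI hη1) h1 (by omega) ?_ ((hrh t h3 (by omega)).trans hη1)
    exact hmac L N n t η hI hη.le hη3 hN' (by omega) h2 h3 hcon.le
  have hC : ∀ i', J ≤ i' + 2 → i' < J → Rig L (180 ^ i') a ε ∧ Rig L (10 * 180 ^ i') a ε := by
    intro i' h1 h2
    have h3 : 180 ^ i' * 180 ≤ n := by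
      rw [← pow_succ]
      exact Nat.pow_le_pow_right (by norm_num) (by omega)
    have h4 : n ≤ 180 ^ 2 * 180 ^ i' := by
      rw [← pow_add]
      exact Nat.pow_le_pow_right (by norm_num) (by omega)
    have h5 := hpow i' (by omega)
    have h6 : a ≤ am := haa.trans (min_le_left _ _)
    exact ⟨rig_mono (hmacR _ h5 (by omega) h4) h6 hεε,
      rig_mono (hmacR _ (by omega) (by omega) (by omega)) h6 hεε⟩
  refine cascade (a := a) (ε := ε) (a0 := a0) (ε0 := ε0) (x := x) (e := e1) (M := M) hI hη.le hJ hN'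
    hC (rig_mono hT' (min_le_left _ _) le_rfl) ?_ (by linarith) ha haa ha01 hεε hε.le ?_ ?_ hM hM'
    hx0 hx1 (by linarith) he1 (by linarith) ?_ (by linarith) (by linarith)
  · intro t h1 h2 h3 h4
    exact rig_mono (hP2' L N t (inv_mono hI hη2) h1 (by omega) h3 h4) (min_le_right _ _) le_rfl
  · -- the quadratic condition
    have h1 : 18 / a ^ 2 * (ε + (6 / a ^ 2) ^ 2 * ε + 4 * η) ≤
        18 / a ^ 2 * (37 / a ^ 4 * ε + 4 * (a ^ 4 / 5184)) := by
      apply mul_le_mul_of_nonneg_left _ (by positivity)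
      have h2 : ε ≤ 1 / a ^ 4 * ε := by
        have : 1 ≤ 1 / a ^ 4 := by
          rw [le_div_iff₀ (by positivity), one_mul]
          exact pow_le_one₀ ha.le ha1
        nlinarith
      have h3 : (6 / a ^ 2) ^ 2 * ε = 36 / a ^ 4 * ε := by
        field_simp
        ring
      have h4 : 37 / a ^ 4 * ε = 1 / a ^ 4 * ε + 36 / a ^ 4 * ε := by
        field_simp
        ring
      rw [h3, h4]
      linarith
    have h5 : 18 / a ^ 2 * (37 / a ^ 4 * ε + 4 * (a ^ 4 / 5184)) =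
        a ^ 2 * (666 / 50000 + 1 / 72) := by
      rw [hεdef]
      field_simp
      ring
    rw [h5] at h1
    refine h1.trans ?_
    have : (a / 6) ^ 2 = a ^ 2 * (1 / 36) := by ring
    rw [this]
    exact mul_le_mul_of_nonneg_left (by norm_num) (by positivity)
  · have h1 : 6 / a ^ 2 * ε = a * (6 * a ^ 5 / 50000) := by
      rw [hεdef]
      field_simp
    rw [h1]
    have h2 : a ^ 5 ≤ 1 := pow_le_one₀ ha.le ha1
    nlinarith
  · have : (0 : ℝ) < (e1 / 2) ^ 3 := by positivity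
    linarith

end Crest.Agent.R144.Qcc216
end
end

-- ▼ part R144/Play_948
section

/-!
# R144, QRSW (doc 1941): layers from long crossings, `PLay` of helper216 (helper948)

Covering trick of helper146: every site of `ball 0 n` lies in a small ball around a grid point of
`ball 0 n`; three placements of `hard t` around the grid point block the small ball (helper356).
-/

set_option autoImplicit false

namespace Crest.Agent.R144.Play948

open Crest.Agent.R144.It844 (P2 adj_iff)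
open Crest.Agent.R144.Zg349 (StepIn IsConn)
open Crest.Agent.R144.Rsw867 (path_mono ball mem_ball mem_ball' ball_mono Sepr)
open Crest.Agent.R144.Qs356
open Crest.Agent.R144.Lay356 (sepr_of_slabs)
open Crest.Agent.R144.Qlw216 (XX Rows act ro sg IsPl hard rhard Bb PLay)
open Crest.Agent.R144.Rw146 (gp exists_gp ix mem_ix ball_sub_ball)

theorem rot_add' (u v : P2) : rot (u + v) = rot u + rot v := by
  unfold rot
  ext
  · simp only [Prod.fst_add, Prod.snd_add]; ring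
  · simp only [Prod.fst_add, Prod.snd_add]

/-- the three placements (helper356) -/
def plc' (z : P2) (n t : ℕ) (k : Fin 3) (v : P2) : P2 := rot^[(k : ℕ)] (v + off n t) + z

theorem hrow_of' {B : Set P2} {t : ℕ} (h : ∃ u v, XX u ≤ -(6 * t) ∧ 6 * t ≤ XX v ∧
    Qlw216.Pth (B ∩ Rows 0 t) u v) : Hrow B 0 t (-(6 * t)) (6 * t) := by
  obtain ⟨u, v, h1, h2, _, h4⟩ := h
  refine ⟨u, v, h1, h2, path_mono ?_ h4⟩
  rintro w ⟨hw, hw1, hw2⟩
  exact ⟨hw, hw1, by simpa using hw2⟩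

theorem slabs_of_hard' {ω : Set P2} {z : P2} {n t : ℕ} (h : ∀ k, plc' z n t k ⁻¹' ω ∈ hard t) :
    Slabs z n t ω := by
  refine ⟨?_, ?_, ?_⟩
  · exact hrow_of' (h 0)
  · exact hrow_of' (h 1)
  · exact hrow_of' (h 2)

theorem isPl_plc' {z : P2} {n t N : ℕ} (h1 : |z.1| + |z.2| + 4 * (n + 1 + t) ≤ (N : ℤ)) (k : Fin 3) :
    IsPl N (plc' z n t k) := by
  have hz1 := abs_nonneg z.1
  have hz2 := abs_nonneg z.2
  have a1 := neg_abs_le z.1
  have a2 := le_abs_self z.1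
  have a3 := neg_abs_le z.2
  have a4 := le_abs_self z.2
  have o1 : 0 ≤ (off n t).1 ∧ (off n t).1 ≤ n + 1 + t := by unfold off; simp only; omega
  have o2 : (off n t).2 = -((n : ℤ) + 1 + t) := by unfold off; push_cast; ring
  have hro : ro = rot := rfl
  refine ⟨k, k.2, 0, by norm_num, rot^[(k : ℕ)] (off n t) + z, ?_, ?_, ?_⟩
  · rw [abs_le]
    fin_cases k
    · show _ ≤ (off n t + z).1 ∧ (off n t + z).1 ≤ _
      simp only [Prod.fst_add]; omega
    · show _ ≤ (rot (off n t) + z).1 ∧ (rot (off n t) + z).1 ≤ _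
      unfold rot; simp only [Prod.fst_add]; omega
    · show _ ≤ (rot (rot (off n t)) + z).1 ∧ (rot (rot (off n t)) + z).1 ≤ _
      unfold rot; simp only [Prod.fst_add]; omega
  · rw [abs_le]
    fin_cases k
    · show _ ≤ (off n t + z).2 ∧ (off n t + z).2 ≤ _
      simp only [Prod.snd_add]; omega
    · show _ ≤ (rot (off n t) + z).2 ∧ (rot (off n t) + z).2 ≤ _
      unfold rot; simp only [Prod.snd_add]; omega
    · show _ ≤ (rot (rot (off n t)) + z).2 ∧ (rot (rot (off n t)) + z).2 ≤ _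
      unfold rot; simp only [Prod.snd_add]; omega
  · intro v
    rw [hro]
    unfold plc'
    fin_cases k
    · show v + off n t + z = v + (off n t + z)
      rw [add_assoc]
    · show rot (v + off n t) + z = rot v + (rot (off n t) + z)
      rw [rot_add', add_assoc]
    · show rot (rot (v + off n t)) + z = rot (rot v) + (rot (rot (off n t)) + z)
      rw [rot_add', rot_add', add_assoc]

/-- the centres: grid points of `ball 0 (n + 2 s)` (or `0`) -/
noncomputable def ctr (n s : ℕ) (k : P2) : P2 := by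
  classical exact if gp 0 s k ∈ ball 0 (n + 2 * s) then gp 0 s k else 0

theorem ctr_mem (n s : ℕ) (k : P2) : ctr n s k ∈ ball 0 (n + 2 * s) := by
  unfold ctr
  split_ifs with h
  · exact h
  · rw [mem_ball]; simp; positivity

theorem ctr_of {n s : ℕ} {k : P2} (h : gp 0 s k ∈ ball 0 (n + 2 * s)) : ctr n s k = gp 0 s k :=
  if_pos h

theorem bb_iff {n : ℕ} {v : P2} : v ∈ Bb n ↔ v ∈ ball 0 n := by
  rw [mem_ball]
  simp [Bb]

/-- covering: small blocked balls around all grid points of `ball 0 n` block `ball 0 n` -/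
theorem cover_sepr {S : Set P2} {n s m M L : ℕ} (hs : 1 ≤ s) (hm : 2 * s ≤ m) (hM : 2 * s + M ≤ n)
    (hL : n + s ≤ s * L) (h : ∀ k ∈ ix L, Sepr S (ctr n s k) m M) : Sepr S 0 n (2 * n) := by
  intro u v hu hv p
  obtain ⟨k, hk1, hk2, hk3, hk4⟩ := exists_gp hs hv
  have hs' : (0 : ℤ) < s := by exact_mod_cast hs
  have hL' : (n : ℤ) + s ≤ s * L := by exact_mod_cast hL
  have hk : k ∈ ix L := mem_ix.2 ⟨le_of_mul_le_mul_left (hk3.trans hL') hs',
    le_of_mul_le_mul_left (hk4.trans hL') hs'⟩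
  have h2 := h k hk
  rw [ctr_of hk2] at h2
  refine h2 u v (fun h3 => hu ?_) (ball_mono _ hm hk1) p
  exact ball_sub_ball hk2 (by omega) h3

theorem pLay : PLay := by
  intro k
  have e : ∃ M : ℕ, Nonempty (Fin M ≃ (ix (3 * k + 1) × Fin 3)) :=
    ⟨_, ⟨(Fintype.equivFin _).symm⟩⟩
  obtain ⟨M, ⟨φ⟩⟩ := e
  refine ⟨M, fun n t ht h18 hk => ⟨fun i => plc' (ctr n ((t - 2) / 2) ((φ i).1 : P2)) (t - 2) t (φ i).2,
    fun i => isPl_plc' ?_ _, fun S hS u v hu hv p => ?_⟩⟩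
  · have h1 := ctr_mem n ((t - 2) / 2) ((φ i).1 : P2)
    rw [mem_ball] at h1
    simp only [Prod.fst_zero, Prod.snd_zero, sub_zero] at h1
    push_cast
    omega
  · have hs : 1 ≤ (t - 2) / 2 := by omega
    have hL : n + (t - 2) / 2 ≤ (t - 2) / 2 * (3 * k + 1) := by
      have h3 : t ≤ 3 * ((t - 2) / 2) := by omega
      calc n + (t - 2) / 2 ≤ k * t + (t - 2) / 2 := by omega
        _ ≤ k * (3 * ((t - 2) / 2)) + (t - 2) / 2 := by
            exact Nat.add_le_add_right (Nat.mul_le_mul_left k h3) _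
        _ = (t - 2) / 2 * (3 * k + 1) := by ring
    rw [bb_iff] at hu hv
    refine cover_sepr (S := S) (m := t - 2) (M := 2 * (t - 2 + 1 + t)) hs (by omega) (by omega) hL
      (fun q hq => ?_) u v hu hv p
    refine sepr_of_slabs (by omega) (slabs_of_hard' fun j => ?_)
    have := hS (φ.symm (⟨q, hq⟩, j))
    simpa using this

end Crest.Agent.R144.Play948
end

-- ▼ part R144/Qbr_356

/-!
# R144, QRSW (doc 1941): bridge `QF` (helper216, laws `Lw`, sizes `180 ^ J`) ==> `QRSW` (helper315)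
-/

set_option autoImplicit false

noncomputable section

namespace Crest.Agent.R144.Qbr356

open Crest.Agent.R144.It844 (P2 adj_iff)
open Crest.Agent.R144.Zg349 (StepIn IsConn)
open Crest.Agent.R144.Rsw867 (ball mem_ball path_mono)
open Crest.Agent.R144.Qlw216
open Crest.Agent.R144.Qgp216
open Crest.Agent.R144.Qfd216 (QF)
open Crest.Agent.R144.Qs356 (Hrow Cr hrow_of)
open Crest.Agent.R144.Qr315 (Law QRSW Layer bal pre)

/-! ### laws -/

open Classical in
/-- the mass of the full configuration -/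
def dl (A : Set (Set P2)) : ℝ := if Set.univ ∈ A then 1 else 0

theorem dl_of_mem {A : Set (Set P2)} (h : Set.univ ∈ A) : dl A = 1 := if_pos h
theorem dl_of_not {A : Set (Set P2)} (h : Set.univ ∉ A) : dl A = 0 := if_neg h
theorem dl_nonneg (A : Set (Set P2)) : 0 ≤ dl A := by
  unfold dl; split_ifs <;> norm_num
theorem dl_mod (A B : Set (Set P2)) : dl (A ∪ B) + dl (A ∩ B) = dl A + dl B := by
  by_cases hA : Set.univ ∈ A <;> by_cases hB : Set.univ ∈ B
  · rw [dl_of_mem (A := A ∪ B) (Or.inl hA), dl_of_mem (A := A ∩ B) ⟨hA, hB⟩, dl_of_mem hA,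
      dl_of_mem hB]
  · rw [dl_of_mem (A := A ∪ B) (Or.inl hA), dl_of_not (A := A ∩ B) (fun h => hB h.2), dl_of_mem hA,
      dl_of_not hB]
  · rw [dl_of_mem (A := A ∪ B) (Or.inr hB), dl_of_not (A := A ∩ B) (fun h => hA h.1), dl_of_not hA,
      dl_of_mem hB]
    ring
  · rw [dl_of_not (A := A ∪ B) (fun h => h.elim hA hB), dl_of_not (A := A ∩ B) (fun h => hA h.1),
      dl_of_not hA, dl_of_not hB]

/-- a `Law` as an `Lw`: the mass `P ∅` is moved to the full configuration -/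
def toLw (L : Law) : Lw where
  p A := L.P A - L.P ∅ + L.P ∅ * dl A
  nonneg A := by
    have h1 := L.mono ∅ A (Set.empty_subset _)
    have h2 := mul_nonneg (L.nonneg ∅) (dl_nonneg A)
    linarith
  empty := by
    rw [dl_of_not (Set.notMem_empty _)]
    ring
  univ := by
    rw [dl_of_mem (Set.mem_univ _), L.univ]
    ring
  add A B := by
    have h1 := L.modular A B
    have h2 := dl_mod A B
    have h3 : L.P ∅ * dl (A ∪ B) + L.P ∅ * dl (A ∩ B) = L.P ∅ * dl A + L.P ∅ * dl B := by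
      rw [← mul_add, h2, mul_add]
    linarith
  assoc A B hA hB := by
    by_cases h1 : Set.univ ∈ A
    · by_cases h2 : Set.univ ∈ B
      · rw [dl_of_mem h1, dl_of_mem h2, dl_of_mem (A := A ∩ B) ⟨h1, h2⟩]
        have := L.fkg A B hA hB
        have e : ∀ x : ℝ, x - L.P ∅ + L.P ∅ * 1 = x := fun x => by ring
        rw [e, e, e]
        exact this
      · have hB0 : B = ∅ := by
          rw [Set.eq_empty_iff_forall_notMem]
          exact fun ω hω => h2 (hB (Set.subset_univ ω) hω)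
        subst hB0
        rw [Set.inter_empty, dl_of_not (Set.notMem_empty _)]
        simp
    · have hA0 : A = ∅ := by
        rw [Set.eq_empty_iff_forall_notMem]
        exact fun ω hω => h1 (hA (Set.subset_univ ω) hω)
      subst hA0
      rw [Set.empty_inter, dl_of_not (Set.notMem_empty _)]
      simp

theorem toLw_of_mem (L : Law) {A : Set (Set P2)} (h : Set.univ ∈ A) : (toLw L).p A = L.P A := by
  show L.P A - L.P ∅ + L.P ∅ * dl A = L.P A
  rw [dl_of_mem h]; ring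

/-- transported upper sets -/
theorem toLw_act (L : Law) {g : P2 → P2} {E : Set (Set P2)} (hE : IsUpperSet E) :
    (toLw L).p (act g E) - (toLw L).p E = L.P (act g E) - L.P E := by
  by_cases h : Set.univ ∈ E
  · rw [toLw_of_mem L h, toLw_of_mem L (show Set.univ ∈ act g E from h)]
  · have hE0 : E = ∅ := by
      rw [Set.eq_empty_iff_forall_notMem]
      exact fun ω hω => h (hE (Set.subset_univ ω) hω)
    subst hE0
    have : act g (∅ : Set (Set P2)) = ∅ := rfl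
    rw [this, sub_self, sub_self]

theorem bal_eq (N : ℕ) : bal 0 (N : ℤ) = Bb N := by
  ext v
  simp [bal, Bb]

theorem inv_of {L : Law} {W N : ℕ} {ρ : ℝ} (hρ : 0 ≤ ρ) (hW : 3 * N ≤ W)
    (h : L.Inv W ρ) : Inv (toLw L) N (2 * ρ) := by
  have locW : ∀ {E : Set (Set P2)}, Loc (Bb (3 * N)) E → Qr315.Loc (bal 0 (W : ℤ)) E := by
    intro E hE
    rw [bal_eq]
    refine loc_mono hE ?_
    rintro v ⟨h1, h2, h3⟩
    have : ((3 * N : ℕ) : ℤ) ≤ W := by exact_mod_cast hW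
    exact ⟨h1.trans this, h2.trans this, h3.trans this⟩
  have sub3 : Bb N ⊆ Bb (3 * N) := by
    rintro v ⟨h1, h2, h3⟩
    have : (N : ℤ) ≤ ((3 * N : ℕ) : ℤ) := by push_cast; omega
    exact ⟨h1.trans this, h2.trans this, h3.trans this⟩
  refine ⟨?_, ?_, ?_⟩
  · intro t h1 h2 E hE hl
    have hl3 : Loc (Bb (3 * N)) E := loc_mono hl sub3
    have hlt : Loc (Bb (3 * N)) (act (tr t) E) := loc_act hl fun v hv => by
      obtain ⟨e1, e2, e3⟩ := hv
      unfold Bb tr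
      simp only [Set.mem_ofPred_eq, Prod.fst_add, Prod.snd_add]
      simp only [abs_le] at *
      push_cast
      omega
    have ht : ∀ s : P2, |s.1| ≤ N → |s.2| ≤ N → s ∈ bal 0 (W : ℤ) := by
      intro s e1 e2
      have : ((3 * N : ℕ) : ℤ) ≤ W := by exact_mod_cast hW
      unfold bal
      simp only [Set.mem_ofPred_eq, Prod.fst_zero, Prod.snd_zero, sub_zero]
      simp only [abs_le] at *
      push_cast at this
      omega
    have a1 := h.tr E hE (locW hl3) t (ht t h1 h2)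
    have a2 := h.tr (act (tr t) E) (act_upper hE) (locW hlt) (-t)
      (ht (-t) (by rw [Prod.fst_neg, abs_neg]; exact h1) (by rw [Prod.snd_neg, abs_neg]; exact h2))
    have e : pre (Qr315.tr (-t)) (act (tr t) E) = E := by
      ext ω
      show tr t ⁻¹' (Qr315.tr (-t) ⁻¹' ω) ∈ E ↔ ω ∈ E
      have : tr t ⁻¹' (Qr315.tr (-t) ⁻¹' ω) = ω := by
        ext v
        show v + t + -t ∈ ω ↔ v ∈ ω
        rw [add_neg_cancel_right]
      rw [this]
    rw [e] at a2
    have a1' : L.P E ≤ L.P (act (tr t) E) + ρ := a1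
    rw [toLw_act L hE]
    rw [abs_le]
    constructor <;> linarith
  · intro E hE hl
    have hl3 : Loc (Bb (3 * N)) E := loc_mono hl sub3
    have l1 : Loc (Bb N) (act ro E) := loc_act hl fun v hv => ro_Bb hv
    have l2 : Loc (Bb N) (act ro (act ro E)) := loc_act l1 fun v hv => ro_Bb hv
    have a1 := h.rot E hE (locW hl3)
    have a2 := h.rot (act ro E) (act_upper hE) (locW (loc_mono l1 sub3))
    have a3 := h.rot (act ro (act ro E)) (act_upper (act_upper hE)) (locW (loc_mono l2 sub3))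
    have e : pre Qr315.rot (act ro (act ro E)) = E := by
      ext ω
      show ro ⁻¹' (ro ⁻¹' (Qr315.rot ⁻¹' ω)) ∈ E ↔ ω ∈ E
      have : ro ⁻¹' (ro ⁻¹' (Qr315.rot ⁻¹' ω)) = ω := by
        ext v
        show Qr315.rot (ro (ro v)) ∈ ω ↔ v ∈ ω
        have : Qr315.rot (ro (ro v)) = v := by
          unfold Qr315.rot ro
          ext
          · simp only; ring
          · simp only; ring
        rw [this]
      rw [this]
    rw [e] at a3
    have a1' : L.P E ≤ L.P (act ro E) + ρ := a1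
    have a2' : L.P (act ro E) ≤ L.P (act ro (act ro E)) + ρ := a2
    rw [toLw_act L hE]
    rw [abs_le]
    constructor <;> linarith
  · intro E hE hl
    have hl3 : Loc (Bb (3 * N)) E := loc_mono hl sub3
    have l1 : Loc (Bb N) (act sg E) := loc_act hl fun v hv => sg_Bb hv
    have a1 := h.rfx E hE (locW hl3)
    have a2 := h.rfx (act sg E) (act_upper hE) (locW (loc_mono l1 sub3))
    have e : pre Qr315.rfx (act sg E) = E := by
      ext ω
      show sg ⁻¹' (Qr315.rfx ⁻¹' ω) ∈ E ↔ ω ∈ E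
      have : sg ⁻¹' (Qr315.rfx ⁻¹' ω) = ω := by
        ext v
        show Qr315.rfx (sg v) ∈ ω ↔ v ∈ ω
        have : Qr315.rfx (sg v) = v := by
          unfold Qr315.rfx sg
          ext
          · simp only; ring
          · simp only
        rw [this]
      rw [this]
    rw [e] at a2
    have a1' : L.P E ≤ L.P (act sg E) + ρ := a1
    rw [toLw_act L hE]
    rw [abs_le]
    constructor <;> linarith

/-! ### locality of long crossings -/

theorem hard_sub {t : ℕ} (ht : 1 ≤ t) {ω : Set P2} (h : ω ∈ hard t) : ω ∩ Bb (5 * t) ∈ hard t := by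
  have h1 : Hrow ω 0 t (-(6 * t)) (6 * t) := hrow_of h
  obtain ⟨K, u, v, hK, hc⟩ := h1.cr (by omega)
  refine ⟨u, v, hc.su, hc.sv, ?_⟩
  have hsub : K ⊆ ω ∩ Bb (5 * t) ∩ Rows 0 t := by
    intro w hw
    have e1 := hc.row w hw
    have e2 := hc.col w hw
    refine ⟨⟨hK hw, ?_⟩, ?_⟩
    · unfold Bb
      simp only [Set.mem_ofPred_eq, abs_le]
      omega
    · show (0 : ℤ) ≤ w.2 ∧ w.2 ≤ 0 + t
      omega
  exact ⟨hsub hc.hu, path_mono hsub hc.path⟩

theorem loc_hard {t N : ℕ} (ht : 1 ≤ t) (hN : 5 * t ≤ N) : Loc (Bb N) (hard t) := by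
  refine loc_mono (R := Bb (5 * t)) ?_ ?_
  · intro ω
    exact ⟨hard_sub ht, fun h => hard_upper t Set.inter_subset_left h⟩
  · rintro v ⟨h1, h2, h3⟩
    have : ((5 * t : ℕ) : ℤ) ≤ N := by exact_mod_cast hN
    exact ⟨h1.trans this, h2.trans this, h3.trans this⟩

theorem rhard_iff {t : ℕ} {ω : Set P2} : ω ∈ rhard t ↔ ωᶜ ∈ hard t := Iff.rfl

/-- the complement of `rhard` is local and increasing -/
theorem loc_rhard {t N : ℕ} (ht : 1 ≤ t) (hN : 5 * t ≤ N) : Loc (Bb N) (rhard t)ᶜ := by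
  have key : ∀ ω : Set P2, ωᶜ ∈ hard t ↔ (ω ∩ Bb N)ᶜ ∈ hard t := by
    intro ω
    have h1 := loc_hard ht hN ωᶜ
    have h2 := loc_hard ht hN (ω ∩ Bb N)ᶜ
    have e : (ω ∩ Bb N)ᶜ ∩ Bb N = ωᶜ ∩ Bb N := by
      ext v
      simp only [Set.mem_inter_iff, Set.mem_compl_iff]
      tauto
    rw [h1, h2, e]
  intro ω
  rw [Set.mem_compl_iff, Set.mem_compl_iff, rhard_iff, rhard_iff, ← key ω]

/-! ### finite families -/

section fam
variable (L : Lw)

theorem union_bound {M : ℕ} (G : Fin M → Set (Set P2)) (δ : ℝ) (h : ∀ i, L.p (G i)ᶜ ≤ δ) :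
    1 - M * δ ≤ L.p (⋂ i, G i) := by
  induction M with
  | zero =>
    have : (⋂ i, G i) = Set.univ := by
      ext ω; simp
    rw [this, L.univ]; simp
  | succ M ih =>
    have h1 := ih (fun i => G i.succ) fun i => h _
    have e : (⋂ i, G i) = G 0 ∩ ⋂ i : Fin M, G i.succ := by
      ext ω
      simp only [Set.mem_iInter, Set.mem_inter_iff]
      exact Fin.forall_fin_succ
    rw [e]
    have h2 := p_union_le L (G 0)ᶜ (⋂ i : Fin M, G i.succ)ᶜ
    rw [← Set.compl_inter, p_compl, p_compl L (⋂ i : Fin M, G i.succ)] at h2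
    have h3 := h 0
    push_cast
    linarith

theorem fkg_lower {M : ℕ} (G : Fin M → Set (Set P2)) (δ : ℝ) (hδ : 0 ≤ δ)
    (hG : ∀ i, IsLowerSet (G i)) (h : ∀ i, δ ≤ L.p (G i)) : δ ^ M ≤ L.p (⋂ i, G i) := by
  induction M with
  | zero =>
    have : (⋂ i, G i) = Set.univ := by
      ext ω; simp
    rw [this, L.univ]; simp
  | succ M ih =>
    have h1 := ih (fun i => G i.succ) (fun i => hG _) fun i => h _
    have e : (⋂ i, G i) = G 0 ∩ ⋂ i : Fin M, G i.succ := by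
      ext ω
      simp only [Set.mem_iInter, Set.mem_inter_iff]
      exact Fin.forall_fin_succ
    rw [e]
    have h2 := assoc_lower L (hG 0) (isLowerSet_iInter fun i : Fin M => hG i.succ)
    have h3 := h 0
    rw [pow_succ']
    calc δ * δ ^ M ≤ L.p (G 0) * L.p (⋂ i : Fin M, G i.succ) :=
          mul_le_mul h3 h1 (pow_nonneg hδ _) (L.nonneg _)
      _ ≤ _ := h2

end fam

/-! ### the bridge -/

theorem layer_iff {S : Set P2} {n : ℕ} : Layer S 0 n (2 * n) ↔
    ∀ u v : P2, u ∉ Bb (2 * n) → v ∈ Bb n → ¬ Relation.ReflTransGen (StepIn Sᶜ) u v := by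
  unfold Layer
  have e1 : bal 0 (n : ℤ) = Bb n := bal_eq n
  have e2 : bal 0 (2 * (n : ℤ)) = Bb (2 * n) := by
    rw [← bal_eq]; push_cast; rfl
  rw [e1, e2]

theorem univ_layer (n : ℕ) : (Set.univ : Set P2) ∈ {ω : Set P2 | Layer ω 0 n (2 * n)} := by
  show Layer Set.univ 0 n (2 * n)
  rw [layer_iff]
  intro u v hu hv p
  rcases Relation.ReflTransGen.cases_head p with h | ⟨c, h, _⟩
  · subst h
    apply hu
    obtain ⟨h1, h2, h3⟩ := hv
    have : (n : ℤ) ≤ ((2 * n : ℕ) : ℤ) := by push_cast; omega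
    exact ⟨h1.trans this, h2.trans this, h3.trans this⟩
  · exact h.1 trivial

theorem univ_not_layer (n : ℕ) :
    (Set.univ : Set P2) ∈ {ω : Set P2 | ¬ Layer ωᶜ 0 n (2 * n)} := by
  show ¬ Layer (Set.univ)ᶜ 0 n (2 * n)
  rw [layer_iff]
  intro h
  have hu : (((2 * n + 1 : ℕ) : ℤ), 0) ∉ Bb (2 * n) := by
    unfold Bb
    simp only [Set.mem_ofPred_eq, abs_le]
    push_cast
    omega
  have hv : ((0 : ℤ), (0 : ℤ)) ∈ Bb n := by
    unfold Bb
    simp
  refine h _ _ hu hv ?_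
  rw [compl_compl]
  exact Crest.Agent.R144.Pst967.path_h 0 _ 0 fun _ _ _ => Set.mem_univ _

/-- **the bridge** -/
theorem qrsw_of (hQ : QF) : QRSW := by
  intro c0 hc0
  obtain ⟨M1, hM1⟩ := Play948.pLay 3240
  obtain ⟨η', hη', k, J0, hJ⟩ := hQ (c0 / (2 * (M1 + 1))) (by positivity)
  obtain ⟨M2, hM2⟩ := Play948.pLay (3240 * k)
  set η : ℝ := min (min (η' / 16) (c0 / (16 * (M1 + 1)))) ((η' / 2) ^ M2 / 2) with hη
  have hηpos : 0 < η := by
    rw [hη]
    refine lt_min (lt_min ?_ ?_) ?_ <;> positivity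
  have hη1 : η ≤ η' / 16 := (min_le_left _ _).trans (min_le_left _ _)
  have hη2 : η ≤ c0 / (16 * (M1 + 1)) := (min_le_left _ _).trans (min_le_right _ _)
  have hη3 : η ≤ (η' / 2) ^ M2 / 2 := min_le_right _ _
  refine ⟨η, 180, 18 * 180 ^ (J0 + 9 * k + 9), hηpos, ?_⟩
  intro n hn L hinv hred
  -- the size
  set J := Nat.log 180 (n / 18) with hJdef
  set T := 180 ^ J with hT
  have hn18 : 180 ^ (J0 + 9 * k + 9) ≤ n / 18 := by
    rw [Nat.le_div_iff_mul_le (by norm_num)]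
    linarith
  have hpos : 0 < n / 18 := lt_of_lt_of_le (by positivity) hn18
  have hJle : J0 + 9 * k + 9 ≤ J := by
    rw [hJdef]
    exact Nat.le_log_of_pow_le (by norm_num) hn18
  have hTn : 18 * T ≤ n := by
    have := Nat.pow_log_le_self 180 hpos.ne'
    rw [← hJdef, ← hT, Nat.le_div_iff_mul_le (by norm_num)] at this
    linarith
  have hnT : n ≤ 3240 * T := by
    have := Nat.lt_pow_succ_log_self (b := 180) (by norm_num) (n / 18)
    rw [← hJdef, pow_succ, ← hT] at this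
    omega
  have hTJ : J < T := by
    rw [hT]; exact Nat.lt_pow_self (by norm_num)
  -- the law
  have hI : Inv (toLw L) (60 * n) (2 * η) := inv_of hηpos.le (by omega) hinv
  have hI' : Inv (toLw L) (60 * n) η' := by
    have hle : 2 * η ≤ η' := by linarith
    exact ⟨fun t h1 h2 E hE hl => (hI.tr t h1 h2 E hE hl).trans hle,
      fun E hE hl => (hI.ro E hE hl).trans hle, fun E hE hl => (hI.sg E hE hl).trans hle⟩
  -- the red layer has small probability
  have hredp : (toLw L).p {ω | Layer ωᶜ 0 n (2 * n)} ≤ η := by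
    have h1 := p_compl (toLw L) {ω | Layer ωᶜ 0 n (2 * n)}
    have h2 : {ω : Set P2 | Layer ωᶜ 0 n (2 * n)}ᶜ = {ω | ¬ Layer ωᶜ 0 n (2 * n)} := rfl
    rw [h2] at h1
    have h3 := toLw_of_mem L (univ_not_layer n)
    linarith
  -- no red long crossings
  have hrh : ∀ t : ℕ, T ≤ k * t → t ≤ T → (toLw L).p (rhard t) ≤ η' := by
    intro t h1 h2
    by_contra hcon
    push Not at hcon
    have hk : 1 ≤ k := by
      rcases Nat.eq_zero_or_pos k with h3 | h3
      · rw [h3] at h1; omega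
      · exact h3
    have ht9 : 9 ≤ t := by
      by_contra h3
      have : k * t ≤ k * 8 := Nat.mul_le_mul_left k (by omega)
      omega
    have h3240 : n ≤ 3240 * k * t := by
      calc n ≤ 3240 * T := hnT
        _ ≤ 3240 * (k * t) := Nat.mul_le_mul_left _ h1
        _ = 3240 * k * t := by ring
    obtain ⟨g, hg, hgl⟩ := hM2 n t ht9 (by omega) h3240
    have hG : ∀ i, IsLowerSet (act (g i) (rhard t)) := fun i => act_lower (rhard_lower t)
    have hnear : ∀ i, η' / 2 ≤ (toLw L).p (act (g i) (rhard t)) := by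
      intro i
      have hup : IsUpperSet (rhard t)ᶜ := (rhard_lower t).compl
      have h4 := pl_near hI (by linarith) (isPl_mono (by omega) (hg i)) hup
        (loc_rhard (by omega) (by omega))
      rw [act_compl, p_compl, p_compl] at h4
      have h5 := abs_le.1 h4
      linarith [h5.1, h5.2]
    have h6 := fkg_lower (toLw L) (fun i => act (g i) (rhard t)) (η' / 2) (by positivity) hG hnear
    have h7 : (⋂ i, act (g i) (rhard t)) ⊆ {ω | Layer ωᶜ 0 n (2 * n)} := by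
      intro ω hω
      rw [Set.mem_iInter] at hω
      show Layer ωᶜ 0 n (2 * n)
      rw [layer_iff]
      exact hgl ωᶜ fun i => hω i
    have h8 := p_mono (toLw L) h7
    have h9 : 0 < (η' / 2) ^ M2 := by positivity
    linarith
  have hhard := hJ J (by omega) (toLw L) (60 * n) hI' (by
    rw [← hT]; omega) (by rw [← hT]; exact hrh)
  rw [← hT] at hhard
  -- blue layer
  obtain ⟨g, hg, hgl⟩ := hM1 n T (by omega) hTn hnT
  have hδ : ∀ i, (toLw L).p (act (g i) (hard T))ᶜ ≤ c0 / (M1 + 1) := by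
    intro i
    have h4 := pl_near hI (by linarith) (isPl_mono (by omega) (hg i)) (hard_upper T)
      (loc_hard (by omega) (by omega))
    have h5 := abs_le.1 h4
    rw [p_compl]
    have h6 : c0 / (2 * (M1 + 1)) + 8 * (c0 / (16 * (M1 + 1))) = c0 / (M1 + 1) := by
      field_simp
      ring
    linarith [h5.1, h5.2]
  have h1 := union_bound (toLw L) (fun i => act (g i) (hard T)) _ hδ
  have h2 : (⋂ i, act (g i) (hard T)) ⊆ {ω | Layer ω 0 n (2 * n)} := by
    intro ω hω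
    rw [Set.mem_iInter] at hω
    show Layer ω 0 n (2 * n)
    rw [layer_iff]
    exact hgl ω fun i => hω i
  have h3 := p_mono (toLw L) h2
  have h4 : (M1 : ℝ) * (c0 / (M1 + 1)) ≤ c0 := by
    rw [mul_div_assoc', div_le_iff₀ (by positivity)]
    nlinarith
  have h5 := toLw_of_mem L (univ_layer n)
  linarith

end Crest.Agent.R144.Qbr356
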