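import Crest.Agent.R144.Qlw_216

/-!
# R144, QRSW (doc 1941): laws, transport of the events, GP lemma, Step I (helper216)
-/

set_option autoImplicit false

noncomputable section

namespace Crest.Agent.R144.Qgp216

open Crest.Agent.R144.It844 (P2 adj_iff)
open Crest.Agent.R144.Zg349 (StepIn IsConn)
open Crest.Agent.R144.Rsw867 (ball mem_ball path_mono)
open Crest.Agent.R144.Qlw216
open Crest.ProbabilityR.HexHeights (Adj)

/-! ### laws -/

section Laws

variable (L : Lw)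

theorem p_compl (E : Set (Set P2)) : L.p Eᶜ = 1 - L.p E := by
  have h := L.add E Eᶜ
  rw [Set.union_compl_self, Set.inter_compl_self, L.univ, L.empty] at h
  linarith

theorem p_mono {E F : Set (Set P2)} (h : E ⊆ F) : L.p E ≤ L.p F := by
  have h1 := L.add E (F \ E)
  rw [Set.union_sdiff_cancel h, Set.inter_sdiff_self, L.empty] at h1
  linarith [L.nonneg (F \ E)]

theorem p_le_one (E : Set (Set P2)) : L.p E ≤ 1 := by
  rw [← L.univ]
  exact p_mono L (Set.subset_univ E)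

theorem p_union_le (E F : Set (Set P2)) : L.p (E ∪ F) ≤ L.p E + L.p F := by
  have h := L.add E F
  linarith [L.nonneg (E ∩ F)]

theorem assoc_lower {E F : Set (Set P2)} (hE : IsLowerSet E) (hF : IsLowerSet F) :
    L.p E * L.p F ≤ L.p (E ∩ F) := by
  have h1 := L.assoc Eᶜ Fᶜ hE.compl hF.compl
  have h2 := L.add E F
  have h3 : Eᶜ ∩ Fᶜ = (E ∪ F)ᶜ := by rw [Set.compl_union]
  rw [h3, p_compl, p_compl, p_compl] at h1
  nlinarith

theorem assoc_compl {E F : Set (Set P2)} (hE : IsUpperSet E) (hF : IsUpperSet F) :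
    L.p Eᶜ * L.p Fᶜ ≤ L.p (Eᶜ ∩ Fᶜ) := assoc_lower L hE.compl hF.compl

end Laws

/-! ### transport -/

theorem act_upper {g : P2 → P2} {E : Set (Set P2)} (h : IsUpperSet E) : IsUpperSet (act g E) :=
  fun _ _ hab ha => h (Set.preimage_mono hab) ha

theorem act_lower {g : P2 → P2} {E : Set (Set P2)} (h : IsLowerSet E) : IsLowerSet (act g E) :=
  fun _ _ hab ha => h (Set.preimage_mono hab) ha

theorem act_compl (g : P2 → P2) (E : Set (Set P2)) : act g Eᶜ = (act g E)ᶜ := rfl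

theorem act_comp (g k : P2 → P2) (E : Set (Set P2)) : act (g ∘ k) E = act g (act k E) := rfl

/-! ### locality -/

theorem loc_act {g : P2 → P2} {R R' : Set P2} {E : Set (Set P2)} (hE : Loc R E)
    (hg : ∀ v ∈ R, g v ∈ R') : Loc R' (act g E) := by
  intro ω
  show g ⁻¹' ω ∈ E ↔ g ⁻¹' (ω ∩ R') ∈ E
  rw [hE (g ⁻¹' ω), hE (g ⁻¹' (ω ∩ R'))]
  have : g ⁻¹' ω ∩ R = g ⁻¹' (ω ∩ R') ∩ R := by
    ext v
    constructor
    · rintro ⟨h1, h2⟩
      exact ⟨⟨h1, hg v h2⟩, h2⟩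
    · rintro ⟨⟨h1, -⟩, h2⟩
      exact ⟨h1, h2⟩
  rw [this]

theorem loc_mono {R R' : Set P2} {E : Set (Set P2)} (hE : Loc R E) (h : R ⊆ R') : Loc R' E := by
  intro ω
  rw [hE ω, hE (ω ∩ R')]
  have : ω ∩ R' ∩ R = ω ∩ R := by
    rw [Set.inter_assoc, Set.inter_eq_self_of_subset_right h]
  rw [this]

theorem loc_compl {R : Set P2} {E : Set (Set P2)} (hE : Loc R E) : Loc R Eᶜ := by
  intro ω
  rw [Set.mem_compl_iff, Set.mem_compl_iff, hE ω]

/-- events of the form `∃ C ⊆ ω ∩ O, ..` -/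
theorem loc_ex {O R : Set P2} (h : O ⊆ R) (Q : Set P2 → Prop) :
    Loc R {ω | ∃ C : Set P2, C ⊆ ω ∩ O ∧ Q C} := by
  intro ω
  show (∃ C : Set P2, C ⊆ ω ∩ O ∧ Q C) ↔ (∃ C : Set P2, C ⊆ ω ∩ R ∩ O ∧ Q C)
  have : ω ∩ R ∩ O = ω ∩ O := by
    rw [Set.inter_assoc, Set.inter_eq_self_of_subset_right h]
  rw [this]

theorem sg_Bb {N : ℕ} {v : P2} (h : v ∈ Bb N) : sg v ∈ Bb N := by
  unfold Bb sg at *
  simp only [Set.mem_ofPred_eq, abs_le] at *
  omega

theorem ro_Bb {N : ℕ} {v : P2} (h : v ∈ Bb N) : ro v ∈ Bb N := by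
  unfold Bb ro at *
  simp only [Set.mem_ofPred_eq, abs_le] at *
  omega

theorem pl_near {L : Lw} {N : ℕ} {ρ : ℝ} (h : Inv L N ρ) (hρ : 0 ≤ ρ) {g : P2 → P2} (hg : IsPl N g)
    {E : Set (Set P2)} (hE : IsUpperSet E) (hl : Loc (Bb N) E) :
    |L.p (act g E) - L.p E| ≤ 4 * ρ := by
  obtain ⟨k, hk, e, he, t, h1, h2, h3⟩ := hg
  have h4 : g = tr t ∘ (ro^[k]) ∘ (sg^[e]) := by
    funext v
    simp only [Function.comp, tr, h3]
  subst h4
  rw [act_comp, act_comp]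
  have hS : IsUpperSet (act (sg^[e]) E) := act_upper hE
  have hSl : Loc (Bb N) (act (sg^[e]) E) := by
    interval_cases e
    · exact hl
    · exact loc_act hl fun v hv => sg_Bb hv
  have hR : IsUpperSet (act (ro^[k]) (act (sg^[e]) E)) := act_upper hS
  have hRl : Loc (Bb N) (act (ro^[k]) (act (sg^[e]) E)) := by
    interval_cases k
    · exact hSl
    · exact loc_act hSl fun v hv => ro_Bb hv
    · exact loc_act hSl fun v hv => ro_Bb (ro_Bb hv)
  have e1 := abs_le.1 (h.tr t h1 h2 _ hR hRl)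
  have e2 : |L.p (act (sg^[e]) E) - L.p E| ≤ ρ := by
    interval_cases e
    · have : act (sg^[0]) E = E := rfl
      rw [this, sub_self, abs_zero]
      exact hρ
    · exact h.sg E hE hl
  have e3 : |L.p (act (ro^[k]) (act (sg^[e]) E)) - L.p (act (sg^[e]) E)| ≤ 2 * ρ := by
    interval_cases k
    · have : act (ro^[0]) (act (sg^[e]) E) = act (sg^[e]) E := rfl
      rw [this, sub_self, abs_zero]
      linarith
    · have := h.ro _ hS hSl
      have h5 : act (ro^[1]) (act (sg^[e]) E) = act ro (act (sg^[e]) E) := rfl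
      rw [h5]
      linarith
    · have h6 := abs_le.1 (h.ro _ hS hSl)
      have h7 := abs_le.1 (h.ro _ (act_upper (g := ro) hS) (loc_act hSl fun v hv => ro_Bb hv))
      have h5 : act (ro^[2]) (act (sg^[e]) E) = act ro (act ro (act (sg^[e]) E)) := rfl
      rw [h5, abs_le]
      constructor <;> linarith [h6.1, h6.2, h7.1, h7.2]
  have e2' := abs_le.1 e2
  have e3' := abs_le.1 e3
  rw [abs_le]
  constructor <;> linarith [e1.1, e1.2, e2'.1, e2'.2, e3'.1, e3'.2]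

theorem isPl_mono {N M : ℕ} (h : N ≤ M) {g : P2 → P2} (hg : IsPl N g) : IsPl M g := by
  obtain ⟨k, hk, e, he, t, h1, h2, h3⟩ := hg
  have hNM : (N : ℤ) ≤ M := by exact_mod_cast h
  exact ⟨k, hk, e, he, t, h1.trans hNM, h2.trans hNM, h3⟩

/-- reflection in the line `XX = c` -/
def rf (c : ℤ) (v : P2) : P2 := (c - v.1 - v.2, v.2)

theorem isPl_tr {N : ℕ} {t : P2} (h1 : |t.1| ≤ N) (h2 : |t.2| ≤ N) : IsPl N (tr t) :=
  ⟨0, by norm_num, 0, by norm_num, t, h1, h2, fun _ => rfl⟩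

theorem isPl_rf {N : ℕ} {c : ℤ} (h : |c| ≤ N) : IsPl N (rf c) := by
  refine ⟨0, by norm_num, 1, by norm_num, (c, 0), h, by simp, fun v => ?_⟩
  show rf c v = sg v + (c, 0)
  unfold rf sg
  ext
  · show c - v.1 - v.2 = -v.1 - v.2 + c
    ring
  · show v.2 = v.2 + 0
    ring

theorem XX_rf (c : ℤ) (v : P2) : XX (rf c v) = 2 * c - XX v := by
  unfold XX rf
  ring

theorem rf_rf (c : ℤ) (v : P2) : rf c (rf c v) = v := by
  unfold rf
  ext
  · show c - (c - v.1 - v.2) - v.2 = v.1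
    ring
  · rfl

theorem adj_tr (t u v : P2) (h : Adj u v) : Adj (tr t u) (tr t v) := by
  unfold Adj tr at *
  simp only [Prod.fst_add, Prod.snd_add] at *
  omega

theorem adj_ro (u v : P2) (h : Adj u v) : Adj (ro u) (ro v) := by
  unfold Adj ro at *
  simp only at *
  omega


theorem adj_rf (c : ℤ) (u v : P2) (h : Adj u v) : Adj (rf c u) (rf c v) := by
  unfold Adj rf at *
  simp only at *
  omega

theorem bl_tr {t v : P2} {B : P2 × ℕ} (h : v ∈ bl B) : tr t v ∈ bl (tr t B.1, B.2) := by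
  unfold bl at *
  rw [Finset.mem_coe, mem_ball] at *
  unfold tr
  simpa using h

theorem bl_rf {c : ℤ} {v : P2} {B : P2 × ℕ} (h : v ∈ bl B) : rf c v ∈ bl (rf c B.1, B.2) := by
  unfold bl at *
  rw [Finset.mem_coe, mem_ball] at *
  unfold rf
  simp only [abs_le] at *
  omega

theorem bl_ro {v : P2} {B : P2 × ℕ} (h : v ∈ bl B) : ro v ∈ bl (ro B.1, B.2) := by
  unfold bl at *
  rw [Finset.mem_coe, mem_ball] at *
  unfold ro
  simp only [abs_le] at *
  omega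

theorem Om_Bb {s : P2} {h N : ℕ} (hs : s = 0) (hN : 10 * h ≤ N) : Om s h ⊆ Bb N := by
  subst hs
  rintro v ⟨⟨h1, h2⟩, h3⟩
  have hN' : (10 * h : ℤ) ≤ N := by exact_mod_cast hN
  unfold Bb
  unfold XX at h3
  simp only [Set.mem_ofPred_eq, abs_le, Prod.fst_zero, Prod.snd_zero] at *
  refine ⟨⟨?_, ?_⟩, ⟨?_, ?_⟩, ⟨?_, ?_⟩⟩ <;> omega

theorem loc_A {h N : ℕ} (hN : 10 * h ≤ N) (BB : List (P2 × ℕ)) : Loc (Bb N) (A 0 h BB) :=
  loc_ex (Om_Bb rfl hN) _

theorem loc_ER {h N : ℕ} (hN : 10 * h ≤ N) (B : P2 × ℕ) : Loc (Bb N) (ER 0 h B) :=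
  loc_ex (Om_Bb rfl hN) _

theorem loc_EL {h N : ℕ} (hN : 10 * h ≤ N) (B : P2 × ℕ) : Loc (Bb N) (EL 0 h B) :=
  loc_ex (Om_Bb rfl hN) _

/-- image of a path -/
theorem path_img {g : P2 → P2} (hg : ∀ u v, Adj u v → Adj (g u) (g v)) {S T : Set P2}
    (hST : ∀ w ∈ S, g w ∈ T) {u v : P2} (h : Relation.ReflTransGen (StepIn S) u v) :
    Relation.ReflTransGen (StepIn T) (g u) (g v) := by
  induction h with
  | refl => exact Relation.ReflTransGen.refl
  | tail _ h2 ih => exact ih.tail ⟨hST _ h2.1, hST _ h2.2.1, hg _ _ h2.2.2⟩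

theorem pth_img {g : P2 → P2} (hg : ∀ u v, Adj u v → Adj (g u) (g v)) {S T : Set P2}
    (hST : ∀ w ∈ S, g w ∈ T) {u v : P2} (h : Pth S u v) : Pth T (g u) (g v) :=
  ⟨hST _ h.1, path_img hg hST h.2⟩

theorem conn_img {g : P2 → P2} (hg : ∀ u v, Adj u v → Adj (g u) (g v)) {C : Set P2}
    (h : IsConn C) : IsConn (g '' C) := by
  rintro _ ⟨u, hu, rfl⟩ _ ⟨v, hv, rfl⟩
  exact path_img hg (fun w hw => Set.mem_image_of_mem g hw) (h u hu v hv)

/-- transport of `A` under a map preserving the geometry of the boxes -/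
theorem A_img {g : P2 → P2} (hg : ∀ u v, Adj u v → Adj (g u) (g v)) {s : P2} {h : ℕ}
    (hO : ∀ v ∈ Om s h, g v ∈ Om (g s) h) (hb : ∀ v ∈ Bw s h, g v ∈ Bw (g s) h)
    (ht : ∀ v ∈ Tw s h, g v ∈ Tw (g s) h) (hB : ∀ (B : P2 × ℕ) (v : P2), v ∈ bl B → g v ∈ bl (g B.1, B.2))
    (BB : List (P2 × ℕ)) :
    act g (A s h BB) ⊆ A (g s) h (BB.map fun B => (g B.1, B.2)) := by
  rintro ω ⟨C, h1, h2, ⟨x, hx, hx'⟩, ⟨y, hy, hy'⟩, h5⟩
  refine ⟨g '' C, ?_, conn_img hg h2, ⟨g x, ⟨x, hx, rfl⟩, hb x hx'⟩, ⟨g y, ⟨y, hy, rfl⟩, ht y hy'⟩, ?_⟩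
  · rintro _ ⟨v, hv, rfl⟩
    exact ⟨(h1 hv).1, hO v (h1 hv).2⟩
  · intro B hB'
    rw [List.mem_map] at hB'
    obtain ⟨B0, hB0, rfl⟩ := hB'
    obtain ⟨w, hw, hw'⟩ := h5 B0 hB0
    exact ⟨g w, ⟨w, hw, rfl⟩, hB B0 w hw'⟩

theorem A_tr (t s : P2) (h : ℕ) (BB : List (P2 × ℕ)) :
    act (tr t) (A s h BB) ⊆ A (tr t s) h (BB.map fun B => (tr t B.1, B.2)) := by
  apply A_img (adj_tr t)
  · rintro v ⟨⟨h1, h2⟩, h3⟩
    unfold Om Rows tr XX at *
    simp only [Set.mem_ofPred_eq, Prod.fst_add, Prod.snd_add] at *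
    simp only [abs_le] at *
    omega
  · rintro v ⟨h1, h3⟩
    unfold Bw tr XX at *
    simp only [Set.mem_ofPred_eq, Prod.fst_add, Prod.snd_add] at *
    simp only [abs_le] at *
    omega
  · rintro v ⟨h1, h3⟩
    unfold Tw tr XX at *
    simp only [Set.mem_ofPred_eq, Prod.fst_add, Prod.snd_add] at *
    simp only [abs_le] at *
    omega
  · exact fun B v hv => bl_tr hv

theorem A_rf (c : ℤ) (s : P2) (h : ℕ) (BB : List (P2 × ℕ)) :
    act (rf c) (A s h BB) ⊆ A (rf c s) h (BB.map fun B => (rf c B.1, B.2)) := by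
  apply A_img (adj_rf c)
  · rintro v ⟨⟨h1, h2⟩, h3⟩
    unfold Om Rows rf XX at *
    simp only [Set.mem_ofPred_eq] at *
    simp only [abs_le] at *
    omega
  · rintro v ⟨h1, h3⟩
    unfold Bw rf XX at *
    simp only [Set.mem_ofPred_eq] at *
    simp only [abs_le] at *
    omega
  · rintro v ⟨h1, h3⟩
    unfold Tw rf XX at *
    simp only [Set.mem_ofPred_eq] at *
    simp only [abs_le] at *
    omega
  · exact fun B v hv => bl_rf hv

/-- `C⁺` under the reflection -/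
theorem Cp_rf (c : ℤ) {C : Set P2} {p q w : P2} (h : w ∈ Cp C p q) :
    rf c w ∈ Cp (rf c '' C) (rf c p) (rf c q) := by
  unfold Cp at *
  rcases h with h | h
  · exact Or.inl ⟨w, h, rfl⟩
  · right
    simp only [Set.mem_insert_iff, Set.mem_singleton_iff] at h ⊢
    rcases h with h | h | h | h
    · refine Or.inr (Or.inl ?_)
      rw [h]
      unfold rf
      exact Prod.ext (by simp only; ring) rfl
    · refine Or.inl ?_
      rw [h]
      unfold rf
      exact Prod.ext (by simp only; ring) rfl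
    · refine Or.inr (Or.inr (Or.inr ?_))
      rw [h]
      unfold rf
      exact Prod.ext (by simp only; ring) rfl
    · refine Or.inr (Or.inr (Or.inl ?_))
      rw [h]
      unfold rf
      exact Prod.ext (by simp only; ring) rfl

theorem ER_rf (c : ℤ) (s : P2) (h : ℕ) (B : P2 × ℕ) :
    act (rf c) (ER s h B) ⊆ EL (rf c s) h (rf c B.1, B.2) := by
  rintro ω ⟨C, h1, h2, p, ⟨hp, hp'⟩, q, ⟨hq, hq'⟩, h5, h6⟩
  refine ⟨rf c '' C, ?_, conn_img (adj_rf c) h2, rf c p, ⟨⟨p, hp, rfl⟩, ?_⟩, rf c q,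
    ⟨⟨q, hq, rfl⟩, ?_⟩, ?_, ?_⟩
  · rintro _ ⟨v, hv, rfl⟩
    refine ⟨(h1 hv).1, ?_⟩
    obtain ⟨⟨h7, h8⟩, h9⟩ := (h1 hv).2
    unfold Om Rows rf XX at *
    simp only [Set.mem_ofPred_eq] at *
    simp only [abs_le] at *
    omega
  · obtain ⟨h7, h9⟩ := hp'
    unfold Bw rf XX at *
    simp only [Set.mem_ofPred_eq] at *
    simp only [abs_le] at *
    omega
  · obtain ⟨h7, h9⟩ := hq'
    unfold Tw rf XX at *
    simp only [Set.mem_ofPred_eq] at *
    simp only [abs_le] at *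
    omega
  · rw [Set.disjoint_left]
    rintro _ ⟨v, hv, rfl⟩ h7
    have h8 := bl_rf (c := c) h7
    simp only [rf_rf] at h8
    exact Set.disjoint_left.1 h5 hv h8
  · rintro b ⟨hb, hb'⟩ hr
    apply h6 (rf c b) ⟨?_, hb'⟩
    · intro M
      obtain ⟨v, hv, hv'⟩ := hr (2 * c - M)
      refine ⟨rf c v, ?_, ?_⟩
      · rw [XX_rf]
        omega
      · refine pth_img (adj_rf c) ?_ hv'
        rintro w ⟨hw, hw'⟩
        refine ⟨hw, fun h9 => hw' ?_⟩
        have h10 := Cp_rf c h9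
        rwa [rf_rf] at h10
    · have h8 := bl_rf (c := c) hb
      simpa only [rf_rf] using h8

theorem EL_rf (c : ℤ) (s : P2) (h : ℕ) (B : P2 × ℕ) :
    act (rf c) (EL s h B) ⊆ ER (rf c s) h (rf c B.1, B.2) := by
  rintro ω ⟨C, h1, h2, p, ⟨hp, hp'⟩, q, ⟨hq, hq'⟩, h5, h6⟩
  refine ⟨rf c '' C, ?_, conn_img (adj_rf c) h2, rf c p, ⟨⟨p, hp, rfl⟩, ?_⟩, rf c q,
    ⟨⟨q, hq, rfl⟩, ?_⟩, ?_, ?_⟩
  · rintro _ ⟨v, hv, rfl⟩
    refine ⟨(h1 hv).1, ?_⟩
    obtain ⟨⟨h7, h8⟩, h9⟩ := (h1 hv).2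
    unfold Om Rows rf XX at *
    simp only [Set.mem_ofPred_eq] at *
    simp only [abs_le] at *
    omega
  · obtain ⟨h7, h9⟩ := hp'
    unfold Bw rf XX at *
    simp only [Set.mem_ofPred_eq] at *
    simp only [abs_le] at *
    omega
  · obtain ⟨h7, h9⟩ := hq'
    unfold Tw rf XX at *
    simp only [Set.mem_ofPred_eq] at *
    simp only [abs_le] at *
    omega
  · rw [Set.disjoint_left]
    rintro _ ⟨v, hv, rfl⟩ h7
    have h8 := bl_rf (c := c) h7
    simp only [rf_rf] at h8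
    exact Set.disjoint_left.1 h5 hv h8
  · rintro b ⟨hb, hb'⟩ hr
    apply h6 (rf c b) ⟨?_, hb'⟩
    · intro M
      obtain ⟨v, hv, hv'⟩ := hr (2 * c - M)
      refine ⟨rf c v, ?_, ?_⟩
      · rw [XX_rf]
        omega
      · refine pth_img (adj_rf c) ?_ hv'
        rintro w ⟨hw, hw'⟩
        refine ⟨hw, fun h9 => hw' ?_⟩
        have h10 := Cp_rf c h9
        rwa [rf_rf] at h10
    · have h8 := bl_rf (c := c) hb
      simpa only [rf_rf] using h8

end Crest.Agent.R144.Qgp216
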