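import Crest.Agent.R144.Fin2_268
import Crest.Agent.R144.Rfl_38
import Crest.Agent.R144.Set3_268
import Crest.Agent.R144.Hf12_702
import Crest.Agent.R144.Dpl5_702

-- ▼ part R144/Bf1_856
section

/-!
# R144, block BND (F1): the reflection covariance bound (helper856)

`f1_pow` : for `0 < x`, Lipschitz data `τ`, any level `k` and any weights `b`, `g`:
`Cv x L τ b g ^ 4 ≤ E[X' ^ 4] * (Vr x L τ g) ^ 2 * (pr Ep + pr Em)` where
`X' h = Σ_{v ∈ L} b v (h v - k)` and `Ep`, `Em` are the events that a site of the support of `b` is joined,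
inside `L`, by a path of sites with `h ≥ k + 1` (resp. `h ≤ k - 1`) to a site `v` with `g v ≠ 0` or having
a neighbour outside `L` where `τ ≠ k`.
`f1` : the same with fourth roots.

The only input is the reflection off the `{h ≠ k}`-clusters touching `{v ∉ L} ∪ {g ≠ 0}` (`Rfl38.sum_zero`).
-/

set_option autoImplicit false
set_option linter.unusedSimpArgs false

noncomputable section

namespace Crest.Agent.R144.Bf1856

open Finset
open Crest.ProbabilityR.HexHeights (Adj)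
open Crest.Agent.R144.It844 (P2 Lip adj_symm ex pr conf wt Z Z_pos wt_nonneg mem_conf ex_add ex_smul ex_const ex_congr
  ex_nonneg ex_mono)
open Crest.Agent.R144.Zg349 (StepIn)
open Crest.Agent.R144.Rfl38 (Cl R Stp R_bd R_not R_R lip_R wt_R cl_R)
open Crest.Agent.R144.Fin268 (LS cS Cv Vr)

variable {x : ℝ} {L : Finset P2} {τ : P2 → ℤ}

/-- Cauchy–Schwarz -/
theorem ex_cs (f g : (P2 → ℤ) → ℝ) :
    ex x L τ (fun h => f h * g h) ^ 2 ≤ ex x L τ (fun h => f h ^ 2) * ex x L τ (fun h => g h ^ 2) := by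
  unfold It844.ex
  simp only [smul_eq_mul]
  have h0 := Finset.sum_sq_le_sum_mul_sum_of_sq_le_mul (conf L τ) (r := fun h => wt x L h * (f h * g h))
    (f := fun h => wt x L h * f h ^ 2) (g := fun h => wt x L h * g h ^ 2)
    (fun h _ => mul_nonneg (wt_nonneg _ _ _) (sq_nonneg _))
    (fun h _ => mul_nonneg (wt_nonneg _ _ _) (sq_nonneg _)) (fun h _ => le_of_eq (by ring))
  have h1 := mul_le_mul_of_nonneg_left h0 (sq_nonneg (Z x L τ)⁻¹)
  nlinarith [h1]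

/-- the far sites: `g ≠ 0`, or a neighbour outside `L` where the data are `≠ k` -/
def Far (L : Finset P2) (τ : P2 → ℤ) (g : P2 → ℝ) (k : ℤ) (v : P2) : Prop :=
  g v ≠ 0 ∨ ∃ w, w ∉ L ∧ Adj v w ∧ τ w ≠ k

/-- a site of the support of `b` is joined inside `L` by a `{h ≥ k + 1}`-path to a far site -/
def Ep (L : Finset P2) (τ : P2 → ℤ) (b g : P2 → ℝ) (k : ℤ) : Set (P2 → ℤ) :=
  {h | ∃ u ∈ L, b u ≠ 0 ∧ 1 ≤ h u - k ∧ ∃ v ∈ L, Far L τ g k v ∧
    Relation.ReflTransGen (StepIn {w | w ∈ L ∧ 1 ≤ h w - k}) u v}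

/-- a site of the support of `b` is joined inside `L` by a `{h ≤ k - 1}`-path to a far site -/
def Em (L : Finset P2) (τ : P2 → ℤ) (b g : P2 → ℝ) (k : ℤ) : Set (P2 → ℤ) :=
  {h | ∃ u ∈ L, b u ≠ 0 ∧ 1 ≤ -(h u - k) ∧ ∃ v ∈ L, Far L τ g k v ∧
    Relation.ReflTransGen (StepIn {w | w ∈ L ∧ 1 ≤ -(h w - k)}) u v}

theorem stepIn_symm {S : Set P2} {u v : P2} (h : Relation.ReflTransGen (StepIn S) u v) :
    Relation.ReflTransGen (StepIn S) v u := by
  induction h with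
  | refl => exact Relation.ReflTransGen.refl
  | tail _ hs ih => exact Relation.ReflTransGen.head ⟨hs.2.1, hs.1, adj_symm hs.2.2⟩ ih

/-- the sites whose heights are kept -/
def Kp (L : Finset P2) (g : P2 → ℝ) : Set P2 := {v | v ∉ L ∨ g v ≠ 0}

/-- the cluster event -/
def EV (L : Finset P2) (b g : P2 → ℝ) (k : ℤ) : Set (P2 → ℤ) :=
  {h | ∃ u ∈ {v | v ∈ L ∧ b v ≠ 0}, u ∈ Cl Adj (Kp L g) k h}

theorem ev_sub {b g : P2 → ℝ} {k : ℤ} {h : P2 → ℤ} (hh : h ∈ conf L τ) (hE : h ∈ EV L b g k) :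
    h ∈ Ep L τ b g k ∨ h ∈ Em L τ b g k := by
  obtain ⟨u, ⟨huL, hbu⟩, b0, hb0, hk0, hp⟩ := hE
  obtain ⟨hLip, hτ⟩ := mem_conf.1 hh
  have key : ∀ v, Relation.ReflTransGen (Stp Adj {u | h u ≠ k}) b0 v → h v ≠ k ∧ (v ∉ L ∨
      (v ∈ L ∧ 1 ≤ h v - k ∧ ∃ f ∈ L, Far L τ g k f ∧
        Relation.ReflTransGen (StepIn {w | w ∈ L ∧ 1 ≤ h w - k}) f v) ∨
      (v ∈ L ∧ 1 ≤ -(h v - k) ∧ ∃ f ∈ L, Far L τ g k f ∧
        Relation.ReflTransGen (StepIn {w | w ∈ L ∧ 1 ≤ -(h w - k)}) f v)) := by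
    intro v hv
    induction hv with
    | refl =>
      refine ⟨hk0, ?_⟩
      rcases hb0 with h1 | h1
      · exact Or.inl h1
      · by_cases hL : b0 ∈ L
        · rcases lt_or_gt_of_ne hk0 with h2 | h2
          · exact Or.inr (Or.inr ⟨hL, by omega, b0, hL, Or.inl h1, Relation.ReflTransGen.refl⟩)
          · exact Or.inr (Or.inl ⟨hL, by omega, b0, hL, Or.inl h1, Relation.ReflTransGen.refl⟩)
        · exact Or.inl hL
    | @tail v w _ hs ih =>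
      obtain ⟨hv1, hw1, ha⟩ := hs
      refine ⟨hw1, ?_⟩
      by_cases hwL : w ∈ L
      · right
        obtain ⟨_, h1 | ⟨hvL, h2, f, hfL, hf, hpf⟩ | ⟨hvL, h2, f, hfL, hf, hpf⟩⟩ := ih
        · have hF : Far L τ g k w := Or.inr ⟨v, h1, adj_symm ha, by
            rw [← hτ v h1]; exact hv1⟩
          rcases lt_or_gt_of_ne hw1 with h2 | h2
          · exact Or.inr ⟨hwL, by omega, w, hwL, hF, Relation.ReflTransGen.refl⟩
          · exact Or.inl ⟨hwL, by omega, w, hwL, hF, Relation.ReflTransGen.refl⟩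
        · have h3 := abs_le.1 (hLip _ _ ha)
          have h4 : h w ≠ k := hw1
          have h5 : 1 ≤ h w - k := by omega
          exact Or.inl ⟨hwL, h5, f, hfL, hf, hpf.tail ⟨⟨hvL, h2⟩, ⟨hwL, h5⟩, ha⟩⟩
        · have h3 := abs_le.1 (hLip _ _ ha)
          have h4 : h w ≠ k := hw1
          have h5 : 1 ≤ -(h w - k) := by omega
          exact Or.inr ⟨hwL, h5, f, hfL, hf, hpf.tail ⟨⟨hvL, h2⟩, ⟨hwL, h5⟩, ha⟩⟩
      · exact Or.inl hwL
  obtain ⟨_, h1 | ⟨_, h2, f, hfL, hf, hpf⟩ | ⟨_, h2, f, hfL, hf, hpf⟩⟩ := key u hp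
  · exact absurd huL h1
  · exact Or.inl ⟨u, huL, hbu, h2, f, hfL, hf, stepIn_symm hpf⟩
  · exact Or.inr ⟨u, huL, hbu, h2, f, hfL, hf, stepIn_symm hpf⟩

/-- the recentred statistic -/
def X' (L : Finset P2) (b : P2 → ℝ) (k : ℤ) (h : P2 → ℤ) : ℝ := ∑ v ∈ L, b v * ((h v : ℝ) - k)

theorem X'_eq (b : P2 → ℝ) (k : ℤ) (h : P2 → ℤ) : X' L b k h = LS L b h + (-(∑ v ∈ L, b v) * k) := by
  unfold X' Fin268.LS
  rw [neg_mul, Finset.sum_mul, ← sub_eq_add_neg, ← Finset.sum_sub_distrib]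
  exact Finset.sum_congr rfl fun v _ => by ring

theorem ex_X' (hx : 0 < x) (hτ : Lip τ) (b : P2 → ℝ) (k : ℤ) :
    ex x L τ (X' L b k) = ex x L τ (LS L b) + (-(∑ v ∈ L, b v) * k) := by
  have e : X' L b k = fun h => LS L b h + (-(∑ v ∈ L, b v) * k) := funext fun h => X'_eq b k h
  rw [e, ex_add, ex_const hx hτ]

theorem cS_eq (hx : 0 < x) (hτ : Lip τ) (b : P2 → ℝ) (k : ℤ) (h : P2 → ℤ) :
    cS x L τ b h = X' L b k h - ex x L τ (X' L b k) := by
  rw [ex_X' hx hτ, X'_eq]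
  unfold Fin268.cS
  ring

theorem ex_cS (hx : 0 < x) (hτ : Lip τ) (g : P2 → ℝ) : ex x L τ (cS x L τ g) = 0 := by
  have e : cS x L τ g = fun h => LS L g h + (-(ex x L τ (LS L g))) := funext fun h => by
    unfold Fin268.cS; ring
  rw [e, ex_add, ex_const hx hτ]
  ring

theorem Cv_eq (hx : 0 < x) (hτ : Lip τ) (b g : P2 → ℝ) (k : ℤ) :
    Cv x L τ b g = ex x L τ (fun h => X' L b k h * cS x L τ g h) := by
  unfold Fin268.Cv
  have e : (fun h => cS x L τ b h * cS x L τ g h) = fun h =>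
      X' L b k h * cS x L τ g h + (-(ex x L τ (X' L b k))) • cS x L τ g h := funext fun h => by
    rw [cS_eq hx hτ b k, smul_eq_mul]; ring
  rw [e, ex_add, ex_smul, show ex x L τ (fun h => cS x L τ g h) = 0 from ex_cS hx hτ g]
  simp

open Classical in
/-- **the reflection identity** -/
theorem refl_zero (b g : P2 → ℝ) (k : ℤ) :
    ex x L τ (fun h => if h ∈ EV L b g k then 0 else X' L b k h * cS x L τ g h) = 0 := by
  have h0 := Rfl38.sum_zero (adj := Adj) (Bd := Kp L g) (k := k) (S := conf L τ)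
    (W := fun h => wt x L h * cS x L τ g h) (B := {v | v ∈ L ∧ b v ≠ 0}) (Φ := X' L b k) ?_ ?_ ?_
  · unfold It844.ex
    rw [smul_eq_mul]
    have : ∑ h ∈ conf L τ, wt x L h • (if h ∈ EV L b g k then 0 else X' L b k h * cS x L τ g h) = 0 := by
      refine Eq.trans (Finset.sum_congr rfl fun h _ => ?_) h0
      rw [smul_eq_mul]
      by_cases h1 : h ∈ EV L b g k
      · rw [if_pos h1, if_pos (show ∃ v ∈ {v | v ∈ L ∧ b v ≠ 0}, v ∈ Cl Adj (Kp L g) k h from h1), mul_zero]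
      · rw [if_neg h1, if_neg (show ¬ ∃ v ∈ {v | v ∈ L ∧ b v ≠ 0}, v ∈ Cl Adj (Kp L g) k h from h1)]
        ring
    rw [this, mul_zero]
  · intro h hh
    rw [mem_conf] at *
    exact ⟨lip_R hh.1, fun v hv => by rw [R_bd (show v ∈ Kp L g from Or.inl hv)]; exact hh.2 v hv⟩
  · intro h _
    rw [wt_R]
    congr 1
    unfold Fin268.cS Fin268.LS
    congr 1
    refine Finset.sum_congr rfl fun v _ => ?_
    by_cases hg : g v = 0
    · rw [hg, zero_mul, zero_mul]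
    · rw [R_bd (show v ∈ Kp L g from Or.inr hg)]
  · intro h h' hB
    unfold X'
    rw [← Finset.sum_neg_distrib]
    refine Finset.sum_congr rfl fun v hv => ?_
    by_cases hb : b v = 0
    · rw [hb]; ring
    · rw [hB v ⟨hv, hb⟩]
      push_cast
      ring

open Classical in
/-- indicator -/
def kI (A : Set (P2 → ℤ)) (h : P2 → ℤ) : ℝ := if h ∈ A then 1 else 0

theorem kI_sq (A : Set (P2 → ℤ)) (h : P2 → ℤ) : kI A h ^ 2 = kI A h := by
  unfold kI; split_ifs <;> norm_num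

theorem kI_nonneg (A : Set (P2 → ℤ)) (h : P2 → ℤ) : 0 ≤ kI A h := by
  unfold kI; split_ifs <;> norm_num

theorem pr_eq (A : Set (P2 → ℤ)) : pr x L τ A = ex x L τ (kI A) := by
  classical
  unfold It844.pr
  refine ex_congr fun h _ => ?_
  unfold kI
  congr

theorem Cv_ind (hx : 0 < x) (hτ : Lip τ) (b g : P2 → ℝ) (k : ℤ) :
    Cv x L τ b g = ex x L τ (fun h => (kI (EV L b g k) h * X' L b k h) * cS x L τ g h) := by
  classical
  rw [Cv_eq hx hτ b g k]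
  have h0 := refl_zero (x := x) (L := L) (τ := τ) b g k
  have e : (fun h => X' L b k h * cS x L τ g h) = fun h =>
      (kI (EV L b g k) h * X' L b k h) * cS x L τ g h +
      (if h ∈ EV L b g k then 0 else X' L b k h * cS x L τ g h) := funext fun h => by
    unfold kI
    split_ifs <;> ring
  rw [e, ex_add]
  have h1 : ex x L τ (fun h => if h ∈ EV L b g k then 0 else X' L b k h * cS x L τ g h) = 0 := by
    refine Eq.trans (ex_congr fun h _ => ?_) h0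
    congr
  rw [h1, add_zero]

/-- **the reflection covariance bound, fourth powers** -/
theorem f1_pow (hx : 0 < x) (hτ : Lip τ) (b g : P2 → ℝ) (k : ℤ) :
    Cv x L τ b g ^ 4 ≤ ex x L τ (fun h => X' L b k h ^ 4) * Vr x L τ g ^ 2 *
      (pr x L τ (Ep L τ b g k) + pr x L τ (Em L τ b g k)) := by
  have h1 := ex_cs (x := x) (L := L) (τ := τ) (fun h => kI (EV L b g k) h * X' L b k h) (cS x L τ g)
  rw [← Cv_ind hx hτ b g k] at h1
  have h2 := ex_cs (x := x) (L := L) (τ := τ) (kI (EV L b g k)) (fun h => X' L b k h ^ 2)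
  have e1 : (fun h => kI (EV L b g k) h * X' L b k h ^ 2) = fun h => (kI (EV L b g k) h * X' L b k h) ^ 2 :=
    funext fun h => by rw [mul_pow, kI_sq]
  have e2 : (fun h => (X' L b k h ^ 2) ^ 2) = fun h => X' L b k h ^ 4 := funext fun h => by ring
  have e3 : (fun h => kI (EV L b g k) h ^ 2) = kI (EV L b g k) := funext fun h => kI_sq _ _
  rw [e1, e2, e3] at h2
  have e4 : ex x L τ (fun h => cS x L τ g h ^ 2) = Vr x L τ g := by
    unfold Fin268.Vr Fin268.Cv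
    exact ex_congr fun h _ => by ring
  rw [e4] at h1
  have h3 : ex x L τ (kI (EV L b g k)) ≤ pr x L τ (Ep L τ b g k) + pr x L τ (Em L τ b g k) := by
    rw [pr_eq, pr_eq, ← ex_add]
    refine ex_mono fun h hh => ?_
    by_cases hE : h ∈ EV L b g k
    · have a1 : kI (EV L b g k) h = 1 := by unfold kI; rw [if_pos hE]
      rw [a1]
      rcases ev_sub hh hE with h4 | h4
      · have a2 : kI (Ep L τ b g k) h = 1 := by unfold kI; rw [if_pos h4]
        rw [a2]; linarith [kI_nonneg (Em L τ b g k) h]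
      · have a2 : kI (Em L τ b g k) h = 1 := by unfold kI; rw [if_pos h4]
        rw [a2]; linarith [kI_nonneg (Ep L τ b g k) h]
    · have a1 : kI (EV L b g k) h = 0 := by unfold kI; rw [if_neg hE]
      rw [a1]
      exact add_nonneg (kI_nonneg _ _) (kI_nonneg _ _)
  have hV : 0 ≤ Vr x L τ g := by rw [← e4]; exact ex_nonneg fun h _ => sq_nonneg _
  have hX : 0 ≤ ex x L τ (fun h => X' L b k h ^ 4) := ex_nonneg fun h _ => by positivity
  have hA : 0 ≤ ex x L τ (fun h => (kI (EV L b g k) h * X' L b k h) ^ 2) := ex_nonneg fun h _ => sq_nonneg _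
  calc Cv x L τ b g ^ 4 = (Cv x L τ b g ^ 2) ^ 2 := by ring
    _ ≤ (ex x L τ (fun h => (kI (EV L b g k) h * X' L b k h) ^ 2) * Vr x L τ g) ^ 2 :=
      pow_le_pow_left₀ (sq_nonneg _) h1 2
    _ = ex x L τ (fun h => (kI (EV L b g k) h * X' L b k h) ^ 2) ^ 2 * Vr x L τ g ^ 2 := by ring
    _ ≤ (ex x L τ (kI (EV L b g k)) * ex x L τ (fun h => X' L b k h ^ 4)) * Vr x L τ g ^ 2 :=
      mul_le_mul_of_nonneg_right h2 (sq_nonneg _)
    _ ≤ ((pr x L τ (Ep L τ b g k) + pr x L τ (Em L τ b g k)) * ex x L τ (fun h => X' L b k h ^ 4)) *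
        Vr x L τ g ^ 2 := mul_le_mul_of_nonneg_right (mul_le_mul_of_nonneg_right h3 hX) (sq_nonneg _)
    _ = _ := by ring

theorem pr_nonneg (A : Set (P2 → ℤ)) : 0 ≤ pr x L τ A := by
  rw [pr_eq]; exact ex_nonneg fun h _ => kI_nonneg _ _

theorem Vr_nonneg (g : P2 → ℝ) : 0 ≤ Vr x L τ g := by
  unfold Fin268.Vr Fin268.Cv
  exact ex_nonneg fun h _ => mul_self_nonneg _

/-- **the reflection covariance bound** -/
theorem f1' (hx : 0 < x) (hτ : Lip τ) (b g : P2 → ℝ) (k : ℤ) :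
    |Cv x L τ b g| ≤ ex x L τ (fun h => X' L b k h ^ 4) ^ (1 / 4 : ℝ) * Vr x L τ g ^ (1 / 2 : ℝ) *
      (pr x L τ (Ep L τ b g k) + pr x L τ (Em L τ b g k)) ^ (1 / 4 : ℝ) := by
  have h0 := f1_pow (L := L) hx hτ b g k
  set A := ex x L τ (fun h => X' L b k h ^ 4) with hA
  set P := pr x L τ (Ep L τ b g k) + pr x L τ (Em L τ b g k) with hP
  set V := Vr x L τ g with hV
  have hA0 : 0 ≤ A := ex_nonneg fun h _ => by positivity
  have hP0 : 0 ≤ P := add_nonneg (pr_nonneg _) (pr_nonneg _)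
  have hV0 : 0 ≤ V := Vr_nonneg g
  refine le_of_pow_le_pow_left₀ (n := 4) (by norm_num) (by positivity) ?_
  have e0 : |Cv x L τ b g| ^ 4 = Cv x L τ b g ^ 4 := by
    rw [show (4 : ℕ) = 2 * 2 from rfl, pow_mul, pow_mul, sq_abs]
  have e1 : (A ^ (1 / 4 : ℝ)) ^ 4 = A := by
    rw [← Real.rpow_natCast, ← Real.rpow_mul hA0]; norm_num
  have e2 : (P ^ (1 / 4 : ℝ)) ^ 4 = P := by
    rw [← Real.rpow_natCast, ← Real.rpow_mul hP0]; norm_num
  have e3 : (V ^ (1 / 2 : ℝ)) ^ 4 = V ^ 2 := by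
    rw [← Real.rpow_natCast, ← Real.rpow_mul hV0, ← Real.rpow_natCast]; norm_num
  rw [e0, mul_pow, mul_pow, e1, e2, e3]
  exact h0

/-- **the reflection covariance bound, 991's literal** -/
theorem f1 (hx : 0 < x) (_hx1 : x ≤ 1) (hτ : Lip τ) (k : ℤ) (b g : P2 → ℝ) :
    |Cv x L τ b g| ≤ (ex x L τ (fun h => (∑ v ∈ L, b v * ((h v : ℝ) - k)) ^ 4)) ^ (1 / 4 : ℝ) *
      (1 + (Vr x L τ g) ^ (1 / 2 : ℝ)) * 2 *
      (pr x L τ {h | ∃ u ∈ L, b u ≠ 0 ∧ ∃ v ∈ L, Far L τ g k v ∧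
          Relation.ReflTransGen (StepIn {w | w ∈ L ∧ 1 ≤ h w - k}) u v} +
       pr x L τ {h | ∃ u ∈ L, b u ≠ 0 ∧ ∃ v ∈ L, Far L τ g k v ∧
          Relation.ReflTransGen (StepIn {w | w ∈ L ∧ 1 ≤ -(h w - k)}) u v}) ^ (1 / 4 : ℝ) := by
  have h0 := f1' (L := L) hx hτ b g k
  have mono : ∀ {A B : Set (P2 → ℤ)}, A ⊆ B → pr x L τ A ≤ pr x L τ B := fun {A B} hAB => by
    rw [pr_eq, pr_eq]
    refine ex_mono fun h _ => ?_
    unfold kI
    by_cases h1 : h ∈ A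
    · rw [if_pos h1, if_pos (hAB h1)]
    · rw [if_neg h1]; split_ifs <;> norm_num
  have h1 : pr x L τ (Ep L τ b g k) + pr x L τ (Em L τ b g k) ≤
      pr x L τ {h | ∃ u ∈ L, b u ≠ 0 ∧ ∃ v ∈ L, Far L τ g k v ∧
          Relation.ReflTransGen (StepIn {w | w ∈ L ∧ 1 ≤ h w - k}) u v} +
       pr x L τ {h | ∃ u ∈ L, b u ≠ 0 ∧ ∃ v ∈ L, Far L τ g k v ∧
          Relation.ReflTransGen (StepIn {w | w ∈ L ∧ 1 ≤ -(h w - k)}) u v} :=
    add_le_add (mono fun h ⟨u, h1, h2, _, h3⟩ => ⟨u, h1, h2, h3⟩)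
      (mono fun h ⟨u, h1, h2, _, h3⟩ => ⟨u, h1, h2, h3⟩)
  have hP0 : 0 ≤ pr x L τ (Ep L τ b g k) + pr x L τ (Em L τ b g k) :=
    add_nonneg (pr_nonneg _) (pr_nonneg _)
  have h2 := Real.rpow_le_rpow hP0 h1 (show (0 : ℝ) ≤ 1 / 4 by norm_num)
  have hA0 : 0 ≤ ex x L τ (fun h => X' L b k h ^ 4) := ex_nonneg fun h _ => by positivity
  have hV0 : 0 ≤ Vr x L τ g := Vr_nonneg g
  refine h0.trans (mul_le_mul ?_ h2 (by positivity) (by positivity))
  have h3 : (0 : ℝ) ≤ Vr x L τ g ^ (1 / 2 : ℝ) := Real.rpow_nonneg hV0 _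
  have h4 : (0 : ℝ) ≤ ex x L τ (fun h => X' L b k h ^ 4) ^ (1 / 4 : ℝ) := Real.rpow_nonneg hA0 _
  rw [mul_assoc]
  refine mul_le_mul_of_nonneg_left ?_ h4
  linarith

end Crest.Agent.R144.Bf1856
end
end

-- ▼ part R144/Wc2_856
section

/-!
# R144, block BND: wiring of the boundary decay (field `c2` of `Inputs`) (helper856)

`c2_of` : from the crossing bound at an unmarked boundary point (`CrossTop`), the fourth moment bound of the
bumps (`Mom4`) and the bounded variances (`bd` of `Inputs`), through the reflection covariance bound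
`Bf1856.f1_pow`.
-/

set_option autoImplicit false

noncomputable section

open Set Topology Filter Metric

namespace Crest.Agent.R144.Wc2856

open Crest.ProbabilityR.HexHeights Crest.ProbabilityR.TriHeights Crest.Agent.R144.HexTil353
open Crest.Agent.R144.Set268 (Setup)
open Crest.Agent.R144.It844 (P2 Lip ex pr adj_symm)
open Crest.Agent.R144.Zg349 (StepIn)
open Crest.Agent.R144.Fin268 (LS cS Cv Vr Bump Over)
open Crest.Agent.R144.Bf1856

variable {x : ℝ} {D : Set ℂ} {γ : ℝ → ℂ} {Q : Finset ℂ} {δ : ℕ → ℝ} {Λ : ℕ → Finset (ℤ × ℤ)}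
  {τ : ℕ → ℤ × ℤ → ℤ}

/-- crossing bound at the boundary point `p` -/
def CrossAt (x : ℝ) (δ : ℕ → ℝ) (Λ : ℕ → Finset (ℤ × ℤ)) (τ : ℕ → ℤ × ℤ → ℤ) (p : ℂ) : Prop :=
  ∃ k : ℤ, (k = -1 ∨ k = 0) ∧ ∃ r1 > 0,
    (∀ᶠ n in atTop, ∀ v, Set268.Bd (Λ n) v → dist (centre (δ n) v) p ≤ r1 → τ n v = k) ∧
    ∀ ε > 0, ∀ r2 > 0, ∃ η > 0, ∀ᶠ n in atTop, ∀ s : ℤ, (s = 1 ∨ s = -1) →
      pr x (Λ n) (τ n) {h | ∃ u ∈ Λ n, dist (centre (δ n) u) p ≤ η ∧
        ∃ v ∈ Λ n, r2 ≤ dist (centre (δ n) v) p ∧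
          Relation.ReflTransGen (StepIn {w | w ∈ Λ n ∧ 1 ≤ s * (h w - k)}) u v} ≤ ε

/-- fourth moment bound of the bumps -/
def Mom4 (x : ℝ) (D : Set ℂ) (δ : ℕ → ℝ) (Λ : ℕ → Finset (ℤ × ℤ)) (τ : ℕ → ℤ × ℤ → ℤ) : Prop :=
  ∀ M : ℝ, ∃ C : ℝ, ∀ z ∈ D, ∀ᶠ n in atTop, ∀ b, Bump D (δ n) M z b → ∀ k : ℤ, (k = -1 ∨ k = 0) →
    ex x (Λ n) (τ n) (fun h => (∑ v ∈ Λ n, b v * ((h v : ℝ) - k)) ^ 4) ≤ C

theorem dist_adj {d : ℝ} (hd : 0 < d) {u v : ℤ × ℤ} (h : Adj u v) :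
    dist (centre d u) (centre d v) ≤ d := by
  have h1 := dist_centre_sq d u v
  rw [(HexTil353.adj_iff _ _).1 h] at h1
  have h2 : dist (centre d u) (centre d v) ^ 2 ≤ d ^ 2 := by rw [h1]; simp
  exact (abs_le_of_sq_le_sq' h2 hd.le).2

theorem pr_mono {L : Finset P2} {t : P2 → ℤ} {A B : Set (P2 → ℤ)} (h : A ⊆ B) :
    pr x L t A ≤ pr x L t B := by
  rw [pr_eq, pr_eq]
  refine It844.ex_mono fun g _ => ?_
  unfold kI
  by_cases h1 : g ∈ A
  · rw [if_pos h1, if_pos (h h1)]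
  · rw [if_neg h1]; split_ifs <;> norm_num

/-- **boundary decay** -/
theorem c2_of (hx0 : 0 < x) (hS : Setup D γ Q δ Λ τ) {p : ℂ} (hp : p ∈ frontier D)
    (hC : CrossAt x δ Λ τ p) (hM : Mom4 x D δ Λ τ) {K : Set ℂ} (hK : IsCompact K) (hKD : K ⊆ D)
    (hbd : ∃ C : ℝ, ∀ᶠ n in atTop, ∀ M g, Over K (δ n) M g → Vr x (Λ n) (τ n) g ≤ C * M ^ 2)
    (M : ℝ) {ε : ℝ} (hε : 0 < ε) :
    ∃ η > 0, ∀ z ∈ D, dist z p < η → ∀ᶠ n in atTop, ∀ b g, Bump D (δ n) M z b → Over K (δ n) M g →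
      |Cv x (Λ n) (τ n) b g| ≤ ε := by
  obtain ⟨k, hk, r1, hr1, hcst, hcr⟩ := hC
  obtain ⟨C4, hC4⟩ := hM M
  obtain ⟨Cb, hCb⟩ := hbd
  have hpD : p ∉ D := by
    intro h
    rw [hS.dom.op.frontier_eq] at hp
    exact hp.2 h
  have hpK : p ∉ K := fun h => hpD (hKD h)
  obtain ⟨ρ, hρ, hρK⟩ := Metric.isOpen_iff.1 hK.isClosed.isOpen_compl p hpK
  set r2 : ℝ := min ρ (r1 / 2) with hr2
  have hr2p : 0 < r2 := lt_min hρ (by positivity)
  set A : ℝ := |C4| * (Cb * M ^ 2) ^ 2 + 1 with hA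
  have hAp : 0 < A := by positivity
  obtain ⟨η, hη, hη2⟩ := hcr (ε ^ 4 / (2 * A)) (by positivity) r2 hr2p
  refine ⟨η / 2, by positivity, fun z hz hzp => ?_⟩
  have hsm : ∀ᶠ n in atTop, δ n < r1 / 2 := hS.sites.small (by positivity)
  filter_upwards [hcst, hη2, hC4 z hz, hCb, hsm] with n h1 h2 h3 h4 h5 b g hb hg
  have hδ := hS.sites.pos n
  have hτ : Lip (τ n) := fun u v _ => by
    rcases hS.data n u with e1 | e1 <;> rcases hS.data n v with e2 | e2 <;> rw [e1, e2] <;> norm_num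
  have hu : ∀ u, b u ≠ 0 → dist (centre (δ n) u) p ≤ η := by
    intro u hbu
    have e1 := hb.supp u hbu
    have e2 : infDist z Dᶜ ≤ dist z p := infDist_le_dist_of_mem hpD
    have e3 := dist_triangle (centre (δ n) u) z p
    have e4 := dist_nonneg (x := z) (y := p)
    linarith
  have hf : ∀ v ∈ Λ n, Far (Λ n) (τ n) g k v → r2 ≤ dist (centre (δ n) v) p := by
    rintro v hv (hgv | ⟨w, hw, ha, htw⟩)
    · have e1 := hg.supp v hgv
      have e2 : centre (δ n) v ∉ ball p ρ := fun h => hρK h e1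
      rw [Metric.mem_ball, not_lt] at e2
      exact (min_le_left _ _).trans e2
    · have e1 : r1 < dist (centre (δ n) w) p := by
        by_contra hle
        exact htw (h1 w ⟨hw, v, hv, ha⟩ (not_lt.1 hle))
      have e2 := dist_adj hδ (adj_symm ha)
      have e3 := dist_triangle (centre (δ n) w) (centre (δ n) v) p
      have e4 : r2 ≤ r1 / 2 := min_le_right _ _
      linarith
  have hEp : pr x (Λ n) (τ n) (Ep (Λ n) (τ n) b g k) ≤ ε ^ 4 / (2 * A) := by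
    refine le_trans (pr_mono ?_) (h2 1 (Or.inl rfl))
    rintro h ⟨u, huL, hbu, _, v, hvL, hfv, hp⟩
    refine ⟨u, huL, hu u hbu, v, hvL, hf v hvL hfv, ?_⟩
    simpa only [one_mul] using hp
  have hEm : pr x (Λ n) (τ n) (Em (Λ n) (τ n) b g k) ≤ ε ^ 4 / (2 * A) := by
    refine le_trans (pr_mono ?_) (h2 (-1) (Or.inr rfl))
    rintro h ⟨u, huL, hbu, _, v, hvL, hfv, hp⟩
    refine ⟨u, huL, hu u hbu, v, hvL, hf v hvL hfv, ?_⟩
    simpa only [neg_one_mul] using hp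
  have key := f1_pow (L := Λ n) hx0 hτ b g k
  have hX : ex x (Λ n) (τ n) (fun h => X' (Λ n) b k h ^ 4) ≤ |C4| := (h3 b hb k hk).trans (le_abs_self _)
  have hX0 : 0 ≤ ex x (Λ n) (τ n) (fun h => X' (Λ n) b k h ^ 4) := It844.ex_nonneg fun h _ => by positivity
  have hV0 := Vr_nonneg (x := x) (L := Λ n) (τ := τ n) g
  have hV := h4 M g hg
  have hV2 : Vr x (Λ n) (τ n) g ^ 2 ≤ (Cb * M ^ 2) ^ 2 := pow_le_pow_left₀ hV0 hV 2
  have hP0 : 0 ≤ pr x (Λ n) (τ n) (Ep (Λ n) (τ n) b g k) + pr x (Λ n) (τ n) (Em (Λ n) (τ n) b g k) :=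
    add_nonneg (pr_nonneg _) (pr_nonneg _)
  have hP1 : pr x (Λ n) (τ n) (Ep (Λ n) (τ n) b g k) + pr x (Λ n) (τ n) (Em (Λ n) (τ n) b g k) ≤
      ε ^ 4 / A := by
    have e : ε ^ 4 / A = ε ^ 4 / (2 * A) + ε ^ 4 / (2 * A) := by field_simp; ring
    rw [e]; exact add_le_add hEp hEm
  have h6 : Cv x (Λ n) (τ n) b g ^ 4 ≤ ε ^ 4 := by
    refine key.trans ?_
    calc _ ≤ (|C4| * (Cb * M ^ 2) ^ 2) * (ε ^ 4 / A) := by
          refine mul_le_mul (mul_le_mul hX hV2 (sq_nonneg _) (abs_nonneg _)) hP1 hP0 (by positivity)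
      _ ≤ A * (ε ^ 4 / A) := by
          refine mul_le_mul_of_nonneg_right ?_ (by positivity)
          rw [hA]; linarith
      _ = ε ^ 4 := by field_simp
  refine le_of_pow_le_pow_left₀ (n := 4) (by norm_num) hε.le ?_
  rwa [show |Cv x (Λ n) (τ n) b g| ^ 4 = Cv x (Λ n) (τ n) b g ^ 4 by
    rw [show (4 : ℕ) = 2 * 2 from rfl, pow_mul, pow_mul, sq_abs]]

end Crest.Agent.R144.Wc2856
end
end

-- ▼ part R144/Wc3_856

/-!
# R144, block BND (F1b): uniform fourth moments of bump statistics (helper856)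

`mom4_of` : `Hyp x`, `Setup`, `Env` imply `Wc2856.Mom4`.
-/

set_option autoImplicit false

noncomputable section

open Set Topology Filter Metric MeasureTheory

namespace Crest.Agent.R144.Wc2856

open Crest.ProbabilityR.HexHeights (Adj centre cell)
open Crest.Agent.R144.It844 (P2 ex Lip upT ex_const ex_add ex_smul ex_congr ex_mono)
open Crest.Agent.R144.Pst967 (Hz GObs FLim)
open Crest.Agent.R144.Zg349 (SC)
open Crest.Agent.R144.HexTil353
open Crest.Agent.R144.Fin268 (LS cS Cv Vr Bump Over lip_of_data)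
open Crest.Agent.R144.Set268 (Setup)
open Crest.Agent.R144.Env702 (Env)
open Crest.Agent.R144.Hf702 (Hyp Ln InB hf_ex mem_hball exists_off)
open Crest.Agent.R144.Dpl702 (Cm ex_abs_moment_linear)

variable {x : ℝ}

/-- **core, fourth moments** -/
theorem core4 (hH : Hyp x) (A : ℕ) : ∃ C : ℝ, 0 ≤ C ∧ ∀ (δ r : ℝ) (Λ F : Finset P2) (τ : P2 → ℤ) (b : P2)
    (w : P2 → ℝ) (k : ℤ), (k = -1 ∨ k = 0) → 0 < δ → δ ≤ r → SC F → upT Λ ⊆ F → b ∉ F →
      (∀ v, τ v = -1 ∨ τ v = 0) →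
      (∀ v ∈ Λ, w v ≠ 0 → dist (centre δ v) (centre δ b) ≤ r) → (∀ v, |w v| * r ^ 2 ≤ A * δ ^ 2) →
      ex x Λ τ (fun h => (∑ v ∈ Λ, w v * ((h v : ℝ) - k)) ^ 4) ≤ C := by
  obtain ⟨K, p, P, hR, hPS, hFL⟩ := hH.ex
  obtain ⟨C, hC, h⟩ := hf_ex hH.pos hH.le hR hPS hFL (121 * A)
  set σ : ℝ := 2 * C + 2 * (1089 * A) ^ 2 + 1 with hσ
  refine ⟨2 * Cm 4 * (4 * σ + 1089 * A) ^ 4, ?_, fun δ r Λ F τ b w k hk hδ hδr hF hΛ hb hτ hs hw => ?_⟩
  · have h4 : 0 ≤ (4 * σ + 1089 * (A : ℝ)) ^ 4 := by positivity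
    exact mul_nonneg (mul_nonneg (by norm_num) (Dpl702.cm_nonneg 4)) h4
  have hr : 0 < r := hδ.trans_le hδr
  set N : ℕ := ⌈4 * (r + δ) / δ⌉₊ with hN
  have hN1 : 4 * (r + δ) / δ ≤ N := Nat.le_ceil _
  have hN2 : (N : ℝ) < 4 * (r + δ) / δ + 1 := Nat.ceil_lt_add_one (by positivity)
  have hrd : 1 ≤ r / δ := by rw [le_div_iff₀ hδ]; linarith
  have hN3 : ((N + 1 : ℕ) : ℝ) ≤ 11 * (r / δ) := by
    have e : 4 * (r + δ) / δ = 4 * (r / δ) + 4 := by field_simp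
    rw [e] at hN2
    push_cast
    linarith
  have hNpos : (0 : ℝ) < ((N + 1 : ℕ) : ℝ) := by positivity
  set S := Λ.filter fun v => w v ≠ 0 with hS
  have hInB : InB b (N + 1 - 1) S := by
    intro v hv t ht
    obtain ⟨hvΛ, hw0⟩ := Finset.mem_filter.1 hv
    have h1 : dist (centre δ t) (centre δ v) ≤ δ := Hf702.dist_adj hδ (Env702.adj_of_up (t := t)
      (by simp [Zg349.mem_up]) ht)
    have h2 := hs v hvΛ hw0
    have h3 := dist_triangle (centre δ t) (centre δ v) (centre δ b)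
    rw [Nat.add_sub_cancel]
    exact mem_hball hδ (r := r + δ) (by linarith) hN1
  have hwb : ∀ v ∈ S, |w v| ≤ ((121 * A : ℕ) : ℝ) / ((N + 1 : ℕ) : ℝ) ^ 2 := by
    intro v _
    have h1 := hw v
    rw [le_div_iff₀ (by positivity)]
    have h2 : (((N + 1 : ℕ) : ℝ)) ^ 2 ≤ 121 * (r / δ) ^ 2 := by
      have := pow_le_pow_left₀ hNpos.le hN3 2
      linarith [this, mul_pow (11 : ℝ) (r / δ) 2]
    have h3 : |w v| * (121 * (r / δ) ^ 2) ≤ 121 * A := by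
      have e : |w v| * (121 * (r / δ) ^ 2) = 121 * (|w v| * r ^ 2 / δ ^ 2) := by
        rw [div_pow]; ring
      rw [e]
      refine mul_le_mul_of_nonneg_left ?_ (by norm_num)
      rw [div_le_iff₀ (by positivity)]
      exact h1
    calc |w v| * (((N + 1 : ℕ) : ℝ)) ^ 2 ≤ |w v| * (121 * (r / δ) ^ 2) :=
          mul_le_mul_of_nonneg_left h2 (abs_nonneg _)
      _ ≤ 121 * A := h3
      _ = ((121 * A : ℕ) : ℝ) := by push_cast; ring
  have h2m := h (N + 1) (by omega) b Λ F hF hΛ hb τ hτ S w (Finset.filter_subset _ _) hInB hwb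
  -- total mass
  have hmass : ∑ v ∈ S, |w v| ≤ 1089 * A := by
    have h1 : ∑ v ∈ S, |w v| ≤ S.card • (((121 * A : ℕ) : ℝ) / ((N + 1 : ℕ) : ℝ) ^ 2) :=
      Finset.sum_le_card_nsmul _ _ _ hwb
    have h2 : (S.card : ℝ) ≤ (2 * ((N + 1 : ℕ) : ℝ) + 1) ^ 2 := by
      have h3 : S ⊆ Rsw867.ball b (N + 1) := hInB.sub.trans (Rsw867.ball_mono b (Nat.sub_le (N + 1) 1))
      exact le_trans (by exact_mod_cast Finset.card_le_card h3) (Hf702.card_ball_le b (N + 1))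
    rw [nsmul_eq_mul] at h1
    have hN1' : (1 : ℝ) ≤ ((N + 1 : ℕ) : ℝ) := by push_cast; linarith [Nat.cast_nonneg (α := ℝ) N]
    have h4 : (2 * ((N + 1 : ℕ) : ℝ) + 1) ^ 2 ≤ 9 * ((N + 1 : ℕ) : ℝ) ^ 2 := by nlinarith
    have h5 : (S.card : ℝ) * (((121 * A : ℕ) : ℝ) / ((N + 1 : ℕ) : ℝ) ^ 2) ≤
        (9 * ((N + 1 : ℕ) : ℝ) ^ 2) * (((121 * A : ℕ) : ℝ) / ((N + 1 : ℕ) : ℝ) ^ 2) :=
      mul_le_mul_of_nonneg_right (h2.trans h4) (by positivity)
    have h6 : (9 * ((N + 1 : ℕ) : ℝ) ^ 2) * (((121 * A : ℕ) : ℝ) / ((N + 1 : ℕ) : ℝ) ^ 2) = 1089 * A := by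
      field_simp
      push_cast
      ring
    linarith
  -- the statistic
  set m : ℝ := k * ∑ v ∈ S, w v with hm
  have hX : ∀ g : P2 → ℤ, ∑ v ∈ Λ, w v * ((g v : ℝ) - k) = ∑ v ∈ S, w v * (g v : ℝ) - m := by
    intro g
    rw [hm, Finset.mul_sum, ← Finset.sum_sub_distrib, hS, Finset.sum_filter]
    refine Finset.sum_congr rfl fun v _ => ?_
    by_cases h0 : w v = 0
    · simp [h0]
    · rw [if_pos h0]; ring
  have hk1 : |(k : ℝ)| ≤ 1 := by rcases hk with rfl | rfl <;> norm_num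
  have hm2 : m ^ 2 ≤ (1089 * A) ^ 2 := by
    have h1 : |m| ≤ 1089 * A := by
      rw [hm, abs_mul]
      calc |(k : ℝ)| * |∑ v ∈ S, w v| ≤ 1 * ∑ v ∈ S, |w v| :=
            mul_le_mul hk1 (Finset.abs_sum_le_sum_abs _ _) (abs_nonneg _) zero_le_one
        _ ≤ 1089 * A := by rw [one_mul]; exact hmass
    rw [← sq_abs m]
    exact pow_le_pow_left₀ (abs_nonneg _) h1 2
  have hσ1 : 1 ≤ σ := by rw [hσ]; nlinarith [sq_nonneg (1089 * (A : ℝ))]
  have hv : ex x Λ τ (fun g => (∑ v ∈ S, w v * (g v : ℝ) - m) ^ 2) ≤ σ ^ 2 := by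
    have h1 : ex x Λ τ (fun g => (∑ v ∈ S, w v * (g v : ℝ) - m) ^ 2) ≤
        ex x Λ τ (fun g => (2 : ℝ) • (Ln S w g ^ 2) + 2 * m ^ 2) := by
      refine ex_mono fun g _ => ?_
      rw [smul_eq_mul]
      unfold Hf702.Ln
      nlinarith [sq_nonneg (∑ v ∈ S, w v * (g v : ℝ) + m)]
    rw [ex_add, ex_smul, ex_const hH.pos (lip_of_data hτ), smul_eq_mul] at h1
    nlinarith
  have h4 := ex_abs_moment_linear hH.pos hH.le (lip_of_data hτ) S w m (by linarith : (0 : ℝ) ≤ σ) hv 4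
  have e4 : ex x Λ τ (fun g => (∑ v ∈ Λ, w v * ((g v : ℝ) - k)) ^ 4) =
      ex x Λ τ (fun g => |∑ v ∈ S, w v * (g v : ℝ) - m| ^ 4) :=
    ex_congr fun g _ => by
      rw [hX g, show (4 : ℕ) = 2 * 2 from rfl, pow_mul, pow_mul, sq_abs]
  rw [e4]
  have hs0 : 0 ≤ ∑ v ∈ S, |w v| := Finset.sum_nonneg fun v _ => abs_nonneg _
  refine h4.trans (mul_le_mul_of_nonneg_left ?_ (mul_nonneg (by norm_num) (Dpl702.cm_nonneg 4)))
  exact pow_le_pow_left₀ (by linarith) (by linarith) 4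

variable {D : Set ℂ} {γ : ℝ → ℂ} {P : Finset ℂ} {δ : ℕ → ℝ} {Λn : ℕ → Finset P2} {τn : ℕ → P2 → ℤ}

/-- **(F1b)** uniform fourth moments of the bumps -/
theorem mom4_of (hH : Hyp x) (h : Setup D γ P δ Λn τn) (hE : Env D δ Λn) : Mom4 x D δ Λn τn := by
  intro M
  obtain ⟨F, hSC, hup, hF⟩ := hE
  obtain ⟨C, hC, hcore⟩ := core4 hH (4 * ⌈|M|⌉₊)
  refine ⟨C, fun z hz => ?_⟩
  have hne := Set268.compl_nonempty' h.dom.bdd
  obtain ⟨p, hp, hd⟩ := Set268.exists_frontier_near h.dom.op h.dom.bdd hz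
  set r := infDist z Dᶜ with hr
  have hr0 : 0 < r := (h.dom.op.isClosed_compl.notMem_iff_infDist_pos hne).1 fun h => h hz
  filter_upwards [exists_off h hF (show 0 < r / 8 by positivity), h.sites.small (show 0 < r by positivity)]
    with n hn hδ b hb k hk
  obtain ⟨b0, hb0, hb1⟩ := hn p hp
  refine hcore (δ n) (2 * r) (Λn n) (F n) (τn n) b0 b k hk (h.sites.pos n) (by linarith) (hSC n) (hup n) hb0
    (h.data n) ?_ ?_
  · intro v _ hv
    have h1 := hb.supp v hv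
    have h2 := dist_triangle4 (centre (δ n) v) z p (centre (δ n) b0)
    rw [dist_comm p] at h2
    linarith
  · intro v
    have h1 := hb.le v
    rw [abs_of_nonneg (hb.nonneg v)]
    have h2 : M ≤ (⌈|M|⌉₊ : ℝ) := (le_abs_self M).trans (Nat.le_ceil _)
    have h3 : M * δ n ^ 2 ≤ (⌈|M|⌉₊ : ℝ) * δ n ^ 2 := mul_le_mul_of_nonneg_right h2 (sq_nonneg _)
    push_cast
    have e : b v * (2 * r) ^ 2 = 4 * (b v * r ^ 2) := by ring
    rw [e]
    linarith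

end Crest.Agent.R144.Wc2856
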