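import Crest.Agent.R144.Zs2_349
import Crest.Agent.R144.Pst5_967

-- ▼ part R144/Zo1_349
section

/-!
# R144: joint law of heights and closed triangles with FIXED boundary heights (helper349)

`Λ` finite set of sites, `ξ` boundary heights off `Λ`; `K = upT Λ` the up triangles touching `Λ`.
* `cf Λ ξ` : configurations `(h, z)`, `h ∈ It844.conf Λ ξ`, `z` closed off `K`;
* `Z0 c Λ ξ`, `S0 c Λ ξ f`, `E0 c Λ ξ f` with weight `wt c K` (same triangle weights as the F-type law);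
* `E0_height` : the height marginal is `It844.ex x Λ ξ`, `c * x ^ 2 = 1`;
* `E0_swap`, `E0_dec` : exact decoupling across a closed layer.
-/

set_option autoImplicit false
set_option linter.unusedSectionVars false
set_option linter.unusedSimpArgs false

noncomputable section

namespace Crest.Agent.R144.Zo349

open Finset
open Crest.Agent.R144.It844 (P2 Lip Cst adj_iff adj_symm lip_iff upT mem_upT tw)
open Crest.Agent.R144.Zg349 Crest.Agent.R144.Zk349 Crest.Agent.R144.Zd349 Crest.Agent.R144.Zm349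
open Crest.Agent.R144.Ze349 Crest.Agent.R144.Zs349
open Crest.ProbabilityR.HexHeights (Adj)

/-- configurations with boundary heights `ξ` off `Λ` -/
def cf (Λ : Finset P2) (ξ : P2 → ℤ) : Finset Cfg := It844.conf Λ ξ ×ˢ zs (upT Λ)

theorem mem_cf {Λ : Finset P2} {ξ : P2 → ℤ} {ω : Cfg} :
    ω ∈ cf Λ ξ ↔ (Lip ω.1 ∧ ∀ v, v ∉ Λ → ω.1 v = ξ v) ∧ ∀ t, t ∉ upT Λ → ω.2 t = true := by
  unfold cf
  rw [Finset.mem_product, It844.mem_conf, mem_zs]

theorem mem_upT_iff {Λ : Finset P2} {t : P2} : t ∈ upT Λ ↔ ∃ v ∈ Λ, v ∈ up t := by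
  rw [mem_upT]
  constructor
  · rintro (h | h | h)
    · exact ⟨_, h, mem_up.2 (Or.inl rfl)⟩
    · exact ⟨_, h, mem_up.2 (Or.inr (Or.inl rfl))⟩
    · exact ⟨_, h, mem_up.2 (Or.inr (Or.inr rfl))⟩
  · rintro ⟨v, hv, h⟩
    rcases mem_up.1 h with rfl | rfl | rfl
    · exact Or.inl hv
    · exact Or.inr (Or.inl hv)
    · exact Or.inr (Or.inr hv)

/-- partition function -/
def Z0 (c : ℝ) (Λ : Finset P2) (ξ : P2 → ℤ) : ℝ := ∑ ω ∈ cf Λ ξ, wt c (upT Λ) ω
/-- unnormalised expectation -/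
def S0 (c : ℝ) (Λ : Finset P2) (ξ : P2 → ℤ) (f : Cfg → ℝ) : ℝ := ∑ ω ∈ cf Λ ξ, wt c (upT Λ) ω * f ω
/-- expectation -/
def E0 (c : ℝ) (Λ : Finset P2) (ξ : P2 → ℤ) (f : Cfg → ℝ) : ℝ := S0 c Λ ξ f / Z0 c Λ ξ

section basic
variable {c : ℝ} {Λ : Finset P2} {ξ : P2 → ℤ}

theorem S0_one : S0 c Λ ξ (fun _ => 1) = Z0 c Λ ξ := by
  unfold S0 Z0
  exact Finset.sum_congr rfl fun ω _ => mul_one _

/-- a configuration of positive weight above a height -/
def cz (h : P2 → ℤ) : Cfg := (h, fun t => decide (C1 h t))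

theorem ew_cz {c : ℝ} {h : P2 → ℤ} (hh : Lip h) (t : P2) : 0 < ew c (cz h) t := by
  unfold ew cz
  by_cases h1 : C1 h t
  · simp only [h1, decide_true, if_true]
    exact one_pos
  · have h2 : C2 h t := (c1_or_c2 fun i j => lip_cr hh t i j).resolve_left h1
    simp only [h1, h2, decide_false, Bool.false_eq_true, if_false, if_true]
    exact one_pos

theorem Z0_pos (hc : 1 ≤ c) (hξ : Lip ξ) : 0 < Z0 c Λ ξ := by
  let ω : Cfg := (ξ, fun t => if t ∈ upT Λ then decide (C1 ξ t) else true)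
  refine Finset.sum_pos' (fun ω _ => wt_nonneg hc _ ω) ⟨ω, ?_, ?_⟩
  · rw [mem_cf]
    refine ⟨⟨hξ, fun _ _ => rfl⟩, fun t ht => ?_⟩
    simp only [ω, if_neg ht]
  · unfold wt
    refine Finset.prod_pos fun t ht => ?_
    have h1 := ew_cz (c := c) hξ t
    have h2 : ew c ω t = ew c (cz ξ) t := by
      have e1 : ω.2 t = (cz ξ).2 t := if_pos ht
      unfold ew
      rw [e1]
      rfl
    rw [h2]
    exact h1

theorem E0_add (f g : Cfg → ℝ) : E0 c Λ ξ (fun ω => f ω + g ω) = E0 c Λ ξ f + E0 c Λ ξ g := by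
  unfold E0 S0
  rw [← add_div, ← Finset.sum_add_distrib]
  congr 1
  exact Finset.sum_congr rfl fun ω _ => mul_add _ _ _

theorem E0_smul (a : ℝ) (f : Cfg → ℝ) : E0 c Λ ξ (fun ω => a * f ω) = a * E0 c Λ ξ f := by
  unfold E0 S0
  rw [← mul_div_assoc, Finset.mul_sum]
  congr 1
  exact Finset.sum_congr rfl fun ω _ => by ring

theorem E0_sub (f g : Cfg → ℝ) : E0 c Λ ξ (fun ω => f ω - g ω) = E0 c Λ ξ f - E0 c Λ ξ g := by
  have h1 := E0_add (c := c) (Λ := Λ) (ξ := ξ) f (fun ω => (-1) * g ω)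
  rw [E0_smul] at h1
  have e : (fun ω => f ω - g ω) = fun ω => f ω + (-1) * g ω := by funext ω; ring
  rw [e, h1]; ring

theorem E0_const (hc : 1 ≤ c) (hξ : Lip ξ) (a : ℝ) : E0 c Λ ξ (fun _ => a) = a := by
  have h1 := E0_smul (c := c) (Λ := Λ) (ξ := ξ) a (fun _ => 1)
  simp only [mul_one] at h1
  rw [h1]
  unfold E0
  rw [S0_one, div_self (Z0_pos hc hξ).ne', mul_one]

theorem E0_nonneg (hc : 1 ≤ c) {f : Cfg → ℝ} (h : ∀ ω ∈ cf Λ ξ, 0 ≤ f ω) : 0 ≤ E0 c Λ ξ f :=
  div_nonneg (Finset.sum_nonneg fun ω hω => mul_nonneg (wt_nonneg hc _ ω) (h ω hω))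
    (Finset.sum_nonneg fun ω _ => wt_nonneg hc _ ω)

/-- only configurations of positive weight matter -/
theorem E0_congr {f g : Cfg → ℝ} (h : ∀ ω ∈ cf Λ ξ, wt c (upT Λ) ω ≠ 0 → f ω = g ω) :
    E0 c Λ ξ f = E0 c Λ ξ g := by
  unfold E0 S0
  congr 1
  refine Finset.sum_congr rfl fun ω hω => ?_
  by_cases hw : wt c (upT Λ) ω = 0
  · rw [hw, zero_mul, zero_mul]
  · rw [h ω hω hw]

theorem E0_mono (hc : 1 ≤ c) {f g : Cfg → ℝ} (h : ∀ ω ∈ cf Λ ξ, wt c (upT Λ) ω ≠ 0 → f ω ≤ g ω) :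
    E0 c Λ ξ f ≤ E0 c Λ ξ g := by
  unfold E0 S0
  refine div_le_div_of_nonneg_right (Finset.sum_le_sum fun ω hω => ?_)
    (Finset.sum_nonneg fun ω _ => wt_nonneg hc _ ω)
  by_cases hw : wt c (upT Λ) ω = 0
  · rw [hw, zero_mul, zero_mul]
  · exact mul_le_mul_of_nonneg_left (h ω hω hw) (wt_nonneg hc _ ω)

theorem E0_sum {ι : Type*} (s : Finset ι) (f : ι → Cfg → ℝ) :
    E0 c Λ ξ (fun ω => ∑ i ∈ s, f i ω) = ∑ i ∈ s, E0 c Λ ξ (f i) := by
  unfold E0 S0
  rw [← Finset.sum_div, Finset.sum_comm]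
  simp only [Finset.mul_sum]

end basic

/-! ### height marginal -/

theorem sum_z {K : Finset P2} (c : ℝ) {h : P2 → ℤ} (hh : Lip h) :
    ∑ z ∈ zs K, wt c K (h, z) = ∏ t ∈ K, (if Cst h t then c else 1) := by
  classical
  rw [sum_zs]
  have h1 : ∀ t, (if Cst h t then c else 1) = (if C1 h t then (1 : ℝ) else 0) +
      (if C2 h t then (if C1 h t then c - 1 else 1) else 0) := by
    intro t
    have hl := fun i j => lip_cr hh t i j
    have a1 := cst_iff (h := h) (t := t) hl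
    have a2 := c1_or_c2 (h := h) (t := t) hl
    by_cases b1 : C1 h t <;> by_cases b2 : C2 h t
    · rw [if_pos (a1.2 ⟨b1, b2⟩), if_pos b1, if_pos b2, if_pos b1]; ring
    · rw [if_neg fun h' => b2 (a1.1 h').2, if_pos b1, if_neg b2]; ring
    · rw [if_neg fun h' => b1 (a1.1 h').1, if_neg b1, if_pos b2, if_neg b1]; ring
    · exact absurd a2 (by tauto)
  rw [Finset.prod_congr rfl fun t _ => h1 t, Finset.prod_add]
  refine Finset.sum_congr rfl fun Z hZ => ?_
  rw [Finset.mem_powerset] at hZ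
  unfold wt
  rw [← Finset.prod_inter_mul_prod_sdiff K Z, Finset.inter_eq_right.2 hZ]
  congr 1
  · refine Finset.prod_congr rfl fun t ht => ?_
    have e : (zb K Z t) = true := by
      unfold zb; rw [decide_eq_true_eq]; exact Or.inr ht
    unfold ew
    simp only [e, if_true]
  · refine Finset.prod_congr rfl fun t ht => ?_
    rw [Finset.mem_sdiff] at ht
    have e : (zb K Z t) = false := by
      unfold zb; rw [decide_eq_false_iff_not]; tauto
    unfold ew
    simp only [e, Bool.false_eq_true, if_false]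

/-- **Height marginal.** -/
theorem S0_height {c x : ℝ} (hcx : c * x ^ 2 = 1) (Λ : Finset P2) (ξ : P2 → ℤ) (f : (P2 → ℤ) → ℝ) :
    S0 c Λ ξ (fun ω => f ω.1) = c ^ (upT Λ).card * ∑ h ∈ It844.conf Λ ξ, It844.wt x Λ h * f h := by
  unfold S0 cf
  rw [Finset.sum_product, Finset.mul_sum]
  refine Finset.sum_congr rfl fun h hh => ?_
  show ∑ z ∈ zs (upT Λ), wt c (upT Λ) (h, z) * f h = _
  rw [← Finset.sum_mul, sum_z c (It844.mem_conf.1 hh).1, ← mul_assoc]
  congr 1
  unfold It844.wt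
  rw [← Finset.prod_const, ← Finset.prod_mul_distrib]
  refine Finset.prod_congr rfl fun t _ => ?_
  unfold tw
  split_ifs
  · ring
  · exact hcx.symm

theorem E0_height {c x : ℝ} (hcx : c * x ^ 2 = 1) (Λ : Finset P2) (ξ : P2 → ℤ) (f : (P2 → ℤ) → ℝ) :
    E0 c Λ ξ (fun ω => f ω.1) = It844.ex x Λ ξ f := by
  have h1 := S0_height hcx Λ ξ f
  have h2 := S0_height hcx Λ ξ (fun _ => 1)
  rw [S0_one] at h2
  have hc : c ≠ 0 := by
    rintro rfl
    rw [zero_mul] at hcx
    exact zero_ne_one hcx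
  unfold E0 It844.ex
  rw [h1, h2, mul_div_mul_left _ _ (pow_ne_zero _ hc)]
  simp only [mul_one, smul_eq_mul]
  unfold It844.Z
  rw [div_eq_inv_mul]

/-! ### exact decoupling -/

section dec
variable {c : ℝ} {Λ : Finset P2} {ξ : P2 → ℤ} {e : Bool} {W : Finset P2}

theorem glue_mem_cf (hW : SC W) (hWΛ : VF W ⊆ Λ) {ω ω' : Cfg} (hω : ω ∈ cf Λ ξ) (hL : Lay e W ω)
    (hω' : Valid W ω') : glue e W ω ω' ∈ cf Λ ξ := by
  rw [mem_cf] at hω ⊢
  obtain ⟨⟨h1, h2⟩, h3⟩ := hω
  have hWK : ∀ t ∈ W, t ∈ upT Λ := fun t ht =>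
    mem_upT_iff.2 ⟨t, hWΛ (mem_VF.2 ⟨t, ht, base_mem_up t⟩), base_mem_up t⟩
  refine ⟨⟨glue_lip hW h1 hL hω', fun v hv => ?_⟩, fun t ht => ?_⟩
  · rw [glue_out fun h => hv (hWΛ h)]
    exact h2 v hv
  · rw [glue_z' fun h => ht (hWK t h)]
    exact h3 t ht

theorem sub_upT (hWΛ : VF W ⊆ Λ) : W ⊆ upT Λ := fun t ht =>
  mem_upT_iff.2 ⟨t, hWΛ (mem_VF.2 ⟨t, ht, base_mem_up t⟩), base_mem_up t⟩

/-- **Exact decoupling, swap form, fixed boundary heights.** -/
theorem E0_swap (hc : 1 ≤ c) (hW : SC W) (hWΛ : VF W ⊆ Λ) (Ψ : Cfg → ℝ) :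
    E0 c Λ ξ (fun ω => layI e W ω * Ψ ω) =
      E0 c Λ ξ (fun ω => layI e W ω * E c W (fun ω' => Ψ (glue e W ω ω'))) := by
  classical
  have h := swap (e := e) hW c (sub_upT hWΛ) (cf Λ ξ) (fun ω hω => (mem_cf.1 hω).1.1)
    (fun ω hω hL ω' hω' => glue_mem_cf hW hWΛ hω hL (mem_conf.1 hω')) Ψ
  have hZ := Z_pos hc W
  have red : ∀ f : Cfg → ℝ, ∑ ω ∈ cf Λ ξ, wt c (upT Λ) ω * (layI e W ω * f ω) =
      ∑ ω ∈ (cf Λ ξ).filter (Lay e W), wt c (upT Λ) ω * f ω := by
    intro f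
    rw [Finset.sum_filter]
    refine Finset.sum_congr rfl fun ω _ => ?_
    by_cases hL : Lay e W ω
    · rw [layI_of hL, if_pos hL, one_mul]
    · rw [layI_of_not hL, if_neg hL, zero_mul, mul_zero]
  unfold E0 S0
  rw [red, red]
  congr 1
  rw [← mul_right_cancel_iff_of_pos hZ, h, Finset.sum_mul]
  refine Finset.sum_congr rfl fun ω _ => ?_
  rw [E_eq_div, mul_assoc, div_mul_cancel₀ _ hZ.ne']

/-- consequence for products -/
theorem E0_dec (hc : 1 ≤ c) (hW : SC W) (hWΛ : VF W ⊆ Λ) {Ψ g : Cfg → ℝ} {φ : Cfg → Cfg → ℝ}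
    (h0 : ∀ ω ∈ cf Λ ξ, wt c (upT Λ) ω ≠ 0 → ¬ Lay e W ω → Ψ ω = 0 ∧ g ω = 0)
    (h1 : ∀ ω ω', ω ∈ cf Λ ξ → wt c (upT Λ) ω ≠ 0 → Lay e W ω → Valid W ω' →
      Ψ (glue e W ω ω') = g ω * φ ω ω') :
    E0 c Λ ξ Ψ = E0 c Λ ξ (fun ω => g ω * E c W (φ ω)) := by
  have e1 : E0 c Λ ξ Ψ = E0 c Λ ξ (fun ω => layI e W ω * Ψ ω) := E0_congr fun ω hω hw => by
    by_cases hL : Lay e W ω
    · rw [layI_of hL, one_mul]
    · rw [layI_of_not hL, zero_mul, (h0 ω hω hw hL).1]
  rw [e1, E0_swap hc hW hWΛ]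
  refine E0_congr fun ω hω hw => ?_
  by_cases hL : Lay e W ω
  · rw [layI_of hL, one_mul]
    have e2 : E c W (fun ω' => Ψ (glue e W ω ω')) = E c W (fun ω' => g ω * φ ω ω') :=
      E_congr fun ω' hω' => h1 ω ω' hω hw hL hω'
    rw [e2, E_smul]
  · rw [layI_of_not hL, zero_mul, (h0 ω hω hw hL).2, zero_mul]

theorem closed_c1' {ω : Cfg} (hw : wt c (upT Λ) ω ≠ 0)
    {t : P2} (htK : t ∈ upT Λ) (ht : ω.2 t = true) {v : P2} (hv : v ∈ up t) : s1 (ω.1 v) = s1 (ω.1 t) := by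
  have h1 : ew c ω t ≠ 0 := fun h => hw (Finset.prod_eq_zero htK h)
  have h2 : C1 ω.1 t := by
    by_contra h
    apply h1
    unfold ew
    rw [if_pos ht, if_neg h]
  obtain ⟨a, b⟩ := h2
  obtain ⟨i, rfl⟩ := mem_up_iff.1 hv
  fin_cases i
  · rfl
  · exact a.symm
  · exact b.symm

/-- the layer event from the closed status and the sign of the base site; `VF W ⊆ Λ` -/
theorem lay_of' (hWΛ : VF W ⊆ Λ) {ω : Cfg} (hw : wt c (upT Λ) ω ≠ 0)
    (h : ∀ t, t ∉ W → (∃ v ∈ VF W, v ∈ up t) → ω.2 t = true ∧ s1 (ω.1 t) = e) : Lay e W ω := by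
  intro t ht h1
  obtain ⟨h2, h3⟩ := h t ht h1
  obtain ⟨v, hv, hvt⟩ := h1
  have htK : t ∈ upT Λ := mem_upT_iff.2 ⟨v, hWΛ hv, hvt⟩
  exact ⟨h2, fun v hv => by rw [closed_c1' hw htK h2 hv, h3]⟩

/-- decoupling across a closed layer of sign `e` for colour observables -/
theorem E0_dec_col (hc : 1 ≤ c) (hW : SC W) (hWΛ : VF W ⊆ Λ) {g f f' : Cfg → ℝ} (hg : OffTZ W g)
    (hg1 : ∀ ω, g ω ≠ 0 → ∀ t, t ∉ W → (∃ v ∈ VF W, v ∈ up t) → ω.2 t = true ∧ s1 (ω.1 t) = e)
    (hf : ∀ ω ω' : Cfg, (∀ v ∈ VF W, (ω.1 v - ω'.1 v) % 4 = off e) → (∀ t ∈ W, ω.2 t = ω'.2 t) →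
      f ω = f' ω') :
    E0 c Λ ξ (fun ω => g ω * f ω) = E0 c Λ ξ g * E c W f' := by
  rw [E0_dec (e := e) hc hW hWΛ (g := g) (φ := fun _ => f')]
  · have : (fun ω => g ω * E c W f') = fun ω => E c W f' * g ω := by funext ω; ring
    rw [this, E0_smul, mul_comm]
  · intro ω hω hw hL
    have : g ω = 0 := by
      by_contra h
      exact hL (lay_of' hWΛ hw fun t ht h1 => hg1 ω h t ht h1)
    exact ⟨by rw [this, zero_mul], this⟩
  · intro ω ω' hω hw hL hω'
    have hl := (mem_cf.1 hω).1.1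
    rw [offTZ_glue hW hl hL hω' hg]
    congr 1
    refine hf _ _ (fun v hv => ?_) fun t ht => glue_z ht
    rw [glue_in hv, add_sub_cancel_right]
    exact lev_mod hW hl hL hv

end dec

end Crest.Agent.R144.Zo349
end
end

-- ▼ part R144/Zo2_349

/-!
# R144: duality for a finite set `Λ` of sites with wired boundary (helper349)

Dual vertices `Du`: down triangles `f w`, private ones `p t i` (side `i` of the up triangle `t` when both ends of
this side are off `Λ`), and a root `r`.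
* `exact0` : exactness (T-join in the connected complement of `Λ`);
* `kw0`, `count0` : Kramers-Wannier duality and the number of sign functions supported in `Λ`, constant on the
  triangles of `upT Λ \ Z`.
-/

set_option autoImplicit false
set_option linter.unusedSectionVars false
set_option linter.unusedSimpArgs false

noncomputable section

namespace Crest.Agent.R144.Zo349

open Finset
open Crest.Agent.R144.It844 (P2 Lip Cst adj_iff adj_symm lip_iff upT mem_upT tw adj_up)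
open Crest.Agent.R144.Zg349 Crest.Agent.R144.Zk349 Crest.Agent.R144.Zd349 Crest.Agent.R144.Zm349
open Crest.Agent.R144.HyA349 Crest.Agent.R144.HyB349 Crest.Agent.R144.HyC349
open Crest.Agent.R144.Ze349 Crest.Agent.R144.Zs349
open Crest.ProbabilityR.HexHeights (Adj)
open Crest.Agent.R161.KWabs729 (z2_cases)

/-! ### spin functions on an arbitrary type -/

section gen
variable {β ε : Type*} [DecidableEq β] [DecidableEq ε]

/-- indicator as a `ZMod 2` function -/
def chg (B : Finset β) (v : β) : ZMod 2 := if v ∈ B then 1 else 0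

theorem chg_inj : Function.Injective (chg (β := β)) := by
  intro A B h
  ext v
  have := congrFun h v
  unfold chg at this
  by_cases h1 : v ∈ A <;> by_cases h2 : v ∈ B <;> simp [h1, h2] at this ⊢

open Classical in
/-- spin functions supported in `A` -/
def fsg (A : Finset β) : Finset (β → ZMod 2) := A.powerset.image chg

theorem mem_fsg {A : Finset β} {s : β → ZMod 2} : s ∈ fsg A ↔ ∀ v, v ∉ A → s v = 0 := by
  classical
  unfold fsg
  rw [Finset.mem_image]
  constructor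
  · rintro ⟨B, hB, rfl⟩ v hv
    unfold chg
    rw [if_neg fun h => hv (Finset.mem_powerset.1 hB h)]
  · intro h
    refine ⟨A.filter fun v => s v = 1, by simp, ?_⟩
    funext v
    unfold chg
    by_cases hv : v ∈ A
    · rcases z2_cases (s v) with h0 | h0
      · rw [h0, if_neg]
        simp [h0]
      · rw [h0, if_pos]
        simp [h0, hv]
    · rw [h v hv, if_neg]
      simp [hv]

theorem sum_fsg {M : Type*} [AddCommMonoid M] (A : Finset β) (f : (β → ZMod 2) → M) :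
    ∑ s ∈ fsg A, f s = ∑ B ∈ A.powerset, f (chg B) := by
  classical
  unfold fsg
  rw [Finset.sum_image fun x _ y _ h => chg_inj h]

theorem zero_mem_fsg (A : Finset β) : (0 : β → ZMod 2) ∈ fsg A := mem_fsg.2 fun _ _ => rfl

theorem add_mem_fsg (A : Finset β) : ∀ x ∈ fsg A, ∀ y ∈ fsg A, x + y ∈ fsg A := by
  intro x hx y hy
  rw [mem_fsg] at *
  intro v hv
  rw [Pi.add_apply, hx v hv, hy v hv, add_zero]

/-- `psi` as a sum over spin functions -/
theorem psi_fsg (dn : ε → Fin 3 → β) (VA : Finset β) (c : ℝ) (D : Finset ε) :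
    psi dn VA c D ∅ = ∑ s ∈ fsg VA, ∏ t ∈ D, (if M3 (dn t) s then (1 : ℝ) else 0) := by
  classical
  rw [sum_fsg]
  unfold psi
  simp only [Finset.prod_empty, mul_one]
  let toB : (↥VA → ℤˣ) → Finset β := fun σ =>
    Finset.image (fun v : ↥VA => (v : β)) (Finset.univ.filter fun v : ↥VA => σ v = -1)
  have hmem : ∀ σ v, v ∈ toB σ ↔ ∃ h : v ∈ VA, σ ⟨v, h⟩ = -1 := by
    intro σ v
    simp only [toB]
    rw [Finset.mem_image]
    constructor
    · rintro ⟨w, h1, rfl⟩
      exact ⟨w.2, (Finset.mem_filter.1 h1).2⟩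
    · rintro ⟨h, h1⟩
      exact ⟨⟨v, h⟩, Finset.mem_filter.2 ⟨Finset.mem_univ _, h1⟩, rfl⟩
  refine Finset.sum_bij' (fun σ _ => toB σ)
    (fun B _ => fun v : ↥VA => if (v : β) ∈ B then -1 else 1) ?_ ?_ ?_ ?_ ?_
  · intro σ _
    rw [Finset.mem_powerset]
    intro v hv
    exact ((hmem σ v).1 hv).1
  · intro B _
    exact Finset.mem_univ _
  · intro σ _
    funext v
    simp only [hmem]
    by_cases h : σ v = -1
    · rw [if_pos ⟨v.2, h⟩, h]
    · rw [if_neg]
      · exact ((Int.units_eq_one_or (σ v)).resolve_right h).symm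
      · rintro ⟨_, h'⟩
        exact h h'
  · intro B hB
    ext v
    rw [hmem]
    constructor
    · rintro ⟨h, h1⟩
      by_contra h2
      simp [h2] at h1
    · intro h
      exact ⟨Finset.mem_powerset.1 hB h, by simp [h]⟩
  · intro σ _
    refine Finset.prod_congr rfl fun t _ => ?_
    have key : ∀ v, chg (toB σ) v = if sp VA σ v = 1 then 0 else 1 := by
      intro v
      unfold chg sp
      by_cases hv : v ∈ VA
      · rw [dif_pos hv]
        rcases Int.units_eq_one_or (σ ⟨v, hv⟩) with h1 | h1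
        · rw [if_neg, if_pos h1]
          rw [hmem]
          rintro ⟨_, h2⟩
          rw [h1] at h2
          exact absurd h2 (by decide)
        · rw [if_pos ((hmem σ v).2 ⟨hv, h1⟩), if_neg]
          rw [h1]; decide
      · rw [dif_neg hv, if_neg, if_pos rfl]
        rw [hmem]
        rintro ⟨h, _⟩
        exact hv h
    have h2 : Mono dn VA σ t ↔ M3 (dn t) (chg (toB σ)) := by
      unfold Mono M3
      rw [key, key, key]
      rcases Int.units_eq_one_or (sp VA σ (dn t 0)) with h0 | h0 <;>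
        rcases Int.units_eq_one_or (sp VA σ (dn t 1)) with h1 | h1 <;>
        rcases Int.units_eq_one_or (sp VA σ (dn t 2)) with h2 | h2 <;>
        rw [h0, h1, h2] <;> decide
    unfold hd
    by_cases h : Mono dn VA σ t
    · rw [if_pos h, if_pos (h2.1 h)]
    · rw [if_neg h, if_neg (fun h' => h (h2.2 h'))]

end gen

/-! ### duals -/

/-- dual vertices -/
inductive Du : Type
  | f (w : P2)
  | p (t : P2) (i : Fin 3)
  | r
  deriving DecidableEq

/-- side `i` of `t` touches `Λ` -/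
def Tc (Λ : Finset P2) (t : P2) (i : Fin 3) : Prop := ∃ j, j ≠ i ∧ cr t j ∈ Λ

instance (Λ : Finset P2) (t : P2) (i : Fin 3) : Decidable (Tc Λ t i) := by unfold Tc; infer_instance

/-- dual vertices of an up triangle -/
def dnp (Λ : Finset P2) (t : P2) (i : Fin 3) : Du := if Tc Λ t i then Du.f (dn t i) else Du.p t i

/-- all dual vertices -/
def VA (Λ : Finset P2) : Finset Du :=
  ((upT Λ).biUnion fun t => Finset.univ.image (dnp Λ t)) ∪
    (upT Λ).biUnion fun t => Finset.univ.image fun i => Du.f (dn t i)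

theorem dnp_mem {Λ : Finset P2} {t : P2} (ht : t ∈ upT Λ) (i : Fin 3) : dnp Λ t i ∈ VA Λ :=
  Finset.mem_union_left _ (Finset.mem_biUnion.2 ⟨t, ht, Finset.mem_image_of_mem _ (Finset.mem_univ i)⟩)

theorem f_mem {Λ : Finset P2} {t : P2} (ht : t ∈ upT Λ) (i : Fin 3) : Du.f (dn t i) ∈ VA Λ :=
  Finset.mem_union_right _ (Finset.mem_biUnion.2
    ⟨t, ht, Finset.mem_image_of_mem (fun i => Du.f (dn t i)) (Finset.mem_univ i)⟩)

theorem mem_VA {Λ : Finset P2} {a : Du} : a ∈ VA Λ ↔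
    (∃ t ∈ upT Λ, ∃ i, dnp Λ t i = a) ∨ ∃ t ∈ upT Λ, ∃ i, Du.f (dn t i) = a := by
  unfold VA
  rw [Finset.mem_union, Finset.mem_biUnion, Finset.mem_biUnion]
  simp only [Finset.mem_image, Finset.mem_univ, true_and]

theorem r_notMem {Λ : Finset P2} : Du.r ∉ VA Λ := by
  rw [mem_VA]
  rintro (⟨t, _, i, h⟩ | ⟨t, _, i, h⟩)
  · unfold dnp at h
    split_ifs at h
  · exact Du.noConfusion h

theorem p_mem {Λ : Finset P2} {t : P2} {i : Fin 3} (h : Du.p t i ∈ VA Λ) : ¬ Tc Λ t i := by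
  rw [mem_VA] at h
  rcases h with ⟨t', _, j, h⟩ | ⟨t', _, j, h⟩
  · unfold dnp at h
    split_ifs at h with h1
    injection h with e1 e2
    subst e1; subst e2
    exact h1
  · exact Du.noConfusion h

/-! ### T-joins -/

/-- pattern of a toggling function of the sides -/
def tog (j : P2 → Fin 3 → ZMod 2) (t : P2) : ZMod 2 × ZMod 2 := (j t 0 + j t 2, j t 0 + j t 1)

/-- finitely supported, zero on the sides touching `Λ` -/
structure Adm (Λ : Finset P2) (j : P2 → Fin 3 → ZMod 2) : Prop where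
  fin : ∃ S : Finset P2, ∀ t, t ∉ S → j t = 0
  tc : ∀ t i, Tc Λ t i → j t i = 0

theorem Adm.add {Λ : Finset P2} {j k : P2 → Fin 3 → ZMod 2} (hj : Adm Λ j) (hk : Adm Λ k) :
    Adm Λ (j + k) := by
  obtain ⟨S, hS⟩ := hj.fin
  obtain ⟨S', hS'⟩ := hk.fin
  refine ⟨⟨S ∪ S', fun t ht => ?_⟩, fun t i h => ?_⟩
  · rw [Finset.mem_union, not_or] at ht
    rw [Pi.add_apply, hS t ht.1, hS' t ht.2, add_zero]
  · rw [Pi.add_apply, Pi.add_apply, hj.tc t i h, hk.tc t i h, add_zero]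

theorem adm_zero (Λ : Finset P2) : Adm Λ 0 := ⟨⟨∅, fun _ _ => rfl⟩, fun _ _ _ => rfl⟩

theorem defect_add (q q' : P2 → ZMod 2 × ZMod 2) (v : P2) :
    defect (q + q') v = defect q v + defect q' v := by
  unfold defect
  simp only [Pi.add_apply, Prod.fst_add, Prod.snd_add]
  ring

theorem tog_add (j k : P2 → Fin 3 → ZMod 2) : tog (j + k) = tog j + tog k := by
  funext t
  unfold tog
  refine Prod.ext ?_ ?_
  · simp only [Pi.add_apply, Prod.fst_add]; ring
  · simp only [Pi.add_apply, Prod.snd_add]; ring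

/-- one side -/
def sgl (w : P2) (i : Fin 3) (t : P2) (k : Fin 3) : ZMod 2 := if t = w ∧ k = i then 1 else 0

/-- indicator of a site -/
def dl (u x : P2) : ZMod 2 := if x = u then 1 else 0

theorem sgl_eq (w : P2) (i : Fin 3) (t : P2) (k : Fin 3) :
    sgl w i t k = if k = i then dl w t else 0 := by
  unfold sgl dl
  by_cases h : k = i
  · simp only [h, and_true, if_true]
  · simp only [h, and_false, if_false]

theorem dl_e1 (w x : P2) : dl w (x.1 - 1, x.2) = dl (w.1 + 1, w.2) x := by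
  have e1 : ((x.1 - 1, x.2) = w) ↔ x = (w.1 + 1, w.2) := by
    rw [Prod.ext_iff, Prod.ext_iff]; simp only; omega
  unfold dl
  simp only [e1]

theorem dl_e2 (w x : P2) : dl w (x.1, x.2 - 1) = dl (w.1, w.2 + 1) x := by
  have e1 : ((x.1, x.2 - 1) = w) ↔ x = (w.1, w.2 + 1) := by
    rw [Prod.ext_iff, Prod.ext_iff]; simp only; omega
  unfold dl
  simp only [e1]

theorem defect_sgl (w : P2) {i k l : Fin 3} (h1 : i ≠ k) (h2 : i ≠ l) (h3 : k ≠ l) (x : P2) :
    defect (tog (sgl w i)) x = dl (cr w k) x + dl (cr w l) x := by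
  have n01 : ((0 : Fin 3) = 1) = False := by simp
  have n02 : ((0 : Fin 3) = 2) = False := by simp
  have n10 : ((1 : Fin 3) = 0) = False := by simp
  have n12 : ((1 : Fin 3) = 2) = False := by simp
  have n20 : ((2 : Fin 3) = 0) = False := by simp
  have n21 : ((2 : Fin 3) = 1) = False := by simp
  fin_cases i <;> fin_cases k <;> fin_cases l <;>
    first
    | exact absurd rfl h1
    | exact absurd rfl h2
    | exact absurd rfl h3
    | (simp only [defect, tog, sgl_eq, dl_e1, dl_e2, Fin.zero_eta, Fin.mk_one, Fin.reduceFinMk, cr0, cr1,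
        cr2, if_false, if_true, add_zero, zero_add, n01, n02, n10, n12, n20, n21] <;>
       (generalize dl w x = A
        generalize dl (w.1 + 1, w.2) x = B
        generalize dl (w.1, w.2 + 1) x = C
        revert A B C
        decide))

theorem adj_cr {u v : P2} (h : Adj u v) : ∃ w i k l, i ≠ k ∧ i ≠ l ∧ k ≠ l ∧ u = cr w k ∧ v = cr w l := by
  obtain ⟨w, h | h | h | h | h | h⟩ := adj_up h
  · exact ⟨w, 2, 0, 1, by decide, by decide, by decide, h.1, h.2⟩
  · exact ⟨w, 2, 1, 0, by decide, by decide, by decide, h.2, h.1⟩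
  · exact ⟨w, 1, 0, 2, by decide, by decide, by decide, h.1, h.2⟩
  · exact ⟨w, 1, 2, 0, by decide, by decide, by decide, h.2, h.1⟩
  · exact ⟨w, 0, 1, 2, by decide, by decide, by decide, h.1, h.2⟩
  · exact ⟨w, 0, 2, 1, by decide, by decide, by decide, h.2, h.1⟩

theorem edge_adm {Λ : Finset P2} {u v : P2} (h : Adj u v) (hu : u ∉ Λ) (hv : v ∉ Λ) :
    ∃ j, Adm Λ j ∧ ∀ x, defect (tog j) x = dl u x + dl v x := by
  obtain ⟨w, i, k, l, h1, h2, h3, rfl, rfl⟩ := adj_cr h
  refine ⟨sgl w i, ⟨⟨{w}, fun t ht => ?_⟩, fun t m hm => ?_⟩, defect_sgl w h1 h2 h3⟩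
  · funext m
    unfold sgl
    rw [if_neg fun h => ht (Finset.mem_singleton.2 h.1)]
    rfl
  · unfold sgl
    rw [if_neg]
    rintro ⟨rfl, rfl⟩
    obtain ⟨n, hn, hn'⟩ := hm
    have key : ∀ i k l n : Fin 3, i ≠ k → i ≠ l → k ≠ l → n ≠ i → n = k ∨ n = l := by decide
    rcases key m k l n h1 h2 h3 hn with rfl | rfl
    · exact hu hn'
    · exact hv hn'

theorem dl_add_self (u x : P2) : dl u x + dl u x = 0 := by
  generalize dl u x = a
  revert a
  decide

theorem path_adm {Λ : Finset P2} {u v : P2}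
    (h : Relation.ReflTransGen (StepIn ((Λ : Set P2)ᶜ)) u v) :
    ∃ j, Adm Λ j ∧ ∀ x, defect (tog j) x = dl u x + dl v x := by
  induction h with
  | refl =>
    refine ⟨0, adm_zero Λ, fun x => ?_⟩
    rw [dl_add_self]
    simp [defect, tog]
  | @tail b c _ h2 ih =>
    obtain ⟨j, hj, hj'⟩ := ih
    obtain ⟨k, hk, hk'⟩ := edge_adm h2.2.2 (by simpa using h2.1) (by simpa using h2.2.1)
    refine ⟨j + k, hj.add hk, fun x => ?_⟩
    rw [tog_add, defect_add, hj', hk']
    have := dl_add_self b x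
    generalize dl u x = A at *
    generalize dl b x = B at *
    generalize dl c x = C at *
    revert A B C
    decide

theorem join_adm {Λ : Finset P2} (hΛ : IsConn ((Λ : Set P2)ᶜ)) {v0 : P2} (hv0 : v0 ∉ Λ) (S : Finset P2)
    (hS : ∀ v ∈ S, v ∉ Λ) :
    ∃ j, Adm Λ j ∧ ∀ x, defect (tog j) x = (if x ∈ S then 1 else 0) + (S.card : ZMod 2) * dl v0 x := by
  classical
  induction S using Finset.induction_on with
  | empty =>
    refine ⟨0, adm_zero Λ, fun x => ?_⟩
    simp [defect, tog]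
  | insert a S ha ih =>
    obtain ⟨j, hj, hj'⟩ := ih fun v hv => hS v (Finset.mem_insert_of_mem hv)
    obtain ⟨k, hk, hk'⟩ := path_adm (hΛ a (by simpa using hS a (Finset.mem_insert_self _ _)) v0
      (by simpa using hv0))
    refine ⟨j + k, hj.add hk, fun x => ?_⟩
    rw [tog_add, defect_add, hj', hk', Finset.card_insert_of_notMem ha]
    push_cast
    have e : (if x ∈ insert a S then (1 : ZMod 2) else 0) = (if x ∈ S then 1 else 0) + dl a x := by
      unfold dl
      by_cases h1 : x = a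
      · subst h1
        rw [if_pos (Finset.mem_insert_self _ _), if_neg ha, if_pos rfl, zero_add]
      · by_cases h2 : x ∈ S
        · rw [if_pos (Finset.mem_insert_of_mem h2), if_pos h2, if_neg h1, add_zero]
        · rw [if_neg (fun h => (Finset.mem_insert.1 h).elim h1 h2), if_neg h2, if_neg h1, add_zero]
    rw [e]
    ring

/-! ### exactness -/

theorem exists_notMem_sub (Λ : Finset P2) : ∃ v, v ∉ Λ := Infinite.exists_notMem_finset Λ

theorem defect_sum {F : Finset P2} {q : P2 → ZMod 2 × ZMod 2} (hq : ∀ t, t ∉ F → q t = 0) :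
    ∑ v ∈ VF F, defect q v = 0 := by
  have h := pr_eq F q hq (fun _ => 1)
  simp only [mul_one] at h
  rw [← h]
  unfold Zk349.pr
  refine Finset.sum_eq_zero fun t _ => ?_
  have e : (1 : ZMod 2) + 1 = 0 := by decide
  rw [e]
  ring

/-- **Exactness with wired boundary.** -/
theorem exact0 {Λ : Finset P2} (hΛ : IsConn ((Λ : Set P2)ᶜ)) (q : P2 → ZMod 2 × ZMod 2)
    (hS : ∀ t, t ∉ upT Λ → q t = 0) (hq : ∀ v ∈ Λ, defect q v = 0) :
    ∃ σ : Du → ZMod 2, ∀ t, dQ (dnp Λ t) σ = q t := by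
  classical
  obtain ⟨v0, hv0⟩ := exists_notMem_sub Λ
  set S : Finset P2 := (VF (upT Λ)).filter fun v => defect q v = 1 with hSd
  have hSm : ∀ x, x ∈ S ↔ defect q x = 1 := by
    intro x
    rw [hSd, Finset.mem_filter, and_iff_right_iff_imp]
    intro h
    by_contra h1
    rw [mem_VF'] at h1
    push Not at h1
    have : defect q x = 0 := by
      unfold defect
      rw [hS _ h1.1, hS _ h1.2.1, hS _ h1.2.2]
      simp
    rw [this] at h
    exact absurd h (by decide)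
  have hSΛ : ∀ v ∈ S, v ∉ Λ := by
    intro v hv h
    rw [hSm, hq v h] at hv
    exact absurd hv (by decide)
  have hcard : (S.card : ZMod 2) = 0 := by
    rw [← defect_sum hS, Finset.card_eq_sum_ones, Nat.cast_sum, hSd, Finset.sum_filter]
    refine Finset.sum_congr rfl fun v _ => ?_
    rcases z2_cases (defect q v) with h | h
    · rw [h, if_neg (by decide)]
    · rw [h, if_pos rfl]; rfl
  obtain ⟨j, hj, hj'⟩ := join_adm hΛ hv0 S hSΛ
  obtain ⟨S', hS'⟩ := hj.fin
  obtain ⟨σ1, h1, _⟩ := poin (q + tog j) (upT Λ ∪ S') (fun t ht => by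
    rw [Finset.mem_union, not_or] at ht
    rw [Pi.add_apply, hS t ht.1]
    unfold tog
    rw [hS' t ht.2]
    rfl) (fun v => by
    rw [defect_add, hj', hcard, zero_mul, add_zero]
    by_cases hv : v ∈ S
    · rw [if_pos hv, (hSm v).1 hv]; decide
    · rw [if_neg hv, add_zero]
      rcases z2_cases (defect q v) with h | h
      · exact h
      · exact absurd ((hSm v).2 h) hv)
  refine ⟨fun a => match a with
    | Du.f w => σ1 w
    | Du.p t i => σ1 (dn t i) + j t i
    | Du.r => 0, fun t => ?_⟩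
  set σ : Du → ZMod 2 := fun a => match a with
    | Du.f w => σ1 w
    | Du.p t i => σ1 (dn t i) + j t i
    | Du.r => 0 with hσ
  have key : ∀ i, σ (dnp Λ t i) = σ1 (dn t i) + j t i := by
    intro i
    unfold dnp
    by_cases h : Tc Λ t i
    · rw [if_pos h, hj.tc t i h, add_zero]
    · rw [if_neg h]
  have h2 := h1 t
  rw [Pi.add_apply] at h2
  have h3 : dQ (dnp Λ t) σ = dq σ1 t + tog j t := by
    unfold dQ dq tog
    rw [key, key, key]
    refine Prod.ext ?_ ?_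
    · simp only [Prod.fst_add]; ring
    · simp only [Prod.snd_add]; ring
  rw [h3, h2, add_assoc, pp_add_self, add_zero]

/-- patterns of dual spin functions are orthogonal to spin functions supported in `Λ` -/
theorem orth0 {Λ : Finset P2} (σ : Du → ZMod 2) {s : P2 → ZMod 2} (hs : ∀ v, v ∉ Λ → s v = 0) :
    Zk349.pr (fun t : ↥(upT Λ) => cr (t : P2)) (fun t => dQ (dnp Λ (t : P2)) σ) s = 0 := by
  classical
  set σ' : P2 → ZMod 2 := fun w => σ (Du.f w) with hσ'
  let q : P2 → ZMod 2 × ZMod 2 := fun t => if t ∈ upT Λ then dq σ' t else 0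
  have h1 : Zk349.pr (fun t : ↥(upT Λ) => cr (t : P2)) (fun t => dQ (dnp Λ (t : P2)) σ) s =
      Zk349.pr (fun t : ↥(upT Λ) => cr (t : P2)) (fun t => q t) s := by
    unfold Zk349.pr
    refine Finset.sum_congr rfl fun t _ => ?_
    have e0 : q t = dq σ' (t : P2) := if_pos t.2
    show (dQ (dnp Λ (t : P2)) σ).1 * (s (cr t 0) + s (cr t 1)) +
      (dQ (dnp Λ (t : P2)) σ).2 * (s (cr t 0) + s (cr t 2)) =
      (q t).1 * (s (cr t 0) + s (cr t 1)) + (q t).2 * (s (cr t 0) + s (cr t 2))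
    rw [e0]
    -- contribution of the side `i`
    have key : ∀ i k l : Fin 3, i ≠ k → i ≠ l →
        σ (dnp Λ (t : P2) i) * (s (cr t k) + s (cr t l)) =
          σ' (dn (t : P2) i) * (s (cr t k) + s (cr t l)) := by
      intro i k l hk hl
      unfold dnp
      by_cases h : Tc Λ (t : P2) i
      · rw [if_pos h]
      · have a1 : s (cr t k) = 0 := hs _ fun h' => h ⟨k, hk.symm, h'⟩
        have a2 : s (cr t l) = 0 := hs _ fun h' => h ⟨l, hl.symm, h'⟩
        rw [a1, a2]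
        ring
    have k0 := key 0 1 2 (by decide) (by decide)
    have k1 := key 1 0 2 (by decide) (by decide)
    have k2 := key 2 0 1 (by decide) (by decide)
    unfold dQ dq
    simp only
    generalize σ (dnp Λ (t : P2) 0) = a0 at *
    generalize σ (dnp Λ (t : P2) 1) = a1 at *
    generalize σ (dnp Λ (t : P2) 2) = a2 at *
    generalize σ' (dn (t : P2) 0) = b0 at *
    generalize σ' (dn (t : P2) 1) = b1 at *
    generalize σ' (dn (t : P2) 2) = b2 at *
    generalize s (cr (t : P2) 0) = c0 at *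
    generalize s (cr (t : P2) 1) = c1 at *
    generalize s (cr (t : P2) 2) = c2 at *
    revert a0 a1 a2 b0 b1 b2 c0 c1 c2
    decide
  rw [h1, pr_eq (upT Λ) q (fun t ht => if_neg ht) s]
  refine Finset.sum_eq_zero fun v _ => ?_
  by_cases hv : v ∈ Λ
  · have e : defect q v = defect (dq σ') v := by
      have a : ∀ t, v ∈ up t → q t = dq σ' t := fun t ht => if_pos (mem_upT_iff.2 ⟨v, hv, ht⟩)
      unfold defect
      rw [a v (mem_up'.2 (Or.inl rfl)), a (v.1 - 1, v.2) (mem_up'.2 (Or.inr (Or.inl rfl))),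
        a (v.1, v.2 - 1) (mem_up'.2 (Or.inr (Or.inr rfl)))]
    rw [e, defect_dq, zero_mul]
  · rw [hs v hv, mul_zero]

/-! ### duality -/

open Classical in
/-- number of constant dual spin functions -/
def kr (Λ : Finset P2) : ℝ :=
  (((fsg (VA Λ)).filter fun σ => ∀ t : ↥(upT Λ), M3 (dnp Λ (t : P2)) σ).card : ℝ)

theorem kr_pos (Λ : Finset P2) : 0 < kr Λ := by
  classical
  unfold kr
  rw [Nat.cast_pos, Finset.card_pos]
  exact ⟨0, Finset.mem_filter.2 ⟨zero_mem_fsg _, fun t => ⟨rfl, rfl⟩⟩⟩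

/-- **Duality with wired boundary.** -/
theorem kw0 {Λ : Finset P2} (hΛ : IsConn ((Λ : Set P2)ᶜ)) (A B : P2 → ℝ) :
    ∑ S ∈ Λ.powerset, ∏ t ∈ upT Λ, (if M3 (cr t) (ch S) then A t + 3 * B t else A t - B t) =
      2 ^ Λ.card / kr Λ *
        ∑ σ ∈ fsg (VA Λ), ∏ t ∈ upT Λ, (if M3 (dnp Λ t) σ then A t else B t) := by
  classical
  have h := tri_kw (U := ↥(upT Λ)) (fun t => cr (t : P2)) (fun t => dnp Λ (t : P2)) (fs Λ)
    (fsg (VA Λ)) (zero_mem_fs _) (zero_mem_fsg _) (add_mem_fs _) (add_mem_fsg _) ?_ ?_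
    (fun t => A t) (fun t => B t)
  · rw [sum_fs, card_fs] at h
    have c1 : ∀ (G : P2 → ℝ), ∏ t : ↥(upT Λ), G (t : P2) = ∏ t ∈ upT Λ, G t := fun G =>
      Finset.prod_coe_sort (upT Λ) G
    have e1 : ∀ S : Finset P2,
        ∏ t : ↥(upT Λ), (if M3 (cr (t : P2)) (ch S) then A t + 3 * B t else A t - B t) =
        ∏ t ∈ upT Λ, (if M3 (cr t) (ch S) then A t + 3 * B t else A t - B t) := fun S =>
      c1 fun t => if M3 (cr t) (ch S) then A t + 3 * B t else A t - B t
    have e2 : ∀ σ : Du → ZMod 2,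
        ∏ t : ↥(upT Λ), (if M3 (dnp Λ (t : P2)) σ then A t else B t) =
        ∏ t ∈ upT Λ, (if M3 (dnp Λ t) σ then A t else B t) := fun σ =>
      c1 fun t => if M3 (dnp Λ t) σ then A t else B t
    rw [Finset.sum_congr rfl fun S _ => e1 S, Finset.sum_congr rfl fun σ _ => e2 σ] at h
    rw [h]
    unfold kr
    push_cast
    congr!
  · -- exactness
    intro H hH
    let q : P2 → ZMod 2 × ZMod 2 := fun t => if h : t ∈ upT Λ then H ⟨t, h⟩ else 0
    have hq0 : ∀ t, t ∉ upT Λ → q t = 0 := fun t ht => dif_neg ht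
    have hqH : ∀ t : ↥(upT Λ), q t = H t := fun t => dif_pos t.2
    have hpr : ∀ s, Zk349.pr (fun t : ↥(upT Λ) => cr (t : P2)) H s = ∑ v ∈ VF (upT Λ), defect q v * s v := by
      intro s
      rw [← pr_eq (upT Λ) q hq0 s]
      unfold Zk349.pr
      refine Finset.sum_congr rfl fun t _ => ?_
      simp only [hqH]
    obtain ⟨σ, h1⟩ := exact0 hΛ q hq0 fun v hvΛ => by
      have hv : v ∈ VF (upT Λ) :=
        mem_VF.2 ⟨v, mem_upT_iff.2 ⟨v, hvΛ, base_mem_up v⟩, base_mem_up v⟩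
      have h3 := hH (ch {v}) (mem_fs.2 fun u hu => by
        unfold ch
        rw [if_neg]
        rw [Finset.mem_singleton]
        rintro rfl
        exact hu hvΛ)
      rw [hpr, Finset.sum_eq_single v] at h3
      · simpa [ch] using h3
      · intro u _ hu
        unfold ch
        rw [if_neg (by simpa using hu), mul_zero]
      · intro h
        exact absurd hv h
    refine ⟨fun a => if a ∈ VA Λ then σ a else 0, mem_fsg.2 fun a ha => if_neg ha, fun t => ?_⟩
    rw [← hqH t, ← h1]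
    unfold dQ
    simp only
    rw [if_pos (dnp_mem t.2 0), if_pos (dnp_mem t.2 1), if_pos (dnp_mem t.2 2)]
  · intro σ _ s hs
    exact orth0 σ (mem_fs.1 hs)

/-- the normalising constant -/
def ck (Λ : Finset P2) : ℝ := 2 ^ Λ.card / kr Λ

theorem ck_pos (Λ : Finset P2) : 0 < ck Λ := div_pos (by positivity) (kr_pos Λ)

/-- **Counting** the sign functions supported in `Λ`, constant on the triangles of `upT Λ \ Z`. -/
theorem count0 {Λ : Finset P2} (hΛ : IsConn ((Λ : Set P2)ᶜ)) {Z : Finset P2} (hZ : Z ⊆ upT Λ) :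
    ∑ S ∈ Λ.powerset, ∏ t ∈ upT Λ \ Z, (if M3 (cr t) (ch S) then (1 : ℝ) else 0) =
      ck Λ / 4 ^ (upT Λ \ Z).card *
        ∑ σ ∈ fsg (VA Λ), ∏ t ∈ Z, (if M3 (dnp Λ t) σ then (1 : ℝ) else 0) := by
  have h := kw0 hΛ (fun t => if t ∈ Z then 1 else 1 / 4) (fun t => if t ∈ Z then 0 else 1 / 4)
  set K := upT Λ with hK
  have e1 : ∀ S : Finset P2, ∏ t ∈ K, (if M3 (cr t) (ch S) then
      (if t ∈ Z then (1 : ℝ) else 1 / 4) + 3 * (if t ∈ Z then (0 : ℝ) else 1 / 4) else
      (if t ∈ Z then (1 : ℝ) else 1 / 4) - (if t ∈ Z then (0 : ℝ) else 1 / 4)) =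
      ∏ t ∈ K \ Z, (if M3 (cr t) (ch S) then (1 : ℝ) else 0) := by
    intro S
    rw [← Finset.prod_inter_mul_prod_sdiff K Z]
    have h1 : ∏ t ∈ K ∩ Z, (if M3 (cr t) (ch S) then
      (if t ∈ Z then (1 : ℝ) else 1 / 4) + 3 * (if t ∈ Z then (0 : ℝ) else 1 / 4) else
      (if t ∈ Z then (1 : ℝ) else 1 / 4) - (if t ∈ Z then (0 : ℝ) else 1 / 4)) = 1 := by
      refine Finset.prod_eq_one fun t ht => ?_
      rw [if_pos (Finset.mem_inter.1 ht).2, if_pos (Finset.mem_inter.1 ht).2]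
      split_ifs <;> norm_num
    rw [h1, one_mul]
    refine Finset.prod_congr rfl fun t ht => ?_
    rw [if_neg (Finset.mem_sdiff.1 ht).2, if_neg (Finset.mem_sdiff.1 ht).2]
    split_ifs <;> norm_num
  have e2 : ∀ σ : Du → ZMod 2, ∏ t ∈ K, (if M3 (dnp Λ t) σ then
      (if t ∈ Z then (1 : ℝ) else 1 / 4) else (if t ∈ Z then (0 : ℝ) else 1 / 4)) =
      (1 / 4) ^ (K \ Z).card * ∏ t ∈ Z, (if M3 (dnp Λ t) σ then (1 : ℝ) else 0) := by
    intro B
    rw [← Finset.prod_inter_mul_prod_sdiff K Z, Finset.inter_eq_right.2 hZ, mul_comm]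
    congr 1
    · rw [← Finset.prod_const]
      refine Finset.prod_congr rfl fun t ht => ?_
      rw [if_neg (Finset.mem_sdiff.1 ht).2, if_neg (Finset.mem_sdiff.1 ht).2]
      split_ifs <;> rfl
    · refine Finset.prod_congr rfl fun t ht => ?_
      rw [if_pos ht, if_pos ht]
  rw [Finset.sum_congr rfl fun S _ => e1 S, Finset.sum_congr rfl fun B _ => e2 B,
    ← Finset.mul_sum] at h
  rw [h]
  unfold ck
  have h4 : ((1 : ℝ) / 4) ^ (K \ Z).card = 1 / 4 ^ (K \ Z).card := by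
    rw [div_pow, one_pow]
  rw [h4]
  ring

end Crest.Agent.R144.Zo349
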